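import Mathlib

/-!
# Row 281 (S0424), task 2023 (helper355): strong maximum principle, geometric and analytic parts
-/

set_option autoImplicit false

open Set Filter Topology Metric
open scoped ContDiff MatrixOrder

namespace Crest.Agent.R281.YVSMax_355

section geometry

variable {E : Type*} [NormedAddCommGroup E] [InnerProductSpace ℝ E] [ProperSpace E]


end geometry

section analysis

/-- second derivative at a local maximum, one variable -/
theorem deriv_deriv_nonpos {g : ℝ → ℝ} (hc : ContinuousAt g 0) (h : IsLocalMax g 0) :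
    deriv (deriv g) 0 ≤ 0 := by
  by_contra hcon
  push Not at hcon
  have hmin := isLocalMin_of_deriv_deriv_pos hcon h.deriv_eq_zero hc
  have heq : g =ᶠ[𝓝 0] fun _ => g 0 := by
    filter_upwards [h, hmin] with t h1 h2
    exact le_antisymm h1 h2
  have h2 : deriv g =ᶠ[𝓝 0] fun _ => (0 : ℝ) := by
    have := heq.deriv
    simpa using this
  rw [h2.deriv_eq] at hcon
  simp at hcon

variable {V : Type*} [NormedAddCommGroup V] [NormedSpace ℝ V]

/-- second derivative at a local maximum -/
theorem hess_nonpos {u : V → ℝ} {x : V} (hu : ContDiffAt ℝ 2 u x) (h : IsLocalMax u x) (v : V) :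
    fderiv ℝ (fderiv ℝ u) x v v ≤ 0 := by
  have hev : ∀ᶠ z in 𝓝 x, DifferentiableAt ℝ u z := by
    have := hu.eventually (by simp)
    filter_upwards [this] with z hz
    exact hz.differentiableAt (by norm_num)
  have hline : Tendsto (fun t : ℝ => x + t • v) (𝓝 0) (𝓝 x) := by
    have : Continuous fun t : ℝ => x + t • v := by fun_prop
    have h0 := this.tendsto 0
    simpa using h0
  set g : ℝ → ℝ := fun t => u (x + t • v) with hg
  have hlin : ∀ t : ℝ, HasDerivAt (fun t : ℝ => x + t • v) v t := by
    intro t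
    have := ((hasDerivAt_id t).smul_const v).const_add x
    simpa using this
  have hd1 : deriv g =ᶠ[𝓝 0] fun t => fderiv ℝ u (x + t • v) v := by
    filter_upwards [hline.eventually hev] with t ht
    exact (ht.hasFDerivAt.comp_hasDerivAt t (hlin t)).deriv
  have hd2 : deriv (deriv g) 0 = fderiv ℝ (fderiv ℝ u) x v v := by
    rw [hd1.deriv_eq]
    have hD : DifferentiableAt ℝ (fderiv ℝ u) x :=
      (hu.fderiv_right (m := 1) (by norm_num)).differentiableAt (by norm_num)
    have hD' : HasFDerivAt (fderiv ℝ u) (fderiv ℝ (fderiv ℝ u) x) (x + (0 : ℝ) • v) := by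
      simpa using hD.hasFDerivAt
    have h1 := hD'.comp_hasDerivAt (0 : ℝ) (hlin 0)
    have h2 := h1.clm_apply (hasDerivAt_const (0 : ℝ) v)
    have h3 := h2.deriv
    simpa using h3
  rw [← hd2]
  refine deriv_deriv_nonpos ?_ ?_
  · have : ContinuousAt u (x + (0 : ℝ) • v) := by simpa using hu.continuousAt
    exact ContinuousAt.comp (f := fun t : ℝ => x + t • v) this (by fun_prop)
  · have := hline.eventually h
    filter_upwards [this] with t ht
    simpa [hg] using ht

/-- the trace of a positive matrix against a form that is nonpositive on the diagonal -/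
theorem trace_nonpos {n : ℕ} {a : Matrix (Fin n) (Fin n) ℝ} (ha : a.PosSemidef)
    (e : Fin n → V) (B : V →L[ℝ] V →L[ℝ] ℝ) (hB : ∀ v, B v v ≤ 0) :
    ∑ k, ∑ l, a k l * B (e k) (e l) ≤ 0 := by
  classical
  obtain ⟨C, hC⟩ := CStarAlgebra.nonneg_iff_eq_star_mul_self.mp ha.nonneg
  have : ∑ k, ∑ l, a k l * B (e k) (e l)
      = ∑ i, B (∑ k, C i k • e k) (∑ l, C i l • e l) := by
    have h1 : ∀ i, B (∑ k, C i k • e k) (∑ l, C i l • e l)
        = ∑ k, ∑ l, C i k * C i l * B (e k) (e l) := by
      intro i
      simp only [map_sum, map_smul, sum_apply, smul_apply,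
        smul_eq_mul, Finset.mul_sum, mul_assoc]
      rw [Finset.sum_comm]
      refine Finset.sum_congr rfl fun k _ => Finset.sum_congr rfl fun l _ => ?_
      ring
    have h2 : ∀ k l, a k l * B (e k) (e l) = ∑ i, C i k * C i l * B (e k) (e l) := by
      intro k l
      rw [hC, Matrix.mul_apply, Finset.sum_mul]
      refine Finset.sum_congr rfl fun i _ => ?_
      simp [Matrix.star_apply]
    simp only [h1, h2]
    rw [Finset.sum_comm (s := Finset.univ (α := Fin n)) (t := Finset.univ (α := Fin n))
      (f := fun i k => ∑ l, C i k * C i l * B (e k) (e l))]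
    exact Finset.sum_congr rfl fun k _ => Finset.sum_comm
  rw [this]
  exact Finset.sum_nonpos fun i _ => hB _


/-- the operator -/
noncomputable def Lop {n : ℕ} (e : Fin n → V) (a : Matrix (Fin n) (Fin n) ℝ) (b : Fin n → ℝ)
    (u : V → ℝ) (z : V) : ℝ :=
  ∑ k, ∑ l, a k l * fderiv ℝ (fderiv ℝ u) z (e k) (e l) + ∑ k, b k * fderiv ℝ u z (e k)


end analysis

end Crest.Agent.R281.YVSMax_355
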