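import Crest.Agent.R281.Kp0_487
import Crest.Agent.R273.YauClose_635
import Crest.Agent.R273.YauPf_635
import Crest.Agent.R273.YauOpA_635
import Crest.Agent.R273.YauOpen_635
import Crest.Agent.R273.C0f_793
import Crest.Agent.R273.YauLin_635
import Crest.Agent.R273.CLinE_933
import Crest.Agent.R273.C2f_793
import Crest.Agent.R273.YauC3_812
import Crest.Agent.R281.KpE_487
import Crest.Agent.R273.Fam_835

-- ▼ part R281/Kp1_487
section

/-!
# R281 (S0424), Yau for general Kaehler forms (helper487): maximum principle part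
(compare `R273.YauMax_635`)
-/

set_option autoImplicit false
set_option linter.unusedSectionVars false

open Set Filter Topology Complex
open scoped ContDiff Matrix ComplexConjugate ComplexOrder MatrixOrder

namespace Crest.Agent.R281.Kp_487

open Crest.Agent.R273

open Crest.Agent.R275.Geo Crest.Agent.R275.Core144 Crest.Agent.R275.GC293
open Crest.Agent.R275.OmT75 Crest.Agent.R275.EDR890
open Crest.Agent.R273.Defs_333 Crest.Agent.R273.YauDefs_635 Crest.Agent.R273.HM_333
open Crest.Agent.R273.YauCh_635 Crest.Agent.R273.Hess_333 Crest.Agent.R273.HessB_333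
open Crest.Agent.R273.Kah_333
open Crest.Agent.R273.YauMax_635

noncomputable section

variable {n : ℕ} {M : Type} [TopologicalSpace M] {A : Atl n M}

theorem pot_contDiffAt (H : KP A) {φ : M → ℝ} (hφ : A.Sm φ) (i : A.ι) {z : Cn n}
    (hz : z ∈ (A.e i).target) : ContDiffAt ℝ ∞ (pot H φ i) z :=
  (wt_contDiffAt H i hz).add (inC_contDiffAt hφ i hz)

theorem hess_pot (H : KP A) {φ : M → ℝ} (hφ : A.Sm φ) (i : A.ι) {z : Cn n}
    (hz : z ∈ (A.e i).target) : hess (pot H φ i) z = hess (H.wt i) z + hess (inC A i φ) z :=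
  hess_add (wt_contDiffAt H i hz) (inC_contDiffAt hφ i hz)

theorem exp_ge_one_of {H : KP A} (hH : H.Pos) {i : A.ι} {z : Cn n} (hz : z ∈ (A.e i).target)
    {P : Matrix (Fin n) (Fin n) ℂ} (hP : P.PosSemidef) {t : ℝ}
    (h : (hess (H.wt i) z + P).det = (Real.exp t : ℂ) * (hess (H.wt i) z).det) : 0 ≤ t := by
  have hpd : (hess (H.wt i) z).PosDef := posDef_hess (wt_contDiffAt H i hz) (hH i z hz)
  have h1 := det_le_det_add hpd hP
  rw [h] at h1
  have h2 := hpd.det_pos
  have h3 : (hess (H.wt i) z).det = (((hess (H.wt i) z).det.re : ℝ) : ℂ) := by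
    have := (Complex.pos_iff.1 h2).2
    apply Complex.ext <;> simp [this]
  rw [h3] at h1 h2
  rw [← Complex.ofReal_mul] at h1
  have h4 : (hess (H.wt i) z).det.re ≤ Real.exp t * (hess (H.wt i) z).det.re := by
    exact_mod_cast h1
  have h5 : 0 < (hess (H.wt i) z).det.re := by exact_mod_cast h2
  have h6 : 1 ≤ Real.exp t := by
    by_contra hc
    push Not at hc
    nlinarith
  exact Real.one_le_exp_iff.1 h6

theorem f_nonneg_of_min {H : KP A} (hH : H.Pos) {φ f : M → ℝ} (hφ : A.Sm φ)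
    (hMA : MA H φ f) {x : M} (hm : IsLocalMin φ x) : 0 ≤ f x := by
  obtain ⟨i, hi⟩ := A.cover x
  have hz := (A.e i).map_source hi
  have h1 := hMA i _ hz
  rw [cH_eq_hess (pot_contDiffAt H hφ i hz), cH_eq_hess (wt_contDiffAt H i hz),
    hess_pot H hφ i hz] at h1
  have h2 : (hess (inC A i φ) (A.e i x)).PosSemidef :=
    posSemidef_hess (inC_contDiffAt hφ i hz)
      (lev_nonneg_of_localMin (inC_c2 hφ i hz) (inC_localMin hm hi))
  have h3 := exp_ge_one_of hH hz h2 h1
  simpa [inC, (A.e i).left_inv hi] using h3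

theorem exp_le_one_of {H : KP A} {φ : M → ℝ} (hφ : A.Sm φ) (hK : KPos H φ) (hH : H.Pos)
    {i : A.ι} {z : Cn n} (hz : z ∈ (A.e i).target)
    (hP : (- hess (inC A i φ) z).PosSemidef) {t : ℝ}
    (h : (hess (pot H φ i) z).det = (Real.exp t : ℂ) * (hess (H.wt i) z).det) : t ≤ 0 := by
  have hpd : (hess (H.wt i) z).PosDef := posDef_hess (wt_contDiffAt H i hz) (hH i z hz)
  have hpd' : (hess (pot H φ i) z).PosDef := posDef_hess (pot_contDiffAt H hφ i hz) (hK i z hz)
  have h1 := det_le_det_add hpd' hP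
  have e1 : hess (pot H φ i) z + - hess (inC A i φ) z = hess (H.wt i) z := by
    rw [hess_pot H hφ i hz]
    abel
  rw [e1, h] at h1
  have h2 := hpd.det_pos
  have h3 : (hess (H.wt i) z).det = (((hess (H.wt i) z).det.re : ℝ) : ℂ) := by
    have := (Complex.pos_iff.1 h2).2
    apply Complex.ext <;> simp [this]
  rw [h3] at h1 h2
  rw [← Complex.ofReal_mul] at h1
  have h4 : Real.exp t * (hess (H.wt i) z).det.re ≤ (hess (H.wt i) z).det.re := by
    exact_mod_cast h1
  have h5 : 0 < (hess (H.wt i) z).det.re := by exact_mod_cast h2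
  have h6 : Real.exp t ≤ 1 := by
    by_contra hc
    push Not at hc
    nlinarith
  exact Real.exp_le_one_iff.1 h6

theorem f_nonpos_of_max {H : KP A} (hH : H.Pos) {φ f : M → ℝ} (hφ : A.Sm φ) (hK : KPos H φ)
    (hMA : MA H φ f) {x : M} (hm : IsLocalMax φ x) : f x ≤ 0 := by
  obtain ⟨i, hi⟩ := A.cover x
  have hz := (A.e i).map_source hi
  have h1 := hMA i _ hz
  rw [cH_eq_hess (pot_contDiffAt H hφ i hz), cH_eq_hess (wt_contDiffAt H i hz)] at h1
  have hφ' : A.Sm (fun y => - φ y) := fun j => (hφ j).neg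
  have hm' : IsLocalMin (fun y => - φ y) x := hm.neg
  have h2 : (hess (inC A i fun y => - φ y) (A.e i x)).PosSemidef :=
    posSemidef_hess (inC_contDiffAt hφ' i hz)
      (lev_nonneg_of_localMin (inC_c2 hφ' i hz) (inC_localMin hm' hi))
  have h4 : hess (inC A i fun y => - φ y) (A.e i x) = - hess (inC A i φ) (A.e i x) :=
    hess_neg (inC_contDiffAt hφ i hz)
  rw [h4] at h2
  have h3 := exp_le_one_of hφ hK hH hz h2 h1
  simpa [inC, (A.e i).left_inv hi] using h3

/-- the constant of a solution is bounded -/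
theorem abs_c_le [CompactSpace M] [Nonempty M] {H : KP A} (hH : H.Pos) {F φ : M → ℝ} {t c K : ℝ}
    (hF : ∀ x, |F x| ≤ K) (ht0 : 0 ≤ t) (ht1 : t ≤ 1) (hs : Sol H F t φ c) : |c| ≤ K := by
  obtain ⟨hφ, hKp, hMA⟩ := hs
  have hc := continuous_of_sm hφ
  obtain ⟨x, -, hx⟩ := isCompact_univ.exists_isMinOn univ_nonempty hc.continuousOn
  obtain ⟨y, -, hy⟩ := isCompact_univ.exists_isMaxOn univ_nonempty hc.continuousOn
  have h1 : IsLocalMin φ x := hx.isLocalMin univ_mem
  have h2 : IsLocalMax φ y := hy.isLocalMax univ_mem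
  have h3 := f_nonneg_of_min hH hφ hMA h1
  have h4 := f_nonpos_of_max hH hφ hKp hMA h2
  have hK : 0 ≤ K := (abs_nonneg _).trans (hF x)
  have h5 : |t * F x| ≤ K := by
    rw [abs_mul, abs_of_nonneg ht0]
    calc t * |F x| ≤ 1 * K := mul_le_mul ht1 (hF x) (abs_nonneg _) zero_le_one
      _ = K := one_mul K
  have h6 : |t * F y| ≤ K := by
    rw [abs_mul, abs_of_nonneg ht0]
    calc t * |F y| ≤ 1 * K := mul_le_mul ht1 (hF y) (abs_nonneg _) zero_le_one
      _ = K := one_mul K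
  rw [abs_le]
  constructor
  · have := (abs_le.1 h5).2
    linarith
  · have := (abs_le.1 h6).1
    linarith

end

end Crest.Agent.R281.Kp_487
end

-- ▼ part R281/Kp2_487
section

/-!
# R281 (S0424), Yau for general Kaehler forms (helper487): closedness
(compare `R273.YauClose_635`)
-/

set_option autoImplicit false
set_option linter.unusedSectionVars false

open Set Filter Topology Complex Metric
open scoped ContDiff Matrix ComplexConjugate ComplexOrder

namespace Crest.Agent.R281.Kp_487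

open Crest.Agent.R273

open Crest.Agent.R275.Geo Crest.Agent.R275.Core144 Crest.Agent.R275.GC293
open Crest.Agent.R273.Defs_333 Crest.Agent.R273.YauDefs_635 Crest.Agent.R273.HM_333
open Crest.Agent.R273.YauCh_635 Crest.Agent.R273.Hess_333 Crest.Agent.R273.HessB_333
open Crest.Agent.R273.Kah_333 Crest.Agent.R273.YauMax_635 Crest.Agent.R273.YauLim_635
open Crest.Agent.R273.YauLoc_635
open Crest.Agent.R273.YauClose_635

noncomputable section

variable {n : ℕ} {M : Type} [TopologicalSpace M] {A : Atl n M}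

theorem pot_sub_const (H : KP A) (φ : M → ℝ) (d : ℝ) (i : A.ι) :
    pot H (fun x => φ x - d) i = fun z => pot H φ i z - d := by
  funext z
  simp only [pot, inC]
  ring

theorem sol_sub_const {H : KP A} {F φ : M → ℝ} {t c : ℝ} (h : Sol H F t φ c) (d : ℝ) :
    Sol H F t (fun x => φ x - d) c := by
  obtain ⟨h1, h2, h3⟩ := h
  refine ⟨fun i => (h1 i).sub contDiffOn_const, fun i z hz v hv => ?_, fun i z hz => ?_⟩
  · rw [pot_sub_const, lev_sub_const]
    exact h2 i z hz v hv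
  · rw [pot_sub_const, cH_sub_const]
    exact h3 i z hz

/-- `log det` of the background metric -/
def ldet (H : KP A) (i : A.ι) (z : Cn n) : ℝ := Real.log (cH (H.wt i) z).det.re

theorem det_wt_pos {H : KP A} (hH : H.Pos) {i : A.ι} {z : Cn n} (hz : z ∈ (A.e i).target) :
    0 < (cH (H.wt i) z).det := by
  rw [cH_eq_hess (wt_contDiffAt H i hz)]
  exact (posDef_hess (wt_contDiffAt H i hz) (hH i z hz)).det_pos

theorem exp_ldet {H : KP A} (hH : H.Pos) {i : A.ι} {z : Cn n} (hz : z ∈ (A.e i).target) :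
    (Real.exp (ldet H i z) : ℂ) = (cH (H.wt i) z).det := by
  have h1 := det_wt_pos hH hz
  have h2 := Complex.pos_iff.1 h1
  rw [ldet, Real.exp_log h2.1]
  apply Complex.ext
  · simp
  · simp [← h2.2]

theorem ldet_smooth {H : KP A} (hH : H.Pos) (i : A.ι) :
    ContDiffOn ℝ ∞ (ldet H i) (A.e i).target := by
  have h1 : ContDiffOn ℝ ∞ (fun z => (cH (H.wt i) z).det) (A.e i).target := by
    simp only [Matrix.det_apply']
    refine ContDiffOn.sum fun σ _ => contDiffOn_const.mul ?_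
    exact contDiffOn_prod fun a _ => contDiffOn_cH (A.e i).open_target (wt_smooth H i) _ _
  have h2 : ContDiffOn ℝ ∞ (fun z => (cH (H.wt i) z).det.re) (A.e i).target :=
    Complex.reCLM.contDiff.comp_contDiffOn h1
  exact h2.log fun z hz => (Complex.pos_iff.1 (det_wt_pos hH hz)).1.ne'

/-- local right hand side -/
def fh (H : KP A) (F : M → ℝ) (t c : ℝ) (i : A.ι) (z : Cn n) : ℝ :=
  t * inC A i F z + c + ldet H i z

theorem fh_smooth {H : KP A} (hH : H.Pos) {F : M → ℝ} (hF : A.Sm F) (t c : ℝ) (i : A.ι) :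
    ContDiffOn ℝ ∞ (fh H F t c i) (A.e i).target :=
  ((contDiffOn_const.mul (inC_smooth hF i)).add contDiffOn_const).add (ldet_smooth hH i)

theorem det_fh {H : KP A} (hH : H.Pos) {F φ : M → ℝ} {t c : ℝ}
    (h : MA H φ (fun x => t * F x + c)) {i : A.ι} {z : Cn n} (hz : z ∈ (A.e i).target) :
    (cH (pot H φ i) z).det = (Real.exp (fh H F t c i z) : ℂ) := by
  rw [h i z hz, ← exp_ldet hH hz, fh, Real.exp_add _ (ldet H i z)]
  simp [inC]

theorem fh_bound {H : KP A} (hH : H.Pos) {F : M → ℝ} (hF : A.Sm F) (i : A.ι) {K : Set (Cn n)}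
    (hK : IsCompact K) (hKt : K ⊆ (A.e i).target) :
    ∃ B : ℝ, ∀ t c : ℝ, |t| ≤ 1 → ∀ z ∈ K, ∀ j : ℕ, 1 ≤ j → j ≤ 3 →
      ‖iteratedFDeriv ℝ j (fh H F t c i) z‖ ≤ B := by
  have h1 : ∀ j : ℕ, ∃ B : ℝ, ∀ z ∈ K, ‖iteratedFDeriv ℝ j (inC A i F) z‖ ≤ B := fun j =>
    hK.exists_bound_of_continuousOn
      ((continuousOn_iter (A.e i).open_target (inC_smooth hF i) j).mono hKt)
  have h2 : ∀ j : ℕ, ∃ B : ℝ, ∀ z ∈ K, ‖iteratedFDeriv ℝ j (ldet H i) z‖ ≤ B := fun j =>
    hK.exists_bound_of_continuousOn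
      ((continuousOn_iter (A.e i).open_target (ldet_smooth hH i) j).mono hKt)
  choose B1 hB1 using h1
  choose B2 hB2 using h2
  refine ⟨∑ j ∈ Finset.range 4, (|B1 j| + |B2 j|), fun t c ht z hz j hj1 hj3 => ?_⟩
  have hzt := hKt hz
  have e1 : iteratedFDeriv ℝ j (fh H F t c i) z =
      t • iteratedFDeriv ℝ j (inC A i F) z + iteratedFDeriv ℝ j (ldet H i) z :=
    iter_affine (inC_contDiffAt hF i hzt)
      ((ldet_smooth hH i).contDiffAt ((A.e i).open_target.mem_nhds hzt)) t c hj1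
  rw [e1]
  calc _ ≤ ‖t • iteratedFDeriv ℝ j (inC A i F) z‖ + ‖iteratedFDeriv ℝ j (ldet H i) z‖ :=
        norm_add_le _ _
    _ ≤ |B1 j| + |B2 j| := by
        refine add_le_add ?_ ((hB2 j z hz).trans (le_abs_self _))
        rw [norm_smul, Real.norm_eq_abs]
        calc |t| * ‖iteratedFDeriv ℝ j (inC A i F) z‖ ≤ 1 * |B1 j| :=
              mul_le_mul ht ((hB1 j z hz).trans (le_abs_self _)) (norm_nonneg _) zero_le_one
          _ = |B1 j| := one_mul _
    _ ≤ _ := Finset.single_le_sum (f := fun j => |B1 j| + |B2 j|)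
        (fun j _ => add_nonneg (abs_nonneg _) (abs_nonneg _)) (Finset.mem_range.2 (by omega))

/-- **closedness** -/
theorem close_holds (h0 : C0Stmt) (h2 : C2Stmt) (h3 : C3Stmt) (hR : RegStmt) (hS : SchFlat) :
    CloseStmt := by
  intro n M _ _ _ _ A _ hP H hH F hF t T ht hT hsol
  choose φ c hφc using hsol
  obtain ⟨x₀⟩ : Nonempty M := inferInstance
  have hFc : Continuous F := continuous_of_sm hF
  obtain ⟨K0, hK0'⟩ := isCompact_univ.exists_bound_of_continuousOn hFc.continuousOn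
  have hK0 : ∀ x, |F x| ≤ K0 := fun x => hK0' x (mem_univ x)
  have hK00 : 0 ≤ K0 := (abs_nonneg _).trans (hK0 x₀)
  obtain ⟨K1, hK10, hK1⟩ := exists_lev_bound hH hF
  -- normalisation
  set ψ : ℕ → M → ℝ := fun k x => φ k x - φ k x₀ with hψdef
  have hψ : ∀ k, Sol H F (t k) (ψ k) (c k) := fun k => sol_sub_const (hφc k) _
  have hc : ∀ k, |c k| ≤ K0 := fun k => abs_c_le hH hK0 (ht k).1 (ht k).2 (hψ k)
  have htabs : ∀ k, |t k| ≤ 1 := fun k => by
    rw [abs_of_nonneg (ht k).1]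
    exact (ht k).2
  have hfsm : ∀ k, A.Sm (fun x => t k * F x + c k) := fun k i =>
    (contDiffOn_const.mul (hF i)).add contDiffOn_const
  have hfb : ∀ k x, |t k * F x + c k| ≤ 2 * K0 := by
    intro k x
    have h1 : |t k * F x| ≤ K0 := by
      rw [abs_mul]
      calc |t k| * |F x| ≤ 1 * K0 := mul_le_mul (htabs k) (hK0 x) (abs_nonneg _) zero_le_one
        _ = K0 := one_mul K0
    have := abs_add_le (t k * F x) (c k)
    linarith [hc k]
  have hflev : ∀ k i, ∀ z ∈ (A.e i).target, ∀ v,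
      |lev (inC A i (fun x => t k * F x + c k)) z v| ≤ K1 * lev (H.wt i) z v := by
    intro k i z hz v
    have e1 : lev (inC A i (fun x => t k * F x + c k)) z v = t k * lev (inC A i F) z v :=
      lev_affine (inC_c2 hF i hz) (t k) (c k) v
    rw [e1, abs_mul]
    calc |t k| * |lev (inC A i F) z v| ≤ 1 * |lev (inC A i F) z v| :=
          mul_le_mul_of_nonneg_right (htabs k) (abs_nonneg _)
      _ = |lev (inC A i F) z v| := one_mul _
      _ ≤ _ := hK1 i z hz v
  -- C0
  obtain ⟨C0, hC0⟩ := h0 n M A hP H hH (2 * K0)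
  have hosc : ∀ k x y, ψ k x - ψ k y ≤ C0 := fun k =>
    hC0 (ψ k) _ (hψ k).1 (hfsm k) (hψ k).2.1 (hψ k).2.2 (hfb k)
  have hψ0 : ∀ k, ψ k x₀ = 0 := fun k => by simp [hψdef]
  have hψb : ∀ k x, ‖ψ k x‖ ≤ C0 := by
    intro k x
    have h1 := hosc k x x₀
    have h2 := hosc k x₀ x
    rw [hψ0] at h1 h2
    rw [Real.norm_eq_abs, abs_le]
    constructor <;> linarith
  -- C2
  set K2 : ℝ := max (max (2 * K0) K1) C0 with hK2
  obtain ⟨C2, hC20, hC2⟩ := h2 n M A hP H hH K2
  have hcmp : ∀ k i, ∀ z ∈ (A.e i).target, ∀ v,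
      lev (pot H (ψ k) i) z v ≤ C2 * lev (H.wt i) z v ∧
        lev (H.wt i) z v ≤ C2 * lev (pot H (ψ k) i) z v := by
    intro k
    refine hC2 (ψ k) _ (hψ k).1 (hfsm k) (hψ k).2.1 (hψ k).2.2
      (fun x => (hfb k x).trans ((le_max_left _ _).trans (le_max_left _ _)))
      (fun i z hz v => (hflev k i z hz v).trans ?_)
      (fun x y => (hosc k x y).trans (le_max_right _ _))
    refine mul_le_mul_of_nonneg_right ((le_max_right _ _).trans (le_max_left _ _)) ?_
    rcases eq_or_ne v 0 with rfl | hv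
    · rw [lev_zero]
    · exact (hH i z hz v hv).le
  -- limits
  set U : Ultrafilter ℕ := hyperfilter ℕ with hU
  have hUle : (U : Filter ℕ) ≤ atTop := Nat.hyperfilter_le_atTop
  have htU : Tendsto t U (𝓝 T) := hT.mono_left hUle
  have hlim : ∀ x, ∃ y, Tendsto (fun k => ψ k x) U (𝓝 y) := fun x =>
    exists_lim U (fun k => hψb k x)
  choose Φ hΦ using hlim
  obtain ⟨ci, hci⟩ := exists_lim U (x := c) (S := K0) (fun k => by
    rw [Real.norm_eq_abs]
    exact hc k)
  have hpot : ∀ i z, Tendsto (fun k => pot H (ψ k) i z) U (𝓝 (pot H Φ i z)) := fun i z =>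
    tendsto_const_nhds.add (hΦ _)
  -- local analysis
  have hloc : ∀ i, ∀ z₀ ∈ (A.e i).target, ∃ ρ C : ℝ, 0 < ρ ∧ ball z₀ ρ ⊆ (A.e i).target ∧
      ContDiffOn ℝ 2 (pot H Φ i) (ball z₀ ρ) ∧
      (∀ z ∈ ball z₀ ρ, Tendsto (fun k => fderiv ℝ (fderiv ℝ (pot H (ψ k) i)) z) U
        (𝓝 (fderiv ℝ (fderiv ℝ (pot H Φ i)) z))) ∧
      ∀ z ∈ ball z₀ ρ, ∀ w ∈ ball z₀ ρ,
        ‖fderiv ℝ (fderiv ℝ (pot H Φ i)) z - fderiv ℝ (fderiv ℝ (pot H Φ i)) w‖
          ≤ C * ‖z - w‖ ^ (1 / 2 : ℝ) := by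
    intro i z₀ hz₀
    obtain ⟨r, hr, hrs⟩ := Metric.nhds_basis_closedBall.mem_iff.1
      ((A.e i).open_target.mem_nhds hz₀)
    have hKc : IsCompact (closedBall z₀ r) := isCompact_closedBall _ _
    have hbt : ball z₀ r ⊆ (A.e i).target := ball_subset_closedBall.trans hrs
    obtain ⟨hi, hhi0, hhi⟩ := lev_upper (A.e i).open_target
      ((wt_smooth H i).of_le two_le_inf) hKc hrs
    obtain ⟨lo, hlo0, hlo⟩ := lev_lower (A.e i).open_target
      ((wt_smooth H i).of_le two_le_inf) hKc hrs (fun z hz v hv => hH i z (hrs hz) v hv)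
    obtain ⟨B, hB⟩ := fh_bound hH hF i hKc hrs
    obtain ⟨W, hW⟩ := hKc.exists_bound_of_continuousOn ((wt_smooth H i).continuousOn.mono hrs)
    obtain ⟨ρ, C, hρ0, hρr, g1, g2, g3⟩ := local_limit h3 hS U (z₀ := z₀) (r := r)
      (lo := lo / C2) (hi := C2 * hi) (K := B) (N := W + C0) hr (by positivity)
      (u := fun k => pot H (ψ k) i) (f := fun k => fh H F (t k) (c k) i) (V := pot H Φ i)
      (fun k => ((wt_smooth H i).add (inC_smooth (hψ k).1 i)).mono hbt)
      (fun k => (fh_smooth hH hF (t k) (c k) i).mono hbt)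
      (fun k z hz v => by
        have hzc := ball_subset_closedBall hz
        obtain ⟨a1, a2⟩ := hcmp k i z (hbt hz) v
        constructor
        · have a3 := (hlo z hzc v).trans a2
          rw [div_mul_eq_mul_div, div_le_iff₀ hC20]
          linarith
        · have a3 := (le_abs_self _).trans (hhi z hzc v)
          calc _ ≤ C2 * lev (H.wt i) z v := a1
            _ ≤ C2 * (hi * ‖v‖ ^ 2) := mul_le_mul_of_nonneg_left a3 hC20.le
            _ = _ := by ring)
      (fun k z hz => det_fh hH (hψ k).2.2 (hbt hz))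
      (fun k z hz j hj1 hj3 => hB (t k) (c k) (htabs k) z (ball_subset_closedBall hz) j hj1 hj3)
      (fun k z hz => by
        have b1 := hW z (ball_subset_closedBall hz)
        have b2 := hψb k ((A.e i).symm z)
        rw [Real.norm_eq_abs] at b1 b2
        exact (abs_add_le _ _).trans (add_le_add b1 b2))
      (fun z _ => hpot i z)
    exact ⟨ρ, C, hρ0, (ball_subset_ball hρr).trans hbt, g1, g2, g3⟩
  have hc2 : ∀ i, ContDiffOn ℝ 2 (pot H Φ i) (A.e i).target := by
    intro i z hz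
    obtain ⟨ρ, C, hρ0, -, g1, -, -⟩ := hloc i z hz
    exact (g1.contDiffAt (isOpen_ball.mem_nhds (mem_ball_self hρ0))).contDiffWithinAt
  have hpt : ∀ i, ∀ z ∈ (A.e i).target,
      Tendsto (fun k => fderiv ℝ (fderiv ℝ (pot H (ψ k) i)) z) U
        (𝓝 (fderiv ℝ (fderiv ℝ (pot H Φ i)) z)) := by
    intro i z hz
    obtain ⟨ρ, C, hρ0, -, -, g2, -⟩ := hloc i z hz
    exact g2 z (mem_ball_self hρ0)
  have hKP : KPos H Φ := by
    intro i z hz v hv
    have h1 : lev (H.wt i) z v ≤ C2 * lev (pot H Φ i) z v :=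
      ge_of_tendsto ((tendsto_lev (hpt i z hz) v).const_mul C2)
        (Eventually.of_forall fun k => (hcmp k i z hz v).2)
    have h2 := hH i z hz v hv
    by_contra hcon
    push Not at hcon
    nlinarith
  have hMA : MA H Φ (fun x => T * F x + ci) := by
    intro i z hz
    have h1 := tendsto_det (hpt i z hz)
    have h4 : Tendsto (fun k => t k * F ((A.e i).symm z) + c k) U
        (𝓝 (T * F ((A.e i).symm z) + ci)) := (htU.mul_const _).add hci
    have h5 : Tendsto (fun k => (Real.exp (t k * F ((A.e i).symm z) + c k) : ℂ)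
        * (cH (H.wt i) z).det) U
        (𝓝 ((Real.exp (T * F ((A.e i).symm z) + ci) : ℂ) * (cH (H.wt i) z).det)) :=
      (((Complex.continuous_ofReal.tendsto _).comp
        ((Real.continuous_exp.tendsto _).comp h4))).mul_const _
    refine tendsto_nhds_unique h1 (h5.congr fun k => ?_)
    exact ((hψ k).2.2 i z hz).symm
  have hsm : ∀ i, ContDiffOn ℝ ∞ (pot H Φ i) (A.e i).target := by
    intro i
    refine hR n (A.e i).target (pot H Φ i) (fh H F T ci i) (1 / 2) (A.e i).open_target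
      (by norm_num) (by norm_num) (hc2 i) (fh_smooth hH hF T ci i) (fun z₀ hz₀ => ?_)
      (hKP i) (fun z hz => det_fh hH hMA hz)
    obtain ⟨ρ, C, hρ0, hρt, -, -, g3⟩ := hloc i z₀ hz₀
    exact ⟨ρ, hρ0, C, hρt, g3⟩
  have hΦsm : A.Sm Φ := by
    intro i
    have h1 := (hsm i).sub (wt_smooth H i)
    refine h1.congr fun z hz => ?_
    simp [pot, inC]
  exact ⟨Φ, ci, hΦsm, hKP, hMA⟩

theorem sol_zero {H : KP A} (hH : H.Pos) (F : M → ℝ) : Sol H F 0 (fun _ => 0) 0 := by
  have e1 : ∀ i, pot H (fun _ => 0) i = H.wt i := fun i => by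
    funext z
    simp [pot, inC]
  refine ⟨fun i => contDiffOn_const, fun i z hz v hv => ?_, fun i z hz => ?_⟩
  · rw [e1]
    exact hH i z hz v hv
  · rw [e1]
    simp [inC]

theorem yau_of (hO : OpenStmt) (hC : CloseStmt) : YauStmt := by
  intro n M _ _ _ _ A _ hP H hH F hF
  set S : Set ℝ := {t | t ∈ Icc (0 : ℝ) 1 ∧ ∃ φ c, Sol H F t φ c} with hS
  have h0 : (0 : ℝ) ∈ S := ⟨⟨le_rfl, zero_le_one⟩, _, _, sol_zero hH F⟩
  have hclosed : IsClosed (S ∩ Icc 0 1) := by
    refine isClosed_of_closure_subset fun T hT => ?_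
    obtain ⟨t, ht, hT'⟩ := mem_closure_iff_seq_limit.1 hT
    have hT1 : T ∈ Icc (0 : ℝ) 1 := isClosed_Icc.mem_of_tendsto hT'
      (Eventually.of_forall fun k => (ht k).2)
    obtain ⟨φ, c, hs⟩ := hC n M A hP H hH F hF t T (fun k => (ht k).2) hT'
      (fun k => (ht k).1.2)
    exact ⟨⟨hT1, φ, c, hs⟩, hT1⟩
  have hsub : Icc (0 : ℝ) 1 ⊆ S := by
    refine hclosed.Icc_subset_of_forall_exists_gt h0 fun t ht y hy => ?_
    obtain ⟨⟨_, φ, c, hs⟩, ht0, ht1⟩ := ht
    obtain ⟨δ, hδ, hop⟩ := hO n M A hP H hH F hF t φ c hs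
    have hmin : t < min y (min (t + δ) 1) := lt_min hy (lt_min (by linarith) ht1)
    obtain ⟨s, hs1, hs2⟩ := exists_between hmin
    have hsy : s < y := hs2.trans_le (min_le_left _ _)
    have hsδ : s < t + δ := hs2.trans_le ((min_le_right _ _).trans (min_le_left _ _))
    have hs1' : s < 1 := hs2.trans_le ((min_le_right _ _).trans (min_le_right _ _))
    obtain ⟨φ', c', h'⟩ := hop s (by rw [abs_of_pos (by linarith)]; linarith)
    exact ⟨s, ⟨⟨by linarith, hs1'.le⟩, φ', c', h'⟩, hs1, hsy.le⟩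
  obtain ⟨-, φ, c, h1, h2, h3⟩ := hsub (right_mem_Icc.2 zero_le_one)
  refine ⟨φ, c, h1, h2, ?_⟩
  simpa using h3

/-- **assembly** -/
theorem yau_holds (h0 : C0Stmt) (h2 : C2Stmt) (h3 : C3Stmt) (hR : RegStmt) (hS : SchFlat)
    (hO : OpenStmt) : YauStmt :=
  yau_of hO (close_holds h0 h2 h3 hR hS)

end

end Crest.Agent.R281.Kp_487
end

-- ▼ part R281/Kp3_487
section

/-!
# R281 (S0424), Yau for general Kaehler forms (helper487): the Monge-Ampere ratio
(compare `R273.YauPf_635`, `R273.YauOpA_635`)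
-/

set_option autoImplicit false
set_option linter.unusedSectionVars false

open Set Filter Topology Complex Metric
open scoped ContDiff Matrix ComplexConjugate ComplexOrder

namespace Crest.Agent.R281.Kp_487

open Crest.Agent.R273

section

open Crest.Agent.R275.Geo Crest.Agent.R275.Core144 Crest.Agent.R275.GC293
open Crest.Agent.R273.Defs_333 Crest.Agent.R273.YauDefs_635 Crest.Agent.R273.HM_333
open Crest.Agent.R273.YauCh_635 Crest.Agent.R273.Hess_333 Crest.Agent.R273.HessB_333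
open Crest.Agent.R273.Kah_333 Crest.Agent.R273.YauMax_635 Crest.Agent.R273.YauLoc_635
open Crest.Agent.R273.SchA_152 Crest.Agent.R273.SchD_152 Crest.Agent.R273.YauQ_635
open Crest.Agent.R273.YauSchF_635 Crest.Agent.R273.YauClose_635
open Crest.Agent.R273.YauPf_635

noncomputable section

variable {n : ℕ} {M : Type} [TopologicalSpace M] {A : Atl n M}

/-- the ratio of the determinants in the chart `i` -/
def pr (H : KP A) (φ v : M → ℝ) (i : A.ι) (z : Cn n) : ℝ :=
  ((cH (pot H (fun y => φ y + v y) i) z).det / (cH (pot H φ i) z).det).re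

/-- the linearised operator in the chart `i` -/
def lr (H : KP A) (φ w : M → ℝ) (i : A.ι) (z : Cn n) : ℝ :=
  ((cH (pot H φ i) z)⁻¹ * cH (inC A i w) z).trace.re

/-- the ratio of the determinants on `M` -/
def Pf (H : KP A) (φ v : M → ℝ) (x : M) : ℝ := pr H φ v (ch A x) (A.e (ch A x) x)

/-- the linearised operator on `M` -/
def Lf (H : KP A) (φ w : M → ℝ) (x : M) : ℝ := lr H φ w (ch A x) (A.e (ch A x) x)

theorem cH_pot_tr (H : KP A) {φ : M → ℝ} (hφ : A.Sm φ) {i j : A.ι} {x : M}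
    (hx : x ∈ (A.e i).source ∩ (A.e j).source) :
    cH (pot H φ i) (A.e i x) =
      (Jm A i j x)ᵀ * cH (pot H φ j) (A.e j x) * (Jm A i j x).map conj := by
  have key : ∀ k : A.ι, x ∈ (A.e k).source →
      cH (pot H φ k) (A.e k x) = cur (tw H φ hφ) k x := by
    intro k hk
    have hz := (A.e k).map_source hk
    rw [cH_eq_hess (pot_contDiffAt H hφ k hz), hess_pot H hφ k hz, cur_tw H hφ k hk]
    rfl
  rw [key i hx.1, key j hx.2]
  exact cur_tr _ hx

theorem Pf_eq (H : KP A) {φ v : M → ℝ} (hφ : A.Sm φ) (hv : A.Sm v) {i : A.ι} {x : M}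
    (hx : x ∈ (A.e i).source) : Pf H φ v x = pr H φ v i (A.e i x) := by
  have h := ch_mem A x
  rw [Pf, pr, cH_pot_tr H (sm_add hφ hv) ⟨h, hx⟩, cH_pot_tr H hφ ⟨h, hx⟩,
    det_conj_ratio (det_J ⟨h, hx⟩), pr]

theorem Lf_eq (H : KP A) {φ w : M → ℝ} (hφ : A.Sm φ) (hw : A.Sm w) {i : A.ι} {x : M}
    (hx : x ∈ (A.e i).source) : Lf H φ w x = lr H φ w i (A.e i x) := by
  have h := ch_mem A x
  rw [Lf, lr, cH_inC_tr hw ⟨h, hx⟩, cH_pot_tr H hφ ⟨h, hx⟩,
    trace_conj (det_J ⟨h, hx⟩), lr]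

theorem Pf_read (H : KP A) {φ v : M → ℝ} (hφ : A.Sm φ) (hv : A.Sm v) {i : A.ι} {z : Cn n}
    (hz : z ∈ (A.e i).target) : inC A i (Pf H φ v) z = pr H φ v i z := by
  rw [inC, Pf_eq H hφ hv ((A.e i).map_target hz), (A.e i).right_inv hz]

theorem Lf_read (H : KP A) {φ w : M → ℝ} (hφ : A.Sm φ) (hw : A.Sm w) {i : A.ι} {z : Cn n}
    (hz : z ∈ (A.e i).target) : inC A i (Lf H φ w) z = lr H φ w i z := by
  rw [inC, Lf_eq H hφ hw ((A.e i).map_target hz), (A.e i).right_inv hz]

theorem posDef_pot {H : KP A} {φ : M → ℝ} (hφ : A.Sm φ) (hK : KPos H φ) {i : A.ι} {z : Cn n}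
    (hz : z ∈ (A.e i).target) : (cH (pot H φ i) z).PosDef := by
  rw [cH_eq_hess (pot_contDiffAt H hφ i hz)]
  exact posDef_hess (pot_contDiffAt H hφ i hz) (hK i z hz)

theorem det_pot_ne {H : KP A} {φ : M → ℝ} (hφ : A.Sm φ) (hK : KPos H φ) {i : A.ι} {z : Cn n}
    (hz : z ∈ (A.e i).target) : (cH (pot H φ i) z).det ≠ 0 :=
  (posDef_pot hφ hK hz).det_pos.ne'

theorem cH_pot_smooth (H : KP A) {φ : M → ℝ} (hφ : A.Sm φ) (i : A.ι) (a b : Fin n) :
    ContDiffOn ℝ ∞ (fun z => cH (pot H φ i) z a b) (A.e i).target :=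
  contDiffOn_cH (A.e i).open_target ((wt_smooth H i).add (inC_smooth hφ i)) a b

theorem Pf_sm {H : KP A} {φ v : M → ℝ} (hφ : A.Sm φ) (hK : KPos H φ) (hv : A.Sm v) :
    A.Sm (Pf H φ v) := by
  intro i
  have h1 : ContDiffOn ℝ ∞ (fun z => (cH (pot H (fun y => φ y + v y) i) z).det *
      ((cH (pot H φ i) z).det)⁻¹) (A.e i).target :=
    (contDiffOn_det (cH_pot_smooth H (sm_add hφ hv) i)).mul
      ((contDiffOn_det (cH_pot_smooth H hφ i)).inv fun z hz => det_pot_ne hφ hK hz)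
  refine (Complex.reCLM.contDiff.comp_contDiffOn h1).congr fun z hz => ?_
  have := Pf_read H hφ hv hz
  simp only [inC] at this
  rw [this, pr, div_eq_mul_inv]
  rfl

theorem Lf_sm {H : KP A} {φ w : M → ℝ} (hφ : A.Sm φ) (hK : KPos H φ) (hw : A.Sm w) :
    A.Sm (Lf H φ w) := by
  intro i
  have h1 : ContDiffOn ℝ ∞ (fun z => ((cH (pot H φ i) z)⁻¹ * cH (inC A i w) z).trace)
      (A.e i).target := by
    simp only [Matrix.trace, Matrix.diag_apply, Matrix.mul_apply]
    refine ContDiffOn.sum fun a _ => ContDiffOn.sum fun b _ => ?_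
    exact (contDiffOn_inv (cH_pot_smooth H hφ i) (fun z hz => det_pot_ne hφ hK hz) a b).mul
      (contDiffOn_cH (A.e i).open_target (inC_smooth hw i) b a)
  refine (Complex.reCLM.contDiff.comp_contDiffOn h1).congr fun z hz => ?_
  have := Lf_read H hφ hw hz
  simp only [inC] at this
  rw [this, lr]
  rfl

theorem cH_pot_add (H : KP A) {φ v : M → ℝ} (hφ : A.Sm φ) (hv : A.Sm v) {i : A.ι} {z : Cn n}
    (hz : z ∈ (A.e i).target) :
    cH (pot H (fun y => φ y + v y) i) z = cH (pot H φ i) z + cH (inC A i v) z := by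
  have e : pot H (fun y => φ y + v y) i = fun w => pot H φ i w + inC A i v w := by
    funext w
    simp only [pot, inC]
    ring
  rw [e, cH_add' (pot_contDiffAt H hφ i hz) (inC_contDiffAt hv i hz)]

theorem pr_eq {H : KP A} {φ v : M → ℝ} (hφ : A.Sm φ) (hK : KPos H φ) (hv : A.Sm v) {i : A.ι}
    {z : Cn n} (hz : z ∈ (A.e i).target) :
    pr H φ v i z = ((1 + (cH (pot H φ i) z)⁻¹ * cH (inC A i v) z).det).re := by
  rw [pr, cH_pot_add H hφ hv hz, det_add_ratio (det_pot_ne hφ hK hz)]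

theorem Pf_zero {H : KP A} {φ : M → ℝ} (hφ : A.Sm φ) (hK : KPos H φ) :
    Pf H φ (fun _ => 0) = fun _ => (1 : ℝ) := by
  funext x
  have h := ch_mem A x
  have hz := (A.e (ch A x)).map_source h
  have e : (fun y => φ y + (fun _ => (0 : ℝ)) y) = φ := by
    funext y
    simp
  rw [Pf, pr, e, div_self (det_pot_ne hφ hK hz), Complex.one_re]

theorem pr_quad {H : KP A} {φ : M → ℝ} (hφ : A.Sm φ) (hK : KPos H φ) {i : A.ι} {z₀ : Cn n} {R : ℝ}
    (hR : R ≤ 1) (hRt : closedBall z₀ R ⊆ (A.e i).target) : ∃ C : ℝ, 0 ≤ C ∧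
      ∀ (δ d : ℝ) (v w : M → ℝ), 0 ≤ d → d ≤ δ → δ ≤ 1 → A.Sm v → A.Sm w →
        C2A (1 / 2) δ (closedBall z₀ R) (inC A i v) → C2A (1 / 2) d (closedBall z₀ R) (inC A i w) →
        HO (1 / 2) (C * δ * d) (closedBall z₀ R) (fun z =>
          pr H φ (fun y => v y + w y) i z - pr H φ v i z - lr H φ w i z) := by
  have hinv : ∀ a b : Fin n, ∃ V, HO (1 / 2) V (closedBall z₀ R)
      (fun z => (cH (pot H φ i) z)⁻¹ a b) := fun a b =>
    ho_c1 (A.e i).open_target ((contDiffOn_inv (cH_pot_smooth H hφ i)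
      (fun z hz => det_pot_ne hφ hK hz) a b).of_le (by simp)) hR hRt
  choose V hV using hinv
  set K : ℝ := ∑ a, ∑ b, |V a b| with hKdef
  have hK0 : 0 ≤ K := Finset.sum_nonneg fun a _ => Finset.sum_nonneg fun b _ => abs_nonneg _
  have hVK : ∀ a b, V a b ≤ K := fun a b =>
    (le_abs_self _).trans ((Finset.single_le_sum (f := fun b => |V a b|)
      (fun b _ => abs_nonneg _) (Finset.mem_univ b)).trans
      (Finset.single_le_sum (f := fun a => ∑ b, |V a b|)
        (fun a _ => Finset.sum_nonneg fun b _ => abs_nonneg _) (Finset.mem_univ a)))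
  have hprod : ∀ (d : ℝ) (w : M → ℝ), 0 ≤ d → C2A (1 / 2) d (closedBall z₀ R) (inC A i w) →
      HO (1 / 2) (n * (2 * K) * d) (closedBall z₀ R) (fun z (a b : Fin n) =>
        ((cH (pot H φ i) z)⁻¹ * cH (inC A i w) z) a b) := by
    intro d w hd hw
    refine ho_pi (by positivity) fun a => ho_pi (by positivity) fun b => ?_
    simp only [Matrix.mul_apply]
    have h1 := ho_sum (Finset.univ : Finset (Fin n)) (a := 1 / 2) (M := 2 * K * d)
      (s := closedBall z₀ R)
      (f := fun l z => (cH (pot H φ i) z)⁻¹ a l * cH (inC A i w) z l b)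
      (fun l _ => ho_mul hK0 hd ((hV a l).mono (hVK a l)) (ho_cH hw.h2 l b))
    rw [Finset.card_univ, Fintype.card_fin] at h1
    exact h1.mono (by ring_nf; rfl)
  obtain ⟨C, hC0, hC⟩ := ho_det n (n * (2 * K))
  refine ⟨C * (n * (2 * K)) * (n * (2 * K)), by positivity,
    fun δ d v w hd hdδ hδ hv hw hv2 hw2 => ?_⟩
  have hδ0 : 0 ≤ δ := hd.trans hdδ
  have hX := hprod δ v hδ0 hv2
  have hY := hprod d w hd hw2
  have hq := hC (α := n * (2 * K) * δ) (β := n * (2 * K) * d) (by positivity)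
    (mul_le_mul_of_nonneg_left hdδ (by positivity))
    (by
      have : (0 : ℝ) ≤ n * (2 * K) := by positivity
      nlinarith) hX hY
  refine ((ho_re hq).mono (le_of_eq (by ring))).congr fun z hz => ?_
  have hzt := hRt hz
  have hvw : A.Sm (fun y => v y + w y) := sm_add hv hw
  rw [pr_eq hφ hK hvw hzt, pr_eq hφ hK hv hzt, lr]
  have e1 : cH (inC A i (fun y => v y + w y)) z = cH (inC A i v) z + cH (inC A i w) z :=
    cH_add' (inC_contDiffAt hv i hzt) (inC_contDiffAt hw i hzt)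
  rw [e1, Matrix.mul_add, ← add_assoc, ← Complex.sub_re, ← Complex.sub_re]
  rfl

end

end

section

open Set Filter _root_.Topology Complex Metric
open scoped ContDiff Matrix ComplexConjugate ComplexOrder

open Crest.Agent.R275.Geo Crest.Agent.R275.Core144 Crest.Agent.R275.GC293
open Crest.Agent.R273.Defs_333 Crest.Agent.R273.YauDefs_635 Crest.Agent.R273.HM_333
open Crest.Agent.R273.YauCh_635 Crest.Agent.R273.Hess_333 Crest.Agent.R273.HessB_333
open Crest.Agent.R273.Kah_333 Crest.Agent.R273.YauMax_635 Crest.Agent.R273.YauLoc_635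
open Crest.Agent.R273.SchA_152 Crest.Agent.R273.SchD_152 Crest.Agent.R273.YauQ_635
open Crest.Agent.R273.YauSchF_635 Crest.Agent.R273.YauClose_635 Crest.Agent.R273.YauPf_635
open Crest.Agent.R273.YauLim_635
open Crest.Agent.R273.YauOpA_635

noncomputable section

variable {n : ℕ} {M : Type} [TopologicalSpace M] {A : Atl n M}

theorem pot_zero (H : KP A) (i : A.ι) : pot H (fun _ => 0) i = H.wt i := by
  funext z
  simp [pot, inC]

theorem ma_of_local {H : KP A} (hH : H.Pos) {Ψ f : M → ℝ} (hΨ : A.Sm Ψ)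
    (h : ∀ x, ∃ k : A.ι, x ∈ (A.e k).source ∧
      (cH (pot H Ψ k) (A.e k x)).det = (Real.exp (f x) : ℂ) * (cH (H.wt k) (A.e k x)).det) :
    MA H Ψ f := by
  intro i z hz
  have hx := (A.e i).map_target hz
  obtain ⟨k, hk, hd⟩ := h ((A.e i).symm z)
  have hxx : (A.e i).symm z ∈ (A.e i).source ∩ (A.e k).source := ⟨hx, hk⟩
  have h0 : A.Sm (fun _ : M => (0 : ℝ)) := fun i => contDiffOn_const
  have t1 := cH_pot_tr H hΨ hxx
  have t2 := cH_pot_tr H h0 hxx
  rw [(A.e i).right_inv hz] at t1 t2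
  rw [pot_zero, pot_zero] at t2
  have hne : (cH (H.wt k) (A.e k ((A.e i).symm z))).det ≠ 0 :=
    (det_wt_pos hH ((A.e k).map_source hk)).ne'
  have hne' : (cH (H.wt i) z).det ≠ 0 := (det_wt_pos hH hz).ne'
  have hr := det_conj_ratio (B := cH (pot H Ψ k) (A.e k ((A.e i).symm z)))
    (C := cH (H.wt k) (A.e k ((A.e i).symm z))) (det_J hxx)
  rw [← t1, ← t2, hd, mul_div_assoc, div_self hne, mul_one, div_eq_iff hne'] at hr
  exact hr

theorem kpos_of_local {H : KP A} {Ψ : M → ℝ} (hΨ : A.Sm Ψ)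
    (h : ∀ x, ∃ k : A.ι, x ∈ (A.e k).source ∧ (cH (pot H Ψ k) (A.e k x)).PosDef) :
    KPos H Ψ := by
  intro i z hz v hv
  have hx := (A.e i).map_target hz
  obtain ⟨k, hk, hd⟩ := h ((A.e i).symm z)
  have hxx : (A.e i).symm z ∈ (A.e i).source ∩ (A.e k).source := ⟨hx, hk⟩
  have t1 := cH_pot_tr H hΨ hxx
  rw [(A.e i).right_inv hz] at t1
  have hJ := det_J hxx
  set J := Jm A i k ((A.e i).symm z) with hJd
  have e1 : (J.map conj)ᴴ = Jᵀ := by
    ext a b
    simp [Matrix.conjTranspose_apply, Matrix.transpose_apply]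
  have hunit : IsUnit (J.map conj) := by
    rw [Matrix.isUnit_iff_isUnit_det, isUnit_iff_ne_zero]
    have h2 : (J.map conj).det = conj J.det := by
      rw [← RingHom.mapMatrix_apply, ← RingHom.map_det]
    rw [h2]
    simpa using hJ
  have hp : (cH (pot H Ψ i) z).PosDef := by
    rw [t1, ← e1]
    exact hd.conjTranspose_mul_mul_same (Matrix.mulVec_injective_iff_isUnit.2 hunit)
  have hc := pot_contDiffAt H hΨ i hz
  rw [cH_eq_hess hc] at hp
  exact lev_pos_of_posDef hc hp hv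

end

end

end Crest.Agent.R281.Kp_487
end

-- ▼ part R281/Kp4_487
section

/-!
# R281 (S0424), Yau for general Kaehler forms (helper487): openness
(compare `R273.YauOpen_635`)
-/

set_option autoImplicit false
set_option linter.unusedSectionVars false

open Set Filter Topology Complex Metric
open scoped ContDiff Matrix ComplexConjugate ComplexOrder

namespace Crest.Agent.R281.Kp_487

open Crest.Agent.R273

open Crest.Agent.R275.Geo Crest.Agent.R275.Core144 Crest.Agent.R275.GC293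
open Crest.Agent.R273.Defs_333 Crest.Agent.R273.YauDefs_635 Crest.Agent.R273.HM_333
open Crest.Agent.R273.YauCh_635 Crest.Agent.R273.Hess_333 Crest.Agent.R273.HessB_333
open Crest.Agent.R273.Kah_333 Crest.Agent.R273.YauMax_635 Crest.Agent.R273.YauLoc_635
open Crest.Agent.R273.SchA_152 Crest.Agent.R273.SchD_152 Crest.Agent.R273.YauQ_635
open Crest.Agent.R273.YauSchF_635 Crest.Agent.R273.YauClose_635 Crest.Agent.R273.YauPf_635
open Crest.Agent.R273.YauLim_635 Crest.Agent.R273.YauOpA_635 Crest.Agent.R273.CReg_933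
open Crest.Agent.R273.YauOpen_635

noncomputable section

variable {n : ℕ} {M : Type} [TopologicalSpace M] {A : Atl n M}

/-- linear theory at a smooth positive potential: `tr (G⁻¹ ∂∂̄ w) = f - m`,
`|m| + |w|_{2,a} ≤ C |f|_a`, norms with respect to a finite cover by chart balls -/
def LinStmt : Prop :=
  ∀ (n : ℕ) (M : Type) [TopologicalSpace M] [T2Space M] [CompactSpace M] [ConnectedSpace M]
    (A : Atl n M) [Finite A.ι], Nonempty (Part A) →
    ∀ (H : KP A), H.Pos → ∀ φ : M → ℝ, A.Sm φ → KPos H φ →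
      ∃ (κ : Type) (_ : Finite κ) (ci : κ → A.ι) (cz : κ → Cn n) (cr : κ → ℝ) (C : ℝ), 0 ≤ C ∧
        (∀ k, 0 < cr k ∧ cr k ≤ 1 ∧ closedBall (cz k) (cr k) ⊆ (A.e (ci k)).target) ∧
        (∀ x, ∃ k, x ∈ (A.e (ci k)).source ∧ A.e (ci k) x ∈ ball (cz k) (cr k)) ∧
        ∀ (N : ℝ) (f : M → ℝ), A.Sm f →
          (∀ k, HO (1 / 2) N (closedBall (cz k) (cr k)) (inC A (ci k) f)) →
          ∃ (w : M → ℝ) (m : ℝ), A.Sm w ∧ |m| ≤ C * N ∧
            (∀ k, C2A (1 / 2) (C * N) (closedBall (cz k) (cr k)) (inC A (ci k) w)) ∧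
            ∀ i, ∀ z ∈ (A.e i).target, lr H φ w i z = inC A i f z - m

/-- **openness** -/
theorem open_holds (hLin : LinStmt) (hR : RegStmt) : OpenStmt := by
  intro n M _ _ _ _ A _ hP H hH F hF t₀ φ₀ c₀ hsol
  obtain ⟨hφ, hK, hMA₀⟩ := hsol
  obtain ⟨κ, hκ, ci, cz, cr, CS, hCS, hcr, hcov, hlin⟩ := hLin n M A hP H hH φ₀ hφ hK
  set B : κ → Set (Cn n) := fun k => closedBall (cz k) (cr k) with hB
  have hBt : ∀ k, B k ⊆ (A.e (ci k)).target := fun k => (hcr k).2.2
  -- constants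
  have hq := fun k => pr_quad hφ hK (hcr k).2.1 (hcr k).2.2
  choose Cq hCq0 hCq using hq
  obtain ⟨CR, hCR0, hCR⟩ := exists_ub Cq
  set NN2 : ℝ → (M → ℝ) → Prop := fun d v =>
    A.Sm v ∧ ∀ k, C2A (1 / 2) d (B k) (inC A (ci k) v) with hNN2
  set NNH : ℝ → (M → ℝ) → Prop := fun d f =>
    A.Sm f ∧ ∀ k, HO (1 / 2) d (B k) (inC A (ci k) f) with hNNH
  have hsm0 : A.Sm (fun _ : M => (0 : ℝ)) := fun i => contDiffOn_const
  have newt := YauNA_635.newton NN2 NNH (Pf H φ₀) (Lf H φ₀) (fun _ => (1 : ℝ)) hCS hCR0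
    ⟨hsm0, fun k => c2a_zero⟩
    (fun {a b v} hab hv => ⟨hv.1, fun k => (hv.2 k).mono hab⟩)
    (fun {a b v w} hv hw => ⟨sm_add hv.1 hw.1, fun k => c2a_add (A.e (ci k)).open_target (hBt k)
      (inC_smooth hv.1 _) (inC_smooth hw.1 _) (hv.2 k) (hw.2 k)⟩)
    (fun {a b v} hab hv => ⟨hv.1, fun k => (hv.2 k).mono hab⟩)
    (fun {a b v w} hv hw => ⟨sm_add hv.1 hw.1, fun k => (hv.2 k).add (hw.2 k)⟩)
    (fun {a v} m hv => ⟨fun i => contDiffOn_const.mul (hv.1 i), fun k => ho_smul m (hv.2 k)⟩)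
    (Pf_zero hφ hK)
    (fun N ρ hρ => by
      obtain ⟨w, m, hw, hm, hw2, hLw⟩ := hlin N ρ hρ.1 hρ.2
      refine ⟨w, m, ?_, hm, hw, hw2⟩
      funext x
      obtain ⟨i, hi⟩ := A.cover x
      rw [Lf_eq H hφ hw hi, hLw i _ ((A.e i).map_source hi)]
      simp [inC, (A.e i).left_inv hi])
    (fun δ d v w hd hdδ hδ hv hw => by
      have hvw : A.Sm (v + w) := sm_add hv.1 hw.1
      refine ⟨fun i => ((Pf_sm hφ hK hvw i).sub (Pf_sm hφ hK hv.1 i)).sub
        (Lf_sm hφ hK hw.1 i), fun k => ?_⟩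
      have h1 := hCq k δ d v w hd hdδ hδ hv.1 hw.1 (hv.2 k) (hw.2 k)
      have h2 : Cq k * δ * d ≤ CR * δ * d :=
        mul_le_mul_of_nonneg_right (mul_le_mul_of_nonneg_right (hCR k) (hd.trans hdδ)) hd
      refine (h1.mono h2).congr fun z hz => ?_
      have e1 := Pf_read H hφ hvw (hBt k hz)
      have e2 := Pf_read H hφ hv.1 (hBt k hz)
      have e3 := Lf_read H hφ hw.1 (hBt k hz)
      simp only [inC] at e1 e2 e3
      simp only [inC, Pi.sub_apply, e1, e2, e3]
      rfl)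
  -- positivity threshold
  have hlow : ∀ k, ∃ c : ℝ, 0 < c ∧ ∀ z ∈ B k, ∀ v, c * ‖v‖ ^ 2 ≤ lev (pot H φ₀ (ci k)) z v :=
    fun k => lev_lower (A.e (ci k)).open_target
      (((wt_smooth H (ci k)).add (inC_smooth hφ (ci k))).of_le two_le_inf)
      (isCompact_closedBall _ _) (hBt k) (fun z hz v hv => hK (ci k) z (hBt k hz) v hv)
  choose lo' hlo'0 hlo' using hlow
  obtain ⟨lo, hlo0, hlo⟩ := exists_pos_lb hlo'0
  set η : ℝ := min (lo / 4) (1 / 2) with hη
  have hη0 : 0 < η := lt_min (by linarith) (by norm_num)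
  have hηlo : η ≤ lo / 4 := min_le_left _ _
  have hηh : η ≤ 1 / 2 := min_le_right _ _
  obtain ⟨ε, hε0, hnewt⟩ := newt η hη0
  -- Hoelder bound of F
  have hFH : ∀ k, ∃ V, HO (1 / 2) V (B k) (inC A (ci k) F) := fun k =>
    ho_c1 (A.e (ci k)).open_target ((inC_smooth hF (ci k)).of_le (by simp)) (hcr k).2.1
      (hcr k).2.2
  choose VF hVF using hFH
  obtain ⟨KF, hKF0, hKF⟩ := exists_ub VF
  refine ⟨min (1 / (2 * KF + 1)) (ε / (6 * KF + 1)), lt_min (by positivity) (by positivity),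
    fun t ht => ?_⟩
  set s : ℝ := t - t₀ with hs
  have hs1 : |s| * (2 * KF + 1) ≤ 1 := by
    have := (ht.trans_le (min_le_left _ _)).le
    rwa [le_div_iff₀ (by positivity)] at this
  have hs2 : 6 * |s| * KF ≤ ε := by
    have := (ht.trans_le (min_le_right _ _)).le
    rw [le_div_iff₀ (by positivity)] at this
    nlinarith [abs_nonneg s]
  set e : M → ℝ := fun x => Real.exp (s * F x) - 1 with he
  have heH : NNH ε e := by
    refine ⟨fun i => ((contDiffOn_const.mul (hF i)).exp).sub contDiffOn_const, fun k => ?_⟩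
    exact (ho_exp hKF0 ((hVF k).mono (hKF k)) hs1).mono hs2
  have hseq := hnewt e heH
  choose v μ hv hμ hres using hseq
  -- limits
  set U : Ultrafilter ℕ := hyperfilter ℕ with hU
  have hUle : (U : Filter ℕ) ≤ atTop := Nat.hyperfilter_le_atTop
  have hvb : ∀ j x, ‖v j x‖ ≤ η := by
    intro j x
    obtain ⟨k, hk, hkb⟩ := hcov x
    have := ((hv j).2 k).h0.bdd (A.e (ci k) x) (ball_subset_closedBall hkb)
    simpa [inC, (A.e (ci k)).left_inv hk] using this
  have hlim : ∀ x, ∃ y, Tendsto (fun j => v j x) U (𝓝 y) := fun x =>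
    exists_lim U (fun j => hvb j x)
  choose Φ hΦ using hlim
  obtain ⟨m, hm⟩ := exists_lim U (x := μ) (S := η) (fun j => by
    rw [Real.norm_eq_abs]
    exact hμ j)
  have hm1 : |m| ≤ 1 / 2 := by
    have := lim_norm_le hm (C := η) (fun j => by rw [Real.norm_eq_abs]; exact hμ j)
    rw [Real.norm_eq_abs] at this
    linarith
  have hm2 : 0 < 1 + m := by
    have := (abs_le.1 hm1).1
    linarith
  set Ψ : M → ℝ := fun y => φ₀ y + Φ y with hΨ
  set c : ℝ := c₀ + Real.log (1 + m) with hc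
  -- local analysis in a ball
  have hloc : ∀ k, ContDiffOn ℝ ∞ (pot H Ψ (ci k)) (ball (cz k) (cr k)) ∧
      ∀ z ∈ ball (cz k) (cr k), (cH (pot H Ψ (ci k)) z).PosDef ∧
        (cH (pot H Ψ (ci k)) z).det =
          (Real.exp (t * F ((A.e (ci k)).symm z) + c) : ℂ) * (cH (H.wt (ci k)) z).det := by
    intro k
    set O : Set (Cn n) := ball (cz k) (cr k) with hO
    have hOB : O ⊆ B k := ball_subset_closedBall
    have hOt : O ⊆ (A.e (ci k)).target := hOB.trans (hBt k)
    have hp0 : ContDiffOn ℝ ∞ (pot H φ₀ (ci k)) (A.e (ci k)).target :=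
      (wt_smooth H (ci k)).add (inC_smooth hφ (ci k))
    set u : ℕ → Cn n → ℝ := fun j => pot H (fun y => φ₀ y + v j y) (ci k) with hu
    have hue : ∀ j, u j = fun w => pot H φ₀ (ci k) w + inC A (ci k) (v j) w := fun j => by
      funext w
      simp only [hu, pot, inC]
      ring
    have husm : ∀ j, ContDiffOn ℝ ∞ (u j) (A.e (ci k)).target := fun j => by
      rw [hue j]
      exact hp0.add (inC_smooth (hv j).1 _)
    obtain ⟨V1, hV1⟩ := ho_smooth (A.e (ci k)).open_target hp0 (hcr k).2.1 (hcr k).2.2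
    obtain ⟨V0, hV0⟩ := (isCompact_closedBall (cz k) (cr k)).exists_bound_of_continuousOn
      (hp0.continuousOn.mono (hcr k).2.2)
    set S : ℝ := max (max V0 V1) 0 + η with hS
    have hS0 : 0 ≤ S := add_nonneg (le_max_right _ _) hη0.le
    have hV0S : V0 + η ≤ S := add_le_add ((le_max_left _ _).trans (le_max_left _ _)) le_rfl
    have hV1S : V1 + η ≤ S := add_le_add ((le_max_right _ _).trans (le_max_left _ _)) le_rfl
    obtain ⟨g1, g2, g3⟩ := ball_limit U (z₀ := cz k) (r := cr k) (a := 1 / 2) (S := S)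
      (by norm_num) hS0 (u := u) (V := pot H Ψ (ci k))
      (fun j => ((husm j).mono hOt).of_le two_le_inf)
      (fun j z hz => by
        rw [hue j]
        have b1 := hV0 z (hOB hz)
        have b2 := ((hv j).2 k).h0.bdd z (hOB hz)
        rw [Real.norm_eq_abs] at b1 b2
        exact (abs_add_le _ _).trans ((add_le_add b1 b2).trans hV0S))
      (fun j => by
        have h1 : HO (1 / 2) (V1 + η) (B k) (fderiv ℝ (fderiv ℝ (u j))) := by
          rw [hue j]
          exact (hV1.add ((hv j).2 k).h2).congr fun z hz =>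
            fd2_add (A.e (ci k)).open_target hp0 (inC_smooth (hv j).1 _) (hBt k hz)
        exact (h1.mono hV1S).subset hOB)
      (fun z hz => by
        have : ∀ j, u j z = H.wt (ci k) z + (φ₀ ((A.e (ci k)).symm z) + v j ((A.e (ci k)).symm z)) :=
          fun j => rfl
        simp only [this]
        exact tendsto_const_nhds.add (tendsto_const_nhds.add (hΦ _)))
    -- positivity
    have hlev : ∀ z ∈ O, ∀ ξ, lo / 2 * ‖ξ‖ ^ 2 ≤ lev (pot H Ψ (ci k)) z ξ := by
      intro z hz ξ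
      refine ge_of_tendsto (tendsto_lev (g2 z hz) ξ) (Eventually.of_forall fun j => ?_)
      have hzt := hOt hz
      have h1 : lev (u j) z ξ = lev (pot H φ₀ (ci k)) z ξ + lev (inC A (ci k) (v j)) z ξ := by
        rw [lev333_eq_lev145, lev333_eq_lev145, lev333_eq_lev145, hue j,
          Levi_145.lev_add ((pot_contDiffAt H hφ (ci k) hzt).of_le two_le_inf)
            (inC_c2 (hv j).1 (ci k) hzt)]
        ring
      have h2 := abs_lev_le (inC A (ci k) (v j)) z ξ
      have h3 := ((hv j).2 k).h2.bdd z (hOB hz)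
      have h4 := (hlo' k z (hOB hz) ξ)
      have h5 := hlo k
      have h6 : 0 ≤ ‖ξ‖ ^ 2 := by positivity
      have h7 : 2 * ‖fderiv ℝ (fderiv ℝ (inC A (ci k) (v j))) z‖ * ‖ξ‖ ^ 2 ≤
          2 * η * ‖ξ‖ ^ 2 :=
        mul_le_mul_of_nonneg_right (by linarith) h6
      have h8 : lo * ‖ξ‖ ^ 2 ≤ lo' k * ‖ξ‖ ^ 2 := mul_le_mul_of_nonneg_right h5 h6
      have h9 : 2 * η * ‖ξ‖ ^ 2 ≤ lo / 2 * ‖ξ‖ ^ 2 :=
        mul_le_mul_of_nonneg_right (by linarith) h6
      have h10 := (abs_le.1 (h2.trans h7)).1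
      rw [h1]
      linarith
    have hpd : ∀ z ∈ O, (cH (pot H Ψ (ci k)) z).PosDef := fun z hz =>
      posDef_cH (g1.contDiffAt (isOpen_ball.mem_nhds hz)) fun ξ hξ => by
        have h1 := hlev z hz ξ
        have h2 : 0 < ‖ξ‖ ^ 2 := by
          have := norm_pos_iff.2 hξ
          positivity
        nlinarith
    -- equation
    have heq : ∀ z ∈ O, (cH (pot H Ψ (ci k)) z).det =
        (Real.exp (t * F ((A.e (ci k)).symm z) + c) : ℂ) * (cH (H.wt (ci k)) z).det := by
      intro z hz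
      have hzt := hOt hz
      have hx := (A.e (ci k)).map_target hzt
      set x : M := (A.e (ci k)).symm z with hxd
      have l1 : Tendsto (fun j => pr H φ₀ (v j) (ci k) z) U
          (𝓝 ((cH (pot H Ψ (ci k)) z).det / (cH (pot H φ₀ (ci k)) z).det).re) :=
        (Complex.continuous_re.tendsto _).comp ((tendsto_det (g2 z hz)).div_const _)
      have l2 : Tendsto (fun j => (1 + μ j) * Real.exp (s * F x)) U
          (𝓝 ((1 + m) * Real.exp (s * F x))) := (hm.const_add 1).mul_const _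
      have l3 : Tendsto (fun j => (1 + μ j) * Real.exp (s * F x) - pr H φ₀ (v j) (ci k) z) U
          (𝓝 0) := by
        have l4 : Tendsto (fun j : ℕ => ε * (1 / 2 : ℝ) ^ j) U (𝓝 0) := by
          have := (tendsto_pow_atTop_nhds_zero_of_lt_one (r := (1 / 2 : ℝ)) (by norm_num)
            (by norm_num)).const_mul ε
          rw [mul_zero] at this
          exact this.mono_left hUle
        refine squeeze_zero_norm (fun j => ?_) l4
        have h1 := ((hres j).2 k).bdd z (hOB hz)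
        have h2 : inC A (ci k) ((1 + μ j) • ((fun _ => (1 : ℝ)) + e) - Pf H φ₀ (v j)) z =
            (1 + μ j) * Real.exp (s * F x) - pr H φ₀ (v j) (ci k) z := by
          have h3 := Pf_read H hφ (hv j).1 hzt
          simp only [inC] at h3
          simp only [inC, Pi.sub_apply, Pi.smul_apply, Pi.add_apply, smul_eq_mul, he, h3]
          ring
        rwa [h2] at h1
      have h0 := tendsto_nhds_unique l3 (l2.sub l1)
      have h1 : ((cH (pot H Ψ (ci k)) z).det / (cH (pot H φ₀ (ci k)) z).det).re =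
          (1 + m) * Real.exp (s * F x) := by linarith
      have hd0 := (posDef_pot hφ hK hzt).det_pos
      have hd1 := (hpd z hz).det_pos
      have r0 : (cH (pot H φ₀ (ci k)) z).det = (((cH (pot H φ₀ (ci k)) z).det.re : ℝ) : ℂ) := by
        have := (Complex.pos_iff.1 hd0).2
        apply Complex.ext <;> simp [← this]
      have r1 : (cH (pot H Ψ (ci k)) z).det = (((cH (pot H Ψ (ci k)) z).det.re : ℝ) : ℂ) := by
        have := (Complex.pos_iff.1 hd1).2
        apply Complex.ext <;> simp [← this]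
      have p0 : 0 < (cH (pot H φ₀ (ci k)) z).det.re := (Complex.pos_iff.1 hd0).1
      have h2 : (cH (pot H Ψ (ci k)) z).det.re / (cH (pot H φ₀ (ci k)) z).det.re =
          (1 + m) * Real.exp (s * F x) := by
        rw [← h1]
        conv_rhs => rw [r0, r1]
        rw [← Complex.ofReal_div, Complex.ofReal_re]
      rw [div_eq_iff p0.ne'] at h2
      have h3 := hMA₀ (ci k) z hzt
      simp only [inC] at h3
      rw [r1, h2, Complex.ofReal_mul, ← r0, h3, ← mul_assoc, ← Complex.ofReal_mul]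
      congr 2
      rw [hc, ← Real.exp_log hm2, mul_assoc, ← Real.exp_add, ← Real.exp_add, Real.exp_log hm2, hs]
      congr 1
      ring
    refine ⟨?_, fun z hz => ⟨hpd z hz, heq z hz⟩⟩
    refine hR n O (pot H Ψ (ci k)) (fh H F t c (ci k)) (1 / 2) isOpen_ball (by norm_num)
      (by norm_num) g1 ((fh_smooth hH hF t c (ci k)).mono hOt) (fun z₀ hz₀ => ?_)
      (fun z hz ξ hξ => ?_) (fun z hz => ?_)
    · obtain ⟨ρ, hρ, hρs⟩ := Metric.isOpen_iff.1 isOpen_ball z₀ hz₀
      exact ⟨ρ, hρ, S, hρs, fun z hz w hw => g3.hol z (hρs hz) w (hρs hw)⟩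
    · have h1 := hlev z hz ξ
      have h2 : 0 < ‖ξ‖ ^ 2 := by
        have := norm_pos_iff.2 hξ
        positivity
      nlinarith
    · rw [heq z hz, ← exp_ldet hH (hOt hz), fh, Real.exp_add _ (ldet H (ci k) z)]
      simp [inC]
  have hΨsm : A.Sm Ψ := by
    refine sm_of_local fun x => ?_
    obtain ⟨k, hk, hkb⟩ := hcov x
    refine ⟨ci k, hk, ?_⟩
    have h1 := ((hloc k).1.contDiffAt (isOpen_ball.mem_nhds hkb)).sub
      (wt_contDiffAt H (ci k) ((A.e (ci k)).map_source hk))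
    refine h1.congr_of_eventuallyEq (Eventually.of_forall fun w => ?_)
    simp [pot]
  refine ⟨Ψ, c, hΨsm, kpos_of_local hΨsm fun x => ?_, ma_of_local hH hΨsm fun x => ?_⟩
  · obtain ⟨k, hk, hkb⟩ := hcov x
    exact ⟨ci k, hk, ((hloc k).2 _ hkb).1⟩
  · obtain ⟨k, hk, hkb⟩ := hcov x
    refine ⟨ci k, hk, ?_⟩
    have := ((hloc k).2 _ hkb).2
    rwa [(A.e (ci k)).left_inv hk] at this

/-- **Yau's theorem** from the remaining inputs -/
theorem yau_main (h0 : C0Stmt) (h2 : C2Stmt) (h3 : C3Stmt) (hLin : LinStmt) : YauStmt :=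
  yau_holds h0 h2 h3 reg_holds schFlat_holds (open_holds hLin reg_holds)

end

end Crest.Agent.R281.Kp_487
end

-- ▼ part R281/Kp5_487
section

/-!
# R281 (S0424), Yau for general Kaehler forms (helper487): the C0 estimate
(compare `R273.C0e_390`, `R273.C0f_793`)
-/

set_option autoImplicit false
set_option linter.unusedSectionVars false

open MeasureTheory Set Metric Filter Topology
open scoped ContDiff

namespace Crest.Agent.R281.Kp_487

open Crest.Agent.R273

section

open Crest.Agent.R275.Geo Crest.Agent.R275.Core144 Crest.Agent.R275.GC293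
open Crest.Agent.R273.Defs_333 Crest.Agent.R273.YauDefs_635
open Crest.Agent.R273.C0d_390 (lv submean l1_ball)
open Crest.Agent.R273.C0e_390

noncomputable section

variable {n : ℕ} {M : Type} [TopologicalSpace M] {A : Atl n M}
variable (μ : Measure (Cn n)) [μ.IsAddHaarMeasure]

theorem contDiffAt_wt (H : KP A) {i : A.ι} {z : Cn n} (hz : z ∈ (A.e i).target)
    {k : WithTop ℕ∞} (hk : k ≤ ∞) : ContDiffAt ℝ k (H.wt i) z :=
  (wt_contDiffAt H i hz).of_le hk

/-- `ω`-plurisubharmonic functions with maximum `0` -/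
def PSH (H : KP A) (φ : M → ℝ) : Prop :=
  A.Sm φ ∧ KPos H φ ∧ (∀ x, φ x ≤ 0) ∧ ∃ x, φ x = 0

theorem cls_psh (H : KP A) : Cls A (PSH H) := by
  refine ⟨fun φ hφ => hφ.1, fun φ hφ => hφ.2.2.1, fun i K hK hc => ?_⟩
  have hcont : ContinuousOn (fun z => fderiv ℝ (fderiv ℝ (H.wt i)) z) K := fun z hz => by
    have h1 : ContDiffAt ℝ 2 (H.wt i) z := contDiffAt_wt H (hK hz) two_le_inf
    exact ((h1.fderiv_right (m := 1) (by norm_num)).fderiv_right (m := 0)
      (by norm_num)).continuousAt.continuousWithinAt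
  obtain ⟨C, hC⟩ := hc.exists_bound_of_continuousOn (f := fun z => fderiv ℝ (fderiv ℝ (H.wt i)) z) hcont
  refine ⟨2 * |C|, by positivity, fun φ hφ z hz v => ?_⟩
  rw [lv_eq_lev]
  have h1 : 0 ≤ Defs_333.lev (pot H φ i) z v := by
    by_cases hv : v = 0
    · subst hv
      rw [lev333_eq]
      simp [D2]
    · exact (hφ.2.1 i z (hK hz) v hv).le
  have h2 : Defs_333.lev (pot H φ i) z v
      = Defs_333.lev (H.wt i) z v + Defs_333.lev (inC A i φ) z v :=
    lev_add (contDiffAt_wt H (hK hz) two_le_inf)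
      (contDiffAt_inC hφ.1 (hK hz) two_le_inf) v
  have hb : ∀ w : Cn n, |D2 (H.wt i) z w w| ≤ |C| * ‖w‖ ^ 2 := by
    intro w
    have h3 : ‖fderiv ℝ (fderiv ℝ (H.wt i)) z‖ ≤ |C| := (hC z hz).trans (le_abs_self C)
    calc |D2 (H.wt i) z w w| ≤ ‖fderiv ℝ (fderiv ℝ (H.wt i)) z‖ * ‖w‖ * ‖w‖ :=
          (fderiv ℝ (fderiv ℝ (H.wt i)) z).le_opNorm₂ w w
      _ ≤ |C| * ‖w‖ * ‖w‖ := by gcongr
      _ = _ := by ring
  have h4 : Defs_333.lev (H.wt i) z v ≤ 2 * |C| * ‖v‖ ^ 2 := by
    rw [lev333_eq]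
    have h5 := (le_abs_self _).trans (hb v)
    have h6 := (le_abs_self _).trans (hb (Complex.I • v))
    rw [norm_smul, Complex.norm_I, one_mul] at h6
    linarith
  linarith

/-- **C0-d** -/
theorem l1_psh [CompactSpace M] [ConnectedSpace M] (H : KP A) (i : A.ι)
    {K : Set (Cn n)} (hK : IsCompact K) (hKt : K ⊆ (A.e i).target) :
    ∃ C : ℝ, 0 ≤ C ∧ ∀ φ, PSH H φ →
      ∫⁻ w in K, ENNReal.ofReal (-inC A i φ w) ∂μ ≤ ENNReal.ofReal C :=
  l1_compact μ (cls_psh H) (fun _ hφ => hφ.2.2.2) i hK hKt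

end

end

section

open Set Filter _root_.Topology Complex MeasureTheory
open scoped ContDiff Matrix ComplexConjugate ENNReal

open Crest.Agent.R275.Geo Crest.Agent.R275.Core144 Crest.Agent.R275.GC293
open Crest.Agent.R273.Defs_333 Crest.Agent.R273.YauDefs_635 Crest.Agent.R273.C0e_390
open Crest.Agent.R273.C0a_793 Crest.Agent.R273.C0b_793
open Crest.Agent.R273.C0f_793

noncomputable section

variable {n : ℕ} {M : Type} [TopologicalSpace M] {A : Atl n M}

/-- bound of the determinant of the background metric on a compact set. -/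
theorem exists_det_le (H : KP A) (i : A.ι) {K : Set (Cn n)} (hK : IsCompact K)
    (hKt : K ⊆ (A.e i).target) : ∃ D : ℝ, 0 ≤ D ∧ ∀ z ∈ K, ‖(cH (H.wt i) z).det‖ ≤ D := by
  have hc : ContinuousOn (fun z => (cH (H.wt i) z).det) K := by
    intro z hz
    have h1 : ContDiffAt ℝ 2 (H.wt i) z := contDiffAt_wt H (hKt hz) two_le_inf
    have h2 : ContinuousAt (C0b_793.D2 (H.wt i)) z := continuousAt_D2 h1
    have h3 : ∀ v w : Cn n, ContinuousAt (fun z => YauDefs_635.D2 (H.wt i) z v w) z := fun v w =>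
      (h2.clm_apply continuousAt_const).clm_apply continuousAt_const
    have h4 : ContinuousAt (fun z => cH (H.wt i) z) z := by
      refine continuousAt_pi.2 fun a => continuousAt_pi.2 fun b => ?_
      simp only [cH, Matrix.of_apply]
      have k1 := h3 (EuclideanSpace.single a 1) (EuclideanSpace.single b 1)
      have k2 := h3 (EuclideanSpace.single a I) (EuclideanSpace.single b I)
      have k3 := h3 (EuclideanSpace.single a 1) (EuclideanSpace.single b I)
      have k4 := h3 (EuclideanSpace.single a I) (EuclideanSpace.single b 1)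
      exact continuousAt_const.mul ((Complex.continuous_ofReal.continuousAt.comp (k1.add k2)).add
        (continuousAt_const.mul (Complex.continuous_ofReal.continuousAt.comp (k3.sub k4))))
    have h5 : Continuous (fun m : Matrix (Fin n) (Fin n) ℂ => m.det) := continuous_id.matrix_det
    exact (h5.continuousAt.comp h4).continuousWithinAt
  obtain ⟨C, hC⟩ := hK.exists_bound_of_continuousOn hc
  exact ⟨|C|, abs_nonneg _, fun z hz => (hC z hz).trans (le_abs_self C)⟩

/-- **local form**: a minimum in a fixed chart ball is bounded below. -/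
theorem local_C0 [CompactSpace M] [ConnectedSpace M] (H : KP A) (hH : H.Pos)
    {i : A.ι} {z1 : Cn n} {r : ℝ} (hr : 0 < r)
    (hz1 : Metric.closedBall z1 (3 * r) ⊆ (A.e i).target) (K : ℝ) :
    ∃ C : ℝ, ∀ φ f : M → ℝ, PSH H φ → MA H φ f → (∀ x, |f x| ≤ K) →
      ∀ p ∈ cb A i z1 r, (∀ y, φ p ≤ φ y) → -φ p ≤ C := by
  have hsub2 : Metric.closedBall z1 (2 * r) ⊆ (A.e i).target :=
    (Metric.closedBall_subset_closedBall (by linarith)).trans hz1
  have hwt : ∀ x ∈ Metric.closedBall z1 (2 * r), ContDiffAt ℝ 2 (H.wt i) x := fun x hx =>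
    contDiffAt_wt H (hsub2 hx) two_le_inf
  obtain ⟨ρ, hρ, hρr, lam, hlam, hq⟩ := exists_quad (u := H.wt i) (z1 := z1) (a := r)
    (b := 2 * r) (by linarith) hwt (fun x hx v hv => by
      rw [← lev_eq_lv]
      exact hH i x (hsub2 hx) v hv)
  obtain ⟨D, hD0, hD⟩ := exists_det_le H i (isCompact_closedBall z1 (2 * r)) hsub2
  obtain ⟨C1, hC10, hC1⟩ := l1_psh (volume : Measure (Cn n)) H i
    (isCompact_closedBall z1 (2 * r)) hsub2
  set c : ℝ := lam * ρ ^ 2 with hc
  have hc0 : 0 < c := by positivity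
  set Kd : ℝ := 16 ^ n * (Real.exp K * D) ^ 2 with hKd
  have hKd0 : 0 ≤ Kd := by positivity
  set v : ℝ := (volume (Metric.ball (0 : Cn n) (c / ρ))).toReal with hv
  have hv0 : 0 < v := ENNReal.toReal_pos
    (Metric.measure_ball_pos volume _ (by positivity)).ne' measure_ball_lt_top.ne
  refine ⟨c + Kd * C1 / v, fun φ f hφ hMA hf p hp hmin => ?_⟩
  by_cases hM : -φ p ≤ c
  · have : 0 ≤ Kd * C1 / v := by positivity
    linarith
  push Not at hM
  set z0 : Cn n := A.e i p with hz0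
  have hz0b : z0 ∈ Metric.closedBall z1 r := Metric.ball_subset_closedBall hp.2
  have hsub3 : Metric.closedBall z0 ρ ⊆ Metric.closedBall z1 (2 * r) := by
    intro x hx
    rw [Metric.mem_closedBall] at *
    have := dist_triangle x z0 z1
    linarith
  have hz0φ : inC A i φ z0 = φ p := by
    unfold inC
    rw [hz0, (A.e i).left_inv hp.1]
  have hφc : ∀ x ∈ Metric.closedBall z1 (2 * r), ContDiffAt ℝ 2 (inC A i φ) x := fun x hx =>
    contDiffAt_inC hφ.1 (hsub2 hx) two_le_inf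
  set u : Cn n → ℝ := fun y => psi (H.wt i) z0 y + inC A i φ y with hu
  have hu0 : u z0 = φ p := by
    simp only [hu, psi_self, hz0φ, zero_add]
  have huc : ∀ x ∈ Metric.closedBall z0 ρ, ContDiffAt ℝ 2 u x := fun x hx =>
    (contDiffAt_psi z0 (hwt x (hsub3 hx))).add (hφc x (hsub3 hx))
  have hbd : ∀ x ∈ Metric.sphere z0 ρ, u z0 + c ≤ u x := by
    intro x hx
    have h1 := hq z0 hz0b x (Metric.sphere_subset_closedBall hx)
    have h2 : ‖x - z0‖ = ρ := by simpa [dist_eq_norm] using hx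
    rw [h2] at h1
    have h3 : φ p ≤ inC A i φ x := hmin _
    rw [hu0]
    simp only [hu]
    linarith
  have hpsi0 : ∀ x ∈ Metric.closedBall z0 ρ, 0 ≤ psi (H.wt i) z0 x := fun x hx =>
    le_trans (by positivity) (hq z0 hz0b x hx)
  have hdet : ∀ x ∈ contact u z0 ρ c, 16 ^ n * ‖(chM u x).det‖ ^ 2 ≤ Kd := by
    intro x hx
    have hxb : x ∈ Metric.closedBall z0 ρ := Metric.ball_subset_closedBall hx.1
    have hx2 := hsub3 hxb
    have h1 : chM u x = cH (pot H φ i) x := by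
      rw [← chM_eq_cH]
      exact chM_psi_add (hwt z0 (hsub3 (Metric.mem_closedBall_self hρ.le))) (hwt x hx2)
        (hφc x hx2)
    rw [h1, hMA i x (hsub2 hx2), norm_mul, hKd]
    have h2 : ‖((Real.exp (inC A i f x) : ℝ) : ℂ)‖ ≤ Real.exp K := by
      rw [Complex.norm_real, Real.norm_eq_abs, abs_of_pos (Real.exp_pos _)]
      exact Real.exp_le_exp.2 ((le_abs_self _).trans (hf _))
    have h3 := hD x hx2
    gcongr
  have habp := abp hρ huc hbd hdet
  -- the contact set is a sublevel set of `φ`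
  have hcs : contact u z0 ρ c ⊆ {x | x ∈ Metric.closedBall z1 (2 * r) ∧
      ENNReal.ofReal (-φ p - c) ≤ ENNReal.ofReal (-inC A i φ x)} := by
    intro x hx
    have hxb : x ∈ Metric.closedBall z0 ρ := Metric.ball_subset_closedBall hx.1
    refine ⟨hsub3 hxb, ENNReal.ofReal_le_ofReal ?_⟩
    have h1 := hx.2.1
    rw [hu0] at h1
    simp only [hu] at h1
    have h2 := hpsi0 x hxb
    linarith
  have hmk : ENNReal.ofReal (-φ p - c) * volume (contact u z0 ρ c) ≤ ENNReal.ofReal C1 := by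
    have hm := measurableSet_contact (c := c) huc
    calc ENNReal.ofReal (-φ p - c) * volume (contact u z0 ρ c)
        = ∫⁻ _ in contact u z0 ρ c, ENNReal.ofReal (-φ p - c) := by rw [setLIntegral_const]
      _ ≤ ∫⁻ x in contact u z0 ρ c, ENNReal.ofReal (-inC A i φ x) :=
          setLIntegral_mono' hm fun x hx => (hcs hx).2
      _ ≤ ∫⁻ x in Metric.closedBall z1 (2 * r), ENNReal.ofReal (-inC A i φ x) :=
          lintegral_mono_set fun x hx => (hcs hx).1
      _ ≤ ENNReal.ofReal C1 := hC1 φ hφ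
  have hfin : ENNReal.ofReal (-φ p - c) * volume (Metric.ball (0 : Cn n) (c / ρ))
      ≤ ENNReal.ofReal (Kd * C1) := by
    calc ENNReal.ofReal (-φ p - c) * volume (Metric.ball (0 : Cn n) (c / ρ))
        ≤ ENNReal.ofReal (-φ p - c) * (ENNReal.ofReal Kd * volume (contact u z0 ρ c)) :=
          mul_le_mul_right habp _
      _ = ENNReal.ofReal Kd * (ENNReal.ofReal (-φ p - c) * volume (contact u z0 ρ c)) := by ring
      _ ≤ ENNReal.ofReal Kd * ENNReal.ofReal C1 := mul_le_mul_right hmk _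
      _ = ENNReal.ofReal (Kd * C1) := (ENNReal.ofReal_mul hKd0).symm
  have hvv : volume (Metric.ball (0 : Cn n) (c / ρ)) = ENNReal.ofReal v := by
    rw [hv, ENNReal.ofReal_toReal measure_ball_lt_top.ne]
  rw [hvv, ← ENNReal.ofReal_mul (by linarith), ENNReal.ofReal_le_ofReal_iff (by positivity)] at hfin
  have : -φ p - c ≤ Kd * C1 / v := by
    rw [le_div_iff₀ hv0]
    exact hfin
  linarith

theorem c0_holds : C0Stmt := by
  intro n M _ _ _ _ A _ _ H hH K
  classical
  choose i z r hr hz hx using exists_cb (A := A)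
  choose C hC using fun x : M => local_C0 H hH (hr x) (hz x) K
  obtain ⟨T, hT⟩ := isCompact_univ.elim_finite_subcover (fun t : M => cb A (i t) (z t) (r t))
    (fun t => isOpen_cb _ _ _) (fun t _ => mem_iUnion.2 ⟨t, hx t⟩)
  refine ⟨∑ t ∈ T, |C t|, fun φ f hφ hf hpos hMA hfK x y => ?_⟩
  have hcont := continuous_of_sm hφ
  obtain ⟨xm, -, hxm⟩ := isCompact_univ.exists_isMaxOn (univ_nonempty (α := M)) hcont.continuousOn
  obtain ⟨p, -, hp⟩ := isCompact_univ.exists_isMinOn (univ_nonempty (α := M)) hcont.continuousOn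
  have hxm' : ∀ y, φ y ≤ φ xm := fun y => hxm (mem_univ y)
  have hp' : ∀ y, φ p ≤ φ y := fun y => hp (mem_univ y)
  set φ' : M → ℝ := fun y => φ y - φ xm with hφ'
  have hpot : ∀ j w, w ∈ (A.e j).target → fderiv ℝ (fderiv ℝ (pot H φ' j)) w
      = fderiv ℝ (fderiv ℝ (pot H φ j)) w := by
    intro j w _
    have e : pot H φ' j = fun y => pot H φ j y - φ xm := by
      funext y
      simp only [pot, inC, hφ']
      ring
    have e2 : fderiv ℝ (pot H φ' j) = fderiv ℝ (pot H φ j) := by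
      funext y
      rw [e]
      exact fderiv_sub_const _
    rw [e2]
  have hPSH : PSH H φ' := by
    refine ⟨fun j => (hφ j).sub contDiffOn_const, fun j w hw v hv => ?_, fun y => ?_, xm, ?_⟩
    · have h1 := hpos j w hw v hv
      rw [lev333_eq] at h1 ⊢
      simp only [YauDefs_635.D2] at h1 ⊢
      rw [hpot j w hw]
      exact h1
    · have := hxm' y
      simp only [hφ']
      linarith
    · simp [hφ']
  have hMA' : MA H φ' f := by
    intro j w hw
    rw [← hMA j w hw]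
    congr 1
    ext a b
    simp only [cH, Matrix.of_apply, YauDefs_635.D2]
    rw [hpot j w hw]
  obtain ⟨t, htT, htp⟩ := mem_iUnion₂.1 (hT (mem_univ p))
  have h1 := hC t φ' f hPSH hMA' hfK p htp (fun y => by
    have := hp' y
    simp only [hφ']
    linarith)
  have h2 : |C t| ≤ ∑ t ∈ T, |C t| :=
    Finset.single_le_sum (f := fun t => |C t|) (fun t _ => abs_nonneg _) htT
  have h3 := le_abs_self (C t)
  have h4 := hxm' x
  have h5 := hp' y
  simp only [hφ'] at h1
  linarith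

end

end

end Crest.Agent.R281.Kp_487
end

-- ▼ part R281/Kp7_487
section

/-!
# R281 (S0424), Yau for general Kaehler forms (helper487): linear theory
(compare `R273.SchK_152`, `R273.CLinE_933`, `R273.YauLin_635`)
-/

set_option autoImplicit false
set_option linter.unusedSectionVars false

open Set Metric Filter
open scoped ContDiff Topology Matrix ComplexConjugate ComplexOrder

namespace Crest.Agent.R281.Kp_487

open Crest.Agent.R273

section

open Crest.Agent.R275 Crest.Agent.R275.Geo Crest.Agent.R275.Core144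
open Crest.Agent.R273.Defs_333 Crest.Agent.R273.Hess_333 Crest.Agent.R273.HessB_333
open Crest.Agent.R273.HM_333 Crest.Agent.R273.Kah_333 Crest.Agent.R273.YauDefs_635
open Crest.Agent.R273.YauMax_635
open Crest.Agent.R273.SchA_152 Crest.Agent.R273.SchD_152 Crest.Agent.R273.SchE_152
  Crest.Agent.R273.SchF_152 Crest.Agent.R273.SchG_152 Crest.Agent.R273.SchH_152
  Crest.Agent.R273.SchI_152 Crest.Agent.R273.SchJ_152
open Crest.Agent.R273.SchK_152

noncomputable section

variable {n : ℕ} {M : Type} [TopologicalSpace M] {A : Atl n M}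

theorem cur_pot (H : KP A) {φ : M → ℝ} (hφ : A.Sm φ) (i : A.ι) {z : Cn n}
    (hz : z ∈ (A.e i).target) : cur (tw H φ hφ) i ((A.e i).symm z) = cH (pot H φ i) z := by
  rw [cH_eq_hess (pot_contDiffAt H hφ i hz), hess_pot H hφ i hz,
    cur_tw H hφ i ((A.e i).map_target hz), cur_read H i hz, hsf_read φ i hz]
  rfl

theorem pos_tw (H : KP A) {φ : M → ℝ} (hφ : A.Sm φ) (hp : KPos H φ) : (tw H φ hφ).Pos :=
  pos_of_cur fun i x hx => by
    have hz := (A.e i).map_source hx
    have h1 := cur_pot H hφ i hz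
    rw [(A.e i).left_inv hx] at h1
    rw [h1, cH_eq_hess (pot_contDiffAt H hφ i hz)]
    exact posDef_hess (pot_contDiffAt H hφ i hz) (hp i _ hz)

/-- the Kaehler metric `ω_H + i∂∂̄φ` -/
def kp (H : KP A) {φ : M → ℝ} (hφ : A.Sm φ) (hp : KPos H φ) : Kah A :=
  kah (tw H φ hφ) (pos_tw H hφ hp)

theorem gi_kp (H : KP A) {φ : M → ℝ} (hφ : A.Sm φ) (hp : KPos H φ) (i : A.ι) {z : Cn n}
    (hz : z ∈ (A.e i).target) : gi (kp H hφ hp) i z = (cH (pot H φ i) z)⁻¹ := by
  rw [← cur_pot H hφ i hz]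
  rfl

/-- `tr((∂∂̄(pot))⁻¹ ∂∂̄v) = f - m` in all charts -/
def LinEq (H : KP A) (φ : M → ℝ) (v f : M → ℝ) (m : ℝ) : Prop :=
  ∀ i, ∀ z ∈ (A.e i).target,
    ((cH (pot H φ i) z)⁻¹ * cH (inC A i v) z).trace = ((f ((A.e i).symm z) - m : ℝ) : ℂ)

theorem LinEq.isLap {H : KP A} {φ v f : M → ℝ} {m : ℝ} (h : LinEq H φ v f m) (hφ : A.Sm φ)
    (hp : KPos H φ) : IsLap (gi (kp H hφ hp)) v (fun x => f x - m) := by
  intro i z hz
  rw [gi_kp H hφ hp i hz, h i z hz]
  rfl

theorem lin_mean [T2Space M] [CompactSpace M] [ConnectedSpace M] [Finite A.ι] (P : Part A) {H : KP A} {φ : M → ℝ} (hφ : A.Sm φ) (hp : KPos H φ)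
    {v f : M → ℝ} {m N : ℝ} (hv : A.Sm v) (h : LinEq H φ v f m) (hf : ∀ x, |f x| ≤ N) :
    |m| ≤ N :=
  abs_const_le P (kp H hφ hp) hv (h.isLap hφ hp) hf

/-- **linear estimate** for the metric `ω_H + i∂∂̄φ` -/
theorem lin_bound [T2Space M] [CompactSpace M] [ConnectedSpace M] [Finite A.ι] (P : Part A) {H : KP A} {φ : M → ℝ} (hφ : A.Sm φ) (hp : KPos H φ) (B : Cb A)
    {a : ℝ} (ha : 0 < a) (ha1 : a < 1) :
    ∃ C : ℝ, 0 < C ∧ ∀ (x0 : M) (v f : M → ℝ) (m N : ℝ), A.Sm v → LinEq H φ v f m →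
      B.NH a N f → v x0 = 0 → B.N2 a (C * N) v := by
  obtain ⟨C, hC, H1⟩ := schauder0 P (kp H hφ hp) B ha ha1
  refine ⟨C * 2, by positivity, fun x0 v f m N hv hlin hN hx0 => ?_⟩
  have hm := lin_mean P hφ hp hv hlin (fun x => hN.bdd x)
  have h1 := H1 x0 v _ (2 * N) hv (hlin.isLap hφ hp) (NH_sub_const hN hN.nonneg hm) hx0
  refine h1.mono (le_of_eq ?_)
  ring

end

end

section

open Set Filter _root_.Topology MeasureTheory
open scoped ContDiff Matrix ComplexConjugate ComplexOrder ENNReal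

open Crest.Agent.R275 Crest.Agent.R275.Geo Crest.Agent.R275.Core144 Crest.Agent.R275.EDR890
open Crest.Agent.R275.Pai323 Crest.Agent.R275.C1d194
open Crest.Agent.R273.SchE_152 Crest.Agent.R273.SchD_152
open Crest.Agent.R273.Defs_333 Crest.Agent.R273.Vm_333 Crest.Agent.R273.Kah_333
open Crest.Agent.R273.Hess_333 Crest.Agent.R273.HessB_333 Crest.Agent.R273.HM_333
open Crest.Agent.R273.Vol_333 Crest.Agent.R273.Green_5 Crest.Agent.R273.GreenM_5
open Crest.Agent.R273.YauDefs_635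
open Crest.Agent.R273.YauMax_635 (cH_eq_hess)
open Crest.Agent.R273.CLin_933

noncomputable section

variable {n : ℕ} {M : Type} [TopologicalSpace M] {A : Atl n M}

theorem tw_pos (H : KP A) {φ : M → ℝ} (hφ : A.Sm φ) (hpos : KPos H φ) : (tw H φ hφ).Pos := by
  refine pos_of_cur fun i x hx => ?_
  have hz := (A.e i).map_source hx
  rw [cur_tw H hφ i hx]
  have e1 : cur H i x + hsf A φ i x = hess (pot H φ i) (A.e i x) :=
    (hess_pot H hφ i hz).symm
  rw [e1]
  exact posDef_hess (pot_contDiffAt H hφ i hz) (hpos i _ hz)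

theorem g_pot (H : KP A) {φ : M → ℝ} (hφ : A.Sm φ) (hpos : KPos H φ) (i : A.ι) {z : Cn n}
    (hz : z ∈ (A.e i).target) :
    (kah (tw H φ hφ) (tw_pos H hφ hpos)).g i ((A.e i).symm z) = cH (pot H φ i) z := by
  have hx := (A.e i).map_target hz
  have e0 : (kah (tw H φ hφ) (tw_pos H hφ hpos)).g i ((A.e i).symm z)
      = cur (tw H φ hφ) i ((A.e i).symm z) := rfl
  rw [e0, cur_tw H hφ i hx, cH_eq_hess (pot_contDiffAt H hφ i hz),
    hess_pot H hφ i hz]
  unfold cur hsf
  rw [(A.e i).right_inv hz]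
  rfl

/-- **C-LIN, existence**: for every smooth `f` there are a smooth `v` and a real `m` with
`tr (g⁻¹ ∂∂̄v) = f - m`, `g = ∂∂̄(pot H φ)` -/
theorem lin_exist [T2Space M] [CompactSpace M] [ConnectedSpace M] [Finite A.ι] (P : Part A)
    (H : KP A) {φ : M → ℝ} (hφ : A.Sm φ) (hpos : KPos H φ) {f : M → ℝ} (hf : A.Sm f) :
    ∃ (v : M → ℝ) (m : ℝ), A.Sm v ∧ ∀ i, ∀ z ∈ (A.e i).target,
      ((cH (pot H φ i) z)⁻¹ * cH (inC A i v) z).trace = ((f ((A.e i).symm z) - m : ℝ) : ℂ) := by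
  set K := kah (tw H φ hφ) (tw_pos H hφ hpos) with hK
  obtain ⟨v, m, hv, he⟩ := lin_kah K P hf
  refine ⟨v, m, hv, fun i z hz => ?_⟩
  have hx := (A.e i).map_target hz
  rw [← he, lapK_ofReal K hv, trK_eq K (hsf_tn hv) hx, hK, g_pot H hφ hpos i hz, hsf_read v i hz]
  congr 2
  exact cH_eq_hess (ContDiffOn.contDiffAt (hv i) ((A.e i).open_target.mem_nhds hz))

end

end

section

open Set Filter _root_.Topology Complex Metric
open scoped ContDiff Matrix ComplexConjugate ComplexOrder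

open Crest.Agent.R275.Geo Crest.Agent.R275.Core144 Crest.Agent.R275.GC293
open Crest.Agent.R273.Defs_333 Crest.Agent.R273.YauDefs_635 Crest.Agent.R273.HM_333
open Crest.Agent.R273.YauCh_635 Crest.Agent.R273.SchF_152 Crest.Agent.R273.SchK_152
open Crest.Agent.R273.SchA_152 Crest.Agent.R273.SchD_152 Crest.Agent.R273.YauPf_635
open Crest.Agent.R273.YauOpen_635 Crest.Agent.R273.YauClose_635
open Crest.Agent.R273.YauLin_635

noncomputable section

variable {n : ℕ} {M : Type} [TopologicalSpace M] {A : Atl n M}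

/-- existence for the linearised equation -/
def LinExist : Prop :=
  ∀ (n : ℕ) (M : Type) [TopologicalSpace M] [T2Space M] [CompactSpace M] [ConnectedSpace M]
    (A : Atl n M) [Finite A.ι], Nonempty (Part A) →
    ∀ (H : KP A), H.Pos → ∀ φ : M → ℝ, A.Sm φ → KPos H φ →
      ∀ f : M → ℝ, A.Sm f → ∃ (v : M → ℝ) (m : ℝ), A.Sm v ∧ LinEq H φ v f m

theorem linEq_sub {H : KP A} {φ v f : M → ℝ} {m : ℝ} (h : LinEq H φ v f m) (d : ℝ) :
    LinEq H φ (fun x => v x - d) f m := by
  intro i z hz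
  have e : inC A i (fun x => v x - d) = fun w => inC A i v w - d := rfl
  rw [e, cH_sub_const]
  exact h i z hz

theorem lin_of (hE : LinExist) : LinStmt := by
  intro n M _ _ _ _ A _ hP H hH φ hφ hK
  obtain ⟨P⟩ := id hP
  obtain ⟨x₀⟩ : Nonempty M := inferInstance
  obtain ⟨B⟩ := Cb.nonempty A
  obtain ⟨C, hC, hb⟩ := lin_bound P hφ hK B (a := 1 / 2) (by norm_num) (by norm_num)
  refine ⟨B.κ, B.fin, B.i, B.z, fun k => B.r k / 2, max C 1, by positivity, fun k =>
    ⟨by linarith [B.r0 k], by linarith [B.r1 k, B.r0 k], B.sub' k⟩, B.cover, fun N f hf hN => ?_⟩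
  have hN' : B.NH (1 / 2) N f := hN
  have hN0 : 0 ≤ N := Cb.NH.nonneg hN'
  obtain ⟨v, m, hv, hlin⟩ := hE n M A hP H hH φ hφ hK f hf
  have hm := lin_mean P hφ hK hv hlin (fun x => hN'.bdd x)
  refine ⟨fun x => v x - v x₀, m, fun i => (hv i).sub contDiffOn_const, ?_, ?_, ?_⟩
  · calc |m| ≤ 1 * N := by rw [one_mul]; exact hm
      _ ≤ max C 1 * N := mul_le_mul_of_nonneg_right (le_max_right _ _) hN0
  · have h1 := hb x₀ (fun x => v x - v x₀) f m N (fun i => (hv i).sub contDiffOn_const)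
      (linEq_sub hlin _) hN' (sub_self _)
    exact fun k => (h1 k).mono (mul_le_mul_of_nonneg_right (le_max_left _ _) hN0)
  · intro i z hz
    rw [lr, linEq_sub hlin (v x₀) i z hz, Complex.ofReal_re]
    rfl

/-- **Yau's theorem** from `C2Stmt`, `C3Stmt`, `LinExist` -/
theorem yau_from (h2 : C2Stmt) (h3 : C3Stmt) (hE : LinExist) : YauStmt :=
  yau_main c0_holds h2 h3 (lin_of hE)

end

end

end Crest.Agent.R281.Kp_487
end

-- ▼ part R281/Kp6_487
section

/-!
# R281 (S0424), Yau for general Kaehler forms (helper487): the C2 estimate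
(compare `R273.C2f_793`)
-/

set_option autoImplicit false
set_option linter.unusedSectionVars false

open Set Filter Topology Complex
open scoped ContDiff Matrix ComplexConjugate ComplexOrder

namespace Crest.Agent.R281.Kp_487

open Crest.Agent.R273

open Crest.Agent.R275.Geo Crest.Agent.R275.Core144 Crest.Agent.R275.GC293
open Crest.Agent.R275.OmT75
open Crest.Agent.R273.HM_333 Crest.Agent.R273.YauDefs_635 Crest.Agent.R273.YauCh_635
open Crest.Agent.R273.YauMax_635 Crest.Agent.R273.Kah_333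
open Crest.Agent.R273.Levi_145 Crest.Agent.R273.C2a_793 Crest.Agent.R273.C2b_793
open Crest.Agent.R273.C2c_793 Crest.Agent.R273.C2d_793 Crest.Agent.R273.C2e_793
open Crest.Agent.R273.C2f_793

noncomputable section

variable {n : ℕ} {M : Type} [TopologicalSpace M] {A : Atl n M}

theorem lv_wt_change (H : KP A) {i j : A.ι} {x : M}
    (hx : x ∈ (A.e i).source ∩ (A.e j).source) (v : Cn n) :
    lv (H.wt i) (A.e i x) v = lv (H.wt j) (A.e j x) (fderiv ℂ (Tm A i j) (A.e i x) v) := by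
  have := lev_wt_change H hx v
  rw [lev4, lev4] at this
  linarith

theorem lv_pot (H : KP A) {φ : M → ℝ} (hφ : A.Sm φ) {i : A.ι} {z : Cn n}
    (hz : z ∈ (A.e i).target) (v : Cn n) :
    lv (pot H φ i) z v = lv (H.wt i) z v + lv (inC A i φ) z v :=
  lev_add (wt_c2 H i hz) (inC_c2 hφ i hz) v

theorem lv_pot_change (H : KP A) {φ : M → ℝ} (hφ : A.Sm φ) {i j : A.ι} {x : M}
    (hx : x ∈ (A.e i).source ∩ (A.e j).source) (v : Cn n) :
    lv (pot H φ i) (A.e i x) v
      = lv (pot H φ j) (A.e j x) (fderiv ℂ (Tm A i j) (A.e i x) v) := by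
  rw [lv_pot H hφ ((A.e i).map_source hx.1), lv_pot H hφ ((A.e j).map_source hx.2),
    lv_wt_change H hx, lv_inC_change hφ hx]

/-- the quotient of the two metrics, times `e^{-aφ}` -/
def Rq (H : KP A) (φ : M → ℝ) (a : ℝ) (i : A.ι) (z v : Cn n) : ℝ :=
  lv (pot H φ i) z v / lv (H.wt i) z v * Real.exp (-(a * inC A i φ z))

theorem Rq_smul (H : KP A) (φ : M → ℝ) (a : ℝ) (i : A.ι) (z v : Cn n) {c : ℝ} (hc : c ≠ 0) :
    Rq H φ a i z (c • v) = Rq H φ a i z v := by
  unfold Rq
  rw [lv_smul_real, lv_smul_real, mul_div_mul_left _ _ (pow_ne_zero 2 hc)]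

theorem Rq_change (H : KP A) {φ : M → ℝ} (hφ : A.Sm φ) (a : ℝ) {i j : A.ι} {x : M}
    (hx : x ∈ (A.e i).source ∩ (A.e j).source) (v : Cn n) :
    Rq H φ a i (A.e i x) v = Rq H φ a j (A.e j x) (fderiv ℂ (Tm A i j) (A.e i x) v) := by
  unfold Rq
  rw [lv_pot_change H hφ hx, lv_wt_change H hx]
  simp only [inC, (A.e i).left_inv hx.1, (A.e j).left_inv hx.2]

theorem Rq_cont (H : KP A) (hH : H.Pos) {φ : M → ℝ} (hφ : A.Sm φ) (a : ℝ) (i : A.ι)
    {K : Set (Cn n)} (hK : K ⊆ (A.e i).target) :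
    ContinuousOn (fun p : Cn n × Cn n => Rq H φ a i p.1 p.2)
      (K ×ˢ Metric.sphere (0 : Cn n) 1) := by
  have hsub : K ×ˢ Metric.sphere (0 : Cn n) 1 ⊆ (A.e i).target ×ˢ (univ : Set (Cn n)) :=
    prod_mono hK (subset_univ _)
  have hw : ContDiffOn ℝ 2 (H.wt i) (A.e i).target := (wt_smooth H i).of_le two_le_inf
  have hf : ContDiffOn ℝ 2 (inC A i φ) (A.e i).target := (inC_smooth hφ i).of_le two_le_inf
  have hp : ContDiffOn ℝ 2 (pot H φ i) (A.e i).target := hw.add hf
  have h1 := (continuousOn_lev (A.e i).open_target hp).mono hsub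
  have h2 := (continuousOn_lev (A.e i).open_target hw).mono hsub
  have h3 : ContinuousOn (fun p : Cn n × Cn n => inC A i φ p.1) (K ×ˢ Metric.sphere (0 : Cn n) 1) :=
    (hf.continuousOn.comp continuousOn_fst fun p hp => hp.1).mono hsub
  have h4 : ContinuousOn (fun p : Cn n × Cn n => Real.exp (-(a * inC A i φ p.1)))
      (K ×ˢ Metric.sphere (0 : Cn n) 1) := (continuousOn_const.mul h3).neg.rexp
  have h5 : ContinuousOn (fun p : Cn n × Cn n =>
      Defs_333.lev (pot H φ i) p.1 p.2 / Defs_333.lev (H.wt i) p.1 p.2)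
      (K ×ˢ Metric.sphere (0 : Cn n) 1) := by
    refine h1.div h2 fun p hp => ?_
    have hv : p.2 ≠ 0 := by
      intro h0
      have := hp.2
      rw [mem_sphere_zero_iff_norm, h0, norm_zero] at this
      exact zero_ne_one this
    exact (hH i p.1 (hK hp.1) p.2 hv).ne'
  refine (h5.mul h4).congr fun p _ => ?_
  show Rq H φ a i p.1 p.2 = Defs_333.lev (pot H φ i) p.1 p.2 / Defs_333.lev (H.wt i) p.1 p.2 *
    Real.exp (-(a * inC A i φ p.1))
  unfold Rq
  rw [lev4, lev4, mul_div_mul_left _ _ (by norm_num : (4 : ℝ) ≠ 0)]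

theorem wt_pos {H : KP A} (hH : H.Pos) {i : A.ι} {z : Cn n} (hz : z ∈ (A.e i).target) (v : Cn n)
    (hv : v ≠ 0) : 0 < lv (H.wt i) z v := by
  have := hH i z hz v hv
  rw [lev4] at this
  linarith

theorem pot_pos {H : KP A} {φ : M → ℝ} (hK : KPos H φ) {i : A.ι} {z : Cn n}
    (hz : z ∈ (A.e i).target) (v : Cn n) (hv : v ≠ 0) : 0 < lv (pot H φ i) z v := by
  have := hK i z hz v hv
  rw [lev4] at this
  linarith

/-- a finite cover by compact coordinate balls with uniform constants of the background metric -/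
theorem exists_cover [CompactSpace M] {H : KP A} (hH : H.Pos) :
    ∃ (t : Finset M) (j : M → A.ι) (ρ : M → ℝ) (β γ : ℝ), 0 ≤ β ∧ 0 ≤ γ ∧
      (∀ x ∈ t, Metric.closedBall (A.e (j x) x) (ρ x) ⊆ (A.e (j x)).target) ∧
      (∀ y : M, ∃ x ∈ t, y ∈ (A.e (j x)).source ∧
        A.e (j x) y ∈ Metric.closedBall (A.e (j x) x) (ρ x)) ∧
      (∀ x ∈ t, ∀ z ∈ Metric.closedBall (A.e (j x) x) (ρ x), ∀ v : Cn n, v ≠ 0 →
        ∃ B : Cn n →L[ℂ] Cn n, ∀ ξ,
          lv (fun y => Real.log (QV (H.wt (j x)) (aff z v B) y)) z ξ ≤ β * lv (H.wt (j x)) z ξ) ∧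
      (∀ x ∈ t, ∀ z ∈ Metric.closedBall (A.e (j x) x) (ρ x), ∀ v : Cn n,
        |lv (ld (H.wt (j x))) z v| ≤ γ * lv (H.wt (j x)) z v) := by
  have key : ∀ x : M, ∃ (j : A.ι) (ρ β γ : ℝ), x ∈ (A.e j).source ∧ 0 < ρ ∧ 0 ≤ β ∧ 0 ≤ γ ∧
      Metric.closedBall (A.e j x) ρ ⊆ (A.e j).target ∧
      (∀ z ∈ Metric.closedBall (A.e j x) ρ, ∀ v : Cn n, v ≠ 0 →
        ∃ B : Cn n →L[ℂ] Cn n, ∀ ξ,
          lv (fun y => Real.log (QV (H.wt j) (aff z v B) y)) z ξ ≤ β * lv (H.wt j) z ξ) ∧
      (∀ z ∈ Metric.closedBall (A.e j x) ρ, ∀ v : Cn n,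
        |lv (ld (H.wt j)) z v| ≤ γ * lv (H.wt j) z v) := by
    intro x
    obtain ⟨j, hj⟩ := A.cover x
    have ht := (A.e j).map_source hj
    obtain ⟨ρ, hρ, hρs⟩ := Metric.nhds_basis_closedBall.mem_iff.1 ((A.e j).open_target.mem_nhds ht)
    have hK : IsCompact (Metric.closedBall (A.e j x) ρ) := isCompact_closedBall _ _
    obtain ⟨β, hβ0, hβ⟩ := field_bound (A.e j).open_target (wt_smooth H j)
      (fun z hz v hv => wt_pos hH hz v hv) hK hρs
    obtain ⟨γ, hγ0, hγ⟩ := ld_bound (A.e j).open_target (wt_smooth H j)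
      (fun z hz v hv => wt_pos hH hz v hv) hK hρs
    exact ⟨j, ρ, β, γ, hj, hρ, hβ0, hγ0, hρs, hβ, hγ⟩
  choose j ρ β γ hj hρ hβ0 hγ0 hs hβ hγ using key
  have hV : ∀ x, (A.e (j x)).source ∩ (A.e (j x)) ⁻¹' Metric.ball (A.e (j x) x) (ρ x) ∈ 𝓝 x :=
    fun x => ((A.e (j x)).isOpen_inter_preimage Metric.isOpen_ball).mem_nhds
      ⟨hj x, Metric.mem_ball_self (hρ x)⟩
  obtain ⟨t, ht⟩ := CompactSpace.elim_nhds_subcover _ hV
  refine ⟨t, j, ρ, ∑ x ∈ t, β x, ∑ x ∈ t, γ x, Finset.sum_nonneg fun x _ => hβ0 x,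
    Finset.sum_nonneg fun x _ => hγ0 x, fun x _ => hs x, fun y => ?_, fun x hx z hz v hv => ?_,
    fun x hx z hz v => ?_⟩
  · have h1 : y ∈ (⊤ : Set M) := mem_univ _
    rw [← ht] at h1
    simp only [mem_iUnion, exists_prop] at h1
    obtain ⟨x, hxt, hx1, hx2⟩ := h1
    exact ⟨x, hxt, hx1, Metric.ball_subset_closedBall hx2⟩
  · obtain ⟨B, hB⟩ := hβ x z hz v hv
    refine ⟨B, fun ξ => (hB ξ).trans (mul_le_mul_of_nonneg_right
      (Finset.single_le_sum (f := β) (fun y _ => hβ0 y) hx) ?_)⟩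
    exact lev_nn_zero (fun v hv => wt_pos hH (hs x hz) v hv) ξ
  · exact (hγ x z hz v).trans (mul_le_mul_of_nonneg_right
      (Finset.single_le_sum (f := γ) (fun y _ => hγ0 y) hx)
      (lev_nn_zero (fun v hv => wt_pos hH (hs x hz) v hv) v))

/-- **the estimate `u ≤ C w`** -/
theorem upper [CompactSpace M] [Nonempty M] {H : KP A} (hH : H.Pos) {K : ℝ} (hK0 : 0 ≤ K) :
    ∃ C : ℝ, 0 < C ∧ ∀ φ f : M → ℝ, A.Sm φ → A.Sm f → KPos H φ → MA H φ f → (∀ x, |f x| ≤ K) →
        (∀ i, ∀ z ∈ (A.e i).target, ∀ v, -(K * lv (H.wt i) z v) ≤ lv (inC A i f) z v) →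
        (∀ x y, φ x - φ y ≤ K) →
        ∀ i, ∀ z ∈ (A.e i).target, ∀ v, lv (pot H φ i) z v ≤ C * lv (H.wt i) z v := by
  obtain ⟨t, j, ρ, β, γ, hβ0, hγ0, hs, hcov, hβ, hγ⟩ := exists_cover (A := A) hH
  set a : ℝ := K + γ + β + 1 with ha
  have ha0 : 0 < a := by positivity
  have hC0 : 0 < Real.exp K * (a * n) ^ (n - 1) * Real.exp (a * K) := by
    have : 0 < (a * n) ^ (n - 1) := by
      rcases Nat.eq_zero_or_pos n with h0 | h0
      · subst h0; simp
      · positivity
    positivity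
  refine ⟨_, hC0, fun φ f hφ hf hKP hMA hfK hfl hosc i z hz v => ?_⟩
  rcases eq_or_ne v 0 with hv | hv
  · subst hv
    rw [lv, lv, Levi_145.lev_zero, Levi_145.lev_zero, mul_zero]
  have hz' : (A.e i).symm z ∈ (A.e i).source := (A.e i).map_target hz
  -- the maximum over the finite cover
  have hsph : (Metric.sphere (0 : Cn n) 1).Nonempty := ⟨_, mem_sphere_norm hv⟩
  have hmx : ∀ x ∈ t, (0 ≤ ρ x) → ∃ p ∈ Metric.closedBall (A.e (j x) x) (ρ x) ×ˢ
      Metric.sphere (0 : Cn n) 1, ∀ q ∈ Metric.closedBall (A.e (j x) x) (ρ x) ×ˢ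
      Metric.sphere (0 : Cn n) 1, Rq H φ a (j x) q.1 q.2 ≤ Rq H φ a (j x) p.1 p.2 := by
    intro x hx hρ
    obtain ⟨p, hp, hp2⟩ := ((isCompact_closedBall (A.e (j x) x) (ρ x)).prod
      (isCompact_sphere (0 : Cn n) 1)).exists_isMaxOn
      ((Metric.nonempty_closedBall.2 hρ).prod hsph) (Rq_cont H hH hφ a (j x) (hs x hx))
    exact ⟨p, hp, fun q hq => hp2 hq⟩
  choose! p hp hp2 using hmx
  set t' : Finset M := t.filter fun x => 0 ≤ ρ x with ht'
  have hmem : ∀ x, x ∈ t' ↔ x ∈ t ∧ 0 ≤ ρ x := fun x => by rw [ht', Finset.mem_filter]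
  have hcov' : ∀ y : M, ∃ x ∈ t', y ∈ (A.e (j x)).source ∧
        A.e (j x) y ∈ Metric.closedBall (A.e (j x) x) (ρ x) := by
    intro y
    obtain ⟨x, hx, h1, h2⟩ := hcov y
    refine ⟨x, (hmem x).2 ⟨hx, ?_⟩, h1, h2⟩
    exact dist_nonneg.trans (Metric.mem_closedBall.1 h2)
  have hne : t'.Nonempty := by
    obtain ⟨x, hx, -⟩ := hcov' (Classical.arbitrary M)
    exact ⟨x, hx⟩
  obtain ⟨x₀, hx₀, hx₀m⟩ := Finset.exists_max_image t'
    (fun x => Rq H φ a (j x) (p x).1 (p x).2) hne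
  obtain ⟨hx₀t, hx₀ρ⟩ := (hmem x₀).1 hx₀
  -- `Rq` is bounded by its value at the maximum point
  have hglob : ∀ i, ∀ z ∈ (A.e i).target, ∀ v : Cn n, v ≠ 0 →
      Rq H φ a i z v ≤ Rq H φ a (j x₀) (p x₀).1 (p x₀).2 := by
    intro i z hz v hv
    have hy := (A.e i).map_target hz
    obtain ⟨x, hx, h1, h2⟩ := hcov' ((A.e i).symm z)
    obtain ⟨hxt, hxρ⟩ := (hmem x).1 hx
    have e1 := Rq_change H hφ a (i := i) (j := j x) ⟨hy, h1⟩ v
    rw [(A.e i).right_inv hz] at e1
    set v' := fderiv ℂ (Tm A i (j x)) z v with hv'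
    have hv'0 : v' ≠ 0 := by
      intro h0
      have e2 := lv_wt_change H (i := i) (j := j x) ⟨hy, h1⟩ v
      rw [(A.e i).right_inv hz, ← hv', h0, lv, lv, Levi_145.lev_zero] at e2
      exact (wt_pos hH hz v hv).ne' e2
    rw [e1, ← Rq_smul H φ a (j x) _ v' (inv_ne_zero (norm_ne_zero_iff.2 hv'0))]
    refine (hp2 x hxt hxρ (A.e (j x) ((A.e i).symm z), (‖v'‖⁻¹ : ℝ) • v')
      ⟨h2, mem_sphere_norm hv'0⟩).trans ?_
    exact hx₀m x hx
  -- the maximum point
  set k := j x₀ with hk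
  set y₀ : Cn n := (p x₀).1 with hy₀
  set v₀ : Cn n := (p x₀).2 with hv₀
  have hpx := hp x₀ hx₀t hx₀ρ
  have hy₀b : y₀ ∈ Metric.closedBall (A.e k x₀) (ρ x₀) := hpx.1
  have hy₀t : y₀ ∈ (A.e k).target := hs x₀ hx₀t hy₀b
  have hv₀0 : v₀ ≠ 0 := by
    intro h0
    have := hpx.2
    rw [mem_sphere_zero_iff_norm] at this
    rw [← hv₀, h0, norm_zero] at this
    exact zero_ne_one this
  obtain ⟨B, hB⟩ := hβ x₀ hx₀t y₀ hy₀b v₀ hv₀0
  have hnh : ∀ᶠ z in 𝓝 y₀, z ∈ (A.e k).target := (A.e k).open_target.mem_nhds hy₀t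
  have hVc : ∀ᶠ z in 𝓝 y₀, aff y₀ v₀ B z ≠ 0 := by
    have h1 : ContinuousAt (aff y₀ v₀ B) y₀ := (diff_aff y₀ v₀ B y₀).continuousAt
    refine h1.eventually_ne ?_
    rw [aff_self]
    exact hv₀0
  have hlocmax : IsLocalMax (fun z => Real.log (QV (pot H φ k) (aff y₀ v₀ B) z)
      - Real.log (QV (H.wt k) (aff y₀ v₀ B) z) - a * (pot H φ k z - H.wt k z)) y₀ := by
    have hlogR : ∀ z ∈ (A.e k).target, ∀ v : Cn n, v ≠ 0 → Real.log (Rq H φ a k z v) =
        Real.log (lv (pot H φ k) z v) - Real.log (lv (H.wt k) z v)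
          - a * (pot H φ k z - H.wt k z) := by
      intro z hz v hv
      have h1 := pot_pos hKP hz v hv
      have h2 := wt_pos hH hz v hv
      rw [Rq, Real.log_mul (by positivity) (Real.exp_pos _).ne', Real.log_div h1.ne' h2.ne',
        Real.log_exp]
      simp only [pot]
      ring
    filter_upwards [hnh, hVc] with z h1 h2
    have h3 := hglob k z h1 _ h2
    have h4 : 0 < Rq H φ a k z (aff y₀ v₀ B z) := by
      have h5 := pot_pos hKP h1 _ h2
      have h6 := wt_pos hH h1 _ h2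
      unfold Rq
      positivity
    have h5 := Real.log_le_log h4 h3
    rw [hlogR z h1 _ h2, hlogR y₀ hy₀t _ hv₀0] at h5
    simp only [QV, aff_self]
    exact h5
  have hMAe : ∀ᶠ z in 𝓝 y₀, (Um (pot H φ k) z).det =
      (Real.exp (inC A k f z) : ℂ) * (Um (H.wt k) z).det := by
    filter_upwards [hnh] with z hz
    rw [Um_eq_cH (sm2 (pot_contDiffAt H hφ k hz)), Um_eq_cH (wt_c2 H k hz)]
    exact hMA k z hz
  have hγ' := abs_le.1 (hγ x₀ hx₀t y₀ hy₀b v₀)
  have hf' := hfl k y₀ hy₀t v₀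
  have hwsm : ContDiffAt ℝ ∞ (H.wt k) y₀ := wt_contDiffAt H k hy₀t
  have hest := at_max (x := y₀) (V := aff y₀ v₀ B) (β := β) (γ := γ) (K := K) (A := a)
    hwsm (pot_contDiffAt H hφ k hy₀t) (inC_contDiffAt hf k hy₀t)
    (wt_pos hH hy₀t) (pot_pos hKP hy₀t) hMAe (Eventually.of_forall (diff_aff y₀ v₀ B))
    (by rw [aff_self]; exact hv₀0) hB (by rw [aff_self]; exact hγ'.1)
    (by rw [aff_self]; exact hf') hγ0 hK0 ha hlocmax v₀
  -- conclusion
  have hw0 := wt_pos hH hy₀t v₀ hv₀0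
  have hwz := wt_pos hH hz v hv
  have h1 := hglob i z hz v hv
  set m : ℝ := (a * n) ^ (n - 1) with hm
  have hm0 : 0 ≤ m := by positivity
  have h2 : lv (pot H φ k) y₀ v₀ / lv (H.wt k) y₀ v₀ ≤ Real.exp K * m := by
    rw [div_le_iff₀ hw0]
    refine hest.trans ?_
    have h3 : inC A k f y₀ ≤ K := (le_abs_self _).trans (hfK _)
    have h4 : Real.exp (inC A k f y₀) ≤ Real.exp K := Real.exp_le_exp.2 h3
    gcongr
  have h5 : Rq H φ a k y₀ v₀ ≤ Real.exp K * m * Real.exp (-(a * inC A k φ y₀)) := by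
    unfold Rq
    gcongr
  have h6 := h1.trans h5
  unfold Rq at h6
  have h7 : lv (pot H φ i) z v / lv (H.wt i) z v ≤
      Real.exp K * m * Real.exp (-(a * inC A k φ y₀)) * Real.exp (a * inC A i φ z) := by
    calc lv (pot H φ i) z v / lv (H.wt i) z v
        = lv (pot H φ i) z v / lv (H.wt i) z v * Real.exp (-(a * inC A i φ z)) *
            Real.exp (a * inC A i φ z) := by
          rw [mul_assoc, ← Real.exp_add]; simp
      _ ≤ _ := by gcongr
  have h8 : Real.exp (-(a * inC A k φ y₀)) * Real.exp (a * inC A i φ z) ≤ Real.exp (a * K) := by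
    rw [← Real.exp_add]
    refine Real.exp_le_exp.2 ?_
    have h9 := hosc ((A.e i).symm z) ((A.e k).symm y₀)
    have h10 : -(a * inC A k φ y₀) + a * inC A i φ z = a * (inC A i φ z - inC A k φ y₀) := by ring
    rw [h10]
    exact mul_le_mul_of_nonneg_left h9 ha0.le
  rw [mul_assoc] at h7
  have h11 := h7.trans (mul_le_mul_of_nonneg_left h8 (by positivity))
  rwa [div_le_iff₀ hwz] at h11

/-- **the `C²` estimate, one-sided form**: only a lower bound of `i∂∂̄f` is needed (this covers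
`f = F + φ`, the negative Aubin-Yau equation, since `i∂∂̄φ ≥ -ω`) -/
theorem c2_gen [CompactSpace M] [Nonempty M] {H : KP A} (hH : H.Pos) (K : ℝ) :
    ∃ C : ℝ, 0 < C ∧ ∀ φ f : M → ℝ, A.Sm φ → A.Sm f → KPos H φ → MA H φ f → (∀ x, |f x| ≤ K) →
        (∀ i, ∀ z ∈ (A.e i).target, ∀ v,
          -(K * Defs_333.lev (H.wt i) z v) ≤ Defs_333.lev (inC A i f) z v) →
        (∀ x y, φ x - φ y ≤ K) →
        ∀ i, ∀ z ∈ (A.e i).target, ∀ v,
          Defs_333.lev (pot H φ i) z v ≤ C * Defs_333.lev (H.wt i) z v ∧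
            Defs_333.lev (H.wt i) z v ≤ C * Defs_333.lev (pot H φ i) z v := by
  obtain ⟨C, hC0, hC⟩ := upper (A := A) hH (le_max_right K 0)
  set K' := max K 0 with hK'
  have hKK : K ≤ K' := le_max_left _ _
  set C2 : ℝ := Real.exp K' * C ^ (n - 1) with hC2
  have hC20 : 0 < C2 := by positivity
  refine ⟨C + C2, by positivity, fun φ f hφ hf hKP hMA hfK hfl hosc i z hz v => ?_⟩
  have hwn : ∀ i, ∀ z ∈ (A.e i).target, ∀ v, 0 ≤ lv (H.wt i) z v := fun i z hz v =>
    lev_nn_zero (fun v hv => wt_pos hH hz v hv) v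
  have hun : ∀ i, ∀ z ∈ (A.e i).target, ∀ v, 0 ≤ lv (pot H φ i) z v := fun i z hz v =>
    lev_nn_zero (fun v hv => pot_pos hKP hz v hv) v
  have hup := hC φ f hφ hf hKP hMA (fun x => (hfK x).trans hKK) (fun i z hz v => by
    have h1 := hfl i z hz v
    rw [lev4, lev4] at h1
    have h2 := hwn i z hz v
    have h3 : K * lv (H.wt i) z v ≤ K' * lv (H.wt i) z v := mul_le_mul_of_nonneg_right hKK h2
    linarith) (fun x y => (hosc x y).trans hKK)
  have hlow : lv (H.wt i) z v ≤ C2 * lv (pot H φ i) z v := by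
    have hu := pot_contDiffAt H hφ i hz
    have hw : ContDiffAt ℝ ∞ (H.wt i) z := wt_contDiffAt H i hz
    have hd : (Um (H.wt i) z).det = ((Real.exp (-(inC A i f z)) : ℝ) : ℂ) *
        (Um (pot H φ i) z).det := by
      rw [Um_eq_cH (sm2 hu), Um_eq_cH (sm2 hw), hMA i z hz, ← mul_assoc, ← Complex.ofReal_mul,
        ← Real.exp_add]
      simp
    have h1 := lev_le_of_det (x := z) hw hu (Um_posDef (sm2 hu) (pot_pos hKP hz)) hC0
      (hup i z hz) hd v
    refine h1.trans (mul_le_mul_of_nonneg_right ?_ (hun i z hz v))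
    have h2 : -(inC A i f z) ≤ K' := by
      have := (abs_le.1 ((hfK ((A.e i).symm z)).trans hKK)).1
      simp only [inC]
      linarith
    have h3 := Real.exp_le_exp.2 h2
    exact mul_le_mul_of_nonneg_right h3 (by positivity)
  have h1 := hup i z hz v
  have h2 := hwn i z hz v
  have h3 := hun i z hz v
  rw [lev4, lev4]
  constructor
  · nlinarith [mul_nonneg hC20.le h2]
  · nlinarith [mul_nonneg hC0.le h3]

/-- **the `C²` estimate** -/
theorem c2_holds : C2Stmt := by
  intro n M _ _ _ _ A _ _ H hH K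
  obtain ⟨C, hC0, hC⟩ := c2_gen (A := A) hH K
  exact ⟨C, hC0, fun φ f hφ hf hKP hMA hfK hfl hosc =>
    hC φ f hφ hf hKP hMA hfK (fun i z hz v => (abs_le.1 (hfl i z hz v)).1) hosc⟩

end

end Crest.Agent.R281.Kp_487
end

-- ▼ part R281/Kp8_487
section

/-!
# R281 (S0424), Yau for general Kaehler forms (helper487): assembly

* `yauKP : YauStmt` : Yau's theorem for a Kaehler form given by local potentials `H : KP A` on the
  charts of a finite atlas with a partition of unity (no line bundle, no convexity of the atlas)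
* `yau_cur` : the same for the matrices `cur H i x` (compare `R273.YauKah_635`)
-/

set_option autoImplicit false
set_option linter.unusedSectionVars false

open Set Filter Topology Complex
open scoped ContDiff Matrix ComplexConjugate ComplexOrder

namespace Crest.Agent.R281.Kp_487

open Crest.Agent.R273
open Crest.Agent.R275.Geo Crest.Agent.R275.Core144 Crest.Agent.R275.GC293
open Crest.Agent.R273.Defs_333 Crest.Agent.R273.YauDefs_635 Crest.Agent.R273.HM_333
open Crest.Agent.R273.YauCh_635 Crest.Agent.R273.Hess_333 Crest.Agent.R273.HessB_333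
open Crest.Agent.R273.Kah_333 Crest.Agent.R273.YauMax_635 Crest.Agent.R273.Vol_333

noncomputable section

theorem linExist : LinExist := by
  intro n M _ _ _ _ A _ hP H hH φ hφ hK f hf
  obtain ⟨P⟩ := id hP
  exact lin_exist P H hφ hK hf



/-- **Yau's theorem** for a Kaehler form given by local potentials -/
theorem yauKP : YauStmt := yau_from c2_holds YauC3_812.c3Stmt linExist

variable {n : ℕ} {M : Type} [TopologicalSpace M] {A : Atl n M}

/-- Yau's theorem for the matrices of the form -/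
theorem yau_cur [T2Space M] [CompactSpace M] [ConnectedSpace M] [Finite A.ι]
    (hP : Nonempty (Part A)) {H : KP A} (hp : H.Pos) {F : M → ℝ} (hF : A.Sm F) :
    ∃ (u : M → ℝ) (c : ℝ), A.Sm u ∧ ∀ i, ∀ x ∈ (A.e i).source,
      (cur H i x + hsf A u i x).PosDef ∧
        (cur H i x + hsf A u i x).det = ((Real.exp (F x + c) : ℝ) : ℂ) * (cur H i x).det := by
  obtain ⟨φ, c, h1, h2, h3⟩ := yauKP n M A hP H hp F hF
  refine ⟨φ, c, h1, fun i x hx => ?_⟩
  have hz := (A.e i).map_source hx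
  have e1 : cur H i x + hsf A φ i x = hess (pot H φ i) (A.e i x) := (hess_pot H h1 i hz).symm
  have h4 := h3 i _ hz
  rw [cH_eq_hess (pot_contDiffAt H h1 i hz), cH_eq_hess (wt_contDiffAt H i hz)] at h4
  simp only [inC, (A.e i).left_inv hx] at h4
  rw [e1]
  exact ⟨posDef_hess (pot_contDiffAt H h1 i hz) (h2 i _ hz), h4⟩

end

end Crest.Agent.R281.Kp_487
end

-- ▼ part R281/KpK_487

/-!
# R281 (S0424), YAU-GEN (helper487): Yau's theorem for every `Kah A`

* `hess_rd`, `hsf_up`, `sm_up` : change of atlas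
* `exists_pot` : local potentials of a Kaehler metric
* `exists_kp`  : a finite atlas on which a given Kaehler metric has potentials
* `yau_kah : Vol_333.Yau A` for every atlas of a compact connected Hausdorff space
* `yau_kah'`   : the same with a Kaehler metric `K'` as output
-/

set_option autoImplicit false
set_option linter.unusedSectionVars false

open Set Filter Topology Complex
open scoped ContDiff Matrix ComplexConjugate ComplexOrder

namespace Crest.Agent.R281.KpK_487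

open Crest.Agent.R273
open Crest.Agent.R275.Geo Crest.Agent.R275.Core144 Crest.Agent.R275.GC293 Crest.Agent.R275.EDR890
open Crest.Agent.R273.Defs_333 Crest.Agent.R273.Hess_333 Crest.Agent.R273.HessB_333
open Crest.Agent.R273.Kah_333 Crest.Agent.R273.Vol_333 Crest.Agent.R273.Map_835
open Crest.Agent.R273.PB_835 Crest.Agent.R273.Fam_835
open Crest.Agent.R281.KpD_487 Crest.Agent.R281.KpE_487 Crest.Agent.R281
open Crest.Agent.R281.Kp_487 (KP yau_cur)

noncomputable section

variable {n : ℕ} {M : Type} [TopologicalSpace M] {A A' : Atl n M}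

/-! ### change of atlas -/

theorem rd_smooth (h : HolMap A' A id) {k : A'.ι} {i : A.ι} {z : Cn n}
    (hz : z ∈ dm A' A id k i) : ContDiffAt ℝ ∞ (Map_835.rd A' A id k i) z :=
  ((h.analyticAt hz).contDiffAt (n := ∞)).restrict_scalars ℝ

theorem rd_val {k : A'.ι} {i : A.ι} {y : M} (hk : y ∈ (A'.e k).source) :
    Map_835.rd A' A id k i (A'.e k y) = A.e i y := by
  simp only [Map_835.rd, id, (A'.e k).left_inv hk]

/-- Hessians under a change of atlas -/
theorem hess_rd (h : HolMap A' A id) {v : Cn n → ℝ} {k : A'.ι} {i : A.ι} {y : M}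
    (hk : y ∈ (A'.e k).source) (hi : y ∈ (A.e i).source) (hv : ContDiffAt ℝ ∞ v (A.e i y)) :
    hess (fun w => v (Map_835.rd A' A id k i w)) (A'.e k y) =
      (Jp A' A id k i y)ᵀ * hess v (A.e i y) * (Jp A' A id k i y).map conj := by
  have hz : A'.e k y ∈ dm A' A id k i := mem_dm hk hi
  have hT : ∀ᶠ w in 𝓝 (A'.e k y), DifferentiableAt ℂ (Map_835.rd A' A id k i) w := by
    filter_upwards [(h.isOpen_dm k i).mem_nhds hz] with w hw
    exact h.diffAt hw
  have hv' : ContDiffAt ℝ ∞ v (Map_835.rd A' A id k i (A'.e k y)) := by rwa [rd_val hk]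
  ext a b
  rw [hess_comp (u := v) (T := Map_835.rd A' A id k i) hv' hT, rd_val hk]
  simp only [Matrix.mul_apply, Matrix.transpose_apply, Matrix.map_apply, Finset.sum_mul]
  rw [Finset.sum_comm]
  rfl

theorem sm_up (h : HolMap A' A id) {F : M → ℝ} (hF : A.Sm F) : A'.Sm F := by
  intro k z hz
  refine ContDiffAt.contDiffWithinAt ?_
  have hy := (A'.e k).map_target hz
  obtain ⟨i, hi⟩ := A.cover ((A'.e k).symm z)
  have hd : z ∈ dm A' A id k i := ⟨hz, hi⟩
  have h1 : ContDiffAt ℝ ∞ (fun w => F ((A.e i).symm w)) (Map_835.rd A' A id k i z) :=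
    (hF i).contDiffAt ((A.e i).open_target.mem_nhds ((A.e i).map_source hi))
  have h2 : ContDiffAt ℝ ∞ (fun w => F ((A.e i).symm (Map_835.rd A' A id k i w))) z :=
    ContDiffAt.comp z (g := fun w => F ((A.e i).symm w)) (f := Map_835.rd A' A id k i) h1 (rd_smooth h hd)
  refine h2.congr_of_eventuallyEq ?_
  filter_upwards [(h.isOpen_dm k i).mem_nhds hd] with w hw
  show _ = F ((A.e i).symm (A.e i (id ((A'.e k).symm w))))
  rw [(A.e i).left_inv hw.2]
  rfl

theorem hsf_up (h : HolMap A' A id) {u : M → ℝ} (hu : A.Sm u) {k : A'.ι} {i : A.ι} {y : M}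
    (hk : y ∈ (A'.e k).source) (hi : y ∈ (A.e i).source) :
    hsf A' u k y = (Jp A' A id k i y)ᵀ * hsf A u i y * (Jp A' A id k i y).map conj := by
  have hz : A'.e k y ∈ dm A' A id k i := mem_dm hk hi
  have h1 := hess_rd h hk hi (sm_contDiffAt hu i ((A.e i).map_source hi))
  rw [hsf, hsf, ← h1]
  refine hess_congr ?_
  filter_upwards [(h.isOpen_dm k i).mem_nhds hz] with w hw
  show _ = u ((A.e i).symm (A.e i (id ((A'.e k).symm w))))
  rw [(A.e i).left_inv hw.2]
  rfl

/-- independence of the chart of the old atlas -/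
theorem tr_indep (h : HolMap A' A id) (K : Kah A) {k : A'.ι} {i j : A.ι} {y : M}
    (hk : y ∈ (A'.e k).source) (hi : y ∈ (A.e i).source) (hj : y ∈ (A.e j).source) :
    (Jp A' A id k i y)ᵀ * K.g i y * (Jp A' A id k i y).map conj =
      (Jp A' A id k j y)ᵀ * K.g j y * (Jp A' A id k j y).map conj := by
  have h1 : Jp A A id i j y * Jp A' A id k i y = Jp A' A id k j y :=
    Jp_comp (holMap_id A) h (i := k) (j := i) (l := j) (x := y) hk hi hj
  have h2 : Jm A i j y = Jp A A id i j y := rfl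
  rw [K.tr i j y ⟨hi, hj⟩, h2, ← h1, Matrix.transpose_mul]
  have h3 : (Jp A A id i j y * Jp A' A id k i y).map conj =
      (Jp A A id i j y).map conj * (Jp A' A id k i y).map conj :=
    Matrix.map_mul (f := (starRingEnd ℂ))
  rw [h3]
  simp only [Matrix.mul_assoc]

/-! ### matrices -/

theorem map_conj_conjTranspose (J : Matrix (Fin n) (Fin n) ℂ) : (J.map conj)ᴴ = Jᵀ := by
  ext a b
  simp [Matrix.conjTranspose_apply, Matrix.transpose_apply]

theorem det_map_conj (J : Matrix (Fin n) (Fin n) ℂ) : (J.map conj).det = conj J.det := by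
  rw [← RingHom.mapMatrix_apply, ← RingHom.map_det]

theorem posDef_iff {J B : Matrix (Fin n) (Fin n) ℂ} (hJ : J.det ≠ 0) :
    (Jᵀ * B * J.map conj).PosDef ↔ B.PosDef := by
  have key : ∀ {J B : Matrix (Fin n) (Fin n) ℂ}, J.det ≠ 0 → B.PosDef →
      (Jᵀ * B * J.map conj).PosDef := by
    intro J B hJ hB
    have hunit : IsUnit (J.map conj) := by
      rw [Matrix.isUnit_iff_isUnit_det, isUnit_iff_ne_zero, det_map_conj]
      simpa using hJ
    rw [← map_conj_conjTranspose]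
    exact hB.conjTranspose_mul_mul_same (Matrix.mulVec_injective_iff_isUnit.2 hunit)
  refine ⟨fun h => ?_, key hJ⟩
  have hu : IsUnit J.det := isUnit_iff_ne_zero.2 hJ
  have hJi : (J⁻¹).det ≠ 0 := by
    rw [Matrix.det_nonsing_inv]
    simpa using hJ
  have h1 := key hJi h
  have h2 : (J⁻¹)ᵀ * (Jᵀ * B * J.map conj) * (J⁻¹).map conj = B := by
    have e1 : (J⁻¹)ᵀ * Jᵀ = 1 := by
      rw [← Matrix.transpose_mul, Matrix.mul_nonsing_inv _ hu, Matrix.transpose_one]
    have e2 : J.map conj * (J⁻¹).map conj = 1 := by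
      have e3 : (J * J⁻¹).map conj = J.map conj * (J⁻¹).map conj :=
        Matrix.map_mul (f := (starRingEnd ℂ))
      rw [← e3, Matrix.mul_nonsing_inv _ hu]
      ext a b
      by_cases hab : a = b <;> simp [Matrix.one_apply, hab]
    calc _ = ((J⁻¹)ᵀ * Jᵀ) * B * (J.map conj * (J⁻¹).map conj) := by
          simp only [Matrix.mul_assoc]
      _ = B := by rw [e1, e2, Matrix.one_mul, Matrix.mul_one]
  rwa [h2] at h1

theorem det_eq_iff {J B C : Matrix (Fin n) (Fin n) ℂ} (hJ : J.det ≠ 0) {c : ℂ}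
    (h : (Jᵀ * B * J.map conj).det = c * (Jᵀ * C * J.map conj).det) : B.det = c * C.det := by
  rw [Matrix.det_mul, Matrix.det_mul, Matrix.det_mul, Matrix.det_mul, Matrix.det_transpose,
    det_map_conj] at h
  have h3 : conj J.det ≠ 0 := by simpa using hJ
  have h4 : (J.det * conj J.det) * (B.det - c * C.det) = 0 := by
    linear_combination h
  rcases mul_eq_zero.1 h4 with h5 | h5
  · exact absurd h5 (mul_ne_zero hJ h3)
  · exact sub_eq_zero.1 h5

/-! ### potentials -/

/-- local potentials of a Kaehler metric near every point -/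
theorem exists_pot (K : Kah A) (x : M) : ∃ (i : A.ι) (s : ℝ) (u : Cn n → ℝ), 0 < s ∧
    x ∈ (A.e i).source ∧ PD (A.e i x) s ⊆ (A.e i).target ∧ ContDiff ℝ ∞ u ∧
    ∀ z ∈ PD (A.e i x) s, hess u z = K.g i ((A.e i).symm z) := by
  obtain ⟨i, hi⟩ := A.cover x
  obtain ⟨r, hr, hrs⟩ := exists_PD_subset ((A.e i).open_target.mem_nhds ((A.e i).map_source hi))
  obtain ⟨s, hs, hsr, u, hu1, hu2⟩ := ddbar_local (p := A.e i x) hr
    (g := fun z => K.g i ((A.e i).symm z))
    (fun a b => (K.sm i a b).mono hrs)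
    (fun z hz => (K.pos i _ ((A.e i).map_target (hrs hz))).1)
    (fun z hz a b c => K.closed i z (hrs hz) a b c)
    (fun z hz a b c => K.closed' i z (hrs hz) a b c)
  exact ⟨i, s, u, hs, hi, (PD_mono hsr).trans hrs, hu1, hu2⟩

/-- a finite good atlas with potentials of the Kaehler metric `K` -/
theorem exists_kp [CompactSpace M] [T2Space M] (K : Kah A) :
    ∃ (A' : Atl n M) (H : KP A'), Finite A'.ι ∧ GoodA A' ∧ Nonempty (Part A') ∧ LBih A' A id ∧
      LBih A A' id ∧ ∀ (k : A'.ι) (i : A.ι) (y : M), y ∈ (A'.e k).source → y ∈ (A.e i).source →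
        Kp_487.cur H k y = (Jp A' A id k i y)ᵀ * K.g i y * (Jp A' A id k i y).map conj := by
  choose ix s u hs hix hst hu1 hu2 using exists_pot K
  set O : M → Set M := fun x => (A.e (ix x)).source ∩ A.e (ix x) ⁻¹' PD (A.e (ix x) x) (s x)
    with hO
  obtain ⟨A', hfin, hG, hP, hsub, -, hL1, hL2⟩ := exists_refine A O
    (fun x => (A.e (ix x)).isOpen_inter_preimage (isOpen_PD _ _))
    (fun x => ⟨x, hix x, mem_PD_self (hs x)⟩)
  choose q hq using hsub
  have hh := hL1.toHolMap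
  -- the potentials
  set U : A'.ι → M → ℝ := fun k y => u (q k) (A.e (ix (q k)) y) with hU
  have hUrd : ∀ (k l : A'.ι) (w : Cn n), U l ((A'.e k).symm w) =
      u (q l) (Map_835.rd A' A id k (ix (q l)) w) := fun k l w => rfl
  have hUh : ∀ (k l : A'.ι) (y : M), y ∈ (A'.e k).source → y ∈ (A'.e l).source →
      ∀ i : A.ι, y ∈ (A.e i).source → hess (fun w => U l ((A'.e k).symm w)) (A'.e k y) =
        (Jp A' A id k i y)ᵀ * K.g i y * (Jp A' A id k i y).map conj := by
    intro k l y hk hl i hi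
    have hl' := hq l hl
    have h1 := hess_rd hh (k := k) (i := ix (q l)) hk hl'.1 ((hu1 (q l)).contDiffAt)
    have h2 : hess (u (q l)) (A.e (ix (q l)) y) = K.g (ix (q l)) y := by
      rw [hu2 (q l) _ hl'.2, (A.e (ix (q l))).left_inv hl'.1]
    rw [h2] at h1
    rw [tr_indep hh K hk hi hl'.1, ← h1]
    rfl
  have hUc : ∀ (k l : A'.ι) (y : M), y ∈ (A'.e k).source → y ∈ (A'.e l).source →
      ContDiffAt ℝ ∞ (fun w => U l ((A'.e k).symm w)) (A'.e k y) := by
    intro k l y hk hl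
    have hl' := hq l hl
    have h1 : ContDiffAt ℝ ∞ (Map_835.rd A' A id k (ix (q l))) (A'.e k y) := rd_smooth hh (mem_dm hk hl'.1)
    exact (hu1 (q l)).contDiffAt.comp (A'.e k y) h1
  set H : KP A' :=
    { u := U
      sm := fun k z hz => by
        have hy := (A'.e k).map_target hz
        have h1 := hUc k k _ hy hy
        rw [(A'.e k).right_inv hz] at h1
        exact h1.contDiffWithinAt
      tr := fun k l z hz => by
        have hy : (A'.e k).symm z ∈ (A'.e k).source := (A'.e k).map_target hz.1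
        have hl : (A'.e k).symm z ∈ (A'.e l).source := hz.2
        obtain ⟨i, hi⟩ := A.cover ((A'.e k).symm z)
        have c1 := hUc k k _ hy hy
        have c2 := hUc k l _ hy hl
        have h1 := hUh k k _ hy hy i hi
        have h2 := hUh k l _ hy hl i hi
        rw [(A'.e k).right_inv hz.1] at c1 c2 h1 h2
        have h3 := hess_sub c1 c2
        rw [h1, h2, sub_self] at h3
        exact h3 } with hH
  refine ⟨A', H, hfin, hG, hP, hL1, hL2, fun k i y hk hi => ?_⟩
  exact hUh k k y hk hk i hi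

/-! ### Yau's theorem -/

theorem det_Jp_ne (h : LBih A' A id) {k : A'.ι} {i : A.ι} {y : M} (hk : y ∈ (A'.e k).source)
    (hi : y ∈ (A.e i).source) : (Jp A' A id k i y).det ≠ 0 := h.det k i y hk hi

/-- **Yau's theorem** for every Kaehler metric on a compact connected complex manifold -/
theorem yau_kah [T2Space M] [CompactSpace M] [ConnectedSpace M] (A : Atl n M) : Yau A := by
  intro K F hF
  obtain ⟨A', H, hfin, -, hP, hL1, hL2, hcur⟩ := exists_kp K
  have hh := hL1.toHolMap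
  have hpos : H.Pos := by
    refine Kp_487.pos_of_cur fun k y hk => ?_
    obtain ⟨i, hi⟩ := A.cover y
    rw [hcur k i y hk hi]
    exact (posDef_iff (det_Jp_ne hL1 hk hi)).2 (K.pos i y hi)
  obtain ⟨u, c, hu, hc⟩ := yau_cur hP hpos (sm_up hh hF)
  have huA : A.Sm u := sm_up hL2.toHolMap hu
  refine ⟨u, c, huA, fun i y hi => ?_⟩
  obtain ⟨k, hk⟩ := A'.cover y
  obtain ⟨h1, h2⟩ := hc k y hk
  have e1 : Kp_487.cur H k y + hsf A' u k y = (Jp A' A id k i y)ᵀ * (K.g i y + hsf A u i y) *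
      (Jp A' A id k i y).map conj := by
    rw [hcur k i y hk hi, hsf_up hh huA hk hi, Matrix.mul_add, Matrix.add_mul]
  rw [e1] at h1 h2
  rw [hcur k i y hk hi] at h2
  exact ⟨(posDef_iff (det_Jp_ne hL1 hk hi)).1 h1, det_eq_iff (det_Jp_ne hL1 hk hi) h2⟩

/-- Yau's theorem, with the new Kaehler metric as output -/
theorem yau_kah' [T2Space M] [CompactSpace M] [ConnectedSpace M] {A : Atl n M} (K : Kah A)
    {F : M → ℝ} (hF : A.Sm F) : ∃ (K' : Kah A) (u : M → ℝ) (c : ℝ), A.Sm u ∧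
      (∀ i x, K'.g i x = K.g i x + hsf A u i x) ∧
      ∀ i, ∀ x ∈ (A.e i).source,
        (K'.g i x).det = ((Real.exp (F x + c) : ℝ) : ℂ) * (K.g i x).det := by
  obtain ⟨u, c, hu, h⟩ := yau_kah A K F hF
  exact ⟨addK K u hu fun i x hx => (h i x hx).1, u, c, hu, fun i x => rfl,
    fun i x hx => (h i x hx).2⟩

end

end Crest.Agent.R281.KpK_487
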