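import Crest.Agent.R281.Al3_830
import Crest.Agent.R281.Dif2_268
import Crest.Agent.R281.Fuj5_207
import Crest.Agent.R260.NN6_900

/-!
# Row 281, HK-ALONG, part 4 (helper830): the static theorem

`HD J om s1 s2` : on one space with real charts: complex structure `J`, positive (1,1)-form `om`,
nondegenerate (2,0)-form `s1 + i s2`.

* `HD.cx`        : `J` is integrable (Hitchin's lemma)
* `exists_atlas` : holomorphic atlas for `J` (Newlander-Nirenberg, 900)
* `HD.K`, `HD.S` : the Kaehler metric and the holomorphic symplectic form in that atlas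
* `hk_of_ric`    : Ricci flat ==> hyperkaehler triple `H`, `H.om 0 = om`, `H.om 1 = r s1`,
                   `H.om 2 = r s2`, `J 0 = J` (uses `TopI`, i.e. Fujiki relation and signature)
* `exists_hk1`   : no Ricci flatness: the same with `om` changed by an exact form
-/

set_option autoImplicit false
set_option linter.unusedSectionVars false
set_option maxSynthPendingDepth 3

open Set Filter Topology Function MeasureTheory Complex
open scoped ContDiff Matrix ComplexConjugate ComplexOrder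

namespace Crest.Agent.R281.Al_830

open Crest.Agent.R275.Geo Crest.Agent.R275.Core144 Crest.Agent.R275.EDR890
open Crest.Agent.R275.GC293
open Crest.Agent.R273 Crest.Agent.R273.Hess_333 Crest.Agent.R273.HessB_333
open Crest.Agent.R273.Defs_333 Crest.Agent.R273.HM_333 Crest.Agent.R273.Kah_333
open Crest.Agent.R273.Vol_333 Crest.Agent.R273.Vm_333
open Crest.Agent.R281.Defs_273 (H2 HSymp)
open Crest.Agent.R273.NoHVF_376
open Crest.Agent.R260.ACM_580 Crest.Agent.R260.NNB_580
open Crest.Agent.R281.HkP1_508 Crest.Agent.R281.HkP2_508 Crest.Agent.R281.HkP3_508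
open Crest.Agent.R281.HKA_799 (NatM)
open Crest.Agent.R281.FujP_513 (Symm mixv)
open Crest.Agent.R281.HkR_835 hiding pb pb_apply
open Crest.Agent.R281.HkR_835.Cmp
open Crest.Agent.R281.Ti_846 hiding pb pb_apply
open Crest.Agent.R281.NefO_476
open Crest.Agent.R281.Nef_252
open Crest.Agent.R281.Fuj3_207 Crest.Agent.R281.Fuj5_207

noncomputable section

variable {V X : Type} [NormedAddCommGroup V] [NormedSpace ℝ V] [TopologicalSpace X]
  {C : RCh V X} {d : ℕ} {A : Atl d X}

/-- complex structure, positive (1,1)-form, (2,0)-form `s1 + i s2` -/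
structure HD (J : AJ C) (om s1 s2 : F2 C) : Prop where
  sq : ∀ i, ∀ z ∈ (C.e i).target, ∀ v, J.J i z (J.J i z v) = -v
  t11 : T11 J om
  pos : Pos J om
  typ : ∀ i, ∀ z ∈ (C.e i).target, ∀ u v, s1.w i z (J.J i z u) v = -s2.w i z u v
  nd : ∀ i, ∀ z ∈ (C.e i).target, ∀ u, (∀ v, s1.w i z u v = 0) → u = 0

variable {J : AJ C} {om s1 s2 : F2 C}

theorem HD.typ2 (D : HD J om s1 s2) (i : C.ι) {z : V} (hz : z ∈ (C.e i).target) (u v : V) :
    s2.w i z (J.J i z u) v = s1.w i z u v := by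
  have h := D.typ i z hz (J.J i z u) v
  rw [D.sq i z hz, map_neg, neg_apply] at h
  linarith

/-- **Hitchin's lemma** -/
theorem HD.cx (D : HD J om s1 s2) : Cx J := by
  refine ⟨D.sq, fun i z hz v w => ?_⟩
  exact nij_zero (w₁ := s1.w i) (w₂ := s2.w i) (J := J.J i) (C.e i).open_target
    ((s1.sm i).differentiableOn (by simp)) ((s2.sm i).differentiableOn (by simp))
    ((J.sm i).differentiableOn (by simp)) (s1.alt i) (s2.alt i) (s1.closed i) (s2.closed i)
    (fun z hz v u => D.typ i z hz v u) (fun z hz v u => D.typ2 i hz v u) (D.nd i) hz v w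

/-- the almost complex manifold -/
def acmJ (J : AJ C) (h : Cx J) : ACM V X where
  ι := C.ι
  e := C.e
  cover := C.cover
  sm := C.sm
  J := J.J
  J_sm := J.sm
  J_sq := h.sq
  J_tr i j z h1 h2 v := J.tr i j z ⟨h1, h2⟩ v

theorem cmp_acmJ (hJ : Cx J) (hA : Cp (acmJ J hJ) A) : Cmp C (ofAtl A) :=
  ⟨fun i j => (hA j).sm' i, fun i j => (hA j).sm i⟩

/-- **holomorphic atlas** -/
theorem exists_atlas [FiniteDimensional ℝ V] [CompactSpace X] [T2Space X]
    (hd : Module.finrank ℝ V = 2 * d) (hJ : Cx J) :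
    ∃ (A : Atl d X) (_ : Finite A.ι) (_ : GoodA A) (_ : Nonempty (Part A))
      (_ : Cmp C (ofAtl A)), IsI J A := by
  obtain ⟨A, h1, h2, h3, -, -, h4⟩ := exists_atl (C := acmJ J hJ) (Crest.Agent.R260.NN6_900.nnat d V hd) hJ.int
    (κ := Unit) (fun _ => (univ : Set X)) (fun _ => isOpen_univ) (fun x => ⟨(), mem_univ x⟩)
  refine ⟨A, h1, h2, h3, cmp_acmJ hJ h4, fun i j z hz v => ?_⟩
  exact ((h4 j).lin' (i := i) hz v).symm

/-! ### the dictionary -/

section dict

variable (hI : IsI J A) (h : Cmp C (ofAtl A)) (D : HD J om s1 s2)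

theorem IsI.typ (hI : IsI J A) (h : Cmp C (ofAtl A)) (D : HD J om s1 s2)
    (j : A.ι) (z : Cn d) (hz : z ∈ (A.e j).target)
    (u v : Cn d) : (h.F s1).w j z (I • u) v = -(h.F s2).w j z u v := by
  obtain ⟨i, hi⟩ := exists_mov (C' := ofAtl A) C (j := j) hz
  rw [h.F_w s1 hi, h.F_w s2 hi, ← hI i j z hi, D.typ i _ (mt_mem hi).1]

/-- the Kaehler metric -/
def HD.K : Kah A := ((h.F om).k11 fun j z hz u v => hI.t11 h D.t11 j z hz u v).kah
  fun j x hx => by
    have hz := (A.e j).map_source hx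
    exact GB_pos (B := (h.F om).w j (A.e j x)) (fun u v => hI.t11 h D.t11 j _ hz u v)
      ((h.F om).alt j _ hz) (fun u hu => hI.pos h D.pos j _ hz u hu)

theorem HD.K_f2 {j : A.ι} {z : Cn d} (hz : z ∈ (A.e j).target) :
    (ofKah (D.K hI h)).f2.w j z = (h.F om).w j z :=
  F2.k11_f2 (h.F om) (fun j z hz u v => hI.t11 h D.t11 j z hz u v) hz

/-- the holomorphic 2-form -/
def HD.S0 : H2 A := h20 (h.F s1) (h.F s2) fun j z hz u v => hI.typ h D j z hz u v

theorem HD.S0_sb {j : A.ι} {z : Cn d} (hz : z ∈ (A.e j).target) (u v : Cn d) :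
    sb (sl (D.S0 hI h) j z) u v = ((h.F s1).w j z u v : ℂ) + I * ((h.F s2).w j z u v : ℂ) :=
  sb_h20 _ _ _ hz u v

theorem HD.S0_nd (j : A.ι) (x : X) (hx : x ∈ (A.e j).source) : ((D.S0 hI h).s j x).det ≠ 0 := by
  intro h0
  have hz := (A.e j).map_source hx
  rw [← Matrix.det_transpose] at h0
  obtain ⟨y, hy, hy0⟩ := Matrix.exists_mulVec_eq_zero_iff.2 h0
  set u : Cn d := WithLp.toLp 2 y with hu
  have hu0 : u ≠ 0 := by
    intro h1
    apply hy
    funext a
    have : u a = 0 := by rw [h1]; rfl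
    exact this
  apply hu0
  obtain ⟨i, hi⟩ := exists_mov (C' := ofAtl A) C (j := j) hz
  refine h.inj hi ?_
  rw [map_zero]
  refine D.nd i _ (mt_mem hi).1 _ fun v => ?_
  -- `v` is the image of a vector
  have h1 := h.d_d' hi v
  rw [← h1, ← h.F_w s1 hi]
  set v' := fderiv ℝ (mt (ofAtl A) C j i) (mt C (ofAtl A) i j (A.e j x)) v
  have h2 := D.S0_sb hI h hz u v'
  have h3 : sb (sl (D.S0 hI h) j (A.e j x)) u v' = 0 := by
    have e : sl (D.S0 hI h) j (A.e j x) = (D.S0 hI h).s j x := by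
      show (D.S0 hI h).s j ((A.e j).symm (A.e j x)) = _
      rw [(A.e j).left_inv hx]
    rw [e, sb_eq_dot]
    have h4 : u.ofLp ᵥ* (D.S0 hI h).s j x = 0 := by
      rw [← Matrix.mulVec_transpose]; exact hy0
    rw [Matrix.dotProduct_mulVec, h4, zero_dotProduct]
  rw [h3] at h2
  have h5 := congrArg Complex.re h2
  simp at h5
  exact h5.symm

/-- the holomorphic symplectic form -/
def HD.S : HSymp A where
  toH2 := D.S0 hI h
  nd := D.S0_nd hI h

theorem HD.S_cl : ClH (D.S hI h).toH2 :=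
  h20_cl (h.F s1) (h.F s2) fun j z hz u v => hI.typ h D j z hz u v

theorem HD.S_re {j : A.ι} {z : Cn d} (hz : z ∈ (A.e j).target) :
    (reS (D.S hI h).toH2 (D.S_cl hI h)).w j z = (h.F s1).w j z :=
  f2H_h20 (h.F s1) (h.F s2) (fun j z hz u v => hI.typ h D j z hz u v) hz

theorem HD.S_im {j : A.ι} {z : Cn d} (hz : z ∈ (A.e j).target) :
    (imS (D.S hI h).toH2 (D.S_cl hI h)).w j z = (h.F s2).w j z :=
  f2H_h20_I (h.F s1) (h.F s2) (fun j z hz u v => hI.typ h D j z hz u v) hz

end dict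

/-! ### going back to the real charts -/

/-- a form which agrees in the charts of `C'` -/
theorem back_eq {V' : Type} [NormedAddCommGroup V'] [NormedSpace ℝ V'] {C' : RCh V' X}
    (h : Cmp C C') {w : F2 C} {w' : F2 C'}
    (hw : ∀ j, ∀ z ∈ (C'.e j).target, w'.w j z = (h.F w).w j z) (i : C.ι) (z : V)
    (hz : z ∈ (C.e i).target) : (h.symm.F w').w i z = w.w i z := by
  obtain ⟨j, hj⟩ := exists_mov (C' := C) C' (j := i) hz
  obtain ⟨h1, h2⟩ := mov_swap (C := C) (C' := C') hj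
  ext u v
  rw [h.symm.F_w w' hj, hw j _ (mt_mem hj).1, h.F_w w h1, h.symm.d_d hj, h.symm.d_d hj, h2]

/-- exactness does not depend on the charts -/
theorem ex_F {V' : Type} [NormedAddCommGroup V'] [NormedSpace ℝ V'] {C' : RCh V' X}
    (h : Cmp C C') {w : F2 C} (hw : Ex w) : Ex (h.F w) := by
  have h1 := (Dif_268.SMap.ofCmp h).ex_pull hw
  obtain ⟨η, hη⟩ := h1
  refine ⟨η, fun j z hz u v => ?_⟩
  rw [← hη j z hz u v]
  obtain ⟨i, hi⟩ := exists_mov (C' := C') C (j := j) hz
  have h2 : z ∈ Dif_268.dom C C' (Dif_268.SMap.ofCmp h).f i j := hi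
  rw [(Dif_268.SMap.ofCmp h).pull_w w h2, h.F_w w hi]
  rfl

theorem F_sub {V' : Type} [NormedAddCommGroup V'] [NormedSpace ℝ V'] {C' : RCh V' X}
    (h : Cmp C C') (w w' : F2 C) (j : C'.ι) (z : V') (hz : z ∈ (C'.e j).target) (u v : V') :
    (h.F (w - w')).w j z u v = (h.F w).w j z u v - (h.F w').w j z u v := by
  obtain ⟨i, hi⟩ := exists_mov (C' := C') C (j := j) hz
  rw [h.F_w _ hi, h.F_w _ hi, h.F_w _ hi]
  rfl

/-- normal form of a triple: `J 0`, `om` are prescribed on all of `V` -/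
def fixH (H : HkT C) (J : AJ C) (w : Fin 3 → F2 C)
    (hJ : ∀ i, ∀ z ∈ (C.e i).target, ∀ v, H.J 0 i z v = J.J i z v)
    (hw : ∀ k i, ∀ z ∈ (C.e i).target, ∀ u v, (H.om k).w i z u v = (w k).w i z u v) : HkT C where
  om := w
  J := ![J.J, H.J 1, H.J 2]
  g := H.g
  J_sm k i := by
    fin_cases k
    · exact J.sm i
    · exact H.J_sm 1 i
    · exact H.J_sm 2 i
  J_sq k i z hz v := by
    fin_cases k
    · show J.J i z (J.J i z v) = -v
      rw [← hJ i z hz, ← hJ i z hz, H.J_sq 0 i z hz]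
    · exact H.J_sq 1 i z hz v
    · exact H.J_sq 2 i z hz v
  J_01 i z hz v := by
    show J.J i z (H.J 1 i z v) = H.J 2 i z v
    rw [← hJ i z hz, H.J_01 i z hz]
  g_symm := H.g_symm
  g_pos := H.g_pos
  om_eq k i z hz u v := by
    rw [← hw k i z hz, H.om_eq k i z hz]
    fin_cases k
    · show H.g i z (H.J 0 i z u) v = H.g i z (J.J i z u) v
      rw [hJ i z hz]
    · rfl
    · rfl


variable [FiniteDimensional ℝ V] [MeasurableSpace V] [BorelSpace V] {μ : Measure V}
  [μ.IsAddHaarMeasure] [CompactSpace X] [T2Space X] [ConnectedSpace X] {n : ℕ}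
  {b : Module.Basis (Fin (n + n) × Fin 2) ℝ V} {P : RPart C} {q : QuadraticForm ℝ (F2 C)}

/-- **closedness of holomorphic 2-forms** at every member -/
theorem clH_all [Finite A.ι] (PA : Part A) (K : Kah A) (σ : HSymp A) (τ : H2 A) : ClH τ := by
  obtain ⟨u, c, hs, H⟩ := KpK_487.yau_kah A K (ratio (volK K) (volS σ)) (sm_ratio _ _)
  have hp : ∀ i, ∀ x ∈ (A.e i).source, (K.g i x + hsf A u i x).PosDef := fun i x hx => (H i x hx).1
  have key : ∀ i, ∀ x ∈ (A.e i).source,
      ((addK K u hs hp).g i x).det.re = Real.exp c * ‖(σ.s i x).det‖ := by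
    intro i x hx
    have h1 := (H i x hx).2
    have h2 : ((addK K u hs hp).g i x).det = (K.g i x + hsf A u i x).det := rfl
    have h3 : (volK K).w i x = (K.g i x).det.re := rfl
    have h4 : (volS σ).w i x = ‖(σ.s i x).det‖ := rfl
    rw [h2, h1, Complex.re_ofReal_mul, ← h3, ← h4, w_ratio (volK K) (volS σ) hx, Real.exp_add]
    ring
  have hr := ricFlat_of_det σ (Real.exp_pos c) key
  intro i z hz a b c
  exact closed_of_par (par_h2 PA hr τ) i hz a b c

theorem TopI.uniq_hd (T : TopI μ b P q) [Finite A.ι] (PA : Part A) (hI : IsI J A)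
    (h : Cmp C (ofAtl A)) (D : HD J om s1 s2) (hq : 0 < q om) (σ : HSymp A) : σ.Uniq :=
  T.uniq_mem hI h D.sq D.t11 D.pos hq σ fun τ => clH_all PA (D.K hI h) (D.S hI h) τ

/-- **Ricci flat ==> triple** -/
theorem TopI.hk_of_ric (T : TopI μ b P q) [Finite A.ι] (PA : Part A) (hI : IsI J A)
    (h : Cmp C (ofAtl A)) (D : HD J om s1 s2) (hq : 0 < q om) (hric : RicFlat (D.K hI h)) :
    ∃ (H : HkT C) (r : ℝ), 0 < r ∧ ofHk H 0 = J ∧ H.om 0 = om ∧ H.om 1 = r • s1 ∧
      H.om 2 = r • s2 := by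
  obtain ⟨r, hr, h0, h1⟩ := exists_HK PA hric (D.S hI h) (T.uniq_hd PA hI h D hq _)
  obtain ⟨H', h2, h3, h4⟩ := exists_triple (D.S_cl hI h) hr h1
  set H := h.symm.hk H' with hH
  have hJ0 : ∀ j : A.ι, ∀ z ∈ (A.e j).target, ∀ v, H'.J 0 j z v = I • v := by
    intro j z hz v
    -- from `om 0`: both are determined by the forms 1 and 2
    have e1 := H'.om_J (k := 0) (l := 1) (m := 2) (Or.inl rfl) (i := j) (z := z) hz v
    have e2 : ∀ w, (H'.om 1).w j z (I • v) w = -(H'.om 2).w j z v w := by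
      intro w
      rw [h3, h4]
      show r * (reS (D.S hI h).toH2 (D.S_cl hI h)).w j z (I • v) w =
        -(r * (imS (D.S hI h).toH2 (D.S_cl hI h)).w j z v w)
      rw [D.S_re hI h hz, D.S_im hI h hz, hI.typ h D j z hz]
      ring
    rw [← sub_eq_zero]
    refine H'.nondeg 1 hz _ fun w => ?_
    have e3 := (H'.om_J (k := 0) (l := 1) (m := 2) (Or.inl rfl) (i := j) (z := z) hz v w).1
    rw [map_sub, sub_apply, e2 w, e3]
    ring
  have hJ : ∀ i, ∀ z ∈ (C.e i).target, ∀ v, H.J 0 i z v = J.J i z v := by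
    intro i z hz v
    obtain ⟨j, hj⟩ : ∃ j : A.ι, z ∈ mov (ofAtl A) C j i := exists_mov (C' := C) (ofAtl A) hz
    refine h.symm.inj hj ?_
    rw [h.symm.hk_J H' 0 hj, hI.back h hj]
    exact hJ0 j _ (mt_mem hj).1 _
  have hw : ∀ k i, ∀ z ∈ (C.e i).target, ∀ u v,
      (H.om k).w i z u v = ((![om, r • s1, r • s2] : Fin 3 → F2 C) k).w i z u v := by
    intro k i z hz u v
    have hk : (H.om k).w i z = ((![om, r • s1, r • s2] : Fin 3 → F2 C) k).w i z := by
      rw [hH, h.symm.hk_om]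
      refine back_eq h (fun j z hz => ?_) i z hz
      obtain ⟨i', hi'⟩ := exists_mov (C' := ofAtl A) C (j := j) hz
      have hsm : ∀ s : F2 C, (h.F (r • s)).w j z = r • (h.F s).w j z := by
        intro s
        ext u v
        rw [h.F_w _ hi', smul_apply, smul_apply, h.F_w _ hi']
        rfl
      fin_cases k
      · show (H'.om 0).w j z = (h.F om).w j z
        rw [h2]
        exact D.K_f2 hI h hz
      · show (H'.om 1).w j z = (h.F (r • s1)).w j z
        rw [h3, hsm, ← D.S_re hI h hz]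
        rfl
      · show (H'.om 2).w j z = (h.F (r • s2)).w j z
        rw [h4, hsm, ← D.S_im hI h hz]
        rfl
    rw [hk]
  exact ⟨fixH H J ![om, r • s1, r • s2] hJ hw, r, h0, rfl, rfl, rfl, rfl⟩

end

end Crest.Agent.R281.Al_830
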