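import Crest.Agent.R281.Mc3_673

-- ▼ part R281/Mc4_673
section

/-!
# R281 / LAGT (helper673), part 4

Vector form of the first order system, `C^{1,a}` estimate of its solution.
-/

set_option autoImplicit false

open MeasureTheory Set Metric
open scoped ContDiff

namespace Crest.Agent.R281.Mc673

open Crest.Agent.R238 (Ell)
open Crest.Agent.R238.Sch (ee D2 LB sum_ee norm_ee)
open Crest.Agent.R273.SchA_152 (HO)

noncomputable section

variable {N : ℕ}

/-- component of a vector field -/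
def co (h : V N → V N) (k : Fin N) (x : V N) : ℝ := h x k

/-- vector field from components -/
def mkv (h : Fin N → V N → ℝ) (x : V N) : V N := WithLp.toLp 2 fun k => h k x



theorem sp_co {h : V N → V N} (hh : SP h) (k : Fin N) : SP (co h k) :=
  ⟨(EuclideanSpace.proj k : V N →L[ℝ] ℝ).contDiff.comp hh.sm, fun m x => by
    show (h (x + kv m)) k = (h x) k
    rw [hh.per m x]⟩

theorem sp_mkv {h : Fin N → V N → ℝ} (hh : ∀ k, SP (h k)) : SP (mkv h) :=
  ⟨(PiLp.continuousLinearEquiv 2 ℝ (fun _ : Fin N => ℝ)).symm.contDiff.comp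
    (contDiff_pi.2 fun k => (hh k).sm), fun m x => by
    show WithLp.toLp 2 (fun k => h k (x + kv m)) = WithLp.toLp 2 (fun k => h k x)
    congr 1
    funext k
    exact (hh k).per m x⟩

theorem fderiv_co {h : V N → V N} {x : V N} (hh : DifferentiableAt ℝ h x) (k : Fin N) (u : V N) :
    fderiv ℝ (co h k) x u = (fderiv ℝ h x u) k := by
  have h1 := ((EuclideanSpace.proj k : V N →L[ℝ] ℝ).hasFDerivAt.comp x hh.hasFDerivAt).fderiv
  have h2 : fderiv ℝ (co h k) x = (EuclideanSpace.proj k : V N →L[ℝ] ℝ).comp (fderiv ℝ h x) := h1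
  rw [h2]; rfl

theorem dr_co {h : V N → V N} {x : V N} (hh : DifferentiableAt ℝ h x) (j k : Fin N) :
    dr j (co h k) x = (dr j h x) k := fderiv_co hh k _

theorem norm_le_sum (v : V N) : ‖v‖ ≤ ∑ k, |v k| := by
  conv_lhs => rw [sum_ee v]
  refine (norm_sum_le _ _).trans (Finset.sum_le_sum fun i _ => ?_)
  rw [norm_smul, norm_ee, mul_one, Real.norm_eq_abs]

theorem abs_co_le (v : V N) (k : Fin N) : |v k| ≤ ‖v‖ := PiLp.norm_apply_le v k

theorem ho_of_co {a B : ℝ} {s : Set (V N)} {h : V N → V N} (hB : 0 ≤ B)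
    (H : ∀ k, HO a B s (co h k)) : HO a (N * B) s h where
  bdd x hx := by
    refine (norm_le_sum _).trans ((Finset.sum_le_sum fun k _ => (H k).bdd x hx).trans ?_)
    simp
  hol x hx y hy := by
    refine (norm_le_sum _).trans ((Finset.sum_le_sum fun k _ => (H k).hol x hx y hy).trans ?_)
    simp [mul_assoc]

theorem opNorm_le_sum {X : Type*} [NormedAddCommGroup X] [NormedSpace ℝ X] (L : X →L[ℝ] V N)
    {c : Fin N → ℝ} (hc : ∀ k, ∀ u, |(L u) k| ≤ c k * ‖u‖) (h0 : ∀ k, 0 ≤ c k) :
    ‖L‖ ≤ ∑ k, c k := by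
  refine L.opNorm_le_bound (Finset.sum_nonneg fun k _ => h0 k) fun u => ?_
  refine (norm_le_sum _).trans ?_
  rw [Finset.sum_mul]
  exact Finset.sum_le_sum fun k _ => hc k u

theorem ho_fderiv_of_co {a B : ℝ} {h : V N → V N} (hh : SP h) (hB : 0 ≤ B)
    (H : ∀ k, HO a B univ (fderiv ℝ (co h k))) : HO a (N * B) univ (fderiv ℝ h) where
  bdd x _ := by
    refine (opNorm_le_sum (c := fun _ => B) _ (fun k u => ?_) fun _ => hB).trans (by simp)
    rw [← fderiv_co (hh.diff x)]
    exact ((fderiv ℝ (co h k) x).le_opNorm u).trans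
      (mul_le_mul_of_nonneg_right ((H k).bdd x (mem_univ x)) (norm_nonneg _))
  hol x _ y _ := by
    refine (opNorm_le_sum (c := fun _ => B * ‖x - y‖ ^ a) _ (fun k u => ?_) fun _ =>
      mul_nonneg hB (Real.rpow_nonneg (norm_nonneg _) _)).trans (by simp [mul_assoc])
    have e : ((fderiv ℝ h x - fderiv ℝ h y) u) k =
        (fderiv ℝ (co h k) x - fderiv ℝ (co h k) y) u := by
      show (fderiv ℝ h x u - fderiv ℝ h y u) k = fderiv ℝ (co h k) x u - fderiv ℝ (co h k) y u
      rw [fderiv_co (hh.diff x), fderiv_co (hh.diff y)]; rfl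
    rw [e]
    exact ((fderiv ℝ (co h k) x - fderiv ℝ (co h k) y).le_opNorm u).trans
      (mul_le_mul_of_nonneg_right ((H k).hol x (mem_univ x) y (mem_univ y)) (norm_nonneg _))

theorem fderiv_dr {f : V N → ℝ} (hf : SP f) (i : Fin N) (x u : V N) :
    fderiv ℝ (dr i f) x u = fderiv ℝ (fderiv ℝ f) x u (ee i) := by
  show fderiv ℝ (fun y => fderiv ℝ f y (ee i)) x u = _
  rw [fderiv_clm_apply (hf.fderiv.diff x) (differentiableAt_const _)]
  simp

theorem ho_dr {a M : ℝ} {f : V N → ℝ} (h : HO a M univ (fderiv ℝ f)) (i : Fin N) :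
    HO a M univ (dr i f) where
  bdd x hx := by
    refine ((fderiv ℝ f x).le_opNorm _).trans ?_
    rw [norm_ee, mul_one]; exact h.bdd x hx
  hol x hx y hy := by
    refine ((fderiv ℝ f x - fderiv ℝ f y).le_opNorm (ee i)).trans ?_
    rw [norm_ee, mul_one]; exact h.hol x hx y hy

theorem ho_fderiv_dr {a M : ℝ} {f : V N → ℝ} (hf : SP f)
    (h : HO a M univ (fderiv ℝ (fderiv ℝ f))) (i : Fin N) :
    HO a M univ (fderiv ℝ (dr i f)) where
  bdd x hx := by
    have h0 := h.bdd x hx
    refine ContinuousLinearMap.opNorm_le_bound _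
      ((norm_nonneg (fderiv ℝ (fderiv ℝ f) x)).trans h0) fun u => ?_
    rw [fderiv_dr hf]
    refine ((fderiv ℝ (fderiv ℝ f) x).le_opNorm₂ u (ee i)).trans ?_
    rw [norm_ee, mul_one]
    exact mul_le_mul_of_nonneg_right h0 (norm_nonneg _)
  hol x hx y hy := by
    have h0 := h.hol x hx y hy
    refine ContinuousLinearMap.opNorm_le_bound _
      ((norm_nonneg (fderiv ℝ (fderiv ℝ f) x - fderiv ℝ (fderiv ℝ f) y)).trans h0) fun u => ?_
    have e : (fderiv ℝ (dr i f) x - fderiv ℝ (dr i f) y) u =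
        (fderiv ℝ (fderiv ℝ f) x - fderiv ℝ (fderiv ℝ f) y) u (ee i) := by
      show fderiv ℝ (dr i f) x u - fderiv ℝ (dr i f) y u = _
      rw [fderiv_dr hf, fderiv_dr hf]; rfl
    rw [e]
    refine ((fderiv ℝ (fderiv ℝ f) x - fderiv ℝ (fderiv ℝ f) y).le_opNorm₂ u (ee i)).trans ?_
    rw [norm_ee, mul_one]
    exact mul_le_mul_of_nonneg_right h0 (norm_nonneg _)

theorem HO.cmul {X : Type*} [NormedAddCommGroup X] {a M c c' : ℝ} {s : Set X} {f : X → ℝ}
    (hf : HO a M s f) (hc : |c| ≤ c') : HO a (c' * M) s (fun x => c * f x) where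
  bdd x hx := by
    rw [norm_mul, Real.norm_eq_abs c]
    exact mul_le_mul hc (hf.bdd x hx) (norm_nonneg _) ((abs_nonneg _).trans hc)
  hol x hx y hy := by
    rw [← mul_sub, norm_mul, mul_assoc, Real.norm_eq_abs c]
    exact mul_le_mul hc (hf.hol x hx y hy) (norm_nonneg _) ((abs_nonneg _).trans hc)

/-- vector form: existence -/
theorem sys_exists {hi : ℝ} {S : Matrix (Fin N) (Fin N) ℝ} (hS : Ell 1 hi S)
    {β : Fin N → Fin N → V N → ℝ} {f : V N → ℝ} (hβ : ∀ j k, SP (β j k)) (hf : SP f)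
    (anti : ∀ j k x, β j k x = - β k j x)
    (closed : ∀ i j k x, dr i (β j k) x + dr j (β k i) x + dr k (β i j) x = 0)
    (hβ0 : ∀ j k, mn (β j k) = 0) (hf0 : mn f = 0) :
    ∃ h : V N → V N, SP h ∧ (∀ k, mn (co h k) = 0) ∧
      (∀ j k x, dr j (co h k) x - dr k (co h j) x = β j k x) ∧
      ∀ x, dS S (co h) x = f x := by
  obtain ⟨h, h1, h2, h3, h4⟩ := comp_exists hS hβ hf anti closed hβ0 hf0
  exact ⟨mkv h, sp_mkv h1, h2, h3, h4⟩

/-- vector form: the `C^{1,a}` estimate -/
theorem sys_est (N : ℕ) {a hi : ℝ} (ha : 0 < a) (ha1 : a < 1) (hhi : 1 ≤ hi) :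
    ∃ C : ℝ, 0 < C ∧ ∀ S : Matrix (Fin N) (Fin N) ℝ, Ell 1 hi S → ∀ h : V N → V N, SP h →
      (∀ k, mn (co h k) = 0) → ∀ B : ℝ, 0 ≤ B →
      (∀ j k, HO a B univ (fun x => dr j (co h k) x - dr k (co h j) x)) →
      HO a B univ (dS S (co h)) →
        HO a (C * B) univ h ∧ HO a (C * B) univ (fderiv ℝ h) := by
  obtain ⟨C0, hC0, H⟩ := torus_schauder N ha ha1 hhi
  set C1 : ℝ := (N * N * hi + 1) * C0 with hC1
  have hC1' : 0 < C1 := by positivity
  refine ⟨N * C1 + 1, by positivity, fun S hS h hh hh0 B hB hβ hf => ?_⟩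
  have sph : ∀ k, SP (co h k) := sp_co hh
  have spβ : ∀ j k, SP (fun x => dr j (co h k) x - dr k (co h j) x) := fun j k =>
    ((sph k).dr j).sub ((sph j).dr k)
  have mβ : ∀ j k, mn (fun x => dr j (co h k) x - dr k (co h j) x) = 0 := fun j k => by
    rw [mn_sub ((sph k).dr j) ((sph j).dr k), mn_dr (sph k), mn_dr (sph j), sub_zero]
  choose w hw hw0 hPw using fun j k => exists_sol hS (spβ j k) (mβ j k)
  obtain ⟨u, hu, hu0, hPu⟩ := exists_sol hS (sp_dS S sph) (mn_dS S sph)
  have hrep := comp_repr hS sph hh0 hw hu hPw hPu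
  have hwe := fun j k => H S hS (w j k) (hw j k) (hw0 j k) B ((hβ j k).congr fun x _ => hPw j k x)
  have hue := H S hS u hu hu0 B (hf.congr fun x _ => hPu x)
  have hCB : 0 ≤ C0 * B := by positivity
  have hentry : ∀ i j, |S i j| ≤ hi := fun i j =>
    Crest.Agent.R238.Apr.Ell.entry hS zero_le_one i j
  have ecst : (∑ _i : Fin N, ∑ _j : Fin N, hi * (C0 * B)) + C0 * B = C1 * B := by
    simp [hC1]; ring
  have k0 : ∀ k, HO a (C1 * B) univ (co h k) := by
    intro k
    have h1 : HO a ((∑ _i : Fin N, ∑ _j : Fin N, hi * (C0 * B)) + C0 * B) univ (hk S w u k) := by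
      refine HO.add (r := dS S fun j => w j k) (r' := dr k u) ?_ (ho_dr hue.2.1 k)
      refine HO.sum _ fun i _ => HO.sum _ fun j _ => ?_
      exact HO.cmul (ho_dr (hwe j k).2.1 i) (hentry i j)
    rw [ecst] at h1
    exact h1.congr fun x _ => hrep k x
  have k1 : ∀ k, HO a (C1 * B) univ (fderiv ℝ (co h k)) := by
    intro k
    have e1 : co h k = fun x => hk S w u k x := funext (hrep k)
    have e2 : ∀ x, fderiv ℝ (co h k) x =
        (∑ i, ∑ j, S i j • fderiv ℝ (dr i (w j k)) x) + fderiv ℝ (dr k u) x := by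
      intro x
      rw [e1]
      have f1 : fderiv ℝ (fun x => hk S w u k x) x =
          fderiv ℝ (dS S fun j => w j k) x + fderiv ℝ (dr k u) x :=
        fderiv_fun_add ((sp_dS S fun j => hw j k).diff x) ((hu.dr k).diff x)
      rw [f1]
      congr 1
      have f2 : fderiv ℝ (dS S fun j => w j k) x =
          ∑ i, fderiv ℝ (fun x => ∑ j, S i j * dr i (w j k) x) x :=
        fderiv_fun_sum fun i _ => (sp_dS1 S (fun j => hw j k) i).diff x
      rw [f2]
      refine Finset.sum_congr rfl fun i _ => ?_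
      have f3 : fderiv ℝ (fun x => ∑ j, S i j * dr i (w j k) x) x =
          ∑ j, fderiv ℝ (fun x => S i j * dr i (w j k) x) x :=
        fderiv_fun_sum fun j _ => (((hw j k).dr i).cmul _).diff x
      rw [f3]
      refine Finset.sum_congr rfl fun j _ => ?_
      rw [fderiv_const_mul (((hw j k).dr i).diff x)]
    have h1 : HO a ((∑ _i : Fin N, ∑ _j : Fin N, hi * (C0 * B)) + C0 * B) univ
        (fun x => (∑ i, ∑ j, S i j • fderiv ℝ (dr i (w j k)) x) + fderiv ℝ (dr k u) x) := by
      refine HO.add ?_ (ho_fderiv_dr hu hue.2.2 k)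
      refine HO.sum _ fun i _ => HO.sum _ fun j _ => ?_
      have h2 := ho_fderiv_dr (hw j k) (hwe j k).2.2 i
      refine ⟨fun x hx => ?_, fun x hx y hy => ?_⟩
      · rw [norm_smul]
        exact mul_le_mul (hentry i j) (h2.bdd x hx) (norm_nonneg _) (by linarith)
      · rw [← smul_sub, norm_smul, mul_assoc]
        exact mul_le_mul (hentry i j) (h2.hol x hx y hy) (norm_nonneg _) (by linarith)
    rw [ecst] at h1
    exact h1.congr fun x _ => e2 x
  have hfin : N * (C1 * B) ≤ (N * C1 + 1) * B := by nlinarith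
  exact ⟨(ho_of_co (by positivity) k0).mono hfin, (ho_fderiv_of_co hh (by positivity) k1).mono hfin⟩

end

end Crest.Agent.R281.Mc673
end

-- ▼ part R281/Mc5_673

/-!
# R281 / LAGT (helper673), part 5

Closed 2-forms on the tube `ℝ^N × B_r`, periodic in the first variable, and their restriction to
graphs: smooth, periodic, antisymmetric, closed, mean value independent of the graph.
-/

set_option autoImplicit false
set_option maxSynthPendingDepth 3

open MeasureTheory Set Metric Filter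
open scoped ContDiff Topology

namespace Crest.Agent.R281.Mc673

open Crest.Agent.R238.Sch (ee norm_ee)
open Crest.Agent.R273.SchA_152 (HO)
open Crest.Agent.R275.Tor812 (box volume_box)

noncomputable section

variable {N : ℕ}

/-- total space -/
abbrev W (N : ℕ) := V N × V N

/-- 2-form (bilinear form) valued functions -/
abbrev Fo (N : ℕ) := W N → W N →L[ℝ] W N →L[ℝ] ℝ

/-- the tube `|v| < r` -/
def tube (N : ℕ) (r : ℝ) : Set (W N) := {p | ‖p.2‖ < r}

theorem isOpen_tube (r : ℝ) : IsOpen (tube N r) := isOpen_lt continuous_snd.norm continuous_const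

/-- closed 2-forms on the tube, `ℤ^N`-periodic in the first variable -/
structure ClF (r : ℝ) (w : Fo N) : Prop where
  sm : ContDiffOn ℝ ∞ w (tube N r)
  alt : ∀ p ∈ tube N r, ∀ u v, w p u v = - w p v u
  cl : ∀ p ∈ tube N r, ∀ u v z,
    fderiv ℝ w p u v z + fderiv ℝ w p v z u + fderiv ℝ w p z u v = 0
  per : ∀ (k : Fin N → ℤ), ∀ p ∈ tube N r, w (p.1 + kv k, p.2) = w p

section

variable {r : ℝ} {w : Fo N}

theorem ClF.cda (hw : ClF r w) {p : W N} (hp : p ∈ tube N r) : ContDiffAt ℝ ∞ w p :=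
  hw.sm.contDiffAt ((isOpen_tube r).mem_nhds hp)

theorem ClF.da (hw : ClF r w) {p : W N} (hp : p ∈ tube N r) : DifferentiableAt ℝ w p :=
  (hw.cda hp).differentiableAt (by simp)

theorem ClF.fcont (hw : ClF r w) {p : W N} (hp : p ∈ tube N r) : ContinuousAt (fderiv ℝ w) p :=
  ((hw.cda hp).fderiv_right (m := 0) (by simp)).continuousAt

/-- pull back to the graph of `a` -/
def pb (w : Fo N) (a : V N → V N) (j k : Fin N) (θ : V N) : ℝ :=
  w (θ, a θ) (ee j, dr j a θ) (ee k, dr k a θ)

variable {a : V N → V N}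

theorem sp_dra (ha : SP a) (j : Fin N) : SP (fun θ => ((ee j, dr j a θ) : W N)) :=
  ⟨contDiff_const.prodMk (ha.dr j).sm, fun k x => by rw [(ha.dr j).per k x]⟩

theorem sp_wa (hw : ClF r w) (ha : SP a) (har : ∀ θ, ‖a θ‖ < r) : SP (fun θ => w (θ, a θ)) := by
  refine ⟨contDiff_iff_contDiffAt.2 fun θ => ?_, fun k x => ?_⟩
  · exact ContDiffAt.comp θ (hw.cda (p := (θ, a θ)) (har θ))
      (contDiffAt_id.prodMk ha.sm.contDiffAt)
  · show w (x + kv k, a (x + kv k)) = w (x, a x)
    rw [ha.per k x]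
    exact hw.per k (x, a x) (har x)

theorem SP.clm {F G : Type*} [NormedAddCommGroup F] [NormedSpace ℝ F] [NormedAddCommGroup G]
    [NormedSpace ℝ G] {T : V N → F →L[ℝ] G} {u : V N → F} (hT : SP T) (hu : SP u) :
    SP (fun x => T x (u x)) :=
  ⟨hT.sm.clm_apply hu.sm, fun k x => by simp only [hT.per k x, hu.per k x]⟩

theorem sp_pb (hw : ClF r w) (ha : SP a) (har : ∀ θ, ‖a θ‖ < r) (j k : Fin N) :
    SP (pb w a j k) := by
  have h1 : SP (fun θ => w (θ, a θ) (ee j, dr j a θ)) :=
    SP.clm (T := fun θ => w (θ, a θ)) (u := fun θ => ((ee j, dr j a θ) : W N))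
      (sp_wa hw ha har) (sp_dra ha j)
  exact SP.clm (T := fun θ => w (θ, a θ) (ee j, dr j a θ))
    (u := fun θ => ((ee k, dr k a θ) : W N)) h1 (sp_dra ha k)

theorem pb_anti (hw : ClF r w) (har : ∀ θ, ‖a θ‖ < r) (j k : Fin N) (θ : V N) :
    pb w a j k θ = - pb w a k j θ :=
  hw.alt (θ, a θ) (har θ) (ee j, dr j a θ) (ee k, dr k a θ)

theorem hasFDerivAt_wa (hw : ClF r w) {θ : V N} (ha : DifferentiableAt ℝ a θ) (har : ‖a θ‖ < r) :
    HasFDerivAt (fun θ => w (θ, a θ)) ((fderiv ℝ w (θ, a θ)).comp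
      ((ContinuousLinearMap.id ℝ (V N)).prod (fderiv ℝ a θ))) θ :=
  HasFDerivAt.comp (f := fun θ => ((θ, a θ) : W N)) θ (hw.da (p := (θ, a θ)) har).hasFDerivAt
    ((hasFDerivAt_id θ).prodMk ha.hasFDerivAt)

theorem dr_pb (hw : ClF r w) (ha : SP a) (har : ∀ θ, ‖a θ‖ < r) (i j k : Fin N) (θ : V N) :
    dr i (pb w a j k) θ =
      fderiv ℝ w (θ, a θ) (ee i, dr i a θ) (ee j, dr j a θ) (ee k, dr k a θ) +
      w (θ, a θ) (0, dr i (dr j a) θ) (ee k, dr k a θ) +
      w (θ, a θ) (ee j, dr j a θ) (0, dr i (dr k a) θ) := by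
  have h1 := hasFDerivAt_wa hw (ha.diff θ) (har θ)
  have h2 : ∀ j, HasFDerivAt (fun θ => ((ee j, dr j a θ) : W N))
      ((0 : V N →L[ℝ] V N).prod (fderiv ℝ (dr j a) θ)) θ := fun j =>
    (hasFDerivAt_const _ _).prodMk ((ha.dr j).diff θ).hasFDerivAt
  have h3 := (h1.clm_apply (h2 j)).clm_apply (h2 k)
  have h4 : fderiv ℝ (pb w a j k) θ = _ := h3.fderiv
  show fderiv ℝ (pb w a j k) θ (ee i) = _
  rw [h4]
  simp only [ContinuousLinearMap.add_apply, ContinuousLinearMap.comp_apply,
    ContinuousLinearMap.flip_apply, ContinuousLinearMap.prod_apply,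
    ContinuousLinearMap.id_apply, ContinuousLinearMap.zero_apply]
  show w (θ, a θ) (ee j, dr j a θ) (0, dr i (dr k a) θ) +
    (w (θ, a θ) (0, dr i (dr j a) θ) (ee k, dr k a θ) +
      fderiv ℝ w (θ, a θ) (ee i, dr i a θ) (ee j, dr j a θ) (ee k, dr k a θ)) = _
  ring

theorem pb_closed (hw : ClF r w) (ha : SP a) (har : ∀ θ, ‖a θ‖ < r) (i j k : Fin N) (θ : V N) :
    dr i (pb w a j k) θ + dr j (pb w a k i) θ + dr k (pb w a i j) θ = 0 := by
  rw [dr_pb hw ha har, dr_pb hw ha har, dr_pb hw ha har]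
  have h1 := hw.cl (θ, a θ) (har θ) (ee i, dr i a θ) (ee j, dr j a θ) (ee k, dr k a θ)
  have alt := hw.alt (θ, a θ) (har θ)
  have c1 := dr_comm ha i j θ
  have c2 := dr_comm ha j k θ
  have c3 := dr_comm ha k i θ
  rw [alt (ee j, dr j a θ) (0, dr i (dr k a) θ), alt (ee k, dr k a θ) (0, dr j (dr i a) θ),
    alt (ee i, dr i a θ) (0, dr k (dr j a) θ), ← c1, c2, c3]
  linarith

/-! ### independence of the mean -/

/-- `λ_k` -/
def lam (w : Fo N) (a : V N → V N) (t : ℝ) (k : Fin N) (θ : V N) : ℝ :=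
  w (θ, t • a θ) (0, a θ) (ee k, t • dr k a θ)

/-- `d/dt` of the pull back -/
def pbd (w : Fo N) (a : V N → V N) (j k : Fin N) (t : ℝ) (θ : V N) : ℝ :=
  fderiv ℝ w (θ, t • a θ) (0, a θ) (ee j, t • dr j a θ) (ee k, t • dr k a θ) +
    w (θ, t • a θ) (0, dr j a θ) (ee k, t • dr k a θ) +
    w (θ, t • a θ) (ee j, t • dr j a θ) (0, dr k a θ)

theorem dr_smul_fun (ha : SP a) (t : ℝ) (k : Fin N) (θ : V N) :
    dr k (fun θ => t • a θ) θ = t • dr k a θ := dr_smul ha t k θ

theorem hasDerivAt_pbt (hw : ClF r w) (ha : SP a) (j k : Fin N) (t : ℝ) (θ : V N)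
    (har : ‖t • a θ‖ < r) :
    HasDerivAt (fun t : ℝ => pb w (fun θ => t • a θ) j k θ) (pbd w a j k t θ) t := by
  have e : (fun t : ℝ => pb w (fun θ => t • a θ) j k θ) =
      fun t : ℝ => w (θ, t • a θ) (ee j, t • dr j a θ) (ee k, t • dr k a θ) := by
    funext t
    unfold pb
    rw [dr_smul_fun ha, dr_smul_fun ha]
  rw [e]
  have h0 : HasDerivAt (fun t : ℝ => ((θ, t • a θ) : W N)) (0, a θ) t := by
    have := (hasDerivAt_const t θ).prodMk ((hasDerivAt_id t).smul_const (a θ))
    simpa using this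
  have h1 : HasDerivAt (fun t : ℝ => w (θ, t • a θ)) (fderiv ℝ w (θ, t • a θ) (0, a θ)) t :=
    (hw.da (p := (θ, t • a θ)) har).hasFDerivAt.comp_hasDerivAt t h0
  have h2 : ∀ j, HasDerivAt (fun t : ℝ => ((ee j, t • dr j a θ) : W N)) (0, dr j a θ) t := by
    intro j
    have := (hasDerivAt_const t (ee j : V N)).prodMk ((hasDerivAt_id t).smul_const (dr j a θ))
    simpa using this
  have h3 := (h1.clm_apply (h2 j)).clm_apply (h2 k)
  refine h3.congr_deriv ?_
  simp only [pbd, ContinuousLinearMap.add_apply]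

theorem pbd_eq (hw : ClF r w) (ha : SP a) (j k : Fin N) (t : ℝ) (θ : V N)
    (har : ∀ θ, ‖t • a θ‖ < r) :
    pbd w a j k t θ = dr j (lam w a t k) θ - dr k (lam w a t j) θ := by
  have hta : SP (fun θ => t • a θ) := ha.smul t
  have key : ∀ i l, dr i (lam w a t l) θ =
      fderiv ℝ w (θ, t • a θ) (ee i, t • dr i a θ) (0, a θ) (ee l, t • dr l a θ) +
      w (θ, t • a θ) (0, dr i a θ) (ee l, t • dr l a θ) +
      w (θ, t • a θ) (0, a θ) (0, t • dr i (dr l a) θ) := by
    intro i l
    have h1 := hasFDerivAt_wa hw (hta.diff θ) (har θ)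
    have h2 : HasFDerivAt (fun θ => ((0, a θ) : W N))
        ((0 : V N →L[ℝ] V N).prod (fderiv ℝ a θ)) θ :=
      (hasFDerivAt_const _ _).prodMk (ha.diff θ).hasFDerivAt
    have h2' : HasFDerivAt (fun θ => ((ee l, t • dr l a θ) : W N))
        ((0 : V N →L[ℝ] V N).prod (t • fderiv ℝ (dr l a) θ)) θ :=
      (hasFDerivAt_const _ _).prodMk (((ha.dr l).diff θ).hasFDerivAt.const_smul t)
    have h3 := (h1.clm_apply h2).clm_apply h2'
    have h4 : fderiv ℝ (lam w a t l) θ = _ := h3.fderiv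
    show fderiv ℝ (lam w a t l) θ (ee i) = _
    rw [h4]
    simp only [ContinuousLinearMap.add_apply, ContinuousLinearMap.comp_apply,
      ContinuousLinearMap.flip_apply, ContinuousLinearMap.prod_apply,
      ContinuousLinearMap.id_apply, ContinuousLinearMap.zero_apply]
    have h5 : fderiv ℝ (fun θ => t • a θ) θ (ee i) = t • dr i a θ := dr_smul_fun ha t i θ
    rw [h5]
    show w (θ, t • a θ) (0, a θ) (0, t • dr i (dr l a) θ) +
      (w (θ, t • a θ) (0, dr i a θ) (ee l, t • dr l a θ) +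
        fderiv ℝ w (θ, t • a θ) (ee i, t • dr i a θ) (0, a θ) (ee l, t • dr l a θ)) = _
    ring
  rw [key, key]
  unfold pbd
  have h1 := hw.cl (θ, t • a θ) (har θ) (0, a θ) (ee j, t • dr j a θ) (ee k, t • dr k a θ)
  have alt := hw.alt (θ, t • a θ) (har θ)
  -- antisymmetry of the derivative
  have altd : ∀ z u v, fderiv ℝ w (θ, t • a θ) z u v = - fderiv ℝ w (θ, t • a θ) z v u := by
    intro z u v
    have h2 := (hw.da (p := (θ, t • a θ)) (har θ)).hasFDerivAt
    have h3 : HasFDerivAt (fun p => w p u v) _ (θ, t • a θ) :=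
      (h2.clm_apply (hasFDerivAt_const u _)).clm_apply (hasFDerivAt_const v _)
    have h4 : HasFDerivAt (fun p => - w p v u) _ (θ, t • a θ) :=
      ((h2.clm_apply (hasFDerivAt_const v _)).clm_apply (hasFDerivAt_const u _)).neg
    have h5 : (fun p => w p u v) =ᶠ[𝓝 (θ, t • a θ)] fun p => - w p v u := by
      filter_upwards [(isOpen_tube (N := N) r).mem_nhds (har θ)] with p hp
      exact hw.alt p hp u v
    have h6 := h3.unique (h4.congr_of_eventuallyEq h5)
    have h7 := congrArg (fun L => L z) h6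
    simpa using h7
  have c1 := dr_comm ha j k θ
  have e1 := altd (ee j, t • dr j a θ) (ee k, t • dr k a θ) (0, a θ)
  have a1 := alt (ee j, t • dr j a θ) (0, dr k a θ)
  rw [a1, c1]
  linarith

theorem mn_pb (hw : ClF r w) (ha : SP a) (har : ∀ θ, ‖a θ‖ < r) (j k : Fin N) :
    mn (pb w a j k) = mn (pb w (fun _ => 0) j k) := by
  obtain ⟨θ0, hθ0⟩ := Per.exists_max (f := fun θ => ‖a θ‖)
    (fun k x => by show ‖a (x + kv k)‖ = ‖a x‖; rw [ha.per k x]) ha.cont.norm
  set M : ℝ := ‖a θ0‖ with hM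
  have hM0 : 0 ≤ M := norm_nonneg _
  have hMr : M < r := har θ0
  set T : Set ℝ := {t | |t| * M < r} with hT
  have hTo : IsOpen T := isOpen_lt (continuous_abs.mul continuous_const) continuous_const
  have hta : ∀ t ∈ T, ∀ θ, ‖t • a θ‖ < r := fun t ht θ => by
    rw [norm_smul, Real.norm_eq_abs]
    exact (mul_le_mul_of_nonneg_left (hθ0 θ) (abs_nonneg _)).trans_lt ht
  -- joint continuity of the `t`-derivative
  have hcont : ContinuousOn (fun q : ℝ × V N => pbd w a j k q.1 q.2) (T ×ˢ univ) := by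
    rintro ⟨t, θ⟩ ⟨ht, -⟩
    refine ContinuousAt.continuousWithinAt ?_
    have m1 : ContinuousAt (fun q : ℝ × V N => ((q.2, q.1 • a q.2) : W N)) (t, θ) :=
      (continuous_snd.prodMk (continuous_fst.smul (ha.cont.comp continuous_snd))).continuousAt
    have c1 : ContinuousAt (fun q : ℝ × V N => fderiv ℝ w (q.2, q.1 • a q.2)) (t, θ) :=
      ContinuousAt.comp (g := fderiv ℝ w) (hw.fcont (p := (θ, t • a θ)) (hta t ht θ)) m1
    have c2 : ContinuousAt (fun q : ℝ × V N => w (q.2, q.1 • a q.2)) (t, θ) :=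
      ContinuousAt.comp (g := w) (hw.da (p := (θ, t • a θ)) (hta t ht θ)).continuousAt m1
    have c3 : ∀ l, ContinuousAt (fun q : ℝ × V N => ((ee l, q.1 • dr l a q.2) : W N)) (t, θ) :=
      fun l => (continuous_const.prodMk
        (continuous_fst.smul ((ha.dr l).cont.comp continuous_snd))).continuousAt
    have c4 : ContinuousAt (fun q : ℝ × V N => ((0, a q.2) : W N)) (t, θ) :=
      (continuous_const.prodMk (ha.cont.comp continuous_snd)).continuousAt
    have c5 : ∀ l, ContinuousAt (fun q : ℝ × V N => ((0, dr l a q.2) : W N)) (t, θ) :=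
      fun l => (continuous_const.prodMk ((ha.dr l).cont.comp continuous_snd)).continuousAt
    exact ((((c1.clm_apply c4).clm_apply (c3 j)).clm_apply (c3 k)).add
      ((c2.clm_apply (c5 j)).clm_apply (c3 k))).add ((c2.clm_apply (c3 j)).clm_apply (c5 k))
  -- the derivative of the mean vanishes
  have hder : ∀ t ∈ T, HasDerivAt (fun t : ℝ => mn (pb w (fun θ => t • a θ) j k)) 0 t := by
    intro t ht
    obtain ⟨ε, hε, hεT⟩ := Metric.isOpen_iff.1 hTo t ht
    have hsub : closedBall t (ε / 2) ⊆ T :=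
      (closedBall_subset_ball (by linarith)).trans hεT
    obtain ⟨B, hB⟩ := ((isCompact_closedBall t (ε / 2)).prod
      (isCompact_cube (N := N))).exists_bound_of_continuousOn
      (hcont.mono (prod_mono hsub (subset_univ _)))
    have hper : ∀ s ∈ T, Per (pbd w a j k s) := by
      intro s hs m x
      have h1 := hta s hs
      unfold pbd
      rw [ha.per m x, (ha.dr j).per m x, (ha.dr k).per m x]
      have h2 : w (x + kv m, s • a x) = w (x, s • a x) := hw.per m (x, s • a x) (h1 x)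
      have h3 : fderiv ℝ w (x + kv m, s • a x) = fderiv ℝ w (x, s • a x) := by
        have h4 : (fun p : W N => w (p + (kv m, 0))) =ᶠ[𝓝 (x, s • a x)] w := by
          filter_upwards [(isOpen_tube (N := N) r).mem_nhds (h1 x)] with p hp
          have := hw.per m p hp
          rw [← this]
          congr 1
          ext1 <;> simp
        have h5 := h4.fderiv_eq (𝕜 := ℝ)
        rw [fderiv_comp_add_right] at h5
        rw [← h5]
        congr 1
        ext1 <;> simp
      rw [h2, h3]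
    have hbd : ∀ s ∈ ball t (ε / 2), ∀ x : V N, ‖pbd w a j k s x‖ ≤ B := by
      intro s hs x
      obtain ⟨y, hy, h⟩ := (hper s (hsub (ball_subset_closedBall hs))).exists_mem_cube x
      rw [h]
      exact hB (s, y) ⟨ball_subset_closedBall hs, hy⟩
    have hspb : ∀ s ∈ T, SP (pb w (fun θ => s • a θ) j k) := fun s hs =>
      sp_pb hw (ha.smul s) (hta s hs) j k
    have hlp : Continuous fun x : Fin N → ℝ => (WithLp.toLp 2 x : V N) :=
      (PiLp.continuousLinearEquiv 2 ℝ (fun _ : Fin N => ℝ)).symm.continuous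
    have hmain := (hasDerivAt_integral_of_dominated_loc_of_deriv_le
      (μ := volume.restrict (box (0 : Fin N → ℝ))) (bound := fun _ => B)
      (F := fun s x => pb w (fun θ => s • a θ) j k (WithLp.toLp 2 x))
      (F' := fun s x => pbd w a j k s (WithLp.toLp 2 x)) (x₀ := t) (s := ball t (ε / 2))
      (Metric.ball_mem_nhds t (by positivity)) ?_ ?_ ?_ ?_ (integrable_const _) ?_).2
    · have h0 : (∫ x in box (0 : Fin N → ℝ), pbd w a j k t (WithLp.toLp 2 x)) = 0 := by
        have h1 : mn (pbd w a j k t) = 0 := by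
          have h2 : pbd w a j k t = fun θ => dr j (lam w a t k) θ - dr k (lam w a t j) θ :=
            funext fun θ => pbd_eq hw ha j k t θ (hta t ht)
          have hl : ∀ l, SP (lam w a t l) := by
            intro l
            have s1 := sp_wa hw (ha.smul t) (hta t ht)
            have s2 : SP (fun θ => ((0, a θ) : W N)) :=
              ⟨contDiff_const.prodMk ha.sm, fun k x => by rw [ha.per k x]⟩
            have s3 : SP (fun θ => ((ee l, t • dr l a θ) : W N)) :=
              ⟨contDiff_const.prodMk ((ha.dr l).smul t).sm, fun k x => by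
                rw [(ha.dr l).per k x]⟩
            exact SP.clm (SP.clm s1 s2) s3
          rw [h2, mn_sub ((hl k).dr j) ((hl j).dr k), mn_dr (hl k), mn_dr (hl j), sub_zero]
        exact h1
      rw [h0] at hmain
      exact hmain
    · filter_upwards [hTo.mem_nhds ht] with s hs
      exact ((hspb s hs).cont.comp hlp).aestronglyMeasurable
    · exact integrable_box (hspb t ht)
    · have h1 : pbd w a j k t = fun θ => pbd w a j k t θ := rfl
      have h2 : Continuous (pbd w a j k t) := by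
        rw [← continuousOn_univ]
        have := hcont.comp (f := fun θ : V N => (t, θ)) (s := univ)
          (continuous_const.prodMk continuous_id).continuousOn (fun θ _ => ⟨ht, mem_univ _⟩)
        exact this
      exact (h2.comp hlp).aestronglyMeasurable
    · exact Eventually.of_forall fun x s hs => hbd s hs _
    · exact Eventually.of_forall fun x s hs => hasDerivAt_pbt hw ha j k s _
        (hta s (hsub (ball_subset_closedBall hs)) _)
  have hI : Icc (0 : ℝ) 1 ⊆ T := by
    intro t ht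
    show |t| * M < r
    rw [abs_of_nonneg ht.1]
    exact (mul_le_of_le_one_left hM0 ht.2).trans_lt hMr
  have hconst := constant_of_has_deriv_right_zero
    (f := fun t : ℝ => mn (pb w (fun θ => t • a θ) j k)) (a := 0) (b := 1)
    (fun t ht => (hder t (hI ht)).continuousAt.continuousWithinAt)
    (fun t ht => (hder t (hI ⟨ht.1, ht.2.le⟩)).hasDerivWithinAt) 1 (by simp)
  have e1 : (fun θ => (1 : ℝ) • a θ) = a := by funext θ; simp
  have e0 : (fun θ => (0 : ℝ) • a θ) = fun _ => (0 : V N) := by funext θ; simp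
  simp only [e1, e0] at hconst
  exact hconst

end

end

end Crest.Agent.R281.Mc673
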