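import Crest.Agent.R275.TorA_812
import Crest.Agent.R273.SchC_152
import Crest.Agent.R238.AprLin

-- ▼ part R281/Mc1_673
section

/-!
# R281 / LAGT (helper673), part 1

The Poisson equation `∑ S_ij ∂_i ∂_j w = g` on the torus `ℝ^N / ℤ^N`, for real smooth periodic
functions on `EuclideanSpace ℝ (Fin N)`: existence, uniqueness, `L²` bound.
-/

set_option autoImplicit false

open MeasureTheory Set
open scoped ContDiff

namespace Crest.Agent.R281.Mc673

open Crest.Agent.R238 (Ell)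
open Crest.Agent.R238.Sch (ee D2)
open Crest.Agent.R275.Tor812

noncomputable section

variable {N : ℕ}

/-- the Euclidean space -/
abbrev V (N : ℕ) := EuclideanSpace ℝ (Fin N)

/-- the lattice vector of `k` -/
def kv (k : Fin N → ℤ) : V N := WithLp.toLp 2 fun i => (k i : ℝ)

/-- `ℤ^N`-periodic functions -/
def Per {F : Type*} (f : V N → F) : Prop := ∀ (k : Fin N → ℤ) (x : V N), f (x + kv k) = f x

/-- smooth periodic -/
structure SP {F : Type*} [NormedAddCommGroup F] [NormedSpace ℝ F] (f : V N → F) : Prop where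
  sm : ContDiff ℝ ∞ f
  per : Per f

/-- partial derivative -/
def dr {F : Type*} [NormedAddCommGroup F] [NormedSpace ℝ F] (i : Fin N) (f : V N → F) (x : V N) : F :=
  fderiv ℝ f x (ee i)

section SPbasics

variable {F : Type*} [NormedAddCommGroup F] [NormedSpace ℝ F] {f g : V N → F}

theorem SP.diff (hf : SP f) : Differentiable ℝ f := hf.sm.differentiable (by simp)

theorem SP.cont (hf : SP f) : Continuous f := hf.sm.continuous

theorem SP.add (hf : SP f) (hg : SP g) : SP (fun x => f x + g x) :=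
  ⟨hf.sm.add hg.sm, fun k x => by simp only [hf.per k x, hg.per k x]⟩

theorem SP.sub (hf : SP f) (hg : SP g) : SP (fun x => f x - g x) :=
  ⟨hf.sm.sub hg.sm, fun k x => by simp only [hf.per k x, hg.per k x]⟩

theorem SP.neg (hf : SP f) : SP (fun x => - f x) :=
  ⟨hf.sm.neg, fun k x => by simp only [hf.per k x]⟩

theorem SP.smul (hf : SP f) (c : ℝ) : SP (fun x => c • f x) :=
  ⟨contDiff_const.smul hf.sm, fun k x => by simp only [hf.per k x]⟩

theorem SP.const (c : F) : SP (fun _ : V N => c) := ⟨contDiff_const, fun _ _ => rfl⟩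

theorem SP.sum {ι : Type*} (s : Finset ι) {f : ι → V N → F} (hf : ∀ i ∈ s, SP (f i)) :
    SP (fun x => ∑ i ∈ s, f i x) :=
  ⟨ContDiff.sum fun i hi => (hf i hi).sm, fun k x =>
    Finset.sum_congr rfl fun i hi => (hf i hi).per k x⟩

theorem SP.mul {f g : V N → ℝ} (hf : SP f) (hg : SP g) : SP (fun x => f x * g x) :=
  ⟨hf.sm.mul hg.sm, fun k x => by simp only [hf.per k x, hg.per k x]⟩

theorem SP.fderiv (hf : SP f) : SP (fun x => _root_.fderiv ℝ f x) := by
  refine ⟨hf.sm.fderiv_right (m := ∞) (by simp), fun k x => ?_⟩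
  have h1 : _root_.fderiv ℝ (fun y => f (y + kv k)) x = _root_.fderiv ℝ f (x + kv k) :=
    fderiv_comp_add_right _
  rw [← h1]
  congr 1
  exact funext fun y => hf.per k y

theorem SP.dr (hf : SP f) (i : Fin N) : SP (dr i f) :=
  ⟨hf.fderiv.sm.clm_apply contDiff_const, fun k x =>
    congrArg (fun L : V N →L[ℝ] F => L (ee i)) (hf.fderiv.per k x)⟩

theorem dr_add (hf : SP f) (hg : SP g) (i : Fin N) (x : V N) :
    dr i (fun x => f x + g x) x = dr i f x + dr i g x := by
  unfold Crest.Agent.R281.Mc673.dr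
  rw [fderiv_fun_add (hf.diff x) (hg.diff x)]; rfl

theorem dr_sub (hf : SP f) (hg : SP g) (i : Fin N) (x : V N) :
    dr i (fun x => f x - g x) x = dr i f x - dr i g x := by
  unfold Crest.Agent.R281.Mc673.dr
  rw [fderiv_fun_sub (hf.diff x) (hg.diff x)]; rfl

theorem dr_neg (i : Fin N) (x : V N) : dr i (fun x => - f x) x = - dr i f x := by
  unfold Crest.Agent.R281.Mc673.dr
  rw [fderiv_fun_neg]; rfl

theorem dr_smul (hf : SP f) (c : ℝ) (i : Fin N) (x : V N) :
    dr i (fun x => c • f x) x = c • dr i f x := by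
  unfold Crest.Agent.R281.Mc673.dr
  rw [fderiv_fun_const_smul (hf.diff x)]; rfl

theorem dr_const_mul {f : V N → ℝ} (hf : SP f) (c : ℝ) (i : Fin N) (x : V N) :
    dr i (fun x => c * f x) x = c * dr i f x := by
  simpa using dr_smul hf c i x

theorem dr_sum {ι : Type*} (s : Finset ι) {f : ι → V N → F} (hf : ∀ i ∈ s, SP (f i))
    (i : Fin N) (x : V N) :
    dr i (fun x => ∑ j ∈ s, f j x) x = ∑ j ∈ s, dr i (f j) x := by
  unfold Crest.Agent.R281.Mc673.dr
  rw [fderiv_fun_sum fun j hj => (hf j hj).diff x]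
  simp

theorem dr_mul {f g : V N → ℝ} (hf : SP f) (hg : SP g) (i : Fin N) (x : V N) :
    dr i (fun x => f x * g x) x = dr i f x * g x + f x * dr i g x := by
  unfold Crest.Agent.R281.Mc673.dr
  rw [fderiv_fun_mul (hf.diff x) (hg.diff x)]
  simp only [_root_.add_apply, _root_.smul_apply, smul_eq_mul]
  ring

theorem dr_comm (hf : SP f) (i j : Fin N) (x : V N) : dr i (dr j f) x = dr j (dr i f) x := by
  have h1 : ∀ i j : Fin N, dr i (dr j f) x = _root_.fderiv ℝ (_root_.fderiv ℝ f) x (ee i) (ee j) := by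
    intro i j
    show _root_.fderiv ℝ (fun y => _root_.fderiv ℝ f y (ee j)) x (ee i) = _
    rw [fderiv_clm_apply (hf.fderiv.diff x) (differentiableAt_const _)]
    simp
  rw [h1, h1]
  exact (hf.sm.contDiffAt (x := x)).isSymmSndFDerivAt (by
    rw [minSmoothness_of_isRCLikeNormedField]; norm_cast) _ _

theorem D2_eq {f : V N → ℝ} (hf : SP f) (i j : Fin N) (x : V N) :
    D2 f x (ee i) (ee j) = dr i (dr j f) x := by
  show _ = _root_.fderiv ℝ (fun y => _root_.fderiv ℝ f y (ee j)) x (ee i)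
  rw [fderiv_clm_apply (hf.fderiv.diff x) (differentiableAt_const _)]
  simp [D2]

end SPbasics

/-! ### bridge to `SPer` -/

/-- a real smooth periodic function as an element of `SPer` -/
def toS (f : V N → ℝ) (hf : SP f) : SPer (Fin N) :=
  ⟨fun x => ((f (WithLp.toLp 2 x) : ℝ) : ℂ), by
    refine ⟨Complex.ofRealCLM.contDiff.comp (hf.sm.comp ?_), fun k x => ?_⟩
    · exact (PiLp.continuousLinearEquiv 2 ℝ (fun _ : Fin N => ℝ)).symm.contDiff
    · show ((f (WithLp.toLp 2 (x + fun i => (k i : ℝ))) : ℝ) : ℂ) = _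
      rw [WithLp.toLp_add]
      have := hf.per k (WithLp.toLp 2 x)
      rw [kv] at this
      rw [this]⟩

theorem toS_apply (f : V N → ℝ) (hf : SP f) (x : Fin N → ℝ) :
    toS f hf x = ((f (WithLp.toLp 2 x) : ℝ) : ℂ) := rfl

/-- real part of an element of `SPer` -/
def reS (u : SPer (Fin N)) (x : V N) : ℝ := (u (WithLp.ofLp x)).re

theorem ofLp_ee (i : Fin N) : WithLp.ofLp (ee i : V N) = (ev i : Fin N → ℝ) := by
  funext j
  by_cases h : j = i
  · subst h; rw [ev_same]; simp [ee]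
  · rw [ev_ne h]; simp [ee, h]

theorem toLp_ev (i : Fin N) : (WithLp.toLp 2 (ev i : Fin N → ℝ) : V N) = ee i := by
  rw [← ofLp_ee]

theorem sp_reS (u : SPer (Fin N)) : SP (reS u) := by
  refine ⟨Complex.reCLM.contDiff.comp ((sm u).comp
    (PiLp.continuousLinearEquiv 2 ℝ (fun _ : Fin N => ℝ)).contDiff), fun k x => ?_⟩
  show (u (WithLp.ofLp (x + kv k))).re = (u (WithLp.ofLp x)).re
  have := Crest.Agent.R275.Tor812.per u k (WithLp.ofLp x)
  rw [← this]; rfl

theorem dr_reS (u : SPer (Fin N)) (i : Fin N) : dr i (reS u) = reS (pd i u) := by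
  funext x
  have h1 : HasFDerivAt (fun x : V N => WithLp.ofLp x)
      ((PiLp.continuousLinearEquiv 2 ℝ (fun _ : Fin N => ℝ)) : V N →L[ℝ] (Fin N → ℝ)) x :=
    (PiLp.continuousLinearEquiv 2 ℝ (fun _ : Fin N => ℝ)).hasFDerivAt
  have h2 := ((sm_diff u (WithLp.ofLp x)).hasFDerivAt).comp x h1
  have h3 := (Complex.reCLM.hasFDerivAt (x := u (WithLp.ofLp x))).comp x h2
  have h4 : fderiv ℝ (reS u) x = _ := HasFDerivAt.fderiv h3
  show fderiv ℝ (reS u) x (ee i) = _
  rw [h4]
  show Complex.re (fderiv ℝ u (WithLp.ofLp x) (WithLp.ofLp (ee i))) = _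
  rw [ofLp_ee]; rfl

theorem pd_toS {f : V N → ℝ} (hf : SP f) (i : Fin N) : pd i (toS f hf) = toS (dr i f) (hf.dr i) := by
  refine SPer.ext fun x => ?_
  have h1 : HasFDerivAt (fun x : Fin N → ℝ => (WithLp.toLp 2 x : V N))
      ((PiLp.continuousLinearEquiv 2 ℝ (fun _ : Fin N => ℝ)).symm : (Fin N → ℝ) →L[ℝ] V N) x :=
    (PiLp.continuousLinearEquiv 2 ℝ (fun _ : Fin N => ℝ)).symm.hasFDerivAt
  have h2 := ((hf.diff (WithLp.toLp 2 x)).hasFDerivAt).comp x h1
  have h3 := (Complex.ofRealCLM.hasFDerivAt (x := f (WithLp.toLp 2 x))).comp x h2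
  have h4 : fderiv ℝ (toS f hf : (Fin N → ℝ) → ℂ) x = _ := HasFDerivAt.fderiv h3
  rw [pd_apply, h4]
  show ((fderiv ℝ f (WithLp.toLp 2 x) (WithLp.toLp 2 (ev i)) : ℝ) : ℂ) = _
  rw [toLp_ev]; rfl

theorem reS_toS {f : V N → ℝ} (hf : SP f) : reS (toS f hf) = f := by
  funext x; simp [reS, toS_apply]

/-! ### the mean -/

/-- the mean over the torus -/
def mn (f : V N → ℝ) : ℝ := ∫ x in box (0 : Fin N → ℝ), f (WithLp.toLp 2 x)

theorem fc_toS_zero {f : V N → ℝ} (hf : SP f) : fc (toS f hf) 0 = (mn f : ℂ) := by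
  rw [fc_eq_integral _ _ 0, mn]
  have h : ∀ x : Fin N → ℝ, ch (-0) x * toS f hf x = ((f (WithLp.toLp 2 x) : ℝ) : ℂ) := by
    intro x
    rw [toS_apply]
    simp [ch]
  simp_rw [h]
  exact integral_ofReal

theorem mn_reS (u : SPer (Fin N)) : mn (reS u) = (fc u 0).re := by
  rw [fc_eq_integral _ _ 0, mn]
  have h : ∀ x : Fin N → ℝ, ch (-0) x * u x = u x := by
    intro x; simp [ch]
  simp_rw [h]
  have hi : Integrable (fun x => u x) (volume.restrict (box (0 : Fin N → ℝ))) := by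
    have := integrable_mul_ch u 0 0
    simpa [ch] using this
  exact integral_re hi

theorem integrable_box {f : V N → ℝ} (hf : SP f) :
    Integrable (fun x => f (WithLp.toLp 2 x)) (volume.restrict (box (0 : Fin N → ℝ))) := by
  have h := integrable_mul_ch (toS f hf) 0 0
  have h2 := h.re
  refine h2.congr (Filter.Eventually.of_forall fun x => ?_)
  simp [ch, toS_apply]

theorem mn_add {f g : V N → ℝ} (hf : SP f) (hg : SP g) : mn (fun x => f x + g x) = mn f + mn g :=
  integral_add (integrable_box hf) (integrable_box hg)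

theorem mn_sub {f g : V N → ℝ} (hf : SP f) (hg : SP g) : mn (fun x => f x - g x) = mn f - mn g :=
  integral_sub (integrable_box hf) (integrable_box hg)

theorem mn_neg (f : V N → ℝ) : mn (fun x => - f x) = - mn f := integral_neg _

theorem mn_mul (c : ℝ) (f : V N → ℝ) : mn (fun x => c * f x) = c * mn f := integral_const_mul _ _

theorem mn_const (c : ℝ) : mn (fun _ : V N => c) = c := by
  simp [mn, measureReal_def, volume_box]

theorem mn_sum {ι : Type*} (s : Finset ι) {f : ι → V N → ℝ} (hf : ∀ i ∈ s, SP (f i)) :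
    mn (fun x => ∑ i ∈ s, f i x) = ∑ i ∈ s, mn (f i) :=
  integral_finset_sum _ fun i hi => integrable_box (hf i hi)

theorem mn_dr {f : V N → ℝ} (hf : SP f) (i : Fin N) : mn (dr i f) = 0 := by
  have h := fc_toS_zero (hf.dr i)
  rw [← pd_toS hf, fc_pd] at h
  simp only [Pi.zero_apply, Int.cast_zero, mul_zero, zero_mul] at h
  exact_mod_cast h.symm

/-! ### the operator -/

/-- `∑ S_ij ∂_i ∂_j` -/
def PP (S : Matrix (Fin N) (Fin N) ℝ) (w : V N → ℝ) (x : V N) : ℝ :=
  ∑ i, ∑ j, S i j * dr i (dr j w) x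

/-- complex version -/
def Pc (S : Matrix (Fin N) (Fin N) ℝ) (u : SPer (Fin N)) : SPer (Fin N) :=
  ∑ i, ∑ j, ((S i j : ℝ) : ℂ) • pd i (pd j u)

/-- the quadratic form -/
def qf (S : Matrix (Fin N) (Fin N) ℝ) (k : Fin N → ℤ) : ℝ :=
  ∑ i, ∑ j, S i j * (k i : ℝ) * (k j : ℝ)

theorem fc_Pc (S : Matrix (Fin N) (Fin N) ℝ) (u : SPer (Fin N)) (k : Fin N → ℤ) :
    fc (Pc S u) k = ((-(4 * Real.pi ^ 2 * qf S k) : ℝ) : ℂ) * fc u k := by
  unfold Pc
  rw [fc_sum]
  simp_rw [fc_sum, fc_smul, fc_pd]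
  unfold qf
  push_cast
  rw [← neg_mul, Finset.mul_sum, Finset.sum_mul]
  refine Finset.sum_congr rfl fun i _ => ?_
  rw [Finset.mul_sum, Finset.sum_mul]
  refine Finset.sum_congr rfl fun j _ => ?_
  ring_nf
  rw [Complex.I_sq]
  ring

theorem reS_Pc (S : Matrix (Fin N) (Fin N) ℝ) (u : SPer (Fin N)) : reS (Pc S u) = PP S (reS u) := by
  funext x
  have h1 : ∀ (t : Finset (Fin N)) (g : Fin N → SPer (Fin N)) (y : Fin N → ℝ),
      (∑ i ∈ t, g i : SPer (Fin N)) y = ∑ i ∈ t, g i y := by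
    intro t g y
    classical
    induction t using Finset.induction_on with
    | empty => rfl
    | insert i t hi ih => rw [Finset.sum_insert hi, Finset.sum_insert hi, ← ih]; rfl
  unfold reS Pc PP
  rw [h1, Complex.re_sum]
  refine Finset.sum_congr rfl fun i _ => ?_
  rw [h1, Complex.re_sum]
  refine Finset.sum_congr rfl fun j _ => ?_
  have h2 : dr i (dr j (reS u)) x = reS (pd i (pd j u)) x := by rw [dr_reS, dr_reS]
  show (((S i j : ℝ) : ℂ) * (pd i (pd j u)) (WithLp.ofLp x)).re = S i j * dr i (dr j (reS u)) x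
  rw [h2, Complex.re_ofReal_mul]; rfl

theorem Pc_toS (S : Matrix (Fin N) (Fin N) ℝ) {w : V N → ℝ} (hw : SP w)
    (hP : SP (PP S w)) : Pc S (toS w hw) = toS (PP S w) hP := by
  refine SPer.ext fun x => ?_
  have h1 : ∀ (t : Finset (Fin N)) (g : Fin N → SPer (Fin N)) (y : Fin N → ℝ),
      (∑ i ∈ t, g i : SPer (Fin N)) y = ∑ i ∈ t, g i y := by
    intro t g y
    classical
    induction t using Finset.induction_on with
    | empty => rfl
    | insert i t hi ih => rw [Finset.sum_insert hi, Finset.sum_insert hi, ← ih]; rfl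
  unfold Pc
  rw [h1, toS_apply]
  unfold PP
  rw [Complex.ofReal_sum]
  refine Finset.sum_congr rfl fun i _ => ?_
  rw [h1, Complex.ofReal_sum]
  refine Finset.sum_congr rfl fun j _ => ?_
  rw [Complex.ofReal_mul, pd_toS, pd_toS]; rfl

theorem sp_PP (S : Matrix (Fin N) (Fin N) ℝ) {w : V N → ℝ} (hw : SP w) : SP (PP S w) :=
  SP.sum _ fun i _ => SP.sum _ fun j _ => by
    simpa using ((hw.dr j).dr i).smul (S i j)

theorem qf_ge {hi : ℝ} {S : Matrix (Fin N) (Fin N) ℝ} (hS : Ell 1 hi S) (k : Fin N → ℤ) :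
    ∑ i, (k i : ℝ) ^ 2 ≤ qf S k := by
  have := (hS.2 fun i => (k i : ℝ)).1
  rwa [one_mul] at this

theorem one_le_norm_sq {k : Fin N → ℤ} (hk : k ≠ 0) : 1 ≤ ∑ i, (k i : ℝ) ^ 2 := by
  obtain ⟨i, hi⟩ := Function.ne_iff.1 hk
  have h1 : (1 : ℝ) ≤ (k i : ℝ) ^ 2 := by
    have : (1 : ℤ) ≤ (k i) ^ 2 := by
      have hi' : k i ≠ 0 := hi
      have h0 : 0 < (k i) ^ 2 := by positivity
      omega
    exact_mod_cast this
  exact h1.trans (Finset.single_le_sum (f := fun i => (k i : ℝ) ^ 2) (fun i _ => sq_nonneg _)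
    (Finset.mem_univ i))

theorem one_le_qf {hi : ℝ} {S : Matrix (Fin N) (Fin N) ℝ} (hS : Ell 1 hi S) {k : Fin N → ℤ}
    (hk : k ≠ 0) : 1 ≤ 4 * Real.pi ^ 2 * qf S k := by
  have h1 := (one_le_norm_sq hk).trans (qf_ge hS k)
  have h2 : (1 : ℝ) ≤ Real.pi := by linarith [Real.pi_gt_three]
  nlinarith

theorem uniq {hi : ℝ} {S : Matrix (Fin N) (Fin N) ℝ} (hS : Ell 1 hi S) {w : V N → ℝ} (hw : SP w)
    (hm : mn w = 0) (h : ∀ x, PP S w x = 0) : ∀ x, w x = 0 := by
  have hP := sp_PP S hw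
  have h0 : toS (PP S w) hP = 0 := SPer.ext fun x => by
    rw [toS_apply, h]; simp
  have h1 := Pc_toS S hw hP
  rw [h0] at h1
  have h2 : toS w hw = 0 := by
    refine fc_inj fun k => ?_
    rw [fc_zero]
    by_cases hk : k = 0
    · subst hk; rw [fc_toS_zero, hm]; simp
    · have h3 := fc_Pc S (toS w hw) k
      rw [h1, fc_zero] at h3
      rcases mul_eq_zero.1 h3.symm with h4 | h4
      · exfalso
        have h5 : (-(4 * Real.pi ^ 2 * qf S k) : ℝ) = 0 := by exact_mod_cast h4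
        have := one_le_qf hS hk
        linarith
      · exact h4
  intro x
  have h3 : toS w hw (WithLp.ofLp x) = 0 := by rw [h2]; rfl
  rw [toS_apply] at h3
  exact_mod_cast h3

theorem exists_sol {hi : ℝ} {S : Matrix (Fin N) (Fin N) ℝ} (hS : Ell 1 hi S) {g : V N → ℝ}
    (hg : SP g) (hm : mn g = 0) : ∃ w : V N → ℝ, SP w ∧ mn w = 0 ∧ ∀ x, PP S w x = g x := by
  classical
  set c : (Fin N → ℤ) → ℂ := fun k =>
    ((-(4 * Real.pi ^ 2 * qf S k)⁻¹ : ℝ) : ℂ) * fc (toS g hg) k with hc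
  have h0 : fc (toS g hg) 0 = 0 := by rw [fc_toS_zero, hm]; simp
  have hle : ∀ k, ‖c k‖ ≤ ‖fc (toS g hg) k‖ := by
    intro k
    by_cases hk : k = 0
    · subst hk; simp only [hc]; rw [h0]; simp
    · simp only [hc]
      rw [norm_mul, Complex.norm_real, norm_neg, norm_inv, Real.norm_eq_abs]
      have h1 := one_le_qf hS hk
      rw [abs_of_nonneg (by linarith)]
      exact mul_le_of_le_one_left (norm_nonneg _) (inv_le_one_of_one_le₀ h1)
  have hr : Rapid c := fun M => by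
    obtain ⟨C, hC⟩ := rapid_fc (toS g hg) M
    exact ⟨C, fun k => (mul_le_mul_of_nonneg_left (hle k) (pow_nonneg (wt_pos k).le _)).trans (hC k)⟩
  refine ⟨reS (syn c hr), sp_reS _, ?_, ?_⟩
  · rw [mn_reS, fc_syn]
    simp only [hc]
    rw [h0]; simp
  · have h1 : Pc S (syn c hr) = toS g hg := by
      refine fc_inj fun k => ?_
      rw [fc_Pc, fc_syn]
      by_cases hk : k = 0
      · subst hk; simp only [hc]; rw [h0]; simp
      · simp only [hc]
        rw [← mul_assoc, ← Complex.ofReal_mul]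
        have h1 := one_le_qf hS hk
        have h2 : -(4 * Real.pi ^ 2 * qf S k) * -(4 * Real.pi ^ 2 * qf S k)⁻¹ = 1 := by
          rw [neg_mul_neg]
          exact mul_inv_cancel₀ (by linarith)
        rw [h2]; simp
    intro x
    rw [← reS_Pc, h1, reS_toS]

/-- the `L²` bound -/
theorem l2_bound {hi : ℝ} {S : Matrix (Fin N) (Fin N) ℝ} (hS : Ell 1 hi S) {w : V N → ℝ} (hw : SP w)
    (hm : mn w = 0) {B : ℝ} (hB : ∀ x, |PP S w x| ≤ B) :
    ∫ x in box (0 : Fin N → ℝ), w (WithLp.toLp 2 x) ^ 2 ≤ B ^ 2 := by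
  have hP := sp_PP S hw
  have h1 := parseval (toS w hw)
  have h2 := parseval (toS (PP S w) hP)
  have h3 : l2 (toS w hw) ≤ l2 (toS (PP S w) hP) := by
    refine hasSum_le (fun k => ?_) h1 h2
    rw [← Pc_toS S hw hP, fc_Pc]
    by_cases hk : k = 0
    · subst hk; rw [fc_toS_zero, hm]; simp
    · rw [norm_mul, Complex.norm_real, norm_neg, Real.norm_eq_abs]
      have h1 := one_le_qf hS hk
      rw [abs_of_nonneg (by linarith)]
      refine pow_le_pow_left₀ (norm_nonneg _) ?_ 2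
      exact le_mul_of_one_le_left (norm_nonneg _) h1
  have h4 : l2 (toS w hw) = ∫ x in box (0 : Fin N → ℝ), w (WithLp.toLp 2 x) ^ 2 := by
    unfold l2
    refine integral_congr_ae (Filter.Eventually.of_forall fun x => ?_)
    show ‖toS w hw x‖ ^ 2 = _
    rw [toS_apply, Complex.norm_real, Real.norm_eq_abs, sq_abs]
  have h5 : l2 (toS (PP S w) hP) ≤ B ^ 2 := by
    unfold l2
    have h6 : ∀ x : Fin N → ℝ, ‖toS (PP S w) hP x‖ ^ 2 ≤ B ^ 2 := fun x => by
      rw [toS_apply, Complex.norm_real, Real.norm_eq_abs]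
      exact pow_le_pow_left₀ (abs_nonneg _) (hB _) 2
    have h7 : ∫ x in box (0 : Fin N → ℝ), ‖toS (PP S w) hP x‖ ^ 2 ≤
        ∫ _ in box (0 : Fin N → ℝ), B ^ 2 := by
      refine integral_mono_of_nonneg (Filter.Eventually.of_forall fun x => by positivity)
        (integrable_const _) (Filter.Eventually.of_forall h6)
    refine h7.trans (le_of_eq ?_)
    simp [measureReal_def, volume_box]
  rw [← h4]
  exact h3.trans h5

end

end Crest.Agent.R281.Mc673
end

-- ▼ part R281/Mc2_673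

/-!
# R281 / LAGT (helper673), part 2

Global Schauder estimate for `∑ S_ij ∂_i ∂_j w = g` on the torus `ℝ^N / ℤ^N`.
-/

set_option autoImplicit false

open MeasureTheory Set Metric
open scoped ContDiff

namespace Crest.Agent.R281.Mc673

open Crest.Agent.R238 (Ell)
open Crest.Agent.R238.Sch (ee D2 LB)
open Crest.Agent.R273.SchA_152 (HO)
open Crest.Agent.R273.SchB_152 (P2)
open Crest.Agent.R275.Tor812

noncomputable section

variable {N : ℕ}

/-! ### compactness of the torus -/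

/-- the closed unit cube -/
def cube (N : ℕ) : Set (V N) := {y | ∀ i, y i ∈ Icc (0 : ℝ) 1}

theorem isCompact_cube : IsCompact (cube N) := by
  have h1 : IsCompact (Set.pi univ fun _ : Fin N => Icc (0 : ℝ) 1) :=
    isCompact_univ_pi fun _ => isCompact_Icc
  have h2 := h1.image (PiLp.continuousLinearEquiv 2 ℝ (fun _ : Fin N => ℝ)).symm.continuous
  convert h2 using 1
  ext y
  constructor
  · intro hy
    exact ⟨WithLp.ofLp y, fun i _ => hy i, rfl⟩
  · rintro ⟨z, hz, rfl⟩ i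
    exact hz i (mem_univ i)

theorem cube_nonempty : (cube N).Nonempty := ⟨0, fun i => by simp⟩

theorem exists_cube (x : V N) : ∃ (k : Fin N → ℤ) (y : V N), y ∈ cube N ∧ x = y + kv k := by
  refine ⟨fun i => ⌊x i⌋, WithLp.toLp 2 fun i => Int.fract (x i), fun i => ?_, ?_⟩
  · exact ⟨Int.fract_nonneg _, (Int.fract_lt_one _).le⟩
  · ext i
    show x i = Int.fract (x i) + (⌊x i⌋ : ℝ)
    rw [add_comm]; exact (Int.floor_add_fract (x i)).symm

theorem Per.exists_mem_cube {F : Type*} {f : V N → F} (hp : Per f) (x : V N) :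
    ∃ y ∈ cube N, f x = f y := by
  obtain ⟨k, y, hy, rfl⟩ := exists_cube x
  exact ⟨y, hy, hp k y⟩

theorem Per.bdd {F : Type*} [NormedAddCommGroup F] {f : V N → F} (hp : Per f)
    (hc : Continuous f) : ∃ M, 0 ≤ M ∧ ∀ x, ‖f x‖ ≤ M := by
  obtain ⟨M, hM⟩ := isCompact_cube.exists_bound_of_continuousOn (hc.continuousOn (s := cube N))
  refine ⟨max M 0, le_max_right _ _, fun x => ?_⟩
  obtain ⟨y, hy, h⟩ := hp.exists_mem_cube x
  rw [h]
  exact (hM y hy).trans (le_max_left _ _)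

theorem Per.exists_max {f : V N → ℝ} (hp : Per f) (hc : Continuous f) :
    ∃ x0, ∀ x, f x ≤ f x0 := by
  obtain ⟨x0, _, h0⟩ := isCompact_cube.exists_isMaxOn cube_nonempty (hc.continuousOn (s := cube N))
  refine ⟨x0, fun x => ?_⟩
  obtain ⟨y, hy, h⟩ := hp.exists_mem_cube x
  rw [h]
  exact h0 hy

theorem le_two_rpow {t a : ℝ} (ha : 0 ≤ a) (ht : 1 ≤ t) : 1 ≤ t ^ a := Real.one_le_rpow ht ha

/-- a bounded Lipschitz function is Hölder -/
theorem ho_of_lip {X F : Type*} [NormedAddCommGroup X] [NormedAddCommGroup F] {a M L : ℝ}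
    (ha : 0 ≤ a) (ha1 : a ≤ 1) {s : Set X} {f : X → F} (h0 : ∀ x ∈ s, ‖f x‖ ≤ M)
    (h1 : ∀ x ∈ s, ∀ y ∈ s, ‖f x - f y‖ ≤ L * ‖x - y‖) (hL : 0 ≤ L) (hM : 0 ≤ M) :
    HO a (L + 2 * M) s f where
  bdd x hx := (h0 x hx).trans (by linarith)
  hol x hx y hy := by
    have hr : 0 ≤ ‖x - y‖ ^ a := Real.rpow_nonneg (norm_nonneg _) _
    rcases le_total ‖x - y‖ 1 with h | h
    · have h2 : ‖x - y‖ ≤ ‖x - y‖ ^ a := by
        rcases (norm_nonneg (x - y)).eq_or_lt with h3 | h3
        · rw [← h3]; exact Real.rpow_nonneg le_rfl _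
        · calc ‖x - y‖ = ‖x - y‖ ^ (1 : ℝ) := (Real.rpow_one _).symm
            _ ≤ ‖x - y‖ ^ a := Real.rpow_le_rpow_of_exponent_ge h3 h ha1
      refine (h1 x hx y hy).trans ?_
      have h4 : L * ‖x - y‖ ≤ L * ‖x - y‖ ^ a := mul_le_mul_of_nonneg_left h2 hL
      have h5 : 0 ≤ 2 * M * ‖x - y‖ ^ a := by positivity
      linarith
    · have h2 : 1 ≤ ‖x - y‖ ^ a := le_two_rpow ha h
      have h3 : ‖f x - f y‖ ≤ 2 * M := (norm_sub_le _ _).trans (by linarith [h0 x hx, h0 y hy])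
      have h4 : 2 * M ≤ 2 * M * ‖x - y‖ ^ a := le_mul_of_one_le_right (by positivity) h2
      have h5 : 0 ≤ L * ‖x - y‖ ^ a := by positivity
      linarith

theorem SP.ho {F : Type*} [NormedAddCommGroup F] [NormedSpace ℝ F] {f : V N → F} (hf : SP f)
    {a : ℝ} (ha : 0 ≤ a) (ha1 : a ≤ 1) : ∃ M, HO a M univ f := by
  obtain ⟨M, hM0, hM⟩ := hf.per.bdd hf.cont
  obtain ⟨L, hL0, hL⟩ := hf.fderiv.per.bdd hf.fderiv.cont
  refine ⟨_, ho_of_lip ha ha1 (fun x _ => hM x) (fun x _ y _ => ?_) hL0 hM0⟩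
  exact convex_univ.norm_image_sub_le_of_norm_fderiv_le (𝕜 := ℝ) (fun z _ => hf.diff z)
    (fun z _ => hL z) (mem_univ y) (mem_univ x)

/-- from local to global Hölder bounds -/
theorem ho_glob {F : Type*} [NormedAddCommGroup F] {a Q : ℝ} (ha : 0 < a) (ha1 : a ≤ 1)
    {f : V N → F} (h : ∀ x0, HO a Q (closedBall x0 (1 / 2)) f) : HO a (4 * Q) univ f where
  bdd x _ := by
    have h1 := (h x).bdd x (mem_closedBall_self (by norm_num))
    have := norm_nonneg (f x)
    linarith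
  hol x _ y _ := by
    have h1 := (h x).bdd x (mem_closedBall_self (by norm_num))
    have h1' := (h y).bdd y (mem_closedBall_self (by norm_num))
    have hQ : 0 ≤ Q := (norm_nonneg _).trans h1
    have hr : 0 ≤ ‖x - y‖ ^ a := Real.rpow_nonneg (norm_nonneg _) _
    rcases le_total ‖x - y‖ (1 / 2) with h2 | h2
    · have h3 := (h x).hol x (mem_closedBall_self (by norm_num)) y (by
        rw [mem_closedBall, dist_eq_norm, norm_sub_rev]; exact h2)
      refine h3.trans (mul_le_mul_of_nonneg_right (by linarith) hr)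
    · have h3 : ‖f x - f y‖ ≤ 2 * Q := (norm_sub_le _ _).trans (by linarith)
      have h4 : 1 ≤ (2 * ‖x - y‖) ^ a := le_two_rpow ha.le (by linarith)
      have h5 : (2 * ‖x - y‖) ^ a ≤ 2 * ‖x - y‖ ^ a := by
        rw [Real.mul_rpow (by norm_num) (norm_nonneg _)]
        refine mul_le_mul_of_nonneg_right ?_ hr
        calc (2 : ℝ) ^ a ≤ 2 ^ (1 : ℝ) := Real.rpow_le_rpow_of_exponent_le (by norm_num) ha1
          _ = 2 := Real.rpow_one 2
      nlinarith

/-! ### the mean over translated boxes -/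

theorem mn_eq_box {f : V N → ℝ} (hf : SP f) (b : Fin N → ℝ) :
    mn f = ∫ x in box b, f (WithLp.toLp 2 x) := by
  have h1 := fc_toS_zero hf
  rw [fc_eq_integral _ _ b] at h1
  have h : ∀ x : Fin N → ℝ, ch (-0) x * toS f hf x = ((f (WithLp.toLp 2 x) : ℝ) : ℂ) := by
    intro x
    rw [toS_apply]
    simp [ch]
  simp_rw [h] at h1
  have h2 : (∫ x in box b, ((f (WithLp.toLp 2 x) : ℝ) : ℂ)) =
      ((∫ x in box b, f (WithLp.toLp 2 x) : ℝ) : ℂ) := integral_ofReal
  exact_mod_cast h1.symm.trans h2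

theorem norm_toLp_le (z : Fin N → ℝ) {r : ℝ} (hr : 0 ≤ r) (h : ∀ i, |z i| ≤ r) :
    ‖(WithLp.toLp 2 z : V N)‖ ≤ (N + 1) * r := by
  rw [EuclideanSpace.norm_eq]
  refine Real.sqrt_le_iff.2 ⟨by positivity, ?_⟩
  calc ∑ i, ‖(WithLp.toLp 2 z : V N) i‖ ^ 2 ≤ ∑ _i : Fin N, r ^ 2 :=
        Finset.sum_le_sum fun i _ => by
          rw [Real.norm_eq_abs]
          exact pow_le_pow_left₀ (abs_nonneg _) (h i) 2
    _ = N * r ^ 2 := by simp
    _ ≤ ((N + 1) * r) ^ 2 := by
        have : (N : ℝ) ≤ (N + 1) ^ 2 := by nlinarith [Nat.cast_nonneg (α := ℝ) N]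
        rw [mul_pow]
        exact mul_le_mul_of_nonneg_right this (sq_nonneg _)

/-- lower bound of the `L²` norm by the maximum and the Lipschitz constant -/
theorem l2_lower {w : V N → ℝ} (hw : SP w) {W r : ℝ} {x0 : V N} (hr : 0 < r) (hr1 : r ≤ 1 / 2)
    (hW : 0 ≤ W) (h : ∀ y : V N, ‖y - x0‖ ≤ (N + 1) * r → W ≤ |w y|) :
    W ^ 2 * (2 * r) ^ N ≤ ∫ x in box (0 : Fin N → ℝ), w (WithLp.toLp 2 x) ^ 2 := by
  have hsq : SP (fun y => w y ^ 2) := by
    have := hw.mul hw
    simpa only [← sq] using this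
  have h0 := mn_eq_box hsq (fun i => x0 i - 1 / 2)
  have h0' : mn (fun y => w y ^ 2) = ∫ x in box (0 : Fin N → ℝ), w (WithLp.toLp 2 x) ^ 2 := rfl
  rw [← h0', h0]
  set Q : Set (Fin N → ℝ) := Set.pi univ fun i => Ioc (x0 i - r) (x0 i + r) with hQ
  have hQm : MeasurableSet Q := MeasurableSet.univ_pi fun _ => measurableSet_Ioc
  have hQv : volume.real Q = (2 * r) ^ N := by
    rw [hQ, measureReal_def, Real.volume_pi_Ioc, ENNReal.toReal_prod]
    have : ∀ i : Fin N, (ENNReal.ofReal (x0 i + r - (x0 i - r))).toReal = 2 * r := fun i => by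
      rw [ENNReal.toReal_ofReal (by linarith)]; ring
    simp only [this, Finset.prod_const, Finset.card_univ, Fintype.card_fin]
  have hsub : Q ⊆ box (fun i => x0 i - 1 / 2) := by
    intro y hy i
    have := hy i (mem_univ i)
    constructor
    · have := this.1; show x0 i - 1 / 2 < y i; linarith
    · have := this.2; show y i ≤ x0 i - 1 / 2 + 1; linarith
  have hcont : Continuous fun x : Fin N → ℝ => w (WithLp.toLp 2 x) ^ 2 :=
    (hw.cont.comp (PiLp.continuousLinearEquiv 2 ℝ (fun _ : Fin N => ℝ)).symm.continuous).pow 2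
  obtain ⟨M, hM0, hM⟩ := hsq.per.bdd hsq.cont
  have hint : IntegrableOn (fun x : Fin N → ℝ => w (WithLp.toLp 2 x) ^ 2)
      (box fun i => x0 i - 1 / 2) := by
    refine Integrable.of_bound hcont.aestronglyMeasurable M
      (Filter.Eventually.of_forall fun x => hM _)
  calc W ^ 2 * (2 * r) ^ N = ∫ _ in Q, W ^ 2 := by
        rw [setIntegral_const, hQv, smul_eq_mul, mul_comm]
    _ ≤ ∫ x in Q, w (WithLp.toLp 2 x) ^ 2 := by
        refine setIntegral_mono_on ?_ (hint.mono_set hsub) hQm fun x hx => ?_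
        · refine integrableOn_const (hs := ?_) (hC := ?_)
          · rw [hQ, Real.volume_pi_Ioc]
            exact (ENNReal.prod_lt_top fun i _ => ENNReal.ofReal_lt_top).ne
          · exact ENNReal.coe_ne_top
        · have h1 : ‖(WithLp.toLp 2 x : V N) - x0‖ ≤ (N + 1) * r := by
            have h2 : (WithLp.toLp 2 x : V N) - x0 = WithLp.toLp 2 (fun i => x i - x0 i) := by
              ext i; rfl
            rw [h2]
            refine norm_toLp_le _ hr.le fun i => ?_
            have := hx i (mem_univ i)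
            rw [abs_le]
            constructor
            · have := this.1; linarith
            · have := this.2; linarith
          have h3 := h _ h1
          calc W ^ 2 ≤ |w (WithLp.toLp 2 x)| ^ 2 := pow_le_pow_left₀ hW h3 2
            _ = _ := sq_abs _
    _ ≤ _ := setIntegral_mono_set hint (Filter.Eventually.of_forall fun x => sq_nonneg _)
        (Filter.Eventually.of_forall hsub)

/-! ### the Schauder estimate -/

theorem P2_eq_PP (S : Matrix (Fin N) (Fin N) ℝ) {w : V N → ℝ} (hw : SP w) (x : V N) :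
    P2 (fun _ => S) w x = PP S w x := by
  unfold P2 PP
  refine Finset.sum_congr rfl fun i _ => Finset.sum_congr rfl fun j _ => ?_
  rw [D2_eq hw]

/-- **Schauder estimate on the torus.** -/
theorem torus_schauder (N : ℕ) {a hi : ℝ} (ha : 0 < a) (ha1 : a < 1) (hhi : 1 ≤ hi) :
    ∃ C : ℝ, 0 < C ∧ ∀ S : Matrix (Fin N) (Fin N) ℝ, Ell 1 hi S → ∀ w : V N → ℝ, SP w → mn w = 0 →
      ∀ B : ℝ, HO a B univ (PP S w) →
        HO a (C * B) univ w ∧ HO a (C * B) univ (fderiv ℝ w) ∧
          HO a (C * B) univ (fderiv ℝ (fderiv ℝ w)) := by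
  obtain ⟨C0, hC0, H⟩ := Crest.Agent.R273.SchC_152.int_schauder N ha ha1 one_pos hhi hi
    (R := 1) one_pos le_rfl
  set C1 : ℝ := max C0 1 with hC1
  have hC1' : 1 ≤ C1 := le_max_right _ _
  set r : ℝ := 1 / (4 * C1 * (N + 1)) with hr
  have hr0 : 0 < r := by positivity
  have hr1 : r ≤ 1 / 4 := by
    rw [hr]
    refine one_div_le_one_div_of_le (by norm_num) ?_
    have hN : (0 : ℝ) ≤ N := Nat.cast_nonneg N
    nlinarith
  set q : ℝ := (2 * r) ^ N with hq
  have hq0 : 0 < q := by positivity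
  have hq1 : q ≤ 1 := pow_le_one₀ (by positivity) (by linarith)
  refine ⟨4 * (C1 * (1 + 2 / q)), by positivity, fun S hS w hw hm B hB => ?_⟩
  have hB0 : 0 ≤ B := hB.nonneg (mem_univ 0)
  have hw2 : ContDiff ℝ 2 w := by exact_mod_cast contDiff_infty.1 hw.sm 2
  -- the maximum
  obtain ⟨x0, hx0⟩ := Per.exists_max (f := fun x => |w x|)
    (fun k x => by show |w (x + kv k)| = |w x|; rw [hw.per k x]) hw.cont.abs
  set W : ℝ := |w x0| with hWdef
  have hW0 : 0 ≤ W := abs_nonneg _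
  obtain ⟨V2, hV2⟩ := hw.fderiv.fderiv.ho ha.le ha1.le
  have key : ∀ x : V N, HO a (C1 * (B + W)) (closedBall x (1 / 2)) (D2 w) ∧
      LB a (C1 * (B + W)) (closedBall x (1 / 2)) w := by
    intro x
    have h := H x (fun _ => S) (fun _ _ => hS) (fun i j => ?_) w B W hw2
      ⟨V2, hV2.subset (subset_univ _)⟩
      ((hB.subset (subset_univ _)).congr fun y _ => P2_eq_PP S hw y) (fun y _ => hx0 y)
    · have h4 : C0 * (B + W) ≤ C1 * (B + W) :=
        mul_le_mul_of_nonneg_right (le_max_left _ _) (by positivity)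
      exact ⟨h.1.mono h4, fun x hx => (h.2.h0 x hx).trans h4,
        fun x hx y hy => (h.2.h1 x hx y hy).trans
          (mul_le_mul_of_nonneg_right h4 (Real.rpow_nonneg (norm_nonneg _) _)),
        fun x hx => (h.2.d0 x hx).trans h4,
        fun x hx y hy => (h.2.d1 x hx y hy).trans
          (mul_le_mul_of_nonneg_right h4 (Real.rpow_nonneg (norm_nonneg _) _))⟩
    · refine ⟨fun y _ => ?_, fun y _ z _ => ?_⟩
      · rw [Real.norm_eq_abs]; exact Crest.Agent.R238.Apr.Ell.entry hS zero_le_one i j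
      · rw [sub_self, norm_zero]
        exact mul_nonneg (by linarith) (Real.rpow_nonneg (norm_nonneg _) _)
  -- the sup bound
  have hWB : W ≤ 2 / q * B := by
    have h2q : 2 ≤ 2 / q := by rw [le_div_iff₀ hq0]; linarith
    rcases le_total W B with hc | hc
    · nlinarith
    have hG : ∀ y : V N, ‖fderiv ℝ w y‖ ≤ 2 * C1 * W := fun y => by
      refine ((key y).2.d0 y (mem_closedBall_self (by norm_num))).trans ?_
      nlinarith
    have hlip : ∀ y : V N, |w y - w x0| ≤ 2 * C1 * W * ‖y - x0‖ := fun y =>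
      convex_univ.norm_image_sub_le_of_norm_fderiv_le (𝕜 := ℝ) (fun z _ => hw.diff z)
        (fun z _ => hG z) (mem_univ x0) (mem_univ y)
    have h3 : (W / 2) ^ 2 * q ≤ B ^ 2 := by
      refine (l2_lower (x0 := x0) hw hr0 (by linarith) (by positivity) fun y hy => ?_).trans
        (l2_bound hS hw hm (B := B) fun x => hB.bdd x (mem_univ x))
      have h4 := hlip y
      have h5 : 2 * C1 * W * ‖y - x0‖ ≤ W / 2 := by
        calc 2 * C1 * W * ‖y - x0‖ ≤ 2 * C1 * W * ((N + 1) * r) :=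
              mul_le_mul_of_nonneg_left hy (by positivity)
          _ = W / 2 := by rw [hr]; field_simp; ring
      have h6 : W - |w y| ≤ |w y - w x0| := by
        have := abs_sub_abs_le_abs_sub (w x0) (w y)
        rwa [abs_sub_comm] at this
      linarith
    have h7 : (W / 2) ^ 2 ≤ (B / q) ^ 2 := by
      rw [div_pow B, le_div_iff₀ (by positivity)]
      calc (W / 2) ^ 2 * q ^ 2 = (W / 2) ^ 2 * q * q := by ring
        _ ≤ B ^ 2 * q := mul_le_mul_of_nonneg_right h3 hq0.le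
        _ ≤ B ^ 2 := mul_le_of_le_one_right (sq_nonneg _) hq1
    have h8 := (sq_le_sq₀ (by positivity) (by positivity)).1 h7
    have h9 : 2 / q * B = 2 * (B / q) := by ring
    rw [h9]; linarith
  have hQ : C1 * (B + W) ≤ C1 * (1 + 2 / q) * B := by
    have : B + W ≤ (1 + 2 / q) * B := by linarith
    calc C1 * (B + W) ≤ C1 * ((1 + 2 / q) * B) := mul_le_mul_of_nonneg_left this (by positivity)
      _ = _ := by ring
  have e : 4 * (C1 * (1 + 2 / q)) * B = 4 * (C1 * (1 + 2 / q) * B) := by ring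
  rw [e]
  refine ⟨ho_glob ha ha1.le fun x => ⟨fun y hy => ?_, fun y hy z hz => ?_⟩,
    ho_glob ha ha1.le fun x => ⟨fun y hy => ?_, fun y hy z hz => ?_⟩,
    ho_glob ha ha1.le fun x => (key x).1.mono hQ⟩
  · exact ((key x).2.h0 y hy).trans hQ
  · exact ((key x).2.h1 y hy z hz).trans
      (mul_le_mul_of_nonneg_right hQ (Real.rpow_nonneg (norm_nonneg _) _))
  · exact ((key x).2.d0 y hy).trans hQ
  · exact ((key x).2.d1 y hy z hz).trans
      (mul_le_mul_of_nonneg_right hQ (Real.rpow_nonneg (norm_nonneg _) _))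

end

end Crest.Agent.R281.Mc673
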