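import Crest.Agent.R281.Defs_273
import Crest.Agent.R273.ChowM_313
import Crest.Agent.R273.ChowQ_313
import Crest.Agent.R260.Zt3_313
import Mathlib.RingTheory.Nullstellensatz

-- ▼ part R281/AF1_867
section

/-!
# R281 (S0424), ALG-FORM, part 1 (helper867): the coefficients of a holomorphic symplectic form with
respect to the coordinates of a projective embedding are sections of line bundles

`F k` (`k : κ`) sections of `O`, `j0 : κ`, `T : Fin n → κ`:
* `DF F i x`       : the matrix `∂_a F_k` in the chart `i`;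
* `Qm F j0 T i x`  : `F_{j0} ∂_a F_{T t} - F_{T t} ∂_a F_{j0}` (`= F_{j0}^2 d (F_{T t} / F_{j0})`);
* `dS σ F j0 T`    : `(det Q)^2 / det σ`, a section of `O ^ (4 n)`;
* `cS σ F j0 T a b`: `(adj Qᵀ σ adj Q) a b / det σ`, sections of `O ^ (4 (n - 1))`;
* `dS_mul`         : `dS • σ = Qᵀ cS Q`;
* `exists_dS_ne`   : if the `F k` have no common zero and are immersive, the `dS` have no common zero.
-/

set_option autoImplicit false
set_option linter.unusedSectionVars false

open Set Filter Topology Complex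
open scoped ContDiff Matrix ComplexConjugate

namespace Crest.Agent.R281.AF_867

open Crest.Agent.R275 Crest.Agent.R275.Geo Crest.Agent.R275.Core144
open Crest.Agent.R273.SerA_945 Crest.Agent.R273.Defs_333 Crest.Agent.R273.SteinC_794
open Crest.Agent.R273.Chow_313 Crest.Agent.R281.Defs_273

noncomputable section

variable {n : ℕ} {M : Type} [TopologicalSpace M] {A : Atl n M} {O : LB A} {κ : Type*}

/-! ### derivatives -/

/-- the partial derivatives of a family of sections in the chart `i` -/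
def DF (F : κ → Fn A) (i : A.ι) (x : M) : Matrix κ (Fin n) ℂ :=
  Matrix.of fun k a => df A i (F k i) x (EuclideanSpace.single a 1)

theorem DF_apply (F : κ → Fn A) (i : A.ι) (x : M) (k : κ) (a : Fin n) :
    DF F i x k a = df A i (F k i) x (EuclideanSpace.single a 1) := rfl

theorem eq_sum_single (v : Cn n) : v = ∑ b, v b • (EuclideanSpace.single b (1 : ℂ) : Cn n) := by
  ext d
  simp [Finset.sum_apply, Pi.single_apply]

theorem df_dJ {i j : A.ι} {x : M} (f : M → ℂ) (a : Fin n) :
    df A j f x (dJ A i j x (EuclideanSpace.single a 1)) =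
      ∑ b, df A j f x (EuclideanSpace.single b 1) * Jm A i j x b a := by
  have h : dJ A i j x (EuclideanSpace.single a 1) =
      ∑ b, Jm A i j x b a • (EuclideanSpace.single b (1 : ℂ) : Cn n) := by
    conv_lhs => rw [eq_sum_single (dJ A i j x (EuclideanSpace.single a 1))]
    rfl
  rw [h, map_sum]
  exact Finset.sum_congr rfl fun b _ => by rw [map_smul, smul_eq_mul, mul_comm]

theorem df_eq_sum (i : A.ι) (f : M → ℂ) (x : M) (v : Cn n) :
    df A i f x v = ∑ b, v b * df A i f x (EuclideanSpace.single b 1) := by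
  conv_lhs => rw [eq_sum_single v]
  rw [map_sum]
  exact Finset.sum_congr rfl fun b _ => by rw [map_smul, smul_eq_mul]

/-- product rule -/
theorem df_mul {i : A.ι} {V : Set M} (hV : IsOpen V) {f g : M → ℂ} (hf : HolAt A i V f)
    (hg : HolAt A i V g) {x : M} (hx : x ∈ (A.e i).source) (hxV : x ∈ V) (v : Cn n) :
    df A i (fun y => f y * g y) x v = f x * df A i g x v + g x * df A i f x v := by
  have h := fderiv_fun_mul (hf.diffAt hV hx hxV) (hg.diffAt hV hx hxV)
  unfold df
  rw [h]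
  simp only [_root_.add_apply, _root_.smul_apply, smul_eq_mul, (A.e i).left_inv hx]

theorem df_congr {i : A.ι} {f g : M → ℂ} {x : M} (hx : x ∈ (A.e i).source)
    (h : f =ᶠ[𝓝 x] g) : df A i f x = df A i g x := by
  have h1 : (fun w => f ((A.e i).symm w)) =ᶠ[𝓝 (A.e i x)] fun w => g ((A.e i).symm w) := by
    have h2 : Tendsto (A.e i).symm (𝓝 (A.e i x)) (𝓝 x) := by
      have h3 := (A.e i).continuousAt_symm ((A.e i).map_source hx)
      rwa [ContinuousAt, (A.e i).left_inv hx] at h3
    exact h2.eventually h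
  unfold df
  rw [h1.fderiv_eq]

/-- the derivatives of sections under a change of chart -/
theorem DF_tr {F : κ → Fn A} (hF : ∀ k, IsHS O univ (F k)) {i j : A.ι} {x : M}
    (hx : x ∈ (A.e i).source ∩ (A.e j).source) (k : κ) (a : Fin n) :
    DF F i x k a = O.g i j x * ∑ b, DF F j x k b * Jm A i j x b a +
      F k j x * df A i (O.g i j) x (EuclideanSpace.single a 1) := by
  have hV : IsOpen (univ ∩ (A.e j).source : Set M) := isOpen_univ.inter (A.e j).open_source
  have h1 : F k i =ᶠ[𝓝 x] fun y => O.g i j y * F k j y := by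
    filter_upwards [((A.e i).open_source.inter (A.e j).open_source).mem_nhds hx] with y hy
    exact (hF k).tr i j y hy (mem_univ y)
  have hg : HolAt A i (univ ∩ (A.e j).source) (O.g i j) := (O.hol i j).mono inter_subset_right
  have hf : HolAt A i (univ ∩ (A.e j).source) (F k j) := ((hF k).hol j).chg isOpen_univ i
  rw [DF_apply, df_congr hx.1 h1, df_mul hV hg hf hx.1 ⟨mem_univ x, hx.2⟩,
    df_chg isOpen_univ ((hF k).hol j) hx.1 hx.2 (mem_univ x), df_dJ]
  rfl

theorem holAt_df {i : A.ι} {f : M → ℂ} (hf : HolAt A i univ f) (v : Cn n) :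
    HolAt A i univ fun x => df A i f x v := by
  have ho : IsOpen ((A.e i).target ∩ (A.e i).symm ⁻¹' univ) := isOpen_ti isOpen_univ
  have h1 : DifferentiableOn ℂ (fderiv ℂ (fun w => f ((A.e i).symm w)))
      ((A.e i).target ∩ (A.e i).symm ⁻¹' univ) :=
    ((Crest.Agent.R266.SCV.analyticOnNhd_of_differentiableOn ho hf).fderiv).differentiableOn
  have h2 : DifferentiableOn ℂ (fun z => fderiv ℂ (fun w => f ((A.e i).symm w)) z v)
      ((A.e i).target ∩ (A.e i).symm ⁻¹' univ) := h1.clm_apply (differentiableOn_const _)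
  refine DifferentiableOn.congr h2 fun z hz => ?_
  simp only [df, (A.e i).right_inv hz.1]

/-! ### the matrices `Q` -/

/-- `F_{j0} ∂_a F_k - F_k ∂_a F_{j0}` -/
def qv (F : κ → Fn A) (j0 k : κ) (i : A.ι) (x : M) (a : Fin n) : ℂ :=
  F j0 i x * DF F i x k a - F k i x * DF F i x j0 a

theorem qv_tr {F : κ → Fn A} (hF : ∀ k, IsHS O univ (F k)) {i j : A.ι} {x : M}
    (hx : x ∈ (A.e i).source ∩ (A.e j).source) (j0 k : κ) (a : Fin n) :
    qv F j0 k i x a = O.g i j x ^ 2 * ∑ b, qv F j0 k j x b * Jm A i j x b a := by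
  unfold qv
  rw [DF_tr hF hx k a, DF_tr hF hx j0 a, (hF j0).tr i j x hx (mem_univ x),
    (hF k).tr i j x hx (mem_univ x)]
  simp only [sub_mul, Finset.sum_sub_distrib, mul_assoc, ← Finset.mul_sum]
  ring

theorem holAt_qv {F : κ → Fn A} (hF : ∀ k, IsHS O univ (F k)) (j0 k : κ) (i : A.ι) (a : Fin n) :
    HolAt A i univ fun x => qv F j0 k i x a :=
  (((hF j0).hol i).mul (holAt_df ((hF k).hol i) _)).sub
    (((hF k).hol i).mul (holAt_df ((hF j0).hol i) _))

/-- the Jacobian matrix of the affine coordinates `F_{T t} / F_{j0}` (times `F_{j0}^2`) -/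
def Qm (F : κ → Fn A) (j0 : κ) (T : Fin n → κ) (i : A.ι) (x : M) : Matrix (Fin n) (Fin n) ℂ :=
  Matrix.of fun t a => qv F j0 (T t) i x a

theorem Qm_tr {F : κ → Fn A} (hF : ∀ k, IsHS O univ (F k)) {i j : A.ι} {x : M}
    (hx : x ∈ (A.e i).source ∩ (A.e j).source) (j0 : κ) (T : Fin n → κ) :
    Qm F j0 T i x = O.g i j x ^ 2 • (Qm F j0 T j x * Jm A i j x) := by
  ext t a
  rw [Matrix.smul_apply, Matrix.mul_apply, smul_eq_mul]
  exact qv_tr hF hx j0 (T t) a

theorem holAt_det {i : A.ι} {B : M → Matrix (Fin n) (Fin n) ℂ}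
    (h : ∀ a b, HolAt A i univ fun x => B x a b) : HolAt A i univ fun x => (B x).det := by
  simp only [Matrix.det_apply']
  exact HolAt.sum _ fun s _ => (HolAt.prod _ fun a _ => h _ _).const_mul _

theorem holAt_adj {i : A.ι} {B : M → Matrix (Fin n) (Fin n) ℂ}
    (h : ∀ a b, HolAt A i univ fun x => B x a b) (a b : Fin n) :
    HolAt A i univ fun x => (B x).adjugate a b := by
  simp only [Matrix.adjugate_apply]
  refine holAt_det fun c d => ?_
  by_cases hc : c = b
  · subst hc
    simp only [Matrix.updateRow_self]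
    exact holAt_const _
  · simp only [Matrix.updateRow_ne hc]
    exact h c d

theorem holAt_mmul {i : A.ι} {B C : M → Matrix (Fin n) (Fin n) ℂ}
    (hB : ∀ a b, HolAt A i univ fun x => B x a b) (hC : ∀ a b, HolAt A i univ fun x => C x a b)
    (a b : Fin n) : HolAt A i univ fun x => (B x * C x) a b := by
  simp only [Matrix.mul_apply]
  exact HolAt.sum _ fun c _ => (hB _ _).mul (hC _ _)

/-! ### the sections `dS`, `cS` -/

variable (σ : HSymp A) (F : κ → Fn A) (j0 : κ) (T : Fin n → κ)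

open Classical in
/-- `(det Q)^2 / det σ` -/
def dS : Fn A := fun i x =>
  if x ∈ (A.e i).source then (Qm F j0 T i x).det ^ 2 / (σ.s i x).det else 0

/-- the numerator matrix -/
def cM (i : A.ι) (x : M) : Matrix (Fin n) (Fin n) ℂ :=
  (Qm F j0 T i x).adjugateᵀ * σ.s i x * (Qm F j0 T i x).adjugate

open Classical in
/-- `(adj Qᵀ σ adj Q) a b / det σ` -/
def cS (a b : Fin n) : Fn A := fun i x =>
  if x ∈ (A.e i).source then cM σ F j0 T i x a b / (σ.s i x).det else 0

variable {σ F j0 T}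

theorem dS_apply {i : A.ι} {x : M} (hx : x ∈ (A.e i).source) :
    dS σ F j0 T i x = (Qm F j0 T i x).det ^ 2 / (σ.s i x).det := if_pos hx

theorem cS_apply {a b : Fin n} {i : A.ι} {x : M} (hx : x ∈ (A.e i).source) :
    cS σ F j0 T a b i x = cM σ F j0 T i x a b / (σ.s i x).det := if_pos hx

theorem det_Jm_ne {i j : A.ι} {x : M} (hx : x ∈ (A.e i).source ∩ (A.e j).source) :
    (Jm A i j x).det ≠ 0 := by
  have h := J_mul i j i (x := x) ⟨hx, hx.1⟩
  rw [J_self i hx.1] at h
  intro h0
  have h1 := congrArg Matrix.det h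
  rw [Matrix.det_mul, h0, mul_zero, Matrix.det_one] at h1
  exact zero_ne_one h1

theorem det_s_tr (σ : HSymp A) {i j : A.ι} {x : M} (hx : x ∈ (A.e i).source ∩ (A.e j).source) :
    (σ.s i x).det = (Jm A i j x).det ^ 2 * (σ.s j x).det := by
  rw [σ.tr i j x hx, Matrix.det_mul, Matrix.det_mul, Matrix.det_transpose]
  ring

theorem isHS_dS (hF : ∀ k, IsHS O univ (F k)) : IsHS (O ^ (4 * n)) univ (dS σ F j0 T) where
  hol i := by
    have h1 : HolAt A i univ fun x => (Qm F j0 T i x).det ^ 2 :=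
      (holAt_det fun a b => holAt_qv hF j0 (T a) i b).pow 2
    have h2 : HolAt A i univ fun x => ((σ.s i x).det)⁻¹ :=
      (holAt_det fun a b => σ.hol i a b).inv fun x hx _ => σ.nd i x hx
    exact (h1.mul h2).congr fun x hx _ => by rw [dS_apply hx, div_eq_mul_inv]
  off i x hx := if_neg hx
  tr i j x hx _ := by
    rw [dS_apply hx.1, dS_apply hx.2, pow_g, Qm_tr hF hx, Matrix.det_smul, Matrix.det_mul,
      det_s_tr σ hx, Fintype.card_fin]
    have h1 := det_Jm_ne hx
    have h2 := σ.nd j x hx.2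
    field_simp
    ring

theorem cM_tr (hF : ∀ k, IsHS O univ (F k)) {i j : A.ι} {x : M}
    (hx : x ∈ (A.e i).source ∩ (A.e j).source) :
    cM σ F j0 T i x = (O.g i j x ^ (4 * (n - 1)) * (Jm A i j x).det ^ 2) • cM σ F j0 T j x := by
  unfold cM
  rw [Qm_tr hF hx, Matrix.adjugate_smul, Matrix.adjugate_mul_distrib, σ.tr i j x hx,
    Fintype.card_fin, Matrix.transpose_smul, Matrix.transpose_mul]
  set J := Jm A i j x
  set Q := Qm F j0 T j x
  set S := σ.s j x
  set g := O.g i j x
  have e1 : (Q.adjugateᵀ * J.adjugateᵀ) * (Jᵀ * S * J) * (J.adjugate * Q.adjugate) =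
      Q.adjugateᵀ * (J * J.adjugate)ᵀ * S * (J * J.adjugate) * Q.adjugate := by
    rw [Matrix.transpose_mul]
    simp only [Matrix.mul_assoc]
  rw [Matrix.smul_mul, Matrix.smul_mul, Matrix.mul_smul, smul_smul, e1, Matrix.mul_adjugate,
    Matrix.transpose_smul, Matrix.transpose_one]
  simp only [Matrix.mul_smul, Matrix.smul_mul, Matrix.mul_one, smul_smul]
  congr 1
  rw [← pow_mul, ← pow_add]
  ring_nf

theorem isHS_cS (hF : ∀ k, IsHS O univ (F k)) (a b : Fin n) :
    IsHS (O ^ (4 * (n - 1))) univ (cS σ F j0 T a b) where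
  hol i := by
    have hQ : ∀ a b, HolAt A i univ fun x => Qm F j0 T i x a b := fun a b =>
      holAt_qv hF j0 (T a) i b
    have h1 : HolAt A i univ fun x => cM σ F j0 T i x a b :=
      holAt_mmul (B := fun x => (Qm F j0 T i x).adjugateᵀ * σ.s i x)
        (holAt_mmul (B := fun x => (Qm F j0 T i x).adjugateᵀ) (fun a b => holAt_adj hQ b a)
          fun a b => σ.hol i a b) (fun a b => holAt_adj hQ a b) a b
    have h2 : HolAt A i univ fun x => ((σ.s i x).det)⁻¹ :=
      (holAt_det fun a b => σ.hol i a b).inv fun x hx _ => σ.nd i x hx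
    exact (h1.mul h2).congr fun x hx _ => by rw [cS_apply hx, div_eq_mul_inv]
  off i x hx := if_neg hx
  tr i j x hx _ := by
    rw [cS_apply hx.1, cS_apply hx.2, pow_g, cM_tr hF hx, det_s_tr σ hx, Matrix.smul_apply,
      smul_eq_mul]
    have h1 := det_Jm_ne hx
    have h2 := σ.nd j x hx.2
    field_simp

/-- `dS • σ = Qᵀ cS Q` -/
theorem dS_mul {i : A.ι} {x : M} (hx : x ∈ (A.e i).source) :
    dS σ F j0 T i x • σ.s i x =
      (Qm F j0 T i x)ᵀ * (Matrix.of fun a b => cS σ F j0 T a b i x) * Qm F j0 T i x := by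
  have h1 : (Matrix.of fun a b => cS σ F j0 T a b i x) =
      ((σ.s i x).det)⁻¹ • cM σ F j0 T i x := by
    ext a b
    rw [Matrix.of_apply, cS_apply hx, Matrix.smul_apply, smul_eq_mul, div_eq_inv_mul]
  rw [h1, dS_apply hx]
  unfold cM
  set Q := Qm F j0 T i x
  set S := σ.s i x
  have e1 : Qᵀ * (Q.adjugateᵀ * S * Q.adjugate) * Q =
      (Q.adjugate * Q)ᵀ * S * (Q.adjugate * Q) := by
    rw [Matrix.transpose_mul]
    simp only [Matrix.mul_assoc]
  rw [Matrix.mul_smul, Matrix.smul_mul, e1, Matrix.adjugate_mul, Matrix.transpose_smul,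
    Matrix.transpose_one, Matrix.smul_mul, Matrix.one_mul, Matrix.mul_smul, Matrix.mul_one,
    smul_smul, smul_smul]
  congr 1
  rw [div_eq_mul_inv]
  ring

/-- the family is immersive -/
def Immersive (F : κ → Fn A) : Prop := ∀ i, ∀ x ∈ (A.e i).source, ∀ v : Cn n,
  (∃ c : ℂ, ∀ k, df A i (F k i) x v = c * F k i x) → v = 0

theorem exists_minor {ρ : κ → Fin n → ℂ} (h : ∀ v : Fin n → ℂ, (∀ k, ∑ a, ρ k a * v a = 0) → v = 0) :
    ∃ T : Fin n → κ, (Matrix.of fun t a => ρ (T t) a : Matrix (Fin n) (Fin n) ℂ).det ≠ 0 := by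
  classical
  have hsp : Submodule.span ℂ (range ρ) = ⊤ := by
    by_contra hne
    obtain ⟨f, hf0, hf⟩ := Submodule.exists_le_ker_of_lt_top _ (lt_top_iff_ne_top.2 hne)
    refine hf0 ?_
    have h1 : (fun a => f (Pi.single a 1)) = 0 := h _ fun k => by
      have h2 : f (ρ k) = 0 := hf (Submodule.subset_span ⟨k, rfl⟩)
      have h3 : ρ k = ∑ a, ρ k a • (Pi.single a (1 : ℂ) : Fin n → ℂ) := by
        funext b
        simp [Finset.sum_apply, Pi.single_apply]
      rw [h3, map_sum] at h2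
      rw [← h2]
      exact Finset.sum_congr rfl fun a _ => by rw [map_smul, smul_eq_mul]
    refine LinearMap.pi_ext' fun a => LinearMap.ext_ring ?_
    simpa using congrFun h1 a
  obtain ⟨κ', a, ha, hs, hli⟩ := exists_linearIndependent' ℂ ρ
  rw [hsp] at hs
  let b : Module.Basis κ' ℂ (Fin n → ℂ) := Module.Basis.mk hli hs.ge
  have : Fintype κ' := FiniteDimensional.fintypeBasisIndex b
  have hc : Fintype.card κ' = n := by
    rw [← Module.finrank_eq_card_basis b, Module.finrank_pi, Fintype.card_fin]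
  let e : Fin n ≃ κ' := (Fintype.equivFinOfCardEq hc).symm
  refine ⟨fun t => a (e t), ?_⟩
  have h1 : LinearIndependent ℂ (fun t => ρ (a (e t))) := hli.comp e e.injective
  have h2 : LinearIndependent ℂ
      (Matrix.of fun t c => ρ (a (e t)) c : Matrix (Fin n) (Fin n) ℂ).row := h1
  rw [Matrix.linearIndependent_rows_iff_isUnit, Matrix.isUnit_iff_isUnit_det] at h2
  exact h2.ne_zero

theorem exists_dS_ne (hne : ∀ i, ∀ x ∈ (A.e i).source, ∃ k, F k i x ≠ 0) (him : Immersive F)
    {i : A.ι} {x : M} (hx : x ∈ (A.e i).source) : ∃ j0 T, dS σ F j0 T i x ≠ 0 := by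
  obtain ⟨j0, hj0⟩ := hne i x hx
  obtain ⟨T, hT⟩ := exists_minor (ρ := fun k a => qv F j0 k i x a) fun v hv => by
    have h1 : (WithLp.toLp 2 v : Cn n) = 0 := by
      refine him i x hx _ ⟨df A i (F j0 i) x (WithLp.toLp 2 v) / F j0 i x, fun k => ?_⟩
      have h2 := hv k
      have h3 : ∑ a, qv F j0 k i x a * v a = F j0 i x * df A i (F k i) x (WithLp.toLp 2 v) -
          F k i x * df A i (F j0 i) x (WithLp.toLp 2 v) := by
        rw [df_eq_sum i (F k i), df_eq_sum i (F j0 i), Finset.mul_sum, Finset.mul_sum,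
          ← Finset.sum_sub_distrib]
        refine Finset.sum_congr rfl fun a _ => ?_
        unfold qv
        rw [DF_apply, DF_apply]
        ring
      rw [h3, sub_eq_zero] at h2
      field_simp
      linear_combination h2
    funext a
    exact congrArg (fun w : Cn n => w a) h1
  refine ⟨j0, T, ?_⟩
  rw [dS_apply hx]
  exact div_ne_zero (pow_ne_zero 2 hT) (σ.nd i x hx)

end

end Crest.Agent.R281.AF_867
end

-- ▼ part R281/AF2_867
section

/-!
# R281 (S0424), ALG-FORM, part 2 (helper867): sections of large powers are polynomials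

* `surj_large` : for an injective `D : FD O` (projective embedding by sections of `O`) and `m` large,
  every section of `O ^ m` is a homogeneous polynomial of degree `m` in the `D.F k`;
* `surj_proj`  : the same for `P : ProjD A`.
-/

set_option autoImplicit false
set_option linter.unusedSectionVars false

open Set Filter Topology Complex
open scoped ContDiff Matrix ComplexConjugate

namespace Crest.Agent.R281.AF_867

open Crest.Agent.R275 Crest.Agent.R275.Geo Crest.Agent.R275.Core144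
open Crest.Agent.R273.SerA_945 Crest.Agent.R273.SerB_945 Crest.Agent.R273.SerC_945
open Crest.Agent.R273.SerE_945 Crest.Agent.R273.TD3_733 Crest.Agent.R273.FS_333
open Crest.Agent.R273.Defs_333 Crest.Agent.R273.SteinC_794
open Crest.Agent.R273.Chow_313 Crest.Agent.R260.Zt_313

noncomputable section

/-! ### polynomials -/

section Poly

variable {κ : Type*}

theorem aeval_eval (v : κ → ℂ) (p : MvPolynomial κ ℂ) :
    MvPolynomial.aeval v p = MvPolynomial.eval v p := by
  rw [← MvPolynomial.coe_aeval_eq_eval]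
  rfl

theorem eval_hcomp {κ : Type*} [Fintype κ] {q : MvPolynomial κ ℂ} {u : κ → ℂ} {d : ℕ} {s : ℂ}
    (h : ∀ l : ℂ, MvPolynomial.eval (fun k => l * u k) q = l ^ d * s) :
    MvPolynomial.eval u (MvPolynomial.homogeneousComponent d q) = s := by
  classical
  set N := q.totalDegree + 1 with hN
  have h1 : ∀ l : ℂ, ∑ e ∈ Finset.range N,
      l ^ e * MvPolynomial.eval u (MvPolynomial.homogeneousComponent e q) = l ^ d * s := by
    intro l
    rw [← h l]
    conv_rhs => rw [← MvPolynomial.sum_homogeneousComponent q]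
    rw [map_sum]
    refine Finset.sum_congr rfl fun e _ => ?_
    have h2 := eval_smul (MvPolynomial.homogeneousComponent_isHomogeneous e q) l u
    exact h2.symm
  let P : Polynomial ℂ := ∑ e ∈ Finset.range N,
    Polynomial.C (MvPolynomial.eval u (MvPolynomial.homogeneousComponent e q)) * Polynomial.X ^ e
  have h2 : P = Polynomial.C s * Polynomial.X ^ d := by
    refine Polynomial.funext fun l => ?_
    rw [Polynomial.eval_finsetSum]
    simp only [Polynomial.eval_mul, Polynomial.eval_C, Polynomial.eval_pow, Polynomial.eval_X]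
    rw [mul_comm s, ← h1 l]
    exact Finset.sum_congr rfl fun e _ => mul_comm _ _
  have h3 := congrArg (fun Q : Polynomial ℂ => Q.coeff d) h2
  simp only [P, Polynomial.finsetSum_coeff, Polynomial.coeff_C_mul, Polynomial.coeff_X_pow,
    if_true, mul_ite, mul_one, mul_zero] at h3
  rw [Finset.sum_ite_eq] at h3
  by_cases hd : d ∈ Finset.range N
  · rw [if_pos hd] at h3
    exact h3
  · rw [if_neg hd] at h3
    rw [MvPolynomial.homogeneousComponent_eq_zero, map_zero]
    · exact h3
    · rw [Finset.mem_range] at hd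
      omega

/-- homogeneous polynomials of large degree belong to an ideal containing powers of the
variables -/
theorem mem_of_large {κ : Type*} [Fintype κ] [Nonempty κ] {I : Ideal (MvPolynomial κ ℂ)} {p : ℕ}
    (h : ∀ k, (MvPolynomial.X k : MvPolynomial κ ℂ) ^ p ∈ I) {d : ℕ} (hd : Fintype.card κ * p ≤ d)
    {q : MvPolynomial κ ℂ} (hq : q.IsHomogeneous d) : q ∈ I := by
  classical
  rw [q.as_sum]
  refine I.sum_mem fun e he => ?_
  have h1 : ∑ k, e k = d := by
    have h2 := hq (MvPolynomial.mem_support_iff.1 he)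
    rw [← h2, Finsupp.weight_apply, Finsupp.sum_fintype]
    · simp
    · simp
  obtain ⟨k, hk⟩ : ∃ k, p ≤ e k := by
    by_contra hcon
    push Not at hcon
    rcases Nat.eq_zero_or_pos p with hp | hp
    · exact absurd (hcon (Classical.arbitrary κ)) (by omega)
    have h3 : ∑ k, e k ≤ ∑ _k : κ, (p - 1) := Finset.sum_le_sum fun k _ => by
      have := hcon k
      omega
    rw [Finset.sum_const, Finset.card_univ, smul_eq_mul, h1] at h3
    have h4 : 0 < Fintype.card κ := Fintype.card_pos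
    have h5 : Fintype.card κ * (p - 1) < Fintype.card κ * p :=
      Nat.mul_lt_mul_of_pos_left (by omega) h4
    omega
  have h2 : e = Finsupp.single k p + (e - Finsupp.single k p) := by
    rw [add_tsub_cancel_of_le]
    intro k'
    by_cases hkk : k = k'
    · subst hkk
      rw [Finsupp.single_eq_same]
      exact hk
    · rw [Finsupp.single_eq_of_ne' hkk]
      exact Nat.zero_le _
  rw [h2, show MvPolynomial.monomial (Finsupp.single k p + (e - Finsupp.single k p))
      (MvPolynomial.coeff (Finsupp.single k p + (e - Finsupp.single k p)) q) =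
      (MvPolynomial.X k : MvPolynomial κ ℂ) ^ p * MvPolynomial.monomial (e - Finsupp.single k p)
      (MvPolynomial.coeff (Finsupp.single k p + (e - Finsupp.single k p)) q) by
    rw [MvPolynomial.X_pow_eq_monomial, MvPolynomial.monomial_mul, one_mul]]
  exact I.mul_mem_right _ (h k)

/-- Cayley–Hamilton trick -/
theorem det_mem_range {R S : Type*} [CommRing R] [CommRing S] (Φ : R →+* S) {m : Type*} [Fintype m]
    [DecidableEq m] (T : Matrix m m R) (B : m → S) (c : m → R)
    (h : ∀ a, ∑ a', Φ (T a a') * B a' = Φ (c a)) (a : m) : ∃ q, Φ T.det * B a = Φ q := by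
  refine ⟨∑ a', T.adjugate a a' * c a', ?_⟩
  have h1 : ∀ a'', ∑ a', Φ (T.adjugate a a') * Φ (T a' a'') =
      if a = a'' then Φ T.det else 0 := by
    intro a''
    have h2 := congrFun (congrFun (Matrix.adjugate_mul T) a) a''
    rw [Matrix.mul_apply, Matrix.smul_apply, Matrix.one_apply] at h2
    have h3 := congrArg Φ h2
    rw [map_sum] at h3
    simp only [map_mul] at h3
    rw [h3]
    split_ifs <;> simp
  rw [map_sum]
  simp only [map_mul]
  rw [Finset.sum_congr rfl fun a' _ => by rw [← h a', Finset.mul_sum], Finset.sum_comm]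
  rw [Finset.sum_congr rfl fun a'' _ => by
    rw [Finset.sum_congr rfl fun a' _ => (mul_assoc _ _ _).symm, ← Finset.sum_mul, h1 a'']]
  simp

end Poly

variable {n : ℕ} {M : Type} [TopologicalSpace M] {A : Atl n M} {O : LB A} {r : ℕ}

/-- the points of the cone -/
abbrev Cone (A : Atl n M) : Type := {p : A.ι × M × ℂ // p.2.1 ∈ (A.e p.1).source}

/-- evaluation on the cone -/
def Ph (F : Fin r → Fn A) : MvPolynomial (Fin r) ℂ →ₐ[ℂ] (Cone A → ℂ) :=
  MvPolynomial.aeval fun k c => c.1.2.2 * F k c.1.1 c.1.2.1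

theorem Ph_apply (F : Fin r → Fn A) (p : MvPolynomial (Fin r) ℂ) (c : Cone A) :
    Ph F p c = MvPolynomial.eval (fun k => c.1.2.2 * F k c.1.1 c.1.2.1) p := by
  have h1 : (Pi.evalAlgHom ℂ (fun _ : Cone A => ℂ) c).comp (Ph F) =
      MvPolynomial.aeval (fun k => c.1.2.2 * F k c.1.1 c.1.2.1) := by
    ext k
    simp [Ph]
  have h2 := DFunLike.congr_fun h1 p
  rw [aeval_eval] at h2
  exact h2

/-- a section as a function on the cone -/
def Bm (m : ℕ) (t : Fn A) : Cone A → ℂ := fun c => c.1.2.2 ^ m * t c.1.1 c.1.2.1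

/-- the conductor -/
def cond (F : Fin r → Fn A) (m : ℕ) {d : ℕ} (b : Fin d → Fn A) :
    Ideal (MvPolynomial (Fin r) ℂ) where
  carrier := {h | ∀ a, ∃ q, Ph F h * Bm m (b a) = Ph F q}
  add_mem' := by
    intro h h' hh hh' a
    obtain ⟨q, hq⟩ := hh a
    obtain ⟨q', hq'⟩ := hh' a
    exact ⟨q + q', by rw [map_add, map_add, add_mul, hq, hq']⟩
  zero_mem' a := ⟨0, by rw [map_zero, zero_mul]⟩
  smul_mem' := by
    intro g h hh a
    obtain ⟨q, hq⟩ := hh a
    exact ⟨g * q, by rw [smul_eq_mul, map_mul, map_mul, mul_assoc, hq]⟩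


section Main

variable [T2Space M] [ConnectedSpace M]

theorem exists_local (D : FD O) (inj : ∀ x y, Rel D.F x y → x = y) {m0 m : ℕ} (hm : m0 + n ≤ m)
    (hV : ∀ m, m0 ≤ m → ∀ q, 1 ≤ q → Solv (O ^ m) q) {d : ℕ}
    (b : Module.Basis (Fin d) ℂ (HS (O ^ m) univ)) {i0 : A.ι} {x0 : M}
    (hi0 : x0 ∈ (A.e i0).source) :
    ∃ h : MvPolynomial (Fin (D.N + 1)) ℂ, h.IsHomogeneous d ∧
      MvPolynomial.eval (fun k => D.F k i0 x0) h ≠ 0 ∧
      h ∈ cond D.F m fun a => (b a : Fn A) := by
  obtain ⟨k0, hk0⟩ := D.ne i0 x0 hi0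
  have hbm : ∀ a, IsHS (O ^ m) univ (b a : Fn A) := fun a => (b a).2
  -- division
  have hkey : ∀ a, ∃ (c : ℂ) (W : Fin (D.N + 1) → Fin d → ℂ), ∀ i, ∀ x ∈ (A.e i).source,
      D.F k0 i x * (b a : Fn A) i x = c * D.F k0 i x ^ (m + 1) +
        ∑ k, (D.F k0 i0 x0 * D.F k i x - D.F k i0 x0 * D.F k0 i x) *
          ∑ a', W k a' * (b a' : Fn A) i x := by
    intro a
    have hs1 : IsHS (O ^ (m + 1)) univ (D.F k0 * (b a : Fn A)) := by
      rw [pow_succ']
      exact (D.hs k0).mul (hbm a)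
    have hs2 : IsHS (O ^ (m + 1)) univ (D.F k0 ^ (m + 1)) := isHS_pow (D.hs k0) m
    set c := (b a : Fn A) i0 x0 / D.F k0 i0 x0 ^ m with hc
    have hs : IsHS (1 * O ^ (m + 1)) univ (D.F k0 * (b a : Fn A) + (-c) • D.F k0 ^ (m + 1)) := by
      rw [one_mul]
      exact hs1.add (hs2.smul (-c))
    obtain ⟨w, hw, hsw, -⟩ := div_at D inj 1 hm (fun m hm q hq => by rw [one_mul]; exact hV m hm q hq)
      hi0 hk0 hs (by
        simp only [Pi.add_apply, Pi.mul_apply, Pi.smul_apply, Pi.pow_apply, smul_eq_mul, hc]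
        field_simp
        ring)
    have hw' : ∀ k, w k ∈ HS (O ^ m) univ := fun k => by
      have := hw k
      rwa [one_mul] at this
    refine ⟨c, fun k a' => b.repr ⟨w k, hw' k⟩ a', fun i x hx => ?_⟩
    have h3 : ∀ k, w k i x = ∑ a', b.repr ⟨w k, hw' k⟩ a' * (b a' : Fn A) i x := by
      intro k
      have h3 := congrArg Subtype.val (b.sum_repr ⟨w k, hw' k⟩)
      rw [AddSubmonoidClass.coe_finsetSum] at h3
      have h4 := congrFun (congrFun h3 i) x
      rw [Finset.sum_apply, Finset.sum_apply] at h4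
      exact h4.symm
    have h5 := congrFun (congrFun hsw i) x
    rw [Finset.sum_apply, Finset.sum_apply] at h5
    simp only [Pi.add_apply, Pi.mul_apply, Pi.smul_apply, Pi.pow_apply, smul_eq_mul,
      FD.lform_apply] at h5
    rw [Finset.sum_congr rfl fun k _ => by rw [← h3 k], ← h5]
    ring
  choose c W hcW using hkey
  set v : Fin (D.N + 1) → ℂ := fun k => D.F k i0 x0 with hv
  refine ⟨(TM v k0 W).det, ?_, ?_, ?_⟩
  · have := det_homog (TM v k0 W) (TM_homog v k0 W)
    rwa [Fintype.card_fin] at this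
  · rw [eval_det_self]
    exact pow_ne_zero _ hk0
  · intro a
    refine det_mem_range (Ph D.F).toRingHom (TM v k0 W) (fun a => Bm m (b a : Fn A))
      (fun a => MvPolynomial.C (c a) * MvPolynomial.X k0 ^ (m + 1)) (fun a => ?_) a
    funext p
    obtain ⟨⟨i, x, l⟩, hx⟩ := p
    rw [Finset.sum_apply]
    have e1 : ∀ q : MvPolynomial (Fin (D.N + 1)) ℂ, (Ph D.F).toRingHom q ⟨⟨i, x, l⟩, hx⟩ =
        MvPolynomial.eval (fun k => l * D.F k i x) q := fun q => Ph_apply _ _ _
    rw [e1, map_mul, map_pow, MvPolynomial.eval_C, MvPolynomial.eval_X]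
    have e2 : ∀ a', ((Ph D.F).toRingHom (TM v k0 W a a') * Bm m (b a' : Fn A)) ⟨⟨i, x, l⟩, hx⟩ =
        ((if a = a' then l * D.F k0 i x else 0) - ∑ k, W a k a' *
          (v k0 * (l * D.F k i x) - v k * (l * D.F k0 i x))) * (l ^ m * (b a' : Fn A) i x) := by
      intro a'
      rw [Pi.mul_apply, e1, eval_TM]
      rfl
    rw [Finset.sum_congr rfl fun a' _ => e2 a']
    have e3 := hcW a i x hx
    simp only [sub_mul, Finset.sum_sub_distrib, ite_mul, zero_mul, Finset.sum_ite_eq,
      Finset.mem_univ, if_true]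
    have e4 : ∑ a', (∑ k, W a k a' * (v k0 * (l * D.F k i x) - v k * (l * D.F k0 i x))) *
        (l ^ m * (b a' : Fn A) i x) = l ^ (m + 1) * ∑ k, (D.F k0 i0 x0 * D.F k i x -
          D.F k i0 x0 * D.F k0 i x) * ∑ a', W a k a' * (b a' : Fn A) i x := by
      simp only [Finset.sum_mul, Finset.mul_sum]
      rw [Finset.sum_comm]
      refine Finset.sum_congr rfl fun k _ => Finset.sum_congr rfl fun a' _ => ?_
      rw [hv]
      ring
    rw [e4]
    linear_combination l ^ (m + 1) * e3

variable [CompactSpace M] [Finite A.ι]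

/-- **sections of large powers are polynomials** -/
theorem surj_large (D : FD O) (inj : ∀ x y, Rel D.F x y → x = y)
    (hfd : ∀ k : ℕ, FiniteDimensional ℂ (HS (O ^ k) univ)) {m0 : ℕ}
    (hV : ∀ m, m0 ≤ m → ∀ q, 1 ≤ q → Solv (O ^ m) q) :
    ∃ m1 : ℕ, ∀ m, m1 ≤ m → ∀ s : Fn A, IsHS (O ^ m) univ s →
      ∃ p : MvPolynomial (Fin (D.N + 1)) ℂ, p.IsHomogeneous m ∧
        ∀ i, ∀ x ∈ (A.e i).source, s i x = MvPolynomial.eval (fun k => D.F k i x) p := by
  classical
  set m := m0 + n with hm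
  have := hfd m
  let d := Module.finrank ℂ (HS (O ^ m) univ)
  let b : Module.Basis (Fin d) ℂ (HS (O ^ m) univ) := Module.finBasis ℂ _
  set I := cond D.F m (fun a => (b a : Fn A)) with hI
  have hz : ∀ v ∈ MvPolynomial.zeroLocus ℂ I, v = 0 := by
    intro v hv
    rw [MvPolynomial.mem_zeroLocus_iff] at hv
    by_contra hv0
    obtain ⟨i, x, hx, c, hc, hvc⟩ := chow_vec D.hs D.ne hfd hV v hv0 fun e p hp h => by
      have h1 : p ∈ I := by
        intro a
        refine ⟨0, ?_⟩
        have h2 : Ph D.F p = 0 := by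
          funext q
          obtain ⟨⟨i, x, l⟩, hx⟩ := q
          rw [Ph_apply]
          have h3 := eval_smul hp l (fun k => D.F k i x)
          have h4 : (l • fun k => D.F k i x) = fun k => l * D.F k i x := rfl
          rw [h4, h i x hx, mul_zero] at h3
          exact h3
        rw [h2, zero_mul, map_zero]
      have := hv p h1
      rwa [aeval_eval] at this
    obtain ⟨h, hh, hh0, hhI⟩ := exists_local D inj (le_refl _) hV b hx
    have h1 := hv h hhI
    rw [aeval_eval, hvc] at h1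
    have h2 := eval_smul hh c (fun k => D.F k i x)
    exact (mul_ne_zero (pow_ne_zero d hc) hh0) (h2.symm.trans h1)
  have hX : ∀ k : Fin (D.N + 1), ∃ p : ℕ, (MvPolynomial.X k : MvPolynomial (Fin (D.N + 1)) ℂ) ^ p ∈ I := by
    intro k
    have h1 : (MvPolynomial.X k : MvPolynomial (Fin (D.N + 1)) ℂ) ∈
        MvPolynomial.vanishingIdeal ℂ (MvPolynomial.zeroLocus ℂ I) := by
      rw [MvPolynomial.mem_vanishingIdeal_iff]
      intro v hv
      rw [hz v hv, MvPolynomial.aeval_X, Pi.zero_apply]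
    rw [MvPolynomial.vanishingIdeal_zeroLocus_eq_radical] at h1
    exact h1
  choose p hp using hX
  set p' := ∑ k, p k with hp'
  have hXp : ∀ k : Fin (D.N + 1), (MvPolynomial.X k : MvPolynomial (Fin (D.N + 1)) ℂ) ^ p' ∈ I := by
    intro k
    obtain ⟨e, he⟩ := Nat.exists_eq_add_of_le (Finset.single_le_sum
      (fun k _ => Nat.zero_le (p k)) (Finset.mem_univ k))
    rw [hp', he, pow_add]
    exact I.mul_mem_right _ (hp k)
  refine ⟨m + (D.N + 1) * p', fun m' hm' s hs => ?_⟩
  obtain ⟨e, rfl⟩ := Nat.exists_eq_add_of_le (show m ≤ m' by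
    exact (Nat.le_add_right _ _).trans hm')
  obtain ⟨P, hP, hPs⟩ := exists_poly_coef D.hs D.ne (hm ▸ le_refl (m0 + n)) hV b e s hs
  have h1 : ∀ a, ∃ q, Ph D.F (P a) * Bm m (b a : Fn A) = Ph D.F q := fun a =>
    (mem_of_large hXp (by rw [Fintype.card_fin]; omega) (hP a) : P a ∈ I) a
  choose q hq using h1
  refine ⟨MvPolynomial.homogeneousComponent (m + e) (∑ a, q a),
    MvPolynomial.homogeneousComponent_isHomogeneous _ _, fun i x hx => ?_⟩
  refine (eval_hcomp fun l => ?_).symm
  have h2 : ∀ a, MvPolynomial.eval (fun k => l * D.F k i x) (q a) =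
      l ^ e * MvPolynomial.eval (fun k => D.F k i x) (P a) * (l ^ m * (b a : Fn A) i x) := by
    intro a
    have h3 := congrFun (hq a) ⟨⟨i, x, l⟩, hx⟩
    rw [Pi.mul_apply, Ph_apply, Ph_apply] at h3
    rw [← h3]
    have h4 := eval_smul (hP a) l (fun k => D.F k i x)
    have h5 : (l • fun k => D.F k i x) = fun k => l * D.F k i x := rfl
    rw [h5] at h4
    rw [h4]
    rfl
  rw [map_sum, Finset.sum_congr rfl fun a _ => h2 a, hPs i x hx, Finset.mul_sum]
  refine Finset.sum_congr rfl fun a _ => ?_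
  rw [pow_add]
  ring

/-- **Serre's surjectivity** for a projective embedding -/
theorem surj_proj (PA : Part A) (hD : D2 A) (P : ProjD A) :
    ∃ m1 : ℕ, ∀ m, m1 ≤ m → ∀ s : Fn A, IsHS (lb P ^ m) univ s →
      ∃ p : MvPolynomial (Fin (P.N + 1)) ℂ, p.IsHomogeneous m ∧
        ∀ i, ∀ x ∈ (A.e i).source, s i x = MvPolynomial.eval (fun k => sec P k i x) p := by
  obtain ⟨m0, hm0⟩ := solv_large PA hD (fs_pos P) (1 : LB A)
  exact surj_large (ofProj P) (fun x y h => (rel_sec_iff P).1 h) (fun k => fd_HS PA _)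
    (m0 := m0) fun m hm q hq => by
      have := hm0 m hm q hq
      rwa [one_mul] at this

end Main

end

end Crest.Agent.R281.AF_867
end

-- ▼ part R281/AF3_867

/-!
# R281 (S0424), ALG-FORM, part 3 (helper867): a holomorphic symplectic form on a projective manifold
is a polynomial form

`exists_form` : `D : FD O` a projective embedding, `σ : HSymp A`, `t` a section of `O ^ m`, `m`
large: `t • σ = (dF)ᵀ s(F) (dF)` with an antisymmetric matrix `s` of homogeneous polynomials of
degree `m - 2` such that `∑ l, s k l * X l = 0` identically.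
-/

set_option autoImplicit false
set_option linter.unusedSectionVars false

open Set Filter Topology Complex
open scoped ContDiff Matrix ComplexConjugate

namespace Crest.Agent.R281.AF_867

open Crest.Agent.R275 Crest.Agent.R275.Geo Crest.Agent.R275.Core144
open Crest.Agent.R273.SerA_945 Crest.Agent.R273.SerB_945 Crest.Agent.R273.SerC_945
open Crest.Agent.R273.SerE_945 Crest.Agent.R273.TD3_733 Crest.Agent.R273.FS_333
open Crest.Agent.R273.Defs_333 Crest.Agent.R273.SteinC_794 Crest.Agent.R273.KosGen_313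
open Crest.Agent.R273.Chow_313 Crest.Agent.R260.Zt_313 Crest.Agent.R281.Defs_273

noncomputable section

/-! ### the matrices `θ` -/

section Theta

variable {κ R : Type*} [Fintype κ] [DecidableEq κ] [CommRing R] {n : ℕ}

/-- `x_{j0} dx_{T t} - x_{T t} dx_{j0}` -/
def th (j0 : κ) (T : Fin n → κ) : Matrix (Fin n) κ (MvPolynomial κ R) :=
  Matrix.of fun t k => (if k = T t then MvPolynomial.X j0 else 0) -
    (if k = j0 then MvPolynomial.X (T t) else 0)

theorem th_homog (j0 : κ) (T : Fin n → κ) (t : Fin n) (k : κ) :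
    (th (R := R) j0 T t k).IsHomogeneous 1 := by
  unfold th
  rw [Matrix.of_apply]
  refine MvPolynomial.IsHomogeneous.sub ?_ ?_
  · split_ifs
    · exact MvPolynomial.isHomogeneous_X R _
    · exact MvPolynomial.isHomogeneous_zero _ _ _
  · split_ifs
    · exact MvPolynomial.isHomogeneous_X R _
    · exact MvPolynomial.isHomogeneous_zero _ _ _

theorem th_X (j0 : κ) (T : Fin n → κ) (t : Fin n) :
    ∑ k, th (R := R) j0 T t k * MvPolynomial.X k = 0 := by
  unfold th
  simp only [Matrix.of_apply, sub_mul, ite_mul, zero_mul, Finset.sum_sub_distrib,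
    Finset.sum_ite_eq', Finset.mem_univ, if_true]
  ring

/-- `θᵀ P θ` -/
def pol (j0 : κ) (T : Fin n → κ) (P : Matrix (Fin n) (Fin n) (MvPolynomial κ R)) :
    Matrix κ κ (MvPolynomial κ R) :=
  Matrix.transpose (th (R := R) j0 T) * P * th (R := R) j0 T

theorem pol_alt {j0 : κ} {T : Fin n → κ} {P : Matrix (Fin n) (Fin n) (MvPolynomial κ R)}
    (h : Pᵀ = -P) : (pol j0 T P)ᵀ = - pol j0 T P := by
  unfold pol
  rw [Matrix.transpose_mul, Matrix.transpose_mul, Matrix.transpose_transpose, h, Matrix.neg_mul,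
    Matrix.mul_neg, Matrix.mul_assoc]

theorem pol_X (j0 : κ) (T : Fin n → κ) (P : Matrix (Fin n) (Fin n) (MvPolynomial κ R)) (k : κ) :
    ∑ l, pol j0 T P k l * MvPolynomial.X l = 0 := by
  unfold pol
  have h1 : ∀ l, (Matrix.transpose (th (R := R) j0 T) * P * th (R := R) j0 T) k l =
      ∑ t, (Matrix.transpose (th (R := R) j0 T) * P) k t * th (R := R) j0 T t l := fun l =>
    Matrix.mul_apply
  rw [Finset.sum_congr rfl fun l _ => by rw [h1 l, Finset.sum_mul], Finset.sum_comm]
  refine Finset.sum_eq_zero fun t _ => ?_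
  rw [Finset.sum_congr rfl fun l _ => mul_assoc _ _ _, ← Finset.mul_sum, th_X, mul_zero]

theorem pol_homog {j0 : κ} {T : Fin n → κ} {P : Matrix (Fin n) (Fin n) (MvPolynomial κ R)} {d : ℕ}
    (h : ∀ a b, (P a b).IsHomogeneous d) (k l : κ) : (pol j0 T P k l).IsHomogeneous (d + 2) := by
  unfold pol
  rw [Matrix.mul_apply]
  refine MvPolynomial.IsHomogeneous.sum _ _ _ fun t _ => ?_
  rw [Matrix.mul_apply, show d + 2 = (1 + d) + 1 by ring]
  refine MvPolynomial.IsHomogeneous.mul ?_ (th_homog j0 T t l)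
  exact MvPolynomial.IsHomogeneous.sum _ _ _ fun t' _ => (th_homog j0 T t' k).mul (h t' t)

/-- antisymmetrisation -/
def asym {κ : Type*} (p : Fin n → Fin n → MvPolynomial κ ℂ) :
    Matrix (Fin n) (Fin n) (MvPolynomial κ ℂ) :=
  Matrix.of fun b c => MvPolynomial.C (1 / 2) * (p b c - p c b)

theorem asym_alt {κ : Type*} (p : Fin n → Fin n → MvPolynomial κ ℂ) :
    (asym p)ᵀ = - asym p := by
  ext1 b c
  show MvPolynomial.C (1 / 2) * (p c b - p b c) = - (MvPolynomial.C (1 / 2) * (p b c - p c b))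
  ring

theorem asym_homog {κ : Type*} {p : Fin n → Fin n → MvPolynomial κ ℂ} {d : ℕ}
    (h : ∀ b c, (p b c).IsHomogeneous d) (b c : Fin n) : (asym p b c).IsHomogeneous d :=
  ((h b c).sub (h c b)).C_mul _

theorem asym_eval {κ : Type*} (p : Fin n → Fin n → MvPolynomial κ ℂ) (u : κ → ℂ) (b c : Fin n) :
    MvPolynomial.eval u (asym p b c) =
      1 / 2 * (MvPolynomial.eval u (p b c) - MvPolynomial.eval u (p c b)) := by
  unfold asym
  rw [Matrix.of_apply, map_mul, map_sub, MvPolynomial.eval_C]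

end Theta

variable {n : ℕ} {M : Type} [TopologicalSpace M] {A : Atl n M} {O : LB A}

theorem cM_alt {κ : Type*} {σ : HSymp A} {F : κ → Fn A} {j0 : κ} {T : Fin n → κ} {i : A.ι} {x : M}
    (hx : x ∈ (A.e i).source) : (cM σ F j0 T i x)ᵀ = - cM σ F j0 T i x := by
  unfold cM
  rw [Matrix.transpose_mul, Matrix.transpose_mul, Matrix.transpose_transpose, σ.alt i x hx,
    Matrix.neg_mul, Matrix.mul_neg, Matrix.mul_assoc]

theorem cS_alt {κ : Type*} {σ : HSymp A} {F : κ → Fn A} {j0 : κ} {T : Fin n → κ} {i : A.ι} {x : M}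
    (hx : x ∈ (A.e i).source) (a b : Fin n) :
    cS σ F j0 T b a i x = - cS σ F j0 T a b i x := by
  rw [cS_apply hx, cS_apply hx, ← neg_div]
  congr 1
  exact congrFun (congrFun (cM_alt hx) a) b

section Ev

variable {r : ℕ} (F : Fin r → Fn A)

/-- the value of a matrix of polynomials at the coordinates -/
def evM {α β : Type*} (s : Matrix α β (MvPolynomial (Fin r) ℂ)) (i : A.ι) (x : M) :
    Matrix α β ℂ := s.map (MvPolynomial.eval fun k => F k i x)

theorem evM_apply {α β : Type*} (s : Matrix α β (MvPolynomial (Fin r) ℂ)) (i : A.ι) (x : M) (a : α)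
    (b : β) : evM F s i x a b = MvPolynomial.eval (fun k => F k i x) (s a b) := rfl

theorem evM_mul {α β γ : Type*} [Fintype β] (s : Matrix α β (MvPolynomial (Fin r) ℂ))
    (t : Matrix β γ (MvPolynomial (Fin r) ℂ)) (i : A.ι) (x : M) :
    evM F (s * t) i x = evM F s i x * evM F t i x := Matrix.map_mul

theorem evM_transpose {α β : Type*} (s : Matrix α β (MvPolynomial (Fin r) ℂ)) (i : A.ι) (x : M) :
    evM F sᵀ i x = (evM F s i x)ᵀ := rfl

theorem evM_sum {α β γ : Type*} (u : Finset γ) (s : γ → Matrix α β (MvPolynomial (Fin r) ℂ))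
    (i : A.ι) (x : M) : evM F (∑ c ∈ u, s c) i x = ∑ c ∈ u, evM F (s c) i x := by
  ext a b
  rw [evM_apply, Matrix.sum_apply, Matrix.sum_apply, map_sum]
  rfl

theorem evM_th (j0 : Fin r) (T : Fin n → Fin r) (i : A.ι) (x : M) :
    evM F (th j0 T) i x * DF F i x = Qm F j0 T i x := by
  ext t a
  rw [Matrix.mul_apply]
  unfold Qm qv
  simp only [evM_apply, th, Matrix.of_apply, map_sub, apply_ite (MvPolynomial.eval _),
    MvPolynomial.eval_X, map_zero, sub_mul, ite_mul, zero_mul, Finset.sum_sub_distrib,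
    Finset.sum_ite_eq', Finset.mem_univ, if_true]

theorem evM_pol (j0 : Fin r) (T : Fin n → Fin r) (P : Matrix (Fin n) (Fin n) (MvPolynomial (Fin r) ℂ))
    (i : A.ι) (x : M) : (DF F i x)ᵀ * evM F (pol j0 T P) i x * DF F i x =
      (Qm F j0 T i x)ᵀ * evM F P i x * Qm F j0 T i x := by
  unfold pol
  rw [evM_mul, evM_mul, evM_transpose, ← evM_th F j0 T i x, Matrix.transpose_mul]
  simp only [Matrix.mul_assoc]

end Ev

section Main

variable [T2Space M] [ConnectedSpace M] [CompactSpace M] [Finite A.ι]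

/-- the polynomial form of `t • σ` -/
structure PForm {r : ℕ} (F : Fin r → Fn A) (m : ℕ) (t : Fn A) (σ : H2 A) where
  s : Matrix (Fin r) (Fin r) (MvPolynomial (Fin r) ℂ)
  alt : sᵀ = - s
  hom : ∀ k l, (s k l).IsHomogeneous (m - 2)
  eul : ∀ k, ∑ l, s k l * MvPolynomial.X l = 0
  eq : ∀ i, ∀ x ∈ (A.e i).source, t i x • σ.s i x = (DF F i x)ᵀ * evM F s i x * DF F i x

/-- **a holomorphic symplectic form on a projective manifold is a polynomial form** -/
theorem exists_form (D : FD O)
    {m0 : ℕ} (hV : ∀ m, m0 ≤ m → ∀ q, 1 ≤ q → Solv (O ^ m) q) {m1 : ℕ}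
    (hS : ∀ m, m1 ≤ m → ∀ s : Fn A, IsHS (O ^ m) univ s →
      ∃ p : MvPolynomial (Fin (D.N + 1)) ℂ, p.IsHomogeneous m ∧
        ∀ i, ∀ x ∈ (A.e i).source, s i x = MvPolynomial.eval (fun k => D.F k i x) p)
    (σ : HSymp A) {m : ℕ} (hm0 : m0 + 4 * n * (n + 1) ≤ m) (hm1 : m1 + 4 ≤ m) {t : Fn A}
    (ht : IsHS (O ^ m) univ t) : Nonempty (PForm D.F m t σ.toH2) := by
  classical
  rcases Nat.eq_zero_or_pos n with hn | hn
  · subst hn
    exact ⟨⟨0, by simp, fun k l => MvPolynomial.isHomogeneous_zero _ _ _, fun k => by simp,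
      fun i x _ => Subsingleton.elim _ _⟩⟩
  have him : Immersive D.F := by
    intro i x hx v hv
    obtain ⟨c, hc⟩ := hv
    refine D.imm i (A.e i x) ((A.e i).map_source hx) v ⟨c, fun k => ?_⟩
    rw [(A.e i).left_inv hx]
    exact hc k
  let Ξ : Type := Fin (D.N + 1) × (Fin n → Fin (D.N + 1))
  let e : Fin (Fintype.card Ξ) ≃ Ξ := (Fintype.equivFin Ξ).symm
  let ℓ : Fin (Fintype.card Ξ) → Fn A := fun a => dS σ D.F (e a).1 (e a).2
  have hℓ : ∀ a, IsHS (O ^ (4 * n)) univ (ℓ a) := fun a => isHS_dS D.hs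
  have hℓne : ∀ i, ∀ x ∈ (A.e i).source, ∃ a, ℓ a i x ≠ 0 := by
    intro i x hx
    obtain ⟨j0, T, h⟩ := exists_dS_ne (σ := σ) D.ne him hx
    refine ⟨e.symm (j0, T), ?_⟩
    simp only [ℓ, Equiv.apply_symm_apply]
    exact h
  have h4n : 4 * n * (n + 1) ≤ m := (Nat.le_add_left _ _).trans hm0
  have hNq : ∀ q : ℕ, q ≤ n + 1 → O ^ m * (O ^ (4 * n))⁻¹ ^ q = O ^ (m - 4 * n * q) := by
    intro q hq
    have h1 : 4 * n * q ≤ m := (Nat.mul_le_mul_left _ hq).trans h4n
    have e1 : O ^ m = O ^ (m - 4 * n * q) * (O ^ (4 * n)) ^ q := by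
      rw [← pow_mul, ← pow_add, Nat.sub_add_cancel h1]
    rw [e1, mul_assoc, inv_pow, mul_inv_cancel, mul_one]
  obtain ⟨w, hw, hs⟩ := kosgen (O ^ (4 * n)) (fun p => O ^ m * (O ^ (4 * n))⁻¹ ^ p)
    (fun p => by
      show O ^ m * (O ^ (4 * n))⁻¹ ^ (p + 1) * O ^ (4 * n) = O ^ m * (O ^ (4 * n))⁻¹ ^ p
      rw [pow_succ, ← mul_assoc, inv_mul_cancel_right]) ℓ hℓ hℓne
    (fun q hq hqn => by
      show Solv (O ^ m * (O ^ (4 * n))⁻¹ ^ (q + 1)) q
      rw [hNq (q + 1) (by omega)]
      refine hV _ ?_ q hq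
      have h1 : 4 * n * (q + 1) ≤ 4 * n * (n + 1) := Nat.mul_le_mul_left _ (by omega)
      omega) (s := t) (by
      show IsHS (O ^ m * (O ^ (4 * n))⁻¹ ^ 0) univ t
      rw [hNq 0 (Nat.zero_le _)]
      simpa using ht)
  have hw' : ∀ a, IsHS (O ^ (m - 4 * n)) univ (w a) := by
    intro a
    have h2 := hw a
    rw [hNq 1 (by omega), mul_one] at h2
    exact h2
  have h4m : 4 * n ≤ m := by
    have h1 : 4 * n * 1 ≤ 4 * n * (n + 1) := Nat.mul_le_mul_left _ (by omega)
    omega
  have hwc : ∀ a b c, IsHS (O ^ (m - 4)) univ (w a * cS σ D.F (e a).1 (e a).2 b c) := by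
    intro a b c
    have h1 := (hw' a).mul (isHS_cS (σ := σ) (j0 := (e a).1) (T := (e a).2) D.hs b c)
    rw [← pow_add] at h1
    rwa [show m - 4 * n + 4 * (n - 1) = m - 4 by omega] at h1
  choose p hp hpe using fun a b c => hS (m - 4) (by omega) _ (hwc a b c)
  let P : Fin (Fintype.card Ξ) → Matrix (Fin n) (Fin n) (MvPolynomial (Fin (D.N + 1)) ℂ) :=
    fun a => asym (p a)
  have hP1 : ∀ a, (P a)ᵀ = - P a := fun a => asym_alt (p a)
  have hP2 : ∀ a b c, (P a b c).IsHomogeneous (m - 4) := fun a => asym_homog (hp a)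
  have hP3 : ∀ a i, ∀ x ∈ (A.e i).source, evM D.F (P a) i x =
      w a i x • Matrix.of fun b c => cS σ D.F (e a).1 (e a).2 b c i x := by
    intro a i x hx
    ext b c
    have h1 : w a i x * cS σ D.F (e a).1 (e a).2 b c i x = _ := hpe a b c i x hx
    have h2 : w a i x * cS σ D.F (e a).1 (e a).2 c b i x = _ := hpe a c b i x hx
    have h3 := asym_eval (p a) (fun k => D.F k i x) b c
    rw [← h1, ← h2, cS_alt hx b c] at h3
    refine h3.trans ?_
    rw [Matrix.smul_apply, Matrix.of_apply, smul_eq_mul]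
    ring
  refine ⟨⟨∑ a, pol (e a).1 (e a).2 (P a), ?_, fun k l => ?_, fun k => ?_, fun i x hx => ?_⟩⟩
  · rw [Matrix.transpose_sum, ← Finset.sum_neg_distrib]
    exact Finset.sum_congr rfl fun a _ => pol_alt (hP1 a)
  · rw [Matrix.sum_apply]
    refine MvPolynomial.IsHomogeneous.sum _ _ _ fun a _ => ?_
    rw [show m - 2 = m - 4 + 2 by omega]
    exact pol_homog (hP2 a) k l
  · simp only [Matrix.sum_apply, Finset.sum_mul]
    rw [Finset.sum_comm]
    exact Finset.sum_eq_zero fun a _ => pol_X _ _ _ k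
  · rw [evM_sum, Matrix.mul_sum, Matrix.sum_mul]
    rw [Finset.sum_congr rfl fun a _ => evM_pol D.F (e a).1 (e a).2 (P a) i x]
    have h1 : t i x = ∑ a, ℓ a i x * w a i x := by
      rw [hs, Finset.sum_apply, Finset.sum_apply]
      rfl
    rw [h1, Finset.sum_smul]
    refine Finset.sum_congr rfl fun a _ => ?_
    rw [hP3 a i x hx, Matrix.mul_smul, Matrix.smul_mul, ← dS_mul hx, mul_comm, mul_smul]

/-- the form for a projective embedding -/
theorem exists_form_proj (PA : Part A) (hD : D2 A) (P : ProjD A) (σ : HSymp A) :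
    ∃ m1 : ℕ, ∀ m, m1 ≤ m → ∀ t : Fn A, IsHS (lb P ^ m) univ t →
      Nonempty (PForm (fun k => sec P k) m t σ.toH2) := by
  obtain ⟨m0, hm0⟩ := solv_large PA hD (fs_pos P) (1 : LB A)
  obtain ⟨m1, hm1⟩ := surj_proj PA hD P
  refine ⟨m0 + 4 * n * (n + 1) + m1 + 4, fun m hm t ht => ?_⟩
  exact exists_form (ofProj P) (m0 := m0) (fun m hm q hq => by
      have := hm0 m hm q hq
      rwa [one_mul] at this) (m1 := m1) hm1 σ (by omega) (by omega) ht

end Main

end

end Crest.Agent.R281.AF_867
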