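import Crest.Agent.R273.HFlow6_376
import Crest.Agent.R266.SCV
import Mathlib.Algebra.Module.ZLattice.Basic

-- ▼ part R281/Aa1_836
section

/-!
# R281 (S0424), S6-AA (helper836), file 1: restriction of an atlas and of holomorphic vector fields to
an open subset.
-/

set_option autoImplicit false
set_option linter.unusedSectionVars false

open Set Metric Filter Topology Complex Function TopologicalSpace
open scoped NNReal ContDiff

namespace Crest.Agent.R281.Aa1_836

open Crest.Agent.R275.Geo Crest.Agent.R273.HFlow3_376 Crest.Agent.R273.HFlow4_376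
open Crest.Agent.R273.HFlow5_376

noncomputable section

variable {n m : ℕ} {M M' : Type} [TopologicalSpace M] [TopologicalSpace M']

section Chart

variable {H : Type} [TopologicalSpace H] (e : OpenPartialHomeomorph M H) {U : Opens M}
  (hU : Nonempty U)

theorem sr_apply (x : U) : e.subtypeRestr hU x = e x.1 := rfl

theorem sr_source : (e.subtypeRestr hU).source = Subtype.val ⁻¹' e.source :=
  OpenPartialHomeomorph.subtypeRestr_source e hU

theorem sr_mem_source {x : U} : x ∈ (e.subtypeRestr hU).source ↔ x.1 ∈ e.source := by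
  rw [sr_source]; rfl

theorem sr_target {z : H} : z ∈ (e.subtypeRestr hU).target ↔ z ∈ e.target ∧ e.symm z ∈ U := by
  constructor
  · intro h
    obtain ⟨x, hx, rfl⟩ : ∃ x ∈ (e.subtypeRestr hU).source, e.subtypeRestr hU x = z :=
      ⟨_, (e.subtypeRestr hU).map_target h, (e.subtypeRestr hU).right_inv h⟩
    rw [sr_mem_source] at hx
    refine ⟨?_, ?_⟩
    · rw [sr_apply]; exact e.map_source hx
    · rw [sr_apply, e.left_inv hx]; exact x.2
  · rintro ⟨h1, h2⟩
    have h3 : (⟨e.symm z, h2⟩ : U) ∈ (e.subtypeRestr hU).source := by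
      rw [sr_mem_source]; exact e.map_target h1
    have h4 := (e.subtypeRestr hU).map_source h3
    rw [sr_apply] at h4
    simpa [e.right_inv h1] using h4

theorem sr_symm {z : H} (h : z ∈ (e.subtypeRestr hU).target) :
    ((e.subtypeRestr hU).symm z).1 = e.symm z := by
  have h1 := (e.subtypeRestr hU).map_target h
  have h2 := (e.subtypeRestr hU).right_inv h
  rw [sr_mem_source] at h1
  rw [sr_apply] at h2
  rw [← e.left_inv h1, h2]

end Chart

/-- restriction of an atlas to an open subset -/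
def opA (A : Atl n M) (U : Opens M) : Atl n U where
  ι := U × A.ι
  e p := (A.e p.2).subtypeRestr ⟨p.1⟩
  cover x := by
    obtain ⟨i, hi⟩ := A.cover x.1
    exact ⟨(x, i), by rw [sr_mem_source]; exact hi⟩
  cube p z hz q := A.cube p.2 z ((sr_target _ _).1 hz).1 q
  holo p q := by
    refine ((A.holo p.2 q.2).mono ?_).congr ?_
    · rintro z ⟨hz, hz'⟩
      rw [sr_mem_source, sr_symm _ _ hz] at hz'
      exact ⟨((sr_target _ _).1 hz).1, hz'⟩
    · rintro z ⟨hz, hz'⟩
      simp only [sr_apply]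
      rw [sr_symm _ _ hz]

variable {A : Atl n M} {B : Atl m M'} {U : Opens M}

theorem opA_e (p : (opA A U).ι) (x : U) : (opA A U).e p x = A.e p.2 x.1 := rfl

theorem opA_source {p : (opA A U).ι} {x : U} :
    x ∈ ((opA A U).e p).source ↔ x.1 ∈ (A.e p.2).source := sr_mem_source _ _

theorem opA_target {p : (opA A U).ι} {z : Cn n} :
    z ∈ ((opA A U).e p).target ↔ z ∈ (A.e p.2).target ∧ (A.e p.2).symm z ∈ U := sr_target _ _

theorem opA_symm {p : (opA A U).ι} {z : Cn n} (h : z ∈ ((opA A U).e p).target) :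
    (((opA A U).e p).symm z).1 = (A.e p.2).symm z := sr_symm _ _ h

theorem opA_symm_ev {p : (opA A U).ι} {x : U} (h : x ∈ ((opA A U).e p).source) :
    ∀ᶠ z in 𝓝 (A.e p.2 x.1), (((opA A U).e p).symm z).1 = (A.e p.2).symm z := by
  filter_upwards [((opA A U).e p).open_target.mem_nhds (((opA A U).e p).map_source h)] with z hz
  exact opA_symm hz

/-- a function on `M`, in the charts of the open subset -/
theorem fderiv_opA {F : Type} [NormedAddCommGroup F] [NormedSpace ℂ F] (y : M → F)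
    {p : (opA A U).ι} {x : U} (h : x ∈ ((opA A U).e p).source) :
    fderiv ℂ (fun z => y (((opA A U).e p).symm z).1) ((opA A U).e p x) =
      fderiv ℂ (fun z => y ((A.e p.2).symm z)) (A.e p.2 x.1) := by
  refine Filter.EventuallyEq.fderiv_eq ?_
  filter_upwards [opA_symm_ev h] with z hz
  rw [hz]

/-- restriction of a holomorphic vector field -/
def opV (V : HVF A) (U : Opens M) : HVF (opA A U) where
  X p x := V.X p.2 x.1
  hol p := by
    refine ((V.hol p.2).mono fun z hz => (opA_target.1 hz).1).congr fun z hz => ?_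
    rw [opA_symm hz]
  tr p q x hx := by
    have h1 := V.tr p.2 q.2 x.1 ⟨opA_source.1 hx.1, opA_source.1 hx.2⟩
    refine h1.trans ?_
    congr 1
    refine Filter.EventuallyEq.fderiv_eq ?_
    filter_upwards [opA_symm_ev hx.1] with z hz
    simp only [opA_e]
    rw [hz]

theorem opV_loc (V : HVF A) {p : (opA A U).ι} {z : Cn n} (hz : z ∈ ((opA A U).e p).target) :
    (opV V U).loc p z = V.loc p.2 z := by
  simp only [HVF.loc, opV]
  rw [opA_symm hz]

theorem opV_comm {V W : HVF A} (h : Comm V W) : Comm (opV V U) (opV W U) := by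
  intro p z hz
  have h1 : (opV V U).loc p =ᶠ[𝓝 z] V.loc p.2 := by
    filter_upwards [((opA A U).e p).open_target.mem_nhds hz] with w hw
    exact opV_loc V hw
  have h2 : (opV W U).loc p =ᶠ[𝓝 z] W.loc p.2 := by
    filter_upwards [((opA A U).e p).open_target.mem_nhds hz] with w hw
    exact opV_loc W hw
  have := h p.2 z (opA_target.1 hz).1
  rw [h1.fderiv_eq, h2.fderiv_eq, h1.self_of_nhds, h2.self_of_nhds]
  exact this

/-- holomorphic with parameters, into the open subset: from the ambient manifold -/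
theorem holP_op {P : Type*} [NormedAddCommGroup P] [NormedSpace ℂ P] {F : P → M → M}
    {G : P → U → U} {p : P} {x : U} (h : HolP A A F p x.1)
    (hG : ∀ᶠ q : P × U in 𝓝 (p, x), (G q.1 q.2).1 = F q.1 q.2.1) :
    HolP (opA A U) (opA A U) G p x := by
  obtain ⟨hc, i, j, hi, hj, hd⟩ := h
  have h0 : (G p x).1 = F p x.1 := hG.self_of_nhds
  have hmap : Tendsto (fun q : P × U => (q.1, q.2.1)) (𝓝 (p, x)) (𝓝 (p, x.1)) :=
    (continuous_fst.prodMk (continuous_subtype_val.comp continuous_snd)).tendsto _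
  have hc2 : ContinuousAt (uncurry G) (p, x) := by
    rw [Topology.IsInducing.subtypeVal.continuousAt_iff]
    have h1 : ContinuousAt (fun q : P × U => F q.1 q.2.1) (p, x) :=
      ContinuousAt.comp (g := uncurry F) (f := fun q : P × U => (q.1, q.2.1)) hc hmap
    refine h1.congr ?_
    filter_upwards [hG] with q hq
    exact hq.symm
  refine ⟨hc2, (x, i), (G p x, j), opA_source.2 hi, opA_source.2 (by rw [h0]; exact hj), ?_⟩
  refine hd.congr_of_eventuallyEq ?_
  -- the points `(((opA A U).e (x, i)).symm z)`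
  have hs : ∀ᶠ q : P × Cn n in 𝓝 (p, A.e i x.1), q.2 ∈ ((opA A U).e (x, i)).target :=
    continuousAt_snd (((opA A U).e (x, i)).open_target.mem_nhds
      (((opA A U).e (x, i)).map_source (opA_source.2 hi)))
  have hsym := symm_ca (A := opA A U) p (i := (x, i)) (x := x) (opA_source.2 hi)
  have hsym2 : Tendsto (fun q : P × Cn n => (q.1, ((opA A U).e (x, i)).symm q.2))
      (𝓝 (p, A.e i x.1)) (𝓝 (p, x)) := by
    have h3 : ((opA A U).e (x, i)).symm ((opA A U).e (x, i) x) = x :=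
      ((opA A U).e (x, i)).left_inv (opA_source.2 hi)
    have h4 : Tendsto (fun q : P × Cn n => (q.1, ((opA A U).e (x, i)).symm q.2))
      (𝓝 (p, (opA A U).e (x, i) x)) (𝓝 (p, ((opA A U).e (x, i)).symm ((opA A U).e (x, i) x))) :=
      hsym
    rw [h3] at h4
    exact h4
  filter_upwards [hs, hsym2.eventually hG] with q hq hq2
  change A.e j (G q.1 (((opA A U).e (x, i)).symm q.2)).1 = A.e j (F q.1 ((A.e i).symm q.2))
  rw [hq2, opA_symm hq]

end

end Crest.Agent.R281.Aa1_836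
end

-- ▼ part R281/Aa2_836
section

/-!
# R281 (S0424), S6-AA (helper836), file 2: commuting holomorphic vector fields `V k` tangent to the
fibres of `y`; a compact leaf `T` relatively open in its fibre has a saturated neighbourhood with
compact fibres on which the flows are complete.
-/

set_option autoImplicit false
set_option linter.unusedSectionVars false

open Set Metric Filter Topology Complex Function TopologicalSpace
open scoped NNReal ContDiff

namespace Crest.Agent.R281.Aa2_836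

open Crest.Agent.R275.Geo Crest.Agent.R273.HFlow3_376 Crest.Agent.R273.HFlow4_376
open Crest.Agent.R273.HFlow5_376 Crest.Agent.R273.HFlow6_376
open Crest.Agent.R281.Aa1_836

noncomputable section

variable {N g : ℕ} {M : Type} [TopologicalSpace M] {A : Atl N M}
  {F : Type} [NormedAddCommGroup F] [NormedSpace ℂ F] [FiniteDimensional ℂ F]

/-- `y` is holomorphic -/
def HolF (A : Atl N M) (y : M → F) : Prop :=
  ∀ i, DifferentiableOn ℂ (fun z => y ((A.e i).symm z)) (A.e i).target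

/-- commuting holomorphic fields, tangent to the fibres of the holomorphic map `y` -/
structure Lio (A : Atl N M) (V : Fin g → HVF A) (y : M → F) : Prop where
  comm : ∀ j k, Comm (V j) (V k)
  hol : HolF A y
  tan : ∀ k i, ∀ x ∈ (A.e i).source,
    fderiv ℂ (fun z => y ((A.e i).symm z)) (A.e i x) ((V k).X i x) = 0
  dim : g + Module.finrank ℂ F = N

/-- regular points (in one chart) -/
def RegAt (V : Fin g → HVF A) (y : M → F) (x : M) : Prop :=
  ∃ i, x ∈ (A.e i).source ∧ LinearIndependent ℂ (fun k => (V k).X i x) ∧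
    Surjective (fderiv ℂ (fun z => y ((A.e i).symm z)) (A.e i x))

theorem HolF.diffAt {y : M → F} (h : HolF A y) {i : A.ι} {x : M} (hi : x ∈ (A.e i).source) :
    DifferentiableAt ℂ (fun z => y ((A.e i).symm z)) (A.e i x) :=
  (h i).differentiableAt ((A.e i).open_target.mem_nhds ((A.e i).map_source hi))

theorem HolF.continuous {y : M → F} (h : HolF A y) : Continuous y := by
  rw [continuous_iff_continuousAt]
  intro x
  obtain ⟨i, hi⟩ := A.cover x
  have h1 : ContinuousAt (fun x => y ((A.e i).symm (A.e i x))) x :=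
    ContinuousAt.comp (g := fun z => y ((A.e i).symm z)) (h.diffAt hi).continuousAt
      ((A.e i).continuousAt hi)
  refine h1.congr ?_
  filter_upwards [(A.e i).open_source.mem_nhds hi] with x' hx'
  rw [(A.e i).left_inv hx']

/-- derivative of `y` along a curve -/
theorem hasDerivAt_comp {y : M → F} (h : HolF A y) {V : HVF A} {γ : ℂ → M} {t : ℂ}
    (hγ : IntAt V γ t) {i : A.ι} (hi : γ t ∈ (A.e i).source) :
    HasDerivAt (fun s => y (γ s))
      (fderiv ℂ (fun z => y ((A.e i).symm z)) (A.e i (γ t)) (V.X i (γ t))) t := by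
  have h1 := (h.diffAt hi).hasFDerivAt.comp_hasDerivAt t (hγ.chart hi)
  refine h1.congr_of_eventuallyEq ?_
  filter_upwards [hγ.cont ((A.e i).open_source.mem_nhds hi)] with s hs
  simp only [comp_apply]
  rw [(A.e i).left_inv hs]

theorem const_of_int {y : M → F} (h : HolF A y) {V : HVF A}
    (ht : ∀ i, ∀ x ∈ (A.e i).source,
      fderiv ℂ (fun z => y ((A.e i).symm z)) (A.e i x) (V.X i x) = 0)
    {γ : ℂ → M} {S : Set ℂ} (hS : IsOpen S) (hc : IsPreconnected S)
    (hγ : ∀ s ∈ S, IntAt V γ s) {s t : ℂ} (hs : s ∈ S) (ht' : t ∈ S) : y (γ s) = y (γ t) := by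
  have hd : ∀ u ∈ S, HasDerivAt (fun s => y (γ s)) 0 u := by
    intro u hu
    obtain ⟨i, hi⟩ := A.cover (γ u)
    have := hasDerivAt_comp h (hγ u hu) hi
    rwa [ht i _ hi] at this
  exact hS.is_const_of_deriv_eq_zero (f := fun s => y (γ s)) hc
    (fun u hu => (hd u hu).differentiableAt.differentiableWithinAt)
    (fun u hu => (hd u hu).deriv) hs ht'

/-! ### topology -/

theorem weakly_lc (A : Atl N M) : WeaklyLocallyCompactSpace M := by
  refine ⟨fun x => ?_⟩
  obtain ⟨i, hi⟩ := A.cover x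
  obtain ⟨r, hr, hsub⟩ := Metric.nhds_basis_closedBall.mem_iff.1
    ((A.e i).open_target.mem_nhds ((A.e i).map_source hi))
  refine ⟨(A.e i).symm '' closedBall (A.e i x) r,
    (isCompact_closedBall _ _).image_of_continuousOn
      ((A.e i).continuousOn_symm.mono hsub), ?_⟩
  have h1 : (A.e i) ⁻¹' closedBall (A.e i x) r ∈ 𝓝 x :=
    (A.e i).continuousAt hi (closedBall_mem_nhds _ hr)
  filter_upwards [h1, (A.e i).open_source.mem_nhds hi] with x' hx' hx''
  exact ⟨A.e i x', hx', (A.e i).left_inv hx''⟩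

/-- a compact set which is open in its fibre has a neighbourhood with compact clopen fibres -/
theorem exists_tub [T2Space M] (A : Atl N M) {y : M → F} (hy : Continuous y) {b0 : F}
    {T O : Set M} (hT : IsCompact T) (hO : IsOpen O) (hTO : T ⊆ O)
    (hfib : ∀ x ∈ O, y x = b0 → x ∈ T) :
    ∃ K : Set M, IsCompact K ∧ T ⊆ interior K ∧ K ⊆ O ∧ ∃ δ > 0,
      ∀ x ∈ K, dist (y x) b0 < δ → x ∈ interior K := by
  have := weakly_lc A
  obtain ⟨K, hK, hTK, hKO⟩ := exists_compact_between hT hO hTO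
  refine ⟨K, hK, hTK, hKO, ?_⟩
  have hC : IsCompact (K \ interior K) := hK.diff isOpen_interior
  rcases (K \ interior K).eq_empty_or_nonempty with he | hne
  · refine ⟨1, one_pos, fun x hx _ => ?_⟩
    by_contra h
    exact (he ▸ (⟨hx, h⟩ : x ∈ K \ interior K) : x ∈ (∅ : Set M))
  · obtain ⟨x0, hx0, hmin⟩ := hC.exists_isMinOn hne
      ((hy.dist continuous_const).continuousOn (s := K \ interior K) (f := fun x => dist (y x) b0))
    have hpos : 0 < dist (y x0) b0 := by
      rw [dist_pos]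
      intro h
      exact hx0.2 (hTK (hfib x0 (hKO hx0.1) h))
    refine ⟨_, hpos, fun x hx hd => ?_⟩
    by_contra h
    exact absurd (hmin ⟨hx, h⟩) (not_le.2 hd)

theorem stay [T2Space M] {y : M → F} {b0 : F} {K : Set M} (hK : IsCompact K) {δ : ℝ}
    (hδ : ∀ x ∈ K, dist (y x) b0 < δ → x ∈ interior K) {S : Set ℂ} (hS : IsPreconnected S)
    {γ : ℂ → M} (hγ : ContinuousOn γ S) {t : ℂ} (ht : t ∈ S) (hx : γ t ∈ K)
    (hyt : dist (y (γ t)) b0 < δ) (hc : ∀ s ∈ S, y (γ s) = y (γ t)) {s : ℂ} (hs : s ∈ S) :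
    γ s ∈ interior K := by
  have h1 : γ '' S ⊆ interior K := by
    refine IsPreconnected.subset_left_of_subset_union isOpen_interior hK.isClosed.isOpen_compl
      ?_ ?_ ?_ (hS.image _ hγ)
    · exact disjoint_compl_right.mono_left interior_subset
    · rintro _ ⟨s, hs, rfl⟩
      by_cases h : γ s ∈ K
      · exact Or.inl (hδ _ h (by rw [hc s hs]; exact hyt))
      · exact Or.inr h
    · exact ⟨γ t, ⟨t, ht, rfl⟩, hδ _ hx hyt⟩
  exact h1 ⟨s, hs, rfl⟩

/-- the tubular open set -/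
def tub (y : M → F) (hy : Continuous y) (b0 : F) (K : Set M) (δ : ℝ) : Opens M :=
  ⟨interior K ∩ {x | dist (y x) b0 < δ},
    isOpen_interior.inter (isOpen_lt (hy.dist continuous_const) continuous_const)⟩

theorem mem_tub {y : M → F} {hy : Continuous y} {b0 : F} {K : Set M} {δ : ℝ} {x : M} :
    x ∈ tub y hy b0 K δ ↔ x ∈ interior K ∧ dist (y x) b0 < δ := Iff.rfl

theorem intAt_op {V : HVF A} {U : Opens M} {γ : ℂ → M} {γ' : ℂ → U} {t : ℂ} (h : IntAt V γ t)
    (he : ∀ᶠ s in 𝓝 t, (γ' s).1 = γ s) : IntAt (opV V U) γ' t := by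
  obtain ⟨hc, i, hi, hd⟩ := h
  have h0 : (γ' t).1 = γ t := he.self_of_nhds
  refine ⟨?_, (γ' t, i), opA_source.2 (by rw [h0]; exact hi), ?_⟩
  · rw [Topology.IsInducing.subtypeVal.continuousAt_iff]
    refine hc.congr ?_
    filter_upwards [he] with s hs
    exact hs.symm
  · have h1 : (opV V U).X (γ' t, i) (γ' t) = V.X i (γ t) := by
      change V.X i (γ' t).1 = _
      rw [h0]
    rw [h1]
    refine hd.congr_of_eventuallyEq ?_
    filter_upwards [he] with s hs
    change A.e i (γ' s).1 = _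
    rw [hs]

/-- complete flows on the tubular neighbourhood -/
theorem exists_flow_tub [T2Space M] {y : M → F} (hyh : HolF A y) {V : HVF A}
    (ht : ∀ i, ∀ x ∈ (A.e i).source,
      fderiv ℂ (fun z => y ((A.e i).symm z)) (A.e i x) (V.X i x) = 0)
    {b0 : F} {K : Set M} (hK : IsCompact K) {δ δ' : ℝ} (hδ' : δ' < δ)
    (hδ : ∀ x ∈ K, dist (y x) b0 < δ → x ∈ interior K) :
    Nonempty (Flow (opV V (tub y hyh.continuous b0 K δ'))) := by
  classical
  have hy := hyh.continuous
  set U := tub y hy b0 K δ' with hU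
  have hK' : IsCompact (K ∩ {x | dist (y x) b0 ≤ δ'}) :=
    hK.inter_right (isClosed_le (hy.dist continuous_const) continuous_const)
  obtain ⟨ε, hε, hL⟩ := exists_unif V hK'
  refine exists_flow_of_unif (opV V U) hε fun x => ?_
  obtain ⟨N', φ, hN', hx, h0, h1, h2⟩ := hL x.1 ⟨interior_subset x.2.1, (le_of_lt x.2.2 : dist (y x.1) b0 ≤ δ')⟩
  have hin : ∀ z ∈ U, z ∈ N' → ∀ t ∈ ball (0 : ℂ) ε, φ t z ∈ U := by
    intro z hz hzN t ht'
    have hconst : ∀ s ∈ ball (0 : ℂ) ε, y (φ s z) = y (φ 0 z) := fun s hs =>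
      const_of_int hyh ht isOpen_ball (convex_ball (0 : ℂ) ε).isPreconnected (h1 z hzN) hs
        (mem_ball_self hε)
    have e0 := h0 z hzN
    refine ⟨?_, ?_⟩
    · refine stay (y := y) (b0 := b0) hK hδ (convex_ball (0 : ℂ) ε).isPreconnected
        (γ := fun s => φ s z)
        (fun s hs => (h1 z hzN s hs).cont.continuousWithinAt) (mem_ball_self hε) ?_ ?_ hconst ht'
      · simp only [e0]; exact interior_subset hz.1
      · simp only [e0]; exact lt_trans hz.2 hδ'
    · change dist (y (φ t z)) b0 < δ'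
      rw [hconst t ht', e0]
      exact hz.2
  set φ' : ℂ → U → U := fun t z => if h : φ t z.1 ∈ U then ⟨φ t z.1, h⟩ else z with hφ'
  have hval : ∀ z : U, z.1 ∈ N' → ∀ t ∈ ball (0 : ℂ) ε, (φ' t z).1 = φ t z.1 := by
    intro z hz t ht'
    have := hin z.1 z.2 hz t ht'
    simp only [hφ', dif_pos this]
  refine ⟨Subtype.val ⁻¹' N', φ', hN'.preimage continuous_subtype_val, hx, ?_, ?_, ?_⟩
  · intro z hz
    apply Subtype.ext
    rw [hval z hz 0 (mem_ball_self hε), h0 z.1 hz]
  · intro z hz t ht'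
    refine intAt_op (h1 z.1 hz t ht') ?_
    filter_upwards [isOpen_ball.mem_nhds ht'] with s hs
    exact hval z hz s hs
  · intro t ht' z hz
    refine holP_op (h2 t ht' z.1 hz) ?_
    have e1 : ∀ᶠ q : ℂ × U in 𝓝 (t, z), q.1 ∈ ball (0 : ℂ) ε :=
      (continuous_fst.tendsto (t, z)).eventually (isOpen_ball.mem_nhds ht')
    have e2 : ∀ᶠ q : ℂ × U in 𝓝 (t, z), q.2 ∈ Subtype.val ⁻¹' N' :=
      (continuous_snd.tendsto (t, z)).eventually ((hN'.preimage continuous_subtype_val).mem_nhds hz)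
    filter_upwards [e1, e2] with q hq1 hq2
    exact hval q.2 hq2 q.1 hq1

/-- restriction of the data to an open subset -/
theorem Lio.op {V : Fin g → HVF A} {y : M → F} (h : Lio A V y) (U : Opens M) :
    Lio (opA A U) (fun k => opV (V k) U) (fun x => y x.1) where
  comm j k := opV_comm (h.comm j k)
  hol p := by
    refine ((h.hol p.2).mono fun z hz => (opA_target.1 hz).1).congr fun z hz => ?_
    change y (((opA A U).e p).symm z).1 = y ((A.e p.2).symm z)
    rw [opA_symm hz]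
  tan k p x hx := by
    rw [fderiv_opA y hx]
    exact h.tan k p.2 x.1 (opA_source.1 hx)
  dim := h.dim

theorem RegAt.op {V : Fin g → HVF A} {y : M → F} {U : Opens M} {x : U} (h : RegAt V y x.1) :
    RegAt (A := opA A U) (fun k => opV (V k) U) (fun x => y x.1) x := by
  obtain ⟨i, hi, h1, h2⟩ := h
  have hs : x ∈ ((opA A U).e (x, i)).source := opA_source.2 hi
  refine ⟨(x, i), hs, h1, ?_⟩
  rw [fderiv_opA y hs]
  exact h2

/-- the action of `ℂ^g` on the tubular neighbourhood -/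
theorem Lio.exists_mflow [T2Space M] {V : Fin g → HVF A} {y : M → F} (h : Lio A V y)
    {b0 : F} {K : Set M} (hK : IsCompact K) {δ δ' : ℝ} (hδ' : δ' < δ)
    (hδ : ∀ x ∈ K, dist (y x) b0 < δ → x ∈ interior K) :
    Nonempty (MFlow (fun k => opV (V k) (tub y h.hol.continuous b0 K δ'))) := by
  have h1 : ∀ k, Nonempty (Flow (opV (V k) (tub y h.hol.continuous b0 K δ'))) := fun k =>
    exists_flow_tub h.hol (h.tan k) hK hδ' hδ
  exact ⟨MFlow.of (fun k => (h1 k).some) fun j k => opV_comm (h.comm j k)⟩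

end

end Crest.Agent.R281.Aa2_836
end

-- ▼ part R281/Aa3_836
section

/-!
# R281 (S0424), S6-AA (helper836), file 3: slices, the map `Ψ (c, b) = Φ_c (s b)` is a local
biholomorphism at regular points.
-/

set_option autoImplicit false
set_option linter.unusedSectionVars false

open Set Metric Filter Topology Complex Function TopologicalSpace
open scoped NNReal ContDiff

namespace Crest.Agent.R281.Aa3_836

open Crest.Agent.R275.Geo Crest.Agent.R273.HFlow3_376 Crest.Agent.R273.HFlow4_376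
open Crest.Agent.R273.HFlow5_376 Crest.Agent.R273.HFlow6_376
open Crest.Agent.R281.Aa1_836 Crest.Agent.R281.Aa2_836

noncomputable section

variable {N g : ℕ} {M : Type} [TopologicalSpace M] {A : Atl N M}
  {F : Type} [NormedAddCommGroup F] [NormedSpace ℂ F] [FiniteDimensional ℂ F]

/-! ### holomorphic maps from a vector space to `M` -/

section HolC

variable {P Q : Type} [NormedAddCommGroup P] [NormedSpace ℂ P] [NormedAddCommGroup Q]
  [NormedSpace ℂ Q]

/-- `s : Q → M` is complex differentiable at `q` -/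
def HolC (A : Atl N M) (s : Q → M) (q : Q) : Prop :=
  ContinuousAt s q ∧ ∃ i, s q ∈ (A.e i).source ∧ DifferentiableAt ℂ (fun q => A.e i (s q)) q

theorem HolC.cont {s : Q → M} {q : Q} (h : HolC A s q) : ContinuousAt s q := h.1

theorem HolC.chart {s : Q → M} {q : Q} (h : HolC A s q) {j : A.ι} (hj : s q ∈ (A.e j).source) :
    DifferentiableAt ℂ (fun q => A.e j (s q)) q := by
  obtain ⟨hc, i, hi, hd⟩ := h
  have h1 := (chg_diffAt A hi hj).comp (f := fun q => A.e i (s q)) q hd
  refine h1.congr_of_eventuallyEq ?_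
  filter_upwards [hc ((A.e i).open_source.mem_nhds hi)] with r hr
  simp only [comp_apply]
  rw [(A.e i).left_inv hr]

theorem HolC.congr {s s' : Q → M} {q : Q} (h : HolC A s q) (he : ∀ᶠ r in 𝓝 q, s r = s' r) :
    HolC A s' q := by
  obtain ⟨hc, i, hi, hd⟩ := h
  have h0 : s q = s' q := he.self_of_nhds
  refine ⟨hc.congr he, i, h0 ▸ hi, hd.congr_of_eventuallyEq ?_⟩
  filter_upwards [he] with r hr
  rw [hr]

theorem HolC.comp {s : Q → M} {u : P → Q} {p : P} (h : HolC A s (u p))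
    (hu : DifferentiableAt ℂ u p) : HolC A (fun p => s (u p)) p := by
  obtain ⟨hc, i, hi, hd⟩ := h
  exact ⟨ContinuousAt.comp (f := u) hc hu.continuousAt, i, hi, hd.comp p hu⟩


/-- chain rule for `y ∘ s` in the chart `i` -/
theorem HolC.fderiv_comp {s : Q → M} {q : Q} (h : HolC A s q) {y : M → F} (hy : HolF A y)
    {i : A.ι} (hi : s q ∈ (A.e i).source) (v : Q) :
    fderiv ℂ (fun q => y (s q)) q v =
      fderiv ℂ (fun z => y ((A.e i).symm z)) (A.e i (s q)) (fderiv ℂ (fun q => A.e i (s q)) q v) := by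
  have h1 := (hy.diffAt hi).hasFDerivAt.comp q (h.chart hi).hasFDerivAt
  have h2 : (fun q => y (s q)) =ᶠ[𝓝 q]
      (fun z => y ((A.e i).symm z)) ∘ (fun q => A.e i (s q)) := by
    filter_upwards [h.cont ((A.e i).open_source.mem_nhds hi)] with r hr
    simp only [comp_apply]
    rw [(A.e i).left_inv hr]
  rw [h2.fderiv_eq, h1.fderiv]
  rfl

theorem HolP.holC {G : P → M → M} {s : Q → M} {p : P} {q : Q} (hG : HolP A A G p (s q))
    (hs : HolC A s q) : HolC A (fun r : P × Q => G r.1 (s r.2)) (p, q) := by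
  obtain ⟨hcG, j, k, hj, hk, hdG⟩ := hG
  have hds := hs.chart hj
  have hc : ContinuousAt (fun r : P × Q => s r.2) (p, q) :=
    ContinuousAt.comp (f := fun r : P × Q => r.2) hs.cont continuousAt_snd
  refine ⟨ContinuousAt.comp (g := uncurry G) (f := fun r : P × Q => (r.1, s r.2)) hcG
    (continuousAt_fst.prodMk hc), k, hk, ?_⟩
  have h1 : DifferentiableAt ℂ (fun r : P × Q => (r.1, A.e j (s r.2))) (p, q) :=
    differentiableAt_fst.prodMk (DifferentiableAt.comp (f := fun r : P × Q => r.2) (p, q) hds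
      differentiableAt_snd)
  have h2 := DifferentiableAt.comp (p, q) (f := fun r : P × Q => (r.1, A.e j (s r.2)))
    (g := fun r : P × Cn N => A.e k (G r.1 ((A.e j).symm r.2))) hdG h1
  refine h2.congr_of_eventuallyEq ?_
  filter_upwards [hc ((A.e j).open_source.mem_nhds hj)] with r hr
  simp only [comp_apply]
  rw [(A.e j).left_inv hr]

theorem analyticAt_of_holC [FiniteDimensional ℂ Q] {s : Q → M} {q : Q}
    (h : ∀ᶠ r in 𝓝 q, HolC A s r) {i : A.ι} (hi : s q ∈ (A.e i).source) :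
    AnalyticAt ℂ (fun q => A.e i (s q)) q := by
  refine Crest.Agent.R266.SCV.analyticAt_of_eventually_differentiableAt ?_
  filter_upwards [h, h.self_of_nhds.cont ((A.e i).open_source.mem_nhds hi)] with r hr hr'
  exact hr.chart hr'

end HolC

/-! ### regular points -/

theorem RegAt.all {V : Fin g → HVF A} {y : M → F} (hy : HolF A y) {x : M} (h : RegAt V y x)
    {j : A.ι} (hj : x ∈ (A.e j).source) :
    LinearIndependent ℂ (fun k => (V k).X j x) ∧
      Surjective (fderiv ℂ (fun z => y ((A.e j).symm z)) (A.e j x)) := by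
  obtain ⟨i, hi, h1, h2⟩ := h
  have key : ∀ a b : A.ι, ∀ _ : x ∈ (A.e a).source, ∀ _ : x ∈ (A.e b).source,
      ∀ v, fderiv ℂ (fun z => A.e a ((A.e b).symm z)) (A.e b x)
        (fderiv ℂ (fun z => A.e b ((A.e a).symm z)) (A.e a x) v) = v := by
    intro a b ha hb v
    have hd1 := (chg_diffAt A ha hb).hasFDerivAt
    have hd2 := (chg_diffAt A hb ha).hasFDerivAt
    have e1 : A.e b ((A.e a).symm (A.e a x)) = A.e b x := by rw [(A.e a).left_inv ha]
    have h3 := HasFDerivAt.comp (A.e a x) (g := fun z => A.e a ((A.e b).symm z))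
      (f := fun z => A.e b ((A.e a).symm z)) (by simp only [e1]; exact hd2) hd1
    have h4 : (fun z => A.e a ((A.e b).symm z)) ∘ (fun z => A.e b ((A.e a).symm z))
        =ᶠ[𝓝 (A.e a x)] id := by
      have hc : ContinuousAt (A.e a).symm (A.e a x) :=
        (A.e a).continuousAt_symm ((A.e a).map_source ha)
      have h5 : ∀ᶠ z in 𝓝 (A.e a x), (A.e a).symm z ∈ (A.e b).source :=
        hc.preimage_mem_nhds (by rw [(A.e a).left_inv ha]; exact (A.e b).open_source.mem_nhds hb)
      filter_upwards [h5, (A.e a).open_target.mem_nhds ((A.e a).map_source ha)] with z hz hz'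
      simp only [comp_apply, id]
      rw [(A.e b).left_inv hz, (A.e a).right_inv hz']
    have h6 := h3.fderiv
    rw [h4.fderiv_eq, fderiv_id] at h6
    have h7 := congrArg (fun T : Cn N →L[ℂ] Cn N => T v) h6
    simp only [ContinuousLinearMap.coe_id', id_eq, ContinuousLinearMap.coe_comp,
      Function.comp_apply] at h7
    exact h7.symm
  constructor
  · have h3 : (fun k => (V k).X j x) = fun k =>
        fderiv ℂ (fun z => A.e j ((A.e i).symm z)) (A.e i x) ((V k).X i x) := by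
      funext k
      exact (V k).tr i j x ⟨hi, hj⟩
    rw [h3]
    refine LinearIndependent.map' h1
      (fderiv ℂ (fun z => A.e j ((A.e i).symm z)) (A.e i x)).toLinearMap ?_
    rw [LinearMap.ker_eq_bot]
    intro v w hvw
    have := key i j hi hj v
    rw [← this, ← key i j hi hj w]
    congr 1
  · intro w
    obtain ⟨v, hv⟩ := h2 w
    refine ⟨fderiv ℂ (fun z => A.e j ((A.e i).symm z)) (A.e i x) v, ?_⟩
    have h3 : (fun z => y ((A.e i).symm z)) =ᶠ[𝓝 (A.e i x)]
        (fun z => y ((A.e j).symm z)) ∘ (fun z => A.e j ((A.e i).symm z)) := by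
      have hc : ContinuousAt (A.e i).symm (A.e i x) :=
        (A.e i).continuousAt_symm ((A.e i).map_source hi)
      have h5 : ∀ᶠ z in 𝓝 (A.e i x), (A.e i).symm z ∈ (A.e j).source :=
        hc.preimage_mem_nhds (by rw [(A.e i).left_inv hi]; exact (A.e j).open_source.mem_nhds hj)
      filter_upwards [h5] with z hz
      simp only [comp_apply]
      rw [(A.e j).left_inv hz]
    have e1 : A.e j ((A.e i).symm (A.e i x)) = A.e j x := by rw [(A.e i).left_inv hi]
    have h4 := HasFDerivAt.comp (A.e i x) (g := fun z => y ((A.e j).symm z))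
      (f := fun z => A.e j ((A.e i).symm z))
      (by simp only [e1]; exact (hy.diffAt hj).hasFDerivAt) (chg_diffAt A hi hj).hasFDerivAt
    rw [h3.fderiv_eq, h4.fderiv] at hv
    exact hv

/-- holomorphic slices -/
theorem exists_slice {y : M → F} (hy : HolF A y) {x0 : M} {i : A.ι} (hi : x0 ∈ (A.e i).source)
    (hs : Surjective (fderiv ℂ (fun z => y ((A.e i).symm z)) (A.e i x0))) :
    ∃ (s : F → M) (W : Set F), IsOpen W ∧ y x0 ∈ W ∧ s (y x0) = x0 ∧
      ∀ b ∈ W, HolC A s b ∧ y (s b) = b := by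
  set z0 := A.e i x0 with hz0
  set f : Cn N → F := fun z => y ((A.e i).symm z) with hf
  have hz0t : z0 ∈ (A.e i).target := (A.e i).map_source hi
  have hfa : AnalyticAt ℂ f z0 := by
    refine Crest.Agent.R266.SCV.analyticAt_of_eventually_differentiableAt ?_
    filter_upwards [(A.e i).open_target.mem_nhds hz0t] with z hz
    exact (hy i).differentiableAt ((A.e i).open_target.mem_nhds hz)
  obtain ⟨R, hR⟩ := LinearMap.exists_rightInverse_of_surjective
    (fderiv ℂ f z0).toLinearMap (LinearMap.range_eq_top.2 hs)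
  set R' : F →L[ℂ] Cn N := LinearMap.toContinuousLinearMap R with hR'
  have hLR : ∀ v, fderiv ℂ f z0 (R' v) = v := fun v => by
    have := congrArg (fun T : F →ₗ[ℂ] F => T v) hR
    simp only [LinearMap.coe_comp, comp_apply, LinearMap.id_coe, id_eq] at this
    exact this
  set h : F → F := fun β => f (z0 + R' β) with hh
  have hha : AnalyticAt ℂ h 0 := by
    refine AnalyticAt.fun_comp (g := f) ?_ ?_
    · simpa using hfa
    · exact analyticAt_const.add (R'.analyticAt 0)
  have hhd : HasFDerivAt h ((ContinuousLinearEquiv.refl ℂ F : F ≃L[ℂ] F) : F →L[ℂ] F) 0 := by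
    have h1 : HasFDerivAt (fun β => z0 + R' β) R' 0 := R'.hasFDerivAt.const_add z0
    have h2 : HasFDerivAt f (fderiv ℂ f z0) (z0 + R' 0) := by
      simpa using hfa.differentiableAt.hasFDerivAt
    have h3 := h2.comp 0 h1
    have h4 : (fderiv ℂ f z0).comp R' =
        ((ContinuousLinearEquiv.refl ℂ F : F ≃L[ℂ] F) : F →L[ℂ] F) := by
      ext v
      simp [hLR]
    rw [h4] at h3
    exact h3
  have hU : {β : F | z0 + R' β ∈ (A.e i).target} ∈ 𝓝 (0 : F) := by
    have : ContinuousAt (fun β => z0 + R' β) 0 := by fun_prop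
    refine this ((A.e i).open_target.mem_nhds ?_)
    simpa using hz0t
  obtain ⟨e, he0, heU, heh, _, hes⟩ :=
    Crest.Agent.R266.SCV.exists_analytic_openPartialHomeomorph hha _ hhd hU
  have hy0 : y x0 = e 0 := by
    rw [heh]
    simp only [hh, hf, map_zero, add_zero, hz0]
    rw [(A.e i).left_inv hi]
  have hinv0 : e.symm (y x0) = 0 := by rw [hy0, e.left_inv he0]
  refine ⟨fun b => (A.e i).symm (z0 + R' (e.symm b)), e.target, e.open_target,
    by rw [hy0]; exact e.map_source he0, ?_, ?_⟩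
  · simp only [hinv0, map_zero, add_zero, hz0]
    exact (A.e i).left_inv hi
  · intro b hb
    have hbt : z0 + R' (e.symm b) ∈ (A.e i).target := heU (e.map_target hb)
    have hd : DifferentiableAt ℂ (fun b => z0 + R' (e.symm b)) b :=
      (differentiableAt_const _).add
        (R'.differentiableAt.comp b (hes b hb).differentiableAt)
    refine ⟨⟨?_, i, (A.e i).map_target hbt, ?_⟩, ?_⟩
    · exact ContinuousAt.comp (f := fun b => z0 + R' (e.symm b))
        ((A.e i).continuousAt_symm hbt) hd.continuousAt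
    · refine hd.congr_of_eventuallyEq ?_
      filter_upwards [hd.continuousAt ((A.e i).open_target.mem_nhds hbt)] with b' hb'
      exact (A.e i).right_inv hb'
    · have h5 := e.right_inv hb
      rw [heh] at h5
      exact h5

/-! ### the map `Ψ` -/

variable {V : Fin g → HVF A} {y : M → F}

/-- the fibres of `y` are preserved -/
theorem y_flow (h : Lio A V y) (Fl : MFlow V) (c : Fin g → ℂ) (x : M) : y (Fl.Φ c x) = y x := by
  have := Fl.map_add y (fun _ => (0 : F)) (fun k x => ?_) c x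
  · simpa using this
  · obtain ⟨i, hi⟩ := A.cover (Fl.Φ (Pi.single k 0) x)
    have h1 := hasDerivAt_comp h.hol (Fl.int k x 0) hi
    rwa [h.tan k i _ hi] at h1

/-- `Ψ (c, b) = Φ_c (s b)` -/
def Psi (Fl : MFlow V) (s : F → M) (q : (Fin g → ℂ) × F) : M := Fl.Φ q.1 (s q.2)

theorem psi_hol (Fl : MFlow V) {s : F → M} {c : Fin g → ℂ} {b : F} (hs : HolC A s b) :
    HolC A (Psi Fl s) (c, b) := HolP.holC (Fl.hol c (s b)) hs

theorem psi_int (Fl : MFlow V) (s : F → M) (c : Fin g → ℂ) (b : F) (k : Fin g) (t : ℂ) :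
    IntAt (V k) (fun t => Psi Fl s (c + Pi.single k t, b)) t := by
  have h1 := Fl.int k (Fl.Φ c (s b)) t
  refine h1.congr (Eventually.of_forall fun u => ?_)
  simp only [Psi]
  rw [← Fl.add, add_comm]

/-- the derivative of `Ψ` in a chart is injective at regular points -/
theorem psi_inj (h : Lio A V y) (Fl : MFlow V) {s : F → M} {W : Set F} (hW : IsOpen W)
    (hs : ∀ b ∈ W, HolC A s b ∧ y (s b) = b) {c : Fin g → ℂ} {b : F} (hb : b ∈ W)
    (hr : RegAt V y (Psi Fl s (c, b))) {j : A.ι} (hj : Psi Fl s (c, b) ∈ (A.e j).source) :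
    Injective (fderiv ℂ (fun q => A.e j (Psi Fl s q)) (c, b)) := by
  obtain ⟨hli, -⟩ := RegAt.all h.hol hr hj
  have hhol := psi_hol (A := A) Fl (c := c) (hs b hb).1
  set D := fderiv ℂ (fun q => A.e j (Psi Fl s q)) (c, b) with hD
  -- `y ∘ Ψ = snd`
  have hy1 : ∀ v, fderiv ℂ (fun z => y ((A.e j).symm z)) (A.e j (Psi Fl s (c, b))) (D v) = v.2 := by
    intro v
    rw [← hhol.fderiv_comp h.hol hj v]
    have : (fun q => y (Psi Fl s q)) =ᶠ[𝓝 (c, b)] Prod.snd := by
      have : ∀ᶠ q : (Fin g → ℂ) × F in 𝓝 (c, b), q.2 ∈ W :=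
        continuousAt_snd (hW.mem_nhds hb)
      filter_upwards [this] with q hq
      rw [Psi, y_flow h, (hs _ hq).2]
    rw [this.fderiv_eq, fderiv_snd]
    rfl
  -- `D (e_k, 0) = V_k`
  have hV : ∀ k, D (Pi.single k 1, 0) = (V k).X j (Psi Fl s (c, b)) := by
    intro k
    have h1 := (psi_int Fl s c b k 0).chart (j := j) (by simpa using hj)
    have h2 : HasDerivAt (fun t : ℂ => ((c + Pi.single k t, b) : (Fin g → ℂ) × F))
        (Pi.single k 1, 0) 0 := by
      have e1 : (fun t : ℂ => ((c + Pi.single k t, b) : (Fin g → ℂ) × F)) =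
          fun t => (c, b) + t • ((Pi.single k 1, 0) : (Fin g → ℂ) × F) := by
        funext t
        ext1
        · simp only [Prod.fst_add, Prod.smul_mk, ← Pi.single_smul, smul_eq_mul, mul_one]
        · simp
      rw [e1]
      simpa using ((hasDerivAt_id (0 : ℂ)).smul_const
        ((Pi.single k 1, 0) : (Fin g → ℂ) × F)).const_add (c, b)
    have h3 : HasFDerivAt (fun q => A.e j (Psi Fl s q)) D
        ((fun t : ℂ => ((c + Pi.single k t, b) : (Fin g → ℂ) × F)) 0) := by
      simp only [Pi.single_zero, add_zero]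
      exact (hhol.chart hj).hasFDerivAt
    have h4 := h3.comp_hasDerivAt (0 : ℂ) h2
    have h5 := h4.unique h1
    simpa using h5
  rw [injective_iff_map_eq_zero]
  intro v hv
  have h2 : v.2 = 0 := by rw [← hy1 v, hv, map_zero]
  have h3 : v = ∑ k, v.1 k • ((Pi.single k 1, 0) : (Fin g → ℂ) × F) := by
    ext1
    · rw [Prod.fst_sum]
      funext l
      simp [Finset.sum_apply, Pi.single_apply]
    · rw [Prod.snd_sum]
      simp [h2]
  have h4 : ∑ k, v.1 k • (V k).X j (Psi Fl s (c, b)) = 0 := by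
    rw [h3, map_sum] at hv
    simp only [map_smul, hV] at hv
    exact hv
  have h5 := Fintype.linearIndependent_iff.1 hli v.1 h4
  ext1
  · funext k; exact h5 k
  · exact h2

/-- **`Ψ` is a local biholomorphism** -/
theorem psi_loc (h : Lio A V y) (Fl : MFlow V) {s : F → M} {W : Set F} (hW : IsOpen W)
    (hs : ∀ b ∈ W, HolC A s b ∧ y (s b) = b) {c : Fin g → ℂ} {b : F} (hb : b ∈ W)
    (hr : RegAt V y (Psi Fl s (c, b))) {j : A.ι} (hj : Psi Fl s (c, b) ∈ (A.e j).source) :
    ∃ e : OpenPartialHomeomorph ((Fin g → ℂ) × F) (Cn N), (c, b) ∈ e.source ∧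
      (∀ q ∈ e.source, q.2 ∈ W ∧ Psi Fl s q ∈ (A.e j).source) ∧
      (∀ q, e q = A.e j (Psi Fl s q)) ∧
      AnalyticOnNhd ℂ e e.source ∧ AnalyticOnNhd ℂ e.symm e.target := by
  have hinj := psi_inj h Fl hW hs hb hr hj
  have hev : ∀ᶠ q : (Fin g → ℂ) × F in 𝓝 (c, b), HolC A (Psi Fl s) q := by
    have : ∀ᶠ q : (Fin g → ℂ) × F in 𝓝 (c, b), q.2 ∈ W := continuousAt_snd (hW.mem_nhds hb)
    filter_upwards [this] with q hq
    exact psi_hol Fl (hs _ hq).1
  have han := analyticAt_of_holC hev hj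
  have hfr : Module.finrank ℂ ((Fin g → ℂ) × F) = Module.finrank ℂ (Cn N) := by
    rw [Module.finrank_prod, Module.finrank_fin_fun, finrank_euclideanSpace_fin]
    exact h.dim
  set D := fderiv ℂ (fun q => A.e j (Psi Fl s q)) (c, b) with hD
  set L : ((Fin g → ℂ) × F) ≃L[ℂ] Cn N :=
    (LinearEquiv.ofInjectiveOfFinrankEq D.toLinearMap hinj hfr).toContinuousLinearEquiv with hL
  have hLD : (L : ((Fin g → ℂ) × F) →L[ℂ] Cn N) = D := ContinuousLinearMap.ext fun v => rfl
  have hU : {q : (Fin g → ℂ) × F | q.2 ∈ W ∧ Psi Fl s q ∈ (A.e j).source} ∈ 𝓝 (c, b) := by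
    have h1 : ∀ᶠ q : (Fin g → ℂ) × F in 𝓝 (c, b), q.2 ∈ W := continuousAt_snd (hW.mem_nhds hb)
    exact h1.and (hev.self_of_nhds.cont ((A.e j).open_source.mem_nhds hj))
  obtain ⟨e, h1, h2, h3, h4, h5⟩ :=
    Crest.Agent.R266.SCV.exists_analytic_openPartialHomeomorph han L
      (by rw [hLD]; exact han.differentiableAt.hasFDerivAt) hU
  exact ⟨e, h1, h2, h3, h4, h5⟩

end

end Crest.Agent.R281.Aa3_836
end

-- ▼ part R281/Aa4_836
section

/-!
# R281 (S0424), S6-AA (helper836), file 4: orbits of the action of `ℂ^g` on a tube with compact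
fibres, period lattices, holomorphic period bases.
-/

set_option autoImplicit false
set_option linter.unusedSectionVars false

open Set Metric Filter Topology Complex Function TopologicalSpace
open scoped NNReal ContDiff

namespace Crest.Agent.R281.Aa4_836

open Crest.Agent.R275.Geo Crest.Agent.R273.HFlow3_376 Crest.Agent.R273.HFlow4_376
open Crest.Agent.R273.HFlow5_376 Crest.Agent.R273.HFlow6_376
open Crest.Agent.R281.Aa1_836 Crest.Agent.R281.Aa2_836 Crest.Agent.R281.Aa3_836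

noncomputable section

/-! ### lattices -/

theorem exists_lat_basis {E : Type} [NormedAddCommGroup E] [NormedSpace ℝ E]
    [FiniteDimensional ℝ E] (L : AddSubgroup E) {r R : ℝ} (hr : 0 < r)
    (hd : ∀ c ∈ L, ‖c‖ < r → c = 0) (hR : ∀ x : E, ∃ l ∈ L, ‖x - l‖ ≤ R) :
    ∃ b : Module.Basis (Fin (Module.finrank ℝ E)) ℝ E,
      ∀ x, x ∈ L ↔ ∃ m : Fin (Module.finrank ℝ E) → ℤ, x = ∑ i, m i • b i := by
  set L' : Submodule ℤ E := AddSubgroup.toIntSubmodule L with hL'
  have hmem : ∀ x, x ∈ L' ↔ x ∈ L := fun x => Iff.rfl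
  have hdisc : DiscreteTopology L' := by
    refine DiscreteTopology.of_forall_le_dist hr fun x x' hne => ?_
    by_contra hlt
    push Not at hlt
    apply hne
    apply Subtype.ext
    have h1 : (x : E) - x' ∈ L := L.sub_mem ((hmem _).1 x.2) ((hmem _).1 x'.2)
    have h2 := hd _ h1 (by rw [← dist_eq_norm]; exact hlt)
    exact sub_eq_zero.1 h2
  have hspan : Submodule.span ℝ (L' : Set E) = ⊤ := by
    by_contra hne
    set S := Submodule.span ℝ (L' : Set E) with hS
    obtain ⟨v, hv⟩ : ∃ v, v ∉ S := by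
      by_contra h
      push Not at h
      exact hne (Submodule.eq_top_iff'.2 h)
    have hcl : IsClosed (S : Set E) := S.closed_of_finiteDimensional
    have hdpos : 0 < infDist v (S : Set E) := by
      rw [← hcl.notMem_iff_infDist_pos ⟨0, S.zero_mem⟩]
      exact hv
    obtain ⟨t, ht⟩ := exists_nat_gt (R / infDist v (S : Set E))
    have hR0 : 0 ≤ R := by
      obtain ⟨l, _, hl⟩ := hR 0
      exact (norm_nonneg _).trans hl
    have ht0 : (0 : ℝ) < t := lt_of_le_of_lt (div_nonneg hR0 hdpos.le) ht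
    obtain ⟨l, hl, hlR⟩ := hR ((t : ℝ) • v)
    have h1 : (t : ℝ)⁻¹ • l ∈ (S : Set E) := S.smul_mem _ (Submodule.subset_span hl)
    have h2 := infDist_le_dist_of_mem (x := v) h1
    have h3 : dist v ((t : ℝ)⁻¹ • l) = (t : ℝ)⁻¹ * ‖(t : ℝ) • v - l‖ := by
      rw [dist_eq_norm, ← abs_of_pos (inv_pos.2 ht0), ← Real.norm_eq_abs, ← norm_smul, smul_sub,
        smul_smul, inv_mul_cancel₀ ht0.ne', one_smul]
      simp only [Real.norm_eq_abs, abs_of_pos (inv_pos.2 ht0)]
    rw [h3] at h2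
    have h4 : (t : ℝ)⁻¹ * ‖(t : ℝ) • v - l‖ ≤ (t : ℝ)⁻¹ * R :=
      mul_le_mul_of_nonneg_left hlR (inv_pos.2 ht0).le
    have h5 : infDist v (S : Set E) * t ≤ R := by
      have := mul_le_mul_of_nonneg_right (h2.trans h4) ht0.le
      rwa [mul_comm (t : ℝ)⁻¹ R, mul_assoc, inv_mul_cancel₀ ht0.ne', mul_one] at this
    rw [div_lt_iff₀ hdpos] at ht
    linarith [mul_comm (infDist v (S : Set E)) (t : ℝ)]
  have hlat : IsZLattice ℝ L' := ⟨hspan⟩
  have hfree : Module.Free ℤ L' := ZLattice.module_free ℝ L'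
  have hfin : Module.Finite ℤ L' := ZLattice.module_finite ℝ L'
  have hrank : Module.finrank ℤ L' = Module.finrank ℝ E := ZLattice.rank ℝ L'
  set b0 : Module.Basis (Fin (Module.finrank ℝ E)) ℤ L' := Module.finBasisOfFinrankEq ℤ L' hrank
  refine ⟨b0.ofZLatticeBasis ℝ L', fun x => ?_⟩
  have hx := SetLike.ext_iff.1 (b0.ofZLatticeBasis_span ℝ L') x
  rw [← hmem, ← hx, Submodule.mem_span_range_iff_exists_fun]
  constructor
  · rintro ⟨c, hc⟩; exact ⟨c, hc.symm⟩
  · rintro ⟨c, hc⟩; exact ⟨c, hc.symm⟩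

/-- rounding -/
theorem exists_round {E : Type} [NormedAddCommGroup E] [NormedSpace ℝ E]
    [FiniteDimensional ℝ E] {ι : Type} [Fintype ι] (l : ι → E) (hl : LinearIndependent ℝ l)
    (hc : Fintype.card ι = Module.finrank ℝ E) (x : E) :
    ∃ m : ι → ℤ, ‖x - ∑ i, m i • l i‖ ≤ ∑ i, ‖l i‖ := by
  classical
  by_cases hE : Nonempty ι
  · set b := basisOfLinearIndependentOfCardEqFinrank hl hc with hb
    have hbl : ∀ i, b i = l i := fun i => by
      rw [hb, coe_basisOfLinearIndependentOfCardEqFinrank]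
    refine ⟨fun i => ⌊b.repr x i⌋, ?_⟩
    have h1 : x - ∑ i, ⌊b.repr x i⌋ • l i = ∑ i, Int.fract (b.repr x i) • l i := by
      conv_lhs => rw [← b.sum_repr x]
      rw [← Finset.sum_sub_distrib]
      refine Finset.sum_congr rfl fun i _ => ?_
      rw [hbl, ← Int.cast_smul_eq_zsmul ℝ, ← sub_smul, b.sum_repr x]
      rfl
    rw [h1]
    refine (norm_sum_le _ _).trans (Finset.sum_le_sum fun i _ => ?_)
    rw [norm_smul, Real.norm_eq_abs, abs_of_nonneg (Int.fract_nonneg _)]
    exact mul_le_of_le_one_left (norm_nonneg _) (Int.fract_lt_one _).le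
  · rw [not_nonempty_iff] at hE
    rw [Fintype.card_eq_zero] at hc
    have : Subsingleton E := Module.finrank_zero_iff.1 hc.symm
    refine ⟨fun _ => 0, ?_⟩
    rw [Subsingleton.elim (x - ∑ i, (0 : ℤ) • l i) 0, norm_zero]
    exact Finset.sum_nonneg fun i _ => norm_nonneg _

variable {N g : ℕ} {M : Type} [TopologicalSpace M] {A : Atl N M}
  {F : Type} [NormedAddCommGroup F] [NormedSpace ℂ F] [FiniteDimensional ℂ F]
  {V : Fin g → HVF A} {y : M → F} {b0 : F}

/-- proper tube around a compact connected fibre -/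
structure TubH (A : Atl N M) (V : Fin g → HVF A) (y : M → F) (b0 : F) : Prop where
  lio : Lio A V y
  reg : ∀ x, RegAt V y x
  cpt : IsCompact {x | y x = b0}
  conn : IsPreconnected {x | y x = b0}
  prop : ∀ O, IsOpen O → {x | y x = b0} ⊆ O → ∃ δ > 0, ∀ x, dist (y x) b0 < δ → x ∈ O

/-- `Ψ` is open -/
theorem psi_nhds (h : Lio A V y) (hreg : ∀ x, RegAt V y x) (Fl : MFlow V) {s : F → M} {W : Set F}
    (hW : IsOpen W) (hs : ∀ b ∈ W, HolC A s b ∧ y (s b) = b) {c : Fin g → ℂ} {b : F} (hb : b ∈ W)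
    {U : Set ((Fin g → ℂ) × F)} (hU : U ∈ 𝓝 (c, b)) :
    ∀ᶠ p in 𝓝 (Psi Fl s (c, b)), ∃ q ∈ U, q.2 ∈ W ∧ Psi Fl s q = p := by
  obtain ⟨j, hj⟩ := A.cover (Psi Fl s (c, b))
  obtain ⟨e, he0, he1, he2, -, -⟩ := psi_loc h Fl hW hs hb (hreg _) hj
  have ht : A.e j (Psi Fl s (c, b)) ∈ e.target := by rw [← he2]; exact e.map_source he0
  have hc : ContinuousAt (fun p => e.symm (A.e j p)) (Psi Fl s (c, b)) :=
    ContinuousAt.comp (g := e.symm) (f := fun p => A.e j p) (e.continuousAt_symm ht)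
      ((A.e j).continuousAt hj)
  have hv : e.symm (A.e j (Psi Fl s (c, b))) = (c, b) := by rw [← he2, e.left_inv he0]
  have h1 : ∀ᶠ p in 𝓝 (Psi Fl s (c, b)), e.symm (A.e j p) ∈ U := hc (by
    change U ∈ 𝓝 (e.symm (A.e j (Psi Fl s (c, b))))
    rw [hv]; exact hU)
  have h2 : ∀ᶠ p in 𝓝 (Psi Fl s (c, b)), A.e j p ∈ e.target :=
    ((A.e j).continuousAt hj) (e.open_target.mem_nhds ht)
  filter_upwards [h1, h2, (A.e j).open_source.mem_nhds hj] with p hp1 hp2 hp3
  have hsrc := e.map_target hp2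
  refine ⟨_, hp1, (he1 _ hsrc).1, ?_⟩
  refine (A.e j).injOn (he1 _ hsrc).2 hp3 ?_
  rw [← he2, e.right_inv hp2]

/-- `Ψ` is locally injective -/
theorem psi_injOn (h : Lio A V y) (hreg : ∀ x, RegAt V y x) (Fl : MFlow V) {s : F → M} {W : Set F}
    (hW : IsOpen W) (hs : ∀ b ∈ W, HolC A s b ∧ y (s b) = b) (c : Fin g → ℂ) {b : F}
    (hb : b ∈ W) : ∃ U ∈ 𝓝 (c, b), InjOn (Psi Fl s) U := by
  obtain ⟨j, hj⟩ := A.cover (Psi Fl s (c, b))
  obtain ⟨e, he0, -, he2, -, -⟩ := psi_loc h Fl hW hs hb (hreg _) hj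
  refine ⟨e.source, e.open_source.mem_nhds he0, fun q hq q' hq' heq => ?_⟩
  refine e.injOn hq hq' ?_
  rw [he2, he2, heq]

/-- orbits are open in the fibres -/
theorem orbit_nhds (h : Lio A V y) (hreg : ∀ x, RegAt V y x) (Fl : MFlow V) (x : M) :
    ∀ᶠ p in 𝓝 x, y p = y x → ∃ c, Fl.Φ c x = p := by
  obtain ⟨i, hi, -, hsur⟩ := hreg x
  obtain ⟨s, W, hW, hxW, hsx, hs⟩ := exists_slice h.hol hi hsur
  have h1 := psi_nhds h hreg Fl hW hs (c := 0) hxW univ_mem
  have e1 : Psi Fl s (0, y x) = x := by simp only [Psi, hsx, Fl.zero]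
  rw [e1] at h1
  filter_upwards [h1] with p hp hy
  obtain ⟨q, -, hqW, hq⟩ := hp
  have h2 : q.2 = y x := by
    rw [← hy, ← hq, Psi, y_flow h, (hs _ hqW).2]
  refine ⟨q.1, ?_⟩
  rw [← hq, Psi, h2, hsx]

theorem one_orbit (H : TubH A V y b0) (Fl : MFlow V) {x x' : M} (hx : y x = b0) (hx' : y x' = b0) :
    ∃ c, Fl.Φ c x = x' := by
  set P : M → Prop := fun p => ∃ c, Fl.Φ c x = p with hP
  set u : Set M := interior {p | y p = b0 → P p} with hu
  set v : Set M := interior {p | y p = b0 → ¬ P p} with hv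
  have h1 : {p | y p = b0} ⊆ u ∪ v := by
    intro p hp
    have hp' : y p = b0 := hp
    have h2 := orbit_nhds H.lio H.reg Fl p
    by_cases hPp : P p
    · left
      rw [hu, mem_interior_iff_mem_nhds]
      filter_upwards [h2] with q hq hyq
      obtain ⟨c, hc⟩ := hq (hyq.trans hp'.symm)
      obtain ⟨d, hd⟩ := hPp
      exact ⟨c + d, by rw [Fl.add, hd, hc]⟩
    · right
      rw [hv, mem_interior_iff_mem_nhds]
      filter_upwards [h2] with q hq hyq hPq
      obtain ⟨c, hc⟩ := hq (hyq.trans hp'.symm)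
      obtain ⟨d, hd⟩ := hPq
      exact hPp ⟨-c + d, by rw [Fl.add, hd, ← hc, Fl.neg_left]⟩
  have h2 : {p | y p = b0} ∩ (u ∩ v) = ∅ := by
    rw [Set.eq_empty_iff_forall_notMem]
    rintro p ⟨hp, hpu, hpv⟩
    exact interior_subset hpv hp (interior_subset hpu hp)
  rcases isPreconnected_iff_subset_of_disjoint.1 H.conn u v isOpen_interior isOpen_interior h1 h2
    with h3 | h3
  · exact interior_subset (h3 hx') hx'
  · exact absurd ⟨0, Fl.zero x⟩ (interior_subset (h3 hx) hx)

/-- the fibres near `b0` are covered by a bounded part of `ℂ^g` -/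
theorem exists_cover (H : TubH A V y b0) (Fl : MFlow V) {s : F → M} {W : Set F}
    (hW : IsOpen W) (hs : ∀ b ∈ W, HolC A s b ∧ y (s b) = b) (hb : b0 ∈ W) :
    ∃ R : ℝ, ∃ δ > 0, ball b0 δ ⊆ W ∧ ∀ x, dist (y x) b0 < δ →
      ∃ c, ‖c‖ < R ∧ Fl.Φ c (s (y x)) = x := by
  set O : ℕ → Set M := fun k => {p | ∃ q : (Fin g → ℂ) × F, ‖q.1‖ < k ∧ q.2 ∈ W ∧ Psi Fl s q = p}
    with hO
  have hOo : ∀ k, IsOpen (O k) := by
    intro k
    rw [isOpen_iff_mem_nhds]
    rintro _ ⟨q, hq1, hq2, rfl⟩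
    have hU : {q : (Fin g → ℂ) × F | ‖q.1‖ < k} ∈ 𝓝 (q.1, q.2) :=
      (isOpen_lt (continuous_norm.comp continuous_fst) continuous_const).mem_nhds hq1
    filter_upwards [psi_nhds H.lio H.reg Fl hW hs (c := q.1) hq2 hU] with p hp
    obtain ⟨q', h1, h2, h3⟩ := hp
    exact ⟨q', h1, h2, h3⟩
  have hx0 : y (s b0) = b0 := (hs b0 hb).2
  have hcov : {x | y x = b0} ⊆ ⋃ k, O k := by
    intro x hx
    obtain ⟨c, hc⟩ := one_orbit H Fl hx0 hx
    obtain ⟨k, hk⟩ := exists_nat_gt ‖c‖
    exact mem_iUnion.2 ⟨k, (c, b0), hk, hb, hc⟩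
  have hmono : Monotone O := by
    rintro k k' hkk p ⟨q, h1, h2, h3⟩
    exact ⟨q, h1.trans_le (by exact_mod_cast hkk), h2, h3⟩
  obtain ⟨k, hk⟩ := H.cpt.elim_directed_cover O hOo hcov hmono.directed_le
  obtain ⟨δ, hδ, hδO⟩ := H.prop (O k) (hOo k) hk
  obtain ⟨δ', hδ', hδW⟩ := Metric.isOpen_iff.1 hW b0 hb
  refine ⟨k, min δ δ', lt_min hδ hδ', (ball_subset_ball (min_le_right _ _)).trans hδW, ?_⟩
  intro x hx
  obtain ⟨q, h1, h2, h3⟩ := hδO x (hx.trans_le (min_le_left _ _))
  have h4 : y x = q.2 := by rw [← h3, Psi, y_flow H.lio, (hs _ h2).2]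
  exact ⟨q.1, h1, by rw [h4]; exact h3⟩

/-- the period group -/
def Lam (Fl : MFlow V) (x : M) : AddSubgroup (Fin g → ℂ) where
  carrier := {c | Fl.Φ c x = x}
  zero_mem' := Fl.zero x
  add_mem' {c d} hc hd := by
    rw [mem_ofPred_eq] at *
    rw [Fl.add, hd, hc]
  neg_mem' {c} hc := by
    rw [mem_ofPred_eq] at *
    conv_lhs => rw [← hc]
    rw [Fl.neg_left]

theorem mem_Lam {Fl : MFlow V} {x : M} {c : Fin g → ℂ} : c ∈ Lam Fl x ↔ Fl.Φ c x = x := Iff.rfl


/-- local discreteness, uniform -/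
theorem exists_disc [T2Space M] (h : Lio A V y) (hreg : ∀ x, RegAt V y x) (Fl : MFlow V)
    {s : F → M} {W : Set F}
    (hW : IsOpen W) (hs : ∀ b ∈ W, HolC A s b ∧ y (s b) = b) (hb : b0 ∈ W) :
    ∃ r > 0, ∀ᶠ b in 𝓝 b0, ∀ c ∈ Lam Fl (s b), ‖c‖ < r → c = 0 := by
  obtain ⟨U, hU, hinj⟩ := psi_injOn h hreg Fl hW hs 0 hb
  obtain ⟨r, hr, hsub⟩ := Metric.mem_nhds_iff.1 hU
  refine ⟨r, hr, ?_⟩
  filter_upwards [ball_mem_nhds b0 hr] with b hb' c hc hcr
  have h1 : (c, b) ∈ ball ((0 : Fin g → ℂ), b0) r := by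
    rw [mem_ball, Prod.dist_eq, max_lt_iff]
    exact ⟨by simpa using hcr, hb'⟩
  have h2 : ((0 : Fin g → ℂ), b) ∈ ball ((0 : Fin g → ℂ), b0) r := by
    rw [mem_ball, Prod.dist_eq, max_lt_iff]
    exact ⟨by simpa using hr, hb'⟩
  have h3 := hinj (hsub h1) (hsub h2) (by
    simp only [Psi, Fl.zero]
    exact hc)
  exact (Prod.mk.inj h3).1

/-- holomorphic continuation of one period -/
theorem exists_per (h : Lio A V y) (hreg : ∀ x, RegAt V y x) (Fl : MFlow V)
    {s : F → M} {W : Set F}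
    (hW : IsOpen W) (hs : ∀ b ∈ W, HolC A s b ∧ y (s b) = b) (hb : b0 ∈ W)
    {c : Fin g → ℂ} (hc : c ∈ Lam Fl (s b0)) :
    ∃ l : F → (Fin g → ℂ), l b0 = c ∧ ∀ᶠ b in 𝓝 b0, DifferentiableAt ℂ l b ∧
      l b ∈ Lam Fl (s b) := by
  obtain ⟨j, hj⟩ := A.cover (s b0)
  have hP0 : Psi Fl s (c, b0) = s b0 := hc
  obtain ⟨e, he0, he1, he2, -, he4⟩ := psi_loc h Fl hW hs (c := c) hb (hreg _)
    (j := j) (by rw [hP0]; exact hj)
  have ht : A.e j (s b0) ∈ e.target := by rw [← hP0, ← he2]; exact e.map_source he0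
  have hv : e.symm (A.e j (s b0)) = (c, b0) := by rw [← hP0, ← he2, e.left_inv he0]
  refine ⟨fun b => (e.symm (A.e j (s b))).1, by
    change (e.symm (A.e j (s b0))).1 = c
    rw [hv], ?_⟩
  have hsc : ContinuousAt s b0 := (hs b0 hb).1.cont
  have h1 : ∀ᶠ b in 𝓝 b0, s b ∈ (A.e j).source := hsc ((A.e j).open_source.mem_nhds hj)
  have h2 : ∀ᶠ b in 𝓝 b0, A.e j (s b) ∈ e.target :=
    (ContinuousAt.comp (g := A.e j) ((A.e j).continuousAt hj) hsc) (e.open_target.mem_nhds ht)
  filter_upwards [h1, h2, hW.mem_nhds hb] with b hb1 hb2 hb3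
  have hsrc := e.map_target hb2
  have heq : Psi Fl s (e.symm (A.e j (s b))) = s b := by
    refine (A.e j).injOn (he1 _ hsrc).2 hb1 ?_
    rw [← he2, e.right_inv hb2]
  have h5 : (e.symm (A.e j (s b))).2 = b := by
    have h6 : y (Psi Fl s (e.symm (A.e j (s b)))) = (e.symm (A.e j (s b))).2 := by
      rw [Psi, y_flow h, (hs _ (he1 _ hsrc).1).2]
    rw [← h6, heq, (hs b hb3).2]
  refine ⟨?_, ?_⟩
  · have h7 : DifferentiableAt ℂ (fun b => e.symm (A.e j (s b))) b :=
      (he4 _ hb2).differentiableAt.comp b ((hs b hb3).1.chart hb1)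
    exact h7.fst
  · rw [mem_Lam]
    have h8 := heq
    rw [Psi, h5] at h8
    exact h8

/-- **holomorphic period basis** -/
theorem exists_periods [T2Space M] (H : TubH A V y b0) (Fl : MFlow V) {s : F → M} {W : Set F}
    (hW : IsOpen W) (hs : ∀ b ∈ W, HolC A s b ∧ y (s b) = b) (hb : b0 ∈ W) :
    ∃ (R δ : ℝ) (l : Fin (2 * g) → F → (Fin g → ℂ)), 0 < δ ∧ ball b0 δ ⊆ W ∧
      (∀ x, y x ∈ ball b0 δ → ∃ c, ‖c‖ < R ∧ Fl.Φ c (s (y x)) = x) ∧
      (∀ i, DifferentiableOn ℂ (l i) (ball b0 δ)) ∧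
      (∀ b ∈ ball b0 δ, LinearIndependent ℝ (fun i => l i b)) ∧
      ∀ b ∈ ball b0 δ, ∀ c, Fl.Φ c (s b) = s b ↔ ∃ m : Fin (2 * g) → ℤ, c = ∑ i, m i • l i b := by
  classical
  obtain ⟨R, δ1, hδ1, hδW, hcov⟩ := exists_cover H Fl hW hs hb
  obtain ⟨r, hr, hdisc⟩ := exists_disc H.lio H.reg Fl hW hs hb
  have hb0 : dist (y (s b0)) b0 < δ1 := by rw [(hs b0 hb).2, dist_self]; exact hδ1
  -- the lattice at `b0`
  have hfr : Module.finrank ℝ (Fin g → ℂ) = 2 * g := by
    rw [finrank_real_of_complex, Module.finrank_fin_fun]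
  obtain ⟨B, hB⟩ : ∃ B : Module.Basis (Fin (2 * g)) ℝ (Fin g → ℂ),
      ∀ x, x ∈ Lam Fl (s b0) ↔ ∃ m : Fin (2 * g) → ℤ, x = ∑ i, m i • B i := by
    obtain ⟨B, hB⟩ := exists_lat_basis (Lam Fl (s b0)) hr hdisc.self_of_nhds (R := R) (by
      intro c
      have h1 : y (Fl.Φ c (s b0)) = b0 := by rw [y_flow H.lio, (hs b0 hb).2]
      obtain ⟨d, hd, hdc⟩ := hcov (Fl.Φ c (s b0)) (by rw [h1, dist_self]; exact hδ1)
      rw [h1] at hdc
      refine ⟨c - d, ?_, ?_⟩
      · rw [mem_Lam, sub_eq_neg_add, Fl.add, ← hdc, Fl.neg_left]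
      · rw [sub_sub_cancel]; exact hd.le)
    refine ⟨B.reindex (finCongr hfr), fun x => ?_⟩
    rw [hB]
    constructor
    · rintro ⟨m, hm⟩
      refine ⟨fun i => m ((finCongr hfr).symm i), ?_⟩
      rw [hm]
      exact Fintype.sum_equiv (finCongr hfr) _ _ fun i => by simp
    · rintro ⟨m, hm⟩
      refine ⟨fun i => m (finCongr hfr i), ?_⟩
      rw [hm]
      exact (Fintype.sum_equiv (finCongr hfr) _ _ fun i => by simp).symm
  have hBm : ∀ i, B i ∈ Lam Fl (s b0) := fun i => (hB _).2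
    ⟨Pi.single i 1, by simp [Pi.single_apply, ite_smul]⟩
  choose l hl0 hl using fun i => exists_per H.lio H.reg Fl hW hs hb (hBm i)
  have hlall : ∀ᶠ b in 𝓝 b0, ∀ i, DifferentiableAt ℂ (l i) b ∧ l i b ∈ Lam Fl (s b) :=
    eventually_all.2 hl
  have hlc : ContinuousAt (fun b i => l i b) b0 :=
    continuousAt_pi.2 fun i => (hl i).self_of_nhds.1.continuousAt
  have hli : ∀ᶠ b in 𝓝 b0, LinearIndependent ℝ (fun i => l i b) := by
    have h1 : IsOpen {f : Fin (2 * g) → (Fin g → ℂ) | LinearIndependent ℝ f} :=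
      isOpen_setOfPred_linearIndependent
    refine hlc (h1.mem_nhds ?_)
    have : (fun i => l i b0) = B := funext hl0
    change LinearIndependent ℝ (fun i => l i b0)
    rw [this]
    exact B.linearIndependent
  -- bound
  set R' : ℝ := ∑ i, ‖l i b0‖ + 1 with hR'
  have hbd : ∀ᶠ b in 𝓝 b0, ∑ i, ‖l i b‖ ≤ R' := by
    have h1 : ContinuousAt (fun b => ∑ i, ‖l i b‖) b0 :=
      tendsto_finsetSum _ fun i _ => ((hl i).self_of_nhds.1.continuousAt).norm
    filter_upwards [h1.eventually (gt_mem_nhds (lt_add_one (∑ i, ‖l i b0‖)))] with b hb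
    exact hb.le
  have hmem : ∀ᶠ b in 𝓝 b0, ∀ m : Fin (2 * g) → ℤ, ∑ i, m i • l i b ∈ Lam Fl (s b) := by
    filter_upwards [hlall] with b hb m
    exact sum_mem fun i _ => zsmul_mem (hb i).2 _
  have hkey : ∀ᶠ b in 𝓝 b0, ∀ c ∈ closedBall (0 : Fin g → ℂ) R', c ∈ Lam Fl (s b) →
      ∃ m : Fin (2 * g) → ℤ, c = ∑ i, m i • l i b := by
    refine IsCompact.eventually_forall_of_forall_eventually (isCompact_closedBall _ _)
      (P := fun b c => c ∈ Lam Fl (s b) → ∃ m : Fin (2 * g) → ℤ, c = ∑ i, m i • l i b) ?_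
    intro c _
    have hPc : ContinuousAt (fun z : F × (Fin g → ℂ) => Psi Fl s (z.2, z.1)) (b0, c) :=
      ContinuousAt.comp (g := Psi Fl s) (f := fun z : F × (Fin g → ℂ) => (z.2, z.1))
        (psi_hol (A := A) Fl (hs b0 hb).1).cont (by fun_prop)
    have hsc : ContinuousAt (fun z : F × (Fin g → ℂ) => s z.1) (b0, c) :=
      ContinuousAt.comp (g := s) (f := fun z : F × (Fin g → ℂ) => z.1) (hs b0 hb).1.cont
        continuousAt_fst
    by_cases hc : c ∈ Lam Fl (s b0)
    · obtain ⟨m, hm⟩ := (hB c).1 hc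
      obtain ⟨U, hU, hinj⟩ := psi_injOn H.lio H.reg Fl hW hs c hb
      have hμc : ContinuousAt (fun b => ∑ i, m i • l i b) b0 :=
        tendsto_finsetSum _ fun i _ => ((hl i).self_of_nhds.1.continuousAt).const_smul (m i)
      have hμ0 : ∑ i, m i • l i b0 = c := by simp only [hl0, hm]
      have e1 : ∀ᶠ z : F × (Fin g → ℂ) in 𝓝 (b0, c), (z.2, z.1) ∈ U := by
        have : ContinuousAt (fun z : F × (Fin g → ℂ) => (z.2, z.1)) (b0, c) := by fun_prop
        exact this hU
      have e2 : ∀ᶠ z : F × (Fin g → ℂ) in 𝓝 (b0, c), (∑ i, m i • l i z.1, z.1) ∈ U := by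
        have h1 : ContinuousAt (fun z : F × (Fin g → ℂ) => (∑ i, m i • l i z.1, z.1)) (b0, c) :=
          (ContinuousAt.comp (g := fun b => ∑ i, m i • l i b)
            (f := fun z : F × (Fin g → ℂ) => z.1) hμc continuousAt_fst).prodMk continuousAt_fst
        refine h1 ?_
        simp only [hμ0]
        exact hU
      have e3 : ∀ᶠ z : F × (Fin g → ℂ) in 𝓝 (b0, c), ∑ i, m i • l i z.1 ∈ Lam Fl (s z.1) := by
        have h1 : ∀ᶠ b in 𝓝 b0, ∑ i, m i • l i b ∈ Lam Fl (s b) := hmem.mono fun b hb => hb m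
        exact (continuousAt_fst (p := (b0, c))).eventually h1
      filter_upwards [e1, e2, e3] with z h1 h2 h3 h4
      refine ⟨m, ?_⟩
      have h5 := hinj h1 h2 (by
        simp only [Psi]
        rw [mem_Lam.1 h3, mem_Lam.1 h4])
      exact (Prod.mk.inj h5).1
    · have hne : Psi Fl s (c, b0) ≠ s b0 := hc
      have h1 : Tendsto (fun z : F × (Fin g → ℂ) => (Psi Fl s (z.2, z.1), s z.1)) (𝓝 (b0, c))
          (𝓝 (Psi Fl s (c, b0), s b0)) := hPc.prodMk hsc
      have h2 := h1.eventually (isClosed_diagonal.isOpen_compl.mem_nhds hne)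
      filter_upwards [h2] with z hz hzc
      exact absurd hzc hz
  obtain ⟨δ2, hδ2, hall⟩ := Metric.eventually_nhds_iff_ball.1
    (((hlall.and hli).and (hbd.and hmem)).and hkey)
  refine ⟨R, min δ1 δ2, l, lt_min hδ1 hδ2, (ball_subset_ball (min_le_left _ _)).trans hδW,
    fun x hx => hcov x (ball_subset_ball (min_le_left _ _) hx), fun i b hb' => ?_,
    fun b hb' => ?_, fun b hb' c => ?_⟩
  · exact ((hall b (ball_subset_ball (min_le_right _ _) hb')).1.1.1 i).1.differentiableWithinAt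
  · exact (hall b (ball_subset_ball (min_le_right _ _) hb')).1.1.2
  · obtain ⟨⟨⟨h1, h2⟩, h3, h4⟩, h5⟩ := hall b (ball_subset_ball (min_le_right _ _) hb')
    constructor
    · intro hc
      obtain ⟨m, hm⟩ := exists_round (fun i => l i b) h2 (by rw [Fintype.card_fin, hfr]) c
      have h6 : c - ∑ i, m i • l i b ∈ Lam Fl (s b) := (Lam Fl (s b)).sub_mem hc (h4 m)
      obtain ⟨m', hm'⟩ := h5 _ (by
        rw [mem_closedBall, dist_zero_right]
        exact hm.trans h3) h6
      refine ⟨m + m', ?_⟩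
      rw [sub_eq_iff_eq_add] at hm'
      rw [hm', add_comm]
      simp only [Pi.add_apply, add_smul, Finset.sum_add_distrib]
    · rintro ⟨m, rfl⟩
      exact h4 m

end

end Crest.Agent.R281.Aa4_836
end

-- ▼ part R281/Aa5_836

/-!
# R281 (S0424), S6-AA (helper836), file 5: **the action-angle tube** around a compact leaf of a
holomorphic completely integrable system (holomorphic Liouville-Arnold theorem).
-/

set_option autoImplicit false
set_option linter.unusedSectionVars false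

open Set Metric Filter Topology Complex Function TopologicalSpace
open scoped NNReal ContDiff

namespace Crest.Agent.R281.Aa5_836

open Crest.Agent.R275.Geo Crest.Agent.R273.HFlow3_376 Crest.Agent.R273.HFlow4_376
open Crest.Agent.R273.HFlow5_376 Crest.Agent.R273.HFlow6_376
open Crest.Agent.R281.Aa1_836 Crest.Agent.R281.Aa2_836 Crest.Agent.R281.Aa3_836
open Crest.Agent.R281.Aa4_836

noncomputable section

variable {N g : ℕ} {M : Type} [TopologicalSpace M] {A : Atl N M}
  {F : Type} [NormedAddCommGroup F] [NormedSpace ℂ F] [FiniteDimensional ℂ F]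
  {V : Fin g → HVF A} {y : M → F} {b0 : F}

/-! ### regular points are open -/

theorem regAt_ev (h : Lio A V y) {x : M} (hx : RegAt V y x) : ∀ᶠ x' in 𝓝 x, RegAt V y x' := by
  obtain ⟨i, hi, h1, h2⟩ := hx
  have hti := (A.e i).map_source hi
  have hci := (A.e i).continuousAt hi
  have hsrc : ∀ᶠ x' in 𝓝 x, x' ∈ (A.e i).source := (A.e i).open_source.mem_nhds hi
  -- the fields
  have c1 : ContinuousAt (fun x' => fun k => (V k).X i x') x := by
    refine continuousAt_pi.2 fun k => ?_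
    have h3 : ContinuousAt (fun x' => (V k).loc i (A.e i x')) x :=
      ContinuousAt.comp (g := (V k).loc i) (f := A.e i)
        (((V k).hol i).differentiableAt ((A.e i).open_target.mem_nhds hti)).continuousAt hci
    refine h3.congr ?_
    filter_upwards [hsrc] with x' hx'
    exact (V k).loc_e hx'
  have e1 : ∀ᶠ x' in 𝓝 x, LinearIndependent ℂ (fun k => (V k).X i x') :=
    c1 ((isOpen_setOfPred_linearIndependent (𝕜 := ℂ)).mem_nhds h1)
  -- the map
  set f : Cn N → F := fun z => y ((A.e i).symm z) with hf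
  have hfa : AnalyticAt ℂ f (A.e i x) := by
    refine Crest.Agent.R266.SCV.analyticAt_of_eventually_differentiableAt ?_
    filter_upwards [(A.e i).open_target.mem_nhds hti] with z hz
    exact (h.hol i).differentiableAt ((A.e i).open_target.mem_nhds hz)
  obtain ⟨R, hR⟩ := LinearMap.exists_rightInverse_of_surjective
    (fderiv ℂ f (A.e i x)).toLinearMap (LinearMap.range_eq_top.2 h2)
  set R' : F →L[ℂ] Cn N := LinearMap.toContinuousLinearMap R with hR'
  have hLR : (fderiv ℂ f (A.e i x)).comp R' = 1 := by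
    refine ContinuousLinearMap.ext fun v => ?_
    have := congrArg (fun T : F →ₗ[ℂ] F => T v) hR
    simp only [LinearMap.coe_comp, comp_apply, LinearMap.id_coe, id_eq] at this
    exact this
  have c2 : ContinuousAt (fun x' => (fderiv ℂ f (A.e i x')).comp R') x := by
    have h3 : ContinuousAt (fun x' => fderiv ℂ f (A.e i x')) x :=
      ContinuousAt.comp (g := fderiv ℂ f) (f := A.e i) hfa.fderiv.continuousAt hci
    exact h3.clm_comp continuousAt_const
  have e2 : ∀ᶠ x' in 𝓝 x, IsUnit ((fderiv ℂ f (A.e i x')).comp R') :=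
    c2 ((Units.isOpen (R := F →L[ℂ] F)).mem_nhds (by
      change IsUnit ((fderiv ℂ f (A.e i x)).comp R')
      rw [hLR]; exact isUnit_one))
  filter_upwards [hsrc, e1, e2] with x' hx1 hx2 hx3
  refine ⟨i, hx1, hx2, fun w => ?_⟩
  obtain ⟨u, hu⟩ := hx3
  refine ⟨R' (((u⁻¹ : (F →L[ℂ] F)ˣ) : F →L[ℂ] F) w), ?_⟩
  have h3 : ((fderiv ℂ f (A.e i x')).comp R').comp ((u⁻¹ : (F →L[ℂ] F)ˣ) : F →L[ℂ] F) = 1 := by
    rw [← hu]
    exact u.mul_inv
  exact congrArg (fun T : F →L[ℂ] F => T w) h3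

theorem exists_dist_pos {y : M → F} (hy : Continuous y) {C : Set M} (hC : IsCompact C)
    (hne : ∀ x ∈ C, y x ≠ b0) : ∃ δ > 0, ∀ x ∈ C, δ ≤ dist (y x) b0 := by
  rcases C.eq_empty_or_nonempty with rfl | hCn
  · exact ⟨1, one_pos, fun x hx => absurd hx (notMem_empty x)⟩
  · obtain ⟨x0, hx0, hmin⟩ := hC.exists_isMinOn hCn
      ((hy.dist continuous_const).continuousOn (s := C) (f := fun x => dist (y x) b0))
    exact ⟨_, dist_pos.2 (hne x0 hx0), fun x hx => hmin hx⟩

/-! ### from the open subset to the manifold -/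

section Val

variable {U : Opens M}

theorem HolC.val {Q : Type} [NormedAddCommGroup Q] [NormedSpace ℂ Q] {f : Q → U} {q : Q}
    (h : HolC (opA A U) f q) : HolC A (fun q => (f q).1) q := by
  obtain ⟨hc, p, hp, hd⟩ := h
  exact ⟨continuous_subtype_val.continuousAt.comp hc, p.2, opA_source.1 hp, hd⟩

theorem intAt_val {W : HVF A} {γ : ℂ → U} {t : ℂ} (h : IntAt (opV W U) γ t) :
    IntAt W (fun s => (γ s).1) t := by
  obtain ⟨hc, p, hp, hd⟩ := h
  exact ⟨continuous_subtype_val.continuousAt.comp hc, p.2, opA_source.1 hp, hd⟩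

end Val

/-- **the action-angle tube** : `Nb` is an open set of `M`, saturated by compact leaves
`{Ψ (c, b) | c}`, `b ∈ ball b0 ε`, with period lattice spanned by `l i b` -/
structure Tube (A : Atl N M) (V : Fin g → HVF A) (y : M → F) (b0 : F) (ε R : ℝ) (Nb : Set M)
    (Ψ : (Fin g → ℂ) × F → M) (l : Fin (2 * g) → F → (Fin g → ℂ)) : Prop where
  pos : 0 < ε
  isOpen : IsOpen Nb
  mem : ∀ c, ∀ b ∈ ball b0 ε, Ψ (c, b) ∈ Nb
  hol : ∀ c, ∀ b ∈ ball b0 ε, HolC A Ψ (c, b)
  inj : ∀ c, ∀ b ∈ ball b0 ε, ∀ i, Ψ (c, b) ∈ (A.e i).source →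
    Injective (fderiv ℂ (fun q => A.e i (Ψ q)) (c, b))
  nhds : ∀ c, ∀ b ∈ ball b0 ε, ∀ U ∈ 𝓝 (c, b), ∀ᶠ p in 𝓝 (Ψ (c, b)), ∃ q ∈ U, Ψ q = p
  locInj : ∀ c, ∀ b ∈ ball b0 ε, ∃ U ∈ 𝓝 (c, b), InjOn Ψ U
  y_eq : ∀ c, ∀ b ∈ ball b0 ε, y (Ψ (c, b)) = b
  int : ∀ c, ∀ b ∈ ball b0 ε, ∀ k, ∀ u : ℂ, 
    IntAt (V k) (fun w : ℂ => Ψ (c + (Pi.single k w : Fin g → ℂ), b)) u
  cov : ∀ x ∈ Nb, y x ∈ ball b0 ε ∧ ∃ c, ‖c‖ < R ∧ Ψ (c, y x) = x
  lhol : ∀ i, DifferentiableOn ℂ (l i) (ball b0 ε)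
  lli : ∀ b ∈ ball b0 ε, LinearIndependent ℝ (fun i => l i b)
  per : ∀ b ∈ ball b0 ε, ∀ c c', Ψ (c, b) = Ψ (c', b) ↔
    ∃ m : Fin (2 * g) → ℤ, c - c' = ∑ i, m i • l i b

namespace Tube

variable {ε R : ℝ} {Nb : Set M} {Ψ : (Fin g → ℂ) × F → M} {l : Fin (2 * g) → F → (Fin g → ℂ)}
  (t : Tube A V y b0 ε R Nb Ψ l)
include t

theorem contAt (c : Fin g → ℂ) {b : F} (hb : b ∈ ball b0 ε) : ContinuousAt Ψ (c, b) :=
  (t.hol c b hb).cont

theorem cont_fib {b : F} (hb : b ∈ ball b0 ε) : Continuous (fun c => Ψ (c, b)) :=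
  continuous_iff_continuousAt.2 fun c =>
    ContinuousAt.comp (f := fun c => (c, b)) (t.contAt c hb) (by fun_prop)

theorem eq_iff {c c' : Fin g → ℂ} {b b' : F} (hb : b ∈ ball b0 ε) (hb' : b' ∈ ball b0 ε) :
    Ψ (c, b) = Ψ (c', b') ↔ b = b' ∧ ∃ m : Fin (2 * g) → ℤ, c - c' = ∑ i, m i • l i b := by
  constructor
  · intro h
    have h1 : b = b' := by rw [← t.y_eq c b hb, h, t.y_eq c' b' hb']
    subst h1
    exact ⟨rfl, (t.per b hb c c').1 h⟩
  · rintro ⟨rfl, h⟩
    exact (t.per b hb c c').2 h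






theorem isOpen_image {O : Set ((Fin g → ℂ) × F)} (hO : IsOpen O) (hOb : O ⊆ univ ×ˢ ball b0 ε) :
    IsOpen (Ψ '' O) := by
  rw [isOpen_iff_mem_nhds]
  rintro _ ⟨q, hq, rfl⟩
  filter_upwards [t.nhds q.1 q.2 (hOb hq).2 O (hO.mem_nhds hq)] with p hp
  exact hp


end Tube

/-- **the action-angle tube** (holomorphic Liouville-Arnold) around a compact connected `T` which is
open in its fibre and consists of regular points -/
theorem exists_tube [T2Space M] (h : Lio A V y) {x0 : M} {T : Set M} (hx0 : x0 ∈ T)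
    (hT : IsCompact T) (hTc : IsPreconnected T) (hTy : ∀ x ∈ T, y x = y x0) {O : Set M}
    (hO : IsOpen O) (hTO : T ⊆ O) (hOT : ∀ x ∈ O, y x = y x0 → x ∈ T)
    (hreg : ∀ x ∈ T, RegAt V y x) :
    ∃ (ε R : ℝ) (Nb : Set M) (Ψ : (Fin g → ℂ) × F → M) (l : Fin (2 * g) → F → (Fin g → ℂ)),
      Tube A V y (y x0) ε R Nb Ψ l ∧ T ⊆ Nb ∧ Nb ⊆ O ∧ Ψ (0, y x0) = x0 := by
  classical
  have hy := h.hol.continuous
  -- regular neighbourhood
  set O1 : Set M := O ∩ interior {x | RegAt V y x} with hO1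
  have hO1o : IsOpen O1 := hO.inter isOpen_interior
  have hTO1 : T ⊆ O1 := fun x hx => ⟨hTO hx, mem_interior_iff_mem_nhds.2 (regAt_ev h (hreg x hx))⟩
  obtain ⟨K, hK, hTK, hKO, δ, hδ, hKδ⟩ := exists_tub A hy hT hO1o hTO1 (b0 := y x0)
    (fun x hx hyx => hOT x hx.1 hyx)
  set U := tub y hy (y x0) K (δ / 2) with hU
  have hUK : ∀ x ∈ U, x ∈ K := fun x hx => interior_subset (mem_tub.1 hx).1
  have hTU : ∀ x ∈ T, x ∈ U := fun x hx =>
    mem_tub.2 ⟨hTK hx, by rw [hTy x hx, dist_self]; positivity⟩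
  obtain ⟨Fl⟩ := h.exists_mflow hK (half_lt_self hδ) hKδ
  have hfib : ∀ x ∈ K, y x = y x0 → x ∈ T := fun x hx hyx => hOT _ (hKO hx).1 hyx
  have himg : Subtype.val '' {x : U | y x.1 = y x0} = T := by
    apply Subset.antisymm
    · rintro _ ⟨x, hx, rfl⟩
      exact hfib _ (hUK _ x.2) hx
    · exact fun x hx => ⟨⟨x, hTU x hx⟩, hTy x hx, rfl⟩
  have H : TubH (opA A U) (fun k => opV (V k) U) (fun x : U => y x.1) (y x0) :=
    { lio := h.op U
      reg := fun x => RegAt.op (interior_subset (s := {x | RegAt V y x}) (hKO (hUK x.1 x.2)).2)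
      cpt := by
        rw [Subtype.isCompact_iff, himg]
        exact hT
      conn := by
        refine (IsInducing.isPreconnected_image (f := (Subtype.val : U → M))
          IsInducing.subtypeVal).1 ?_
        have h1 := himg
        exact h1.symm ▸ hTc
      prop := by
        intro O' hO' hsub
        have h1 : IsCompact (K \ Subtype.val '' O') :=
          hK.diff (U.isOpen.isOpenMap_subtype_val O' hO')
        obtain ⟨δ', hδ', h2⟩ := exists_dist_pos hy (b0 := y x0) h1 (by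
          rintro x ⟨hxK, hxO⟩ hyx
          have hxT := hfib x hxK hyx
          exact hxO ⟨⟨x, hTU x hxT⟩, hsub hyx, rfl⟩)
        refine ⟨δ', hδ', fun x hx => ?_⟩
        by_contra hxO
        refine absurd (h2 x.1 ⟨hUK _ x.2, ?_⟩) (not_le.2 hx)
        rintro ⟨x', hx', he⟩
        exact hxO (by rwa [← Subtype.ext he]) }
  obtain ⟨i, hi, -, hsur⟩ := H.reg ⟨x0, hTU x0 hx0⟩
  obtain ⟨s, W, hW, hxW, hsx, hs⟩ := exists_slice H.lio.hol hi hsur
  obtain ⟨R, ε, l, hε, hεW, hcov, hlh, hli, hper⟩ := exists_periods H Fl hW hs hxW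
  have hyP : ∀ c, ∀ b ∈ ball (y x0) ε, y (Psi Fl s (c, b)).1 = b := fun c b hb => by
    have h1 := y_flow H.lio Fl c (s b)
    have h2 := (hs b (hεW hb)).2
    exact h1.trans h2
  refine ⟨ε, R, {x | x ∈ U ∧ dist (y x) (y x0) < ε}, fun q => (Psi Fl s q).1, l, ?_, ?_, ?_, ?_⟩
  · refine
      { pos := hε
        isOpen := U.isOpen.inter (isOpen_lt (hy.dist continuous_const) continuous_const)
        mem := fun c b hb => ⟨(Psi Fl s (c, b)).2, by rw [hyP c b hb]; exact hb⟩
        hol := fun c b hb => HolC.val (psi_hol Fl (hs b (hεW hb)).1)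
        inj := fun c b hb i hi => ?_
        nhds := fun c b hb U' hU' => ?_
        locInj := fun c b hb => ?_
        y_eq := hyP
        int := fun c b _ k u => intAt_val (psi_int Fl s c b k u)
        cov := fun x hx => ?_
        lhol := hlh
        lli := hli
        per := fun b hb c c' => ?_ }
    · exact psi_inj H.lio Fl hW hs (hεW hb) (H.reg _) (j := (Psi Fl s (c, b), i))
        (opA_source.2 hi)
    · have h1 := psi_nhds H.lio H.reg Fl hW hs (hεW hb) hU'
      rw [← U.isOpen.isOpenEmbedding_subtypeVal.map_nhds_eq, eventually_map]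
      filter_upwards [h1] with p hp
      obtain ⟨q, hq, -, hqp⟩ := hp
      exact ⟨q, hq, by rw [hqp]⟩
    · obtain ⟨U', hU', hinj⟩ := psi_injOn H.lio H.reg Fl hW hs c (hεW hb)
      exact ⟨U', hU', fun q hq q' hq' he => hinj hq hq' (Subtype.ext he)⟩
    · refine ⟨hx.2, ?_⟩
      obtain ⟨c, hc, hcx⟩ := hcov ⟨x, hx.1⟩ hx.2
      exact ⟨c, hc, congrArg Subtype.val hcx⟩
    · rw [← hper b hb, ← Subtype.ext_iff]
      constructor
      · intro he
        have h1 : Fl.Φ c (s b) = Fl.Φ c' (s b) := he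
        rw [sub_eq_neg_add, Fl.add, h1, Fl.neg_left]
      · intro he
        have h1 := congrArg (Fl.Φ c') he
        rw [← Fl.add, add_sub_cancel] at h1
        exact h1
  · exact fun x hx => ⟨hTU x hx, by rw [hTy x hx, dist_self]; exact hε⟩
  · exact fun x hx => (hKO (hUK _ hx.1)).1
  · change (Fl.Φ 0 (s (y x0))).1 = x0
    have hsx' : s (y x0) = ⟨x0, hTU x0 hx0⟩ := hsx
    rw [Fl.zero, hsx']

end

end Crest.Agent.R281.Aa5_836
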