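import Crest.Agent.R273.NoHVF_376
import Crest.Agent.R273.HolF_578
import Crest.Agent.R281.Defs_273

-- ▼ part R281/HkP1_508
section

/-!
# R281 (S0424), leaf HK-PAR (helper508), part 1: Bochner formula for holomorphic 2-forms

Everything in one chart: `g` Kaehler matrix (`NoHVF_376.GM`), `s` holomorphic matrix of a `(2,0)`
tensor (skew symmetry is not used here).
* `Wm g s`    : `g⁻¹ s (g⁻¹)ᵀ` (indices raised)
* `Dm g s c`  : covariant derivative `∇_c s`;  `dm_Wm : ∂_c W = g⁻¹ (∇_c s) (g⁻¹)ᵀ`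
* `nr2`       : `|s|² = tr (s* W)`
* `hess_nr2`  : `∂_a ∂_{b̄} |s|²`
* `trace_hess_nr2` : for `Ric = 0`: `tr (g⁻¹ ∂∂̄ |s|²) = ∑ γ_{ba} tr ((∇_b s)* γ (∇_a s) γᵀ)`
-/

set_option autoImplicit false
set_option linter.unusedSectionVars false

open Set Filter Topology Complex MeasureTheory
open scoped ContDiff Matrix ComplexConjugate ComplexOrder

namespace Crest.Agent.R281.HkP1_508

open Crest.Agent.R275.Geo Crest.Agent.R275.Core144 Crest.Agent.R275.EDR890
open Crest.Agent.R275.GC293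
open Crest.Agent.R273 Crest.Agent.R273.Hess_333 Crest.Agent.R273.HessB_333
open Crest.Agent.R273.NoHVF_376

noncomputable section

variable {n : ℕ} {g s : Cn n → Matrix (Fin n) (Fin n) ℂ} {U : Set (Cn n)}

/-- holomorphic entries -/
def HolM (s : Cn n → Matrix (Fin n) (Fin n) ℂ) (U : Set (Cn n)) : Prop :=
  ∀ a b, DifferentiableOn ℂ (fun w => s w a b) U

theorem HolM.diffC (hs : HolM s U) (hU : IsOpen U) {z : Cn n} (hz : z ∈ U) (a b : Fin n) :
    DifferentiableAt ℂ (fun w => s w a b) z := (hs a b).differentiableAt (hU.mem_nhds hz)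

theorem HolM.diff (hs : HolM s U) (hU : IsOpen U) {z : Cn n} (hz : z ∈ U) (a b : Fin n) :
    DifferentiableAt ℝ (fun w => s w a b) z := (hs.diffC hU hz a b).restrictScalars ℝ

theorem HolM.smAt (hs : HolM s U) (hU : IsOpen U) {z : Cn n} (hz : z ∈ U) (a b : Fin n) :
    ContDiffAt ℝ ∞ (fun w => s w a b) z :=
  (((Crest.Agent.R266.SCV.contDiffOn_omega_of_differentiableOn hU (hs a b)).of_le le_top).contDiffAt
    (hU.mem_nhds hz)).restrict_scalars ℝ

theorem HolM.dbar (hs : HolM s U) (hU : IsOpen U) {z : Cn n} (hz : z ∈ U) (a : Fin n) :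
    dm (true, a) s z = 0 := by
  ext i b
  exact wd_hol (hs.diffC hU hz i b) a

theorem dm_transpose {κ κ' : Type} (r : WI n) (m : Cn n → Matrix κ κ' ℂ) (z : Cn n) :
    dm r (fun w => (m w)ᵀ) z = (dm r m z)ᵀ := rfl

theorem dm_conjT {κ κ' : Type} (r : WI n) {m : Cn n → Matrix κ κ' ℂ} {z : Cn n}
    (hm : ∀ a b, DifferentiableAt ℝ (fun w => m w a b) z) :
    dm r (fun w => (m w)ᴴ) z = (dm (!r.1, r.2) m z)ᴴ := by
  ext a b
  rw [dm_apply, Matrix.conjTranspose_apply, dm_apply]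
  have := conj_wd (!r.1, r.2) (hm b a)
  rw [Bool.not_not] at this
  exact this.symm

theorem dm_add' {κ κ' : Type} (r : WI n) {p q : Cn n → Matrix κ κ' ℂ} {z : Cn n}
    (hp : ∀ a b, DifferentiableAt ℝ (fun w => p w a b) z)
    (hq : ∀ a b, DifferentiableAt ℝ (fun w => q w a b) z) :
    dm r (fun w => p w + q w) z = dm r p z + dm r q z := by
  ext i j
  exact wd_add (hp i j) (hq i j) _

theorem dm_neg' {κ κ' : Type} (r : WI n) {p : Cn n → Matrix κ κ' ℂ} {z : Cn n}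
    (hp : ∀ a b, DifferentiableAt ℝ (fun w => p w a b) z) :
    dm r (fun w => - p w) z = - dm r p z := by
  ext i j
  have := wd_const_smul (f := fun w => p w i j) (z := z) (-1 : ℂ) (hp i j) r
  simp only [smul_eq_mul, neg_one_mul] at this
  exact this

/-- derivative of a trace -/
theorem wd_trace {κ : Type} [Fintype κ] (r : WI n) {m : Cn n → Matrix κ κ ℂ} {z : Cn n}
    (hm : ∀ a b, DifferentiableAt ℝ (fun w => m w a b) z) :
    wd r (fun w => (m w).trace) z = (dm r m z).trace := by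
  have e : (fun w => (m w).trace) = fun w => ∑ i, m w i i := rfl
  rw [e, wd_sum (f := fun i w => m w i i) _ fun i _ => hm i i]
  rfl

/-- raised form -/
def Wm (g s : Cn n → Matrix (Fin n) (Fin n) ℂ) (z : Cn n) : Matrix (Fin n) (Fin n) ℂ :=
  (g z)⁻¹ * (s z * ((g z)⁻¹)ᵀ)

/-- covariant derivative -/
def Dm (g s : Cn n → Matrix (Fin n) (Fin n) ℂ) (z : Cn n) (c : Fin n) : Matrix (Fin n) (Fin n) ℂ :=
  dm (false, c) s z - dm (false, c) g z * (g z)⁻¹ * s z -
    s z * ((g z)⁻¹)ᵀ * (dm (false, c) g z)ᵀ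

/-- connection matrix of the conjugate bundle -/
def Em (g : Cn n → Matrix (Fin n) (Fin n) ℂ) (b : Fin n) (z : Cn n) : Matrix (Fin n) (Fin n) ℂ :=
  (g z)⁻¹ * dm (true, b) g z



theorem dm_inv' (h : GM g U) {z : Cn n} (hz : z ∈ U) (r : WI n) :
    dm r (fun w => (g w)⁻¹) z = -((g z)⁻¹ * dm r g z * (g z)⁻¹) := by
  rw [dm_inv r h.op h.sm (fun _ => h.det_ne) hz]
  try simp only [Matrix.mul_assoc, Matrix.neg_mul, neg_mul]

theorem Wm_smAt (h : GM g U) (hs : HolM s U) {z : Cn n} (hz : z ∈ U) (a b : Fin n) :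
    ContDiffAt ℝ ∞ (fun w => Wm g s w a b) z := by
  have e : (fun w => Wm g s w a b) = fun w => ∑ c, (g w)⁻¹ a c * ∑ d, s w c d * (g w)⁻¹ b d := by
    funext w
    simp only [Wm, Matrix.mul_apply, Matrix.transpose_apply]
  rw [e]
  exact ContDiffAt.sum fun c _ => (h.inv_smAt hz a c).mul (ContDiffAt.sum fun d _ =>
    (hs.smAt h.op hz c d).mul (h.inv_smAt hz b d))

theorem Wm_diff (h : GM g U) (hs : HolM s U) {z : Cn n} (hz : z ∈ U) (a b : Fin n) :
    DifferentiableAt ℝ (fun w => Wm g s w a b) z := (Wm_smAt h hs hz a b).differentiableAt (by simp)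

theorem Em_smAt (h : GM g U) {z : Cn n} (hz : z ∈ U) (b : Fin n) (i j : Fin n) :
    ContDiffAt ℝ ∞ (fun w => Em g b w i j) z := by
  have e : (fun w => Em g b w i j) = fun w => ∑ c, (g w)⁻¹ i c * dm (true, b) g w c j := by
    funext w
    simp only [Em, Matrix.mul_apply]
  rw [e]
  exact ContDiffAt.sum fun c _ => (h.inv_smAt hz i c).mul (h.dm_smAt hz _ c j)

theorem Em_diff (h : GM g U) {z : Cn n} (hz : z ∈ U) (b : Fin n) (i j : Fin n) :
    DifferentiableAt ℝ (fun w => Em g b w i j) z := (Em_smAt h hz b i j).differentiableAt (by simp)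

/-- `∂_c W = g⁻¹ (∇_c s) (g⁻¹)ᵀ` -/
theorem dm_Wm (h : GM g U) (hs : HolM s U) {z : Cn n} (hz : z ∈ U) (c : Fin n) :
    dm (false, c) (Wm g s) z = (g z)⁻¹ * Dm g s z c * ((g z)⁻¹)ᵀ := by
  have hi : ∀ a b, DifferentiableAt ℝ (fun w => (g w)⁻¹ a b) z := fun a b => h.inv_diff hz a b
  have hiT : ∀ a b, DifferentiableAt ℝ (fun w => ((g w)⁻¹)ᵀ a b) z := fun a b => h.inv_diff hz b a
  have hsd : ∀ a b, DifferentiableAt ℝ (fun w => s w a b) z := fun a b => hs.diff h.op hz a b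
  have e1 := dm_mul (false, c) (p := fun w => (g w)⁻¹) (q := fun w => s w * ((g w)⁻¹)ᵀ) hi
    (diff_mul hsd hiT)
  have e2 := dm_mul (false, c) (p := s) (q := fun w => ((g w)⁻¹)ᵀ) hsd hiT
  rw [dm_transpose, dm_inv' h hz] at e2
  rw [dm_inv' h hz, e2] at e1
  change dm (false, c) (fun w => (g w)⁻¹ * (s w * ((g w)⁻¹)ᵀ)) z = _
  rw [e1, Dm]
  simp only [Matrix.mul_sub, Matrix.sub_mul, Matrix.mul_add, Matrix.neg_mul, Matrix.mul_neg,
    Matrix.transpose_neg, Matrix.transpose_mul, Matrix.mul_assoc]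
  abel

/-- `∂̄_b W = - E_b W - W E_bᵀ` -/
theorem dmb_Wm (h : GM g U) (hs : HolM s U) {z : Cn n} (hz : z ∈ U) (b : Fin n) :
    dm (true, b) (Wm g s) z = -(Em g b z * Wm g s z) - Wm g s z * (Em g b z)ᵀ := by
  have hi : ∀ a b, DifferentiableAt ℝ (fun w => (g w)⁻¹ a b) z := fun a b => h.inv_diff hz a b
  have hiT : ∀ a b, DifferentiableAt ℝ (fun w => ((g w)⁻¹)ᵀ a b) z := fun a b => h.inv_diff hz b a
  have hsd : ∀ a b, DifferentiableAt ℝ (fun w => s w a b) z := fun a b => hs.diff h.op hz a b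
  have e1 := dm_mul (true, b) (p := fun w => (g w)⁻¹) (q := fun w => s w * ((g w)⁻¹)ᵀ) hi
    (diff_mul hsd hiT)
  have e2 := dm_mul (true, b) (p := s) (q := fun w => ((g w)⁻¹)ᵀ) hsd hiT
  rw [dm_transpose, dm_inv' h hz, hs.dbar h.op hz, Matrix.zero_mul, zero_add] at e2
  rw [dm_inv' h hz, e2] at e1
  change dm (true, b) (fun w => (g w)⁻¹ * (s w * ((g w)⁻¹)ᵀ)) z = _
  rw [e1, Wm, Em]
  simp only [Matrix.mul_sub, Matrix.sub_mul, Matrix.mul_add, Matrix.neg_mul, Matrix.mul_neg,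
    Matrix.transpose_neg, Matrix.transpose_mul, Matrix.mul_assoc]
  abel

/-- `|s|²` -/
def nr2 (g s : Cn n → Matrix (Fin n) (Fin n) ℂ) (z : Cn n) : ℝ := ((s z)ᴴ * Wm g s z).trace.re

theorem inv_herm (h : GM g U) {z : Cn n} (hz : z ∈ U) : ((g z)⁻¹)ᴴ = (g z)⁻¹ := by
  rw [Matrix.conjTranspose_nonsing_inv, (h.pos z hz).1.eq]

theorem inv_hermT (h : GM g U) {z : Cn n} (hz : z ∈ U) : (((g z)⁻¹)ᵀ)ᴴ = ((g z)⁻¹)ᵀ := by
  have : (((g z)⁻¹)ᵀ)ᴴ = (((g z)⁻¹)ᴴ)ᵀ := rfl
  rw [this, inv_herm h hz]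

theorem nr2_real (h : GM g U) {z : Cn n} (hz : z ∈ U) :
    ((nr2 g s z : ℝ) : ℂ) = ((s z)ᴴ * Wm g s z).trace := by
  have h1 : conj ((s z)ᴴ * Wm g s z).trace = ((s z)ᴴ * Wm g s z).trace := by
    have := Matrix.trace_conjTranspose ((s z)ᴴ * Wm g s z)
    rw [Wm, Matrix.conjTranspose_mul, Matrix.conjTranspose_mul, Matrix.conjTranspose_mul,
      Matrix.conjTranspose_conjTranspose, inv_herm h hz, inv_hermT h hz] at this
    rw [Wm]
    refine this.symm.trans ?_
    rw [Matrix.mul_assoc, Matrix.mul_assoc, Matrix.trace_mul_comm, Matrix.mul_assoc,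
      Matrix.mul_assoc]
  exact Complex.conj_eq_iff_re.1 h1

theorem sH_diff (h : GM g U) (hs : HolM s U) {z : Cn n} (hz : z ∈ U) (a b : Fin n) :
    DifferentiableAt ℝ (fun w => (s w)ᴴ a b) z :=
  (conjCLE : ℂ →L[ℝ] ℂ).differentiableAt.comp z (hs.diff h.op hz b a)

theorem sH_smAt (h : GM g U) (hs : HolM s U) {z : Cn n} (hz : z ∈ U) (a b : Fin n) :
    ContDiffAt ℝ ∞ (fun w => (s w)ᴴ a b) z :=
  (conjCLE : ℂ →L[ℝ] ℂ).contDiff.contDiffAt.comp z (hs.smAt h.op hz b a)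

theorem nr2_smAt (h : GM g U) (hs : HolM s U) {z : Cn n} (hz : z ∈ U) :
    ContDiffAt ℝ ∞ (nr2 g s) z := by
  have e : nr2 g s = fun w => (∑ a, ∑ b, (s w)ᴴ a b * Wm g s w b a).re := by
    funext w
    simp only [nr2, Matrix.trace, Matrix.diag_apply, Matrix.mul_apply]
  rw [e]
  refine Complex.reCLM.contDiff.contDiffAt.comp z ?_
  exact ContDiffAt.sum fun a _ => ContDiffAt.sum fun b _ =>
    (sH_smAt h hs hz a b).mul (Wm_smAt h hs hz b a)

theorem dsH (h : GM g U) (hs : HolM s U) {z : Cn n} (hz : z ∈ U) (a : Fin n) :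
    dm (false, a) (fun w => (s w)ᴴ) z = 0 := by
  rw [dm_conjT _ fun i j => hs.diff h.op hz i j]
  change (dm (true, a) s z)ᴴ = 0
  rw [hs.dbar h.op hz, Matrix.conjTranspose_zero]

theorem dbsH (h : GM g U) (hs : HolM s U) {z : Cn n} (hz : z ∈ U) (b : Fin n) :
    dm (true, b) (fun w => (s w)ᴴ) z = (dm (false, b) s z)ᴴ := by
  rw [dm_conjT _ fun i j => hs.diff h.op hz i j]
  rfl

theorem dgH (h : GM g U) {z : Cn n} (hz : z ∈ U) (b : Fin n) :
    (dm (false, b) g z)ᴴ = dm (true, b) g z := by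
  have e := dm_conjT (true, b) (m := g) (z := z) fun i j => h.diff hz i j
  have e2 : dm (true, b) (fun w => (g w)ᴴ) z = dm (true, b) g z := by
    refine dm_congr _ ?_
    filter_upwards [h.op.mem_nhds hz] with w hw
    exact (h.pos w hw).1.eq
  rw [e2] at e
  exact e.symm

/-- `(∂_b s)* = (∇_b s)* + s* E_b + E_bᵀ s*` -/
theorem dsH_eq (h : GM g U) {z : Cn n} (hz : z ∈ U) (b : Fin n) :
    (dm (false, b) s z)ᴴ = (Dm g s z b)ᴴ + (s z)ᴴ * Em g b z + (Em g b z)ᵀ * (s z)ᴴ := by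
  have e1 : (dm (false, b) g z * (g z)⁻¹ * s z)ᴴ = (s z)ᴴ * Em g b z := by
    rw [Matrix.conjTranspose_mul, Matrix.conjTranspose_mul, inv_herm h hz, dgH h hz, Em]
  have e2 : (s z * ((g z)⁻¹)ᵀ * (dm (false, b) g z)ᵀ)ᴴ = (Em g b z)ᵀ * (s z)ᴴ := by
    have q : ((dm (false, b) g z)ᵀ)ᴴ = ((dm (false, b) g z)ᴴ)ᵀ := rfl
    rw [Matrix.conjTranspose_mul, Matrix.conjTranspose_mul, inv_hermT h hz, q, dgH h hz, Em,
      Matrix.transpose_mul, Matrix.mul_assoc]
  rw [Dm, Matrix.conjTranspose_sub, Matrix.conjTranspose_sub, e1, e2]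
  abel

theorem hess_nr2 (h : GM g U) (hs : HolM s U) {z : Cn n} (hz : z ∈ U) (a b : Fin n) :
    hess (nr2 g s) z a b =
      ((Dm g s z b)ᴴ * ((g z)⁻¹ * Dm g s z a * ((g z)⁻¹)ᵀ)).trace -
        ((s z)ᴴ * (dm (false, a) (Em g b) z * Wm g s z)).trace -
        ((s z)ᴴ * (Wm g s z * (dm (false, a) (Em g b) z)ᵀ)).trace := by
  have hW : ∀ w ∈ U, ∀ a b, DifferentiableAt ℝ (fun w => Wm g s w a b) w :=
    fun w hw a b => Wm_diff h hs hw a b
  have hH : ∀ w ∈ U, ∀ a b, DifferentiableAt ℝ (fun w => (s w)ᴴ a b) w :=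
    fun w hw a b => sH_diff h hs hw a b
  have hcu : ContDiffAt ℝ ∞ (cu (nr2 g s)) z :=
    Complex.ofRealCLM.contDiff.contDiffAt.comp z (nr2_smAt h hs hz)
  rw [hess_apply]
  have hcm : wd (false, a) (fun w => wd (true, b) (cu (nr2 g s)) w) z =
      wd (true, b) (fun w => wd (false, a) (cu (nr2 g s)) w) z := wd_comm hcu _ _
  refine hcm.trans ?_
  -- first derivative
  have e1 : (fun w => wd (false, a) (cu (nr2 g s)) w) =ᶠ[𝓝 z] fun w =>
      ((s w)ᴴ * dm (false, a) (Wm g s) w).trace := by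
    filter_upwards [h.op.mem_nhds hz] with w hw
    have s1 : cu (nr2 g s) =ᶠ[𝓝 w] fun y => ((s y)ᴴ * Wm g s y).trace := by
      filter_upwards [h.op.mem_nhds hw] with y hy
      exact nr2_real h hy
    rw [wd_congr s1, wd_trace _ (diff_mul (hH w hw) (hW w hw)),
      dm_mul (false, a) (hH w hw) (hW w hw), dsH h hs hw, Matrix.zero_mul, zero_add]
  rw [wd_congr e1]
  have hW2 : ∀ i j, ContDiffAt ℝ ∞ (fun w => dm (false, a) (Wm g s) w i j) z := fun i j =>
    contDiffAt_wd (Wm_smAt h hs hz i j) _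
  have hW2d : ∀ i j, DifferentiableAt ℝ (fun w => dm (false, a) (Wm g s) w i j) z := fun i j =>
    (hW2 i j).differentiableAt (by simp)
  rw [wd_trace _ (diff_mul (hH z hz) hW2d), dm_mul (true, b) (hH z hz) hW2d, dbsH h hs hz]
  -- commute
  have e2 : dm (true, b) (dm (false, a) (Wm g s)) z =
      dm (false, a) (dm (true, b) (Wm g s)) z := by
    ext i j
    exact wd_comm (Wm_smAt h hs hz i j) _ _
  have hE : ∀ i j, DifferentiableAt ℝ (fun w => Em g b w i j) z := fun i j => Em_diff h hz b i j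
  have hET : ∀ i j, DifferentiableAt ℝ (fun w => (Em g b w)ᵀ i j) z := fun i j => Em_diff h hz b j i
  have e3 : dm (false, a) (dm (true, b) (Wm g s)) z =
      -(dm (false, a) (Em g b) z * Wm g s z + Em g b z * dm (false, a) (Wm g s) z) -
        (dm (false, a) (Wm g s) z * (Em g b z)ᵀ + Wm g s z * (dm (false, a) (Em g b) z)ᵀ) := by
    have s1 : dm (true, b) (Wm g s) =ᶠ[𝓝 z] fun w =>
        (-(Em g b w * Wm g s w)) + (-(Wm g s w * (Em g b w)ᵀ)) := by
      filter_upwards [h.op.mem_nhds hz] with w hw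
      rw [dmb_Wm h hs hw, sub_eq_add_neg]
    have d1 := diff_mul hE (hW z hz)
    have d2 := diff_mul (hW z hz) hET
    have s2 := dm_add' (false, a) (p := fun w => -(Em g b w * Wm g s w))
      (q := fun w => -(Wm g s w * (Em g b w)ᵀ)) (z := z)
      (fun i j => (d1 i j).fun_neg) (fun i j => (d2 i j).fun_neg)
    rw [dm_congr _ s1, s2, dm_neg' _ d1, dm_neg' _ d2, dm_mul _ hE (hW z hz),
      dm_mul _ (hW z hz) hET, dm_transpose]
    abel
  rw [e2, e3, dsH_eq h hz b, dm_Wm h hs hz a]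
  set D := (g z)⁻¹ * Dm g s z a * ((g z)⁻¹)ᵀ with hD
  set F := dm (false, a) (Em g b) z with hF
  have c1 : ((Em g b z)ᵀ * ((s z)ᴴ * D)).trace = ((s z)ᴴ * (D * (Em g b z)ᵀ)).trace := by
    rw [Matrix.trace_mul_comm, Matrix.mul_assoc]
  simp only [Matrix.add_mul, Matrix.mul_add, Matrix.mul_sub, Matrix.mul_neg, Matrix.trace_add,
    Matrix.trace_sub, Matrix.trace_neg, Matrix.mul_assoc, c1]
  ring

theorem dm_Em (h : GM g U) {z : Cn n} (hz : z ∈ U) (a b : Fin n) :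
    dm (false, a) (Em g b) z = (g z)⁻¹ * Xc g z a b := by
  have e := dm_mul (false, a) (p := fun w => (g w)⁻¹) (q := dm (true, b) g)
    (fun i j => h.inv_diff hz i j) (fun i j => h.dm_diff hz _ i j)
  change dm (false, a) (fun w => (g w)⁻¹ * dm (true, b) g w) z = _
  rw [e, dm_inv' h hz, Xc]
  simp only [Matrix.mul_sub, Matrix.neg_mul, Matrix.mul_assoc]
  abel

/-- the Ricci contraction -/
theorem sum_Em (h : GM g U) {z : Cn n} (hz : z ∈ U)
    (hric : hess (fun w => - Real.log (g w).det.re) z = 0) :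
    ∑ b, ∑ a, (g z)⁻¹ b a • dm (false, a) (Em g b) z = 0 := by
  have e1 : ∑ b, ∑ a, (g z)⁻¹ b a • dm (false, a) (Em g b) z =
      (g z)⁻¹ * ∑ b, ∑ a, (g z)⁻¹ b a • Xc g z a b := by
    rw [Finset.mul_sum]
    refine Finset.sum_congr rfl fun b _ => ?_
    rw [Finset.mul_sum]
    refine Finset.sum_congr rfl fun a _ => ?_
    rw [dm_Em h hz, Matrix.mul_smul]
  have e2 : ∑ b, ∑ a, (g z)⁻¹ b a • Xc g z a b = 0 := by
    ext c d
    have t := trace_Xc h hz c d
    rw [hric, Matrix.zero_apply, neg_zero, Matrix.trace] at t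
    rw [Matrix.zero_apply, ← t, Matrix.sum_apply]
    refine Finset.sum_congr rfl fun b _ => ?_
    rw [Matrix.diag_apply, Matrix.mul_apply, Matrix.sum_apply]
    refine Finset.sum_congr rfl fun a _ => ?_
    rw [Matrix.smul_apply, smul_eq_mul, Xc_symm h hz]
  rw [e1, e2, Matrix.mul_zero]

/-- **Bochner's formula** for holomorphic `(2,0)` tensors, Ricci flat case -/
theorem trace_hess_nr2 (h : GM g U) (hs : HolM s U) {z : Cn n} (hz : z ∈ U)
    (hric : hess (fun w => - Real.log (g w).det.re) z = 0) :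
    ((g z)⁻¹ * hess (nr2 g s) z).trace =
      ∑ b, ∑ a, (g z)⁻¹ b a *
        ((Dm g s z b)ᴴ * ((g z)⁻¹ * Dm g s z a * ((g z)⁻¹)ᵀ)).trace := by
  have e1 : ((g z)⁻¹ * hess (nr2 g s) z).trace = ∑ b, ∑ a, (g z)⁻¹ b a * hess (nr2 g s) z a b := by
    simp only [Matrix.trace, Matrix.diag_apply, Matrix.mul_apply]
  have e2 : ∑ b, ∑ a, (g z)⁻¹ b a * ((s z)ᴴ * (dm (false, a) (Em g b) z * Wm g s z)).trace = 0 := by
    have : ∑ b, ∑ a, (g z)⁻¹ b a * ((s z)ᴴ * (dm (false, a) (Em g b) z * Wm g s z)).trace =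
        ((s z)ᴴ * ((∑ b, ∑ a, (g z)⁻¹ b a • dm (false, a) (Em g b) z) * Wm g s z)).trace := by
      simp only [Finset.sum_mul, Finset.mul_sum, Matrix.trace_sum, Matrix.smul_mul,
        Matrix.mul_smul, Matrix.trace_smul, smul_eq_mul]
    rw [this, sum_Em h hz hric, Matrix.zero_mul, Matrix.mul_zero, Matrix.trace_zero]
  have e3 : ∑ b, ∑ a, (g z)⁻¹ b a * ((s z)ᴴ * (Wm g s z * (dm (false, a) (Em g b) z)ᵀ)).trace = 0 := by
    have : ∑ b, ∑ a, (g z)⁻¹ b a * ((s z)ᴴ * (Wm g s z * (dm (false, a) (Em g b) z)ᵀ)).trace =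
        ((s z)ᴴ * (Wm g s z * (∑ b, ∑ a, (g z)⁻¹ b a • dm (false, a) (Em g b) z)ᵀ)).trace := by
      simp only [Matrix.transpose_sum, Matrix.transpose_smul, Finset.mul_sum, Matrix.trace_sum,
        Matrix.mul_smul, Matrix.trace_smul, smul_eq_mul]
    rw [this, sum_Em h hz hric, Matrix.transpose_zero, Matrix.mul_zero, Matrix.mul_zero,
      Matrix.trace_zero]
  rw [e1]
  simp only [hess_nr2 h hs hz, mul_sub, Finset.sum_sub_distrib]
  rw [e2, e3, sub_zero, sub_zero]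

/-- sum of squares -/
theorem sum_sq {G : Matrix (Fin n) (Fin n) ℂ} {C : Matrix (Fin n) (Fin n) ℂ} (hC : G = Cᴴ * C)
    (D : Fin n → Matrix (Fin n) (Fin n) ℂ) :
    ∑ b, ∑ a, G b a * ((D b)ᴴ * (G * D a * Gᵀ)).trace =
      ∑ k, ((C * (∑ a, C k a • D a) * Cᵀ)ᴴ * (C * (∑ a, C k a • D a) * Cᵀ)).trace := by
  have e1 : ∀ X Y : Matrix (Fin n) (Fin n) ℂ,
      ((C * X * Cᵀ)ᴴ * (C * Y * Cᵀ)).trace = (Xᴴ * (G * Y * Gᵀ)).trace := by
    intro X Y
    have hT : Gᵀ = Cᵀ * (Cᵀ)ᴴ := by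
      rw [hC, Matrix.transpose_mul]
      rfl
    rw [hT, hC]
    simp only [Matrix.conjTranspose_mul, Matrix.mul_assoc]
    rw [Matrix.trace_mul_comm]
    simp only [Matrix.mul_assoc]
  simp only [e1]
  have e2 : ∀ k, ((∑ a, C k a • D a)ᴴ * (G * (∑ a, C k a • D a) * Gᵀ)).trace =
      ∑ b, ∑ a, conj (C k b) * C k a * ((D b)ᴴ * (G * D a * Gᵀ)).trace := by
    intro k
    rw [Matrix.conjTranspose_sum, Finset.sum_mul, Matrix.trace_sum]
    refine Finset.sum_congr rfl fun b _ => ?_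
    rw [Finset.mul_sum, Finset.sum_mul, Finset.mul_sum, Matrix.trace_sum]
    refine Finset.sum_congr rfl fun a _ => ?_
    rw [Matrix.conjTranspose_smul]
    simp only [Matrix.smul_mul, Matrix.mul_smul, Matrix.trace_smul, smul_eq_mul, RCLike.star_def]
    ring
  simp only [e2]
  have e3 : ∀ b a, G b a * ((D b)ᴴ * (G * D a * Gᵀ)).trace =
      ∑ k, conj (C k b) * C k a * ((D b)ᴴ * (G * D a * Gᵀ)).trace := by
    intro b a
    rw [← Finset.sum_mul]
    congr 1
    rw [hC, Matrix.mul_apply]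
    rfl
  simp only [e3]
  calc ∑ b, ∑ a, ∑ k, conj (C k b) * C k a * ((D b)ᴴ * (G * D a * Gᵀ)).trace
      = ∑ b, ∑ k, ∑ a, conj (C k b) * C k a * ((D b)ᴴ * (G * D a * Gᵀ)).trace :=
        Finset.sum_congr rfl fun b _ => Finset.sum_comm
    _ = _ := Finset.sum_comm

theorem sq_nonneg2 {G : Matrix (Fin n) (Fin n) ℂ} (hG : G.PosDef)
    (D : Fin n → Matrix (Fin n) (Fin n) ℂ) :
    0 ≤ ∑ b, ∑ a, G b a * ((D b)ᴴ * (G * D a * Gᵀ)).trace := by
  obtain ⟨C, hC⟩ := GreenM_5.exists_msqrt hG.posSemidef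
  rw [sum_sq hC]
  exact Finset.sum_nonneg fun k _ => (Matrix.posSemidef_conjTranspose_mul_self _).trace_nonneg

theorem sq_eq_zero2 {G : Matrix (Fin n) (Fin n) ℂ} (hG : G.PosDef)
    {D : Fin n → Matrix (Fin n) (Fin n) ℂ}
    (h : (∑ b, ∑ a, G b a * ((D b)ᴴ * (G * D a * Gᵀ)).trace).re = 0) : ∀ a, D a = 0 := by
  obtain ⟨C, hC⟩ := GreenM_5.exists_msqrt hG.posSemidef
  have hCdet : IsUnit C.det := by
    have hd : G.det ≠ 0 := hG.det_pos.ne'
    rw [hC, Matrix.det_mul] at hd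
    exact isUnit_iff_ne_zero.2 (right_ne_zero_of_mul hd)
  have hCt : IsUnit Cᵀ.det := by rwa [Matrix.det_transpose]
  rw [sum_sq hC, Complex.re_sum] at h
  have h1 : ∀ k, ((C * (∑ a, C k a • D a) * Cᵀ)ᴴ * (C * (∑ a, C k a • D a) * Cᵀ)).trace = 0 := by
    intro k
    have h2 := (Finset.sum_eq_zero_iff_of_nonneg (fun k _ =>
      (Complex.le_def.1 (Matrix.posSemidef_conjTranspose_mul_self
        (C * (∑ a, C k a • D a) * Cᵀ)).trace_nonneg).1)).1 h k (Finset.mem_univ k)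
    have h3 := (Complex.le_def.1 (Matrix.posSemidef_conjTranspose_mul_self
        (C * (∑ a, C k a • D a) * Cᵀ)).trace_nonneg).2
    exact Complex.ext h2 h3.symm
  have h4 : ∀ k, ∑ a, C k a • D a = 0 := by
    intro k
    have h5 := Matrix.trace_conjTranspose_mul_self_eq_zero_iff.1 (h1 k)
    calc ∑ a, C k a • D a = C⁻¹ * (C * (∑ a, C k a • D a) * Cᵀ) * (Cᵀ)⁻¹ := by
          rw [Matrix.mul_assoc C, ← Matrix.mul_assoc C⁻¹ C, Matrix.nonsing_inv_mul _ hCdet,
            Matrix.one_mul, Matrix.mul_assoc, Matrix.mul_nonsing_inv _ hCt, Matrix.mul_one]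
      _ = 0 := by rw [h5, Matrix.mul_zero, Matrix.zero_mul]
  intro a
  have h6 : ∑ k, C⁻¹ a k • ∑ b, C k b • D b = D a := by
    simp only [Finset.smul_sum, smul_smul]
    rw [Finset.sum_comm]
    have h7 : ∀ b, ∑ k, (C⁻¹ a k * C k b) • D b = (1 : Matrix (Fin n) (Fin n) ℂ) a b • D b := by
      intro b
      rw [← Finset.sum_smul, ← Matrix.mul_apply, Matrix.nonsing_inv_mul _ hCdet]
    simp only [h7, Matrix.one_apply, ite_smul, one_smul, zero_smul, Finset.sum_ite_eq,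
      Finset.mem_univ, if_true]
  rw [← h6]
  simp only [h4, smul_zero, Finset.sum_const_zero]

end

end Crest.Agent.R281.HkP1_508
end

-- ▼ part R281/HkP2_508

/-!
# R281 (S0424), leaf HK-PAR (helper508), part 2: holomorphic 2-forms on a compact Ricci flat manifold

(`Defs_273.H2 A`, `Defs_273.HSymp A` are the carriers of holomorphic 2-forms)
* `RicFlat K`  : `Ric = 0`
* `par_h2`    : **Bochner**: holomorphic 2-forms are parallel
* `closed_of_par` : parallel 2-forms are closed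
-/

set_option autoImplicit false
set_option linter.unusedSectionVars false

open Set Filter Topology Complex MeasureTheory
open scoped ContDiff Matrix ComplexConjugate ComplexOrder

namespace Crest.Agent.R281.HkP2_508

open Crest.Agent.R275.Geo Crest.Agent.R275.Core144 Crest.Agent.R275.EDR890
open Crest.Agent.R275.GC293
open Crest.Agent.R273 Crest.Agent.R273.Hess_333 Crest.Agent.R273.HessB_333
open Crest.Agent.R273.Defs_333 Crest.Agent.R273.HM_333 Crest.Agent.R273.Kah_333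
open Crest.Agent.R273.Vol_333 Crest.Agent.R273.Vm_333
open Crest.Agent.R273.GreenM_5 (ci mem_ci Tn trK lapK lapK_eq lapK_ofReal sm_lapK integral_lapK)
open Crest.Agent.R273.NoHVF_376
open Crest.Agent.R281.HkP1_508
open Crest.Agent.R281.Defs_273 (H2 HSymp)

noncomputable section

variable {n : ℕ} {M : Type} [TopologicalSpace M]

variable {A : Atl n M}

/-- the matrix of the form in a chart -/
def sl (σ : H2 A) (i : A.ι) (z : Cn n) : Matrix (Fin n) (Fin n) ℂ := σ.s i ((A.e i).symm z)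

theorem sl_hol (σ : H2 A) (i : A.ι) : HolM (sl σ i) (A.e i).target := by
  intro a b z hz
  have h := (σ.hol i a b).diffAt isOpen_univ ((A.e i).map_target hz) (mem_univ _)
  rw [(A.e i).right_inv hz] at h
  exact h.differentiableWithinAt

/-- `Ric = 0` -/
def RicFlat (K : Kah A) : Prop := ∀ i, ∀ x ∈ (A.e i).source, cur (volK K) i x = 0

/-- the form is parallel -/
def Par2 (K : Kah A) (σ : H2 A) : Prop :=
  ∀ i, ∀ z ∈ (A.e i).target, ∀ c, Dm (gl K i) (sl σ i) z c = 0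

/-- nondegenerate -/
def ND (σ : H2 A) : Prop := ∀ i, ∀ x ∈ (A.e i).source, (σ.s i x).det ≠ 0

/-- `h^{2,0} = 1` (spanned by `σ`) -/
def Span1 (σ : H2 A) : Prop :=
  ∀ τ : H2 A, ∃ c : ℂ, ∀ i, ∀ x ∈ (A.e i).source, τ.s i x = c • σ.s i x

/-! ### change of chart -/

theorem Jm_inv {i j : A.ι} {x : M} (hi : x ∈ (A.e i).source) (hj : x ∈ (A.e j).source) :
    Jm A j i x * Jm A i j x = 1 := by
  rw [J_mul i j i ⟨⟨hi, hj⟩, hi⟩, J_self i hi]


theorem map_conj_mul {p q : Matrix (Fin n) (Fin n) ℂ} :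
    (p * q).map conj = p.map conj * q.map conj := by
  rw [← RingHom.mapMatrix_apply, map_mul]
  rfl

theorem map_conj_one : (1 : Matrix (Fin n) (Fin n) ℂ).map conj = 1 := by
  rw [← RingHom.mapMatrix_apply, map_one]

/-- `g_i⁻¹ = J̄' g_j⁻¹ J'ᵀ`, `J' = J_{ji}` -/
theorem ginv_tr (K : Kah A) {i j : A.ι} {x : M} (hi : x ∈ (A.e i).source)
    (hj : x ∈ (A.e j).source) :
    (K.g i x)⁻¹ = (Jm A j i x).map conj * (K.g j x)⁻¹ * (Jm A j i x)ᵀ := by
  apply Matrix.inv_eq_left_inv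
  have h1 := Jm_inv hi hj
  have h2 := Jm_inv hj hi
  have h3 : (K.g j x)⁻¹ * K.g j x = 1 :=
    Matrix.nonsing_inv_mul _ (isUnit_iff_ne_zero.2 (K.pos j x hj).det_pos.ne')
  have h4 : (Jm A j i x)ᵀ * (Jm A i j x)ᵀ = 1 := by
    rw [← Matrix.transpose_mul, h2, Matrix.transpose_one]
  have h5 : (Jm A j i x).map conj * (Jm A i j x).map conj = 1 := by
    rw [← map_conj_mul, h1, map_conj_one]
  rw [K.tr i j x ⟨hi, hj⟩]
  calc (Jm A j i x).map conj * (K.g j x)⁻¹ * (Jm A j i x)ᵀ *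
        ((Jm A i j x)ᵀ * K.g j x * (Jm A i j x).map conj)
      = (Jm A j i x).map conj * ((K.g j x)⁻¹ * (((Jm A j i x)ᵀ * (Jm A i j x)ᵀ) * K.g j x)) *
          (Jm A i j x).map conj := by simp only [Matrix.mul_assoc]
    _ = 1 := by rw [h4, Matrix.one_mul, h3, Matrix.mul_one, h5]

/-- `W = g⁻¹ s g⁻ᵀ` on `M` -/
def WM (K : Kah A) (σ : H2 A) (i : A.ι) (x : M) : Matrix (Fin n) (Fin n) ℂ :=
  (K.g i x)⁻¹ * (σ.s i x * ((K.g i x)⁻¹)ᵀ)

theorem WM_tr (K : Kah A) (σ : H2 A) {i j : A.ι} {x : M} (hi : x ∈ (A.e i).source)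
    (hj : x ∈ (A.e j).source) :
    WM K σ i x = (Jm A j i x).map conj * WM K σ j x * ((Jm A j i x).map conj)ᵀ := by
  have h2 := Jm_inv hj hi
  have h4 : (Jm A j i x)ᵀ * (Jm A i j x)ᵀ = 1 := by
    rw [← Matrix.transpose_mul, h2, Matrix.transpose_one]
  rw [WM, WM, ginv_tr K hi hj, σ.tr i j x ⟨hi, hj⟩]
  rw [Matrix.transpose_mul, Matrix.transpose_mul, Matrix.transpose_transpose]
  calc (Jm A j i x).map conj * (K.g j x)⁻¹ * (Jm A j i x)ᵀ *
        ((Jm A i j x)ᵀ * σ.s j x * Jm A i j x *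
          (Jm A j i x * (((K.g j x)⁻¹)ᵀ * ((Jm A j i x).map conj)ᵀ)))
      = (Jm A j i x).map conj * ((K.g j x)⁻¹ * ((((Jm A j i x)ᵀ * (Jm A i j x)ᵀ) * σ.s j x) *
          ((Jm A i j x * Jm A j i x) * ((K.g j x)⁻¹)ᵀ))) * ((Jm A j i x).map conj)ᵀ := by
        simp only [Matrix.mul_assoc]
    _ = _ := by rw [h4, h2, Matrix.one_mul, Matrix.one_mul]

/-- `|σ|²` -/
def nr2M (K : Kah A) (σ : H2 A) (x : M) : ℝ :=
  ((σ.s (ci A x) x)ᴴ * WM K σ (ci A x) x).trace.re

theorem nr2M_tr (K : Kah A) (σ : H2 A) {i j : A.ι} {x : M} (hi : x ∈ (A.e i).source)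
    (hj : x ∈ (A.e j).source) :
    ((σ.s i x)ᴴ * WM K σ i x).trace = ((σ.s j x)ᴴ * WM K σ j x).trace := by
  have h1 := Jm_inv hj hi
  have e1 : ((Jm A i j x)ᵀ)ᴴ = (Jm A i j x).map conj := rfl
  have h5 : (Jm A i j x).map conj * (Jm A j i x).map conj = 1 := by
    rw [← map_conj_mul, h1, map_conj_one]
  have h6 : ((Jm A j i x).map conj)ᵀ * (Jm A i j x)ᴴ = 1 := by
    have : (Jm A i j x)ᴴ = ((Jm A i j x).map conj)ᵀ := rfl
    rw [this, ← Matrix.transpose_mul, h5, Matrix.transpose_one]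
  rw [WM_tr K σ hi hj, σ.tr i j x ⟨hi, hj⟩, Matrix.conjTranspose_mul, Matrix.conjTranspose_mul, e1]
  calc ((Jm A i j x)ᴴ * ((σ.s j x)ᴴ * (Jm A i j x).map conj) *
        ((Jm A j i x).map conj * WM K σ j x * ((Jm A j i x).map conj)ᵀ)).trace
      = ((Jm A i j x)ᴴ * ((σ.s j x)ᴴ * (((Jm A i j x).map conj *
        (Jm A j i x).map conj) * WM K σ j x) * ((Jm A j i x).map conj)ᵀ)).trace := by
        simp only [Matrix.mul_assoc]
    _ = ((σ.s j x)ᴴ * WM K σ j x * (((Jm A j i x).map conj)ᵀ * (Jm A i j x)ᴴ)).trace := by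
        rw [h5, Matrix.one_mul, Matrix.trace_mul_comm]
        simp only [Matrix.mul_assoc]
    _ = _ := by rw [h6, Matrix.mul_one]

theorem nr2M_read (K : Kah A) (σ : H2 A) (i : A.ι) {z : Cn n} (hz : z ∈ (A.e i).target) :
    nr2M K σ ((A.e i).symm z) = nr2 (gl K i) (sl σ i) z := by
  have hx := (A.e i).map_target hz
  unfold nr2M
  rw [nr2M_tr K σ (mem_ci _) hx]
  rfl

theorem sm_nr2M (K : Kah A) (σ : H2 A) : A.Sm (nr2M K σ) := by
  intro i
  have h1 : ContDiffOn ℝ ∞ (nr2 (gl K i) (sl σ i)) (A.e i).target := fun z hz =>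
    (nr2_smAt (gm K i) (sl_hol σ i) hz).contDiffWithinAt
  exact h1.congr fun z hz => nr2M_read K σ i hz

theorem ric_read {K : Kah A} (hK : RicFlat K) (i : A.ι) {z : Cn n} (hz : z ∈ (A.e i).target) :
    hess (fun w => - Real.log (gl K i w).det.re) z = 0 := by
  have e3 : hess (fun w => - Real.log (gl K i w).det.re) z = cur (volK K) i ((A.e i).symm z) := by
    rw [cur_read _ i hz]
    rfl
  rw [e3, hK i _ ((A.e i).map_target hz)]

theorem lapK_nr2M {K : Kah A} (hK : RicFlat K) (σ : H2 A) (i : A.ι) {z : Cn n}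
    (hz : z ∈ (A.e i).target) :
    lapK K (nr2M K σ) ((A.e i).symm z) =
      (∑ b, ∑ a, (gl K i z)⁻¹ b a * ((Dm (gl K i) (sl σ i) z b)ᴴ *
        ((gl K i z)⁻¹ * Dm (gl K i) (sl σ i) z a * ((gl K i z)⁻¹)ᵀ)).trace).re := by
  have hx := (A.e i).map_target hz
  rw [lapK_eq K (sm_nr2M K σ) hx, hsf_read _ i hz]
  have e1 : (fun w => nr2M K σ ((A.e i).symm w)) =ᶠ[𝓝 z] nr2 (gl K i) (sl σ i) := by
    filter_upwards [(A.e i).open_target.mem_nhds hz] with w hw
    exact nr2M_read K σ i hw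
  rw [hess_congr e1]
  have e2 := trace_hess_nr2 (gm K i) (sl_hol σ i) hz (ric_read hK i hz)
  change ((gl K i z)⁻¹ * _).trace.re = _
  rw [e2]

/-- **Bochner**: on a compact Ricci flat Kaehler manifold holomorphic 2-forms are parallel -/
theorem par_h2 [T2Space M] [CompactSpace M] [Finite A.ι] (P : Part A) {K : Kah A}
    (hK : RicFlat K) (σ : H2 A) : Par2 K σ := by
  borelize M
  have hG : ∀ i, ∀ z ∈ (A.e i).target, ((gl K i z)⁻¹).PosDef := fun i z hz =>
    ((gm K i).pos z hz).inv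
  have hlap : ∀ i, ∀ z ∈ (A.e i).target, 0 ≤ lapK K (nr2M K σ) ((A.e i).symm z) := by
    intro i z hz
    rw [lapK_nr2M hK σ i hz]
    exact (Complex.le_def.1 (sq_nonneg2 (hG i z hz) _)).1
  have hnn : ∀ x, 0 ≤ lapK K (nr2M K σ) x := by
    intro x
    obtain ⟨i, hi⟩ := A.cover x
    have := hlap i _ ((A.e i).map_source hi)
    rwa [(A.e i).left_inv hi] at this
  have hsm := sm_lapK K (sm_nr2M K σ)
  have hcont : Continuous (lapK K (nr2M K σ)) := sm_continuous hsm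
  have hint : ∫ x, lapK K (nr2M K σ) x ∂(vm (volK K)) = 0 := integral_lapK K P (sm_nr2M K σ)
  have hi := GreenM_5.integrable_sm (volK K) hsm
  have h0 : lapK K (nr2M K σ) =ᵐ[vm (volK K)] 0 :=
    (integral_eq_zero_iff_of_nonneg hnn hi).1 hint
  have := isOpenPos_vm (volK K)
  have h1 : lapK K (nr2M K σ) = fun _ => 0 :=
    (Continuous.ae_eq_iff_eq (vm (volK K)) hcont continuous_const).1 h0
  intro i z hz c
  have h2 := lapK_nr2M hK σ i hz
  rw [congrFun h1 _] at h2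
  exact sq_eq_zero2 (hG i z hz) h2.symm c

/-! ### closedness -/

/-- parallel 2-forms are closed -/
theorem closed_of_par {K : Kah A} {σ : H2 A} (h : Par2 K σ) (i : A.ι) {z : Cn n}
    (hz : z ∈ (A.e i).target) (a b c : Fin n) :
    wd (false, c) (fun w => sl σ i w a b) z + wd (false, a) (fun w => sl σ i w b c) z +
      wd (false, b) (fun w => sl σ i w c a) z = 0 := by
  set G := (gl K i z)⁻¹ with hG
  have key : ∀ a b c, wd (false, c) (fun w => sl σ i w a b) z =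
      ∑ e, (∑ d, wd (false, c) (fun w => gl K i w a d) z * G d e) * sl σ i z e b +
        ∑ e, sl σ i z a e * ∑ d, G d e * wd (false, c) (fun w => gl K i w b d) z := by
    intro a b c
    have h1 := congrFun (congrFun (h i z hz c) a) b
    rw [Dm, Matrix.sub_apply, Matrix.sub_apply, Matrix.zero_apply] at h1
    have e0 : dm (false, c) (sl σ i) z a b = wd (false, c) (fun w => sl σ i w a b) z := rfl
    rw [e0] at h1
    have e1 : (dm (false, c) (gl K i) z * (gl K i z)⁻¹ * sl σ i z) a b =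
        ∑ e, (∑ d, wd (false, c) (fun w => gl K i w a d) z * G d e) * sl σ i z e b := by
      rw [Matrix.mul_apply]
      refine Finset.sum_congr rfl fun e _ => ?_
      rw [Matrix.mul_apply]
      rfl
    have e2 : (sl σ i z * ((gl K i z)⁻¹)ᵀ * (dm (false, c) (gl K i) z)ᵀ) a b =
        ∑ e, sl σ i z a e * ∑ d, G d e * wd (false, c) (fun w => gl K i w b d) z := by
      rw [Matrix.mul_assoc, Matrix.mul_apply]
      refine Finset.sum_congr rfl fun e _ => ?_
      rw [Matrix.mul_apply]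
      rfl
    rw [e1, e2] at h1
    linear_combination h1
  have hsk : ∀ a b, sl σ i z a b = - sl σ i z b a := by
    intro a b
    have := congrFun (congrFun (σ.alt i _ ((A.e i).map_target hz)) b) a
    exact this
  have hcl : ∀ a b c, wd (false, c) (fun w => gl K i w a b) z =
      wd (false, a) (fun w => gl K i w c b) z := K.closed i z hz
  set Γ : Fin n → Fin n → Fin n → ℂ := fun c a e =>
    ∑ d, wd (false, c) (fun w => gl K i w a d) z * G d e with hΓ
  have hΓs : ∀ c a e, Γ c a e = Γ a c e := by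
    intro c a e
    rw [hΓ]
    refine Finset.sum_congr rfl fun d _ => ?_
    rw [hcl a d c]
  have key2 : ∀ a b c, wd (false, c) (fun w => sl σ i w a b) z =
      ∑ e, (Γ c a e * sl σ i z e b - Γ c b e * sl σ i z e a) := by
    intro a b c
    rw [key, Finset.sum_sub_distrib, sub_eq_add_neg, ← Finset.sum_neg_distrib]
    congr 1
    refine Finset.sum_congr rfl fun e _ => ?_
    rw [hsk a e, hΓ]
    have : ∑ d, G d e * wd (false, c) (fun w => gl K i w b d) z =
        ∑ d, wd (false, c) (fun w => gl K i w b d) z * G d e :=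
      Finset.sum_congr rfl fun d _ => mul_comm _ _
    rw [this]
    ring
  rw [key2, key2, key2, ← Finset.sum_add_distrib, ← Finset.sum_add_distrib]
  refine Finset.sum_eq_zero fun e _ => ?_
  rw [hΓs c a e, hΓs b c e, hΓs b a e]
  ring

/-! ### `σ*σ = const` -/

theorem skew_WM (K : Kah A) (σ : H2 A) {i : A.ι} {x : M} (hi : x ∈ (A.e i).source) :
    (WM K σ i x)ᵀ = - WM K σ i x := by
  rw [WM, Matrix.transpose_mul, Matrix.transpose_mul, Matrix.transpose_transpose, σ.alt i x hi,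
    Matrix.mul_neg, Matrix.neg_mul, Matrix.mul_assoc]

theorem conj_WM_hol {K : Kah A} {σ : H2 A} (h : Par2 K σ) (i : A.ι) (a b : Fin n) :
    HolAt A i univ (fun x => conj (WM K σ i x a b)) := by
  rintro z ⟨hz, -⟩
  have hg := gm K i
  have hs := sl_hol σ i
  have e : (fun w => conj (WM K σ i ((A.e i).symm w) a b)) =
      fun w => conj (Wm (gl K i) (sl σ i) w a b) := rfl
  rw [e]
  refine DifferentiableAt.differentiableWithinAt ?_
  have hd := Wm_diff hg hs hz a b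
  refine Crest.Agent.R275.GeoHol912.differentiableAt_of_dbj
    ((conjCLE : ℂ →L[ℝ] ℂ).differentiableAt.comp z hd) fun c => ?_
  have h2 := conj_wd (false, c) hd
  have h3 : wd (false, c) (fun w => Wm (gl K i) (sl σ i) w a b) z = 0 := by
    have h4 := congrFun (congrFun (dm_Wm hg hs hz c) a) b
    rw [h i z hz c, Matrix.mul_zero, Matrix.zero_mul, Matrix.zero_apply] at h4
    exact h4
  rw [h3, map_zero] at h2
  rw [← wd_true]
  exact h2.symm

/-- the 2-form `s W̄ s` -/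
def sWs {K : Kah A} {σ : H2 A} (h : Par2 K σ) : H2 A where
  s i x := σ.s i x * (WM K σ i x).map conj * σ.s i x
  hol i a b := by
    have e : (fun x => (σ.s i x * (WM K σ i x).map conj * σ.s i x) a b) =
        fun x => ∑ d, (∑ c, σ.s i x a c * conj (WM K σ i x c d)) * σ.s i x d b := by
      funext x
      rw [Matrix.mul_apply]
      refine Finset.sum_congr rfl fun d _ => ?_
      rw [Matrix.mul_apply]
      rfl
    rw [e]
    exact HolAt.sum _ fun d _ => (HolAt.sum _ fun c _ => (σ.hol i a c).mul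
      (conj_WM_hol h i c d)).mul (σ.hol i d b)
  alt i x hx := by
    have e : ((WM K σ i x).map conj)ᵀ = - (WM K σ i x).map conj := by
      have h1 : ((WM K σ i x).map conj)ᵀ = ((WM K σ i x)ᵀ).map conj := rfl
      rw [h1, skew_WM K σ hx]
      ext a b
      simp
    rw [Matrix.transpose_mul, Matrix.transpose_mul, e, σ.alt i x hx]
    simp only [Matrix.neg_mul, Matrix.mul_neg, neg_neg, Matrix.mul_assoc]
  tr i j x hx := by
    have h1 := Jm_inv hx.2 hx.1
    have h5 : (Jm A j i x)ᵀ * (Jm A i j x)ᵀ = 1 := by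
      rw [← Matrix.transpose_mul, h1, Matrix.transpose_one]
    have e : (WM K σ i x).map conj =
        Jm A j i x * (WM K σ j x).map conj * (Jm A j i x)ᵀ := by
      rw [WM_tr K σ hx.1 hx.2, map_conj_mul, map_conj_mul]
      congr 2
      · ext a b; simp
      · ext a b; simp
    rw [e, σ.tr i j x hx]
    calc (Jm A i j x)ᵀ * σ.s j x * Jm A i j x *
          (Jm A j i x * (WM K σ j x).map conj * (Jm A j i x)ᵀ) *
          ((Jm A i j x)ᵀ * σ.s j x * Jm A i j x)
        = (Jm A i j x)ᵀ * (σ.s j x * ((Jm A i j x * Jm A j i x) * (WM K σ j x).map conj) *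
          (((Jm A j i x)ᵀ * (Jm A i j x)ᵀ) * σ.s j x)) * Jm A i j x := by
          simp only [Matrix.mul_assoc]
      _ = _ := by rw [h1, h5, Matrix.one_mul, Matrix.one_mul]

/-- **all singular values of `σ` are equal**: `s (gᵀ)⁻¹ s* = λ g`, `λ > 0` constant -/
theorem exists_lam {K : Kah A} {σ : H2 A} (h : Par2 K σ) (hnd : ND σ) (h1 : Span1 σ) :
    ∃ lam : ℝ, 0 < lam ∧ ∀ i, ∀ x ∈ (A.e i).source,
      σ.s i x * ((K.g i x)ᵀ)⁻¹ * (σ.s i x)ᴴ = (lam : ℂ) • K.g i x := by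
  obtain ⟨c, hc⟩ := h1 (sWs h)
  have key : ∀ i, ∀ x ∈ (A.e i).source,
      σ.s i x * ((K.g i x)ᵀ)⁻¹ * (σ.s i x)ᴴ = (- conj c) • K.g i x := by
    intro i x hx
    have hs : IsUnit (σ.s i x).det := isUnit_iff_ne_zero.2 (hnd i x hx)
    have hg : IsUnit (K.g i x).det := isUnit_iff_ne_zero.2 (K.pos i x hx).det_pos.ne'
    have e1 : σ.s i x * (WM K σ i x).map conj * σ.s i x = c • σ.s i x := hc i x hx
    have e2 : σ.s i x * (WM K σ i x).map conj = c • (1 : Matrix (Fin n) (Fin n) ℂ) := by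
      have := congrArg (fun m => m * (σ.s i x)⁻¹) e1
      simp only [Matrix.smul_mul] at this
      rwa [Matrix.mul_nonsing_inv_cancel_right _ _ hs, Matrix.mul_nonsing_inv _ hs] at this
    have e3 : (WM K σ i x).map conj * σ.s i x = c • (1 : Matrix (Fin n) (Fin n) ℂ) := by
      have := congrArg (fun m => (σ.s i x)⁻¹ * m) e1
      simp only [Matrix.mul_smul] at this
      rwa [Matrix.mul_assoc, Matrix.nonsing_inv_mul_cancel_left _ _ hs,
        Matrix.nonsing_inv_mul _ hs] at this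
    have e4 : WM K σ i x * (σ.s i x).map conj = conj c • (1 : Matrix (Fin n) (Fin n) ℂ) := by
      have h2 := congrArg (fun m : Matrix (Fin n) (Fin n) ℂ => m.map conj) e3
      simp only [map_conj_mul] at h2
      have h3 : ((WM K σ i x).map conj).map conj = WM K σ i x := by ext a b; simp
      rw [h3] at h2
      rw [h2]
      ext a b
      simp only [Matrix.map_apply, Matrix.smul_apply, smul_eq_mul, map_mul, Matrix.one_apply]
      split_ifs <;> simp
    have e5 : (σ.s i x)ᴴ = - (σ.s i x).map conj := by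
      have : (σ.s i x)ᴴ = ((σ.s i x)ᵀ).map conj := rfl
      rw [this, σ.alt i x hx]
      ext a b
      simp
    have e6 : ((K.g i x)ᵀ)⁻¹ = ((K.g i x)⁻¹)ᵀ := (Matrix.transpose_nonsing_inv _).symm
    have e7 : σ.s i x * ((K.g i x)⁻¹)ᵀ = K.g i x * WM K σ i x := by
      rw [WM, Matrix.mul_nonsing_inv_cancel_left _ _ hg]
    rw [e5, e6, e7, Matrix.mul_neg, Matrix.mul_assoc, e4, Matrix.mul_smul, Matrix.mul_one,
      neg_smul]
  rcases isEmpty_or_nonempty M with hM | ⟨⟨x0⟩⟩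
  · exact ⟨1, one_pos, fun i x _ => (hM.false x).elim⟩
  rcases Nat.eq_zero_or_pos n with hn | hn
  · subst hn
    exact ⟨1, one_pos, fun i x _ => by ext a; exact a.elim0⟩
  obtain ⟨i0, hi0⟩ := A.cover x0
  have hp : (σ.s i0 x0 * ((K.g i0 x0)ᵀ)⁻¹ * (σ.s i0 x0)ᴴ).PosDef := by
    have h2 : (((K.g i0 x0)ᵀ)⁻¹).PosDef := (K.pos i0 x0 hi0).transpose.inv
    have h3 : IsUnit (σ.s i0 x0) := (Matrix.isUnit_iff_isUnit_det _).2
      (isUnit_iff_ne_zero.2 (hnd i0 x0 hi0))
    exact (Matrix.IsUnit.posDef_star_right_conjugate_iff h3).2 h2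
  rw [key i0 x0 hi0] at hp
  let a0 : Fin n := ⟨0, hn⟩
  have d1 : (0 : ℂ) < ((- conj c) • K.g i0 x0) a0 a0 := hp.diag_pos
  have d2 : (0 : ℂ) < (K.g i0 x0) a0 a0 := (K.pos i0 x0 hi0).diag_pos
  rw [Matrix.smul_apply, smul_eq_mul] at d1
  have d3 : 0 < - conj c := by
    have h4 : - conj c = ((- conj c) * (K.g i0 x0) a0 a0) * ((K.g i0 x0) a0 a0)⁻¹ := by
      field_simp [d2.ne']
    rw [h4]
    exact mul_pos d1 (inv_pos.2 d2)
  have d4 := Complex.le_def.1 d3.le
  have d5 := Complex.lt_def.1 d3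
  refine ⟨(- conj c).re, d5.1, fun i x hx => ?_⟩
  rw [key i x hx]
  congr 1
  apply Complex.ext
  · simp
  · rw [← d5.2]
    simp

/-- the same for a holomorphic symplectic form (`Defs_273`) on a compact Ricci flat manifold -/
theorem exists_lam_hsymp [T2Space M] [CompactSpace M] [Finite A.ι] (P : Part A) {K : Kah A}
    (hK : RicFlat K) (σ : HSymp A) (hu : σ.Uniq) :
    ∃ lam : ℝ, 0 < lam ∧ ∀ i, ∀ x ∈ (A.e i).source,
      σ.s i x * ((K.g i x)ᵀ)⁻¹ * (σ.s i x)ᴴ = (lam : ℂ) • K.g i x :=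
  exists_lam (par_h2 P hK σ.toH2) σ.nd hu


/-! ### volume forms and Ricci flatness -/

theorem det_holAt (σ : H2 A) (i : A.ι) : HolAt A i univ fun x => (σ.s i x).det := by
  simp only [Matrix.det_apply]
  exact HolAt.sum _ fun τ _ => by
    have := (HolAt.prod (A := A) (i := i) (U := univ) Finset.univ
      (F := fun a x => σ.s i x (τ a) a) fun a _ => σ.hol i _ a).const_mul
        ((Equiv.Perm.sign τ : ℤ) : ℂ)
    refine this.congr fun x _ _ => ?_
    rw [Units.smul_def, zsmul_eq_mul]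

theorem det_hol (σ : H2 A) (i : A.ι) {z : Cn n} (hz : z ∈ (A.e i).target) :
    DifferentiableAt ℂ (fun w => (sl σ i w).det) z := by
  have h := (det_holAt σ i).diffAt isOpen_univ ((A.e i).map_target hz) (mem_univ _)
  rwa [(A.e i).right_inv hz] at h

/-- `|det s|` as a metric on `K_M⁻¹` -/
def volS (σ : HSymp A) : HM (KB A)⁻¹ where
  w i x := ‖(σ.s i x).det‖
  pos i x hx := norm_pos_iff.2 (σ.nd i x hx)
  sm i := by
    have h2 := (det_holAt σ.toH2 i).contDiffOn isOpen_univ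
    intro z hz
    have h3 : ContDiffWithinAt ℝ ∞ (fun z => (σ.s i ((A.e i).symm z)).det) (A.e i).target z := by
      have := h2 z ⟨hz, mem_univ _⟩
      rwa [preimage_univ, inter_univ] at this
    exact h3.norm ℝ (σ.nd i _ ((A.e i).map_target hz))
  tr i j x hx := by
    have h4 : (Jm A i j x).det ≠ 0 := by
      rw [← KB_g hx]; exact (KB A).ne_zero i j x
    have h5 : 0 < ‖(Jm A i j x).det‖ := norm_pos_iff.2 h4
    rw [σ.tr i j x hx, LB.inv_g, KB_g hx, Matrix.det_mul, Matrix.det_mul, Matrix.det_transpose,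
      norm_mul, norm_mul, norm_inv]
    field_simp

/-- if `det g = c |det s|` then the metric is Ricci flat -/
theorem ricFlat_of_det {K : Kah A} (σ : HSymp A) {c : ℝ} (hc : 0 < c)
    (h : ∀ i, ∀ x ∈ (A.e i).source, (K.g i x).det.re = c * ‖(σ.s i x).det‖) : RicFlat K := by
  intro i x hx
  have hz := (A.e i).map_source hx
  have hz' := (A.e i).left_inv hx
  rw [← hz', cur_read _ i hz]
  have e1 : (volK K).wt i =ᶠ[𝓝 (A.e i x)] fun w =>
      (-(1/2) : ℝ) * Real.log (‖(c : ℂ) * (sl σ.toH2 i w).det‖ ^ 2) := by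
    filter_upwards [(A.e i).open_target.mem_nhds hz] with w hw
    have h1 := h i _ ((A.e i).map_target hw)
    change - Real.log ((K.g i ((A.e i).symm w)).det.re) = _
    rw [h1, Real.log_pow, norm_mul, Complex.norm_real, Real.norm_of_nonneg hc.le]
    change _ = (-(1/2) : ℝ) * (((2 : ℕ) : ℝ) * Real.log (c * ‖(σ.s i ((A.e i).symm w)).det‖))
    push_cast
    ring
  have hd : ∀ᶠ w in 𝓝 (A.e i x), DifferentiableAt ℂ (fun w => (c : ℂ) * (sl σ.toH2 i w).det) w := by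
    filter_upwards [(A.e i).open_target.mem_nhds hz] with w hw
    exact (det_hol σ.toH2 i hw).const_mul _
  have h0 : (c : ℂ) * (sl σ.toH2 i (A.e i x)).det ≠ 0 :=
    mul_ne_zero (by exact_mod_cast hc.ne') (σ.nd i _ ((A.e i).map_target hz))
  have h3 := hess_log_norm hd h0
  have hsm : ContDiffAt ℝ ∞ (fun w => Real.log (‖(c : ℂ) * (sl σ.toH2 i w).det‖ ^ 2)) (A.e i x) := by
    have h4 := ((volS σ).sm i).contDiffAt ((A.e i).open_target.mem_nhds hz)
    have h5 : ContDiffAt ℝ ∞ (fun w => ‖(c : ℂ) * (sl σ.toH2 i w).det‖ ^ 2) (A.e i x) := by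
      have : (fun w => ‖(c : ℂ) * (sl σ.toH2 i w).det‖ ^ 2) =
          fun w => (c * (volS σ).w i ((A.e i).symm w)) ^ 2 := by
        funext w
        rw [norm_mul, Complex.norm_real, Real.norm_of_nonneg hc.le]
        rfl
      rw [this]
      exact (contDiffAt_const.mul h4).pow 2
    exact h5.log (by positivity)
  rw [hess_congr e1, hess_const_mul _ hsm, h3, smul_zero]

/-- `|det s|² = λⁿ (det g)²` -/
theorem det_of_lam {g s : Matrix (Fin n) (Fin n) ℂ} (hg : g.det ≠ 0) {lam : ℝ}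
    (h : s * (gᵀ)⁻¹ * sᴴ = (lam : ℂ) • g) :
    ((‖s.det‖ ^ 2 : ℝ) : ℂ) = (lam : ℂ) ^ n * g.det ^ 2 := by
  have h1 := congrArg Matrix.det h
  rw [Matrix.det_mul, Matrix.det_mul, Matrix.det_smul, Matrix.det_conjTranspose,
    Matrix.det_nonsing_inv, Matrix.det_transpose, Ring.inverse_eq_inv', Fintype.card_fin] at h1
  have h2 : ((‖s.det‖ ^ 2 : ℝ) : ℂ) = s.det * star s.det := by
    rw [RCLike.star_def, Complex.mul_conj, Complex.normSq_eq_norm_sq]
  rw [h2]
  field_simp at h1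
  linear_combination h1

end

end Crest.Agent.R281.HkP2_508
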