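import Crest.Agent.R281.HkR2_835
import Crest.Agent.R281.Ehr4_268
import Crest.Agent.R281.CL3_473

-- ▼ part R281/Lift1_461
section

/-!
# R281 (S0424), EHR3 (helper461), part 1: points below a smooth map into a family of members

`EFam C H O` : jointly smooth family, parameters in the open set `O`, of homogeneous coordinates of
injective immersions of the real manifold `(X, C)` into the projective space of `H`.
`Below F c w x` : the point `x` of `X` lies below the vector `w` of the cone of the member `c`.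
`lift` : if `θ` is smooth at `q1`, with values in the cones of the members `κ q`, then the point
`pt q` below `θ q` is continuous at `q1` and smooth in the charts.
-/

set_option autoImplicit false
set_option linter.unusedSectionVars false

open Set Filter Topology
open scoped ContDiff

namespace Crest.Agent.R281.Lift_461

open Crest.Agent.R281.HkR_835

noncomputable section

variable {V X H E Q : Type} [NormedAddCommGroup V] [NormedSpace ℝ V] [TopologicalSpace X]
  [NormedAddCommGroup H] [NormedSpace ℂ H]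
  [NormedAddCommGroup E] [NormedSpace ℝ E]
  [NormedAddCommGroup Q] [NormedSpace ℝ Q]

/-- smooth family of embedded members -/
structure EFam (C : RCh V X) (H : Type) [NormedAddCommGroup H] [NormedSpace ℂ H] (O : Set E) where
  U : C.ι → E → V → H
  sm : ∀ i, ContDiffOn ℝ ∞ (fun p : E × V => U i p.1 p.2) (O ×ˢ (C.e i).target)
  ne : ∀ i, ∀ c ∈ O, ∀ z ∈ (C.e i).target, U i c z ≠ 0
  tr : ∀ i j, ∀ z ∈ C.ov i j, ∀ c ∈ O, ∃ a : ℂ, U i c z = a • U j c (C.t i j z)
  inj : ∀ i j, ∀ c ∈ O, ∀ z ∈ (C.e i).target, ∀ z' ∈ (C.e j).target,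
    (∃ a : ℂ, U i c z = a • U j c z') → (C.e i).symm z = (C.e j).symm z'
  imm : ∀ i, ∀ c ∈ O, ∀ z ∈ (C.e i).target, ∀ v : V,
    (∃ a : ℂ, fderiv ℝ (U i c) z v = a • U i c z) → v = 0

variable {C : RCh V X} {O : Set E}

namespace EFam

variable (F : EFam C H O)

/-- `x` lies below `w` for the member `c` -/
def Below (c : E) (w : H) (x : X) : Prop :=
  ∃ i, x ∈ (C.e i).source ∧ ∃ a : ℂ, a ≠ 0 ∧ w = a • F.U i c (C.e i x)

theorem below_chart {c : E} (hc : c ∈ O) {w : H} {x : X} (h : F.Below c w x) {j : C.ι}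
    (hx : x ∈ (C.e j).source) : ∃ a : ℂ, a ≠ 0 ∧ w = a • F.U j c (C.e j x) := by
  obtain ⟨i, hi, a, ha, rfl⟩ := h
  have hz : C.e i x ∈ C.ov i j := ⟨(C.e i).map_source hi, by rwa [(C.e i).left_inv hi]⟩
  obtain ⟨b, hb⟩ := F.tr i j _ hz c hc
  have h1 : C.t i j (C.e i x) = C.e j x := by
    show C.e j ((C.e i).symm (C.e i x)) = C.e j x
    rw [(C.e i).left_inv hi]
  rw [h1] at hb
  have hb0 : b ≠ 0 := by
    rintro rfl
    rw [zero_smul] at hb
    exact F.ne i c hc _ hz.1 hb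
  exact ⟨a * b, mul_ne_zero ha hb0, by rw [hb, smul_smul]⟩

theorem Below.ne_zero {F : EFam C H O} {c : E} (hc : c ∈ O) {w : H} {x : X} (h : F.Below c w x) :
    w ≠ 0 := by
  obtain ⟨i, hi, a, ha, rfl⟩ := h
  exact smul_ne_zero ha (F.ne i c hc _ ((C.e i).map_source hi))

theorem below_unique {c : E} (hc : c ∈ O) {w : H} {x x' : X} (h : F.Below c w x)
    (h' : F.Below c w x') : x = x' := by
  obtain ⟨i, hi, a, ha, h1⟩ := h
  obtain ⟨j, hj, b, hb, h2⟩ := h'
  have h3 := F.inj i j c hc _ ((C.e i).map_source hi) _ ((C.e j).map_source hj) ⟨a⁻¹ * b, by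
    rw [mul_smul, ← h2, h1, smul_smul, inv_mul_cancel₀ ha, one_smul]⟩
  rwa [(C.e i).left_inv hi, (C.e j).left_inv hj] at h3

theorem Below.smul {F : EFam C H O} {c : E} {w : H} {x : X} (h : F.Below c w x) {b : ℂ}
    (hb : b ≠ 0) : F.Below c (b • w) x := by
  obtain ⟨i, hi, a, ha, rfl⟩ := h
  exact ⟨i, hi, b * a, mul_ne_zero hb ha, by rw [smul_smul]⟩


theorem continuousAt_U (hO : IsOpen O) {i : C.ι} {c : E} (hc : c ∈ O) {z : V}
    (hz : z ∈ (C.e i).target) : ContDiffAt ℝ ∞ (fun p : E × V => F.U i p.1 p.2) (c, z) :=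
  (F.sm i).contDiffAt ((hO.prod (C.e i).open_target).mem_nhds ⟨hc, hz⟩)

/-- the point below is continuous -/
theorem tendsto_pt [CompactSpace X] [T2Space X] (hO : IsOpen O) {κ : Q → E}
    {θ : Q → H} {pt : Q → X} {q1 : Q} (hκ : ContinuousAt κ q1) (hθ : ContinuousAt θ q1)
    (hq1 : κ q1 ∈ O) (hb : ∀ᶠ q in 𝓝 q1, F.Below (κ q) (θ q) (pt q)) :
    Tendsto pt (𝓝 q1) (𝓝 (pt q1)) := by
  have hb1 : F.Below (κ q1) (θ q1) (pt q1) := hb.self_of_nhds
  rw [tendsto_nhds]
  intro N hN hx1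
  have hK : IsCompact Nᶜ := hN.isClosed_compl.isCompact
  have key : ∀ᶠ q in 𝓝 q1, ∀ x ∈ Nᶜ, ¬ F.Below (κ q) (θ q) x := by
    refine hK.eventually_forall_of_forall_eventually ?_
    intro x2 hx2
    obtain ⟨j, hj⟩ := C.cover x2
    have hz2 := (C.e j).map_source hj
    set f : Q × X → (Fin 2 → H) := fun z => ![θ z.1, F.U j (κ z.1) (C.e j z.2)] with hf
    have hfc : ContinuousAt f (q1, x2) := by
      rw [continuousAt_pi]
      intro k
      have h1 : ContinuousAt (fun z : Q × X => θ z.1) (q1, x2) :=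
        ContinuousAt.comp (g := θ) (f := fun z : Q × X => z.1) hθ continuousAt_fst
      have h2 : ContinuousAt (fun z : Q × X => F.U j (κ z.1) (C.e j z.2)) (q1, x2) := by
        have h3 : ContinuousAt (fun z : Q × X => (κ z.1, C.e j z.2)) (q1, x2) := by
          refine ContinuousAt.prodMk ?_ ?_
          · exact ContinuousAt.comp (g := κ) (f := fun z : Q × X => z.1) hκ continuousAt_fst
          · exact ContinuousAt.comp (g := C.e j) (f := fun z : Q × X => z.2)
              ((C.e j).continuousAt hj) continuousAt_snd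
        exact ContinuousAt.comp (g := fun p : E × V => F.U j p.1 p.2)
          (f := fun z : Q × X => (κ z.1, C.e j z.2)) (F.continuousAt_U hO hq1 hz2).continuousAt h3
      fin_cases k
      · exact h1
      · exact h2
    have hli : LinearIndependent ℂ (f (q1, x2)) := by
      rw [LinearIndependent.pair_iff]
      intro s t hst
      by_contra hcon
      have hθ0 : θ q1 ≠ 0 := hb1.ne_zero hq1
      have hU0 : F.U j (κ q1) (C.e j x2) ≠ 0 := F.ne j _ hq1 _ hz2
      have hs : s ≠ 0 := by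
        rintro rfl
        rw [zero_smul, zero_add, smul_eq_zero] at hst
        exact hcon ⟨rfl, hst.resolve_right hU0⟩
      have ht : t ≠ 0 := by
        rintro rfl
        rw [zero_smul, add_zero, smul_eq_zero] at hst
        exact hs (hst.resolve_right hθ0)
      have h1 : θ q1 = (-(s⁻¹ * t)) • F.U j (κ q1) (C.e j x2) := by
        have h2 : s • θ q1 = -(t • F.U j (κ q1) (C.e j x2)) := eq_neg_of_add_eq_zero_left hst
        have h3 := congrArg (fun w => s⁻¹ • w) h2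
        simp only [smul_smul, inv_mul_cancel₀ hs, one_smul, smul_neg] at h3
        rw [h3, neg_smul]
      have h2 : F.Below (κ q1) (θ q1) x2 :=
        ⟨j, hj, _, neg_ne_zero.2 (mul_ne_zero (inv_ne_zero hs) ht), h1⟩
      exact hx2 (F.below_unique hq1 h2 hb1 ▸ hx1)
    have h3 : ∀ᶠ z in 𝓝 (q1, x2), LinearIndependent ℂ (f z) := hfc hli.eventually
    have h4 : ∀ᶠ z : Q × X in 𝓝 (q1, x2), z.2 ∈ (C.e j).source :=
      continuousAt_snd.eventually ((C.e j).open_source.mem_nhds hj)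
    have h5 : ∀ᶠ z : Q × X in 𝓝 (q1, x2), κ z.1 ∈ O :=
      (ContinuousAt.comp (g := κ) (f := fun z : Q × X => z.1) hκ continuousAt_fst).eventually
        (hO.mem_nhds hq1)
    filter_upwards [h3, h4, h5] with z g1 g2 g3 g4
    obtain ⟨a, ha, g5⟩ := F.below_chart g3 g4 g2
    rw [LinearIndependent.pair_iff] at g1
    have := (g1 1 (-a) (by rw [g5]; simp)).1
    exact one_ne_zero this
  filter_upwards [key, hb] with q h1 h2
  by_contra h3
  exact h1 _ h3 h2

end EFam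

/-! ### inverse function theorem with a parameter -/

theorem exists_param_inverse {Y : Type*} [NormedAddCommGroup Y] [NormedSpace ℝ Y]
    [CompleteSpace E] [CompleteSpace Y] {G : E × Y → Y} {c1 : E} {y1 : Y} {n : WithTop ℕ∞}
    (hn : n ≠ 0) (hG : ContDiffAt ℝ n G (c1, y1))
    (hD : HasFDerivAt (fun y => G (c1, y)) (ContinuousLinearMap.id ℝ Y) y1) :
    ∃ K : E × Y → Y, ContDiffAt ℝ n K (c1, G (c1, y1)) ∧
      ∀ᶠ q in 𝓝 (c1, y1), K (q.1, G q) = q.2 := by
  set Hm : E × Y → E × Y := fun q => (q.1, G q) with hH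
  have hHc : ContDiffAt ℝ n Hm (c1, y1) := contDiffAt_fst.prodMk hG
  set D : E × Y →L[ℝ] Y := fderiv ℝ G (c1, y1) with hDD
  have hGd : HasFDerivAt G D (c1, y1) := (hG.differentiableAt hn).hasFDerivAt
  have hDr : D ∘L .inr ℝ E Y = .id ℝ Y := by
    have h1 : HasFDerivAt (fun u : Y => G (c1, u)) (D ∘L .inr ℝ E Y) y1 :=
      HasFDerivAt.comp (f := fun u : Y => (c1, u)) y1 hGd (hasFDerivAt_prodMk_right _ _)
    exact h1.unique hD
  have hDv : ∀ (a : E) (b : Y), D (a, b) = D (a, 0) + b := by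
    intro a b
    have h1 : ((a, b) : E × Y) = (a, 0) + (0, b) := by simp
    have h2 : D (0, b) = b := by
      have := congrArg (fun f : Y →L[ℝ] Y => f b) hDr
      simpa using this
    rw [h1, map_add, h2]
  let L : (E × Y) ≃L[ℝ] (E × Y) := ContinuousLinearEquiv.equivOfInverse
    ((ContinuousLinearMap.fst ℝ E Y).prod D)
    ((ContinuousLinearMap.fst ℝ E Y).prod (ContinuousLinearMap.snd ℝ E Y -
      D ∘L (ContinuousLinearMap.inl ℝ E Y) ∘L (ContinuousLinearMap.fst ℝ E Y)))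
    (fun q => by
      obtain ⟨a, b⟩ := q
      simp [hDv a b])
    (fun q => by
      obtain ⟨a, b⟩ := q
      simp [hDv a (b - D (a, 0))])
  have hHd : HasFDerivAt Hm (L : (E × Y) →L[ℝ] (E × Y)) (c1, y1) := by
    have : HasFDerivAt Hm ((ContinuousLinearMap.fst ℝ E Y).prod D) (c1, y1) :=
      hasFDerivAt_fst.prodMk hGd
    exact this
  have hHs : HasStrictFDerivAt Hm (L : (E × Y) →L[ℝ] (E × Y)) (c1, y1) :=
    hHc.hasStrictFDerivAt' hHd hn
  set K : E × Y → E × Y := hHs.localInverse Hm L (c1, y1) with hK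
  have hK1 : ∀ᶠ q in 𝓝 (c1, y1), K (Hm q) = q := hHs.eventually_left_inverse
  have hKc : ContDiffAt ℝ n K (c1, G (c1, y1)) := ContDiffAt.to_localInverse hHc hHd hn
  refine ⟨fun q => (K q).2, ?_, ?_⟩
  · exact ContDiffAt.comp (g := fun q : E × Y => q.2) (c1, G (c1, y1)) contDiffAt_snd hKc
  · filter_upwards [hK1] with q h3
    exact congrArg Prod.snd h3

namespace EFam

variable (F : EFam C H O)

/-- **the point below is smooth** -/
theorem lift [CompactSpace X] [T2Space X] [FiniteDimensional ℝ V] [FiniteDimensional ℂ H]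
    [CompleteSpace E] (hO : IsOpen O) {n : WithTop ℕ∞} (hn : n ≠ 0) (hn' : n ≤ ∞) {κ : Q → E}
    {θ : Q → H} {pt : Q → X} {q1 : Q} (hκ : ContDiffAt ℝ n κ q1) (hθ : ContDiffAt ℝ n θ q1)
    (hq1 : κ q1 ∈ O) (hb : ∀ᶠ q in 𝓝 q1, F.Below (κ q) (θ q) (pt q)) {j : C.ι}
    (hj : pt q1 ∈ (C.e j).source) :
    ContDiffAt ℝ n (fun q => C.e j (pt q)) q1 ∧ ∃ a : Q → ℂ, ContDiffAt ℝ n a q1 ∧
      ∀ᶠ q in 𝓝 q1, a q ≠ 0 ∧ θ q = a q • F.U j (κ q) (C.e j (pt q)) := by
  have hVc : CompleteSpace V := FiniteDimensional.complete ℝ V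
  have hHf : FiniteDimensional ℝ H := FiniteDimensional.complexToReal H
  have hpt := F.tendsto_pt hO hκ.continuousAt hθ.continuousAt hq1 hb
  have hb1 : F.Below (κ q1) (θ q1) (pt q1) := hb.self_of_nhds
  obtain ⟨a1, ha1, hθ1⟩ := F.below_chart hq1 hb1 hj
  set z1 : V := C.e j (pt q1) with hz1
  have hz1t : z1 ∈ (C.e j).target := (C.e j).map_source hj
  set c1 : E := κ q1 with hc1
  have hU : ContDiffAt ℝ ∞ (fun p : E × V => F.U j p.1 p.2) (c1, z1) :=
    F.continuousAt_U hO hq1 hz1t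
  have hUz : HasFDerivAt (F.U j c1) (fderiv ℝ (F.U j c1) z1) z1 := by
    have h1 : ContDiffAt ℝ ∞ (fun y : V => (c1, y)) z1 := by fun_prop
    exact ((hU.comp (f := fun y : V => (c1, y)) z1 h1).differentiableAt (by simp)).hasFDerivAt
  set T : V × ℂ →L[ℝ] H := a1 • (fderiv ℝ (F.U j c1) z1 ∘L .fst ℝ V ℂ) +
    (ContinuousLinearMap.snd ℝ V ℂ).smulRight (F.U j c1 z1) with hT
  have hTd : HasFDerivAt (fun p : V × ℂ => p.2 • F.U j c1 p.1) T (z1, a1) := by
    have h1 : HasFDerivAt (fun p : V × ℂ => F.U j c1 p.1)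
        (fderiv ℝ (F.U j c1) z1 ∘L .fst ℝ V ℂ) (z1, a1) :=
      HasFDerivAt.comp (g := F.U j c1) (f := fun p : V × ℂ => p.1) (z1, a1) hUz hasFDerivAt_fst
    exact HasFDerivAt.smul (𝕜 := ℝ) (𝕜' := ℂ) hasFDerivAt_snd h1
  have hTi : LinearMap.ker (T : V × ℂ →ₗ[ℝ] H) = ⊥ := by
    rw [LinearMap.ker_eq_bot']
    rintro ⟨v, b⟩ hv
    have h1 : a1 • fderiv ℝ (F.U j c1) z1 v + b • F.U j c1 z1 = 0 := by
      have h2 : T (v, b) = 0 := hv
      simpa [hT] using h2
    have h2 : v = 0 := F.imm j c1 hq1 z1 hz1t v ⟨-(a1⁻¹ * b), by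
      have h3 := congrArg (fun w => a1⁻¹ • w) (eq_neg_of_add_eq_zero_left h1)
      simp only [smul_smul, inv_mul_cancel₀ ha1, one_smul, smul_neg] at h3
      rw [h3, neg_smul]⟩
    subst h2
    rw [map_zero, smul_zero, zero_add] at h1
    have h3 : b = 0 := (smul_eq_zero.mp h1).resolve_right (F.ne j c1 hq1 z1 hz1t)
    rw [h3]
    rfl
  obtain ⟨L0, hL0⟩ := (T : V × ℂ →ₗ[ℝ] H).exists_leftInverse_of_injective hTi
  set L : H →L[ℝ] V × ℂ := LinearMap.toContinuousLinearMap L0 with hL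
  have hLT : ∀ p, L (T p) = p := fun p => by
    have := congrArg (fun f : V × ℂ →ₗ[ℝ] V × ℂ => f p) hL0
    simpa [hL] using this
  set G : E × (V × ℂ) → V × ℂ := fun q => L (q.2.2 • F.U j q.1 q.2.1) with hG
  have hGc : ContDiffAt ℝ n G (c1, (z1, a1)) := by
    have h1 : ContDiffAt ℝ ∞ (fun q : E × (V × ℂ) => F.U j q.1 q.2.1) (c1, (z1, a1)) := by
      have h2 : ContDiffAt ℝ ∞ (fun q : E × (V × ℂ) => (q.1, q.2.1)) (c1, (z1, a1)) := by fun_prop
      exact ContDiffAt.comp (g := fun p : E × V => F.U j p.1 p.2)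
        (f := fun q : E × (V × ℂ) => (q.1, q.2.1)) (c1, (z1, a1)) hU h2
    have h2 : ContDiffAt ℝ ∞ (fun q : E × (V × ℂ) => q.2.2) (c1, (z1, a1)) := by fun_prop
    have h3 : ContDiffAt ℝ ∞ (fun q : E × (V × ℂ) => q.2.2 • F.U j q.1 q.2.1) (c1, (z1, a1)) :=
      h2.smul h1
    exact (L.contDiff.contDiffAt.comp (c1, (z1, a1)) h3).of_le hn'
  have hGd : HasFDerivAt (fun y => G (c1, y)) (ContinuousLinearMap.id ℝ (V × ℂ)) (z1, a1) := by
    have h1 := L.hasFDerivAt.comp (z1, a1) hTd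
    have h2 : L ∘L T = ContinuousLinearMap.id ℝ (V × ℂ) := by
      ext p <;> simp [hLT]
    rw [h2] at h1
    exact h1
  obtain ⟨K, hKc, hK⟩ := exists_param_inverse hn hGc hGd
  have hG1 : G (c1, (z1, a1)) = L (θ q1) := by
    show L (a1 • F.U j c1 z1) = L (θ q1)
    rw [hθ1]
  rw [hG1] at hKc
  -- the functional which computes the factor
  obtain ⟨ℓ, hℓ⟩ := SeparatingDual.exists_eq_one (R := ℂ) (F.ne j c1 hq1 z1 hz1t)
  have hsrc : ∀ᶠ q in 𝓝 q1, pt q ∈ (C.e j).source := hpt ((C.e j).open_source.mem_nhds hj)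
  have hκO : ∀ᶠ q in 𝓝 q1, κ q ∈ O := hκ.continuousAt.eventually (hO.mem_nhds hq1)
  have hz : Tendsto (fun q => C.e j (pt q)) (𝓝 q1) (𝓝 z1) :=
    ((C.e j).continuousAt hj).tendsto.comp hpt
  have hUt : Tendsto (fun q => F.U j (κ q) (C.e j (pt q))) (𝓝 q1) (𝓝 (F.U j c1 z1)) := by
    have h1 : Tendsto (fun q => (κ q, C.e j (pt q))) (𝓝 q1) (𝓝 (c1, z1)) :=
      hκ.continuousAt.tendsto.prodMk_nhds hz
    exact hU.continuousAt.tendsto.comp h1
  have hℓt : Tendsto (fun q => ℓ (F.U j (κ q) (C.e j (pt q)))) (𝓝 q1) (𝓝 1) := by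
    have := (ℓ.continuous.continuousAt (x := F.U j c1 z1)).tendsto.comp hUt
    rwa [hℓ] at this
  have hℓ0 : ∀ᶠ q in 𝓝 q1, ℓ (F.U j (κ q) (C.e j (pt q))) ≠ 0 := hℓt.eventually_ne one_ne_zero
  set a' : Q → ℂ := fun q => ℓ (θ q) / ℓ (F.U j (κ q) (C.e j (pt q))) with ha'
  have ha't : Tendsto a' (𝓝 q1) (𝓝 a1) := by
    have h1 : Tendsto (fun q => ℓ (θ q)) (𝓝 q1) (𝓝 (ℓ (θ q1))) :=
      (ℓ.continuous.continuousAt.comp hθ.continuousAt).tendsto
    have h2 := h1.div hℓt one_ne_zero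
    have h3 : ℓ (θ q1) / 1 = a1 := by rw [hθ1, map_smul, hℓ]; simp
    rwa [h3] at h2
  have hrel : ∀ᶠ q in 𝓝 q1, a' q ≠ 0 ∧ θ q = a' q • F.U j (κ q) (C.e j (pt q)) := by
    filter_upwards [hb, hsrc, hκO, hℓ0] with q h1 h2 h3 h4
    obtain ⟨a, ha, h5⟩ := F.below_chart h3 h1 h2
    have h6 : a' q = a := by
      show ℓ (θ q) / _ = a
      rw [h5, map_smul, smul_eq_mul, mul_div_assoc, div_self h4, mul_one]
    rw [h6]
    exact ⟨ha, h5⟩
  have hfin : ∀ᶠ q in 𝓝 q1, K (κ q, L (θ q)) = (C.e j (pt q), a' q) := by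
    have h1 : Tendsto (fun q => (κ q, (C.e j (pt q), a' q))) (𝓝 q1) (𝓝 (c1, (z1, a1))) :=
      hκ.continuousAt.tendsto.prodMk_nhds (hz.prodMk_nhds ha't)
    filter_upwards [h1 hK, hrel] with q h2 h3
    have h4 : G (κ q, (C.e j (pt q), a' q)) = L (θ q) := by
      show L (a' q • F.U j (κ q) (C.e j (pt q))) = L (θ q)
      rw [← h3.2]
    have h5 : K (κ q, G (κ q, (C.e j (pt q), a' q))) = (C.e j (pt q), a' q) := h2
    rwa [h4] at h5
  have hm : ContDiffAt ℝ n (fun q => K (κ q, L (θ q))) q1 := by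
    have h1 : ContDiffAt ℝ n (fun q => (κ q, L (θ q))) q1 :=
      hκ.prodMk (L.contDiff.contDiffAt.comp q1 hθ)
    exact ContDiffAt.comp (g := K) (f := fun q => (κ q, L (θ q))) q1 hKc h1
  refine ⟨?_, a', ?_, hrel⟩
  · have h1 : ContDiffAt ℝ n (fun q => (K (κ q, L (θ q))).1) q1 := hm.fst
    refine h1.congr_of_eventuallyEq ?_
    filter_upwards [hfin] with q hq
    rw [hq]
  · have h1 : ContDiffAt ℝ n (fun q => (K (κ q, L (θ q))).2) q1 := hm.snd
    refine h1.congr_of_eventuallyEq ?_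
    filter_upwards [hfin] with q hq
    rw [hq]

end EFam

end

end Crest.Agent.R281.Lift_461
end

-- ▼ part R281/Ehr5_268
section

/-!
# R281 (S0424), B4-EHR (helper268), part 5: transition maps are smooth; families over a path

* `exists_over`   : two members with the same cone (any two chart systems) differ by a smooth map
* `over_difG`     : ... by a diffeomorphism, when both chart systems are compatible with `C`
* `htriv_of_path` : two smooth families over `ℝ` with the same cones and the same start differ by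
                    a map which acts trivially on `H²`
-/

set_option autoImplicit false
set_option maxSynthPendingDepth 5
set_option linter.unusedSectionVars false

open Set Filter Topology Complex
open scoped ContDiff

namespace Crest.Agent.R281.Ehr4_268

open Crest.Agent.R281.HkR_835 Crest.Agent.R281.Ehr2_268 Crest.Agent.R281.Dif_268
open Crest.Agent.R281.Lift_461

noncomputable section

variable {V X : Type} [NormedAddCommGroup V] [NormedSpace ℝ V] [TopologicalSpace X]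
  [FiniteDimensional ℝ V] [CompactSpace X] [T2Space X]
variable {H : Type} [NormedAddCommGroup H] [NormedSpace ℂ H] [FiniteDimensional ℂ H]
variable {C C₁ C₂ C₃ : RCh V X}

/-- a path of members as a family over `ℝ` -/
def efam (A : ℝ → HEmb C H)
    (hA : ∀ i, ContDiffOn ℝ ∞ (fun p : ℝ × V => (A p.1).u i p.2) (univ ×ˢ (C.e i).target)) :
    EFam C H (univ : Set ℝ) where
  U i s z := (A s).u i z
  sm := hA
  ne i s _ z hz := (A s).ne i z hz
  tr i j z hz s _ := (A s).tr i j z hz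
  inj i j s _ z hz z' hz' h := (A s).inj i j z hz z' hz' h
  imm i s _ z hz v h := (A s).imm i z hz v h


/-- transition of two paths of members: the raw map -/
theorem exists_trans (A : ℝ → HEmb C₁ H) (B : ℝ → HEmb C₂ H)
    (hA : ∀ i, ContDiffOn ℝ ∞ (fun p : ℝ × V => (A p.1).u i p.2) (univ ×ˢ (C₁.e i).target))
    (hB : ∀ i, ContDiffOn ℝ ∞ (fun p : ℝ × V => (B p.1).u i p.2) (univ ×ˢ (C₂.e i).target))
    (hAB : ∀ s, (A s).cone = (B s).cone) :
    ∃ g : SMap (prodR C₁) C₂, ∀ s, Over (A s) (B s) (fun x => g.f (s, x)) := by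
  classical
  -- pointwise choice
  have key : ∀ (s : ℝ) (x : X), ∃ y, ∀ i, ∀ z ∈ (C₁.e i).target, (C₁.e i).symm z = x →
      ∀ j, ∀ z' ∈ (C₂.e j).target, (C₂.e j).symm z' = y →
        ∃ a : ℂ, a ≠ 0 ∧ (A s).u i z = a • (B s).u j z' := by
    intro s x
    obtain ⟨i0, z0, hz0, hx0⟩ := exists_coord C₁ x
    have h1 : (A s).u i0 z0 ∈ (B s).cone := by rw [← hAB]; exact (A s).mem_cone hz0
    obtain ⟨j0, z1, hz1, a, ha, h2⟩ := h1
    refine ⟨(C₂.e j0).symm z1, fun i z hz hx j z' hz' hy => ?_⟩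
    obtain ⟨b, hb, h3⟩ := same_point (A s) hz hz0 (by rw [hx0, hx])
    obtain ⟨c, hc, h4⟩ := same_point (B s) hz1 hz' hy
    exact ⟨b * (a * c), mul_ne_zero hb (mul_ne_zero ha hc), by
      rw [h3, h2, h4, smul_smul, smul_smul, mul_assoc]⟩
  choose pt hpt using key
  have hover : ∀ s, Over (A s) (B s) (fun x => pt s x) := by
    intro s i z hz j z' hz' he
    exact hpt s _ i z hz rfl j z' hz' he
  let F : EFam C₂ H (univ : Set ℝ) := efam B hB
  -- `pt` is below
  have hbelow : ∀ (s : ℝ) (i : C₁.ι) (z : V), z ∈ (C₁.e i).target →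
      F.Below s ((A s).u i z) (pt s ((C₁.e i).symm z)) := by
    intro s i z hz
    obtain ⟨j, z', hz', hy⟩ := exists_coord C₂ (pt s ((C₁.e i).symm z))
    obtain ⟨a, ha, h⟩ := hover s i z hz j z' hz' hy
    refine ⟨j, ?_, a, ha, ?_⟩
    · rw [← hy]; exact (C₂.e j).map_target hz'
    · rw [← hy, (C₂.e j).right_inv hz']; exact h
  -- joint smoothness in charts
  have hθ : ∀ (i : C₁.ι) (p : ℝ × V), p.2 ∈ (C₁.e i).target →
      ContDiffAt ℝ ∞ (fun p : ℝ × V => (A p.1).u i p.2) p := fun i p hp =>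
    (hA i).contDiffAt ((isOpen_univ.prod (C₁.e i).open_target).mem_nhds ⟨mem_univ _, hp⟩)
  have hev : ∀ (i : C₁.ι) (p : ℝ × V), p.2 ∈ (C₁.e i).target →
      ∀ᶠ q : ℝ × V in 𝓝 p, F.Below q.1 ((A q.1).u i q.2) (pt q.1 ((C₁.e i).symm q.2)) := by
    intro i p hp
    have h1 : ∀ᶠ q : ℝ × V in 𝓝 p, q.2 ∈ (C₁.e i).target :=
      continuousAt_snd.eventually ((C₁.e i).open_target.mem_nhds hp)
    filter_upwards [h1] with q hq using hbelow q.1 i q.2 hq
  have hcont : Continuous (fun q : ℝ × X => pt q.1 q.2) := by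
    rw [continuous_iff_continuousAt]
    rintro ⟨s, x⟩
    obtain ⟨i, hi⟩ := C₁.cover x
    have hz : C₁.e i x ∈ (C₁.e i).target := (C₁.e i).map_source hi
    have h1 : Tendsto (fun q : ℝ × V => pt q.1 ((C₁.e i).symm q.2)) (𝓝 (s, C₁.e i x))
        (𝓝 (pt s ((C₁.e i).symm (C₁.e i x)))) :=
      F.tendsto_pt isOpen_univ (κ := fun q : ℝ × V => q.1) (θ := fun q => (A q.1).u i q.2)
        (pt := fun q => pt q.1 ((C₁.e i).symm q.2)) (q1 := (s, C₁.e i x)) continuousAt_fst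
        (hθ i _ hz).continuousAt (mem_univ _) (hev i _ hz)
    rw [(C₁.e i).left_inv hi] at h1
    have h2 : Tendsto (fun q : ℝ × X => (q.1, C₁.e i q.2)) (𝓝 (s, x)) (𝓝 (s, C₁.e i x)) :=
      continuousAt_fst.prodMk (((C₁.e i).continuousAt hi).comp (x := (s, x)) continuousAt_snd)
    refine (h1.comp h2).congr' ?_
    have h3 : ∀ᶠ q : ℝ × X in 𝓝 (s, x), q.2 ∈ (C₁.e i).source :=
      continuousAt_snd.eventually ((C₁.e i).open_source.mem_nhds hi)
    filter_upwards [h3] with q hq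
    simp only [Function.comp_apply]
    rw [(C₁.e i).left_inv hq]
  refine ⟨⟨fun q => pt q.1 q.2, hcont, ?_⟩, hover⟩
  intro j (i : C₁.ι) p hp
  have hp1 : p.2 ∈ (C₁.e i).target := (prodR_target i p).mp hp.1
  have hp2 : pt p.1 ((C₁.e i).symm p.2) ∈ (C₂.e j).source := hp.2
  have h1 := F.lift isOpen_univ (n := ∞) (by simp) le_rfl (κ := fun q : ℝ × V => q.1)
    (θ := fun q => (A q.1).u i q.2) (pt := fun q => pt q.1 ((C₁.e i).symm q.2)) (q1 := p)
    contDiffAt_fst (hθ i p hp1) (mem_univ _) (hev i p hp1) hp2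
  exact h1.1.contDiffWithinAt

/-- two members with the same cone differ by a smooth map -/
theorem exists_over (P : HEmb C₁ H) (P' : HEmb C₂ H) (h : P.cone = P'.cone) :
    ∃ g : SMap C₁ C₂, Over P P' g.f := by
  obtain ⟨g, hg⟩ := exists_trans (fun _ => P) (fun _ => P')
    (fun i => (P.sm i).comp contDiffOn_snd fun p hp => hp.2)
    (fun i => (P'.sm i).comp contDiffOn_snd fun p hp => hp.2) (fun _ => h)
  exact ⟨g.comp (slice C₁ 0), hg 0⟩

/-- ... by a diffeomorphism -/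
theorem over_difG (h₁ : Cmp C C₁) (h₂ : Cmp C C₂) (P : HEmb C₁ H) (P' : HEmb C₂ H)
    (h : P.cone = P'.cone) : ∃ φ : difG C, Over P P' φ.1 := by
  obtain ⟨a, ha⟩ := exists_over P P' h
  obtain ⟨b, hb⟩ := exists_over P' P h.symm
  have hab : b.f ∘ a.f = id := ha.inv_eq hb
  have hba : a.f ∘ b.f = id := hb.inv_eq ha
  let φ : X ≃ₜ X :=
    { toFun := a.f, invFun := b.f, left_inv := fun x => congrFun hab x,
      right_inv := fun x => congrFun hba x, continuous_toFun := a.cont,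
      continuous_invFun := b.cont }
  refine ⟨⟨φ, ⟨((SMap.ofCmp h₂).comp a).comp (SMap.ofCmp h₁.symm), rfl⟩,
    ⟨((SMap.ofCmp h₁).comp b).comp (SMap.ofCmp h₂.symm), rfl⟩⟩, ha⟩

/-- a path of members and a second one with the same start -/
theorem htriv_of_path (A B : ℝ → HEmb C H)
    (hA : ∀ i, ContDiffOn ℝ ∞ (fun p : ℝ × V => (A p.1).u i p.2) (univ ×ˢ (C.e i).target))
    (hB : ∀ i, ContDiffOn ℝ ∞ (fun p : ℝ × V => (B p.1).u i p.2) (univ ×ˢ (C.e i).target))
    (hAB : ∀ s, (A s).cone = (B s).cone)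
    (h0 : ∀ i, ∀ z ∈ (C.e i).target, (A 0).u i z = (B 0).u i z) :
    ∃ f, Over (A 1) (B 1) f ∧ HTriv C f := by
  obtain ⟨g, hg⟩ := exists_trans A B hA hB hAB
  refine ⟨_, hg 1, htriv_of_homotopy g fun x => ?_⟩
  have h1 : Over (A 0) (B 0) id := Over.of_eq h0
  exact congrFun ((hg 0).uniq h1) x

end

end Crest.Agent.R281.Ehr4_268
end

-- ▼ part R281/Ehr6_268

/-!
# R281 (S0424), B4-EHR (helper268), part 6: the marked cover, instance of `LS` (helper473)

* `QFam Q E H` : family of cones over `Q`, `Q` locally homeomorphic to the parameter space `E`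
* `Mark F C`   : a marking over `q`: a chart system `C'` compatible with `C` and a member
                 `P : HEmb C' H` with cone `S q`
* `Sim`        : same `q`, the transition map acts trivially on `H²(X, C)`
* `ls F C`     : `LS Q (difG C ⧸ tG C) (MQ F C)`
-/

set_option autoImplicit false
set_option maxSynthPendingDepth 5
set_option linter.unusedSectionVars false

open Set Filter Topology Complex
open scoped ContDiff

namespace Crest.Agent.R281.Ehr6_268

open Crest.Agent.R281.HkR_835 Crest.Agent.R281.Ehr2_268 Crest.Agent.R281.Dif_268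
open Crest.Agent.R281.Ehr4_268 Crest.Agent.R281.CL_473

noncomputable section

universe uq

theorem _root_.Crest.Agent.R281.Ehr2_268.ConeMap.mono {E H : Type} [NormedAddCommGroup E]
    [NormedSpace ℂ E] [NormedAddCommGroup H] [NormedSpace ℂ H] {S : Set (E × H)} {c0 : E}
    {r r' : ℝ} {Φ Ψ : E → H → H} (hM : ConeMap S c0 r Φ Ψ) (h0 : 0 < r') (h : r' ≤ r) :
    ConeMap S c0 r' Φ Ψ := by
  have hb : Metric.ball c0 r' ⊆ Metric.ball c0 r := Metric.ball_subset_ball h
  exact ⟨h0, hM.ne, hM.cone, hM.id0, fun c hc => hM.hom c (hb hc), fun c hc => hM.maps c (hb hc),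
    fun c hc => hM.maps' c (hb hc), fun c hc => hM.left c (hb hc), fun c hc => hM.right c (hb hc),
    fun c hc => hM.ext c (hb hc), fun c hc => hM.ext' c (hb hc)⟩

/-- family of cones over `Q` -/
structure QFam (Q : Type uq) [TopologicalSpace Q] (E H : Type) [NormedAddCommGroup E]
    [NormedSpace ℂ E] [NormedAddCommGroup H] [NormedSpace ℂ H] where
  /-- local coordinate -/
  u : Q → E
  /-- the cones -/
  S : Q → Set H
  e : Q → OpenPartialHomeomorph Q E
  mem : ∀ q, q ∈ (e q).source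
  coe : ∀ q0, ∀ q ∈ (e q0).source, e q0 q = u q
  T : Q → Set (E × H)
  T_eq : ∀ q0, ∀ q ∈ (e q0).source, ∀ w, (u q, w) ∈ T q0 ↔ w ∈ S q
  cm : ∀ q0, ∃ (r : ℝ) (Φ Ψ : E → H → H), ConeMap (T q0) (u q0) r Φ Ψ

variable {Q : Type uq} [TopologicalSpace Q] {E H : Type} [NormedAddCommGroup E]
    [NormedSpace ℂ E] [NormedAddCommGroup H] [NormedSpace ℂ H]

namespace QFam

variable (F : QFam Q E H)

theorem cm' (q0 : Q) : ∃ (r : ℝ) (Φ Ψ : E → H → H), ConeMap (F.T q0) (F.u q0) r Φ Ψ ∧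
    Metric.ball (F.u q0) r ⊆ (F.e q0).target := by
  obtain ⟨r, Φ, Ψ, h⟩ := F.cm q0
  have h1 : F.u q0 ∈ (F.e q0).target := by
    rw [← F.coe q0 q0 (F.mem q0)]
    exact (F.e q0).map_source (F.mem q0)
  obtain ⟨δ, hδ, hb⟩ := Metric.isOpen_iff.mp (F.e q0).open_target _ h1
  exact ⟨min r δ, Φ, Ψ, h.mono (lt_min h.hr hδ) (min_le_left _ _),
    (Metric.ball_subset_ball (min_le_right _ _)).trans hb⟩

/-- radius of transport -/
def r (q0 : Q) : ℝ := Classical.choose (F.cm' q0)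

/-- cone maps -/
def Φ (q0 : Q) : E → H → H := Classical.choose (Classical.choose_spec (F.cm' q0))

/-- inverse cone maps -/
def Ψ (q0 : Q) : E → H → H :=
  Classical.choose (Classical.choose_spec (Classical.choose_spec (F.cm' q0)))

theorem hM (q0 : Q) : ConeMap (F.T q0) (F.u q0) (F.r q0) (F.Φ q0) (F.Ψ q0) :=
  (Classical.choose_spec (Classical.choose_spec (Classical.choose_spec (F.cm' q0)))).1

theorem ball_target (q0 : Q) : Metric.ball (F.u q0) (F.r q0) ⊆ (F.e q0).target :=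
  (Classical.choose_spec (Classical.choose_spec (Classical.choose_spec (F.cm' q0)))).2

/-- neighbourhood of transport -/
def U (q0 : Q) : Set Q := (F.e q0).source ∩ F.e q0 ⁻¹' Metric.ball (F.u q0) (F.r q0)

theorem U_open (q0 : Q) : IsOpen (F.U q0) :=
  (F.e q0).isOpen_inter_preimage Metric.isOpen_ball

theorem U_mem (q0 : Q) : q0 ∈ F.U q0 := by
  refine ⟨F.mem q0, ?_⟩
  show F.e q0 q0 ∈ Metric.ball (F.u q0) (F.r q0)
  rw [F.coe q0 q0 (F.mem q0)]
  exact Metric.mem_ball_self (F.hM q0).hr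

theorem ball_of_mem {q0 q : Q} (h : q ∈ F.U q0) : F.u q ∈ Metric.ball (F.u q0) (F.r q0) := by
  rw [← F.coe q0 q h.1]
  exact h.2

theorem U_eq (q0 : Q) : F.U q0 = (F.e q0).symm '' Metric.ball (F.u q0) (F.r q0) := by
  ext q
  constructor
  · rintro ⟨h1, h2⟩
    exact ⟨F.e q0 q, h2, (F.e q0).left_inv h1⟩
  · rintro ⟨c, hc, rfl⟩
    have h1 := F.ball_target q0 hc
    refine ⟨(F.e q0).map_target h1, ?_⟩
    show F.e q0 ((F.e q0).symm c) ∈ Metric.ball (F.u q0) (F.r q0)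
    rwa [(F.e q0).right_inv h1]

/-- the neighbourhoods of transport are connected -/
theorem U_conn (q0 : Q) : IsPreconnected (F.U q0) := by
  rw [U_eq]
  refine (convex_ball (F.u q0) (F.r q0)).isPreconnected.image _ ?_
  exact (F.e q0).continuousOn_symm.mono (F.ball_target q0)

theorem cont_u (q : Q) : ContinuousAt F.u q := by
  have h1 : ContinuousAt (F.e q) q := (F.e q).continuousAt (F.mem q)
  refine h1.congr ?_
  filter_upwards [(F.e q).open_source.mem_nhds (F.mem q)] with y hy using F.coe q y hy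

/-- isomorphism of the cones -/
theorem iso {q0 : Q} {c : E} (hc : c ∈ Metric.ball (F.u q0) (F.r q0)) :
    ConeIso {w | (F.u q0, w) ∈ F.T q0} {w | (c, w) ∈ F.T q0} (F.Φ q0 c) (F.Ψ q0 c) :=
  iso_of_coneMap (F.hM q0) hc

end QFam

variable {V X : Type} [NormedAddCommGroup V] [NormedSpace ℝ V] [TopologicalSpace X]

/-- markings -/
structure Mark (F : QFam Q E H) (C : RCh V X) where
  q : Q
  C' : RCh V X
  cmp : Cmp C C'
  P : HEmb C' H
  cone : ∀ w, w ∈ P.cone ↔ w ∈ F.S q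

variable {F : QFam Q E H} {C : RCh V X}

namespace Mark

theorem coneT (m : Mark F C) (w : H) : w ∈ m.P.cone ↔ w ∈ {w | (F.u m.q, w) ∈ F.T m.q} := by
  rw [m.cone]
  exact (F.T_eq m.q m.q (F.mem m.q) w).symm

/-- transport inside the neighbourhood -/
def trIn (m : Mark F C) (q : Q) (h : q ∈ F.U m.q) : Mark F C where
  q := q
  C' := m.C'
  cmp := m.cmp
  P := mapIso m.P (F.iso (F.ball_of_mem h)) m.coneT
  cone w := by
    rw [mapIso_cone]
    exact F.T_eq m.q q h.1 w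

open Classical in
/-- transport -/
def tr (m : Mark F C) (q : Q) : Mark F C := if h : q ∈ F.U m.q then m.trIn q h else m

theorem tr_of_mem (m : Mark F C) {q : Q} (h : q ∈ F.U m.q) : m.tr q = m.trIn q h := dif_pos h

/-- transport back -/
def back (m : Mark F C) (q0 : Q) (h : m.q ∈ F.U q0) : Mark F C where
  q := q0
  C' := m.C'
  cmp := m.cmp
  P := mapIso m.P (F.iso (F.ball_of_mem h)).symm (fun w => by
    rw [m.cone]
    exact (F.T_eq q0 m.q h.1 w).symm)
  cone w := by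
    rw [mapIso_cone]
    exact F.T_eq q0 q0 (F.mem q0) w

/-- equivalence of markings -/
def Sim (m m' : Mark F C) : Prop := m.q = m'.q ∧ ∃ f, Over m.P m'.P f ∧ HTriv C f

theorem Sim.refl (m : Mark F C) : Sim m m := ⟨rfl, id, Over.refl m.P, HTriv.id C⟩

theorem Sim.trans {m m' m'' : Mark F C} (h : Sim m m') (h' : Sim m' m'') : Sim m m'' := by
  obtain ⟨h1, f, h2, h3⟩ := h
  obtain ⟨h1', f', h2', h3'⟩ := h'
  exact ⟨h1.trans h1', f' ∘ f, h2.comp h2', h3'.comp h3⟩

/-- action of a diffeomorphism -/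
def act (g : difG C) (m : Mark F C) : Mark F C where
  q := m.q
  C' := mapCh m.C' g.1
  cmp := cmp_mapCh m.cmp g
  P := mapHom m.P g.1
  cone w := by rw [mapHom_cone]; exact m.cone w

variable [FiniteDimensional ℝ V] [CompactSpace X] [T2Space X] [FiniteDimensional ℂ H]

theorem cone_eq {m m' : Mark F C} (h : m.q = m'.q) : m.P.cone = m'.P.cone := by
  ext w
  rw [m.cone, m'.cone, h]

theorem Sim.symm {m m' : Mark F C} (h : Sim m m') : Sim m' m := by
  obtain ⟨h1, f, h2, h3⟩ := h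
  obtain ⟨φ, hφ⟩ := over_difG (C := C) m'.cmp m.cmp m'.P m.P (cone_eq h1.symm)
  refine ⟨h1.symm, φ.1, hφ, ?_⟩
  obtain ⟨g, hg⟩ := φ.2.1
  exact h3.inv g hg (hφ.inv_eq h2)

/-- the setoid -/
def setoid (F : QFam Q E H) (C : RCh V X) : Setoid (Mark F C) where
  r := Sim
  iseqv := ⟨Sim.refl, Sim.symm, Sim.trans⟩

end Mark

variable [FiniteDimensional ℝ V] [CompactSpace X] [T2Space X] [FiniteDimensional ℂ H]

open Mark

/-- classes of markings -/
def MQ (F : QFam Q E H) (C : RCh V X) : Type _ := Quotient (Mark.setoid F C)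

/-- the class of a marking -/
def MQ.mk (m : Mark F C) : MQ F C := Quotient.mk (Mark.setoid F C) m

theorem MQ.sound {m m' : Mark F C} (h : Sim m m') : MQ.mk m = MQ.mk m' := Quotient.sound h

theorem MQ.exact {m m' : Mark F C} (h : MQ.mk m = MQ.mk m') : Sim m m' := Quotient.exact h

theorem MQ.exists_rep (x : MQ F C) : ∃ m, MQ.mk m = x := Quotient.exists_rep x

theorem act_sim (g : difG C) {m m' : Mark F C} (h : Sim m m') : Sim (act g m) (act g m') := by
  obtain ⟨h1, f, h2, h3⟩ := h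
  obtain ⟨a, ha⟩ := g.2.1
  obtain ⟨b, hb⟩ := g.2.2
  refine ⟨h1, g.1 ∘ f ∘ g.1.symm, ?_, ?_⟩
  · have e1 : Over (mapHom m.P g.1) m.P g.1.symm :=
      (over_mapHom m.P g.1).inv fun x => g.1.apply_symm_apply x
    exact (e1.comp h2).comp (over_mapHom m'.P g.1)
  · have := h3.conj a b (by rw [ha, hb]; funext x; exact g.1.apply_symm_apply x)
    rwa [ha, hb] at this

theorem act_one (m : Mark F C) : Sim (act 1 m) m := by
  refine ⟨rfl, id, ?_, HTriv.id C⟩
  have e1 : Over (mapHom m.P (1 : difG C).1) m.P (1 : difG C).1.symm :=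
    (over_mapHom m.P (1 : difG C).1).inv fun x => (1 : difG C).1.apply_symm_apply x
  exact e1

theorem act_mul (g h : difG C) (m : Mark F C) : Sim (act (g * h) m) (act g (act h m)) := by
  refine ⟨rfl, id, ?_, HTriv.id C⟩
  have e1 : Over (mapHom m.P (g * h).1) m.P (g * h).1.symm :=
    (over_mapHom m.P (g * h).1).inv fun x => (g * h).1.apply_symm_apply x
  have e2 : Over m.P (mapHom m.P h.1) h.1 := over_mapHom m.P h.1
  have e3 : Over (mapHom m.P h.1) (mapHom (mapHom m.P h.1) g.1) g.1 := over_mapHom _ g.1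
  have e4 := (e1.comp e2).comp e3
  have e5 : g.1 ∘ h.1 ∘ (g * h).1.symm = id := by
    funext x
    exact (g * h).1.apply_symm_apply x
  rw [e5] at e4
  exact e4

theorem act_trivial {g : difG C} (hg : g ∈ tG C) (m : Mark F C) : Sim (act g m) m :=
  Sim.symm ⟨rfl, g.1, over_mapHom m.P g.1, hg⟩

/-- the action of the group of diffeomorphisms -/
instance actDif : MulAction (difG C) (MQ F C) where
  smul g := Quotient.map (act g) fun _ _ h => act_sim g h
  one_smul x := by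
    obtain ⟨m, rfl⟩ := MQ.exists_rep x
    exact MQ.sound (act_one m)
  mul_smul g h x := by
    obtain ⟨m, rfl⟩ := MQ.exists_rep x
    exact MQ.sound (act_mul g h m)


/-- the quotient group acts -/
def permHom (F : QFam Q E H) (C : RCh V X) : (difG C ⧸ tG C) →* Equiv.Perm (MQ F C) :=
  QuotientGroup.lift (tG C) (MulAction.toPermHom (difG C) (MQ F C)) (by
    intro g hg
    ext x
    obtain ⟨m, rfl⟩ := MQ.exists_rep x
    exact MQ.sound (act_trivial hg m))

instance actQuot : MulAction (difG C ⧸ tG C) (MQ F C) := MulAction.compHom _ (permHom F C)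

theorem smul_mk' (g : difG C) (m : Mark F C) :
    (QuotientGroup.mk g : difG C ⧸ tG C) • MQ.mk m = MQ.mk (act g m) := rfl

/-- projection -/
def MQ.p : MQ F C → Q := Quotient.lift (fun m => m.q) fun _ _ h => h.1

@[simp] theorem MQ.p_mk (m : Mark F C) : (MQ.mk m).p = m.q := rfl

theorem trIn_sim {m m' : Mark F C} (h : Sim m m') {q : Q} (hq : q ∈ F.U m.q)
    (hq' : q ∈ F.U m'.q) : Sim (m.trIn q hq) (m'.trIn q hq') := by
  obtain ⟨h1, f, h2, h3⟩ := h
  obtain ⟨q0, C₁, c1, P, k1⟩ := m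
  obtain ⟨q0', C₂, c2, P', k2⟩ := m'
  simp only at h1 h2 hq hq'
  subst h1
  exact ⟨rfl, f, over_mapIso (F.iso (F.ball_of_mem hq)) (Mark.coneT ⟨q0, C₁, c1, P, k1⟩)
    (Mark.coneT ⟨q0, C₂, c2, P', k2⟩) h2, h3⟩

theorem tr_sim {m m' : Mark F C} (h : Sim m m') (q : Q) : Sim (m.tr q) (m'.tr q) := by
  by_cases hq : q ∈ F.U m.q
  · have hq' : q ∈ F.U m'.q := by rw [← h.1]; exact hq
    rw [tr_of_mem m hq, tr_of_mem m' hq']
    exact trIn_sim h hq hq'
  · have hq' : q ∉ F.U m'.q := by rw [← h.1]; exact hq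
    rw [tr, tr, dif_neg hq, dif_neg hq']
    exact h

/-- transport of classes -/
def MQ.s (x : MQ F C) (q : Q) : MQ F C :=
  Quotient.lift (fun m : Mark F C => MQ.mk (m.tr q)) (fun _ _ h => MQ.sound (tr_sim h q)) x

theorem MQ.s_mk (m : Mark F C) (q : Q) : (MQ.mk m).s q = MQ.mk (m.tr q) := rfl

theorem MQ.s_mk_mem (m : Mark F C) {q : Q} (h : q ∈ F.U m.q) :
    (MQ.mk m).s q = MQ.mk (m.trIn q h) := by rw [MQ.s_mk, tr_of_mem m h]

theorem trIn_self (m : Mark F C) : Sim (m.trIn m.q (F.U_mem m.q)) m := by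
  refine ⟨rfl, id, ?_, HTriv.id C⟩
  refine Over.of_eq (C := m.C') (P := (m.trIn m.q (F.U_mem m.q)).P) (P' := m.P) fun i z hz => ?_
  show F.Φ m.q (F.u m.q) (m.P.u i z) = _
  exact (F.hM m.q).id0 _ ((m.coneT _).mp (m.P.mem_cone hz))

theorem trIn_back (m : Mark F C) {q0 : Q} (h : m.q ∈ F.U q0) :
    Sim ((m.back q0 h).trIn m.q h) m := by
  refine ⟨rfl, id, ?_, HTriv.id C⟩
  refine Over.of_eq (C := m.C') (P := ((m.back q0 h).trIn m.q h).P) (P' := m.P) fun i z hz => ?_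
  show F.Φ q0 (F.u m.q) (F.Ψ q0 (F.u m.q) (m.P.u i z)) = _
  refine (F.iso (F.ball_of_mem h)).right _ ?_
  exact (F.T_eq q0 m.q h.1 _).mpr ((m.cone _).mp (m.P.mem_cone hz))

theorem trIn_inj {m m' : Mark F C} (h : m.q = m'.q) {q : Q} (hq : q ∈ F.U m.q)
    (hq' : q ∈ F.U m'.q) (hs : Sim (m.trIn q hq) (m'.trIn q hq')) : Sim m m' := by
  obtain ⟨q0, C₁, c1, P, k1⟩ := m
  obtain ⟨q0', C₂, c2, P', k2⟩ := m'
  simp only at h hq hq'
  subst h
  obtain ⟨-, f, h2, h3⟩ := hs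
  exact ⟨rfl, f, over_of_mapIso (F.iso (F.ball_of_mem hq)) (Mark.coneT ⟨q0, C₁, c1, P, k1⟩)
    (Mark.coneT ⟨q0, C₂, c2, P', k2⟩) h2, h3⟩

/-- **local constancy of the transport** -/
theorem trIn_loc (m : Mark F C) {q1 : Q} (h1 : q1 ∈ F.U m.q) :
    ∀ᶠ q in 𝓝 q1, ∃ (ha : q ∈ F.U m.q) (hb : q ∈ F.U (m.trIn q1 h1).q),
      Sim (m.trIn q ha) ((m.trIn q1 h1).trIn q hb) := by
  -- a small ball around `u q1`
  set O : Set Q := (F.e m.q).source ∩ (F.e q1).source with hO
  have hO1 : q1 ∈ O := ⟨h1.1, F.mem q1⟩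
  have hOo : IsOpen O := (F.e m.q).open_source.inter (F.e q1).open_source
  have himg : IsOpen (F.e q1 '' O) :=
    (F.e q1).isOpen_image_of_subset_source hOo inter_subset_right
  have hu1 : F.u q1 ∈ F.e q1 '' O := ⟨q1, hO1, F.coe q1 q1 (F.mem q1)⟩
  have hnh : F.e q1 '' O ∩ Metric.ball (F.u m.q) (F.r m.q) ∩ Metric.ball (F.u q1) (F.r q1) ∈
      𝓝 (F.u q1) :=
    Filter.inter_mem (Filter.inter_mem (himg.mem_nhds hu1)
      (Metric.isOpen_ball.mem_nhds (F.ball_of_mem h1)))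
      (Metric.ball_mem_nhds _ (F.hM q1).hr)
  obtain ⟨δ, hδ, hball⟩ := Metric.mem_nhds_iff.mp hnh
  have hev1 : ∀ᶠ q in 𝓝 q1, F.u q ∈ Metric.ball (F.u q1) δ :=
    (F.cont_u q1).eventually (Metric.ball_mem_nhds _ hδ)
  filter_upwards [hev1, (F.U_open m.q).mem_nhds h1, (F.U_open q1).mem_nhds (F.U_mem q1)] with
    q hq1 ha hb
  refine ⟨ha, hb, ?_⟩
  -- the path of parameters
  let χ : ℝ → ℝ := Real.smoothTransition
  let γ : ℝ → E := fun s => F.u q1 + χ s • (F.u q - F.u q1)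
  have hγs : ContDiff ℝ ∞ γ := by
    have h : ContDiff ℝ ∞ χ := Real.smoothTransition.contDiff
    exact contDiff_const.add (h.smul contDiff_const)
  have hγ0 : γ 0 = F.u q1 := by simp [γ, χ, Real.smoothTransition.zero]
  have hγ1 : γ 1 = F.u q := by simp [γ, χ, Real.smoothTransition.one]
  have hγb : ∀ s, γ s ∈ Metric.ball (F.u q1) δ := by
    intro s
    rw [mem_ball_iff_norm]
    have e1 : γ s - F.u q1 = χ s • (F.u q - F.u q1) := by simp [γ]
    rw [e1, norm_smul, Real.norm_of_nonneg (Real.smoothTransition.nonneg s)]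
    rw [mem_ball_iff_norm] at hq1
    have e2 : χ s ≤ 1 := Real.smoothTransition.le_one s
    calc χ s * ‖F.u q - F.u q1‖ ≤ 1 * ‖F.u q - F.u q1‖ :=
          mul_le_mul_of_nonneg_right e2 (norm_nonneg _)
      _ < δ := by rw [one_mul]; exact hq1
  have hγa : ∀ s, γ s ∈ Metric.ball (F.u m.q) (F.r m.q) := fun s => (hball (hγb s)).1.2
  have hγb' : ∀ s, γ s ∈ Metric.ball (F.u q1) (F.r q1) := fun s => (hball (hγb s)).2
  have hTT : ∀ s w, (γ s, w) ∈ F.T m.q ↔ (γ s, w) ∈ F.T q1 := by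
    intro s w
    obtain ⟨q', hq', he⟩ := (hball (hγb s)).1.1
    rw [F.coe q1 q' hq'.2] at he
    rw [← he, F.T_eq m.q q' hq'.1, F.T_eq q1 q' hq'.2]
  -- the two paths of members
  let A : ℝ → HEmb m.C' H := fun s => mapIso m.P (F.iso (hγa s)) m.coneT
  let m1 : Mark F C := m.trIn q1 h1
  let B : ℝ → HEmb m.C' H := fun s => mapIso m1.P (F.iso (q0 := q1) (hγb' s)) m1.coneT
  have hA : ∀ i, ContDiffOn ℝ ∞ (fun p : ℝ × V => (A p.1).u i p.2)
      (univ ×ˢ (m.C'.e i).target) := by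
    intro i p hp
    have e1 : ContDiffAt ℝ ∞ (fun p : E × V => m.P.fam (F.Φ m.q) i p.1 p.2) (γ p.1, p.2) :=
      fam_contDiffAt m.P (F.hM m.q) (fun w => (m.coneT w).symm) (hγa p.1) hp.2
        ((m.P.sm i).contDiffAt ((m.C'.e i).open_target.mem_nhds hp.2))
    have e2 : ContDiffAt ℝ ∞ (fun p : ℝ × V => (γ p.1, p.2)) p :=
      (hγs.contDiffAt.comp p contDiffAt_fst).prodMk contDiffAt_snd
    exact (e1.comp (f := fun p : ℝ × V => (γ p.1, p.2)) p e2).contDiffWithinAt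
  have hB : ∀ i, ContDiffOn ℝ ∞ (fun p : ℝ × V => (B p.1).u i p.2)
      (univ ×ˢ (m.C'.e i).target) := by
    intro i p hp
    have e1 : ContDiffAt ℝ ∞ (fun p : E × V => m1.P.fam (F.Φ q1) i p.1 p.2) (γ p.1, p.2) :=
      fam_contDiffAt m1.P (F.hM q1) (fun w => (m1.coneT w).symm) (hγb' p.1) hp.2
        ((m1.P.sm i).contDiffAt ((m.C'.e i).open_target.mem_nhds hp.2))
    have e2 : ContDiffAt ℝ ∞ (fun p : ℝ × V => (γ p.1, p.2)) p :=
      (hγs.contDiffAt.comp p contDiffAt_fst).prodMk contDiffAt_snd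
    exact (e1.comp (f := fun p : ℝ × V => (γ p.1, p.2)) p e2).contDiffWithinAt
  have hAB : ∀ s, (A s).cone = (B s).cone := by
    intro s
    ext w
    have a1 : w ∈ (A s).cone ↔ w ∈ {w | (γ s, w) ∈ F.T m.q} := mapIso_cone _ _ _ w
    have a2 : w ∈ (B s).cone ↔ w ∈ {w | (γ s, w) ∈ F.T q1} := mapIso_cone _ _ _ w
    exact a1.trans ((hTT s w).trans a2.symm)
  have h0 : ∀ i, ∀ z ∈ (m.C'.e i).target, (A 0).u i z = (B 0).u i z := by
    intro i z hz
    show F.Φ m.q (γ 0) (m.P.u i z) = F.Φ q1 (γ 0) (m1.P.u i z)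
    rw [hγ0]
    have e3 : m1.P.u i z = F.Φ m.q (F.u q1) (m.P.u i z) := rfl
    rw [← e3]
    exact ((F.hM q1).id0 _ ((m1.coneT _).mp (m1.P.mem_cone hz))).symm
  obtain ⟨f, hf, hft⟩ := htriv_of_path A B hA hB hAB h0
  refine ⟨rfl, f, ?_, hft.cmp m.cmp⟩
  -- identify the ends
  have e1 : Over (m.trIn q ha).P (A 1) id := by
    refine Over.of_eq (C := m.C') (P := (m.trIn q ha).P) (P' := A 1) fun i z _ => ?_
    show F.Φ m.q (F.u q) (m.P.u i z) = F.Φ m.q (γ 1) (m.P.u i z)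
    rw [hγ1]
  have e2 : Over (B 1) (m1.trIn q hb).P id := by
    refine Over.of_eq (C := m.C') (P := B 1) (P' := (m1.trIn q hb).P) fun i z _ => ?_
    show F.Φ q1 (γ 1) (m1.P.u i z) = F.Φ q1 (F.u q) (m1.P.u i z)
    rw [hγ1]
  exact (e1.comp hf).comp e2

/-- **the marked cover of the family** -/
def ls (F : QFam Q E H) (C : RCh V X) : LS Q (difG C ⧸ tG C) (MQ F C) where
  p := MQ.p
  U := F.U
  U_open := F.U_open
  U_mem := F.U_mem
  s := MQ.s
  p_s x q hq := by
    obtain ⟨m, rfl⟩ := MQ.exists_rep x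
    rw [MQ.s_mk_mem m hq]
    rfl
  s_self x := by
    obtain ⟨m, rfl⟩ := MQ.exists_rep x
    rw [MQ.p_mk, MQ.s_mk_mem m (F.U_mem m.q)]
    exact MQ.sound (trIn_self m)
  surj q0 y hy := by
    obtain ⟨m, rfl⟩ := MQ.exists_rep y
    rw [MQ.p_mk] at hy
    refine ⟨MQ.mk (m.back q0 hy), rfl, ?_⟩
    rw [MQ.p_mk, MQ.s_mk_mem (m.back q0 hy) hy]
    exact MQ.sound (trIn_back m hy)
  inj x y hxy q hq he := by
    obtain ⟨m, rfl⟩ := MQ.exists_rep x
    obtain ⟨m', rfl⟩ := MQ.exists_rep y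
    rw [MQ.p_mk, MQ.p_mk] at hxy
    rw [MQ.p_mk] at hq
    have hq' : q ∈ F.U m'.q := by rw [← hxy]; exact hq
    rw [MQ.s_mk_mem m hq, MQ.s_mk_mem m' hq'] at he
    exact MQ.sound (trIn_inj hxy hq hq' (MQ.exact he))
  loc x q1 hq1 := by
    obtain ⟨m, rfl⟩ := MQ.exists_rep x
    rw [MQ.p_mk] at hq1
    filter_upwards [trIn_loc m hq1] with q hq
    obtain ⟨ha, hb, hs⟩ := hq
    rw [MQ.s_mk_mem m ha, MQ.s_mk_mem m hq1, MQ.s_mk_mem (m.trIn q1 hq1) hb]
    exact MQ.sound hs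
  p_smul g x := by
    obtain ⟨g, rfl⟩ := QuotientGroup.mk_surjective g
    obtain ⟨m, rfl⟩ := MQ.exists_rep x
    rfl
  s_smul g x q hq := by
    obtain ⟨g, rfl⟩ := QuotientGroup.mk_surjective g
    obtain ⟨m, rfl⟩ := MQ.exists_rep x
    rw [MQ.p_mk] at hq
    rw [smul_mk', MQ.s_mk_mem m hq, smul_mk', MQ.s_mk_mem (act g m) hq]
    refine MQ.sound ⟨rfl, id, ?_, HTriv.id C⟩
    exact Over.of_eq (C := mapCh m.C' g.1) (P := ((act g m).trIn q hq).P)
      (P' := (act g (m.trIn q hq)).P) fun i z _ => rfl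
  trans x y hxy := by
    obtain ⟨m, rfl⟩ := MQ.exists_rep x
    obtain ⟨m', rfl⟩ := MQ.exists_rep y
    rw [MQ.p_mk, MQ.p_mk] at hxy
    obtain ⟨φ, hφ⟩ := over_difG (C := C) m.cmp m'.cmp m.P m'.P (cone_eq hxy)
    refine ⟨QuotientGroup.mk φ, ?_⟩
    rw [smul_mk']
    refine MQ.sound ⟨hxy.symm, id, ?_, HTriv.id C⟩
    have e1 : Over m'.P m.P φ.1.symm := hφ.inv fun x => φ.1.apply_symm_apply x
    have e2 := e1.comp (over_mapHom m.P φ.1)
    have e3 : φ.1 ∘ φ.1.symm = id := by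
      funext x
      exact φ.1.apply_symm_apply x
    rw [e3] at e2
    exact e2

end

end Crest.Agent.R281.Ehr6_268
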