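import Crest.Agent.R281.Phl2_655
import Crest.Agent.R281.Ehr6_268
import Crest.Agent.R281.F2Mod_358

/-!
# R281 (S0424), PER-HOL, part 3 (helper655): single members, naturality, the marked family

* `pw_fix`      : the pull back, read with any representative of the member
* `pull_nat`    : naturality of the pull back under smooth maps (other charts, other family)
* `B1 K`        : closed basic 2-forms on one cone, `B1.pull τ P`, `B1.pull_over`
* `BF.fib`      : restriction to a fibre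
* `PFam.ofFam`  : the family of 268 / 461 / 871 through a member
* `QB`, `QC`    : global real / holomorphic forms on a `QFam`; `QB.om`, `om_over`, `om_trIn`
-/

set_option autoImplicit false
set_option linter.unusedSectionVars false
set_option synthInstance.maxHeartbeats 100000

open Set Filter Topology Complex
open scoped ContDiff

namespace Crest.Agent.R281.Phl_655

open Crest.Agent.R281.HkR_835 Crest.Agent.R281.Ehr2_268
open Crest.Agent.R281.Dif_268 hiding Coh symm2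
open Crest.Agent.R281.Ehr4_268 Crest.Agent.R281.Ehr6_268

noncomputable section

variable {V X : Type} [NormedAddCommGroup V] [NormedSpace ℝ V] [TopologicalSpace X]
variable {V' X' : Type} [NormedAddCommGroup V'] [NormedSpace ℝ V'] [TopologicalSpace X']
variable {E : Type} [NormedAddCommGroup E] [NormedSpace ℂ E]
variable {E' : Type} [NormedAddCommGroup E'] [NormedSpace ℂ E']
variable {H : Type} [NormedAddCommGroup H] [NormedSpace ℂ H]

/-! ### representatives of a fixed member -/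

section rep

variable {W : Type} [NormedAddCommGroup W] [NormedSpace ℝ W] {S : Set (E × H)}

theorem vel_of {c : E} {f : W → H} {z : W} (hf : DifferentiableAt ℝ f z)
    (hm : ∀ᶠ y in 𝓝 z, (c, f y) ∈ S) (v : W) : Vel S c (f z) (fderiv ℝ f z v) := by
  have ht : Tendsto (fun t : ℝ => z + t • v) (𝓝 0) (𝓝 z) :=
    Continuous.tendsto' (by fun_prop) _ _ (by simp)
  refine ⟨fun t => f (z + t • v), by simp, ?_, ht.eventually hm⟩
  have h1 : HasDerivAt (fun t : ℝ => z + t • v) v 0 := by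
    simpa using ((hasDerivAt_id (0 : ℝ)).smul_const v).const_add z
  have h3 : HasFDerivAt f (fderiv ℝ f z) (z + (0 : ℝ) • v) := by simpa using hf.hasFDerivAt
  exact HasFDerivAt.comp_hasDerivAt (f := fun t : ℝ => z + t • v) (l := f) (0 : ℝ) h3 h1

/-- change of the representative -/
theorem rep_scale {f h : W → H} {z : W} (hf : DifferentiableAt ℝ f z)
    (hh : DifferentiableAt ℝ h z) (h0 : f z ≠ 0)
    (he : ∀ᶠ y in 𝓝 z, ∃ a : ℂ, a ≠ 0 ∧ h y = a • f y) :
    ∃ (a : ℂ) (b : W → ℂ), a ≠ 0 ∧ h z = a • f z ∧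
      ∀ v, fderiv ℝ h z v = a • fderiv ℝ f z v + b v • f z := by
  obtain ⟨g, -, hg⟩ := exists_dual_vector ℂ (f z) (norm_ne_zero_iff.mpr h0)
  have hg0 : g (f z) ≠ 0 := by rw [hg]; simpa using h0
  have h1 : DifferentiableAt ℝ (fun y => g (f y)) z :=
    (g.restrictScalars ℝ).differentiableAt.comp z hf
  have h2 : DifferentiableAt ℝ (fun y => g (h y)) z :=
    (g.restrictScalars ℝ).differentiableAt.comp z hh
  have key : ∀ᶠ y in 𝓝 z, g (h y) / g (f y) ≠ 0 ∧ h y = (g (h y) / g (f y)) • f y := by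
    filter_upwards [he, h1.continuousAt.eventually_ne hg0] with y hy1 hy2
    obtain ⟨a, ha, e⟩ := hy1
    have e1 : g (h y) / g (f y) = a := by
      rw [e, map_smul, smul_eq_mul, mul_div_assoc, div_self hy2, mul_one]
    rw [e1]
    exact ⟨ha, e⟩
  have h3 : DifferentiableAt ℝ (fun y => g (h y) / g (f y)) z := by
    simp only [div_eq_mul_inv]
    exact h2.mul (h1.inv hg0)
  refine ⟨_, fun v => fderiv ℝ (fun y => g (h y) / g (f y)) z v, key.self_of_nhds.1,
    key.self_of_nhds.2, fun v => ?_⟩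
  have h4 : h =ᶠ[𝓝 z] fun y => (g (h y) / g (f y)) • f y := key.mono fun y hy => hy.2
  have h5 : HasFDerivAt (fun y => (g (h y) / g (f y)) • f y) _ z :=
    h3.hasFDerivAt.smul hf.hasFDerivAt
  have h6 := (h5.congr_of_eventuallyEq h4).fderiv
  rw [h6]
  simp

theorem sg_scale (σ : BF S) {c : E} {f h : W → H} {z : W} (hf : DifferentiableAt ℝ f z)
    (hh : DifferentiableAt ℝ h z) (h0 : f z ≠ 0) (hm : ∀ᶠ y in 𝓝 z, (c, f y) ∈ S)
    (he : ∀ᶠ y in 𝓝 z, ∃ a : ℂ, a ≠ 0 ∧ h y = a • f y) (v w : W) :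
    σ.sg c (h z) (fderiv ℝ h z v) (fderiv ℝ h z w) =
      σ.sg c (f z) (fderiv ℝ f z v) (fderiv ℝ f z w) := by
  obtain ⟨a, b, ha, e1, e2⟩ := rep_scale hf hh h0 he
  rw [e1, e2, e2]
  exact σ.bas c _ hm.self_of_nhds a ha _ _ _ _ (vel_of hf hm v) (vel_of hf hm w)

end rep

section fix

variable {C : RCh V X} {B : Set E} {S : Set (E × H)} {F : PFam C H B} {i : C.ι} {c : E}

/-- the pull back, read with any representative of the member `c` -/
theorem pw_fix (σ : BF S) (hS : Cn S) (hF : F.In S) (hc : c ∈ B) {z : V}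
    (hz : z ∈ (C.e i).target) {h : V → H} (hd : DifferentiableAt ℝ h z)
    (he : ∀ᶠ y in 𝓝 z, ∃ a : ℂ, a ≠ 0 ∧ h y = a • F.u i c y) (v w : V) :
    σ.pw i F c z v w = σ.sg c (h z) (fderiv ℝ h z v) (fderiv ℝ h z w) := by
  obtain ⟨U, hU⟩ := F.exists_lift hc hz
  have ht : Tendsto (fun y : V => (c, y)) (𝓝 z) (𝓝 (c, z)) :=
    Continuous.tendsto' (by fun_prop) _ _ rfl
  have hfd : HasFDerivAt (fun y => U (c, y)) (dz U (c, z)) z := hasFDerivAt_dz hU.diff
  rw [pw_apply σ hS hF hc hz hU, ← hfd.fderiv]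
  refine (sg_scale σ (f := fun y => U (c, y)) hfd.differentiableAt hd (hU.ne hc hz) ?_ ?_ v w).symm
  · filter_upwards [ht.eventually hU.eventually, ht.eventually (nhds_mem F hc hz)] with y h1 h2
    exact h1.mem hS hF h2.1 h2.2
  · filter_upwards [he, ht.eventually hU] with y h1 h2
    obtain ⟨a, ha, e1⟩ := h1
    obtain ⟨-, ⟨b, hb, e2⟩, -⟩ := h2
    refine ⟨a * b⁻¹, mul_ne_zero ha (inv_ne_zero hb), ?_⟩
    rw [e1, e2, smul_smul, mul_assoc, inv_mul_cancel₀ hb, mul_one]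

end fix

/-! ### naturality -/

section nat

variable {C : RCh V X} {C' : RCh V' X'} {B : Set E} {B' : Set E'} {S : Set (E × H)}
  {S' : Set (E' × H)} {F : PFam C H B} {F' : PFam C' H B'} {c : E} {c' : E'}

/-- **naturality** of the pull back: `g : X' → X` smooth, `F'_{c'} = F_c ∘ g` as maps into the
projective space, and the two forms agree on the common velocities -/
theorem pull_nat (g : SMap C' C) (σ : BF S) (σ' : BF S') (hS : Cn S) (hS' : Cn S')
    (hF : F.In S) (hF' : F'.In S') (hc : c ∈ B) (hc' : c' ∈ B')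
    (hrel : ∀ i j, ∀ z ∈ dom C C' g.f i j, ∃ a : ℂ, a ≠ 0 ∧
      F'.u j c' z = a • F.u i c (loc C C' g.f i j z))
    (hsg : ∀ x u v, (c, x) ∈ S → (c', x) ∈ S' → Vel S c x u → Vel S c x v → Vel S' c' x u →
      Vel S' c' x v → σ'.sg c' x u v = σ.sg c x u v) :
    Eqv (σ'.pull F' hS' hF' hc') (g.pull (σ.pull F hS hF hc)) := by
  intro j z hz u v
  obtain ⟨i, hi⟩ := g.exists_dom hz
  rw [g.pull_w _ hi]
  show σ'.pw j F' c' z u v = σ.pw i F c _ _ _
  obtain ⟨U, hU⟩ := F.exists_lift hc (g.loc_mem hi)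
  rw [pw_apply σ hS hF hc (g.loc_mem hi) hU]
  have hfd : HasFDerivAt (fun y => U (c, loc C C' g.f i j y))
      ((dz U (c, loc C C' g.f i j z)).comp (fderiv ℝ (loc C C' g.f i j) z)) z :=
    HasFDerivAt.comp (f := loc C C' g.f i j) (g := fun y => U (c, y)) z
      (hasFDerivAt_dz hU.diff) (g.diff_loc hi).hasFDerivAt
  have e1 : ∀ u, dz U (c, loc C C' g.f i j z) (fderiv ℝ (loc C C' g.f i j) z u) =
      fderiv ℝ (fun y => U (c, loc C C' g.f i j y)) z u := fun u => by
    rw [hfd.fderiv]; rfl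
  have ht : Tendsto (fun y : V' => (c, loc C C' g.f i j y)) (𝓝 z)
      (𝓝 (c, loc C C' g.f i j z)) :=
    (continuousAt_const.prodMk (g.diff_loc hi).continuousAt)
  have hd : ∀ᶠ y in 𝓝 z, y ∈ dom C C' g.f i j := (g.isOpen_dom i j).mem_nhds hi
  have hrep : ∀ᶠ y in 𝓝 z, ∃ a : ℂ, a ≠ 0 ∧
      U (c, loc C C' g.f i j y) = a • F'.u j c' y := by
    filter_upwards [ht.eventually hU, hd] with y h1 h2
    obtain ⟨-, ⟨a, ha, e⟩, -⟩ := h1
    obtain ⟨b, hb, e'⟩ := hrel i j y h2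
    refine ⟨a * b⁻¹, mul_ne_zero ha (inv_ne_zero hb), ?_⟩
    rw [e, e', smul_smul, mul_assoc, inv_mul_cancel₀ hb, mul_one]
  have hm : ∀ᶠ y in 𝓝 z, (c, U (c, loc C C' g.f i j y)) ∈ S := by
    filter_upwards [ht.eventually hU.eventually, hd] with y h1 h2
    exact h1.mem hS hF hc (g.loc_mem h2)
  have hm' : ∀ᶠ y in 𝓝 z, (c', U (c, loc C C' g.f i j y)) ∈ S' := by
    filter_upwards [hrep, hd] with y h1 h2
    obtain ⟨a, ha, e⟩ := h1
    rw [e]
    exact hS' _ _ (hF' j c' hc' y h2.1) a ha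
  rw [pw_fix σ' hS' hF' hc' hz (h := fun y => U (c, loc C C' g.f i j y))
    hfd.differentiableAt hrep u v, e1, e1]
  exact hsg _ _ _ hm.self_of_nhds hm'.self_of_nhds (vel_of hfd.differentiableAt hm u)
    (vel_of hfd.differentiableAt hm v) (vel_of hfd.differentiableAt hm' u)
    (vel_of hfd.differentiableAt hm' v)

end nat


/-! ### constructors -/

/-- a family with global lifts on the charts -/
def PFam.ofU {C : RCh V X} {B : Set E} (hB : IsOpen B) (u : C.ι → E → V → H)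
    (sm : ∀ i, ContDiffOn ℝ ∞ (fun p : E × V => u i p.1 p.2) (B ×ˢ (C.e i).target))
    (ne : ∀ i, ∀ c ∈ B, ∀ z ∈ (C.e i).target, u i c z ≠ 0)
    (tr : ∀ i j, ∀ c ∈ B, ∀ z ∈ C.ov i j, ∃ a : ℂ, u i c z = a • u j c (C.t i j z))
    (hol : ∀ i, ∀ c ∈ B, ∀ z ∈ (C.e i).target, DifferentiableAt ℂ (fun c => u i c z) c) :
    PFam C H B where
  op := hB
  u := u
  ne := ne
  tr := tr
  loc i c hc z hz := by
    refine ⟨fun p => u i p.1 p.2, ?_⟩
    have ho : IsOpen (B ×ˢ (C.e i).target) := hB.prod (C.e i).open_target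
    filter_upwards [ho.mem_nhds (show (c, z) ∈ _ from ⟨hc, hz⟩)] with p hp
    exact ⟨(sm i).contDiffAt (ho.mem_nhds hp), ⟨1, one_ne_zero, (one_smul ℂ _).symm⟩,
      hol i p.1 hp.1 p.2 hp.2⟩

/-- **the family through the member `P`** given by a `ConeMap` -/
def PFam.ofFam {C : RCh V X} (P : HEmb C H) {S : Set (E × H)} {c0 : E} {r : ℝ} {Φ Ψ : E → H → H}
    (hM : ConeMap S c0 r Φ Ψ) (hP : ∀ w, (c0, w) ∈ S ↔ w ∈ P.cone) :
    PFam C H (Metric.ball c0 r) :=
  PFam.ofU Metric.isOpen_ball (fun i c z => P.fam Φ i c z) (fam_smooth P hM hP)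
    (fun _ _ hc _ hz => fam_ne P hM hP hc hz)
    (fun _ _ c hc _ hz => by
      obtain ⟨a, -, h⟩ := fam_tr P hM hP hz
      exact ⟨a, h c hc⟩)
    (fun _ _ hc _ hz => fam_holo P hM hP hc hz)

theorem PFam.ofFam_in {C : RCh V X} (P : HEmb C H) {S : Set (E × H)} {c0 : E} {r : ℝ}
    {Φ Ψ : E → H → H} (hM : ConeMap S c0 r Φ Ψ) (hP : ∀ w, (c0, w) ∈ S ↔ w ∈ P.cone) :
    (PFam.ofFam P hM hP).In S := fun _ _ hc _ hz => fam_mem P hM hP hc hz

theorem cn_of {S : Set (E × H)} {c0 : E} {r : ℝ} {Φ Ψ : E → H → H}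
    (hM : ConeMap S c0 r Φ Ψ) : Cn S := fun _ _ hx a ha => hM.cone _ hx a ha

/-- one member, as a constant family -/
def PFam.one {C : RCh V X} (P : HEmb C H) : PFam C H (univ : Set ℂ) :=
  PFam.ofU isOpen_univ (fun i _ z => P.u i z)
    (fun i => (P.sm i).comp contDiffOn_snd fun _ hp => hp.2)
    (fun i _ _ z hz => P.ne i z hz) (fun i j _ _ z hz => P.tr i j z hz)
    (fun _ _ _ _ _ => differentiableAt_const _)

/-- linear image of a family -/
def PFam.map {C : RCh V X} {B : Set E} {G : Type} [NormedAddCommGroup G] [NormedSpace ℂ G]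
    (F : PFam C H B) (T : H →L[ℂ] G)
    (hT : ∀ i, ∀ c ∈ B, ∀ z ∈ (C.e i).target, T (F.u i c z) ≠ 0) : PFam C G B where
  op := F.op
  u i c z := T (F.u i c z)
  ne := hT
  tr i j c hc z hz := by
    obtain ⟨a, ha⟩ := F.tr i j c hc z hz
    exact ⟨a, by rw [ha, map_smul]⟩
  loc i c hc z hz := by
    obtain ⟨U, hU⟩ := F.loc i c hc z hz
    refine ⟨fun p => T (U p), ?_⟩
    filter_upwards [hU] with p hp
    obtain ⟨h1, ⟨a, ha, h2⟩, h3⟩ := hp
    exact ⟨(T.restrictScalars ℝ).contDiff.contDiffAt.comp p h1,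
      ⟨a, ha, by rw [h2, map_smul]⟩, T.differentiableAt.comp p.1 h3⟩

/-! ### forms on one cone -/

/-- velocities of curves in `K` -/
def V1 (K : Set H) (x v : H) : Prop :=
  ∃ γ : ℝ → H, γ 0 = x ∧ HasDerivAt γ v 0 ∧ ∀ᶠ t in 𝓝 (0 : ℝ), γ t ∈ K


/-- closed basic real 2-forms on a cone -/
structure B1 (K : Set H) where
  sg : H → H → H → ℝ
  loc : ∀ x ∈ K, ∃ Sg : H → H →L[ℝ] H →L[ℝ] ℝ,
    (∀ᶠ y in 𝓝 x, ContDiffAt ℝ ∞ Sg y ∧ (y ∈ K → (∀ u v, Sg y u v = -Sg y v u) ∧
      ∀ u v, V1 K y u → V1 K y v → Sg y u v = sg y u v)) ∧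
    ∀ u v w, V1 K x u → V1 K x v → V1 K x w →
      fderiv ℝ Sg x u v w + fderiv ℝ Sg x v w u + fderiv ℝ Sg x w u v = 0
  bas : ∀ x ∈ K, ∀ a : ℂ, a ≠ 0 → ∀ b b' : ℂ, ∀ u v, V1 K x u → V1 K x v →
    sg (a • x) (a • u + b • x) (a • v + b' • x) = sg x u v

/-- restriction to a fibre -/
def BF.fib {S : Set (E × H)} (σ : BF S) (c : E) {K : Set H} (hK : ∀ w, (c, w) ∈ S ↔ w ∈ K) :
    B1 K where
  sg := σ.sg c
  loc x hx := by
    obtain rfl : K = {w | (c, w) ∈ S} := by ext w; exact (hK w).symm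
    obtain ⟨Sg, h1, h2⟩ := σ.loc c x hx
    have ht : Tendsto (fun y : H => (c, y)) (𝓝 x) (𝓝 (c, x)) :=
      Continuous.tendsto' (by fun_prop) _ _ rfl
    refine ⟨fun y => Sg (c, y), ?_, ?_⟩
    · filter_upwards [ht.eventually h1] with y hy
      refine ⟨?_, hy.2⟩
      have h3 : ContDiffAt ℝ ∞ (fun y : H => (c, y)) y := by fun_prop
      exact ContDiffAt.comp (f := fun y : H => (c, y)) (g := Sg) y hy.1 h3
    · intro u v w hu hv hw
      have h3 : HasFDerivAt (fun y => Sg (c, y))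
          ((fderiv ℝ Sg (c, x)).comp (ContinuousLinearMap.inr ℝ E H)) x :=
        HasFDerivAt.comp (f := fun y : H => (c, y)) (g := Sg) x
          (h1.self_of_nhds.1.differentiableAt (by simp)).hasFDerivAt
          (hasFDerivAt_prodMk_right _ _)
      rw [h3.fderiv]
      exact h2 u v w hu hv hw
  bas x hx := by
    obtain rfl : K = {w | (c, w) ∈ S} := by ext w; exact (hK w).symm
    exact σ.bas c x hx

/-- the constant family of forms over any parameter space -/
def B1.bf {K : Set H} (τ : B1 K) (E : Type) [NormedAddCommGroup E] [NormedSpace ℂ E] :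
    BF {p : E × H | p.2 ∈ K} where
  sg _ := τ.sg
  loc c x hx := by
    obtain ⟨Sg, h1, h2⟩ := τ.loc x hx
    have ht : Tendsto (fun p : E × H => p.2) (𝓝 (c, x)) (𝓝 x) := continuousAt_snd
    refine ⟨fun p => Sg p.2, ?_, ?_⟩
    · filter_upwards [ht.eventually h1] with p hp
      exact ⟨ContDiffAt.comp (f := fun p : E × H => p.2) (g := Sg) p hp.1 contDiffAt_snd, hp.2⟩
    · intro u v w hu hv hw
      have h3 : HasFDerivAt (fun p : E × H => Sg p.2)
          ((fderiv ℝ Sg x).comp (ContinuousLinearMap.snd ℝ E H)) (c, x) :=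
        HasFDerivAt.comp (f := fun p : E × H => p.2) (g := Sg) (c, x)
          (h1.self_of_nhds.1.differentiableAt (by simp)).hasFDerivAt hasFDerivAt_snd
      rw [h3.fderiv]
      exact h2 u v w hu hv hw
  bas _ x hx := τ.bas x hx

/-- stable under scaling -/
def Co (K : Set H) : Prop := ∀ x ∈ K, ∀ a : ℂ, a ≠ 0 → a • x ∈ K

theorem Co.cn {K : Set H} (h : Co K) (E : Type) [NormedAddCommGroup E] [NormedSpace ℂ E] :
    Cn {p : E × H | p.2 ∈ K} := fun _ x hx a ha => h x hx a ha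

/-- the member has its values in `K` -/
def InK {C : RCh V X} (P : HEmb C H) (K : Set H) : Prop := ∀ i, ∀ z ∈ (C.e i).target, P.u i z ∈ K

theorem InK.one {C : RCh V X} {P : HEmb C H} {K : Set H} (h : InK P K) :
    (PFam.one P).In {p : ℂ × H | p.2 ∈ K} := fun i _ _ z hz => h i z hz

theorem inK_of {C : RCh V X} {P : HEmb C H} {K : Set H} (h : ∀ w, w ∈ P.cone → w ∈ K) :
    InK P K := fun _ _ hz => h _ (P.mem_cone hz)

/-- **pull back by one member** -/
def B1.pull {C : RCh V X} {K : Set H} (τ : B1 K) (hK : Co K) (P : HEmb C H) (hP : InK P K) :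
    F2 C :=
  (τ.bf ℂ).pull (PFam.one P) (hK.cn ℂ) hP.one (mem_univ (0 : ℂ))

/-- value of the pull back, in any representative -/
theorem B1.pull_w {C : RCh V X} {K : Set H} (τ : B1 K) (hK : Co K) (P : HEmb C H) (hP : InK P K)
    {i : C.ι} {z : V} (hz : z ∈ (C.e i).target) (v w : V) :
    (τ.pull hK P hP).w i z v w =
      τ.sg (P.u i z) (fderiv ℝ (P.u i) z v) (fderiv ℝ (P.u i) z w) := by
  refine pw_fix (F := PFam.one P) (τ.bf ℂ) (hK.cn ℂ) hP.one (mem_univ (0 : ℂ)) hz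
    (h := P.u i) ?_ (Eventually.of_forall fun y => ⟨1, one_ne_zero, (one_smul ℂ _).symm⟩) v w
  exact ((P.sm i).contDiffAt ((C.e i).open_target.mem_nhds hz)).differentiableAt (by simp)



/-! ### the marked family -/

universe uq

variable {Q : Type uq} [TopologicalSpace Q]

/-- the family through a marking -/
def pf {F : QFam Q E H} {C : RCh V X} (m : Mark F C) :
    PFam m.C' H (Metric.ball (F.u m.q) (F.r m.q)) :=
  PFam.ofFam m.P (F.hM m.q) fun w => (m.coneT w).symm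

theorem pf_in {F : QFam Q E H} {C : RCh V X} (m : Mark F C) : (pf m).In (F.T m.q) :=
  PFam.ofFam_in m.P (F.hM m.q) fun w => (m.coneT w).symm

theorem cnT (F : QFam Q E H) (q : Q) : Cn (F.T q) := cn_of (F.hM q)

theorem T_self (F : QFam Q E H) (q : Q) (w : H) : (F.u q, w) ∈ F.T q ↔ w ∈ F.S q :=
  F.T_eq q q (F.mem q) w

theorem coS (F : QFam Q E H) (q : Q) : Co (F.S q) := fun x hx a ha =>
  (T_self F q _).mp (cnT F q _ _ ((T_self F q x).mpr hx) a ha)

theorem inS {F : QFam Q E H} {C : RCh V X} (m : Mark F C) : InK m.P (F.S m.q) :=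
  inK_of fun w hw => (m.cone w).mp hw

/-- global real closed basic form on the family -/
structure QB (F : QFam Q E H) where
  sg : Q → H → H → H → ℝ
  σ : ∀ q0, BF (F.T q0)
  eq : ∀ q0, ∀ q ∈ (F.e q0).source, ∀ x ∈ F.S q, ∀ u v, V1 (F.S q) x u → V1 (F.S q) x v →
    (σ q0).sg (F.u q) x u v = sg q x u v

/-- global holomorphic form on the family -/
structure QC (F : QFam Q E H) where
  sg : Q → H → H → H → ℂ
  σ : ∀ q0, CF (F.T q0)
  eq : ∀ q0, ∀ q ∈ (F.e q0).source, ∀ x ∈ F.S q, ∀ u v, V1 (F.S q) x u → V1 (F.S q) x v →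
    (σ q0).sg (F.u q) x u v = sg q x u v

/-- real or imaginary part -/
def QC.part {F : QFam Q E H} (β : QC F) (π : ℂ →L[ℝ] ℝ) : QB F where
  sg q x u v := π (β.sg q x u v)
  σ q0 := (β.σ q0).part π
  eq q0 q hq x hx u v hu hv := congrArg π (β.eq q0 q hq x hx u v hu hv)

namespace QB

variable {F : QFam Q E H} (β : QB F) {C : RCh V X}

/-- the form on the cone of `q` -/
def at' (q : Q) : B1 (F.S q) := (β.σ q).fib (F.u q) (T_self F q)


/-- **the pull back by a marking** -/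
def om (m : Mark F C) : F2 m.C' := (β.at' m.q).pull (coS F m.q) m.P (inS m)




end QB

end

end Crest.Agent.R281.Phl_655
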