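import Crest.Agent.R281.Blk5_592
import Crest.Agent.R281.Phl3_655

/-!
# R281 (S0424), blocks of members (helper592), part 6: Fubini-Study and block forms as basic forms

* `FS J`        : `B1 {x : J → ℂ | x ≠ 0}`, `sg = fsv` (655's language)
* `segK`        : the Segre cone; `segB k` : the `k`-th block form, a `B1 segK`
* `segB_sg`     : its value with any base index
* `BF.of`, `QB.of` : a `B1` on a parameter-free cone gives a `BF`, a `QB`
* `F_FS`, `F_segB` : `Cmp.F (τ.pull P)` = curvature form of `hmap.fs`, `hblk.fs`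
* `segB_sum`    : `∑ segB k = FS`
-/

set_option autoImplicit false
set_option linter.unusedSectionVars false
set_option synthInstance.maxHeartbeats 100000

open Set Filter Topology Complex Function
open scoped ContDiff Matrix ComplexConjugate Manifold ComplexOrder

namespace Crest.Agent.R281.Blk_592

open Crest.Agent.R275.Geo Crest.Agent.R275.Core144
open Crest.Agent.R273.Defs_333 Crest.Agent.R273.Hess_333 Crest.Agent.R273.HessB_333
open Crest.Agent.R273.HM_333 Crest.Agent.R273.Kah_333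
open Crest.Agent.R281.HkR_835 Crest.Agent.R281.Ehr2_268 Crest.Agent.R281.Pe_313
open Crest.Agent.R281.Phl_655

noncomputable section

theorem cd_flip {V W : Type} [NormedAddCommGroup V] [NormedSpace ℝ V] [NormedAddCommGroup W]
    [NormedSpace ℝ W] : ContDiff ℝ ∞ (fun T : V →L[ℝ] W →L[ℝ] ℝ => T.flip) := by
  have h : IsBoundedLinearMap ℝ (fun T : V →L[ℝ] W →L[ℝ] ℝ => T.flip) := by
    refine ⟨⟨fun x y => ?_, fun c x => ?_⟩, 1, one_pos, fun T => ?_⟩
    · ext; simp
    · ext; simp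
    · rw [one_mul]; exact T.opNorm_flip.le
  exact h.contDiff

section Form

variable {J : Type} [Fintype J]

/-- `Im ⟨v, y⟩`, linear in `y` -/
def imL (J : Type) [Fintype J] : (J → ℂ) →L[ℝ] (J → ℂ) →L[ℝ] ℝ :=
  LinearMap.toContinuousLinearMap
    { toFun := fun y => LinearMap.toContinuousLinearMap
        { toFun := fun v => (hp v y).im
          map_add' := fun v v' => by rw [hp_add_left, add_im]
          map_smul' := fun c v => by
            have h : (c • v) = ((c : ℂ)) • v := by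
              funext k
              simp
            rw [h, hp_smul_left]
            simp }
      map_add' := fun y y' => by
        ext v
        show (hp v (y + y')).im = (hp v y).im + (hp v y').im
        rw [hp_add_right, add_im]
      map_smul' := fun c y => by
        ext v
        show (hp v (c • y)).im = c * (hp v y).im
        have h : (c • y) = ((c : ℂ)) • y := by
          funext k
          simp
        rw [h, hp_smul_right, conj_ofReal, im_ofReal_mul] }

theorem imL_apply (y v : J → ℂ) : imL J y v = (hp v y).im := rfl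

/-- `|y|²` -/
def rr (y : J → ℂ) : ℝ := ∑ k, ‖y k‖ ^ 2

theorem hp_rr (y : J → ℂ) : hp y y = (rr y : ℂ) := hp_self y

theorem rr_pos {y : J → ℂ} (h : y ≠ 0) : 0 < rr y := MapD.sq_pos' h

theorem contDiff_rr : ContDiff ℝ ∞ (rr : (J → ℂ) → ℝ) := by
  refine ContDiff.sum fun k _ => ?_
  exact (contDiff_apply ℝ ℂ k).norm_sq ℝ

theorem fderiv_rr (y u : J → ℂ) : fderiv ℝ (rr : (J → ℂ) → ℝ) y u = 2 * (hp u y).re := by
  have h : HasFDerivAt (rr : (J → ℂ) → ℝ) (∑ k : J, (2 • (innerSL ℝ (y k)).comp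
      (ContinuousLinearMap.proj (R := ℝ) k))) y := by
    refine HasFDerivAt.fun_sum fun k _ => ?_
    have h1 : HasFDerivAt (fun y : J → ℂ => y k) (ContinuousLinearMap.proj (R := ℝ) k) y :=
      hasFDerivAt_apply k y
    exact h1.norm_sq
  rw [h.fderiv]
  simp only [_root_.sum_apply, _root_.smul_apply,
    ContinuousLinearMap.comp_apply, ContinuousLinearMap.proj_apply, innerSL_apply_apply,
    Complex.inner, hp, re_sum, Finset.mul_sum]
  refine Finset.sum_congr rfl fun k _ => ?_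
  simp only [mul_re, conj_re, conj_im, nsmul_eq_mul, Nat.cast_ofNat]
  try ring

/-- a primitive of twice the Fubini-Study form -/
def eta (y : J → ℂ) : (J → ℂ) →L[ℝ] ℝ := (rr y)⁻¹ • imL J y

theorem contDiffAt_eta {y : J → ℂ} (h : y ≠ 0) : ContDiffAt ℝ ∞ (eta : (J → ℂ) → _) y :=
  (contDiff_rr.contDiffAt.inv (rr_pos h).ne').smul (imL J).contDiff.contDiffAt

theorem fderiv_eta {y : J → ℂ} (h : y ≠ 0) (u v : J → ℂ) :
    fderiv ℝ (eta : (J → ℂ) → _) y u v =
      (rr y)⁻¹ * (hp v u).im - ((rr y)⁻¹) ^ 2 * (2 * (hp u y).re) * (hp v y).im := by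
  have h1 : HasFDerivAt (rr : (J → ℂ) → ℝ) (fderiv ℝ rr y) y :=
    (contDiff_rr.differentiable (by simp) y).hasFDerivAt
  have h2 := ((hasDerivAt_inv (rr_pos h).ne').comp_hasFDerivAt y h1).smul (imL J).hasFDerivAt
  have h3 : (eta : (J → ℂ) → _) = fun y => (Inv.inv ∘ rr) y • imL J y := rfl
  have h4 := h2.fderiv
  have h5 : fderiv ℝ (eta : (J → ℂ) → (J → ℂ) →L[ℝ] ℝ) y = _ := h4
  rw [h5]
  simp only [_root_.add_apply, _root_.smul_apply,
    ContinuousLinearMap.smulRight_apply, Function.comp_apply, fderiv_rr, imL_apply, smul_eq_mul]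
  ring

/-- the Fubini-Study form as a bilinear form -/
def fsB (y : J → ℂ) : (J → ℂ) →L[ℝ] (J → ℂ) →L[ℝ] ℝ :=
  (2⁻¹ : ℝ) • (fderiv ℝ eta y - (fderiv ℝ eta y).flip)

theorem fsB_apply {y : J → ℂ} (h : y ≠ 0) (u v : J → ℂ) : fsB y u v = fsv y u v := by
  have h1 : fsB y u v = 2⁻¹ * (fderiv ℝ eta y u v - fderiv ℝ eta y v u) := rfl
  rw [h1, fderiv_eta h, fderiv_eta h]
  unfold fsv fsh
  have h2 : hp y v = conj (hp v y) := (hp_conj v y).symm
  have h3 : hp v u = conj (hp u v) := (hp_conj u v).symm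
  rw [hp_rr, h2, h3]
  have h4 : (I * (hp u v / (rr y : ℂ) - hp u y * conj (hp v y) / (rr y : ℂ) ^ 2)).re =
      -((rr y)⁻¹ * (hp u v).im) + ((rr y)⁻¹) ^ 2 *
        ((hp u y).im * (hp v y).re - (hp u y).re * (hp v y).im) := by
    have e1 : hp u v / (rr y : ℂ) = (((rr y)⁻¹ : ℝ) : ℂ) * hp u v := by
      rw [div_eq_inv_mul, ofReal_inv]
    have e2 : hp u y * conj (hp v y) / (rr y : ℂ) ^ 2 =
        ((((rr y)⁻¹) ^ 2 : ℝ) : ℂ) * (hp u y * conj (hp v y)) := by
      rw [div_eq_inv_mul]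
      push_cast
      rw [inv_pow]
    rw [e1, e2]
    simp only [mul_re, sub_re, sub_im, mul_im, I_re, I_im, ofReal_re, ofReal_im, conj_re,
      conj_im]
    ring
  rw [h4]
  simp only [conj_im]
  ring

theorem contDiffAt_fsB {y : J → ℂ} (h : y ≠ 0) : ContDiffAt ℝ ∞ (fsB : (J → ℂ) → _) y := by
  have h1 : ContDiffAt ℝ ∞ (fderiv ℝ (eta : (J → ℂ) → _)) y :=
    (contDiffAt_eta h).fderiv_right (m := ∞) (by simp)
  have h2 : ContDiffAt ℝ ∞ (fun y => (fderiv ℝ (eta : (J → ℂ) → _) y).flip) y :=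
    (cd_flip.contDiffAt (x := fderiv ℝ eta y)).comp y h1
  exact (h1.sub h2).const_smul _

theorem fsB_closed {y : J → ℂ} (h : y ≠ 0) (u v w : J → ℂ) :
    fderiv ℝ fsB y u v w + fderiv ℝ fsB y v w u + fderiv ℝ fsB y w u v = 0 := by
  have h1 : ContDiffAt ℝ ∞ (fderiv ℝ (eta : (J → ℂ) → _)) y :=
    (contDiffAt_eta h).fderiv_right (m := ∞) (by simp)
  have h2 : HasFDerivAt (fderiv ℝ (eta : (J → ℂ) → _)) (fderiv ℝ (fderiv ℝ eta) y) y :=
    (h1.differentiableAt (by simp)).hasFDerivAt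
  have key : ∀ u v w, fderiv ℝ fsB y u v w =
      2⁻¹ * (fderiv ℝ (fderiv ℝ eta) y u v w - fderiv ℝ (fderiv ℝ eta) y u w v) := by
    intro u v w
    have h3 : DifferentiableAt ℝ (fsB : (J → ℂ) → _) y :=
      (contDiffAt_fsB h).differentiableAt (by simp)
    have h4 : HasFDerivAt (fun y => fsB y v w) ((fderiv ℝ fsB y).flip v |>.flip w) y := by
      have h5 := (h3.hasFDerivAt.clm_apply (hasFDerivAt_const v y)).clm_apply
        (hasFDerivAt_const w y)
      refine h5.congr_fderiv ?_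
      ext
      simp
    have h6 : HasFDerivAt (fun y => 2⁻¹ * (fderiv ℝ eta y v w - fderiv ℝ eta y w v))
        ((2⁻¹ : ℝ) • (((fderiv ℝ (fderiv ℝ eta) y).flip v).flip w -
          ((fderiv ℝ (fderiv ℝ eta) y).flip w).flip v)) y := by
      have a1 := (h2.clm_apply (hasFDerivAt_const v y)).clm_apply (hasFDerivAt_const w y)
      have a2 := (h2.clm_apply (hasFDerivAt_const w y)).clm_apply (hasFDerivAt_const v y)
      have a3 := (a1.sub a2).const_mul (2⁻¹ : ℝ)
      refine a3.congr_fderiv ?_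
      ext
      simp
    have h7 : HasFDerivAt (fun y => fsB y v w) _ y := h6
    have h8 := h4.unique h7
    have h9 := congrArg (fun T => T u) h8
    simpa using h9
  have hs : ∀ a b, fderiv ℝ (fderiv ℝ eta) y a b = fderiv ℝ (fderiv ℝ eta) y b a := by
    intro a b
    exact ((contDiffAt_eta h).of_le (m := 2) (WithTop.coe_le_coe.2
      (le_top : (2 : ℕ∞) ≤ ⊤))).isSymmSndFDerivAt (by simp) a b
  rw [key, key, key, hs u v, hs v w, hs w u]
  ring

/-- **the Fubini-Study form** -/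
def FS (J : Type) [Fintype J] : B1 {x : J → ℂ | x ≠ 0} where
  sg := fsv
  loc x hx := by
    refine ⟨fsB, ?_, fun u v w _ _ _ => fsB_closed hx u v w⟩
    filter_upwards [isOpen_ne.mem_nhds hx] with y hy
    refine ⟨contDiffAt_fsB hy, fun _ => ⟨fun u v => ?_, fun u v _ _ => fsB_apply hy u v⟩⟩
    rw [fsB_apply hy, fsB_apply hy]
    exact fsv_alt _ _ _
  bas _ hx _ ha b b' u v _ _ := fsv_bas hx u v ha b b'


end Form

/-! ### restriction -/

section Mono

variable {E : Type} [NormedAddCommGroup E] [NormedSpace ℂ E]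
variable {H : Type} [NormedAddCommGroup H] [NormedSpace ℂ H]

theorem V1.mono {K K' : Set H} (h : K' ⊆ K) {x v : H} (hv : V1 K' x v) : V1 K x v := by
  obtain ⟨γ, h0, h1, h2⟩ := hv
  exact ⟨γ, h0, h1, h2.mono fun t ht => h ht⟩

/-- restriction of a basic form to a subcone -/
def B1.mono {K K' : Set H} (τ : B1 K) (h : K' ⊆ K) : B1 K' where
  sg := τ.sg
  loc x hx := by
    obtain ⟨Sg, h1, h2⟩ := τ.loc x (h hx)
    refine ⟨Sg, h1.mono fun y hy => ⟨hy.1, fun hyK => ⟨(hy.2 (h hyK)).1, fun u v hu hv =>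
      (hy.2 (h hyK)).2 u v (V1.mono h hu) (V1.mono h hv)⟩⟩, fun u v w hu hv hw =>
      h2 u v w (V1.mono h hu) (V1.mono h hv) (V1.mono h hw)⟩
  bas x hx a ha b b' u v hu hv := τ.bas x (h hx) a ha b b' u v (V1.mono h hu) (V1.mono h hv)


universe uq

variable {Q : Type uq} [TopologicalSpace Q]


end Mono

/-! ### the block forms -/

section Blocks

variable {ι : Type} [Fintype ι] [DecidableEq ι] {J : ι → Type} [∀ k, Fintype (J k)]

/-- the Segre cone -/
def segK (J : ι → Type) : Set ((∀ k, J k) → ℂ) := {w | w ≠ 0 ∧ SegRel w}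



/-- velocities satisfy the linearised relations -/
theorem dRel_of_V1 {x v : (∀ k, J k) → ℂ} (h : V1 (segK J) x v) : DRel x v := by
  obtain ⟨γ, h0, h1, h2⟩ := h
  intro k a a'
  have hd : ∀ b, HasDerivAt (fun t => γ t b) (v b) 0 := fun b => (hasDerivAt_pi.1 h1) b
  have e1 := (hd a).mul (hd a')
  have e2 := (hd (update a k (a' k))).mul (hd (update a' k (a k)))
  have e3 : (fun t => γ t a * γ t a') =ᶠ[𝓝 (0 : ℝ)]
      fun t => γ t (update a k (a' k)) * γ t (update a' k (a k)) :=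
    h2.mono fun t ht => ht.2 k a a'
  have e4 := (e2.congr_of_eventuallyEq e3).unique e1
  simp only [h0] at e4
  linear_combination -e4

/-- the value of the block form -/
def sgv (k : ι) (x u v : (∀ k, J k) → ℂ) : ℝ :=
  open Classical in
  if h : ∃ a, x a ≠ 0 then fsv (ext k h.choose x) (ext k h.choose u) (ext k h.choose v) else 0

theorem sgv_eq (k : ι) {x u v : (∀ k, J k) → ℂ} (hx : SegRel x) (hu : DRel x u) (hv : DRel x v)
    {a : ∀ k, J k} (ha : x a ≠ 0) :
    sgv k x u v = fsv (ext k a x) (ext k a u) (ext k a v) := by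
  have h : ∃ a, x a ≠ 0 := ⟨a, ha⟩
  unfold sgv
  rw [dif_pos h]
  obtain ⟨e1, e2⟩ := dext_indep' hx hu k (a₀ := h.choose) ha
  obtain ⟨-, e3⟩ := dext_indep' hx hv k (a₀ := h.choose) ha
  rw [e1, e2, e3]
  exact fsv_bas (ext_ne ha k) _ _ (div_ne_zero (ext_scal_ne hx k h.choose_spec ha) ha) _ _

/-- the local representative -/
def sgB (k : ι) (a : ∀ k, J k) (y : (∀ k, J k) → ℂ) :
    ((∀ k, J k) → ℂ) →L[ℝ] ((∀ k, J k) → ℂ) →L[ℝ] ℝ :=
  pbl ((extL k a).restrictScalars ℝ) (fsB (ext k a y))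

theorem sgB_apply (k : ι) (a : ∀ k, J k) (y u v : (∀ k, J k) → ℂ) :
    sgB k a y u v = fsB (ext k a y) (ext k a u) (ext k a v) := rfl

theorem contDiffAt_sgB (k : ι) {a : ∀ k, J k} {y : (∀ k, J k) → ℂ} (ha : y a ≠ 0) :
    ContDiffAt ℝ ∞ (sgB k a) y := by
  have h1 : ContDiffAt ℝ ∞ (fun y => fsB (ext k a y)) y :=
    ContDiffAt.comp (f := fun y => extL k a y) (g := fsB) y (contDiffAt_fsB (ext_ne ha k))
      ((extL k a).restrictScalars ℝ).contDiff.contDiffAt
  exact contDiffAt_pbl contDiffAt_const h1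

theorem sgB_closed (k : ι) {a : ∀ k, J k} {y : (∀ k, J k) → ℂ} (ha : y a ≠ 0)
    (u v w : (∀ k, J k) → ℂ) :
    fderiv ℝ (sgB k a) y u v w + fderiv ℝ (sgB k a) y v w u + fderiv ℝ (sgB k a) y w u v = 0 := by
  have h1 : HasFDerivAt (fun y => fsB (ext k a y))
      ((fderiv ℝ fsB (ext k a y)).comp ((extL k a).restrictScalars ℝ)) y :=
    HasFDerivAt.comp (f := fun y => extL k a y) (g := fsB) y
      ((contDiffAt_fsB (ext_ne ha k)).differentiableAt (by simp)).hasFDerivAt
      ((extL k a).restrictScalars ℝ).hasFDerivAt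
  have h2 : DifferentiableAt ℝ (sgB k a) y := (contDiffAt_sgB k ha).differentiableAt (by simp)
  have key : ∀ u v w, fderiv ℝ (sgB k a) y u v w =
      fderiv ℝ fsB (ext k a y) (ext k a u) (ext k a v) (ext k a w) := by
    intro u v w
    have h5 := (h2.hasFDerivAt.clm_apply (hasFDerivAt_const v y)).clm_apply
        (hasFDerivAt_const w y)
    have h6 := (h1.clm_apply (hasFDerivAt_const (ext k a v) y)).clm_apply
        (hasFDerivAt_const (ext k a w) y)
    have h7 := h5.unique h6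
    have h8 := congrArg (fun T => T u) h7
    simpa [extL_apply] using h8
  rw [key, key, key]
  exact fsB_closed (ext_ne ha k) _ _ _

/-- **the `k`-th block form** on the Segre cone -/
def segB (k : ι) : B1 (segK J) where
  sg := sgv k
  loc x hx := by
    obtain ⟨a, ha⟩ := exists_nz hx.1
    refine ⟨sgB k a, ?_, fun u v w _ _ _ => sgB_closed k ha u v w⟩
    have hc : ContinuousAt (fun y : (∀ k, J k) → ℂ => y a) x := (continuous_apply a).continuousAt
    filter_upwards [hc.eventually_ne ha] with y hy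
    refine ⟨contDiffAt_sgB k hy, fun hyK => ⟨fun u v => ?_, fun u v hu hv => ?_⟩⟩
    · rw [sgB_apply, sgB_apply, fsB_apply (ext_ne hy k), fsB_apply (ext_ne hy k)]
      exact fsv_alt _ _ _
    · rw [sgB_apply, fsB_apply (ext_ne hy k), sgv_eq k hyK.2 (dRel_of_V1 hu) (dRel_of_V1 hv) hy]
  bas x hx c hc b b' u v hu hv := by
    obtain ⟨a, ha⟩ := exists_nz hx.1
    have hu' := dRel_of_V1 hu
    have hv' := dRel_of_V1 hv
    have h1 : (c • x) a ≠ 0 := mul_ne_zero hc ha
    rw [sgv_eq k (hx.2.smul c) ((hu'.smul_add hx.2 c b).smul_left c)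
      ((hv'.smul_add hx.2 c b').smul_left c) h1, sgv_eq k hx.2 hu' hv' ha]
    rw [ext_smul, ext_add, ext_add, ext_smul, ext_smul, ext_smul, ext_smul]
    exact fsv_bas (ext_ne ha k) _ _ hc _ _

theorem segB_sg (k : ι) {x u v : (∀ k, J k) → ℂ} (hx : x ∈ segK J) (hu : V1 (segK J) x u)
    (hv : V1 (segK J) x v) {a : ∀ k, J k} (ha : x a ≠ 0) :
    (segB k : B1 (segK J)).sg x u v = fsv (ext k a x) (ext k a u) (ext k a v) :=
  sgv_eq k hx.2 (dRel_of_V1 hu) (dRel_of_V1 hv) ha

end Blocks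

/-! ### the dictionary -/

section Dict

variable {n : ℕ} {M : Type} [TopologicalSpace M] {A : Atl n M}
variable {V : Type} [NormedAddCommGroup V] [NormedSpace ℝ V] {C : RCh V M}
variable {ι : Type} [Fintype ι] [DecidableEq ι] {J : ι → Type} [∀ k, Fintype (J k)]
variable {K : ℕ} {P : HEmb C ((∀ k, J k) → ℂ)} {e : (∀ k, J k) ≃ Fin (K + 1)}






end Dict

end

end Crest.Agent.R281.Blk_592
namespace Crest.Agent.R281.Blk_592.BF
end Crest.Agent.R281.Blk_592.BF
namespace Crest.Agent.R281.Blk_592.QB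
end Crest.Agent.R281.Blk_592.QB
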