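import Crest.Agent.R281.Ehr2_268
import Crest.Agent.R281.HkR4_835
import Crest.Agent.R273.Fam_835

-- ▼ part R281/Pe1_313
section

/-!
# R281 (S0424), FAM (helper313), part 1: the complex manifold of a projective embedding

`P : HEmb C H` (268) homogeneous coordinates of a real immersion of `(X, C : RCh V X)`, with complex
tangent spaces (`P.Cx`), `b : H ≃L[ℂ] (Fin (K+1) → ℂ)`.

* `dm`, `nu`     : the domain of the `k`-th affine coordinates, the affine coordinates;
* `nu_imm`, `nu_cx` : the affine coordinates are immersive with complex tangent spaces;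
* `exists_proj`  : a linear projection to `Cn N` which is a local diffeomorphism at a point;
* `Ch`           : the resulting holomorphic charts of `X`; `Ch.diffAt`.
-/

set_option autoImplicit false
set_option linter.unusedSectionVars false

open Set Filter Topology Complex
open scoped ContDiff

namespace Crest.Agent.R281.Pe_313

open Crest.Agent.R275.Geo
open Crest.Agent.R281.HkR_835 Crest.Agent.R281.Ehr2_268

noncomputable section

/-! ### linear algebra -/

section Lin

variable {V Z : Type*} [NormedAddCommGroup V] [NormedSpace ℝ V] [FiniteDimensional ℝ V]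
  [NormedAddCommGroup Z] [NormedSpace ℂ Z] [FiniteDimensional ℂ Z]

/-- an injective real linear map with complex image can be composed with a complex linear
projection to a bijection to `Cn N` -/
theorem exists_projection {N : ℕ} (hN : Module.finrank ℝ V = 2 * N) (D : V →L[ℝ] Z)
    (hi : ∀ v, D v = 0 → v = 0) (hc : ∀ v, ∃ w, I • D v = D w) :
    ∃ π : Z →L[ℂ] Cn N, Function.Bijective fun v => π (D v) := by
  have hI : Function.Injective D := (injective_iff_map_eq_zero D).2 hi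
  let R : Submodule ℂ Z :=
    { carrier := Set.range D
      add_mem' := by
        rintro _ _ ⟨a, rfl⟩ ⟨b, rfl⟩
        exact ⟨a + b, map_add D a b⟩
      zero_mem' := ⟨0, map_zero D⟩
      smul_mem' := by
        rintro c _ ⟨a, rfl⟩
        obtain ⟨w, hw⟩ := hc a
        refine ⟨c.re • a + c.im • w, ?_⟩
        rw [map_add, map_smul, map_smul, ← hw]
        conv_rhs => rw [← Complex.re_add_im c]
        rw [add_smul, mul_smul]
        rfl }
  have hR : ∀ v, D v ∈ R := fun v => ⟨v, rfl⟩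
  have h1 : Module.finrank ℝ R = Module.finrank ℝ V := by
    have h2 : Module.finrank ℝ (LinearMap.range (D : V →ₗ[ℝ] Z)) = Module.finrank ℝ V :=
      LinearMap.finrank_range_of_inj hI
    rw [← h2]
    exact LinearEquiv.finrank_eq
      { toFun := fun x => ⟨x.1, x.2⟩
        invFun := fun x => ⟨x.1, x.2⟩
        map_add' := fun _ _ => rfl
        map_smul' := fun _ _ => rfl
        left_inv := fun _ => rfl
        right_inv := fun _ => rfl }
  have h3 : Module.finrank ℝ R = 2 * Module.finrank ℂ R := finrank_real_of_complex R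
  have h4 : Module.finrank ℂ R = Module.finrank ℂ (Cn N) := by
    rw [finrank_euclideanSpace_fin]
    omega
  let φ : R ≃ₗ[ℂ] Cn N := LinearEquiv.ofFinrankEq R (Cn N) h4
  obtain ⟨g, hg⟩ := LinearMap.exists_extend (φ : R →ₗ[ℂ] Cn N)
  have hgR : ∀ (x : Z) (hx : x ∈ R), g x = φ ⟨x, hx⟩ := fun x hx => by
    have := congrArg (fun T : R →ₗ[ℂ] Cn N => T ⟨x, hx⟩) hg
    exact this
  refine ⟨LinearMap.toContinuousLinearMap g, ?_, ?_⟩
  · intro v w hvw
    have h5 : g (D v) = g (D w) := hvw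
    rw [hgR _ (hR v), hgR _ (hR w)] at h5
    exact hI (congrArg Subtype.val (φ.injective h5))
  · intro y
    obtain ⟨v, hv⟩ := (φ.symm y).2
    refine ⟨v, ?_⟩
    show g (D v) = y
    rw [hgR _ (hR v)]
    have h5 : (⟨D v, hR v⟩ : R) = φ.symm y := Subtype.ext hv
    rw [h5, φ.apply_symm_apply]

/-- a bijective real linear map between finite dimensional spaces -/
theorem exists_equiv {W : Type*} [NormedAddCommGroup W] [NormedSpace ℝ W] [FiniteDimensional ℝ W]
    (T : V →L[ℝ] W) (hT : Function.Bijective T) : ∃ e : V ≃L[ℝ] W, (e : V →L[ℝ] W) = T := by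
  refine ⟨(LinearEquiv.ofBijective (T : V →ₗ[ℝ] W) hT).toContinuousLinearEquiv, ?_⟩
  ext v
  rfl

/-- a real linear map commuting with `I` -/
theorem exists_complex {W W' : Type*} [NormedAddCommGroup W] [NormedSpace ℂ W]
    [NormedAddCommGroup W'] [NormedSpace ℂ W'] (L : W →L[ℝ] W') (h : ∀ w, L (I • w) = I • L w) :
    ∃ T : W →L[ℂ] W', T.restrictScalars ℝ = L := by
  refine ⟨⟨{ toFun := L, map_add' := map_add L, map_smul' := fun c w => ?_ }, L.continuous⟩, rfl⟩
  have h1 : c • w = c.re • w + c.im • (I • w) := by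
    conv_lhs => rw [← Complex.re_add_im c]
    rw [add_smul, mul_smul]
    rfl
  rw [h1, map_add, map_smul, map_smul, h w]
  conv_rhs => rw [RingHom.id_apply, ← Complex.re_add_im c]
  rw [add_smul, mul_smul]
  rfl

end Lin

variable {V X : Type} [NormedAddCommGroup V] [NormedSpace ℝ V] [TopologicalSpace X]
variable {H : Type} [NormedAddCommGroup H] [NormedSpace ℂ H] {K : ℕ}
variable {C : RCh V X} (P : HEmb C H) (b : H ≃L[ℂ] (Fin (K + 1) → ℂ))

/-- the domain of the `k`-th affine coordinates, in the chart `i` -/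
def dm (k : Fin (K + 1)) (i : C.ι) : Set V := {z | z ∈ (C.e i).target ∧ b (P.u i z) k ≠ 0}

/-- the `k`-th affine coordinates, in the chart `i` -/
def nu (k : Fin (K + 1)) (i : C.ι) (z : V) : Fin (K + 1) → ℂ := (b (P.u i z) k)⁻¹ • b (P.u i z)

variable {P b}

theorem u_contDiffAt {i : C.ι} {z : V} (hz : z ∈ (C.e i).target) : ContDiffAt ℝ ∞ (P.u i) z :=
  (P.sm i).contDiffAt ((C.e i).open_target.mem_nhds hz)

theorem bu_contDiffAt {i : C.ι} {z : V} (hz : z ∈ (C.e i).target) :
    ContDiffAt ℝ ∞ (fun z => b (P.u i z)) z :=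
  ((b : H →L[ℂ] (Fin (K + 1) → ℂ)).restrictScalars ℝ).contDiff.contDiffAt.comp z
    (u_contDiffAt hz)

theorem isOpen_dm (k : Fin (K + 1)) (i : C.ι) : IsOpen (dm P b k i) := by
  rw [isOpen_iff_mem_nhds]
  rintro z ⟨hz, hk⟩
  have h1 : ContinuousAt (fun z => b (P.u i z) k) z :=
    (continuous_apply k).continuousAt.comp (bu_contDiffAt (b := b) hz).continuousAt
  filter_upwards [(C.e i).open_target.mem_nhds hz, h1.eventually_ne hk] with y hy1 hy2
  exact ⟨hy1, hy2⟩

theorem nu_contDiffAt {k : Fin (K + 1)} {i : C.ι} {z : V} (hz : z ∈ dm P b k i) :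
    ContDiffAt ℝ ∞ (nu P b k i) z := by
  have h1 := bu_contDiffAt (P := P) (b := b) hz.1
  have h2 : ContDiffAt ℝ ∞ (fun z => b (P.u i z) k) z := (contDiffAt_pi.1 h1) k
  have h3 : ContDiffAt ℝ ∞ (fun z => (b (P.u i z) k)⁻¹) z := h2.inv hz.2
  exact h3.smul h1

theorem nu_diff {k : Fin (K + 1)} {i : C.ι} {z : V} (hz : z ∈ dm P b k i) :
    DifferentiableAt ℝ (nu P b k i) z := (nu_contDiffAt hz).differentiableAt (by simp)

theorem nu_self {k : Fin (K + 1)} {i : C.ι} {z : V} (hz : z ∈ dm P b k i) :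
    nu P b k i z k = 1 := by
  show (b (P.u i z) k)⁻¹ * b (P.u i z) k = 1
  exact inv_mul_cancel₀ hz.2

/-- change of the chart and of the coordinate -/
theorem nu_chg {k k' : Fin (K + 1)} {i j : C.ι} {z : V} (hz : z ∈ C.ov i j)
    (hk : z ∈ dm P b k i) (hk' : C.t i j z ∈ dm P b k' j) :
    nu P b k i z k' ≠ 0 ∧ nu P b k' j (C.t i j z) = (nu P b k i z k')⁻¹ • nu P b k i z := by
  obtain ⟨a, ha⟩ := P.tr i j z hz
  have h1 : b (P.u i z) = a • b (P.u j (C.t i j z)) := by rw [ha, map_smul]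
  have ha0 : a ≠ 0 := by
    rintro rfl
    rw [zero_smul] at ha
    exact P.ne i z hz.1 ha
  have h2 : b (P.u i z) k ≠ 0 := hk.2
  have h3 : b (P.u j (C.t i j z)) k' ≠ 0 := hk'.2
  have h4 : b (P.u i z) k' ≠ 0 := by
    rw [h1]
    exact mul_ne_zero ha0 h3
  have h5 : nu P b k i z k' = (b (P.u i z) k)⁻¹ * b (P.u i z) k' := rfl
  refine ⟨by rw [h5]; exact mul_ne_zero (inv_ne_zero h2) h4, ?_⟩
  rw [h5]
  unfold nu
  rw [smul_smul, mul_inv, inv_inv]
  have h6 : b (P.u i z) k * (b (P.u i z) k')⁻¹ * (b (P.u i z) k)⁻¹ = (b (P.u i z) k')⁻¹ := by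
    field_simp
  rw [h6]
  conv_rhs => rw [h1]
  rw [smul_smul, Pi.smul_apply, smul_eq_mul, mul_inv]
  congr 1
  field_simp

/-- the derivative of the affine coordinates -/
theorem fderiv_nu {k : Fin (K + 1)} {i : C.ι} {z : V} (hz : z ∈ dm P b k i) (v : V) :
    fderiv ℝ (nu P b k i) z v = (b (P.u i z) k)⁻¹ • b (fderiv ℝ (P.u i) z v) -
      (b (fderiv ℝ (P.u i) z v) k * ((b (P.u i z) k)⁻¹ * (b (P.u i z) k)⁻¹)) • b (P.u i z) := by
  have h1 : HasFDerivAt (P.u i) (fderiv ℝ (P.u i) z) z :=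
    ((u_contDiffAt hz.1).differentiableAt (by simp)).hasFDerivAt
  have h2 : HasFDerivAt (fun z => b (P.u i z))
      (((b : H →L[ℂ] (Fin (K + 1) → ℂ)).restrictScalars ℝ).comp (fderiv ℝ (P.u i) z)) z :=
    HasFDerivAt.comp (g := fun w : H => b w) (f := P.u i) z
      ((b : H →L[ℂ] (Fin (K + 1) → ℂ)).restrictScalars ℝ).hasFDerivAt h1
  have h3 := (hasFDerivAt_pi'.1 h2) k
  have h4 : HasFDerivAt (fun w : ℂ => w⁻¹)
      ((ContinuousLinearMap.toSpanSingleton ℂ (-(b (P.u i z) k ^ 2)⁻¹)).restrictScalars ℝ)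
      (b (P.u i z) k) := (hasDerivAt_inv hz.2).hasFDerivAt.restrictScalars ℝ
  have h5 := HasFDerivAt.comp (g := fun w : ℂ => w⁻¹) (f := fun z => b (P.u i z) k) z h4 h3
  have h6 : fderiv ℝ (nu P b k i) z = _ := (h5.smul h2).fderiv
  rw [h6]
  simp only [add_apply, smul_apply, ContinuousLinearMap.smulRight_apply,
    ContinuousLinearMap.comp_apply, ContinuousLinearMap.coe_restrictScalars',
    ContinuousLinearMap.toSpanSingleton_apply, Function.comp_apply]
  funext l
  simp
  ring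

theorem nu_imm {k : Fin (K + 1)} {i : C.ι} {z : V} (hz : z ∈ dm P b k i) (v : V)
    (h : fderiv ℝ (nu P b k i) z v = 0) : v = 0 := by
  rw [fderiv_nu hz, sub_eq_zero] at h
  refine P.imm i z hz.1 v ⟨b (fderiv ℝ (P.u i) z v) k * (b (P.u i z) k)⁻¹, ?_⟩
  apply b.injective
  rw [map_smul]
  have h1 := congrArg (fun w => b (P.u i z) k • w) h
  simp only [smul_smul] at h1
  rw [mul_inv_cancel₀ hz.2, one_smul] at h1
  refine h1.trans ?_
  congr 1
  have := hz.2
  field_simp

theorem nu_cx (hcx : P.Cx) {k : Fin (K + 1)} {i : C.ι} {z : V} (hz : z ∈ dm P b k i) (v : V) :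
    ∃ w, I • fderiv ℝ (nu P b k i) z v = fderiv ℝ (nu P b k i) z w := by
  obtain ⟨w, a, hw⟩ := hcx i z hz.1 v
  refine ⟨w, ?_⟩
  rw [fderiv_nu hz, fderiv_nu hz]
  have h1 : I • b (fderiv ℝ (P.u i) z v) = b (fderiv ℝ (P.u i) z w) + a • b (P.u i z) := by
    rw [← map_smul, hw, map_add, map_smul]
  funext l
  have h2 : ∀ m, I * b (fderiv ℝ (P.u i) z v) m =
      b (fderiv ℝ (P.u i) z w) m + a * b (P.u i z) m := fun m => congrFun h1 m
  simp only [Pi.sub_apply, Pi.smul_apply, smul_eq_mul]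
  have h3 := hz.2
  have h4 : I * ((b (P.u i z) k)⁻¹ * b (fderiv ℝ (P.u i) z v) l -
      b (fderiv ℝ (P.u i) z v) k * ((b (P.u i z) k)⁻¹ * (b (P.u i z) k)⁻¹) * b (P.u i z) l) =
      (b (P.u i z) k)⁻¹ * (I * b (fderiv ℝ (P.u i) z v) l) -
      (I * b (fderiv ℝ (P.u i) z v) k) * ((b (P.u i z) k)⁻¹ * (b (P.u i z) k)⁻¹) *
        b (P.u i z) l := by ring
  rw [h4, h2, h2]
  field_simp
  ring

end

end Crest.Agent.R281.Pe_313
end

-- ▼ part R281/Pe2_313
section

/-!
# R281 (S0424), FAM (helper313), part 2: charts, atlas and projective embedding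

* `Ch P b N`   : holomorphic charts of `X`; `exists_ch`; `Ch.hom`; `Ch.diffAt`
* `OX`, `nuX`  : the affine coordinates on `X`
* `famP`       : the family of all charts
* `HolA P b A` : the atlas `A : Atl N X` is holomorphic for the embedding `P`;
  `exists_atl`, `HolA.toProj`, `HolA.unique`
-/

set_option autoImplicit false
set_option linter.unusedSectionVars false

open Set Filter Topology Complex
open scoped ContDiff

namespace Crest.Agent.R281.Pe_313

open Crest.Agent.R275.Geo Crest.Agent.R275.Core144 Crest.Agent.R275.GC293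
open Crest.Agent.R273.Defs_333 Crest.Agent.R273.Fam_835 Crest.Agent.R273.PB_835
open Crest.Agent.R273.Map_835
open Crest.Agent.R281.HkR_835 Crest.Agent.R281.Ehr2_268

noncomputable section

variable {V X : Type} [NormedAddCommGroup V] [NormedSpace ℝ V] [TopologicalSpace X]
variable {H : Type} [NormedAddCommGroup H] [NormedSpace ℂ H] {K N : ℕ}
variable {C : RCh V X} (P : HEmb C H) (b : H ≃L[ℂ] (Fin (K + 1) → ℂ))

/-- a holomorphic chart of `X` -/
structure Ch (N : ℕ) where
  i : C.ι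
  k : Fin (K + 1)
  π : (Fin (K + 1) → ℂ) →L[ℂ] Cn N
  e : OpenPartialHomeomorph V (Cn N)
  coe : ∀ z ∈ e.source, e z = π (nu P b k i z)
  sub : e.source ⊆ dm P b k i
  bij : ∀ z ∈ e.source, Function.Bijective fun v => π (fderiv ℝ (nu P b k i) z v)

variable {P b}

theorem exists_ch [FiniteDimensional ℝ V] (hcx : P.Cx) (hN : Module.finrank ℝ V = 2 * N) {i : C.ι}
    {k : Fin (K + 1)} {z0 : V} (hz0 : z0 ∈ dm P b k i) :
    ∃ c : Ch P b N, c.i = i ∧ c.k = k ∧ z0 ∈ c.e.source := by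
  have : CompleteSpace V := FiniteDimensional.complete ℝ V
  have : FiniteDimensional ℝ (Cn N) := inferInstance
  obtain ⟨π, hπ⟩ := exists_projection hN (fderiv ℝ (nu P b k i) z0) (fun v => nu_imm hz0 v)
    (nu_cx hcx hz0)
  let πR : (Fin (K + 1) → ℂ) →L[ℝ] Cn N := π.restrictScalars ℝ
  let ψ : V → Cn N := fun z => π (nu P b k i z)
  have hψ : ∀ z ∈ dm P b k i, ContDiffAt ℝ ∞ ψ z := fun z hz =>
    πR.contDiff.contDiffAt.comp z (nu_contDiffAt hz)
  have hψd : ∀ z ∈ dm P b k i, HasFDerivAt ψ (πR.comp (fderiv ℝ (nu P b k i) z)) z := fun z hz =>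
    HasFDerivAt.comp (g := fun w => πR w) (f := nu P b k i) z πR.hasFDerivAt
      (nu_diff hz).hasFDerivAt
  obtain ⟨T, hT⟩ := exists_equiv (πR.comp (fderiv ℝ (nu P b k i) z0)) hπ
  have hT' : HasFDerivAt ψ (T : V →L[ℝ] Cn N) z0 := by
    rw [hT]
    exact hψd z0 hz0
  let e' := (hψ z0 hz0).toOpenPartialHomeomorph ψ hT' (by simp)
  have he' : ∀ z, e' z = ψ z := fun _ => rfl
  let U : Set V := dm P b k i ∩ (fderiv ℝ ψ) ⁻¹' (range ((↑) : (V ≃L[ℝ] Cn N) → V →L[ℝ] Cn N))
  have hU : IsOpen U := by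
    refine ContinuousOn.isOpen_inter_preimage (fun z hz => ?_) (isOpen_dm k i)
      ContinuousLinearEquiv.isOpen
    exact ((hψ z hz).fderiv_right (m := 0) (by simp)).continuousAt.continuousWithinAt
  refine ⟨⟨i, k, π, e'.restrOpen U hU, fun z hz => rfl, fun z hz => ?_, fun z hz => ?_⟩,
    rfl, rfl, ?_⟩
  · exact hz.2.1
  · obtain ⟨T', hT1⟩ := hz.2.2
    rw [(hψd z hz.2.1).fderiv] at hT1
    have h1 : (fun v => π (fderiv ℝ (nu P b k i) z v)) = T' := by
      funext v
      have := congrArg (fun S : V →L[ℝ] Cn N => S v) hT1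
      exact this.symm
    rw [h1]
    exact T'.bijective
  · refine ⟨(hψ z0 hz0).mem_toOpenPartialHomeomorph_source hT' (by simp), hz0, T, ?_⟩
    exact hT'.fderiv.symm

namespace Ch

variable (c : Ch P b N)

theorem hasFDerivAt_e [FiniteDimensional ℝ V] {z : V} (hz : z ∈ c.e.source) :
    ∃ T : V ≃L[ℝ] Cn N, HasFDerivAt c.e (T : V →L[ℝ] Cn N) z ∧
      ∀ v, T v = c.π (fderiv ℝ (nu P b c.k c.i) z v) := by
  let πR : (Fin (K + 1) → ℂ) →L[ℝ] Cn N := c.π.restrictScalars ℝ
  obtain ⟨T, hT⟩ := exists_equiv (πR.comp (fderiv ℝ (nu P b c.k c.i) z)) (c.bij z hz)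
  have h1 : HasFDerivAt (fun z => c.π (nu P b c.k c.i z))
      (πR.comp (fderiv ℝ (nu P b c.k c.i) z)) z :=
    HasFDerivAt.comp (g := fun w => πR w) (f := nu P b c.k c.i) z πR.hasFDerivAt
      (nu_diff (c.sub hz)).hasFDerivAt
  refine ⟨T, ?_, fun v => ?_⟩
  · rw [hT]
    refine h1.congr_of_eventuallyEq ?_
    filter_upwards [c.e.open_source.mem_nhds hz] with y hy using c.coe y hy
  · exact congrArg (fun S : V →L[ℝ] Cn N => S v) hT

theorem contDiffAt_e {z : V} (hz : z ∈ c.e.source) : ContDiffAt ℝ ∞ c.e z := by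
  have h1 : ContDiffAt ℝ ∞ (fun z => c.π (nu P b c.k c.i z)) z :=
    (c.π.restrictScalars ℝ).contDiff.contDiffAt.comp z (nu_contDiffAt (c.sub hz))
  refine h1.congr_of_eventuallyEq ?_
  filter_upwards [c.e.open_source.mem_nhds hz] with y hy using c.coe y hy

theorem contDiffAt_symm [FiniteDimensional ℝ V] {y : Cn N} (hy : y ∈ c.e.target) :
    ContDiffAt ℝ ∞ c.e.symm y := by
  have : CompleteSpace V := FiniteDimensional.complete ℝ V
  obtain ⟨T, hT, -⟩ := c.hasFDerivAt_e (c.e.map_target hy)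
  exact c.e.contDiffAt_symm hy hT (c.contDiffAt_e (c.e.map_target hy))

/-- **holomorphic functions of the affine coordinates are holomorphic in the chart** -/
theorem diffAt [FiniteDimensional ℝ V] (hcx : P.Cx) {W : Type*} [NormedAddCommGroup W]
    [NormedSpace ℂ W] {y : Cn N} (hy : y ∈ c.e.target) {g : (Fin (K + 1) → ℂ) → W}
    (hg : DifferentiableAt ℂ g (nu P b c.k c.i (c.e.symm y))) :
    DifferentiableAt ℂ (fun y => g (nu P b c.k c.i (c.e.symm y))) y := by
  have hz := c.e.map_target hy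
  obtain ⟨T, hT, hTv⟩ := c.hasFDerivAt_e hz
  have h1 : HasFDerivAt c.e.symm (T.symm : Cn N →L[ℝ] V) y := c.e.hasFDerivAt_symm hy hT
  have h2 := HasFDerivAt.comp (g := nu P b c.k c.i) (f := c.e.symm) y
    (nu_diff (c.sub hz)).hasFDerivAt h1
  have h3 := HasFDerivAt.comp (g := g) (f := fun y => nu P b c.k c.i (c.e.symm y)) y
    (hg.hasFDerivAt.restrictScalars ℝ) h2
  obtain ⟨S, hS⟩ := exists_complex (((fderiv ℂ g (nu P b c.k c.i (c.e.symm y))).restrictScalars
    ℝ).comp ((fderiv ℝ (nu P b c.k c.i) (c.e.symm y)).comp (T.symm : Cn N →L[ℝ] V))) fun w => by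
    obtain ⟨v', hv'⟩ := nu_cx hcx (c.sub hz) (T.symm w)
    have h4 : T v' = I • w := by
      rw [hTv, ← hv', map_smul, ← hTv, T.apply_symm_apply]
    have h5 : T.symm (I • w) = v' := by rw [← h4, T.symm_apply_apply]
    show fderiv ℂ g _ (fderiv ℝ (nu P b c.k c.i) (c.e.symm y) (T.symm (I • w))) =
      I • fderiv ℂ g _ (fderiv ℝ (nu P b c.k c.i) (c.e.symm y) (T.symm w))
    rw [h5, ← hv', map_smul]
  exact (hasFDerivAt_of_restrictScalars ℝ h3 hS).differentiableAt

/-- the chart of `X` -/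
def hom : OpenPartialHomeomorph X (Cn N) := (C.e c.i).trans c.e

theorem mem_source {x : X} : x ∈ c.hom.source ↔ x ∈ (C.e c.i).source ∧ C.e c.i x ∈ c.e.source := by
  simp [hom]

theorem mem_target {y : Cn N} : y ∈ c.hom.target ↔
    y ∈ c.e.target ∧ c.e.symm y ∈ (C.e c.i).target := by
  simp [hom]

theorem mem_target' {y : Cn N} : y ∈ c.hom.target ↔ y ∈ c.e.target := by
  rw [c.mem_target]
  exact ⟨fun h => h.1, fun h => ⟨h, (c.sub (c.e.map_target h)).1⟩⟩

theorem hom_apply (x : X) : c.hom x = c.e (C.e c.i x) := rfl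

theorem hom_symm (y : Cn N) : c.hom.symm y = (C.e c.i).symm (c.e.symm y) := rfl

end Ch

/-! ### the affine coordinates on `X` -/

variable (P b)

/-- a chart at `x` -/
def ci (C : RCh V X) (x : X) : C.ι := (C.cover x).choose

theorem ci_mem (C : RCh V X) (x : X) : x ∈ (C.e (ci C x)).source := (C.cover x).choose_spec

/-- the open set on which the `k`-th coordinate does not vanish -/
def OX (k : Fin (K + 1)) : Set X := {x | b (P.u (ci C x) (C.e (ci C x) x)) k ≠ 0}

/-- the `k`-th affine coordinates -/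
def nuX (k : Fin (K + 1)) (x : X) : Fin (K + 1) → ℂ := nu P b k (ci C x) (C.e (ci C x) x)

variable {P b}

theorem mem_ov {i j : C.ι} {x : X} (hi : x ∈ (C.e i).source) (hj : x ∈ (C.e j).source) :
    C.e i x ∈ C.ov i j :=
  ⟨(C.e i).map_source hi, by rw [(C.e i).left_inv hi]; exact hj⟩

theorem t_e {i j : C.ι} {x : X} (hi : x ∈ (C.e i).source) : C.t i j (C.e i x) = C.e j x := by
  show C.e j ((C.e i).symm (C.e i x)) = C.e j x
  rw [(C.e i).left_inv hi]

theorem dm_iff {i j : C.ι} {x : X} {k : Fin (K + 1)} (hi : x ∈ (C.e i).source)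
    (hj : x ∈ (C.e j).source) : C.e i x ∈ dm P b k i ↔ C.e j x ∈ dm P b k j := by
  have key : ∀ {i j : C.ι}, x ∈ (C.e i).source → x ∈ (C.e j).source →
      C.e i x ∈ dm P b k i → C.e j x ∈ dm P b k j := by
    intro i j hi hj h
    obtain ⟨a, ha⟩ := P.tr i j (C.e i x) (mem_ov hi hj)
    rw [t_e hi] at ha
    refine ⟨(C.e j).map_source hj, fun h0 => h.2 ?_⟩
    rw [ha, map_smul, Pi.smul_apply, h0, smul_zero]
  exact ⟨key hi hj, key hj hi⟩

theorem mem_OX {i : C.ι} {x : X} {k : Fin (K + 1)} (hi : x ∈ (C.e i).source) :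
    x ∈ OX P b k ↔ C.e i x ∈ dm P b k i := by
  rw [← dm_iff (ci_mem C x) hi]
  exact ⟨fun h => ⟨(C.e _).map_source (ci_mem C x), h⟩, fun h => h.2⟩

theorem nuX_eq {i : C.ι} {x : X} {k : Fin (K + 1)} (hi : x ∈ (C.e i).source) (hk : x ∈ OX P b k) :
    nuX P b k x = nu P b k i (C.e i x) := by
  have h1 := (mem_OX (ci_mem C x)).1 hk
  have h2 := (mem_OX hi).1 hk
  have h3 := nu_chg (k' := k) (mem_ov (ci_mem C x) hi) h1 (by rw [t_e (ci_mem C x)]; exact h2)
  rw [t_e (ci_mem C x), nu_self h1, inv_one, one_smul] at h3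
  exact h3.2.symm

theorem nuX_chg {x : X} {k k' : Fin (K + 1)} (hk : x ∈ OX P b k) (hk' : x ∈ OX P b k') :
    nuX P b k x k' ≠ 0 ∧ nuX P b k' x = (nuX P b k x k')⁻¹ • nuX P b k x := by
  have h1 := (mem_OX (ci_mem C x)).1 hk
  have h2 := (mem_OX (ci_mem C x)).1 hk'
  have h3 := nu_chg (k' := k') (mem_ov (ci_mem C x) (ci_mem C x)) h1
    (by rw [t_e (ci_mem C x)]; exact h2)
  rw [t_e (ci_mem C x)] at h3
  exact h3

theorem nuX_self {x : X} {k : Fin (K + 1)} (hk : x ∈ OX P b k) : nuX P b k x k = 1 :=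
  nu_self ((mem_OX (ci_mem C x)).1 hk)

theorem isOpen_OX (k : Fin (K + 1)) : IsOpen (OX P b k) := by
  rw [isOpen_iff_mem_nhds]
  intro x hx
  have h1 := (mem_OX (ci_mem C x)).1 hx
  filter_upwards [(C.e (ci C x)).open_source.mem_nhds (ci_mem C x),
    ((C.e (ci C x)).continuousAt (ci_mem C x)).preimage_mem_nhds
      ((isOpen_dm k _).mem_nhds h1)] with y hy1 hy2
  exact (mem_OX hy1).2 hy2

theorem exists_OX (x : X) : ∃ k, x ∈ OX P b k := by
  by_contra h
  push Not at h
  refine P.ne (ci C x) (C.e (ci C x) x) ((C.e _).map_source (ci_mem C x)) ?_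
  apply b.injective
  rw [map_zero]
  funext k
  by_contra h1
  exact h k h1

/-- every point is described by its coordinates -/
theorem eq_of_nuX {x y : X} {k : Fin (K + 1)} (hx : x ∈ OX P b k)
    (h : nuX P b k x = nuX P b k y) : x = y := by
  have h1 := ci_mem C x
  have h2 := ci_mem C y
  have h3 := P.inj (ci C x) (ci C y) _ ((C.e _).map_source h1) _ ((C.e _).map_source h2)
    ⟨b (P.u (ci C x) (C.e (ci C x) x)) k * (b (P.u (ci C y) (C.e (ci C y) y)) k)⁻¹, by
      apply b.injective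
      have h4 := congrArg (fun w => b (P.u (ci C x) (C.e (ci C x) x)) k • w) h
      have h5 : b (P.u (ci C x) (C.e (ci C x) x)) k ≠ 0 := hx
      simp only [nuX, nu, smul_smul] at h4
      rw [mul_inv_cancel₀ h5, one_smul] at h4
      rw [map_smul]
      exact h4⟩
  rwa [(C.e _).left_inv h1, (C.e _).left_inv h2] at h3

namespace Ch

variable (c : Ch P b N)

theorem mem_OX {x : X} (hx : x ∈ c.hom.source) : x ∈ OX P b c.k :=
  (Pe_313.mem_OX (c.mem_source.1 hx).1).2 (c.sub (c.mem_source.1 hx).2)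

theorem nuX_symm {y : Cn N} (hy : y ∈ c.hom.target) :
    nuX P b c.k (c.hom.symm y) = nu P b c.k c.i (c.e.symm y) := by
  have h1 := c.hom.map_target hy
  have h2 := nuX_eq (c.mem_source.1 h1).1 (c.mem_OX h1)
  rw [h2, c.hom_symm, (C.e c.i).right_inv (c.mem_target.1 hy).2]

theorem hom_eq {x : X} (hx : x ∈ c.hom.source) : c.hom x = c.π (nuX P b c.k x) := by
  rw [c.hom_apply, c.coe _ (c.mem_source.1 hx).2, nuX_eq (c.mem_source.1 hx).1 (c.mem_OX hx)]

theorem diffX [FiniteDimensional ℝ V] (hcx : P.Cx) {W : Type*} [NormedAddCommGroup W]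
    [NormedSpace ℂ W] {y : Cn N} (hy : y ∈ c.hom.target) {k : Fin (K + 1)}
    (hk : c.hom.symm y ∈ OX P b k) {g : (Fin (K + 1) → ℂ) → W}
    (hg : DifferentiableAt ℂ g (nuX P b k (c.hom.symm y))) :
    DifferentiableAt ℂ (fun y => g (nuX P b k (c.hom.symm y))) y := by
  have h0 := c.mem_OX (c.hom.map_target hy)
  have h1 := nuX_chg h0 hk
  have h2 : DifferentiableAt ℂ (fun w : Fin (K + 1) → ℂ => g ((w k)⁻¹ • w))
      (nu P b c.k c.i (c.e.symm y)) := by
    rw [← c.nuX_symm hy]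
    have h3a : DifferentiableAt ℂ (fun w : Fin (K + 1) → ℂ => w k)
        (nuX P b c.k (c.hom.symm y)) := differentiableAt_apply k _
    have h3 : DifferentiableAt ℂ (fun w : Fin (K + 1) → ℂ => (w k)⁻¹ • w)
        (nuX P b c.k (c.hom.symm y)) := (h3a.fun_inv h1.1).fun_smul differentiableAt_id
    have h4 : DifferentiableAt ℂ g ((nuX P b c.k (c.hom.symm y) k)⁻¹ •
        nuX P b c.k (c.hom.symm y)) := by
      rw [← h1.2]
      exact hg
    exact DifferentiableAt.comp (g := g) (f := fun w : Fin (K + 1) → ℂ => (w k)⁻¹ • w) _ h4 h3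
  have h3 := c.diffAt hcx (c.mem_target'.1 hy) h2
  refine h3.congr_of_eventuallyEq ?_
  have h5 : ∀ᶠ y' in 𝓝 y, c.hom.symm y' ∈ OX P b k :=
    (c.hom.continuousAt_symm hy).preimage_mem_nhds ((isOpen_OX k).mem_nhds hk)
  filter_upwards [c.hom.open_target.mem_nhds hy, h5] with y' hy' hk'
  show g (nuX P b k (c.hom.symm y')) = _
  rw [(nuX_chg (c.mem_OX (c.hom.map_target hy')) hk').2, c.nuX_symm hy']

end Ch

/-- the family of holomorphic charts -/
def famP [FiniteDimensional ℝ V] (hcx : P.Cx) (hN : Module.finrank ℝ V = 2 * N) (b : H ≃L[ℂ] (Fin (K + 1) → ℂ)) : Fam N X where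
  ι := Ch P b N
  e := Ch.hom
  cover x := by
    obtain ⟨k, hk⟩ := exists_OX (P := P) (b := b) x
    obtain ⟨c, h1, h2, h3⟩ := exists_ch hcx hN ((mem_OX (ci_mem C x)).1 hk)
    refine ⟨c, ?_⟩
    rw [c.mem_source, h1]
    exact ⟨ci_mem C x, h3⟩
  holo c c' := by
    intro y hy
    refine DifferentiableAt.differentiableWithinAt ?_
    have h1 := c.diffX hcx hy.1 (c'.mem_OX hy.2) (g := fun w => c'.π w)
      c'.π.differentiableAt
    refine h1.congr_of_eventuallyEq ?_
    filter_upwards [(c.hom.isOpen_inter_preimage_symm c'.hom.open_source).mem_nhds hy] with y' hy'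
    exact c'.hom_eq hy'.2

end

end Crest.Agent.R281.Pe_313
end

-- ▼ part R281/Pe3_313

/-!
# R281 (S0424), FAM (helper313), part 3: the atlas of a projective embedding

* `HolA P b A`  : the atlas `A : Atl N X` is smoothly compatible with the real charts `C` and the
                  affine coordinates of the embedding are holomorphic in its charts;
* `exists_atl`  : existence (finite, good, with partition of unity, subordinate to a cover and to
                  the sets `OX k`);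
* `HolA.toProj` : the projective embedding `ProjD A`, `F a x = nuX (κ a) x`;
* `HolA.lBih`   : uniqueness of the complex structure.
-/

set_option autoImplicit false
set_option linter.unusedSectionVars false

open Set Filter Topology Complex
open scoped ContDiff

namespace Crest.Agent.R281.Pe_313

open Crest.Agent.R275.Geo Crest.Agent.R275.Core144 Crest.Agent.R275.GC293
open Crest.Agent.R273.Defs_333 Crest.Agent.R273.Fam_835 Crest.Agent.R273.PB_835
open Crest.Agent.R273.Map_835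
open Crest.Agent.R281.HkR_835 Crest.Agent.R281.Ehr2_268

noncomputable section

variable {V X : Type} [NormedAddCommGroup V] [NormedSpace ℝ V] [TopologicalSpace X]
variable {H : Type} [NormedAddCommGroup H] [NormedSpace ℂ H] {K N : ℕ}
variable {C : RCh V X} (P : HEmb C H) (b : H ≃L[ℂ] (Fin (K + 1) → ℂ))

/-- the atlas `A` is holomorphic for the embedding `P` -/
structure HolA (A : Atl N X) : Prop where
  cmp : Cmp C (ofAtl A)
  hol : ∀ a k, ∀ z ∈ (A.e a).target, (A.e a).symm z ∈ OX P b k →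
    DifferentiableAt ℂ (fun z => nuX P b k ((A.e a).symm z)) z

variable {P b}

theorem contDiffAt_of_hol {E F : Type*} [NormedAddCommGroup E] [NormedSpace ℂ E]
    [FiniteDimensional ℂ E] [NormedAddCommGroup F] [NormedSpace ℂ F] [CompleteSpace F]
    {f : E → F} {U : Set E} (hU : IsOpen U) (hf : DifferentiableOn ℂ f U) {z : E} (hz : z ∈ U) :
    ContDiffAt ℝ ∞ f z :=
  ((((Crest.Agent.R266.SCV.contDiffOn_omega_of_differentiableOn hU hf).contDiffAt
    (hU.mem_nhds hz)).restrict_scalars ℝ).of_le le_top)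

theorem exists_atl [FiniteDimensional ℝ V] [CompactSpace X] [T2Space X] (hcx : P.Cx)
    (hN : Module.finrank ℝ V = 2 * N) (b : H ≃L[ℂ] (Fin (K + 1) → ℂ)) {κ : Type*} (O : κ → Set X)
    (hO : ∀ k, IsOpen (O k)) (hOc : ∀ x, ∃ k, x ∈ O k) :
    ∃ A : Atl N X, Finite A.ι ∧ GoodA A ∧ Nonempty (Part A) ∧ HolA P b A ∧
      (∀ a, ∃ k, (A.e a).source ⊆ O k) ∧ (∀ a, ∃ k, (A.e a).source ⊆ OX P b k) ∧
      (∀ a, ∃ i, (A.e a).source ⊆ (C.e i).source) := by
  obtain ⟨A, h1, h2, h3, h4, h5, h6⟩ := (famP hcx hN b).exists_atl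
    (fun q : κ × Fin (K + 1) × C.ι => O q.1 ∩ (OX P b q.2.1 ∩ (C.e q.2.2).source))
    (fun q => (hO q.1).inter ((isOpen_OX q.2.1).inter (C.e q.2.2).open_source))
    (fun x => by
      obtain ⟨k, hk⟩ := hOc x
      obtain ⟨l, hl⟩ := exists_OX (P := P) (b := b) x
      obtain ⟨i, hi⟩ := C.cover x
      exact ⟨(k, l, i), hk, hl, hi⟩)
  have hch : ∀ x : X, ∃ c : Ch P b N, x ∈ c.hom.source := fun x => (famP hcx hN b).cover x
  -- transition from `A` to the charts of the family
  have t1 : ∀ (a : A.ι) (c : Ch P b N) (z : Cn N), z ∈ (A.e a).target →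
      (A.e a).symm z ∈ c.hom.source → DifferentiableAt ℂ (fun z => c.hom ((A.e a).symm z)) z ∧
        ContDiffAt ℝ ∞ (fun z => c.hom ((A.e a).symm z)) z := by
    intro a c z hz hc
    refine ⟨h5.diffAt (i := a) (j := c) hz hc, contDiffAt_of_hol (h5.isOpen_dm a c) (h5.hol a c)
      ⟨hz, hc⟩⟩
  have t2 : ∀ (a : A.ι) (c : Ch P b N) (y : Cn N), y ∈ c.hom.target →
      c.hom.symm y ∈ (A.e a).source → ContDiffAt ℝ ∞ (fun y => A.e a (c.hom.symm y)) y := by
    intro a c y hy hc
    exact contDiffAt_of_hol (h6.isOpen_dm c a) (h6.hol c a) ⟨hy, hc⟩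
  refine ⟨A, h1, h2, h3, ⟨⟨fun i a => ?_, fun i a => ?_⟩, fun a k z hz hk => ?_⟩,
    fun a => ?_, fun a => ?_, fun a => ?_⟩
  · -- `A → C`
    intro z hz
    obtain ⟨c, hc⟩ := hch ((A.e a).symm z)
    have e1 := (t1 a c z hz.1 hc).2
    have hx := c.mem_source.1 hc
    have e2 : ContDiffAt ℝ ∞ (fun y => C.t c.i i (c.e.symm y)) (c.hom ((A.e a).symm z)) := by
      have e3 : c.e.symm (c.hom ((A.e a).symm z)) = C.e c.i ((A.e a).symm z) := by
        rw [c.hom_apply, c.e.left_inv hx.2]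
      refine ContDiffAt.comp (g := C.t c.i i) (f := c.e.symm) _ ?_
        (c.contDiffAt_symm (c.mem_target'.1 (c.hom.map_source hc)))
      rw [e3]
      exact (RCh.t_smooth c.i i).contDiffAt ((RCh.isOpen_ov c.i i).mem_nhds (mem_ov hx.1 hz.2))
    have e4 : ContDiffAt ℝ ∞ (fun z => C.t c.i i (c.e.symm (c.hom ((A.e a).symm z)))) z :=
      ContDiffAt.comp (g := fun y => C.t c.i i (c.e.symm y))
        (f := fun z => c.hom ((A.e a).symm z)) z e2 e1
    refine (e4.congr_of_eventuallyEq ?_).contDiffWithinAt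
    filter_upwards [((A.e a).isOpen_inter_preimage_symm c.hom.open_source).mem_nhds
      ⟨hz.1, hc⟩] with z' hz'
    have hx' := c.mem_source.1 hz'.2
    show C.e i ((A.e a).symm z') = C.t c.i i (c.e.symm (c.hom ((A.e a).symm z')))
    rw [c.hom_apply, c.e.left_inv hx'.2, t_e hx'.1]
  · -- `C → A`
    intro z hz
    obtain ⟨c, hc⟩ := hch ((C.e i).symm z)
    have hx := c.mem_source.1 hc
    have hxi : (C.e i).symm z ∈ (C.e i).source := (C.e i).map_target hz.1
    have hzd : z ∈ dm P b c.k i := by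
      have := (mem_OX hxi).1 (c.mem_OX hc)
      rwa [(C.e i).right_inv hz.1] at this
    have e1 : ContDiffAt ℝ ∞ (fun z => c.π (nu P b c.k i z)) z :=
      (c.π.restrictScalars ℝ).contDiff.contDiffAt.comp z (nu_contDiffAt hzd)
    have e0 : ∀ z', z' ∈ (C.e i).target → (C.e i).symm z' ∈ c.hom.source →
        c.hom ((C.e i).symm z') = c.π (nu P b c.k i z') := by
      intro z' hz1 hz2
      rw [c.hom_eq hz2, nuX_eq ((C.e i).map_target hz1) (c.mem_OX hz2), (C.e i).right_inv hz1]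
    have e2 : ContDiffAt ℝ ∞ (fun y => A.e a (c.hom.symm y)) (c.π (nu P b c.k i z)) := by
      rw [← e0 z hz.1 hc]
      refine t2 a c _ (c.hom.map_source hc) ?_
      rw [c.hom.left_inv hc]
      exact hz.2
    have e4 : ContDiffAt ℝ ∞ (fun z => A.e a (c.hom.symm (c.π (nu P b c.k i z)))) z :=
      ContDiffAt.comp (g := fun y => A.e a (c.hom.symm y))
        (f := fun z => c.π (nu P b c.k i z)) z e2 e1
    refine (e4.congr_of_eventuallyEq ?_).contDiffWithinAt
    filter_upwards [((C.e i).isOpen_inter_preimage_symm c.hom.open_source).mem_nhds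
      ⟨hz.1, hc⟩] with z' hz'
    show A.e a ((C.e i).symm z') = A.e a (c.hom.symm (c.π (nu P b c.k i z')))
    rw [← e0 z' hz'.1 hz'.2, c.hom.left_inv hz'.2]
  · obtain ⟨c, hc⟩ := hch ((A.e a).symm z)
    have e1 := (t1 a c z hz hc).1
    have e2 : DifferentiableAt ℂ (fun y => nuX P b k (c.hom.symm y)) (c.hom ((A.e a).symm z)) := by
      refine c.diffX hcx (c.hom.map_source hc) (g := fun w => w) ?_ differentiableAt_id
      rw [c.hom.left_inv hc]
      exact hk
    have e3 : DifferentiableAt ℂ (fun z => nuX P b k (c.hom.symm (c.hom ((A.e a).symm z)))) z :=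
      DifferentiableAt.comp (g := fun y => nuX P b k (c.hom.symm y))
        (f := fun z => c.hom ((A.e a).symm z)) z e2 e1
    refine e3.congr_of_eventuallyEq ?_
    filter_upwards [((A.e a).isOpen_inter_preimage_symm c.hom.open_source).mem_nhds
      ⟨hz, hc⟩] with z' hz'
    rw [c.hom.left_inv hz'.2]
  · obtain ⟨q, hq⟩ := h4 a
    exact ⟨q.1, fun x hx => (hq hx).1⟩
  · obtain ⟨q, hq⟩ := h4 a
    exact ⟨q.2.1, fun x hx => (hq hx).2.1⟩
  · obtain ⟨q, hq⟩ := h4 a
    exact ⟨q.2.2, fun x hx => (hq hx).2.2⟩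

theorem OX_of_ne {x : X} {k k' : Fin (K + 1)} (h : nuX P b k x k' ≠ 0) :
    x ∈ OX P b k' := fun h0 => h (by
  show (b (P.u (ci C x) (C.e (ci C x) x)) k)⁻¹ * b (P.u (ci C x) (C.e (ci C x) x)) k' = 0
  rw [h0, mul_zero])

namespace HolA

variable {A : Atl N X} (h : HolA P b A)
include h

/-- the affine coordinates in the chart `a` through the real chart `i` -/
theorem nuX_mt {a : A.ι} {i : C.ι} {z : Cn N} (hz : z ∈ mov C (ofAtl A) i a) {k : Fin (K + 1)}
    (hk : (A.e a).symm z ∈ OX P b k) :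
    nuX P b k ((A.e a).symm z) = nu P b k i (mt C (ofAtl A) i a z) :=
  nuX_eq hz.2 hk

/-- the affine coordinates are immersive -/
theorem imm_re {a : A.ι} {z : Cn N} (hz : z ∈ (A.e a).target) {k : Fin (K + 1)}
    (hk : (A.e a).symm z ∈ OX P b k) {v : Cn N}
    (hv : fderiv ℂ (fun z => nuX P b k ((A.e a).symm z)) z v = 0) : v = 0 := by
  have hd := h.hol a k z hz hk
  have h1 : fderiv ℝ (fun z => nuX P b k ((A.e a).symm z)) z v = 0 := by
    rw [hd.fderiv_restrictScalars ℝ]
    exact hv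
  obtain ⟨i, hi⟩ := C.cover ((A.e a).symm z)
  have hmv : z ∈ mov C (ofAtl A) i a := ⟨hz, hi⟩
  have h2 : (fun z => nuX P b k ((A.e a).symm z)) =ᶠ[𝓝 z]
      fun z => nu P b k i (mt C (ofAtl A) i a z) := by
    have h3 : ∀ᶠ z' in 𝓝 z, (A.e a).symm z' ∈ OX P b k :=
      ((A.e a).continuousAt_symm hz).preimage_mem_nhds ((isOpen_OX k).mem_nhds hk)
    filter_upwards [(Cmp.isOpen_mov C (ofAtl A) i a).mem_nhds hmv, h3] with z' hz' hk'
    exact h.nuX_mt hz' hk'
  have hzd : mt C (ofAtl A) i a z ∈ dm P b k i := (mem_OX hi).1 hk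
  have h4 := HasFDerivAt.comp (g := nu P b k i) (f := mt C (ofAtl A) i a) z
    (nu_diff hzd).hasFDerivAt (h.cmp.diff hmv).hasFDerivAt
  have h5 : fderiv ℝ (fun z => nu P b k i (mt C (ofAtl A) i a z)) z = _ := h4.fderiv
  rw [h2.fderiv_eq, h5] at h1
  have h6 := nu_imm hzd _ h1
  have h7 := h.cmp.d_d hmv v
  rw [show (fderiv ℝ (mt C (ofAtl A) i a) z) v = 0 from h6, map_zero] at h7
  exact h7.symm

/-- the projective embedding -/
def toProj (κ : A.ι → Fin (K + 1)) (hκ : ∀ a, (A.e a).source ⊆ OX P b (κ a)) : ProjD A where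
  N := K
  F a x := nuX P b (κ a) x
  hol a k := by
    intro z hz
    have h1 := h.hol a (κ a) z hz.1 (hκ a ((A.e a).map_target hz.1))
    exact ((differentiableAt_pi.1 h1) k).differentiableWithinAt
  ne a x hx h0 := by
    have h1 := nuX_self (hκ a hx)
    rw [h0] at h1
    exact zero_ne_one h1
  tr a a' x hx := ⟨_, (nuX_chg (hκ a' hx.2) (hκ a hx.1)).2⟩
  inj a a' x hx y hy hc := by
    obtain ⟨c, hc⟩ := hc
    have h1 := nuX_self (hκ a hx)
    have h2 : c * nuX P b (κ a') y (κ a) = 1 := by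
      rw [← h1, hc]
      rfl
    have h3 : y ∈ OX P b (κ a) := OX_of_ne (k := κ a') fun h0 => by
      rw [h0, mul_zero] at h2
      exact zero_ne_one h2
    refine eq_of_nuX (hκ a hx) (y := y) ?_
    rw [(nuX_chg (hκ a' hy) h3).2, hc]
    congr 1
    exact eq_inv_of_mul_eq_one_left h2
  imm a z hz v hc := by
    obtain ⟨c, hc⟩ := hc
    have hk := hκ a ((A.e a).map_target hz)
    have hd := h.hol a (κ a) z hz hk
    have h1 : fderiv ℂ (fun z => nuX P b (κ a) ((A.e a).symm z)) z v (κ a) = 0 := by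
      have h2 := (hasFDerivAt_pi'.1 hd.hasFDerivAt) (κ a)
      have h3 : (fun z => nuX P b (κ a) ((A.e a).symm z) (κ a)) =ᶠ[𝓝 z] fun _ => 1 := by
        filter_upwards [(A.e a).open_target.mem_nhds hz] with z' hz'
        exact nuX_self (hκ a ((A.e a).map_target hz'))
      have h4 := h2.fderiv
      rw [h3.fderiv_eq, fderiv_const_apply] at h4
      exact (congrArg (fun T : Cn N →L[ℂ] ℂ => T v) h4).symm
    have h5 : fderiv ℂ (fun z => nuX P b (κ a) ((A.e a).symm z)) z v =
      c • nuX P b (κ a) ((A.e a).symm z) := hc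
    have h6 : c = 0 := by
      rw [h5, Pi.smul_apply, nuX_self hk, smul_eq_mul, mul_one] at h1
      exact h1
    rw [h6, zero_smul] at h5
    exact h.imm_re hz hk h5



end HolA

end

end Crest.Agent.R281.Pe_313
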