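import Mathlib
import Crest.Agent.R273.FS_333
import Crest.Agent.R281.Pe3_313
import Crest.Agent.R281.HkR5_835

-- ▼ part R281/Blk1_592
section

/-!
# R281 (S0424), blocks of members (helper592), part 1: Segre algebra

`ι` finite (blocks), `J k` the coordinates of the block `k`, Segre space `(Π k, J k) → R`.

* `seg u`          : `a ↦ ∏ k, u k (a k)`
* `ext k a`        : extraction of the block `k` (LINEAR): `w ↦ (j ↦ w (update a k j))`
* `SegRel w`       : the quadratic relations; `segEq` the same as a finite set of quadrics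
* `exists_seg`     : over a field `w ≠ 0`: `SegRel w ↔ w = seg u`, `u k ≠ 0`
* `ext_indep`      : `w a₁ • ext k a₀ w = w (update a₀ k (a₁ k)) • ext k a₁ w`
* `DRel w v`       : linearised relations (velocities), `dext_indep`
* `sum_norm_seg`   : `∑ |seg u|² = ∏ ∑ |u k|²`
* `dseg`           : derivative of `seg`; `ext_dseg`
-/

set_option autoImplicit false
set_option linter.unusedSectionVars false

open Finset Function

namespace Crest.Agent.R281.Blk_592

noncomputable section

variable {ι : Type*} [Fintype ι] [DecidableEq ι] {J : ι → Type*}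

section Ring

variable {R : Type*} [CommRing R]

/-- Segre map -/
def seg (u : ∀ k, J k → R) (a : ∀ k, J k) : R := ∏ k, u k (a k)

/-- extraction of the block `k` -/
def ext (k : ι) (a : ∀ k, J k) (w : (∀ k, J k) → R) (j : J k) : R := w (update a k j)

/-- the Segre relations -/
def SegRel (w : (∀ k, J k) → R) : Prop :=
  ∀ k a a', w a * w a' = w (update a k (a' k)) * w (update a' k (a k))

/-- the linearised Segre relations at `w` -/
def DRel (w v : (∀ k, J k) → R) : Prop :=
  ∀ k a a', v a * w a' + w a * v a' = v (update a k (a' k)) * w (update a' k (a k)) +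
    w (update a k (a' k)) * v (update a' k (a k))

theorem ext_add (k : ι) (a : ∀ k, J k) (w w' : (∀ k, J k) → R) :
    ext k a (w + w') = ext k a w + ext k a w' := rfl

theorem ext_smul (k : ι) (a : ∀ k, J k) (c : R) (w : (∀ k, J k) → R) :
    ext k a (c • w) = c • ext k a w := rfl

theorem ext_self (k : ι) (a : ∀ k, J k) (w : (∀ k, J k) → R) : ext k a w (a k) = w a := by
  unfold ext
  rw [update_eq_self]

theorem seg_update (u : ∀ k, J k → R) (k : ι) (a : ∀ k, J k) (j : J k) :
    seg u (update a k j) = u k j * ∏ l ∈ univ.erase k, u l (a l) := by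
  unfold seg
  rw [← Finset.mul_prod_erase univ _ (mem_univ k), update_self]
  congr 1
  refine Finset.prod_congr rfl fun l hl => ?_
  rw [update_of_ne (ne_of_mem_erase hl)]

theorem seg_eq (u : ∀ k, J k → R) (k : ι) (a : ∀ k, J k) :
    seg u a = u k (a k) * ∏ l ∈ univ.erase k, u l (a l) := by
  have h := seg_update u k a (a k)
  rwa [update_eq_self] at h

theorem ext_seg (u : ∀ k, J k → R) (k : ι) (a : ∀ k, J k) :
    ext k a (seg u) = (∏ l ∈ univ.erase k, u l (a l)) • u k := by
  funext j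
  rw [ext, seg_update, Pi.smul_apply, smul_eq_mul, mul_comm]

theorem segRel_seg (u : ∀ k, J k → R) : SegRel (seg u) := by
  intro k a a'
  rw [seg_update, seg_update, seg_eq u k a, seg_eq u k a']
  ring

theorem SegRel.smul {w : (∀ k, J k) → R} (h : SegRel w) (c : R) : SegRel (c • w) := by
  intro k a a'
  simp only [Pi.smul_apply, smul_eq_mul]
  linear_combination c ^ 2 * h k a a'

theorem SegRel.map {S : Type*} [CommRing S] (φ : R →+* S) {w : (∀ k, J k) → R} (h : SegRel w) :
    SegRel fun a => φ (w a) := by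
  intro k a a'
  rw [← map_mul, h k a a', map_mul]

/-- independence of the base index -/
theorem ext_indep {w : (∀ k, J k) → R} (h : SegRel w) (k : ι) (a₀ a₁ : ∀ k, J k) :
    w a₁ • ext k a₀ w = w (update a₀ k (a₁ k)) • ext k a₁ w := by
  funext j
  have h1 := h k a₁ (update a₀ k j)
  rw [update_self, update_idem] at h1
  simp only [Pi.smul_apply, smul_eq_mul, ext]
  rw [h1]
  ring

theorem DRel.smul_add {w v : (∀ k, J k) → R} (h : SegRel w) (hv : DRel w v) (c c' : R) :
    DRel w (c • v + c' • w) := by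
  intro k a a'
  simp only [Pi.smul_apply, Pi.add_apply, smul_eq_mul]
  linear_combination c * hv k a a' + 2 * c' * h k a a'

theorem DRel.smul_left {w v : (∀ k, J k) → R} (hv : DRel w v) (c : R) : DRel (c • w) v := by
  intro k a a'
  simp only [Pi.smul_apply, smul_eq_mul]
  linear_combination c * hv k a a'

/-- independence of the base index, for velocities -/
theorem dext_indep {w v : (∀ k, J k) → R} (hv : DRel w v) (k : ι)
    (a₀ a₁ : ∀ k, J k) :
    w a₁ • ext k a₀ v + v a₁ • ext k a₀ w =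
      w (update a₀ k (a₁ k)) • ext k a₁ v + v (update a₀ k (a₁ k)) • ext k a₁ w := by
  funext j
  have h1 := hv k a₁ (update a₀ k j)
  rw [update_self, update_idem] at h1
  simp only [Pi.add_apply, Pi.smul_apply, smul_eq_mul, ext]
  linear_combination h1

/-- derivative of the Segre map -/
def dseg (u v : ∀ k, J k → R) (a : ∀ k, J k) : R :=
  ∑ k, v k (a k) * ∏ l ∈ univ.erase k, u l (a l)




/-- extraction from a velocity -/
theorem ext_dseg (u v : ∀ k, J k → R) (k : ι) (a : ∀ k, J k) :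
    ext k a (dseg u v) = (∏ l ∈ univ.erase k, u l (a l)) • v k +
      (∑ m ∈ univ.erase k, v m (a m) * ∏ l ∈ (univ.erase k).erase m, u l (a l)) • u k := by
  funext j
  simp only [ext, dseg, Pi.add_apply, Pi.smul_apply, smul_eq_mul]
  rw [← Finset.add_sum_erase univ _ (mem_univ k), update_self]
  congr 1
  · rw [mul_comm]
    congr 1
    refine Finset.prod_congr rfl fun l hl => ?_
    rw [update_of_ne (ne_of_mem_erase hl)]
  · rw [Finset.sum_mul]
    refine Finset.sum_congr rfl fun m hm => ?_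
    have hmk : m ≠ k := ne_of_mem_erase hm
    rw [update_of_ne hmk, ← Finset.mul_prod_erase (univ.erase m) _ (mem_erase.2 ⟨hmk.symm,
      mem_univ k⟩), update_self, Finset.erase_right_comm]
    have h1 : ∏ x ∈ (univ.erase k).erase m, u x (update a k j x) =
        ∏ x ∈ (univ.erase k).erase m, u x (a x) := by
      refine Finset.prod_congr rfl fun l hl => ?_
      rw [update_of_ne (ne_of_mem_erase (mem_of_mem_erase hl))]
    rw [h1]
    ring

theorem dRel_dseg (u v : ∀ k, J k → R) : DRel (seg u) (dseg u v) := by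
  intro k a a'
  have e : ∀ b : ∀ k, J k, dseg u v b = v k (b k) * (∏ l ∈ univ.erase k, u l (b l)) +
      (∑ m ∈ univ.erase k, v m (b m) * ∏ l ∈ (univ.erase k).erase m, u l (b l)) * u k (b k) := by
    intro b
    have h1 := congrFun (ext_dseg u v k b) (b k)
    rw [ext_self] at h1
    rw [h1]
    simp only [Pi.add_apply, Pi.smul_apply, smul_eq_mul]
    ring
  have e' : ∀ (b : ∀ k, J k) (j : J k), dseg u v (update b k j) =
      v k j * (∏ l ∈ univ.erase k, u l (b l)) +
      (∑ m ∈ univ.erase k, v m (b m) * ∏ l ∈ (univ.erase k).erase m, u l (b l)) * u k j := by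
    intro b j
    have h1 := congrFun (ext_dseg u v k b) j
    have h2 : ext k b (dseg u v) j = dseg u v (update b k j) := rfl
    rw [← h2, h1]
    simp only [Pi.add_apply, Pi.smul_apply, smul_eq_mul]
    ring
  rw [e', e', seg_update, seg_update, e a, e a', seg_eq u k a, seg_eq u k a']
  ring

/-! ### the quadrics -/

open MvPolynomial in
/-- the Segre quadric -/
def segPoly (R : Type*) [CommRing R] (k : ι) (a a' : ∀ k, J k) : MvPolynomial (∀ k, J k) R :=
  X a * X a' - X (update a k (a' k)) * X (update a' k (a k))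

theorem segPoly_hom (k : ι) (a a' : ∀ k, J k) : (segPoly R k a a').IsHomogeneous 2 := by
  have h : ∀ b b' : ∀ k, J k, (MvPolynomial.X b * MvPolynomial.X b' :
      MvPolynomial (∀ k, J k) R).IsHomogeneous 2 := fun b b' =>
    (MvPolynomial.isHomogeneous_X R b).mul (MvPolynomial.isHomogeneous_X R b')
  exact (h _ _).sub (h _ _)

theorem segPoly_map {S : Type*} [CommRing S] (φ : R →+* S) (k : ι) (a a' : ∀ k, J k) :
    (segPoly R k a a').map φ = segPoly S k a a' := by
  simp [segPoly]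

theorem eval_segPoly (k : ι) (a a' : ∀ k, J k) (w : (∀ k, J k) → R) :
    MvPolynomial.eval w (segPoly R k a a') =
      w a * w a' - w (update a k (a' k)) * w (update a' k (a k)) := by
  simp [segPoly]

theorem segRel_iff {w : (∀ k, J k) → R} :
    SegRel w ↔ ∀ k a a', MvPolynomial.eval w (segPoly R k a a') = 0 := by
  simp only [SegRel, eval_segPoly, sub_eq_zero]



end Ring

section Field

variable {F : Type*} [Field F]

/-- the monomial identity of the Segre cone -/
theorem segRel_pow {R : Type*} [CommRing R] {w : (∀ k, J k) → R} (h : SegRel w)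
    (a₀ a : ∀ k, J k) (s : Finset ι) :
    w (s.piecewise a a₀) * w a₀ ^ s.card = w a₀ * ∏ k ∈ s, w (update a₀ k (a k)) := by
  induction s using Finset.induction_on with
  | empty => simp
  | insert k s hk ih =>
    have h1 : (insert k s).piecewise a a₀ = update (s.piecewise a a₀) k (a k) :=
      Finset.piecewise_insert s a a₀ k
    have h2 := h k (update (s.piecewise a a₀) k (a k)) a₀
    rw [update_idem, update_self] at h2
    have h3 : update (s.piecewise a a₀) k (a₀ k) = s.piecewise a a₀ := by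
      have : (s.piecewise a a₀) k = a₀ k := Finset.piecewise_eq_of_notMem s a a₀ hk
      rw [← this, update_eq_self]
    rw [h3] at h2
    rw [h1, Finset.card_insert_of_notMem hk, Finset.prod_insert hk, pow_succ]
    linear_combination w a₀ ^ s.card * h2 + w (update a₀ k (a k)) * ih

theorem segRel_eq {w : (∀ k, J k) → F} (h : SegRel w) {a₀ : ∀ k, J k} (h0 : w a₀ ≠ 0) :
    w = (w a₀ * ((w a₀)⁻¹) ^ Fintype.card ι) • seg (fun k => ext k a₀ w) := by
  funext a
  have h1 := segRel_pow h a₀ a univ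
  rw [Finset.piecewise_univ, Finset.card_univ] at h1
  simp only [Pi.smul_apply, smul_eq_mul, seg, ext]
  have h2 : w a₀ ^ Fintype.card ι ≠ 0 := pow_ne_zero _ h0
  rw [inv_pow]
  field_simp
  exact h1

theorem ext_ne {w : (∀ k, J k) → F} {a₀ : ∀ k, J k} (h0 : w a₀ ≠ 0) (k : ι) : ext k a₀ w ≠ 0 := by
  intro h
  have h1 := congrFun h (a₀ k)
  rw [ext_self] at h1
  exact h0 h1

theorem exists_nz {T : Type*} {x : T → F} (h : x ≠ 0) : ∃ j, x j ≠ 0 := by
  by_contra h2
  push Not at h2
  exact h (funext h2)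

theorem seg_ne {u : ∀ k, J k → F} (h : ∀ k, u k ≠ 0) : seg u ≠ 0 := by
  have h1 : ∀ k, ∃ j, u k j ≠ 0 := fun k => by
    by_contra h2
    push Not at h2
    exact h k (funext h2)
  choose a ha using h1
  intro h2
  exact (Finset.prod_ne_zero_iff.2 fun k _ => ha k) (congrFun h2 a)


/-- the blocks of two points of the Segre cone determine them up to a scalar -/
theorem seg_proj {u u' : ∀ k, J k → F} (h : ∀ k, ∃ c : F, u k = c • u' k) :
    ∃ c : F, seg u = c • seg u' := by
  choose c hc using h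
  refine ⟨∏ k, c k, ?_⟩
  funext a
  simp only [seg, Pi.smul_apply, smul_eq_mul]
  rw [← Finset.prod_mul_distrib]
  refine Finset.prod_congr rfl fun k _ => ?_
  rw [hc k]
  rfl

/-- the Segre map is injective on products of projective spaces -/
theorem seg_inj {u u' : ∀ k, J k → F} (hu : ∀ k, u k ≠ 0) (h : ∃ c : F, seg u = c • seg u')
    (k : ι) : ∃ c : F, u k = c • u' k := by
  obtain ⟨c, hc⟩ := h
  have h1 : ∀ l, ∃ j, u l j ≠ 0 := fun l => exists_nz (hu l)
  choose a ha using h1
  have h2 := congrArg (ext k a) hc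
  rw [ext_seg, ext_smul, ext_seg] at h2
  have h3 : (∏ l ∈ univ.erase k, u l (a l)) ≠ 0 := Finset.prod_ne_zero_iff.2 fun l _ => ha l
  refine ⟨(∏ l ∈ univ.erase k, u l (a l))⁻¹ * (c * ∏ l ∈ univ.erase k, u' l (a l)), ?_⟩
  rw [mul_smul, mul_smul, ← h2, inv_smul_smul₀ h3]

/-- the derivative of the Segre map is injective modulo the Euler directions -/
theorem dseg_inj {u v : ∀ k, J k → F} (hu : ∀ k, u k ≠ 0) (h : ∃ c : F, dseg u v = c • seg u)
    (k : ι) : ∃ c : F, v k = c • u k := by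
  obtain ⟨c, hc⟩ := h
  have h1 : ∀ l, ∃ j, u l j ≠ 0 := fun l => exists_nz (hu l)
  choose a ha using h1
  have h2 := congrArg (ext k a) hc
  rw [ext_dseg, ext_smul, ext_seg] at h2
  have h3 : (∏ l ∈ univ.erase k, u l (a l)) ≠ 0 := Finset.prod_ne_zero_iff.2 fun l _ => ha l
  set p := ∏ l ∈ univ.erase k, u l (a l)
  set q := ∑ m ∈ univ.erase k, v m (a m) * ∏ l ∈ (univ.erase k).erase m, u l (a l)
  refine ⟨p⁻¹ * (c * p - q), ?_⟩
  have h4 : p • v k = (c * p - q) • u k := by
    rw [sub_smul, mul_smul, ← h2, add_sub_cancel_right]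
  rw [mul_smul, ← h4, inv_smul_smul₀ h3]

/-- extraction of a block of a velocity: independence of the base index -/
theorem dext_indep' {w v : (∀ k, J k) → F} (h : SegRel w) (hv : DRel w v) (k : ι)
    {a₀ a₁ : ∀ k, J k} (h1 : w a₁ ≠ 0) :
    ext k a₀ w = (w (update a₀ k (a₁ k)) / w a₁) • ext k a₁ w ∧
    ext k a₀ v = (w (update a₀ k (a₁ k)) / w a₁) • ext k a₁ v +
      ((v (update a₀ k (a₁ k)) - v a₁ * (w (update a₀ k (a₁ k)) / w a₁)) / w a₁) •
        ext k a₁ w := by
  have e1 := ext_indep h k a₀ a₁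
  have e2 : ext k a₀ w = (w (update a₀ k (a₁ k)) / w a₁) • ext k a₁ w := by
    rw [div_eq_inv_mul, mul_smul, ← e1, inv_smul_smul₀ h1]
  refine ⟨e2, ?_⟩
  have e3 := dext_indep hv k a₀ a₁
  rw [e2] at e3
  funext j
  have e4 := congrFun e3 j
  simp only [Pi.add_apply, Pi.smul_apply, smul_eq_mul] at e4 ⊢
  field_simp
  field_simp at e4
  linear_combination e4

theorem ext_scal_ne {w : (∀ k, J k) → F} (h : SegRel w) (k : ι)
    {a₀ a₁ : ∀ k, J k} (h0 : w a₀ ≠ 0) (h1 : w a₁ ≠ 0) : w (update a₀ k (a₁ k)) ≠ 0 := by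
  intro h2
  have h3 := h k a₀ a₁
  rw [h2, zero_mul] at h3
  exact mul_ne_zero h0 h1 h3

end Field

section Norm

variable [∀ k, Fintype (J k)]


/-- block extraction as a continuous linear map -/
def extL (k : ι) (a : ∀ k, J k) : ((∀ k, J k) → ℂ) →L[ℂ] (J k → ℂ) :=
  LinearMap.toContinuousLinearMap
    { toFun := ext k a
      map_add' := fun _ _ => rfl
      map_smul' := fun _ _ => rfl }

theorem extL_apply (k : ι) (a : ∀ k, J k) (w : (∀ k, J k) → ℂ) : extL k a w = ext k a w := rfl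

end Norm

end

end Crest.Agent.R281.Blk_592
end

-- ▼ part R281/Blk2_592
section

/-!
# R281 (S0424), blocks of members (helper592), part 2: holomorphic maps to projective spaces

* `MapD A J`      : homogeneous coordinates `F i x : J → ℂ` of a holomorphic map to `ℙ(J → ℂ)`
* `MapD.lb`, `MapD.sec`, `MapD.isHS_sec`, `MapD.exists_sec_ne`
* `MapD.lb_eq`    : `lb = L` if the coordinates are sections of `L`
* `MapD.fs : HM lb`, `MapD.lev_fs` (formula), `MapD.semipos`, `MapD.lev_pos`
* `MapD.ofProj`, `MapD.toProj`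
* `segM Q`        : Segre product of block maps; `segM_g`, `segM_w`, `segM_cur`, `segM_posDef`
* `segP`          : Segre product of projective embeddings (jointly injective and immersive)
* `MapD.blk`      : extraction of a block; `segM_blk`
-/

set_option autoImplicit false
set_option linter.unusedSectionVars false

open Set Filter Topology Complex Function
open scoped ContDiff Matrix ComplexConjugate Manifold ComplexOrder

namespace Crest.Agent.R281.Blk_592

open Crest.Agent.R275.Geo Crest.Agent.R275.Core144 Crest.Agent.R275.EDR890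
open Crest.Agent.R273.Defs_333 Crest.Agent.R273.Hess_333 Crest.Agent.R273.HessB_333
open Crest.Agent.R273.HM_333 Crest.Agent.R273.Kah_333 Crest.Agent.R273.FS_333

noncomputable section

variable {n : ℕ} {M : Type} [TopologicalSpace M] {A : Atl n M}

/-- homogeneous coordinates of a holomorphic map to a projective space -/
structure MapD (A : Atl n M) (J : Type) where
  F : A.ι → M → J → ℂ
  hol : ∀ i j, HolAt A i univ (fun x => F i x j)
  ne : ∀ i, ∀ x ∈ (A.e i).source, F i x ≠ 0
  tr : ∀ i j, ∀ x ∈ (A.e i).source ∩ (A.e j).source, ∃ c : ℂ, F i x = c • F j x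

namespace MapD

variable {J : Type}

section Bundle

variable (Q : MapD A J)

open Classical in
/-- the transition function -/
def gij (i j : A.ι) (x : M) : ℂ :=
  if hx : x ∈ (A.e i).source ∩ (A.e j).source then (Q.tr i j x hx).choose else 1

theorem gij_spec {i j : A.ι} {x : M} (hx : x ∈ (A.e i).source ∩ (A.e j).source) :
    Q.F i x = Q.gij i j x • Q.F j x := by
  unfold gij
  rw [dif_pos hx]
  exact (Q.tr i j x hx).choose_spec

theorem gij_off {i j : A.ι} {x : M} (hx : x ∉ (A.e i).source ∩ (A.e j).source) :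
    Q.gij i j x = 1 := dif_neg hx

theorem exists_F_ne {j : A.ι} {x : M} (hx : x ∈ (A.e j).source) : ∃ k, Q.F j x k ≠ 0 :=
  exists_nz (Q.ne j x hx)

theorem gij_eq {i j : A.ι} {x : M} (hx : x ∈ (A.e i).source ∩ (A.e j).source) {k : J}
    (hk : Q.F j x k ≠ 0) : Q.gij i j x = Q.F i x k / Q.F j x k := by
  have h := congrFun (Q.gij_spec hx) k
  rw [Pi.smul_apply, smul_eq_mul] at h
  rw [h, mul_div_assoc, div_self hk, mul_one]

theorem gij_uniq {i j : A.ι} {x : M} (hx : x ∈ (A.e i).source ∩ (A.e j).source) {c : ℂ}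
    (hc : Q.F i x = c • Q.F j x) : Q.gij i j x = c := by
  obtain ⟨k, hk⟩ := Q.exists_F_ne hx.2
  rw [Q.gij_eq hx hk, hc, Pi.smul_apply, smul_eq_mul, mul_div_assoc, div_self hk, mul_one]

theorem hol_chg {i j : A.ι} (k : J) : HolAt A i (A.e j).source (fun x => Q.F j x k) := by
  have h := (Q.hol j k).chg isOpen_univ i
  rwa [univ_inter] at h

/-- the pull back of the hyperplane bundle -/
def lb : LB A where
  g := Q.gij
  hol i j := by
    intro z hz
    set x := (A.e i).symm z with hxd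
    have hx : x ∈ (A.e i).source ∩ (A.e j).source := ⟨(A.e i).map_target hz.1, hz.2⟩
    obtain ⟨k, hk⟩ := Q.exists_F_ne hx.2
    have ho : IsOpen ((A.e i).target ∩ (A.e i).symm ⁻¹' (A.e j).source) :=
      isOpen_ti (A.e j).open_source
    have h1 : DifferentiableAt ℂ (fun w => Q.F i ((A.e i).symm w) k) z := by
      have := (Q.hol i k).mono (subset_univ (A.e j).source)
      exact DifferentiableOn.differentiableAt this (ho.mem_nhds hz)
    have h2 : DifferentiableAt ℂ (fun w => Q.F j ((A.e i).symm w) k) z :=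
      DifferentiableOn.differentiableAt (Q.hol_chg k) (ho.mem_nhds hz)
    have h3 : (fun w => Q.gij i j ((A.e i).symm w)) =ᶠ[𝓝 z]
        fun w => Q.F i ((A.e i).symm w) k * (Q.F j ((A.e i).symm w) k)⁻¹ := by
      filter_upwards [ho.mem_nhds hz, h2.continuousAt.eventually_ne hk] with w hw hwk
      rw [Q.gij_eq ⟨(A.e i).map_target hw.1, hw.2⟩ hwk, div_eq_mul_inv]
    exact ((h1.mul (h2.inv hk)).congr_of_eventuallyEq h3).differentiableWithinAt
  off i j x hx := Q.gij_off hx
  self i x := by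
    by_cases hx : x ∈ (A.e i).source
    · exact Q.gij_uniq ⟨hx, hx⟩ (one_smul ℂ _).symm
    · exact Q.gij_off fun h => hx h.1
  mul i j k x hx := by
    refine (Q.gij_uniq ⟨hx.1.1, hx.2⟩ ?_).symm
    rw [mul_smul, ← Q.gij_spec (i := j) (j := k) ⟨hx.1.2, hx.2⟩]
    exact Q.gij_spec hx.1

theorem lb_g {i j : A.ι} {x : M} (hx : x ∈ (A.e i).source ∩ (A.e j).source) :
    Q.F i x = Q.lb.g i j x • Q.F j x := Q.gij_spec hx

/-- the coordinates are sections of `L` -/
theorem lb_eq (L : LB A) (h : ∀ i j, ∀ x ∈ (A.e i).source ∩ (A.e j).source,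
    Q.F i x = L.g i j x • Q.F j x) : Q.lb = L := by
  ext i j x
  by_cases hx : x ∈ (A.e i).source ∩ (A.e j).source
  · exact Q.gij_uniq hx (h i j x hx)
  · rw [L.off i j x hx]
    exact Q.gij_off hx

open Classical in
/-- the section `F_k` -/
def sec (k : J) : A.ι → M → ℂ := fun i x =>
  if x ∈ (A.e i).source then Q.F i x k else 0

theorem sec_eq {i : A.ι} {x : M} (hx : x ∈ (A.e i).source) (k : J) :
    Q.sec k i x = Q.F i x k := if_pos hx



theorem diffOn (i : A.ι) (k : J) :
    DifferentiableOn ℂ (fun w => Q.F i ((A.e i).symm w) k) (A.e i).target := by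
  have := Q.hol i k
  unfold HolAt at this
  simpa using this

end Bundle

section Metric

variable [Fintype J] (Q : MapD A J)

theorem sq_pos' {v : J → ℂ} (h : v ≠ 0) : 0 < ∑ k, ‖v k‖ ^ 2 := by
  obtain ⟨k, hk⟩ := exists_nz h
  refine lt_of_lt_of_le (by positivity : 0 < ‖v k‖ ^ 2) ?_
  exact Finset.single_le_sum (f := fun k => ‖v k‖ ^ 2) (fun _ _ => by positivity)
    (Finset.mem_univ k)

/-- the Fubini-Study metric -/
def fs : HM Q.lb where
  w i x := (∑ k, ‖Q.F i x k‖ ^ 2)⁻¹
  pos i x hx := inv_pos.2 (sq_pos' (Q.ne i x hx))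
  sm i := by
    have h1 : ContDiffOn ℝ ∞ (fun z => ∑ k, ‖Q.F i ((A.e i).symm z) k‖ ^ 2) (A.e i).target := by
      refine ContDiffOn.sum fun k _ => ?_
      have h2 : ContDiffOn ℝ ∞ (fun z => Q.F i ((A.e i).symm z) k) (A.e i).target := by
        have := (Q.hol i k).contDiffOn isOpen_univ
        simpa using this
      exact h2.norm_sq ℝ
    exact h1.inv fun z hz => (sq_pos' (Q.ne i _ ((A.e i).map_target hz))).ne'
  tr i j x hx := by
    have h1 := Q.gij_spec hx
    have h2 : (∑ k, ‖Q.F i x k‖ ^ 2) = ‖Q.gij i j x‖ ^ 2 * ∑ k, ‖Q.F j x k‖ ^ 2 := by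
      rw [Finset.mul_sum]
      refine Finset.sum_congr rfl fun k _ => ?_
      rw [h1, Pi.smul_apply, smul_eq_mul, norm_mul, mul_pow]
    change (∑ k, ‖Q.F j x k‖ ^ 2)⁻¹ = ‖Q.gij i j x‖ ^ 2 * (∑ k, ‖Q.F i x k‖ ^ 2)⁻¹
    have h3 : Q.gij i j x ≠ 0 := Q.lb.ne_zero i j x
    rw [h2, mul_inv, ← mul_assoc, mul_inv_cancel₀ (by positivity), one_mul]

theorem wt_fs (i : A.ι) (z : Cn n) :
    Q.fs.wt i z = Real.log (∑ k, ‖Q.F i ((A.e i).symm z) k‖ ^ 2) := by
  simp only [HM.wt, fs, Real.log_inv, neg_neg]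

/-- the coordinates numbered by `Fin` -/
def Fe (i : A.ι) (z : Cn n) (k : Fin (Fintype.card J)) : ℂ :=
  Q.F i ((A.e i).symm z) ((Fintype.equivFin J).symm k)

theorem sq_Fe (i : A.ι) (z : Cn n) : Crest.Agent.R273.FS_333.sq (Q.Fe i) z = ∑ k, ‖Q.F i ((A.e i).symm z) k‖ ^ 2 := by
  unfold Crest.Agent.R273.FS_333.sq Fe
  exact Equiv.sum_comp (Fintype.equivFin J).symm (fun k => ‖Q.F i ((A.e i).symm z) k‖ ^ 2)

theorem wt_fs' (i : A.ι) : Q.fs.wt i = fun z => Real.log (Crest.Agent.R273.FS_333.sq (Q.Fe i) z) := by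
  funext z
  rw [wt_fs, sq_Fe]

theorem Fe_diff (i : A.ι) (k : Fin (Fintype.card J)) :
    DifferentiableOn ℂ (fun z => Q.Fe i z k) (A.e i).target := Q.diffOn i _

theorem Fe_ne {i : A.ι} {z : Cn n} (hz : z ∈ (A.e i).target) : Q.Fe i z ≠ 0 := by
  obtain ⟨k, hk⟩ := Q.exists_F_ne ((A.e i).map_target hz)
  intro h
  refine hk ?_
  have := congrFun h (Fintype.equivFin J k)
  simpa [Fe] using this




end Metric

/-! ### projective embeddings -/

/-- a projective embedding is a map -/
def ofProj (P : ProjD A) : MapD A (Fin (P.N + 1)) where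
  F := P.F
  hol := P.hol
  ne := P.ne
  tr := P.tr

theorem ofProj_lb (P : ProjD A) : (ofProj P).lb = Crest.Agent.R273.FS_333.lb P :=
  (ofProj P).lb_eq _ fun _ _ _ hx => Crest.Agent.R273.FS_333.gij_spec P hx

theorem ofProj_w (P : ProjD A) (i : A.ι) (x : M) : (ofProj P).fs.w i x = (Crest.Agent.R273.FS_333.fs P).w i x := rfl

/-- injective immersive maps -/
def toProj (Q : MapD A J) {N : ℕ} (e : J ≃ Fin (N + 1))
    (inj : ∀ i j, ∀ x ∈ (A.e i).source, ∀ y ∈ (A.e j).source,
      (∃ c : ℂ, Q.F i x = c • Q.F j y) → x = y)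
    (imm : ∀ i, ∀ z ∈ (A.e i).target, ∀ v : Cn n,
      (∃ c : ℂ, fderiv ℂ (fun w => Q.F i ((A.e i).symm w)) z v =
        c • Q.F i ((A.e i).symm z)) → v = 0) : ProjD A where
  N := N
  F i x k := Q.F i x (e.symm k)
  hol i k := Q.hol i (e.symm k)
  ne i x hx h := Q.ne i x hx (funext fun j => by
    have := congrFun h (e j)
    simpa using this)
  tr i j x hx := by
    obtain ⟨c, hc⟩ := Q.tr i j x hx
    exact ⟨c, by rw [hc]; rfl⟩
  inj i j x hx y hy h := by
    obtain ⟨c, hc⟩ := h
    refine inj i j x hx y hy ⟨c, funext fun k => ?_⟩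
    have := congrFun hc (e k)
    simpa using this
  imm i z hz v h := by
    obtain ⟨c, hc⟩ := h
    refine imm i z hz v ⟨c, funext fun k => ?_⟩
    have hF2 : ∀ k, DifferentiableAt ℂ (fun w => Q.F i ((A.e i).symm w) k) z := fun k =>
      (Q.diffOn i k).differentiableAt ((A.e i).open_target.mem_nhds hz)
    have hd : DifferentiableAt ℂ (fun w => Q.F i ((A.e i).symm w)) z :=
      differentiableAt_pi.2 hF2
    have hd' : DifferentiableAt ℂ (fun w => fun k => Q.F i ((A.e i).symm w) (e.symm k)) z :=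
      differentiableAt_pi.2 fun k => hF2 _
    have h1 := congrFun hc (e k)
    have h2 := (hasFDerivAt_pi'.1 hd.hasFDerivAt) k
    have h3 := (hasFDerivAt_pi'.1 hd'.hasFDerivAt) (e k)
    have h4 : (fun w => Q.F i ((A.e i).symm w) (e.symm (e k))) =
        fun w => Q.F i ((A.e i).symm w) k := by
      funext w
      rw [e.symm_apply_apply]
    rw [h4] at h3
    have h5 := congrArg (fun T : Cn n →L[ℂ] ℂ => T v) (h2.unique h3)
    change fderiv ℂ (fun w => Q.F i ((A.e i).symm w)) z v k =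
      fderiv ℂ (fun w => fun k => Q.F i ((A.e i).symm w) (e.symm k)) z v (e k) at h5
    rw [h5, h1]
    simp

end MapD

/-! ### Segre products -/

section Segre

variable {ι : Type} [Fintype ι] [DecidableEq ι] {J : ι → Type}

/-- Segre product of block maps -/
def segM (Q : ∀ k, MapD A (J k)) : MapD A (∀ k, J k) where
  F i x := seg fun k => (Q k).F i x
  hol i a := HolAt.prod _ fun k _ => (Q k).hol i (a k)
  ne i x hx := seg_ne fun k => (Q k).ne i x hx
  tr i j x hx := seg_proj fun k => (Q k).tr i j x hx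

variable (Q : ∀ k, MapD A (J k))

theorem segM_F (i : A.ι) (x : M) : (segM Q).F i x = seg fun k => (Q k).F i x := rfl

theorem segM_g (i j : A.ι) (x : M) : (segM Q).lb.g i j x = ∏ k, (Q k).lb.g i j x := by
  by_cases hx : x ∈ (A.e i).source ∩ (A.e j).source
  · refine (segM Q).gij_uniq hx ?_
    funext a
    simp only [segM_F, seg, Pi.smul_apply, smul_eq_mul]
    rw [← Finset.prod_mul_distrib]
    refine Finset.prod_congr rfl fun k _ => ?_
    exact congrFun ((Q k).lb_g hx) (a k)
  · rw [(segM Q).lb.off i j x hx]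
    exact (Finset.prod_eq_one fun k _ => (Q k).lb.off i j x hx).symm

theorem LB_prod_g {κ : Type*} (s : Finset κ) (L : κ → LB A) (i j : A.ι) (x : M) :
    (∏ k ∈ s, L k).g i j x = ∏ k ∈ s, (L k).g i j x := by
  classical
  induction s using Finset.induction_on with
  | empty => simp
  | insert k s hk ih => rw [Finset.prod_insert hk, Finset.prod_insert hk, LB.mul_g, ih]

theorem segM_lb : (segM Q).lb = ∏ k, (Q k).lb := by
  ext i j x
  rw [segM_g, LB_prod_g]

variable [∀ k, Fintype (J k)]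






/-- the derivative of the Segre product -/
theorem fderiv_segM {i : A.ι} {z : Cn n} (hz : z ∈ (A.e i).target) (v : Cn n) :
    fderiv ℂ (fun w => (segM Q).F i ((A.e i).symm w)) z v =
      dseg (fun k => (Q k).F i ((A.e i).symm z))
        (fun k => fderiv ℂ (fun w => (Q k).F i ((A.e i).symm w)) z v) := by
  have hd : ∀ k, HasFDerivAt (fun w => (Q k).F i ((A.e i).symm w))
      (fderiv ℂ (fun w => (Q k).F i ((A.e i).symm w)) z) z := fun k =>
    (differentiableAt_pi.2 fun j =>
      ((Q k).diffOn i j).differentiableAt ((A.e i).open_target.mem_nhds hz)).hasFDerivAt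
  have h1 : ∀ a : ∀ k, J k, HasFDerivAt (fun w => (segM Q).F i ((A.e i).symm w) a)
      (∑ k, (∏ l ∈ Finset.univ.erase k, (Q l).F i ((A.e i).symm z) (a l)) •
        ((ContinuousLinearMap.proj (a k)).comp
          (fderiv ℂ (fun w => (Q k).F i ((A.e i).symm w)) z))) z := by
    intro a
    exact HasFDerivAt.finset_prod (u := Finset.univ)
      (g := fun k w => (Q k).F i ((A.e i).symm w) (a k)) (fun k _ =>
        (hasFDerivAt_pi'.1 (hd k)) (a k))
  have h2 : HasFDerivAt (fun w => (segM Q).F i ((A.e i).symm w)) (ContinuousLinearMap.pi fun a =>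
      ∑ k, (∏ l ∈ Finset.univ.erase k, (Q l).F i ((A.e i).symm z) (a l)) •
        ((ContinuousLinearMap.proj (a k)).comp
          (fderiv ℂ (fun w => (Q k).F i ((A.e i).symm w)) z))) z :=
    hasFDerivAt_pi.2 h1
  rw [h2.fderiv]
  funext a
  simp only [ContinuousLinearMap.coe_pi', ContinuousLinearMap.sum_apply, dseg]
  refine Finset.sum_congr rfl fun k _ => ?_
  simp only [ContinuousLinearMap.smul_apply, ContinuousLinearMap.comp_apply, smul_eq_mul,
    ContinuousLinearMap.proj_apply]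
  ring

/-- jointly immersive block maps -/
theorem segM_imm {i : A.ι} {z : Cn n} (hz : z ∈ (A.e i).target) {v : Cn n}
    (h : ∃ c : ℂ, fderiv ℂ (fun w => (segM Q).F i ((A.e i).symm w)) z v =
      c • (segM Q).F i ((A.e i).symm z)) (k : ι) :
    ∃ c : ℂ, fderiv ℂ (fun w => (Q k).F i ((A.e i).symm w)) z v =
      c • (Q k).F i ((A.e i).symm z) := by
  obtain ⟨c, hc⟩ := h
  rw [fderiv_segM Q hz] at hc
  exact dseg_inj (fun k => (Q k).ne i _ ((A.e i).map_target hz)) ⟨c, hc⟩ k

theorem segM_inj {i j : A.ι} {x y : M} (hx : x ∈ (A.e i).source)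
    (h : ∃ c : ℂ, (segM Q).F i x = c • (segM Q).F j y) (k : ι) :
    ∃ c : ℂ, (Q k).F i x = c • (Q k).F j y :=
  seg_inj (fun k => (Q k).ne i x hx) h k

/-- Segre product of jointly injective and immersive block maps -/
def segP (inj : ∀ i j, ∀ x ∈ (A.e i).source, ∀ y ∈ (A.e j).source,
      (∀ k, ∃ c : ℂ, (Q k).F i x = c • (Q k).F j y) → x = y)
    (imm : ∀ i, ∀ z ∈ (A.e i).target, ∀ v : Cn n,
      (∀ k, ∃ c : ℂ, fderiv ℂ (fun w => (Q k).F i ((A.e i).symm w)) z v =
        c • (Q k).F i ((A.e i).symm z)) → v = 0) {N : ℕ} (e : (∀ k, J k) ≃ Fin (N + 1)) :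
    ProjD A :=
  (segM Q).toProj e
    (fun i j x hx y hy h => inj i j x hx y hy fun k => segM_inj Q hx h k)
    (fun i z hz v h => imm i z hz v fun k => segM_imm Q hz h k)

end Segre

end

end Crest.Agent.R281.Blk_592
end

-- ▼ part R281/Blk3_592
section

/-!
# R281 (S0424), blocks of members (helper592), part 3: extraction of the blocks

* `segPs Q`          : Segre product of projective embeddings `Q k : ProjD A`
* `MapD.blk`         : extraction of a block of a map into the Segre variety; `blk_seg`, `blk_lb`,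
                       `blk_w`, `blk_cur`
* `MapD.reindex`
* `bE e`             : the reindexing `((Π k, J k) → ℂ) ≃L (Fin (K+1) → ℂ)`
* `segH`             : `HEmb` of jointly injective, immersive block lifts; `segH_cx`, `segH_cone`
* `hblk`             : the block maps of a member `P : HEmb C ((Π k, J k) → ℂ)`, `HolA P (bE e) A`
-/

set_option autoImplicit false
set_option linter.unusedSectionVars false

open Set Filter Topology Complex Function
open scoped ContDiff Matrix ComplexConjugate Manifold ComplexOrder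

namespace Crest.Agent.R281.Blk_592

open Crest.Agent.R275.Geo Crest.Agent.R275.Core144 Crest.Agent.R275.EDR890
open Crest.Agent.R273.Defs_333 Crest.Agent.R273.Hess_333 Crest.Agent.R273.HessB_333
open Crest.Agent.R273.HM_333 Crest.Agent.R273.Kah_333
open Crest.Agent.R281.HkR_835 Crest.Agent.R281.Ehr2_268 Crest.Agent.R281.Pe_313

noncomputable section

variable {n : ℕ} {M : Type} [TopologicalSpace M] {A : Atl n M}
variable {ι : Type} [Fintype ι] [DecidableEq ι]

/-! ### Segre product of projective embeddings -/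

/-- the number of Segre coordinates minus one -/
def segN (J : ι → Type) [∀ k, Fintype (J k)] : ℕ := Fintype.card (∀ k, J k) - 1

/-- numbering of the Segre coordinates -/
def segEquiv (J : ι → Type) [∀ k, Fintype (J k)] [∀ k, Nonempty (J k)] :
    (∀ k, J k) ≃ Fin (segN J + 1) :=
  (Fintype.equivFin _).trans (finCongr (by
    have : 0 < Fintype.card (∀ k, J k) := Fintype.card_pos
    unfold segN
    omega))

section Proj

variable [Nonempty ι] (Q : ι → ProjD A)

/-- Segre product of projective embeddings -/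
def segPs {N : ℕ} (e : (∀ k, Fin ((Q k).N + 1)) ≃ Fin (N + 1)) : ProjD A :=
  segP (fun k => MapD.ofProj (Q k))
    (fun i j x hx y hy h => by
      obtain ⟨k⟩ := ‹Nonempty ι›
      exact (Q k).inj i j x hx y hy (h k))
    (fun i z hz v h => by
      obtain ⟨k⟩ := ‹Nonempty ι›
      exact (Q k).imm i z hz v (h k)) e


theorem segPs_F {N : ℕ} (e : (∀ k, Fin ((Q k).N + 1)) ≃ Fin (N + 1)) (i : A.ι) (x : M)
    (a : ∀ k, Fin ((Q k).N + 1)) :
    (segPs Q e).F i x (e a) = seg (fun k => (Q k).F i x) a := by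
  show seg (fun k => (Q k).F i x) (e.symm (e a)) = _
  rw [e.symm_apply_apply]

/-- the line bundle of the Segre product -/
theorem segPs_lb {N : ℕ} (e : (∀ k, Fin ((Q k).N + 1)) ≃ Fin (N + 1)) :
    Crest.Agent.R273.FS_333.lb (segPs Q e) = ∏ k, Crest.Agent.R273.FS_333.lb (Q k) := by
  rw [← MapD.ofProj_lb, ← Finset.prod_congr rfl fun k _ => MapD.ofProj_lb (Q k), ← segM_lb]
  refine MapD.lb_eq _ _ fun i j x hx => ?_
  funext a
  exact congrFun ((segM fun k => MapD.ofProj (Q k)).lb_g hx) (e.symm a)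

end Proj

/-! ### extraction of a block -/

variable {J : ι → Type}

/-- extraction of a block -/
def MapD.blk (P : MapD A (∀ k, J k)) (hS : ∀ i, ∀ x ∈ (A.e i).source, SegRel (P.F i x))
    (a₀ : A.ι → ∀ k, J k) (ha : ∀ i, ∀ x ∈ (A.e i).source, P.F i x (a₀ i) ≠ 0) (k : ι) :
    MapD A (J k) where
  F i x := ext k (a₀ i) (P.F i x)
  hol i j := P.hol i _
  ne i x hx := ext_ne (ha i x hx) k
  tr i j x hx := by
    obtain ⟨c, hc⟩ := P.tr i j x hx
    have h1 := (dext_indep' (hS j x hx.2) (v := P.F j x) (fun k a a' => by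
      have := hS j x hx.2 k a a'
      linear_combination 2 * this) k (a₀ := a₀ i) (ha j x hx.2)).1
    refine ⟨c * (P.F j x (update (a₀ i) k (a₀ j k)) / P.F j x (a₀ j)), ?_⟩
    rw [hc, ext_smul, h1, smul_smul]

section Norm

variable (P : MapD A (∀ k, J k)) (hS : ∀ i, ∀ x ∈ (A.e i).source, SegRel (P.F i x))
  (a₀ : A.ι → ∀ k, J k)





end Norm




/-! ### members -/

/-- reindexing of the Segre space -/
def bE {T : Type} [Fintype T] {K : ℕ} (e : T ≃ Fin (K + 1)) : (T → ℂ) ≃L[ℂ] (Fin (K + 1) → ℂ) :=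
  (LinearEquiv.funCongrLeft ℂ ℂ e.symm).toContinuousLinearEquiv



section Mem

variable [∀ k, Fintype (J k)]
variable {V : Type} [NormedAddCommGroup V] [NormedSpace ℝ V] {C : RCh V M}

/-- block lifts: jointly injective and immersive -/
structure BlkE (C : RCh V M) (J : ι → Type) [∀ k, Fintype (J k)] where
  u : ∀ k, C.ι → V → J k → ℂ
  sm : ∀ k i, ContDiffOn ℝ ∞ (u k i) (C.e i).target
  ne : ∀ k i, ∀ z ∈ (C.e i).target, u k i z ≠ 0
  tr : ∀ k i j, ∀ z ∈ C.ov i j, ∃ a : ℂ, u k i z = a • u k j (C.t i j z)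
  inj : ∀ i j, ∀ z ∈ (C.e i).target, ∀ z' ∈ (C.e j).target,
    (∀ k, ∃ a : ℂ, u k i z = a • u k j z') → (C.e i).symm z = (C.e j).symm z'
  imm : ∀ i, ∀ z ∈ (C.e i).target, ∀ v : V,
    (∀ k, ∃ a : ℂ, fderiv ℝ (u k i) z v = a • u k i z) → v = 0

/-- complex tangent spaces -/
def BlkE.Cx (B : BlkE C J) : Prop :=
  ∀ i, ∀ z ∈ (C.e i).target, ∀ v : V, ∃ w : V, ∀ k, ∃ a : ℂ,
    I • fderiv ℝ (B.u k i) z v = fderiv ℝ (B.u k i) z w + a • B.u k i z

theorem hasFDerivAt_seg {E : Type*} [NormedAddCommGroup E] [NormedSpace ℝ E]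
    {u : ∀ k, E → J k → ℂ} {z : E} {u' : ∀ k, E →L[ℝ] (J k → ℂ)}
    (hd : ∀ k, HasFDerivAt (u k) (u' k) z) :
    ∃ T : E →L[ℝ] ((∀ k, J k) → ℂ), HasFDerivAt (fun w => seg fun k => u k w) T z ∧
      ∀ v, T v = dseg (fun k => u k z) (fun k => u' k v) := by
  have h1 : ∀ a : ∀ k, J k, HasFDerivAt (fun w => seg (fun k => u k w) a)
      (∑ k, (∏ l ∈ Finset.univ.erase k, u l z (a l)) •
        ((ContinuousLinearMap.proj (R := ℝ) (φ := fun _ : J k => ℂ) (a k)).comp (u' k))) z := by
    intro a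
    exact HasFDerivAt.finsetProd (u := Finset.univ)
      (g := fun k w => u k w (a k)) (fun k _ => (hasFDerivAt_pi'.1 (hd k)) (a k))
  refine ⟨_, hasFDerivAt_pi.2 h1, fun v => ?_⟩
  funext a
  simp only [ContinuousLinearMap.coe_pi', dseg]
  rw [_root_.sum_apply]
  refine Finset.sum_congr rfl fun k _ => ?_
  show (∏ l ∈ Finset.univ.erase k, u l z (a l)) * u' k v (a k) = _
  ring

theorem fderiv_seg {E : Type*} [NormedAddCommGroup E] [NormedSpace ℝ E]
    {u : ∀ k, E → J k → ℂ} {z : E} (hd : ∀ k, DifferentiableAt ℝ (u k) z) (v : E) :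
    fderiv ℝ (fun w => seg fun k => u k w) z v =
      dseg (fun k => u k z) (fun k => fderiv ℝ (u k) z v) := by
  obtain ⟨T, hT, hv⟩ := hasFDerivAt_seg fun k => (hd k).hasFDerivAt
  rw [hT.fderiv, hv]




/-! ### the block maps of a member -/

variable {K : ℕ} {P : HEmb C ((∀ k, J k) → ℂ)} {e : (∀ k, J k) ≃ Fin (K + 1)}






variable (h : HolA P (bE e) A) (κ : A.ι → Fin (K + 1))
    (hκ : ∀ a, (A.e a).source ⊆ OX P (bE e) (κ a)) (hS : ∀ w ∈ P.cone, SegRel w)





end Mem

end

end Crest.Agent.R281.Blk_592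
end

-- ▼ part R281/Blk5_592

/-!
# R281 (S0424), blocks of members (helper592), part 5: Fubini-Study forms, static dictionary

* `fsv x v w`   : the Fubini-Study form on the cone over `ℙ(J → ℂ)`:
                  `Re (I (⟨v,w⟩ / |x|² - ⟨v,x⟩⟨x,w⟩ / |x|⁴))`, `⟨v,w⟩ = ∑ v_k conj w_k`
* `fsv_bas`     : `fsv (a x) (a v + b x) (a w + b' x) = fsv x v w`
* `hb_log_sq`   : `hb (hess (log ∑ |F_k|²)) u v`
* `cur_fs_hb`, `f2_fs` : the curvature form of `MapD.fs`
* `f2_fs_real`  : the same in the real charts `C`, for linked lifts `Q.F a x = c • u i (C.e i x)`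
* `F_fs`        : `Cmp.F w = (K11 of cur Q.fs).f2` if `w = fsv u Du Du` in the charts of `C`
-/

set_option autoImplicit false
set_option linter.unusedSectionVars false

open Set Filter Topology Complex Function
open scoped ContDiff Matrix ComplexConjugate Manifold ComplexOrder

namespace Crest.Agent.R281.Blk_592

open Crest.Agent.R275.Geo Crest.Agent.R275.Core144 Crest.Agent.R275.EDR890
open Crest.Agent.R273.Defs_333 Crest.Agent.R273.Hess_333 Crest.Agent.R273.HessB_333
open Crest.Agent.R273.HM_333 Crest.Agent.R273.Kah_333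
open Crest.Agent.R281.HkR_835 Crest.Agent.R281.Ehr2_268 Crest.Agent.R281.Pe_313

noncomputable section

section Form

variable {J : Type} [Fintype J]

/-- `∑ v_k conj w_k` -/
def hp (v w : J → ℂ) : ℂ := ∑ k, v k * conj (w k)

theorem hp_add_left (v v' w : J → ℂ) : hp (v + v') w = hp v w + hp v' w := by
  simp only [hp, Pi.add_apply, add_mul, Finset.sum_add_distrib]

theorem hp_add_right (v w w' : J → ℂ) : hp v (w + w') = hp v w + hp v w' := by
  simp only [hp, Pi.add_apply, map_add, mul_add, Finset.sum_add_distrib]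

theorem hp_smul_left (c : ℂ) (v w : J → ℂ) : hp (c • v) w = c * hp v w := by
  simp only [hp, Pi.smul_apply, smul_eq_mul, Finset.mul_sum, mul_assoc]

theorem hp_smul_right (c : ℂ) (v w : J → ℂ) : hp v (c • w) = conj c * hp v w := by
  simp only [hp, Pi.smul_apply, smul_eq_mul, map_mul, Finset.mul_sum]
  exact Finset.sum_congr rfl fun k _ => by ring

theorem hp_conj (v w : J → ℂ) : conj (hp v w) = hp w v := by
  simp only [hp, map_sum, map_mul, Complex.conj_conj]
  exact Finset.sum_congr rfl fun k _ => by ring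

theorem hp_self (v : J → ℂ) : hp v v = ((∑ k, ‖v k‖ ^ 2 : ℝ) : ℂ) := by
  unfold hp
  rw [ofReal_sum]
  exact Finset.sum_congr rfl fun k _ => by rw [Complex.mul_conj, Complex.normSq_eq_norm_sq]

theorem hp_self_ne {v : J → ℂ} (h : v ≠ 0) : hp v v ≠ 0 := by
  rw [hp_self]
  exact_mod_cast (MapD.sq_pos' h).ne'

/-- the Hermitian form of the Fubini-Study form -/
def fsh (x v w : J → ℂ) : ℂ := hp v w / hp x x - hp v x * hp x w / (hp x x) ^ 2

/-- the Fubini-Study form -/
def fsv (x v w : J → ℂ) : ℝ := (I * fsh x v w).re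

theorem fsh_bas {x : J → ℂ} (hx : x ≠ 0) (v w : J → ℂ) {a : ℂ} (ha : a ≠ 0) (b b' : ℂ) :
    fsh (a • x) (a • v + b • x) (a • w + b' • x) = fsh x v w := by
  have h1 := hp_self_ne hx
  have h2 : conj a ≠ 0 := (map_ne_zero _).2 ha
  unfold fsh
  simp only [hp_add_left, hp_add_right, hp_smul_left, hp_smul_right]
  field_simp
  ring

theorem fsv_bas {x : J → ℂ} (hx : x ≠ 0) (v w : J → ℂ) {a : ℂ} (ha : a ≠ 0) (b b' : ℂ) :
    fsv (a • x) (a • v + b • x) (a • w + b' • x) = fsv x v w := by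
  unfold fsv
  rw [fsh_bas hx v w ha]

theorem fsh_conj (x v w : J → ℂ) : conj (fsh x v w) = fsh x w v := by
  unfold fsh
  simp only [map_sub, map_div₀, map_mul, map_pow, hp_conj]
  ring

theorem fsv_alt (x v w : J → ℂ) : fsv x v w = -fsv x w v := by
  unfold fsv
  rw [← fsh_conj x v w]
  simp

end Form

/-! ### the Hessian -/

variable {n : ℕ}

/-- the Hermitian form of `∂∂̄ log ∑ |F_k|²` -/
theorem hb_log_sq {N : ℕ} {F : Cn n → Fin N → ℂ} {U : Set (Cn n)} (hU : IsOpen U)
    (hF : ∀ k, DifferentiableOn ℂ (fun z => F z k) U) {z : Cn n} (hz : z ∈ U) (h0 : F z ≠ 0)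
    (u v : Cn n) : hb (hess (fun w => Real.log (Crest.Agent.R273.FS_333.sq F w)) z) u v =
      fsh (F z) (fun k => fderiv ℂ (fun z => F z k) z u) (fun k => fderiv ℂ (fun z => F z k) z v) := by
  have hs : ContDiffAt ℝ ∞ (Crest.Agent.R273.FS_333.sq F) z := by
    refine ContDiffAt.sum fun k _ => ?_
    exact (Crest.Agent.R273.FS_333.contDiffAt_of_hol hU (hF k) hz).norm_sq ℝ
  have hp' := Crest.Agent.R273.FS_333.sq_pos h0
  have hexp : ∀ (v : Cn n) k, fderiv ℂ (fun z => F z k) z v =
      ∑ a, v a * fderiv ℂ (fun z => F z k) z (EuclideanSpace.single a 1) := by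
    intro v k
    have hv : v = ∑ c, v c • (EuclideanSpace.single c (1 : ℂ) : Cn n) := by
      ext d
      simp [Finset.sum_apply, Pi.single_apply]
    conv_lhs => rw [hv, map_sum]
    simp
  have h1 : ∀ a b, hess (fun w => Real.log (Crest.Agent.R273.FS_333.sq F w)) z a b * u a *
        conj (v b) =
      (Crest.Agent.R273.FS_333.sq F z : ℂ)⁻¹ *
        (∑ k, (u a * fderiv ℂ (fun z => F z k) z (EuclideanSpace.single a 1)) *
        conj (v b * fderiv ℂ (fun z => F z k) z (EuclideanSpace.single b 1))) -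
      ((Crest.Agent.R273.FS_333.sq F z : ℂ)⁻¹) ^ 2 * ((∑ k, (u a * fderiv ℂ (fun z => F z k) z
        (EuclideanSpace.single a 1)) * conj (F z k)) *
        (∑ k, F z k * conj (v b * fderiv ℂ (fun z => F z k) z
        (EuclideanSpace.single b 1)))) := by
    intro a b
    rw [Crest.Agent.R273.FS_333.hess_log hs hp', Crest.Agent.R273.FS_333.hess_sq hU hF hz,
      Crest.Agent.R273.FS_333.wd_sq hU hF hz, Crest.Agent.R273.FS_333.wd_sq' hU hF hz]
    simp only [map_mul, Finset.mul_sum, Finset.sum_mul, sub_mul]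
    congr 1
    · refine Finset.sum_congr rfl fun k _ => by ring
    · refine Finset.sum_congr rfl fun k _ => Finset.sum_congr rfl fun l _ => by ring
  unfold hb
  rw [Finset.sum_congr rfl fun a _ => Finset.sum_congr rfl fun b _ => h1 a b]
  simp only [Finset.sum_sub_distrib, ← Finset.mul_sum]
  have h2 : ∑ a, ∑ b, ∑ k, (u a * fderiv ℂ (fun z => F z k) z (EuclideanSpace.single a 1)) *
        conj (v b * fderiv ℂ (fun z => F z k) z (EuclideanSpace.single b 1)) =
      ∑ k, fderiv ℂ (fun z => F z k) z u * conj (fderiv ℂ (fun z => F z k) z v) := by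
    rw [Finset.sum_congr rfl fun a _ => Finset.sum_comm, Finset.sum_comm]
    refine Finset.sum_congr rfl fun k _ => ?_
    rw [hexp u k, hexp v k, map_sum, Finset.sum_mul_sum]
  have h3 : ∑ a, ∑ k, (u a * fderiv ℂ (fun z => F z k) z (EuclideanSpace.single a 1)) *
        conj (F z k) = ∑ k, fderiv ℂ (fun z => F z k) z u * conj (F z k) := by
    rw [Finset.sum_comm]
    refine Finset.sum_congr rfl fun k _ => ?_
    rw [hexp, Finset.sum_mul]
  have h4 : ∑ b, ∑ k, F z k * conj (v b * fderiv ℂ (fun z => F z k) z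
        (EuclideanSpace.single b 1)) = ∑ k, F z k * conj (fderiv ℂ (fun z => F z k) z v) := by
    rw [Finset.sum_comm]
    refine Finset.sum_congr rfl fun k _ => ?_
    rw [hexp v, map_sum, Finset.mul_sum]
  rw [h2, ← Finset.sum_mul, h3, h4]
  have h5 : hp (F z) (F z) = (Crest.Agent.R273.FS_333.sq F z : ℂ) := hp_self _
  unfold fsh
  rw [h5]
  simp only [hp]
  rw [div_eq_inv_mul, div_eq_inv_mul, inv_pow]

variable {M : Type} [TopologicalSpace M] {A : Atl n M}

section Cur

variable {J : Type} [Fintype J] (Q : MapD A J)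

/-- the curvature of the Fubini-Study metric as a Hermitian form -/
theorem cur_fs_hb {i : A.ι} {x : M} (hx : x ∈ (A.e i).source) (u v : Cn n) :
    hb (cur Q.fs i x) u v =
      fsh (Q.F i x) (fderiv ℂ (fun w => Q.F i ((A.e i).symm w)) (A.e i x) u)
        (fderiv ℂ (fun w => Q.F i ((A.e i).symm w)) (A.e i x) v) := by
  have hz := (A.e i).map_source hx
  unfold cur
  rw [Q.wt_fs', hb_log_sq (A.e i).open_target (Q.Fe_diff i) hz (Q.Fe_ne hz)]
  have hd : DifferentiableAt ℂ (fun w => Q.F i ((A.e i).symm w)) (A.e i x) :=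
    differentiableAt_pi.2 fun k =>
      (Q.diffOn i k).differentiableAt ((A.e i).open_target.mem_nhds hz)
  have e1 : ∀ (v : Cn n) (k : J), fderiv ℂ (fun w => Q.F i ((A.e i).symm w)) (A.e i x) v k =
      fderiv ℂ (fun w => Q.F i ((A.e i).symm w) k) (A.e i x) v := by
    intro v k
    have h6 := (hasFDerivAt_pi'.1 hd.hasFDerivAt) k
    rw [h6.fderiv]
    rfl
  have e2 : ∀ f g : J → ℂ, hp (fun k => f ((Fintype.equivFin J).symm k))
      (fun k => g ((Fintype.equivFin J).symm k)) = hp f g := fun f g =>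
    Equiv.sum_comp (Fintype.equivFin J).symm (fun k => f k * conj (g k))
  have e3 : Q.Fe i (A.e i x) = fun k => Q.F i x ((Fintype.equivFin J).symm k) := by
    funext k
    show Q.F i ((A.e i).symm (A.e i x)) _ = _
    rw [(A.e i).left_inv hx]
  have e4 : ∀ v : Cn n, (fun k => fderiv ℂ (fun z => Q.Fe i z k) (A.e i x) v) = fun k =>
      fderiv ℂ (fun w => Q.F i ((A.e i).symm w)) (A.e i x) v ((Fintype.equivFin J).symm k) := by
    intro v
    funext k
    rw [e1]
    rfl
  unfold fsh
  rw [e3, e4, e4, e2, e2, e2, e2]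

/-- the curvature form -/
theorem f2_fs (K : K11 A) (hK : ∀ i, ∀ x ∈ (A.e i).source, K.g i x = cur Q.fs i x) {i : A.ι}
    {z : Cn n} (hz : z ∈ (A.e i).target) (u v : Cn n) :
    K.f2.w i z u v = fsv (Q.F i ((A.e i).symm z))
      (fderiv ℝ (fun w => Q.F i ((A.e i).symm w)) z u)
      (fderiv ℝ (fun w => Q.F i ((A.e i).symm w)) z v) := by
  have hx := (A.e i).map_target hz
  have hd : DifferentiableAt ℂ (fun w => Q.F i ((A.e i).symm w)) z :=
    differentiableAt_pi.2 fun k =>
      (Q.diffOn i k).differentiableAt ((A.e i).open_target.mem_nhds hz)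
  rw [K.f2_w hz, hK i _ hx, cur_fs_hb Q hx, (A.e i).right_inv hz, hd.fderiv_restrictScalars ℝ]
  rfl

end Cur

/-! ### real charts -/

section Real

variable {J : Type} [Fintype J] (Q : MapD A J)
variable {V : Type} [NormedAddCommGroup V] [NormedSpace ℝ V] {C : RCh V M}

/-- `u` is a local lift at `y` (chart `i`) of the map `Q` -/
structure LkAt (Q : MapD A J) (C : RCh V M) (i : C.ι) (y : V) (u : V → J → ℂ) : Prop where
  sm : ContDiffAt ℝ ∞ u y
  eq : ∀ᶠ y' in 𝓝 y, ∀ a, (C.e i).symm y' ∈ (A.e a).source → ∃ c : ℂ, c ≠ 0 ∧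
    Q.F a ((C.e i).symm y') = c • u y'

/-- linked lifts -/
structure Lk (Q : MapD A J) (u : C.ι → V → J → ℂ) : Prop where
  cmp : Cmp C (ofAtl A)
  sm : ∀ i, ContDiffOn ℝ ∞ (u i) (C.e i).target
  eq : ∀ a i, ∀ x ∈ (A.e a).source, x ∈ (C.e i).source → ∃ c : ℂ, c ≠ 0 ∧
    Q.F a x = c • u i (C.e i x)

variable {Q}

theorem Lk.at {u : C.ι → V → J → ℂ} (h : Lk Q u) {i : C.ι} {y : V} (hy : y ∈ (C.e i).target) :
    LkAt Q C i y (u i) := by
  refine ⟨(h.sm i).contDiffAt ((C.e i).open_target.mem_nhds hy), ?_⟩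
  filter_upwards [(C.e i).open_target.mem_nhds hy] with y' hy' a ha
  obtain ⟨c, hc, he⟩ := h.eq a i _ ha ((C.e i).map_target hy')
  rw [(C.e i).right_inv hy'] at he
  exact ⟨c, hc, he⟩

/-- the derivatives of local lifts -/
theorem LkAt.deriv (hcmp : Cmp C (ofAtl A)) {i : C.ι} {a : A.ι} {z : Cn n}
    (hz : z ∈ mov C (ofAtl A) i a) {u : V → J → ℂ} (h : LkAt Q C i (mt C (ofAtl A) i a z) u) :
    ∃ (c : ℂ) (b : Cn n → ℂ), c ≠ 0 ∧ Q.F a ((A.e a).symm z) = c • u (mt C (ofAtl A) i a z) ∧
      ∀ ξ, fderiv ℝ (fun w => Q.F a ((A.e a).symm w)) z ξ =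
        c • fderiv ℝ u (mt C (ofAtl A) i a z) (fderiv ℝ (mt C (ofAtl A) i a) z ξ) +
          b ξ • u (mt C (ofAtl A) i a z) := by
  have hza : z ∈ (A.e a).target := hz.1
  have hx : (A.e a).symm z ∈ (A.e a).source := (A.e a).map_target hza
  set y := mt C (ofAtl A) i a z with hy
  have hsy : ∀ w ∈ mov C (ofAtl A) i a, (C.e i).symm (mt C (ofAtl A) i a w) = (A.e a).symm w :=
    fun w hw => (C.e i).left_inv hw.2
  have hm : DifferentiableAt ℝ (mt C (ofAtl A) i a) z := hcmp.diff hz
  have hev0 : ∀ᶠ w in 𝓝 z, ∃ c : ℂ, c ≠ 0 ∧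
      Q.F a ((A.e a).symm w) = c • u (mt C (ofAtl A) i a w) := by
    filter_upwards [hm.continuousAt.eventually h.eq,
      (Cmp.isOpen_mov C (ofAtl A) i a).mem_nhds hz] with w hw hwm
    have h1 := hw a (by rw [hsy w hwm]; exact (A.e a).map_target hwm.1)
    rwa [hsy w hwm] at h1
  obtain ⟨c, hc, he⟩ := hev0.self_of_nhds
  have hu : DifferentiableAt ℝ u y := h.sm.differentiableAt (by simp)
  have hF : DifferentiableAt ℝ (fun w => Q.F a ((A.e a).symm w)) z :=
    (differentiableAt_pi.2 fun k =>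
      (Q.diffOn a k).differentiableAt ((A.e a).open_target.mem_nhds hza)).restrictScalars ℝ
  obtain ⟨k, hk⟩ := Q.exists_F_ne hx
  have huk : u y k ≠ 0 := by
    intro h0
    apply hk
    rw [he, Pi.smul_apply]
    show c • u y k = 0
    rw [h0, smul_zero]
  -- the scalar
  set s : Cn n → ℂ := fun w => Q.F a ((A.e a).symm w) k * (u (mt C (ofAtl A) i a w) k)⁻¹ with hs
  have hUm : HasFDerivAt (fun w => u (mt C (ofAtl A) i a w))
      ((fderiv ℝ u y).comp (fderiv ℝ (mt C (ofAtl A) i a) z)) z :=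
    HasFDerivAt.comp (g := u) (f := mt C (ofAtl A) i a) z hu.hasFDerivAt hm.hasFDerivAt
  have hUk : DifferentiableAt ℝ (fun w => u (mt C (ofAtl A) i a w) k) z :=
    ((hasFDerivAt_pi'.1 hUm) k).differentiableAt
  have hFk : DifferentiableAt ℝ (fun w => Q.F a ((A.e a).symm w) k) z :=
    (differentiableAt_pi.1 hF) k
  have hsd : DifferentiableAt ℝ s z := hFk.mul (hUk.inv huk)
  have hev : (fun w => Q.F a ((A.e a).symm w)) =ᶠ[𝓝 z]
      fun w => s w • u (mt C (ofAtl A) i a w) := by
    filter_upwards [hev0, hUk.continuousAt.eventually_ne huk] with w hw hwk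
    obtain ⟨c', hc', e1⟩ := hw
    have e2 : s w = c' := by
      show Q.F a ((A.e a).symm w) k * (u (mt C (ofAtl A) i a w) k)⁻¹ = c'
      rw [e1, Pi.smul_apply, smul_eq_mul, mul_assoc, mul_inv_cancel₀ hwk, mul_one]
    rw [e2, e1]
  have hsz : s z = c := by
    show Q.F a ((A.e a).symm z) k * (u y k)⁻¹ = c
    rw [he, Pi.smul_apply, smul_eq_mul]
    show c * u y k * (u y k)⁻¹ = c
    rw [mul_assoc, mul_inv_cancel₀ huk, mul_one]
  refine ⟨c, fun ξ => fderiv ℝ s z ξ, hc, he, fun ξ => ?_⟩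
  have h1 := (hsd.hasFDerivAt.smul hUm).fderiv
  rw [hev.fderiv_eq]
  have h2 : (fun w => s w • u (mt C (ofAtl A) i a w)) = s • fun w => u (mt C (ofAtl A) i a w) :=
    rfl
  rw [h2, h1]
  show s z • (fderiv ℝ u y (fderiv ℝ (mt C (ofAtl A) i a) z ξ)) + fderiv ℝ s z ξ • u y = _
  rw [hsz]

/-- the curvature form in the real charts -/
theorem f2_fs_real (hcmp : Cmp C (ofAtl A)) (K : K11 A)
    (hK : ∀ i, ∀ x ∈ (A.e i).source, K.g i x = cur Q.fs i x) {i : C.ι} {a : A.ι} {z : Cn n}
    (hz : z ∈ mov C (ofAtl A) i a) {u : V → J → ℂ} (h : LkAt Q C i (mt C (ofAtl A) i a z) u)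
    (ξ η : Cn n) :
    K.f2.w a z ξ η = fsv (u (mt C (ofAtl A) i a z))
      (fderiv ℝ u (mt C (ofAtl A) i a z) (fderiv ℝ (mt C (ofAtl A) i a) z ξ))
      (fderiv ℝ u (mt C (ofAtl A) i a z) (fderiv ℝ (mt C (ofAtl A) i a) z η)) := by
  obtain ⟨c, b, hc, h1, h2⟩ := LkAt.deriv hcmp hz h
  have h0 : u (mt C (ofAtl A) i a z) ≠ 0 := by
    intro h0
    refine Q.ne a _ ((A.e a).map_target hz.1) ?_
    rw [h1, h0, smul_zero]
  rw [f2_fs Q K hK hz.1, h1, h2, h2, fsv_bas h0 _ _ hc]

/-- **the static dictionary**: if `w = fsv u Du Du` for local lifts `u` in the charts of `C` then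
`w` is the curvature form of `Q.fs` -/
theorem F_fs (hcmp : Cmp C (ofAtl A)) (K : K11 A)
    (hK : ∀ i, ∀ x ∈ (A.e i).source, K.g i x = cur Q.fs i x) (w : F2 C)
    (hw : ∀ i, ∀ y ∈ (C.e i).target, ∃ u, LkAt Q C i y u ∧ ∀ v v' : V, w.w i y v v' =
      fsv (u y) (fderiv ℝ u y v) (fderiv ℝ u y v')) {a : A.ι} {z : Cn n}
    (hz : z ∈ (A.e a).target) (ξ η : Cn n) : (hcmp.F w).w a z ξ η = K.f2.w a z ξ η := by
  obtain ⟨i, hi⟩ := Cmp.exists_mov C (C' := ofAtl A) hz
  obtain ⟨u, hu, hw'⟩ := hw i _ (Cmp.mt_mem hi).1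
  rw [hcmp.F_w w hi, f2_fs_real hcmp K hK hi hu, hw']

/-- the static dictionary for global lifts -/
theorem Lk.F_fs {u : C.ι → V → J → ℂ} (h : Lk Q u) (K : K11 A)
    (hK : ∀ i, ∀ x ∈ (A.e i).source, K.g i x = cur Q.fs i x) (w : F2 C)
    (hw : ∀ i, ∀ y ∈ (C.e i).target, ∀ v v' : V, w.w i y v v' =
      fsv (u i y) (fderiv ℝ (u i) y v) (fderiv ℝ (u i) y v')) {a : A.ι} {z : Cn n}
    (hz : z ∈ (A.e a).target) (ξ η : Cn n) : (h.cmp.F w).w a z ξ η = K.f2.w a z ξ η :=
  Blk_592.F_fs h.cmp K hK w (fun i y hy => ⟨u i, h.at hy, hw i y hy⟩) hz ξ η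

end Real

/-! ### the local lifts of a member and of its blocks -/

section Members

variable {V : Type} [NormedAddCommGroup V] [NormedSpace ℝ V] {C : RCh V M}
variable {ι : Type} [Fintype ι] [DecidableEq ι] {J : ι → Type} [∀ k, Fintype (J k)]
variable {K : ℕ} {P : HEmb C ((∀ k, J k) → ℂ)} {e : (∀ k, J k) ≃ Fin (K + 1)}



end Members

end

end Crest.Agent.R281.Blk_592
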