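import Mathlib

-- ▼ part R281/Sl1_957
section

/-!
# R281 / Sl1 (helper957): spreading out along a line, the algebra

`exists_model`: finitely many elements `c` of a field `Ω` over a field `k₀` of characteristic zero are
rational functions of algebraically independent elements `z` and one element `b`, integral over
`k₀[z]`, with denominators depending on `z` only.
-/

set_option autoImplicit false
set_option linter.style.haveILetI false

namespace Crest.Agent.R281.Sl_957

open Polynomial

/-- a common denominator -/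
theorem exists_denom {B K : Type*} [CommRing B] [IsDomain B] [Field K] [Algebra B K]
    [IsFractionRing B K] (q : K[X]) :
    ∃ d : B, d ≠ 0 ∧ ∃ p : B[X], p.map (algebraMap B K) = C (algebraMap B K d) * q := by
  obtain ⟨d, hd, h⟩ := IsLocalization.integerNormalization_spec (nonZeroDivisors B) q
  refine ⟨d, nonZeroDivisors.ne_zero hd, _, h.trans ?_⟩
  rw [← algebraMap_smul K d q, smul_eq_C_mul]

/-- a common denominator for a finite family -/
theorem exists_denoms {B K : Type*} [CommRing B] [IsDomain B] [Field K] [Algebra B K]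
    [IsFractionRing B K] {R : Type*} [Finite R] (q : R → K[X]) :
    ∃ d : B, d ≠ 0 ∧ ∃ p : R → B[X], ∀ i, (p i).map (algebraMap B K) =
      C (algebraMap B K d) * q i := by
  classical
  haveI := Fintype.ofFinite R
  choose d hd p hp using fun i => exists_denom (B := B) (q i)
  refine ⟨∏ i, d i, Finset.prod_ne_zero_iff.2 fun i _ => hd i,
    fun i => C (∏ j ∈ Finset.univ.erase i, d j) * p i, fun i => ?_⟩
  rw [Polynomial.map_mul, map_C, hp, ← mul_assoc, ← C_mul, ← map_mul,
    Finset.prod_erase_mul _ _ (Finset.mem_univ i)]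

/-- evaluation at `z` -/
noncomputable def ez {k₀ Ω : Type*} [Field k₀] [Field Ω] [Algebra k₀ Ω] {m : ℕ} (z : Fin m → Ω) :
    MvPolynomial (Fin m) k₀ →+* Ω :=
  ((MvPolynomial.aeval z : MvPolynomial (Fin m) k₀ →ₐ[k₀] Ω) : MvPolynomial (Fin m) k₀ →+* Ω)

theorem ez_apply {k₀ Ω : Type*} [Field k₀] [Field Ω] [Algebra k₀ Ω] {m : ℕ} (z : Fin m → Ω)
    (p : MvPolynomial (Fin m) k₀) : ez z p = MvPolynomial.aeval z p := rfl

theorem exists_model {k₀ Ω : Type*} [Field k₀] [CharZero k₀] [Field Ω] [Algebra k₀ Ω]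
    {R : Type*} [Finite R] (c : R → Ω) :
    ∃ (m : ℕ) (z : Fin m → Ω) (b : Ω) (F : (MvPolynomial (Fin m) k₀)[X])
      (D : MvPolynomial (Fin m) k₀) (P : R → (MvPolynomial (Fin m) k₀)[X])
      (U V : (MvPolynomial (Fin m) k₀)[X]),
      AlgebraicIndependent k₀ z ∧ F.Monic ∧ D ≠ 0 ∧
      (∀ p : (MvPolynomial (Fin m) k₀)[X],
        p.eval₂ (ez z) b = 0 → F ∣ p) ∧
      F.eval₂ (ez z) b = 0 ∧
      (∀ i, ez z D * c i = (P i).eval₂ (ez z) b) ∧
      U * F + V * derivative F = C D := by
  classical
  let A := Algebra.adjoin k₀ (Set.range c)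
  have hfg : A.FG := Subalgebra.fg_adjoin_finset (Set.finite_range c).toFinset |> fun h => by
    rwa [Set.Finite.coe_toFinset] at h
  haveI : Algebra.FiniteType k₀ A := A.fg_iff_finiteType.1 hfg
  obtain ⟨m, g, hg, hint⟩ := exists_integral_inj_algHom_of_fg k₀ A
  let B := MvPolynomial (Fin m) k₀
  let z : Fin m → Ω := fun j => (g (MvPolynomial.X j) : Ω)
  have hz : (MvPolynomial.aeval z : B →ₐ[k₀] Ω) = A.val.comp g := by
    refine MvPolynomial.algHom_ext fun j => ?_
    rw [MvPolynomial.aeval_X]
    rfl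
  have hzinj : Function.Injective (MvPolynomial.aeval z : B →ₐ[k₀] Ω) := by
    rw [hz]
    exact Subtype.val_injective.comp hg
  letI a1 : Algebra B Ω := (MvPolynomial.aeval z : B →ₐ[k₀] Ω).toRingHom.toAlgebra
  have ha1 : ∀ x : B, algebraMap B Ω x = MvPolynomial.aeval z x := fun _ => rfl
  haveI : FaithfulSMul B Ω := (faithfulSMul_iff_algebraMap_injective B Ω).2 hzinj
  haveI : Module.IsTorsionFree B Ω := inferInstance
  let K := FractionRing B
  letI a2 : Algebra K Ω := FractionRing.liftAlgebra B Ω
  haveI : IsScalarTower B K Ω := FractionRing.isScalarTower_liftAlgebra B Ω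
  haveI : CharZero K := charZero_of_injective_algebraMap (R := B)
    (IsFractionRing.injective B K)
  have hci : ∀ i, IsIntegral B (c i) := fun i => by
    have h1 : g.toRingHom.IsIntegralElem (⟨c i, Algebra.subset_adjoin ⟨i, rfl⟩⟩ : A) := hint _
    obtain ⟨p, hp, hp0⟩ := h1
    refine ⟨p, hp, ?_⟩
    have h2 := congrArg A.val hp0
    rw [map_zero] at h2
    rw [← h2]
    change eval₂ (algebraMap B Ω) (c i) p = (A.val : A →+* Ω) _
    rw [Polynomial.hom_eval₂]
    have h3 : algebraMap B Ω = (A.val : A →+* Ω).comp (g : B →+* A) := by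
      ext x
      · change MvPolynomial.aeval z (MvPolynomial.C x) = A.val (g (MvPolynomial.C x))
        rw [hz]; rfl
      · change MvPolynomial.aeval z (MvPolynomial.X x) = A.val (g (MvPolynomial.X x))
        rw [hz]; rfl
    rw [h3]
    rfl
  have hcK : ∀ x ∈ Set.range c, IsIntegral K x := by
    rintro _ ⟨i, rfl⟩
    exact (hci i).tower_top
  haveI : Finite (Set.range c) := (Set.finite_range c).to_subtype
  let L := IntermediateField.adjoin K (Set.range c)
  haveI : FiniteDimensional K L := IntermediateField.finiteDimensional_adjoin hcK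
  let pb := Field.powerBasisOfFiniteOfSeparable K L
  have hb₀ : IsIntegral K (pb.gen : L) := Algebra.IsIntegral.isIntegral _
  have hb₀' : IsIntegral K ((pb.gen : L) : Ω) := hb₀.map L.val
  obtain ⟨⟨y, hy⟩, hyb⟩ := IsIntegral.exists_multiple_integral_of_isLocalization
    (nonZeroDivisors B) ((pb.gen : L) : Ω) hb₀'
  have hy0 : y ≠ 0 := nonZeroDivisors.ne_zero hy
  set b : Ω := algebraMap B Ω y * ((pb.gen : L) : Ω) with hb
  have hbint : IsIntegral B b := by
    have : ((⟨y, hy⟩ : nonZeroDivisors B) • ((pb.gen : L) : Ω)) = b := by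
      rw [Submonoid.mk_smul, Algebra.smul_def]
    rwa [this] at hyb
  have hyΩ : algebraMap B Ω y ≠ 0 := (map_ne_zero_iff _ hzinj).2 hy0
  have hc : ∀ i, ∃ q : K[X], c i = aeval b q := fun i => by
    obtain ⟨q, hq⟩ := pb.exists_eq_aeval' ⟨c i, IntermediateField.subset_adjoin K _ ⟨i, rfl⟩⟩
    have h1 := congrArg L.val hq
    rw [← Polynomial.aeval_algHom_apply] at h1
    refine ⟨q.comp (C (algebraMap B K y)⁻¹ * X), ?_⟩
    rw [aeval_comp, map_mul, aeval_C, aeval_X, map_inv₀, ← IsScalarTower.algebraMap_apply B K Ω, hb,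
      inv_mul_cancel_left₀ hyΩ]
    exact h1
  choose q hq using hc
  -- minimal polynomial
  let F : B[X] := minpoly B b
  have hF : F.Monic := minpoly.monic hbint
  have hFK : minpoly K b = F.map (algebraMap B K) :=
    minpoly.isIntegrallyClosed_eq_field_fractions' K hbint
  have hsep : (F.map (algebraMap B K)).Separable := by
    rw [← hFK]
    exact (minpoly.irreducible (hbint.tower_top (A := K))).separable
  obtain ⟨U₀, V₀, hUV⟩ := hsep
  obtain ⟨d₁, hd₁, P₁, hP₁⟩ := exists_denoms (B := B) q
  obtain ⟨d₂, hd₂, P₂, hP₂⟩ := exists_denoms (B := B) (fun i : Bool => cond i U₀ V₀)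
  have hU := hP₂ true
  have hV := hP₂ false
  simp only [cond_true, cond_false] at hU hV
  have hmapinj : Function.Injective (Polynomial.map (algebraMap B K)) :=
    Polynomial.map_injective _ (IsFractionRing.injective B K)
  have hev : ∀ p : B[X], p.eval₂ (ez z) b =
      aeval b (p.map (algebraMap B K)) := fun p => by
    rw [aeval_map_algebraMap]
    rfl
  refine ⟨m, z, b, F, d₁ * d₂, fun i => C d₂ * P₁ i, C d₁ * P₂ true, C d₁ * P₂ false, hzinj, hF,
    mul_ne_zero hd₁ hd₂, fun p hp => ?_, ?_, fun i => ?_, ?_⟩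
  · refine minpoly.isIntegrallyClosed_dvd hbint ?_
    exact hp
  · exact minpoly.aeval B b
  · have h5 : aeval b (C (algebraMap B K d₂ * algebraMap B K d₁) * q i) =
        ez z d₂ * ez z d₁ * c i := by
      rw [map_mul, aeval_C, map_mul, ← IsScalarTower.algebraMap_apply B K Ω,
        ← IsScalarTower.algebraMap_apply B K Ω, ← hq]
      rfl
    rw [hev, Polynomial.map_mul, hP₁, map_C, ← mul_assoc, ← C_mul, h5, map_mul,
      mul_comm (ez z d₁)]
  · apply hmapinj
    rw [Polynomial.map_add, Polynomial.map_mul, Polynomial.map_mul, Polynomial.map_mul,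
      Polynomial.map_mul, hU, hV, map_C, map_C, ← Polynomial.derivative_map, map_mul, C_mul]
    have : C (algebraMap B K d₁) * C (algebraMap B K d₂) =
        C (algebraMap B K d₁) * C (algebraMap B K d₂) *
          (U₀ * F.map (algebraMap B K) + V₀ * derivative (F.map (algebraMap B K))) := by
      rw [hUV, mul_one]
    rw [this]
    ring

end Crest.Agent.R281.Sl_957
end

-- ▼ part R281/Sl2_957
section

/-!
# R281 / Sl2 (helper957): **the line lemma** (spreading out of a coefficient vector)

`k₀` algebraically closed of characteristic zero (`ℚbar`), `K` a field over `k₀` (`ℂ`), `c` a finite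
family of elements of `K`, `r` a polynomial over `k₀` with `r(c) ≠ 0`. There is a finite covering
`f(u, w) = 0` of the line minus `δ = 0` and rational functions `pt u w i = P i (u, w) / δ u` on it:
`pt 1 w₁ = c`, `pt 0 w` has entries in `k₀`, all `pt u w` are specialisations of `c` over `k₀` with
`r ≠ 0`.
-/

set_option autoImplicit false
set_option linter.style.haveILetI false

namespace Crest.Agent.R281.Sl_957

open Polynomial

section homog

variable {k₀ K : Type*} [Field k₀] [Field K] [Algebra k₀ K] {m : ℕ} {R : Type*}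

/-- homogenisation of a polynomial relation between fractions `P i / D` -/
theorem exists_homog (D : MvPolynomial (Fin m) k₀) (P : R → (MvPolynomial (Fin m) k₀)[X])
    (G : MvPolynomial R k₀) :
    ∃ (N : ℕ) (G' : (MvPolynomial (Fin m) k₀)[X]), ∀ φ : (MvPolynomial (Fin m) k₀)[X] →+* K,
      (∀ a : k₀, φ (C (MvPolynomial.C a)) = algebraMap k₀ K a) → φ (C D) ≠ 0 →
      φ G' = φ (C D) ^ N * MvPolynomial.aeval (fun i => φ (P i) / φ (C D)) G := by
  induction G using MvPolynomial.induction_on with
  | C a =>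
    refine ⟨0, C (MvPolynomial.C a), fun φ h1 _ => ?_⟩
    rw [h1, pow_zero, one_mul, MvPolynomial.aeval_C]
  | add p q hp hq =>
    obtain ⟨N₁, G₁, h₁⟩ := hp
    obtain ⟨N₂, G₂, h₂⟩ := hq
    refine ⟨N₁ + N₂, G₁ * C D ^ N₂ + G₂ * C D ^ N₁, fun φ h h0 => ?_⟩
    rw [map_add, map_mul, map_mul, map_pow, map_pow, h₁ φ h h0, h₂ φ h h0, map_add]
    ring
  | mul_X p i hp =>
    obtain ⟨N₁, G₁, h₁⟩ := hp
    refine ⟨N₁ + 1, G₁ * P i, fun φ h h0 => ?_⟩
    rw [map_mul, h₁ φ h h0, map_mul, MvPolynomial.aeval_X, pow_succ]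
    field_simp

end homog

section line

variable (k₀ : Type*) {K : Type*} [Field k₀] [Field K] [Algebra k₀ K] {R : Type*}

/-- spreading out of the coefficient vector `c` over the covering `f = 0` of a line -/
structure Line (c : R → K) (r : MvPolynomial R k₀) where
  /-- equation of the covering -/
  f : K[X][X]
  /-- discriminant and denominator -/
  δ : K[X]
  /-- numerators of the coordinates -/
  P : R → K[X][X]
  /-- the point over `u = 1` -/
  w₁ : K
  monic : f.Monic
  δ_zero : δ.eval 0 ≠ 0
  δ_one : δ.eval 1 ≠ 0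
  sep : ∀ u, δ.eval u ≠ 0 → (f.map (evalRingHom u)).Separable
  root : evalEval 1 w₁ f = 0
  eq : ∀ i, evalEval 1 w₁ (P i) / δ.eval 1 = c i
  alg : ∀ w, evalEval 0 w f = 0 → ∀ i, ∃ a : k₀, algebraMap k₀ K a = evalEval 0 w (P i) / δ.eval 0
  spec : ∀ u w, evalEval u w f = 0 → δ.eval u ≠ 0 → ∀ G : MvPolynomial R k₀,
    MvPolynomial.aeval c G = 0 → MvPolynomial.aeval (fun i => evalEval u w (P i) / δ.eval u) G = 0
  ne : ∀ u w, evalEval u w f = 0 → δ.eval u ≠ 0 →
    MvPolynomial.aeval (fun i => evalEval u w (P i) / δ.eval u) r ≠ 0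

variable {k₀}

/-- coordinates of the point over `(u, w)` -/
noncomputable def Line.pt {c : R → K} {r : MvPolynomial R k₀} (L : Line k₀ c r) (u w : K) (i : R) :
    K := evalEval u w (L.P i) / L.δ.eval u

/-- the line through `z'` (at `0`) and `z` (at `1`) -/
noncomputable def lam {m : ℕ} (z' : Fin m → k₀) (z : Fin m → K) :
    MvPolynomial (Fin m) k₀ →ₐ[k₀] K[X] :=
  MvPolynomial.aeval fun j => C (algebraMap k₀ K (z' j)) + X * C (z j - algebraMap k₀ K (z' j))




end line

end Crest.Agent.R281.Sl_957
end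

-- ▼ part R281/Sl3_957
section

/-!
# R281 / Sl3 (helper957): the line lemma over the algebraic numbers

`QB` is the field of algebraic numbers in `ℂ`; the points over `u = 0` of the covering of
`exists_line` lie in the countable set `algPts R`.
-/

set_option autoImplicit false
set_option linter.style.haveILetI false

namespace Crest.Agent.R281.Sl_957

open Polynomial

/-- the field of algebraic numbers -/
noncomputable abbrev QB : IntermediateField ℚ ℂ := algebraicClosure ℚ ℂ


theorem mem_QB_iff {x : ℂ} : x ∈ QB ↔ IsAlgebraic ℚ x := mem_algebraicClosure_iff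

theorem countable_QB : (QB : Set ℂ).Countable := by
  have h := Algebraic.countable ℚ ℂ
  refine h.mono fun x hx => ?_
  exact mem_QB_iff.1 hx



variable {R : Type*}







end Crest.Agent.R281.Sl_957
end

-- ▼ part R281/Sl4_957

/-!
# R281 / Sl4 (helper957): formats of spreading out over an open set of affine space

`Fmt k₀ R` : a monic `F ∈ k₀[z₁..z_m][X]`, a denominator `D` and numerators `P i`; `M.On z w` :
`F (z, w) = 0`, `D z ≠ 0`; `M.pt z w i = P i (z, w) / D z`. For a countable field the formats with a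
coordinate line through a `k₀`-rational point are countable; every finite family `c` is a point of
such a format all of whose points are specialisations of `c`.
-/

set_option autoImplicit false
set_option linter.style.haveILetI false

namespace Crest.Agent.R281.Sl_957

open Polynomial

/-- a format -/
structure Fmt (k₀ R : Type*) [CommRing k₀] where
  m : ℕ
  F : (MvPolynomial (Fin m) k₀)[X]
  D : MvPolynomial (Fin m) k₀
  P : R → (MvPolynomial (Fin m) k₀)[X]

theorem countable_mvPolynomial (σ k : Type*) [CommRing k] [Countable k] [Countable σ] :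
    Countable (MvPolynomial σ k) := by
  rw [← Cardinal.mk_le_aleph0_iff]
  refine MvPolynomial.cardinalMk_le_max_lift.trans ?_
  refine max_le (max_le ?_ ?_) le_rfl
  · rw [Cardinal.lift_le_aleph0]; exact Cardinal.mk_le_aleph0
  · rw [Cardinal.lift_le_aleph0]; exact Cardinal.mk_le_aleph0

theorem countable_polynomial (k : Type*) [CommRing k] [Countable k] : Countable k[X] := by
  rw [← Cardinal.mk_le_aleph0_iff]
  exact Polynomial.cardinalMk_le_max.trans (max_le Cardinal.mk_le_aleph0 le_rfl)

instance countable_fmt (k₀ R : Type*) [CommRing k₀] [Countable k₀] [Finite R] :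
    Countable (Fmt k₀ R) := by
  haveI : ∀ m : ℕ, Countable (MvPolynomial (Fin m) k₀) := fun m => countable_mvPolynomial _ _
  haveI : ∀ m : ℕ, Countable (MvPolynomial (Fin m) k₀)[X] := fun m => countable_polynomial _
  let φ : Fmt k₀ R → Σ m : ℕ, (MvPolynomial (Fin m) k₀)[X] × MvPolynomial (Fin m) k₀ ×
    (R → (MvPolynomial (Fin m) k₀)[X]) := fun M => ⟨M.m, M.F, M.D, M.P⟩
  have hφ : Function.Injective φ := by
    rintro ⟨m, F, D, P⟩ ⟨m', F', D', P'⟩ h
    simp only [φ] at h
    cases h
    rfl
  exact hφ.countable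

/-- coordinate lines through rational points in the affine space of a format are countable -/
instance countable_lines (k₀ R : Type*) [CommRing k₀] [Countable k₀] [Finite R] :
    Countable (Σ M : Fmt k₀ R, (Fin M.m → k₀) × Fin M.m) := inferInstance

namespace Fmt

section field

variable {k₀ K R : Type*} [Field k₀] [Field K] [Algebra k₀ K] (M : Fmt k₀ R)

/-- points of a format -/
def On (z : Fin M.m → K) (w : K) : Prop := M.F.eval₂ (ez z) w = 0 ∧ ez z M.D ≠ 0

/-- the coefficient vector at a point -/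
noncomputable def pt (z : Fin M.m → K) (w : K) (i : R) : K := (M.P i).eval₂ (ez z) w / ez z M.D

/-- separable off `D = 0` -/
structure Nice : Prop where
  monic : M.F.Monic
  ne : M.D ≠ 0
  sep : ∃ U V : (MvPolynomial (Fin M.m) k₀)[X], U * M.F + V * derivative M.F = C M.D

variable {M}

theorem Nice.separable (h : M.Nice) (z : Fin M.m → K) (hz : ez z M.D ≠ 0) :
    (M.F.map (ez z)).Separable := by
  obtain ⟨U, V, hUV⟩ := h.sep
  have h1 := congrArg (Polynomial.map (ez z)) hUV
  rw [Polynomial.map_add, Polynomial.map_mul, Polynomial.map_mul, map_C,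
    ← Polynomial.derivative_map] at h1
  refine ⟨C (ez z M.D)⁻¹ * U.map (ez z), C (ez z M.D)⁻¹ * V.map (ez z), ?_⟩
  rw [mul_assoc, mul_assoc, ← mul_add, h1, ← C_mul, inv_mul_cancel₀ hz, C_1]

/-- a rational point with `D ≠ 0` -/
theorem Nice.exists_rat [Infinite k₀] (h : M.Nice) :
    ∃ z' : Fin M.m → k₀, MvPolynomial.eval z' M.D ≠ 0 := by
  by_contra hcon
  push Not at hcon
  exact h.ne (MvPolynomial.funext fun x => by rw [hcon, map_zero])

theorem ez_algebraMap {m : ℕ} (z' : Fin m → k₀) (p : MvPolynomial (Fin m) k₀) :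
    ez (fun j => algebraMap k₀ K (z' j)) p = algebraMap k₀ K (MvPolynomial.eval z' p) := by
  have h : (ez (fun j => algebraMap k₀ K (z' j)) : MvPolynomial (Fin m) k₀ →+* K) =
      (algebraMap k₀ K).comp (MvPolynomial.eval z') := by
    refine MvPolynomial.ringHom_ext (fun a => ?_) fun j => ?_
    · rw [ez_apply, MvPolynomial.aeval_C, RingHom.comp_apply, MvPolynomial.eval_C]
    · rw [ez_apply, MvPolynomial.aeval_X, RingHom.comp_apply, MvPolynomial.eval_X]
  rw [h]
  rfl


/-! ### lines -/

/-- restriction to the line `a + u d` -/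
noncomputable def lin {m : ℕ} (a d : Fin m → K) : MvPolynomial (Fin m) k₀ →+* K[X] :=
  ((MvPolynomial.aeval fun j => C (a j) + X * C (d j) : MvPolynomial (Fin m) k₀ →ₐ[k₀] K[X]) :
    MvPolynomial (Fin m) k₀ →+* K[X])

theorem evalRingHom_lin {m : ℕ} (a d : Fin m → K) (u : K) :
    (evalRingHom u).comp (lin (k₀ := k₀) a d) = ez fun j => a j + u * d j := by
  refine MvPolynomial.ringHom_ext (fun x => ?_) fun j => ?_
  · rw [RingHom.comp_apply, ez_apply, MvPolynomial.aeval_C]
    change eval u (MvPolynomial.aeval _ (MvPolynomial.C x)) = _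
    rw [MvPolynomial.aeval_C, IsScalarTower.algebraMap_apply k₀ K K[X], ← C_eq_algebraMap, eval_C]
  · rw [RingHom.comp_apply, ez_apply, MvPolynomial.aeval_X]
    change eval u (MvPolynomial.aeval _ (MvPolynomial.X j)) = _
    rw [MvPolynomial.aeval_X, eval_add, eval_mul, eval_C, eval_C, eval_X]

theorem eval_lin {m : ℕ} (a d : Fin m → K) (u : K) (p : MvPolynomial (Fin m) k₀) :
    (lin a d p).eval u = ez (fun j => a j + u * d j) p :=
  congrArg (fun g => g p) (evalRingHom_lin a d u)

theorem evalEval_lin {m : ℕ} (a d : Fin m → K) (u w : K) (p : (MvPolynomial (Fin m) k₀)[X]) :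
    evalEval u w (p.map (lin a d)) = p.eval₂ (ez fun j => a j + u * d j) w := by
  rw [← map_evalRingHom_eval, Polynomial.map_map, evalRingHom_lin, eval_map]

variable (M)

/-- the plane curve over the line `a + u d` -/
noncomputable def lf (a d : Fin M.m → K) : K[X][X] := M.F.map (lin a d)

/-- the denominator on the line -/
noncomputable def lδ (a d : Fin M.m → K) : K[X] := lin a d M.D

/-- the numerators on the line -/
noncomputable def lP (a d : Fin M.m → K) (i : R) : K[X][X] := (M.P i).map (lin a d)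

theorem eval_lδ (a d : Fin M.m → K) (u : K) :
    (M.lδ a d).eval u = ez (fun j => a j + u * d j) M.D := eval_lin a d u _

theorem evalEval_lf (a d : Fin M.m → K) (u w : K) :
    evalEval u w (M.lf a d) = M.F.eval₂ (ez fun j => a j + u * d j) w := evalEval_lin a d u w _

theorem evalEval_lP (a d : Fin M.m → K) (u w : K) (i : R) :
    evalEval u w (M.lP a d i) = (M.P i).eval₂ (ez fun j => a j + u * d j) w :=
  evalEval_lin a d u w _

theorem on_iff (a d : Fin M.m → K) (u w : K) :
    M.On (fun j => a j + u * d j) w ↔ evalEval u w (M.lf a d) = 0 ∧ (M.lδ a d).eval u ≠ 0 := by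
  rw [On, evalEval_lf, eval_lδ]

theorem pt_line (a d : Fin M.m → K) (u w : K) (i : R) :
    M.pt (fun j => a j + u * d j) w i = evalEval u w (M.lP a d i) / (M.lδ a d).eval u := by
  rw [pt, evalEval_lP, eval_lδ]

variable {M}

theorem Nice.lf_monic (h : M.Nice) (a d : Fin M.m → K) : (M.lf a d).Monic := h.monic.map _

theorem Nice.lf_sep (h : M.Nice) (a d : Fin M.m → K) (u : K) (hu : (M.lδ a d).eval u ≠ 0) :
    ((M.lf a d).map (evalRingHom u)).Separable := by
  rw [lf, Polynomial.map_map, evalRingHom_lin]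
  rw [eval_lδ] at hu
  exact h.separable _ hu

end field

/-- **spreading out**: `c` is a point of a format all of whose points are specialisations -/
theorem exists_fmt {k₀ K R : Type*} [Field k₀] [CharZero k₀] [Field K] [Algebra k₀ K] [Finite R]
    (c : R → K) (r : MvPolynomial R k₀) (hr : MvPolynomial.aeval c r ≠ 0) :
    ∃ (M : Fmt k₀ R) (z : Fin M.m → K) (b : K), M.Nice ∧ AlgebraicIndependent k₀ z ∧ M.On z b ∧
      M.pt z b = c ∧ ∀ (z' : Fin M.m → K) (w : K), M.On z' w →
        (∀ G : MvPolynomial R k₀, MvPolynomial.aeval c G = 0 →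
          MvPolynomial.aeval (M.pt z' w) G = 0) ∧ MvPolynomial.aeval (M.pt z' w) r ≠ 0 := by
  classical
  obtain ⟨m, z, b, F, D, P, U, V, hz, hF, hD, hmin, hFb, hP, hUV⟩ :=
    exists_model (k₀ := k₀) (fun i : Option R => i.elim (MvPolynomial.aeval c r)⁻¹ c)
  have hzD : ez z D ≠ 0 := fun h => hD (hz (by rw [map_zero]; exact h))
  have hspec : ∀ (z' : Fin m → K) (w : K), F.eval₂ (ez z') w = 0 → ez z' D ≠ 0 →
      ∀ G : MvPolynomial (Option R) k₀,
      MvPolynomial.aeval (fun i : Option R => i.elim (MvPolynomial.aeval c r)⁻¹ c) G = 0 →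
      MvPolynomial.aeval (fun i => (P i).eval₂ (ez z') w / ez z' D) G = 0 := by
    intro z' w h0 hδ G hG
    obtain ⟨N, G', hG'⟩ := exists_homog (K := K) D P G
    have h1 := hG' (eval₂RingHom (ez z) b) (fun a => by
      change eval₂ (ez z) b (C (MvPolynomial.C a)) = _
      rw [eval₂_C, ez_apply, MvPolynomial.aeval_C]) (by
      change eval₂ (ez z) b (C D) ≠ 0
      rw [eval₂_C]
      exact hzD)
    have h2 : (fun i : Option R => eval₂RingHom (ez z) b (P i) / eval₂RingHom (ez z) b (C D)) =
        fun i : Option R => i.elim (MvPolynomial.aeval c r)⁻¹ c := by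
      funext i
      change eval₂ (ez z) b (P i) / eval₂ (ez z) b (C D) = _
      rw [eval₂_C, ← hP, mul_div_cancel_left₀ _ hzD]
    rw [h2, hG, mul_zero] at h1
    obtain ⟨q, hq⟩ := hmin G' h1
    have h3 := hG' (eval₂RingHom (ez z') w) (fun a => by
      change eval₂ (ez z') w (C (MvPolynomial.C a)) = _
      rw [eval₂_C, ez_apply, MvPolynomial.aeval_C]) (by
      change eval₂ (ez z') w (C D) ≠ 0
      rw [eval₂_C]
      exact hδ)
    have h4 : (eval₂RingHom (ez z') w) (C D) = ez z' D := eval₂_C _ _
    have h5 : (eval₂RingHom (ez z') w) F = 0 := h0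
    rw [hq, map_mul, h5, zero_mul, h4] at h3
    exact (mul_eq_zero.1 h3.symm).resolve_left (pow_ne_zero _ hδ)
  refine ⟨⟨m, F, D, fun i => P (some i)⟩, z, b, ⟨hF, hD, U, V, hUV⟩, hz, ⟨hFb, hzD⟩, ?_,
    fun z' w h => ⟨fun G hG => ?_, ?_⟩⟩
  · funext i
    change (P (some i)).eval₂ (ez z) b / ez z D = c i
    rw [← hP, mul_div_cancel_left₀ _ hzD]
    rfl
  · have h1 := hspec z' w h.1 h.2 (MvPolynomial.rename some G) (by
      rw [MvPolynomial.aeval_rename]
      exact hG)
    rw [MvPolynomial.aeval_rename] at h1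
    exact h1
  · have h1 := hspec z' w h.1 h.2
      (MvPolynomial.rename some r * MvPolynomial.X none - 1) (by
      rw [map_sub, map_mul, MvPolynomial.aeval_rename, MvPolynomial.aeval_X, map_one]
      change MvPolynomial.aeval c r * (MvPolynomial.aeval c r)⁻¹ - 1 = 0
      rw [mul_inv_cancel₀ hr, sub_self])
    rw [map_sub, map_mul, MvPolynomial.aeval_rename, MvPolynomial.aeval_X, map_one] at h1
    intro h2
    have h3 : MvPolynomial.aeval ((fun i => (P i).eval₂ (ez z') w / ez z' D) ∘ some) r = 0 := h2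
    rw [h3, zero_mul, zero_sub, neg_eq_zero] at h1
    exact one_ne_zero h1

end Fmt

end Crest.Agent.R281.Sl_957
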