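import Mathlib
import Crest.Agent.R281.AF5_867
import Crest.Agent.R281.KrF_488
import Crest.Agent.R281.KrB5_871
import Crest.Agent.R281.Sl4_957

-- ▼ part R281/Ns1_476
section

/-!
# Row 281, NS (helper476): generic transfer of implications between polynomial equations

`K` algebraically closed, `σ` finite.

* `Imp G H`  : `∀ y : σ → K, (∀ l, eval y (G l) = 0) → eval y H = 0`
* `Cert G H` : a Nullstellensatz identity `H ^ N = ∑ l, a l * G l`; `Cert.S` = its coefficients
* `exists_cert`, `exists_cert_set`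
* `Cert.trans` : transfer to every reduced ring `L` along `φ : R →+* L`, `R →+* K` injective with
  the coefficients `S` of the certificate in its range
* `Cert.spec`, `exists_spec` : the same for polynomials with coefficients which are polynomials
  over `k₀` in a vector `c : ι → K`, at every point `c'` satisfying the `k₀`-relations of `c`.
-/

set_option autoImplicit false

open MvPolynomial

namespace Crest.Agent.R281.Ns_476

noncomputable section

universe u v w

section cert

variable {K : Type u} [Field K] {σ : Type v} {ι : Type w}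

/-- implication between polynomial equations -/
def Imp (G : ι → MvPolynomial σ K) (H : MvPolynomial σ K) : Prop :=
  ∀ y : σ → K, (∀ l, eval y (G l) = 0) → eval y H = 0


/-- Nullstellensatz certificate -/
structure Cert [Fintype ι] (G : ι → MvPolynomial σ K) (H : MvPolynomial σ K) where
  N : ℕ
  a : ι → MvPolynomial σ K
  eq : H ^ N = ∑ l, a l * G l

variable [Fintype ι] {G : ι → MvPolynomial σ K} {H : MvPolynomial σ K}

open scoped Classical in
/-- the coefficients of the certificate -/
def Cert.S (c : Cert G H) : Finset K := Finset.univ.biUnion fun l => (c.a l).coeffs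

theorem Cert.mem_S (c : Cert G H) (l : ι) {x : K} (hx : x ∈ (c.a l).coeffs) : x ∈ c.S := by
  classical
  exact Finset.mem_biUnion.2 ⟨l, Finset.mem_univ _, hx⟩

/-- the conclusion is true for the certificate itself -/
theorem Cert.imp (c : Cert G H) : Imp G H := by
  intro y hy
  have h1 := congrArg (eval y) c.eq
  rw [map_pow, map_sum] at h1
  have h2 : ∑ l, eval y (c.a l * G l) = 0 :=
    Finset.sum_eq_zero fun l _ => by rw [map_mul, hy, mul_zero]
  rw [h2] at h1
  by_cases hN : c.N = 0
  · rw [hN, pow_zero] at h1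
    exact absurd h1 one_ne_zero
  · exact (pow_eq_zero_iff hN).1 h1

theorem exists_cert [IsAlgClosed K] [Finite σ] (h : Imp G H) : Nonempty (Cert G H) := by
  have h1 : H ∈ (Ideal.span (Set.range G)).radical := by
    rw [← vanishingIdeal_zeroLocus_eq_radical (K := K)]
    intro y hy
    rw [aeval_eq_eval]
    refine h y fun l => ?_
    have h2 := hy (G l) (Ideal.subset_span ⟨l, rfl⟩)
    rwa [aeval_eq_eval] at h2
  obtain ⟨N, hN⟩ := Ideal.mem_radical_iff.1 h1
  obtain ⟨a, ha⟩ := (Submodule.mem_span_range_iff_exists_fun _).1 hN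
  exact ⟨⟨N, a, by rw [← ha]; rfl⟩⟩


/-- **transfer**: the implication holds over every reduced ring `L` over a subring `R` of `K`
which contains the coefficients of the certificate. -/
theorem Cert.trans (c : Cert G H) {R : Type*} [CommRing R] {i : R →+* K}
    (hi : Function.Injective i) (hS : ∀ x ∈ c.S, x ∈ Set.range i) {g : ι → MvPolynomial σ R}
    (hg : ∀ l, map i (g l) = G l) {h : MvPolynomial σ R} (hh : map i h = H)
    {L : Type*} [CommRing L] [IsReduced L] (φ : R →+* L) (y : σ → L)
    (hy : ∀ l, eval₂ φ y (g l) = 0) : eval₂ φ y h = 0 := by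
  have h1 : ∀ l, ∃ b : MvPolynomial σ R, map i b = c.a l := fun l =>
    mem_range_map_iff_coeffs_subset.2 fun x hx => hS x (c.mem_S l hx)
  choose b hb using h1
  have h2 : h ^ c.N = ∑ l, b l * g l := by
    apply map_injective i hi
    rw [map_pow, hh, c.eq, map_sum]
    exact Finset.sum_congr rfl fun l _ => by rw [map_mul, hb, hg]
  have h3 : eval₂ φ y h ^ c.N = 0 := by
    have h4 := congrArg (eval₂Hom φ y) h2
    rw [map_pow, map_sum] at h4
    simp only [map_mul, coe_eval₂Hom, hy, mul_zero, Finset.sum_const_zero] at h4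
    exact h4
  exact eq_zero_of_pow_eq_zero h3

end cert

section spec

variable {k₀ : Type*} [CommRing k₀] {K : Type u} [Field K] [Algebra k₀ K] {α : Type*}

/-- `k₀[c]` -/
abbrev Rg (k₀ : Type*) [CommRing k₀] {K : Type u} [Field K] [Algebra k₀ K] {α : Type*}
    (c : α → K) : Subalgebra k₀ K := (aeval c : MvPolynomial α k₀ →ₐ[k₀] K).range

theorem mem_Rg (c : α → K) (a : α) : c a ∈ Rg k₀ c := ⟨X a, by simp⟩

/-- the homomorphism `k₀[c] → L` of a point `c'` which satisfies the relations of `c` -/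
theorem exists_hom {L : Type*} [CommRing L] [Algebra k₀ L] (c : α → K) (c' : α → L)
    (hrel : ∀ r : MvPolynomial α k₀, aeval c r = 0 → aeval c' r = 0) :
    ∃ φ : Rg k₀ c →ₐ[k₀] L, ∀ r : MvPolynomial α k₀,
      φ ⟨aeval c r, ⟨r, rfl⟩⟩ = aeval c' r := by
  have hsurj : Function.Surjective (aeval c : MvPolynomial α k₀ →ₐ[k₀] K).rangeRestrict :=
    AlgHom.rangeRestrict_surjective _
  have hker : RingHom.ker (aeval c : MvPolynomial α k₀ →ₐ[k₀] K).rangeRestrict.toRingHom ≤
      RingHom.ker (aeval c' : MvPolynomial α k₀ →ₐ[k₀] L).toRingHom := by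
    intro r hr
    refine hrel r ?_
    have := congrArg Subtype.val (RingHom.mem_ker.1 hr)
    simpa using this
  refine ⟨AlgHom.liftOfSurjective _ hsurj _ hker, fun r => ?_⟩
  exact AlgHom.liftOfSurjective_apply _ hsurj _ hker r

variable {σ : Type v} {ι : Type w} [Fintype ι]

/-- **transfer along a specialisation** `c ↦ c'`: `g l`, `h` are polynomials in `y` with
coefficients in `k₀[c]`. -/
theorem Cert.spec {c : α → K} {g : ι → MvPolynomial σ (MvPolynomial α k₀)}
    {h : MvPolynomial σ (MvPolynomial α k₀)}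
    (C : Cert (fun l => map (aeval c : MvPolynomial α k₀ →ₐ[k₀] K).toRingHom (g l))
      (map (aeval c : MvPolynomial α k₀ →ₐ[k₀] K).toRingHom h))
    (hS : ∀ x ∈ C.S, x ∈ Rg k₀ c) {L : Type*} [CommRing L] [IsReduced L] [Algebra k₀ L]
    {c' : α → L} (hrel : ∀ r : MvPolynomial α k₀, aeval c r = 0 → aeval c' r = 0) (y : σ → L)
    (hy : ∀ l, eval₂ (aeval c' : MvPolynomial α k₀ →ₐ[k₀] L).toRingHom y (g l) = 0) :
    eval₂ (aeval c' : MvPolynomial α k₀ →ₐ[k₀] L).toRingHom y h = 0 := by
  obtain ⟨φ, hφ⟩ := exists_hom c c' hrel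
  let ρ : MvPolynomial α k₀ →+* Rg k₀ c :=
    (aeval c : MvPolynomial α k₀ →ₐ[k₀] K).rangeRestrict.toRingHom
  have hρ : φ.toRingHom.comp ρ = (aeval c' : MvPolynomial α k₀ →ₐ[k₀] L).toRingHom :=
    RingHom.ext fun r => hφ r
  have e : ∀ p : MvPolynomial σ (MvPolynomial α k₀),
      eval₂ (aeval c' : MvPolynomial α k₀ →ₐ[k₀] L).toRingHom y p =
        eval₂ φ.toRingHom y (map ρ p) := by
    intro p
    rw [eval₂_map, hρ]
  have m : ∀ p : MvPolynomial σ (MvPolynomial α k₀),
      map (Rg k₀ c).val.toRingHom (map ρ p) =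
        map (aeval c : MvPolynomial α k₀ →ₐ[k₀] K).toRingHom p := by
    intro p
    rw [map_map]
    rfl
  rw [e]
  refine C.trans (i := (Rg k₀ c).val.toRingHom) Subtype.val_injective
    (fun x hx => ⟨⟨x, hS x hx⟩, rfl⟩) (fun l => m (g l)) (m h) φ.toRingHom y fun l => ?_
  rw [← e]
  exact hy l

variable {κ : Type*} [Finite κ] {J : κ → Type w} [∀ q, Fintype (J q)]




end spec

end

end Crest.Agent.R281.Ns_476
end

-- ▼ part R281/AF6_867
section

/-!
# R281 (S0424), ALG-FORM, part 6 (helper867): transfer of the polynomial symplectic form to every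
specialisation of the coefficients

* `transfer`    : `D : FDat κ ℂ` with `Exact` and `Imp D E` (`E` finite): there is a finite set `S` of
  complex numbers such that for every injective `i : R →+* ℂ` whose range contains `S`, `D` has a
  lift `D'` over `R`, `D'.Exact`, and for EVERY ring hom `φ : R →+* L` to a field the data
  `D'.map φ` satisfy the pointwise identities on the cone of the equations `φ (E)`.
* `exists_fdat` : the data of a closed holomorphic symplectic form on a projective manifold.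
-/

set_option autoImplicit false
set_option linter.unusedSectionVars false

open Set Filter Topology Complex
open scoped ContDiff Matrix ComplexConjugate

namespace Crest.Agent.R281.AF_867

open Crest.Agent.R275 Crest.Agent.R275.Geo Crest.Agent.R275.Core144
open Crest.Agent.R273.SerA_945 Crest.Agent.R273.SerB_945 Crest.Agent.R273.SerC_945
open Crest.Agent.R273.SerE_945 Crest.Agent.R273.TD3_733 Crest.Agent.R273.FS_333
open Crest.Agent.R273.Defs_333 Crest.Agent.R273.SteinC_794 Crest.Agent.R273.KosGen_313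
open Crest.Agent.R273.Chow_313 Crest.Agent.R260.Zt_313 Crest.Agent.R281.Defs_273

noncomputable section

section Alg

variable {κ ι R L : Type*} [Fintype κ] [CommRing R] [CommRing L]

/-- the variables: the point `x` and the vectors `u v w`, and auxiliary unknowns -/
abbrev Vr (κ ι : Type*) : Type _ := (Fin 4 × κ) ⊕ ι

/-- a polynomial in the variables of the block `0` -/
def on (ι : Type*) (p : MvPolynomial κ R) : MvPolynomial (Vr κ ι) R :=
  MvPolynomial.rename (fun k => Sum.inl (0, k)) p

/-- the derivative in the direction of the block `q` -/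
def tan (ι : Type*) (q : Fin 4) (p : MvPolynomial κ R) : MvPolynomial (Vr κ ι) R :=
  ∑ k, on ι (MvPolynomial.pderiv k p) * MvPolynomial.X (Sum.inl (q, k))

theorem map_on (φ : R →+* L) (p : MvPolynomial κ R) :
    MvPolynomial.map φ (on ι p) = on ι (MvPolynomial.map φ p) := MvPolynomial.map_rename _ _ _

theorem map_pderiv (φ : R →+* L) (p : MvPolynomial κ R) (k : κ) :
    MvPolynomial.map φ (MvPolynomial.pderiv k p) = MvPolynomial.pderiv k (MvPolynomial.map φ p) :=
  MvPolynomial.pderiv_map.symm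

theorem map_tan (φ : R →+* L) (q : Fin 4) (p : MvPolynomial κ R) :
    MvPolynomial.map φ (tan ι q p) = tan ι q (MvPolynomial.map φ p) := by
  unfold tan
  rw [map_sum]
  exact Finset.sum_congr rfl fun k _ => by rw [map_mul, map_on, map_pderiv, MvPolynomial.map_X]

theorem eval_on (y : Vr κ ι → L) (p : MvPolynomial κ L) :
    MvPolynomial.eval y (on ι p) = MvPolynomial.eval (fun k => y (Sum.inl (0, k))) p := by
  unfold on
  rw [MvPolynomial.eval_rename]
  rfl

theorem eval_tan (y : Vr κ ι → L) (q : Fin 4) (p : MvPolynomial κ L) :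
    MvPolynomial.eval y (tan ι q p) =
      dE p (fun k => y (Sum.inl (0, k))) fun k => y (Sum.inl (q, k)) := by
  unfold tan dE
  rw [map_sum]
  exact Finset.sum_congr rfl fun k _ => by rw [map_mul, eval_on, MvPolynomial.eval_X]

namespace FDat

/-- the polynomial of `b j x (q1) (q2)` -/
def bP (D : FDat κ R) (ι : Type*) (j : κ) (q1 q2 : Fin 4) : MvPolynomial (Vr κ ι) R :=
  ∑ k, ∑ l, on ι (D.s j k l) * (MvPolynomial.X (Sum.inl (q1, k)) * MvPolynomial.X (Sum.inl (q2, l)))

/-- the polynomial of `db j x (q0) (q1) (q2)` -/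
def dbP (D : FDat κ R) (ι : Type*) (j : κ) (q0 q1 q2 : Fin 4) : MvPolynomial (Vr κ ι) R :=
  ∑ k, ∑ l, tan ι q0 (D.s j k l) *
    (MvPolynomial.X (Sum.inl (q1, k)) * MvPolynomial.X (Sum.inl (q2, l)))

/-- the polynomial of `T j x (1) (2) (3)` -/
def TP (D : FDat κ R) (ι : Type*) (j : κ) : MvPolynomial (Vr κ ι) R :=
  MvPolynomial.X (Sum.inl (0, j)) * (D.dbP ι j 1 2 3 + D.dbP ι j 2 3 1 + D.dbP ι j 3 1 2) -
    MvPolynomial.C (D.m : R) * (MvPolynomial.X (Sum.inl (1, j)) * D.bP ι j 2 3 +
      MvPolynomial.X (Sum.inl (2, j)) * D.bP ι j 3 1 +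
      MvPolynomial.X (Sum.inl (3, j)) * D.bP ι j 1 2)

/-- the polynomial of the agreement -/
def aP (D : FDat κ R) (ι : Type*) (i j : κ) : MvPolynomial (Vr κ ι) R :=
  MvPolynomial.X (Sum.inl (0, i)) ^ D.m * D.bP ι j 2 3 -
    MvPolynomial.X (Sum.inl (0, j)) ^ D.m * D.bP ι i 2 3

theorem map_bP (D : FDat κ R) (φ : R →+* L) (j : κ) (q1 q2 : Fin 4) :
    MvPolynomial.map φ (D.bP ι j q1 q2) = (D.map φ).bP ι j q1 q2 := by
  unfold bP
  rw [map_sum]
  refine Finset.sum_congr rfl fun k _ => ?_
  rw [map_sum]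
  exact Finset.sum_congr rfl fun l _ => by
    rw [map_mul, map_mul, map_on, MvPolynomial.map_X, MvPolynomial.map_X, FDat.map_s]

theorem map_dbP (D : FDat κ R) (φ : R →+* L) (j : κ) (q0 q1 q2 : Fin 4) :
    MvPolynomial.map φ (D.dbP ι j q0 q1 q2) = (D.map φ).dbP ι j q0 q1 q2 := by
  unfold dbP
  rw [map_sum]
  refine Finset.sum_congr rfl fun k _ => ?_
  rw [map_sum]
  exact Finset.sum_congr rfl fun l _ => by
    rw [map_mul, map_mul, map_tan, MvPolynomial.map_X, MvPolynomial.map_X, FDat.map_s]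

theorem map_TP (D : FDat κ R) (φ : R →+* L) (j : κ) :
    MvPolynomial.map φ (D.TP ι j) = (D.map φ).TP ι j := by
  unfold TP
  simp only [map_sub, map_mul, map_add, map_dbP, map_bP, MvPolynomial.map_X,
    map_natCast, FDat.map_m]

theorem map_aP (D : FDat κ R) (φ : R →+* L) (i j : κ) :
    MvPolynomial.map φ (D.aP ι i j) = (D.map φ).aP ι i j := by
  unfold aP
  simp only [map_sub, map_mul, map_pow, map_bP, MvPolynomial.map_X, FDat.map_m]

theorem eval_bP (D : FDat κ L) (y : Vr κ ι → L) (j : κ) (q1 q2 : Fin 4) :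
    MvPolynomial.eval y (D.bP ι j q1 q2) = D.b j (fun k => y (Sum.inl (0, k)))
      (fun k => y (Sum.inl (q1, k))) (fun k => y (Sum.inl (q2, k))) := by
  unfold bP b
  rw [map_sum]
  refine Finset.sum_congr rfl fun k _ => ?_
  rw [map_sum]
  exact Finset.sum_congr rfl fun l _ => by
    rw [map_mul, map_mul, eval_on, MvPolynomial.eval_X, MvPolynomial.eval_X]

theorem eval_dbP (D : FDat κ L) (y : Vr κ ι → L) (j : κ) (q0 q1 q2 : Fin 4) :
    MvPolynomial.eval y (D.dbP ι j q0 q1 q2) = D.db j (fun k => y (Sum.inl (0, k)))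
      (fun k => y (Sum.inl (q0, k))) (fun k => y (Sum.inl (q1, k)))
      (fun k => y (Sum.inl (q2, k))) := by
  unfold dbP db
  rw [map_sum]
  refine Finset.sum_congr rfl fun k _ => ?_
  rw [map_sum]
  exact Finset.sum_congr rfl fun l _ => by
    rw [map_mul, map_mul, eval_tan, MvPolynomial.eval_X, MvPolynomial.eval_X]

theorem eval_TP (D : FDat κ L) (y : Vr κ ι → L) (j : κ) :
    MvPolynomial.eval y (D.TP ι j) = D.T j (fun k => y (Sum.inl (0, k)))
      (fun k => y (Sum.inl (1, k))) (fun k => y (Sum.inl (2, k)))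
      (fun k => y (Sum.inl (3, k))) := by
  unfold TP T
  simp only [map_sub, map_mul, map_add, eval_dbP, eval_bP, MvPolynomial.eval_X,
    MvPolynomial.eval_C]

theorem eval_aP (D : FDat κ L) (y : Vr κ ι → L) (i j : κ) :
    MvPolynomial.eval y (D.aP ι i j) =
      y (Sum.inl (0, i)) ^ D.m * D.b j (fun k => y (Sum.inl (0, k)))
        (fun k => y (Sum.inl (2, k))) (fun k => y (Sum.inl (3, k))) -
      y (Sum.inl (0, j)) ^ D.m * D.b i (fun k => y (Sum.inl (0, k)))
        (fun k => y (Sum.inl (2, k))) (fun k => y (Sum.inl (3, k))) := by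
  unfold aP
  simp only [map_sub, map_mul, map_pow, eval_bP, MvPolynomial.eval_X]

end FDat

/-! ### the equations of the nondegeneracy -/

variable {e : Type*} [Fintype e]

/-- `∑ l, s j l k (x) v_l - ∑ p, y_p ∂_k p (x)` -/
def nP (D : FDat κ R) (G : e → MvPolynomial κ R) (j k : κ) : MvPolynomial (Vr κ e) R :=
  ∑ l, on e (D.s j l k) * MvPolynomial.X (Sum.inl (2, l)) -
    ∑ p, MvPolynomial.X (Sum.inr p) * on e (MvPolynomial.pderiv k (G p))

/-- `x_j (x_k v_l - x_l v_k)` -/
def hP (R e : Type*) [CommRing R] (j k l : κ) : MvPolynomial (Vr κ e) R :=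
  MvPolynomial.X (Sum.inl (0, j)) *
    (MvPolynomial.X (Sum.inl (0, k)) * MvPolynomial.X (Sum.inl (2, l)) -
      MvPolynomial.X (Sum.inl (0, l)) * MvPolynomial.X (Sum.inl (2, k)))

theorem map_nP (D : FDat κ R) (φ : R →+* L) (G : e → MvPolynomial κ R) (j k : κ) :
    MvPolynomial.map φ (nP D G j k) =
      nP (D.map φ) (fun p => MvPolynomial.map φ (G p)) j k := by
  unfold nP
  rw [map_sub, map_sum, map_sum]
  congr 1
  · exact Finset.sum_congr rfl fun l _ => by rw [map_mul, map_on, MvPolynomial.map_X, FDat.map_s]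
  · exact Finset.sum_congr rfl fun l _ => by rw [map_mul, map_on, MvPolynomial.map_X, map_pderiv]

theorem map_hP (φ : R →+* L) (j k l : κ) :
    MvPolynomial.map φ (hP R e j k l) = hP L e j k l := by
  unfold hP
  simp only [map_mul, map_sub, MvPolynomial.map_X]

theorem eval_nP (D : FDat κ L) (G : e → MvPolynomial κ L) (y : Vr κ e → L) (j k : κ) :
    MvPolynomial.eval y (nP D G j k) =
      ∑ l, MvPolynomial.eval (fun k => y (Sum.inl (0, k))) (D.s j l k) * y (Sum.inl (2, l)) -
      ∑ p, y (Sum.inr p) *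
        MvPolynomial.eval (fun k => y (Sum.inl (0, k))) (MvPolynomial.pderiv k (G p)) := by
  unfold nP
  rw [map_sub, map_sum, map_sum]
  congr 1
  · exact Finset.sum_congr rfl fun l _ => by rw [map_mul, eval_on, MvPolynomial.eval_X]
  · exact Finset.sum_congr rfl fun l _ => by rw [map_mul, eval_on, MvPolynomial.eval_X]

theorem eval_hP (y : Vr κ e → L) (j k l : κ) :
    MvPolynomial.eval y (hP L e j k l) = y (Sum.inl (0, j)) *
      (y (Sum.inl (0, k)) * y (Sum.inl (2, l)) - y (Sum.inl (0, l)) * y (Sum.inl (2, k))) := by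
  unfold hP
  simp only [map_mul, map_sub, MvPolynomial.eval_X]

end Alg

/-! ### the transfer -/

section Transfer

variable {κ e : Type} [Fintype κ] [Fintype e]

/-- the equations: on the cone, tangent vectors in the blocks 1, 2, 3 -/
def eqn {R : Type*} [CommRing R] (G : e → MvPolynomial κ R) : e ⊕ (Fin 3 × e) →
    MvPolynomial (Vr κ e) R
  | Sum.inl p => on e (G p)
  | Sum.inr (q, p) => tan e q.succ (G p)

/-- the equations of the nondegeneracy -/
def eqd {R : Type*} [CommRing R] (D : FDat κ R) (G : e → MvPolynomial κ R) (j : κ) :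
    e ⊕ e ⊕ κ → MvPolynomial (Vr κ e) R
  | Sum.inl p => on e (G p)
  | Sum.inr (Sum.inl p) => tan e 2 (G p)
  | Sum.inr (Sum.inr k) => nP D G j k

theorem map_eqn {R L : Type*} [CommRing R] [CommRing L] (φ : R →+* L)
    (G : e → MvPolynomial κ R) (a : e ⊕ (Fin 3 × e)) :
    MvPolynomial.map φ (eqn G a) = eqn (fun p => MvPolynomial.map φ (G p)) a := by
  rcases a with p | ⟨q, p⟩
  · exact map_on _ _
  · exact map_tan _ _ _

theorem map_eqd {R L : Type*} [CommRing R] [CommRing L] (φ : R →+* L) (D : FDat κ R)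
    (G : e → MvPolynomial κ R) (j : κ) (a : e ⊕ e ⊕ κ) :
    MvPolynomial.map φ (eqd D G j a) =
      eqd (D.map φ) (fun p => MvPolynomial.map φ (G p)) j a := by
  rcases a with p | p | k
  · exact map_on _ _
  · exact map_tan _ _ _
  · exact map_nP _ _ _ _ _

/-- the point given by `x u v w` -/
def pt4 {L : Type*} (x u v w : κ → L) (y : e → L) : Vr κ e → L
  | Sum.inl (0, k) => x k
  | Sum.inl (1, k) => u k
  | Sum.inl (2, k) => v k
  | Sum.inl (3, k) => w k
  | Sum.inr p => y p

theorem eval_eqn {L : Type*} [CommRing L] {G : e → MvPolynomial κ L} {x u v w : κ → L} {y : e → L}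
    (hx : OnE (range G) x) (hu : TanE (range G) x u) (hv : TanE (range G) x v)
    (hw : TanE (range G) x w) (a : e ⊕ (Fin 3 × e)) :
    MvPolynomial.eval (pt4 x u v w y) (eqn G a) = 0 := by
  rcases a with p | ⟨q, p⟩
  · exact (eval_on _ _).trans (hx _ ⟨p, rfl⟩)
  · fin_cases q
    · exact (eval_tan _ _ _).trans (hu _ ⟨p, rfl⟩)
    · exact (eval_tan _ _ _).trans (hv _ ⟨p, rfl⟩)
    · exact (eval_tan _ _ _).trans (hw _ ⟨p, rfl⟩)

theorem of_eval_eqn {L : Type*} [CommRing L] {G : e → MvPolynomial κ L} {z : Vr κ e → L}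
    (h : ∀ a, MvPolynomial.eval z (eqn G a) = 0) :
    OnE (range G) (fun k => z (Sum.inl (0, k))) ∧
      ∀ q : Fin 3, TanE (range G) (fun k => z (Sum.inl (0, k)))
        (fun k => z (Sum.inl (q.succ, k))) := by
  refine ⟨?_, fun q => ?_⟩
  · rintro _ ⟨p, rfl⟩
    exact (eval_on _ _).symm.trans (h (Sum.inl p))
  · rintro _ ⟨p, rfl⟩
    exact (eval_tan _ _ _).symm.trans (h (Sum.inr (q, p)))

variable {D : FDat κ ℂ} {G : e → MvPolynomial κ ℂ}

theorem imp_agr (h : D.Imp (range G)) (i j : κ) :
    Ns_476.Imp (eqn G) (D.aP e i j) := by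
  intro z hz
  obtain ⟨h0, h1⟩ := of_eval_eqn hz
  rw [FDat.eval_aP, sub_eq_zero]
  exact h.agr _ _ _ h0 (h1 1) (h1 2) i j

theorem imp_clo (h : D.Imp (range G)) (j : κ) : Ns_476.Imp (eqn G) (D.TP e j) := by
  intro z hz
  obtain ⟨h0, h1⟩ := of_eval_eqn hz
  rw [FDat.eval_TP]
  exact h.clo _ _ _ _ h0 (h1 0) (h1 1) (h1 2) j

theorem imp_nd (h : D.Imp (range G)) (j k l : κ) :
    Ns_476.Imp (eqd D G j) (hP ℂ e j k l) := by
  intro z hz
  have h0 : OnE (range G) (fun k => z (Sum.inl (0, k))) := by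
    rintro _ ⟨p, rfl⟩
    exact (eval_on _ _).symm.trans (hz (Sum.inl p))
  have h1 : TanE (range G) (fun k => z (Sum.inl (0, k))) (fun k => z (Sum.inl (2, k))) := by
    rintro _ ⟨p, rfl⟩
    exact (eval_tan _ _ _).symm.trans (hz (Sum.inr (Sum.inl p)))
  rw [eval_hP]
  by_cases hj : z (Sum.inl (0, j)) = 0
  · rw [hj, zero_mul]
  obtain ⟨a, ha⟩ := h.nd _ _ j h0 h1 (fun w hw => by
    have h2 : D.b j (fun k => z (Sum.inl (0, k))) (fun k => z (Sum.inl (2, k))) w =
        ∑ k, w k * ∑ l, MvPolynomial.eval (fun k => z (Sum.inl (0, k))) (D.s j l k) *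
          z (Sum.inl (2, l)) := by
      unfold FDat.b
      rw [Finset.sum_comm]
      refine Finset.sum_congr rfl fun k _ => ?_
      rw [Finset.mul_sum]
      exact Finset.sum_congr rfl fun l _ => by ring
    have h3 : ∀ k, ∑ l, MvPolynomial.eval (fun k => z (Sum.inl (0, k))) (D.s j l k) *
        z (Sum.inl (2, l)) = ∑ p, z (Sum.inr p) *
          MvPolynomial.eval (fun k => z (Sum.inl (0, k))) (MvPolynomial.pderiv k (G p)) := by
      intro k
      have h4 := hz (Sum.inr (Sum.inr k))
      have h5 : MvPolynomial.eval z (nP D G j k) = 0 := h4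
      rw [eval_nP, sub_eq_zero] at h5
      exact h5
    rw [h2, Finset.sum_congr rfl fun k _ => by rw [h3 k, Finset.mul_sum], Finset.sum_comm]
    refine Finset.sum_eq_zero fun p _ => ?_
    have h6 := hw (G p) ⟨p, rfl⟩
    unfold dE at h6
    rw [Finset.sum_congr rfl fun k _ => show w k * (z (Sum.inr p) * _) = z (Sum.inr p) *
      (MvPolynomial.eval (fun k => z (Sum.inl (0, k))) (MvPolynomial.pderiv k (G p)) * w k) by ring,
      ← Finset.mul_sum, h6, mul_zero]) hj
  have h7 : ∀ k, z (Sum.inl (2, k)) = a * z (Sum.inl (0, k)) := fun k => congrFun ha k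
  rw [h7, h7]
  ring

/-- the coefficients of a polynomial matrix lift -/
theorem exists_lift {R : Type*} [CommRing R] {i : R →+* ℂ} {p : MvPolynomial κ ℂ}
    (h : ∀ x ∈ p.coeffs, x ∈ range i) : ∃ q : MvPolynomial κ R, MvPolynomial.map i q = p :=
  MvPolynomial.mem_range_map_iff_coeffs_subset.2 h

open Classical in
/-- **transfer to all specialisations** -/
theorem transfer (hX : D.Exact) (h : D.Imp (range G)) :
    ∃ S : Finset ℂ, ∀ {R : Type} [CommRing R] {i : R →+* ℂ}, Function.Injective i →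
      (∀ x ∈ S, x ∈ range i) → ∃ (D' : FDat κ R) (G' : e → MvPolynomial κ R),
        D'.map i = D ∧ (∀ p, MvPolynomial.map i (G' p) = G p) ∧ D'.Exact ∧
        ∀ {L : Type} [Field L] (φ : R →+* L),
          (D'.map φ).Imp (range fun p => MvPolynomial.map φ (G' p)) := by
  let ca : ∀ i j, Ns_476.Cert (eqn G) (D.aP e i j) :=
    fun i j => (Ns_476.exists_cert (imp_agr h i j)).some
  let cc : ∀ j, Ns_476.Cert (eqn G) (D.TP e j) :=
    fun j => (Ns_476.exists_cert (imp_clo h j)).some
  let cd : ∀ j k l, Ns_476.Cert (eqd D G j) (hP ℂ e j k l) :=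
    fun j k l => (Ns_476.exists_cert (imp_nd h j k l)).some
  let S : Finset ℂ := (Finset.univ.biUnion fun i => Finset.univ.biUnion fun j => (ca i j).S) ∪
    (Finset.univ.biUnion fun j => (cc j).S) ∪
    (Finset.univ.biUnion fun j => Finset.univ.biUnion fun k => Finset.univ.biUnion fun l =>
      (cd j k l).S) ∪
    (Finset.univ.biUnion fun p => (G p).coeffs) ∪
    (Finset.univ.biUnion fun j => Finset.univ.biUnion fun k => Finset.univ.biUnion fun l =>
      (D.s j k l).coeffs)
  refine ⟨S, fun {R} _ {i} hi hS => ?_⟩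
  have hS1 : ∀ a b, ∀ x ∈ (ca a b).S, x ∈ range i := fun a b x hx => hS x (by
    simp only [S, Finset.mem_union, Finset.mem_biUnion, Finset.mem_univ, true_and]
    exact Or.inl (Or.inl (Or.inl (Or.inl ⟨a, b, hx⟩))))
  have hS2 : ∀ a, ∀ x ∈ (cc a).S, x ∈ range i := fun a x hx => hS x (by
    simp only [S, Finset.mem_union, Finset.mem_biUnion, Finset.mem_univ, true_and]
    exact Or.inl (Or.inl (Or.inl (Or.inr ⟨a, hx⟩))))
  have hS3 : ∀ a b c, ∀ x ∈ (cd a b c).S, x ∈ range i := fun a b c x hx => hS x (by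
    simp only [S, Finset.mem_union, Finset.mem_biUnion, Finset.mem_univ, true_and]
    exact Or.inl (Or.inl (Or.inr ⟨a, b, c, hx⟩)))
  have hS4 : ∀ p, ∀ x ∈ (G p).coeffs, x ∈ range i := fun p x hx => hS x (by
    simp only [S, Finset.mem_union, Finset.mem_biUnion, Finset.mem_univ, true_and]
    exact Or.inl (Or.inr ⟨p, hx⟩))
  have hS5 : ∀ a b c, ∀ x ∈ (D.s a b c).coeffs, x ∈ range i := fun a b c x hx => hS x (by
    simp only [S, Finset.mem_union, Finset.mem_biUnion, Finset.mem_univ, true_and]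
    exact Or.inr ⟨a, b, c, hx⟩)
  choose G' hG' using fun p => exists_lift (hS4 p)
  choose s' hs' using fun a b c => exists_lift (hS5 a b c)
  let D' : FDat κ R := ⟨D.m, fun j => Matrix.of fun k l => s' j k l⟩
  have hD' : D'.map i = D := by
    show (⟨D.m, fun j => (Matrix.of fun k l => s' j k l).map (MvPolynomial.map i)⟩ : FDat κ ℂ) = D
    have h1 : (fun j => (Matrix.of fun k l => s' j k l).map (MvPolynomial.map i)) = D.s := by
      funext j
      ext1 k l
      exact hs' j k l
    rw [h1]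
  have hG'' : (fun p => MvPolynomial.map i (G' p)) = G := funext hG'
  have hX' : D'.Exact := FDat.exact_of_injective hi (by rw [hD']; exact hX)
  refine ⟨D', G', hD', hG', hX', fun {L} _ φ => ?_⟩
  have hm : D'.m = D.m := rfl
  have key : ∀ (z : Vr κ e → L), (∀ a, MvPolynomial.eval z
      (eqn (fun p => MvPolynomial.map φ (G' p)) a) = 0) →
      ∀ a, MvPolynomial.eval₂ φ z (eqn G' a) = 0 := by
    intro z hz a
    rw [MvPolynomial.eval₂_eq_eval_map, map_eqn]
    exact hz a
  have hmap : ∀ a, MvPolynomial.map i (eqn G' a) = eqn G a := fun a => by rw [map_eqn, hG'']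
  refine ⟨fun x v w hOn hv hw a b => ?_, fun x u v w hOn hu hv hw j => ?_,
    fun x v j hOn hv hall hxj => ?_⟩
  · have h1 := (ca a b).trans hi (hS1 a b) hmap (h := D'.aP e a b)
      (by rw [FDat.map_aP, hD']) φ (pt4 x 0 v w 0) (key _ fun q => eval_eqn hOn (by
        intro p _
        unfold dE
        simp) hv hw q)
    rw [MvPolynomial.eval₂_eq_eval_map, FDat.map_aP, FDat.eval_aP, sub_eq_zero] at h1
    exact h1
  · have h1 := (cc j).trans hi (hS2 j) hmap (h := D'.TP e j)
      (by rw [FDat.map_TP, hD']) φ (pt4 x u v w 0) (key _ fun q => eval_eqn hOn hu hv hw q)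
    rw [MvPolynomial.eval₂_eq_eval_map, FDat.map_TP, FDat.eval_TP] at h1
    exact h1
  · -- duality
    let ev : e → Module.Dual L (κ → L) := fun p =>
      { toFun := fun t => dE (MvPolynomial.map φ (G' p)) x t
        map_add' := dE_add_right _ _
        map_smul' := fun a t => by rw [dE_smul_right]; rfl }
    let lv : Module.Dual L (κ → L) :=
      { toFun := fun t => (D'.map φ).b j x v t
        map_add' := FDat.b_add_right _ _ _ _
        map_smul' := fun a t => by rw [FDat.b_smul_right]; rfl }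
    have h1 : ⨅ p, LinearMap.ker (ev p) ≤ LinearMap.ker lv := by
      intro t ht
      rw [Submodule.mem_iInf] at ht
      refine hall t ?_
      rintro _ ⟨p, rfl⟩
      exact ht p
    have h2 := mem_span_of_iInf_ker_le_ker h1
    obtain ⟨y, hy⟩ := (Submodule.mem_span_range_iff_exists_fun _).1 h2
    have h3 : ∀ a : e ⊕ e ⊕ κ, MvPolynomial.eval (pt4 x 0 v 0 y)
        (eqd (D'.map φ) (fun p => MvPolynomial.map φ (G' p)) j a) = 0 := by
      intro a
      rcases a with p | p | k
      · exact (eval_on _ _).trans (hOn _ ⟨p, rfl⟩)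
      · exact (eval_tan _ _ _).trans (hv _ ⟨p, rfl⟩)
      · refine (eval_nP _ _ _ _ _).trans ?_
        have h4 := DFunLike.congr_fun hy (Pi.single k 1)
        have h5 : lv (Pi.single k 1) = ∑ l, MvPolynomial.eval x ((D'.map φ).s j l k) * v l := by
          show (D'.map φ).b j x v (Pi.single k 1) = _
          unfold FDat.b
          refine Finset.sum_congr rfl fun l _ => ?_
          rw [Finset.sum_eq_single k]
          · rw [Pi.single_eq_same, mul_one]
          · intro l' _ hl'
            rw [Pi.single_eq_of_ne hl', mul_zero, mul_zero]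
          · intro h
            exact absurd (Finset.mem_univ k) h
        have h6 : (∑ p, y p • ev p) (Pi.single k 1) = ∑ p, y p *
            MvPolynomial.eval x (MvPolynomial.pderiv k (MvPolynomial.map φ (G' p))) := by
          rw [LinearMap.sum_apply]
          refine Finset.sum_congr rfl fun p _ => ?_
          rw [LinearMap.smul_apply, smul_eq_mul]
          congr 1
          show dE (MvPolynomial.map φ (G' p)) x (Pi.single k 1) = _
          unfold dE
          rw [Finset.sum_eq_single k]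
          · rw [Pi.single_eq_same, mul_one]
          · intro l' _ hl'
            rw [Pi.single_eq_of_ne hl', mul_zero]
          · intro h
            exact absurd (Finset.mem_univ k) h
        rw [h5, h6] at h4
        rw [sub_eq_zero]
        exact h4.symm
    have h7 : ∀ k, x j * (x j * v k - x k * v j) = 0 := by
      intro k
      have h8 := (cd j j k).trans hi (hS3 j j k) (g := eqd D' G' j)
        (fun a => by rw [map_eqd, hD', hG'']) (h := hP R e j j k) (map_hP _ _ _ _) φ
        (pt4 x 0 v 0 y) (fun a => by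
          rw [MvPolynomial.eval₂_eq_eval_map, map_eqd]
          exact h3 a)
      rw [MvPolynomial.eval₂_eq_eval_map, map_hP, eval_hP] at h8
      exact h8
    refine ⟨v j / x j, ?_⟩
    funext k
    have h8 := (mul_eq_zero.1 (h7 k)).resolve_left hxj
    rw [Pi.smul_apply, smul_eq_mul]
    field_simp
    linear_combination h8

end Transfer

/-! ### the data of a symplectic form -/

section Main

variable {n : ℕ} {M : Type} [TopologicalSpace M] {A : Atl n M}
  [T2Space M] [ConnectedSpace M] [CompactSpace M] [Finite A.ι]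

/-- the polynomial data of a closed holomorphic symplectic form -/
theorem exists_fdat (PA : Part A) (hD : D2 A) (P : ProjD A) (σ : HSymp A)
    (hcl : Closed σ.toH2) :
    ∃ D : FDat (Fin (P.N + 1)) ℂ, D.Exact ∧
      (∀ j i, ∀ x ∈ (A.e i).source, sec P j i x ^ D.m • σ.s i x =
        (DF (fun k => sec P k) i x)ᵀ * evM (fun k => sec P k) (D.s j) i x *
          DF (fun k => sec P k) i x) ∧
      ∀ E : Set (MvPolynomial (Fin (P.N + 1)) ℂ), Eqs (fun k => sec P k) E → D.Imp E := by
  obtain ⟨m1, hm1⟩ := exists_form_proj PA hD P σ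
  let Q : ∀ j, PForm (fun k => sec P k) (m1 + 3) (pw (sec P j) (m1 + 3)) σ.toH2 :=
    fun j => (hm1 (m1 + 3) (by omega) (pw (sec P j) (m1 + 3)) (isHS_pw (isHS_sec P j) (m1 + 3))).some
  refine ⟨fdat Q, exact_fdat Q (by omega), fun j i x hx => ?_, fun E hE => ?_⟩
  · have h1 := (Q j).eq i x hx
    rw [pw_apply _ _ hx] at h1
    exact h1
  · exact imp_of (isHS_sec P) hE σ Q (by omega) hcl

end Main

end

end Crest.Agent.R281.AF_867
end

-- ▼ part R281/CA1_867
section

/-!
# R281 (S0424), CERT-ASM, part 1 (helper867): the certificate of an algebraic member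

* `CDat n N R`  : equations `G`, Kronecker data `κ` (488), exponent `m`, form data `D` (AF5), Bezout data
                  `U, V, d` over a ring `R`;
* `CDat.Ok`     : homogeneous equations, `Good` Kronecker data, cover identities (for `dG` and for the
                  linear forms `lam`), `U G + V G' = d`, exact form data, and the pointwise implications
                  for every ring homomorphism to a field;
* `CDat.Ok.map` : stable under every ring homomorphism;
* `exists_desc` : a certificate over `ℂ` descends to every subring containing a finite set.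
-/

set_option autoImplicit false

open MvPolynomial Set

namespace Crest.Agent.R281.CA_867

open Crest.Agent.R281.AF_867 Crest.Agent.R281.Kr_488

noncomputable section

variable {n N : ℕ}

/-- the data -/
structure CDat (n N : ℕ) (R : Type) [CommRing R] where
  r : ℕ
  G : Fin r → MvPolynomial (Fin (N + 1)) R
  q : ℕ
  κ : Fin q → KDat n N R
  m : ℕ
  D : FDat (Fin (N + 1)) R
  U : Fin q → Polynomial (MvPolynomial (Fin (n + 1)) R)
  V : Fin q → Polynomial (MvPolynomial (Fin (n + 1)) R)
  d : Fin q → MvPolynomial (Fin (n + 1)) R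

namespace CDat

variable {R S : Type} [CommRing R] [CommRing S]

/-- change of coefficients -/
def map (C : CDat n N R) (φ : R →+* S) : CDat n N S :=
  ⟨C.r, fun l => MvPolynomial.map φ (C.G l), C.q, fun a => (C.κ a).map φ, C.m, C.D.map φ,
    fun a => (C.U a).map (MvPolynomial.map φ), fun a => (C.V a).map (MvPolynomial.map φ),
    fun a => MvPolynomial.map φ (C.d a)⟩

/-- the properties -/
structure Ok (C : CDat n N R) : Prop where
  hom : ∀ l, ∃ d, (C.G l).IsHomogeneous d
  good : ∀ a, (C.κ a).Good (range C.G)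
  cov : ∀ i, (X i : MvPolynomial (Fin (N + 1)) R) ^ C.m ∈
    Ideal.span (range C.G ∪ range fun a => (C.κ a).dG)
  covl : ∀ a i, (X i : MvPolynomial (Fin (N + 1)) R) ^ C.m ∈
    Ideal.span (range C.G ∪ range fun j => lin ((C.κ a).lam j))
  bez : ∀ a, C.U a * (C.κ a).G + C.V a * Polynomial.derivative (C.κ a).G = Polynomial.C (C.d a)
  exact : C.D.Exact
  imp : ∀ {L : Type} [Field L] (φ : R →+* L),
    (C.D.map φ).Imp (range fun l => MvPolynomial.map φ (C.G l))

theorem range_map (C : CDat n N R) (φ : R →+* S) :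
    range (C.map φ).G = MvPolynomial.map φ '' range C.G := by
  show range (MvPolynomial.map φ ∘ C.G) = _
  exact range_comp _ _

theorem range_dG_map (C : CDat n N R) (φ : R →+* S) :
    (range fun a => ((C.map φ).κ a).dG) = MvPolynomial.map φ '' range fun a => (C.κ a).dG := by
  rw [← range_comp]
  exact congrArg range (funext fun a => KDat.dG_map φ (C.κ a))

theorem range_lin_map (C : CDat n N R) (φ : R →+* S) (a : Fin C.q) :
    (range fun j => lin (((C.map φ).κ a).lam j)) =
      MvPolynomial.map φ '' range fun j => lin ((C.κ a).lam j) := by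
  rw [← range_comp]
  exact congrArg range (funext fun j => (map_lin φ ((C.κ a).lam j)).symm)

/-- **stability** -/
theorem Ok.map {C : CDat n N R} (h : C.Ok) (φ : R →+* S) [Nontrivial S] : (C.map φ).Ok where
  hom l := by
    obtain ⟨d, hd⟩ := h.hom l
    exact ⟨d, hd.map φ⟩
  good a := by
    rw [range_map]
    exact KDat.Good.map φ (h.good a)
  cov i := by
    have h1 := Ideal.mem_map_of_mem (MvPolynomial.map φ) (h.cov i)
    rw [Ideal.map_span, image_union, ← range_map, ← range_dG_map, map_pow, map_X] at h1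
    exact h1
  covl := fun (a : Fin C.q) i => by
    have h1 := Ideal.mem_map_of_mem (MvPolynomial.map φ) (h.covl a i)
    rw [Ideal.map_span, image_union, ← range_map, ← range_lin_map, map_pow, map_X] at h1
    exact h1
  bez a := by
    have h1 := congrArg (Polynomial.map (MvPolynomial.map φ)) (h.bez a)
    rw [Polynomial.map_add, Polynomial.map_mul, Polynomial.map_mul, Polynomial.map_C,
      ← Polynomial.derivative_map] at h1
    exact h1
  exact := h.exact.map φ
  imp {L} _ ψ := by
    have h1 := h.imp (ψ.comp φ)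
    have h2 : ((C.map φ).D.map ψ) = C.D.map (ψ.comp φ) := by
      show (⟨_, _⟩ : FDat _ _) = ⟨_, _⟩
      congr 1
      funext j
      ext1 k l
      exact MvPolynomial.map_map φ ψ _
    have h3 : (fun l => MvPolynomial.map ψ ((C.map φ).G l)) =
        fun l => MvPolynomial.map (ψ.comp φ) (C.G l) := funext fun l => MvPolynomial.map_map φ ψ _
    rw [h2, h3]
    exact h1

/-- points with a nonzero coordinate are covered, over every field -/
theorem Ok.exists_dG {L : Type} [Field L] {C : CDat n N L} (h : C.Ok) {v : Fin (N + 1) → L}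
    (hv : v ≠ 0) (hG : ∀ l, eval v (C.G l) = 0) : ∃ a, eval v (C.κ a).dG ≠ 0 := by
  by_contra hcon
  push Not at hcon
  apply hv
  have h1 : Ideal.span (range C.G ∪ range fun a => (C.κ a).dG) ≤ RingHom.ker (eval v) := by
    rw [Ideal.span_le]
    rintro F (⟨l, rfl⟩ | ⟨a, rfl⟩)
    · exact hG l
    · exact hcon a
  funext i
  have h2 := h1 (h.cov i)
  rw [RingHom.mem_ker, map_pow, eval_X] at h2
  exact eq_zero_of_pow_eq_zero h2


theorem Ok.imp_id {L : Type} [Field L] {C : CDat n N L} (h : C.Ok) : C.D.Imp (range C.G) := by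
  have h1 := h.imp (RingHom.id L)
  have h2 : C.D.map (RingHom.id L) = C.D := by
    show (⟨_, _⟩ : FDat _ _) = C.D
    have h3 : (fun j => (C.D.s j).map (MvPolynomial.map (RingHom.id L))) = C.D.s := by
      funext j
      ext1 k l
      exact MvPolynomial.map_id _
    rw [h3]
  have h3 : (fun l => MvPolynomial.map (RingHom.id L) (C.G l)) = C.G :=
    funext fun l => MvPolynomial.map_id _
  rw [h2, h3] at h1
  exact h1

end CDat

/-- the input over `ℂ` -/
structure Pre (C : CDat n N ℂ) : Prop where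
  hom : ∀ l, ∃ d, (C.G l).IsHomogeneous d
  good : ∀ a, (C.κ a).Good (range C.G)
  cov : ∀ v : Fin (N + 1) → ℂ, v ≠ 0 → (∀ l, eval v (C.G l) = 0) → ∃ a, eval v (C.κ a).dG ≠ 0
  covl : ∀ a, ∀ v : Fin (N + 1) → ℂ, v ≠ 0 → (∀ l, eval v (C.G l) = 0) →
    ∃ j, lv ((C.κ a).lam j) v ≠ 0
  bez : ∀ a, C.U a * (C.κ a).G + C.V a * Polynomial.derivative (C.κ a).G = Polynomial.C (C.d a)
  exact : C.D.Exact
  imp : C.D.Imp (range C.G)

/-- the coefficients of a polynomial over a polynomial ring -/
def cfs {m : ℕ} (p : Polynomial (MvPolynomial (Fin m) ℂ)) : Set ℂ :=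
  {r | ∃ i α, r = (p.coeff i).coeff α}

theorem cfs_finite {m : ℕ} (p : Polynomial (MvPolynomial (Fin m) ℂ)) : (cfs p).Finite := by
  have h4 : ({0} ∪ ⋃ i ∈ p.support, (fun α => (p.coeff i).coeff α) ''
      ((p.coeff i).support : Set _)).Finite :=
    (Set.finite_singleton 0).union (p.support.finite_toSet.biUnion fun i _ =>
      (p.coeff i).support.finite_toSet.image _)
  refine h4.subset ?_
  rintro r ⟨i, α, rfl⟩
  by_cases hi : i ∈ p.support
  · by_cases hα : α ∈ (p.coeff i).support
    · exact Or.inr (Set.mem_biUnion hi ⟨α, hα, rfl⟩)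
    · exact Or.inl (MvPolynomial.notMem_support_iff.1 hα)
  · refine Or.inl ?_
    show (p.coeff i).coeff α = 0
    rw [Polynomial.notMem_support_iff.1 hi, MvPolynomial.coeff_zero]

open Classical in
/-- Nullstellensatz identities for the variables, over a subring -/
theorem exists_pow {ι : Type} [Fintype ι] {H : ι → MvPolynomial (Fin (N + 1)) ℂ}
    (hH : ∀ v : Fin (N + 1) → ℂ, v ≠ 0 → ∃ l, eval v (H l) ≠ 0) :
    ∃ (m : ℕ) (S : Finset ℂ), ∀ {R : Type} [CommRing R] {i : R →+* ℂ}, Function.Injective i →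
      (∀ x ∈ S, x ∈ range i) → ∀ H' : ι → MvPolynomial (Fin (N + 1)) R,
      (∀ l, MvPolynomial.map i (H' l) = H l) → ∀ m', m ≤ m' → ∀ k,
      (X k : MvPolynomial (Fin (N + 1)) R) ^ m' ∈ Ideal.span (range H') := by
  have hcov : ∀ k : Fin (N + 1), Ns_476.Imp H (X k) := by
    intro k y hy
    rw [eval_X]
    by_contra hk
    obtain ⟨a, ha⟩ := hH y (fun h0 => hk (by rw [h0]; rfl))
    exact ha (hy a)
  let ck : ∀ k, Ns_476.Cert H (X k) := fun k => (Ns_476.exists_cert (hcov k)).some
  refine ⟨∑ k, (ck k).N, Finset.univ.biUnion fun k => (ck k).S, ?_⟩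
  intro R _ i hi hS H' hH' m' hm' k
  have hSc : ∀ k, ∀ x ∈ (ck k).S, x ∈ range i := fun k x hx => hS x
    (Finset.mem_biUnion.2 ⟨k, Finset.mem_univ _, hx⟩)
  have hb : ∀ l, ∃ b : MvPolynomial (Fin (N + 1)) R, MvPolynomial.map i b = (ck k).a l :=
    fun l => mem_range_map_iff_coeffs_subset.2 fun x hx => hSc k x ((ck k).mem_S l hx)
  choose b hb using hb
  have h2 : (X k : MvPolynomial (Fin (N + 1)) R) ^ (ck k).N = ∑ l, b l * H' l := by
    apply MvPolynomial.map_injective i hi
    rw [map_pow, map_X, (ck k).eq, map_sum]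
    exact Finset.sum_congr rfl fun l _ => by rw [map_mul, hb, hH']
  have h3 : (ck k).N ≤ m' := le_trans (Finset.single_le_sum (f := fun k => (ck k).N)
    (fun _ _ => Nat.zero_le _) (Finset.mem_univ k)) hm'
  rw [← Nat.sub_add_cancel h3, pow_add, h2]
  exact Ideal.mul_mem_left _ _ (Ideal.sum_mem _ fun l _ => Ideal.mul_mem_left _ _
    (Ideal.subset_span ⟨l, rfl⟩))

open Classical in
/-- **descent to a subring** -/
theorem exists_desc {C : CDat n N ℂ} (h : Pre C) : ∃ (m : ℕ) (S : Finset ℂ),
    ∀ {R : Type} [CommRing R] {i : R →+* ℂ}, Function.Injective i → (∀ x ∈ S, x ∈ range i) →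
      ∃ C' : CDat n N R, C'.map i = { C with m := m } ∧ C'.Ok := by
  obtain ⟨S1, hS1⟩ := transfer h.exact h.imp
  obtain ⟨m1, S2, hS2⟩ := exists_pow (H := Sum.elim C.G fun a => (C.κ a).dG) (fun v hv => by
    by_contra hcon
    push Not at hcon
    obtain ⟨a, ha⟩ := h.cov v hv fun l => hcon (Sum.inl l)
    exact ha (hcon (Sum.inr a)))
  have hl : ∀ a, ∀ v : Fin (N + 1) → ℂ, v ≠ 0 → ∃ l, eval v
      ((Sum.elim C.G fun j => lin ((C.κ a).lam j) : Fin C.r ⊕ Fin (n + 1) → _) l) ≠ 0 := by
    intro a v hv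
    by_contra hcon
    push Not at hcon
    obtain ⟨j, hj⟩ := h.covl a v hv fun l => hcon (Sum.inl l)
    refine hj ?_
    rw [← eval_lin]
    exact hcon (Sum.inr j)
  choose ml Sl hSl using fun a => exists_pow (hl a)
  let S : Finset ℂ := S1 ∪ S2 ∪ (Finset.univ.biUnion fun a => Sl a) ∪
    (Finset.univ.biUnion fun a => (C.κ a).coeffs_finite.toFinset) ∪
    (Finset.univ.biUnion fun a => (cfs_finite (C.U a)).toFinset ∪
      (cfs_finite (C.V a)).toFinset ∪ (C.d a).coeffs)
  refine ⟨m1 + ∑ a, ml a, S, fun {R} _ {i} hi hS => ?_⟩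
  have hS1' : ∀ x ∈ S1, x ∈ range i := fun x hx => hS x (by
    simp only [S, Finset.mem_union]
    exact Or.inl (Or.inl (Or.inl (Or.inl hx))))
  have hS2' : ∀ x ∈ S2, x ∈ range i := fun x hx => hS x (by
    simp only [S, Finset.mem_union]
    exact Or.inl (Or.inl (Or.inl (Or.inr hx))))
  have hSl' : ∀ a, ∀ x ∈ Sl a, x ∈ range i := fun a x hx => hS x (by
    simp only [S, Finset.mem_union, Finset.mem_biUnion, Finset.mem_univ, true_and]
    exact Or.inl (Or.inl (Or.inr ⟨a, hx⟩)))
  have hSk : ∀ a, ∀ x ∈ (C.κ a).coeffs, x ∈ range i := fun a x hx => hS x (by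
    simp only [S, Finset.mem_union, Finset.mem_biUnion, Finset.mem_univ, true_and]
    exact Or.inl (Or.inr ⟨a, (Set.Finite.mem_toFinset _).2 hx⟩))
  have hSU : ∀ a, ∀ x ∈ cfs (C.U a), x ∈ range i := fun a x hx => hS x (by
    simp only [S, Finset.mem_union, Finset.mem_biUnion, Finset.mem_univ, true_and]
    exact Or.inr ⟨a, Or.inl (Or.inl ((Set.Finite.mem_toFinset _).2 hx))⟩)
  have hSV : ∀ a, ∀ x ∈ cfs (C.V a), x ∈ range i := fun a x hx => hS x (by
    simp only [S, Finset.mem_union, Finset.mem_biUnion, Finset.mem_univ, true_and]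
    exact Or.inr ⟨a, Or.inl (Or.inr ((Set.Finite.mem_toFinset _).2 hx))⟩)
  have hSd : ∀ a, ∀ x ∈ (C.d a).coeffs, x ∈ range i := fun a x hx => hS x (by
    simp only [S, Finset.mem_union, Finset.mem_biUnion, Finset.mem_univ, true_and]
    exact Or.inr ⟨a, Or.inr hx⟩)
  obtain ⟨D', G', hD', hG', hX', himp⟩ := hS1 hi hS1'
  have hmi : Function.Injective (MvPolynomial.map (σ := Fin (N + 1)) i) :=
    MvPolynomial.map_injective i hi
  have hpre : MvPolynomial.map i ⁻¹' range C.G = range G' := by
    ext p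
    constructor
    · rintro ⟨l, hl⟩
      exact ⟨l, hmi (by rw [hG', hl])⟩
    · rintro ⟨l, rfl⟩
      exact ⟨l, (hG' l).symm⟩
  have hκ : ∀ a, ∃ κ : KDat n N R, κ.map i = C.κ a ∧ κ.Good (range G') := by
    intro a
    obtain ⟨κ, h1, h2⟩ := KDat.descend i hi (C.κ a) (range C.G) (hSk a) (by
      rintro _ ⟨l, rfl⟩ α
      rw [← hG' l, coeff_map]
      exact ⟨_, rfl⟩) (h.good a)
    rw [hpre] at h2
    exact ⟨κ, h1, h2⟩
  choose κ' hκ' hg' using hκ
  choose U' hU' using fun a => poly_lift i (C.U a) fun k α => hSU a _ ⟨k, α, rfl⟩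
  choose V' hV' using fun a => poly_lift i (C.V a) fun k α => hSV a _ ⟨k, α, rfl⟩
  choose d' hd' using fun a => (mem_range_map_iff_coeffs_subset (f := i) (x := C.d a)).2 (hSd a)
  refine ⟨⟨C.r, G', C.q, κ', m1 + ∑ a, ml a, D', U', V', d'⟩, ?_, ?_⟩
  · show CDat.mk C.r (fun l => MvPolynomial.map i (G' l)) C.q (fun a => (κ' a).map i)
      (m1 + ∑ a, ml a) (D'.map i) (fun a => (U' a).map (MvPolynomial.map i))
      (fun a => (V' a).map (MvPolynomial.map i)) (fun a => MvPolynomial.map i (d' a)) =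
      CDat.mk C.r C.G C.q C.κ (m1 + ∑ a, ml a) C.D C.U C.V C.d
    rw [show (fun l => MvPolynomial.map i (G' l)) = C.G from funext hG',
      show (fun a => (κ' a).map i) = C.κ from funext hκ', hD',
      show (fun a => (U' a).map (MvPolynomial.map i)) = C.U from funext hU',
      show (fun a => (V' a).map (MvPolynomial.map i)) = C.V from funext hV',
      show (fun a => MvPolynomial.map i (d' a)) = C.d from funext hd']
  · refine ⟨fun l => ?_, hg', fun k => ?_, fun a k => ?_, fun a => ?_, hX', fun {L} _ φ => himp φ⟩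
    · obtain ⟨d, hd⟩ := h.hom l
      rw [← hG' l] at hd
      exact ⟨d, KDat.isHomogeneous_of_map i hi hd⟩
    · have h1 := hS2 hi hS2' (Sum.elim G' fun a => (κ' a).dG) (by
        rintro (l | a)
        · exact hG' l
        · show MvPolynomial.map i (κ' a).dG = (C.κ a).dG
          rw [← KDat.dG_map, hκ']) (m1 + ∑ a, ml a) (Nat.le_add_right _ _) k
      rwa [Sum.elim_range] at h1
    · have h1 := hSl a hi (hSl' a) (Sum.elim G' fun j => lin ((κ' a).lam j)) (by
        rintro (l | j)
        · exact hG' l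
        · show MvPolynomial.map i (lin ((κ' a).lam j)) = lin ((C.κ a).lam j)
          rw [map_lin, ← hκ' a]
          rfl) (m1 + ∑ a, ml a) (le_trans (Finset.single_le_sum (f := fun a => ml a)
            (fun _ _ => Nat.zero_le _) (Finset.mem_univ a)) (Nat.le_add_left _ _)) k
      rwa [Sum.elim_range] at h1
    · have hmi' : Function.Injective (MvPolynomial.map (σ := Fin (n + 1)) i) :=
        MvPolynomial.map_injective i hi
      apply Polynomial.map_injective _ hmi'
      have h1 := h.bez a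
      have h2 : (κ' a).G.map (MvPolynomial.map i) = (C.κ a).G := by
        rw [← hκ' a]
        rfl
      show Polynomial.map (MvPolynomial.map i) (U' a * (κ' a).G +
        V' a * Polynomial.derivative (κ' a).G) = Polynomial.map (MvPolynomial.map i)
          (Polynomial.C (d' a))
      rw [Polynomial.map_add, Polynomial.map_mul, Polynomial.map_mul, Polynomial.map_C,
        ← Polynomial.derivative_map, hU', hV', h2, hd']
      exact h1

theorem CDat.map_id {R : Type} [CommRing R] (C : CDat n N R) : C.map (RingHom.id R) = C := by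
  have h1 : (fun l => MvPolynomial.map (RingHom.id R) (C.G l)) = C.G :=
    funext fun l => MvPolynomial.map_id _
  have h2 : (fun a => (C.κ a).map (RingHom.id R)) = C.κ := by
    funext a
    have h4 : MvPolynomial.map (σ := Fin (n + 1)) (RingHom.id R) = RingHom.id _ := by
      ext1 <;> simp
    show (⟨_, _, _, _, _⟩ : KDat n N R) = C.κ a
    rw [h4]
    simp only [RingHom.id_apply, Polynomial.map_id]
  have h3 : C.D.map (RingHom.id R) = C.D := by
    show (⟨_, _⟩ : FDat _ _) = C.D
    have h3 : (fun j => (C.D.s j).map (MvPolynomial.map (RingHom.id R))) = C.D.s := by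
      funext j
      ext1 k l
      exact MvPolynomial.map_id _
    rw [h3]
  have h4 : MvPolynomial.map (σ := Fin (n + 1)) (RingHom.id R) = RingHom.id _ := by
    ext1 <;> simp
  show CDat.mk C.r (fun l => MvPolynomial.map (RingHom.id R) (C.G l)) C.q
    (fun a => (C.κ a).map (RingHom.id R)) C.m (C.D.map (RingHom.id R))
    (fun a => (C.U a).map (MvPolynomial.map (RingHom.id R)))
    (fun a => (C.V a).map (MvPolynomial.map (RingHom.id R)))
    (fun a => MvPolynomial.map (RingHom.id R) (C.d a)) = C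
  rw [h1, h2, h3, h4]
  simp only [Polynomial.map_id, RingHom.id_apply]

theorem CDat.map_map {R S T : Type} [CommRing R] [CommRing S] [CommRing T] (C : CDat n N R)
    (φ : R →+* S) (ψ : S →+* T) : (C.map φ).map ψ = C.map (ψ.comp φ) := by
  have h1 : (fun l => MvPolynomial.map ψ (MvPolynomial.map φ (C.G l))) =
      fun l => MvPolynomial.map (ψ.comp φ) (C.G l) := funext fun l => MvPolynomial.map_map _ _ _
  have h2 : (fun a => ((C.κ a).map φ).map ψ) = fun a => (C.κ a).map (ψ.comp φ) := by
    funext a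
    have h4 : MvPolynomial.map (σ := Fin (n + 1)) (ψ.comp φ) =
        (MvPolynomial.map ψ).comp (MvPolynomial.map φ) :=
      RingHom.ext fun p => (MvPolynomial.map_map φ ψ p).symm
    show (⟨_, _, _, _, _⟩ : KDat n N T) = ⟨_, _, _, _, _⟩
    rw [h4]
    simp only [KDat.map, Polynomial.map_map]
    rfl
  have h3 : (C.D.map φ).map ψ = C.D.map (ψ.comp φ) := by
    show (⟨_, _⟩ : FDat _ _) = ⟨_, _⟩
    congr 1
    funext j
    ext1 k l
    exact MvPolynomial.map_map φ ψ _
  have h4 : MvPolynomial.map (σ := Fin (n + 1)) (ψ.comp φ) =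
      (MvPolynomial.map ψ).comp (MvPolynomial.map φ) :=
    RingHom.ext fun p => (MvPolynomial.map_map φ ψ p).symm
  show CDat.mk C.r (fun l => MvPolynomial.map ψ (MvPolynomial.map φ (C.G l))) C.q
    (fun a => ((C.κ a).map φ).map ψ) C.m ((C.D.map φ).map ψ)
    (fun a => ((C.U a).map (MvPolynomial.map φ)).map (MvPolynomial.map ψ))
    (fun a => ((C.V a).map (MvPolynomial.map φ)).map (MvPolynomial.map ψ))
    (fun a => MvPolynomial.map ψ (MvPolynomial.map φ (C.d a))) = CDat.mk C.r
    (fun l => MvPolynomial.map (ψ.comp φ) (C.G l)) C.q (fun a => (C.κ a).map (ψ.comp φ)) C.m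
    (C.D.map (ψ.comp φ)) (fun a => (C.U a).map (MvPolynomial.map (ψ.comp φ)))
    (fun a => (C.V a).map (MvPolynomial.map (ψ.comp φ)))
    (fun a => MvPolynomial.map (ψ.comp φ) (C.d a))
  rw [h1, h2, h3, h4]
  simp only [Polynomial.map_map, RingHom.comp_apply]

end

end Crest.Agent.R281.CA_867
end

-- ▼ part R281/CA2_867
section

/-!
# R281 (S0424), CERT-ASM, part 2 (helper867): tangent spaces of the cone

For good Kronecker data `κ` of the homogeneous equations `E` over `ℂ` and a point `v` of the cone with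
`dG (v) ≠ 0`: the vectors killed by the derivatives of all equations are the kernel of `D Hv (v)`
(`tanE_iff`), and they form a space of dimension `n + 1` (`finrank_tanS`).
-/

set_option autoImplicit false

open MvPolynomial Set

namespace Crest.Agent.R281.CA_867

open Crest.Agent.R281.AF_867 Crest.Agent.R281.Kr_488

noncomputable section

variable {n N : ℕ}

section Chain

variable {κ τ K : Type*} [Fintype κ] [Fintype τ] [CommRing K]

/-- chain rule for polynomials -/
theorem dE_aeval (g : κ → MvPolynomial τ K) (F : MvPolynomial κ K) (v t : τ → K) :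
    dE (MvPolynomial.aeval g F) v t =
      dE F (fun k => eval v (g k)) fun k => dE (g k) v t := by
  induction F using MvPolynomial.induction_on with
  | C a =>
    rw [MvPolynomial.aeval_C, dE_C]
    exact dE_C a v t
  | add p q hp hq => rw [map_add, dE_add, dE_add, hp, hq]
  | mul_X p k hp =>
    have h1 : ∀ p : MvPolynomial κ K, eval v (MvPolynomial.aeval g p) =
        eval (fun k => eval v (g k)) p := by
      intro p
      have h : (eval v).comp (MvPolynomial.aeval (R := K) g).toRingHom =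
          eval fun k => eval v (g k) := by
        refine MvPolynomial.ringHom_ext ?_ ?_
        · intro r
          simp
        · intro j
          simp
      exact congrArg (fun f => f p) h
    rw [map_mul, aeval_X, dE_mul, dE_mul, hp, h1, eval_X, dE_X]

end Chain

/-- the space of the vectors killed by the derivatives of the equations -/
def TanS {κ L : Type*} [Fintype κ] [CommRing L] (E : Set (MvPolynomial κ L)) (x : κ → L) :
    Submodule L (κ → L) where
  carrier := {t | TanE E x t}
  add_mem' {s t} hs ht p hp := by rw [dE_add_right, hs p hp, ht p hp, add_zero]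
  zero_mem' p _ := by simp [dE]
  smul_mem' a t ht p hp := by rw [dE_smul_right, ht p hp, mul_zero]


/-- the equations of the chart -/
def Hq {R : Type*} [CommRing R] (κ : KDat n N R) (k : Fin (N + 1)) :
    MvPolynomial (Fin (N + 1)) R := X k * κ.dG - κ.sub (κ.Nm k)

theorem fderiv_Hv_eq (κ : KDat n N ℂ) (v t : Fin (N + 1) → ℂ) (k : Fin (N + 1)) :
    fderiv ℂ κ.Hv v t k = dE (Hq κ k) v t := by
  have h1 : HasFDerivAt κ.Hv (fderiv ℂ κ.Hv v) v := (differentiable_Hv κ v).hasFDerivAt
  have h2 : HasFDerivAt (fun w => κ.Hv w k)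
      ((ContinuousLinearMap.proj k).comp (fderiv ℂ κ.Hv v)) v :=
    (ContinuousLinearMap.proj (R := ℂ) (φ := fun _ : Fin (N + 1) => ℂ) k).hasFDerivAt.comp v h1
  have h3 := hasFDerivAt_ev (f := fun (l : Fin (N + 1)) (z : Fin (N + 1) → ℂ) => z l)
    (z0 := v) (fun l => (ContinuousLinearMap.proj (R := ℂ)
      (φ := fun _ : Fin (N + 1) => ℂ) l).hasFDerivAt) (Hq κ k)
  have h4 : (fun w => κ.Hv w k) = fun z : Fin (N + 1) → ℂ => eval (fun l => z l) (Hq κ k) := by
    funext w
    exact κ.Hv_eq w k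
  rw [h4] at h2
  have h5 := congrArg (fun T => T t) (h2.unique h3)
  have h6 : fderiv ℂ κ.Hv v t k =
      ((ContinuousLinearMap.proj (R := ℂ) (φ := fun _ : Fin (N + 1) => ℂ) k).comp
        (fderiv ℂ κ.Hv v)) t := rfl
  rw [h6, h5]
  simp only [_root_.sum_apply, _root_.smul_apply, ContinuousLinearMap.proj_apply, smul_eq_mul]
  rfl

variable {κ : KDat n N ℂ} {E : Set (MvPolynomial (Fin (N + 1)) ℂ)}

/-- `D · sub G = ∑ w_k H_k` -/
theorem sub_G_eq (h : κ.Good E) : MvPolynomial.C (κ.D : ℂ) * κ.sub κ.G =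
    ∑ k, MvPolynomial.C (κ.w k) * Hq κ k := by
  have h1 := congrArg κ.sub h.wN
  have hC : ∀ a : ℂ, κ.sub (Polynomial.C (MvPolynomial.C a)) = MvPolynomial.C a := by
    intro a
    simp [KDat.sub, KDat.subY]
  have hX : κ.sub Polynomial.X = lin κ.w := by simp [KDat.sub]
  rw [map_sum, map_sub, map_mul, map_mul, map_natCast, hX] at h1
  simp only [map_mul, hC] at h1
  have h2 : MvPolynomial.C (κ.D : ℂ) = (κ.D : MvPolynomial (Fin (N + 1)) ℂ) :=
    map_natCast MvPolynomial.C κ.D
  have h3 : ∑ k, MvPolynomial.C (κ.w k) * Hq κ k = lin κ.w * κ.sub (Polynomial.derivative κ.G) -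
      ∑ k, MvPolynomial.C (κ.w k) * κ.sub (κ.Nm k) := by
    unfold Hq lin
    rw [Finset.sum_mul, ← Finset.sum_sub_distrib]
    refine Finset.sum_congr rfl fun k _ => ?_
    rw [KDat.dG]
    ring
  rw [h3, h1, h2]
  ring

theorem tanE_of_Hq (h : κ.Good E) (hE : ∀ F ∈ E, ∃ d, F.IsHomogeneous d)
    {v : Fin (N + 1) → ℂ} (hv : OnE E v) (hd : eval v κ.dG ≠ 0) {t : Fin (N + 1) → ℂ}
    (ht : ∀ k, dE (Hq κ k) v t = 0) : TanE E v t := by
  intro F hF
  obtain ⟨d, hFd⟩ := hE F hF
  obtain ⟨Q, hQ⟩ := h.dvd F hF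
  have h0 : ∀ p : MvPolynomial (Fin (N + 1)) ℂ,
      κ.sub (MvPolynomial.aeval κ.Nm p) = MvPolynomial.aeval (fun k => κ.sub (κ.Nm k)) p := by
    intro p
    have h : κ.sub.comp (MvPolynomial.aeval (R := ℂ) κ.Nm).toRingHom =
        (MvPolynomial.aeval (R := ℂ) fun k => κ.sub (κ.Nm k)).toRingHom := by
      refine MvPolynomial.ringHom_ext ?_ ?_
      · intro r
        simp [KDat.sub, KDat.subY, Polynomial.algebraMap_apply]
      · intro j
        simp
    exact congrArg (fun f => f p) h
  have h1 : MvPolynomial.aeval (fun k => κ.sub (κ.Nm k)) F = κ.sub κ.G * κ.sub Q := by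
    rw [← h0, hQ, map_mul]
  have h2 := congrArg (fun p => dE p v t) h1
  simp only [dE_aeval, dE_mul] at h2
  -- values and derivatives of the numerators
  have hev : ∀ k, eval v (κ.sub (κ.Nm k)) = (eval v κ.dG • v) k := by
    intro k
    have h3 := hv _ (h.memN k)
    rw [map_sub, map_mul, eval_X] at h3
    rw [Pi.smul_apply, smul_eq_mul]
    linear_combination -h3
  have hdE : ∀ k, dE (κ.sub (κ.Nm k)) v t = (eval v κ.dG • t + dE κ.dG v t • v) k := by
    intro k
    have h3 := ht k
    unfold Hq at h3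
    rw [dE_sub, dE_mul, eval_X, dE_X] at h3
    rw [Pi.add_apply, Pi.smul_apply, Pi.smul_apply, smul_eq_mul, smul_eq_mul]
    linear_combination -h3
  have hG0 : eval v (κ.sub κ.G) = 0 := hv _ h.memG
  have hD : (κ.D : ℂ) ≠ 0 := Nat.cast_ne_zero.2 h.D_pos.ne'
  have hG1 : dE (κ.sub κ.G) v t = 0 := by
    have h3 := congrArg (fun p => dE p v t) (sub_G_eq h)
    simp only [dE_mul, dE_C, dE_sum, ht, mul_zero, add_zero, eval_C] at h3
    rw [Finset.sum_const_zero] at h3
    exact (mul_eq_zero.1 h3).resolve_left hD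
  rw [hG0, hG1, zero_mul, mul_zero, add_zero, funext hev, funext hdE, dE_add_right,
    dE_smul_right, dE_smul_right, dE_smul_left hFd, dE_smul_left hFd, dE_self hFd, hv F hF,
    mul_zero, mul_zero, mul_zero, add_zero] at h2
  exact ((mul_eq_zero.1 ((mul_eq_zero.1 h2).resolve_left hd)).resolve_left (pow_ne_zero _ hd))

/-- **the tangent vectors of the equations are those of the chart** -/
theorem tanE_iff (h : κ.Good E) (hE : ∀ F ∈ E, ∃ d, F.IsHomogeneous d)
    {v : Fin (N + 1) → ℂ} (hv : OnE E v) (hd : eval v κ.dG ≠ 0) {t : Fin (N + 1) → ℂ} :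
    TanE E v t ↔ fderiv ℂ κ.Hv v t = 0 := by
  constructor
  · intro ht
    funext k
    rw [fderiv_Hv_eq]
    exact ht _ (h.memN k)
  · intro ht
    refine tanE_of_Hq h hE hv hd fun k => ?_
    rw [← fderiv_Hv_eq, ht]
    rfl

/-- the linear forms, as a linear map -/
def lamL (κ : KDat n N ℂ) : (Fin (N + 1) → ℂ) →ₗ[ℂ] (Fin (n + 1) → ℂ) :=
  LinearMap.pi fun j => (lvL (κ.lam j) : (Fin (N + 1) → ℂ) →ₗ[ℂ] ℂ)

theorem lamL_apply (κ : KDat n N ℂ) (v : Fin (N + 1) → ℂ) (j : Fin (n + 1)) :
    lamL κ v j = lv (κ.lam j) v := rfl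

theorem lamL_surj (h : κ.Good E) : Function.Surjective (lamL κ) := by
  intro y
  obtain ⟨x, hx⟩ := KrB5_871.surj_TT h y
  refine ⟨fun k => x k, ?_⟩
  funext j
  rw [lamL_apply, ← KrB3_871.TT_apply, hx]

/-- **the tangent spaces have dimension `n + 1`**: coordinates -/
def tanEquiv (h : κ.Good E) (hE : ∀ F ∈ E, ∃ d, F.IsHomogeneous d)
    {v : Fin (N + 1) → ℂ} (hv : OnE E v) (hd : eval v κ.dG ≠ 0) :
    TanS E v ≃ₗ[ℂ] (Fin (n + 1) → ℂ) :=
  LinearEquiv.ofBijective ((lamL κ).comp (TanS E v).subtype) (by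
    constructor
    · rw [injective_iff_map_eq_zero]
      rintro ⟨t, ht⟩ h0
      have h1 : t ∈ kerL κ := by
        rw [mem_kerL]
        intro j
        exact congrFun h0 j
      exact Subtype.ext (h.fderiv_inj hd h1 ((tanE_iff h hE hv hd).1 ht))
    · intro y
      obtain ⟨t0, ht0⟩ := lamL_surj h y
      obtain ⟨a, ha, hab⟩ := h.fderiv_surj hd (h.fderiv_mem v t0)
      refine ⟨⟨t0 - a, (tanE_iff h hE hv hd).2 (by rw [map_sub, hab, sub_self])⟩, ?_⟩
      show lamL κ (t0 - a) = y
      rw [map_sub, ht0]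
      have h1 : lamL κ a = 0 := by
        funext j
        exact mem_kerL.1 ha j
      rw [h1, sub_zero])

theorem finrank_tanS (h : κ.Good E) (hE : ∀ F ∈ E, ∃ d, F.IsHomogeneous d)
    {v : Fin (N + 1) → ℂ} (hv : OnE E v) (hd : eval v κ.dG ≠ 0) :
    Module.finrank ℂ (TanS E v) = n + 1 := by
  rw [(tanEquiv h hE hv hd).finrank_eq, Module.finrank_fin_fun]

/-- **at every nonzero point of a member** -/
theorem CDat.Ok.finrank {C : CDat n N ℂ} (h : C.Ok) {v : Fin (N + 1) → ℂ} (hv : v ≠ 0)
    (hG : OnE (range C.G) v) : Module.finrank ℂ (TanS (range C.G) v) = n + 1 := by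
  obtain ⟨a, ha⟩ := h.exists_dG hv fun l => hG _ ⟨l, rfl⟩
  exact finrank_tanS (h.good a) (by
    rintro _ ⟨l, rfl⟩
    exact h.hom l) hG ha

end

end Crest.Agent.R281.CA_867
end

-- ▼ part R281/CA3_867

/-!
# R281 (S0424), CERT-ASM, part 3 (helper867): codes

* `RelOk k₀ c0 c'`  : `c'` satisfies all polynomial relations of `c0` over `k₀`;
* `evC c0 c'`       : the homomorphism `k₀[c0] → ℂ`, `c0 ↦ c'` (the inclusion if `¬ RelOk`);
* `analyticAt_evC`  : analytic dependence;
* `Code k₀ n N`     : certificate data whose coefficients are polynomials over `k₀` in a vector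
                      `c : Fin k → ℂ`; countable for countable `k₀`;
* `Code.Good K c`   : the identities of the certificate hold in `k₀[c]`;
* `Good.spec`, `Good.ok_of_rel`, `Good.mem_ok`.
-/

set_option autoImplicit false

open MvPolynomial Set Filter Topology

namespace Crest.Agent.R281.CA_867

open Crest.Agent.R281.AF_867 Crest.Agent.R281.Kr_488 Crest.Agent.R281.Ns_476

noncomputable section

section Ev

variable {k₀ : Type} [CommRing k₀] [Algebra k₀ ℂ] {α : Type}

/-- `c'` satisfies the relations of `c0` -/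
def RelOk (k₀ : Type) [CommRing k₀] [Algebra k₀ ℂ] {α : Type} (c0 c' : α → ℂ) : Prop :=
  ∀ r : MvPolynomial α k₀, aeval c0 r = 0 → aeval c' r = 0

theorem RelOk.refl (c0 : α → ℂ) : RelOk k₀ c0 c0 := fun _ h => h

theorem RelOk.trans {c0 c1 c2 : α → ℂ} (h : RelOk k₀ c0 c1) (h' : RelOk k₀ c1 c2) :
    RelOk k₀ c0 c2 := fun r hr => h' r (h r hr)





section An

variable {P : Type*} [NormedAddCommGroup P] [NormedSpace ℂ P]



end An

/-- `k₀[X] → k₀[c]` -/
def toRg (k₀ : Type) [CommRing k₀] [Algebra k₀ ℂ] {α : Type} (c : α → ℂ) :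
    MvPolynomial α k₀ →+* Rg k₀ c :=
  (aeval c : MvPolynomial α k₀ →ₐ[k₀] ℂ).rangeRestrict.toRingHom

theorem toRg_surjective (c : α → ℂ) : Function.Surjective (toRg k₀ c) :=
  AlgHom.rangeRestrict_surjective _


theorem val_comp_toRg (c : α → ℂ) : (Rg k₀ c).val.toRingHom.comp (toRg k₀ c) =
    (aeval c : MvPolynomial α k₀ →ₐ[k₀] ℂ).toRingHom := rfl


end Ev

/-! ### lifting data along a surjection -/

section Lift

variable {n N : ℕ} {R S : Type} [CommRing R] [CommRing S] {φ : R →+* S}

theorem mv_lift_surj (hφ : Function.Surjective φ) {σ : Type} :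
    Function.Surjective (MvPolynomial.map (σ := σ) φ) := MvPolynomial.map_surjective φ hφ

theorem poly_lift_surj (hφ : Function.Surjective φ) {m : ℕ} :
    Function.Surjective (Polynomial.map (MvPolynomial.map (σ := Fin m) φ)) :=
  Polynomial.map_surjective _ (mv_lift_surj hφ)

theorem CDat.exists_lift (hφ : Function.Surjective φ) (C : CDat n N S)
    (G : Fin C.r → MvPolynomial (Fin (N + 1)) R) (hG : ∀ l, MvPolynomial.map φ (G l) = C.G l) :
    ∃ (C' : CDat n N R) (hr : C'.r = C.r), C'.map φ = C ∧ ∀ l, C'.G l = G (Fin.cast hr l) := by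
  have hκ : ∀ a, ∃ κ : KDat n N R, κ.map φ = C.κ a := by
    intro a
    choose l hl using fun (j : Fin (n + 1)) (k : Fin (N + 1)) => hφ ((C.κ a).lam j k)
    choose w hw using fun (k : Fin (N + 1)) => hφ ((C.κ a).w k)
    obtain ⟨G', hG'⟩ := poly_lift_surj hφ (C.κ a).G
    choose Nm hNm using fun k => poly_lift_surj hφ ((C.κ a).Nm k)
    refine ⟨⟨l, w, (C.κ a).D, G', Nm⟩, ?_⟩
    show KDat.mk (fun j k => φ (l j k)) (fun k => φ (w k)) (C.κ a).D
      (G'.map (MvPolynomial.map φ)) (fun k => (Nm k).map (MvPolynomial.map φ)) = C.κ a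
    simp only [hl, hw, hG', hNm]
  choose κ hκ using hκ
  choose s hs using fun (j k l : Fin (N + 1)) => mv_lift_surj hφ (C.D.s j k l)
  choose U hU using fun a => poly_lift_surj hφ (C.U a)
  choose V hV using fun a => poly_lift_surj hφ (C.V a)
  choose d hd using fun a => mv_lift_surj hφ (C.d a)
  refine ⟨⟨C.r, G, C.q, κ, C.m, ⟨C.D.m, fun j => Matrix.of fun k l => s j k l⟩, U, V, d⟩, rfl, ?_,
    fun _ => rfl⟩
  have hD : FDat.map ⟨C.D.m, fun j => Matrix.of fun k l => s j k l⟩ φ = C.D := by
    show (⟨C.D.m, fun j => (Matrix.of fun k l => s j k l).map (MvPolynomial.map φ)⟩ :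
      FDat _ S) = C.D
    have h1 : (fun j => (Matrix.of fun k l => s j k l).map (MvPolynomial.map φ)) = C.D.s := by
      funext j
      ext1 k l
      exact hs j k l
    rw [h1]
  show CDat.mk C.r (fun l => MvPolynomial.map φ (G l)) C.q (fun a => (κ a).map φ) C.m
    (FDat.map ⟨C.D.m, fun j => Matrix.of fun k l => s j k l⟩ φ)
    (fun a => (U a).map (MvPolynomial.map φ)) (fun a => (V a).map (MvPolynomial.map φ))
    (fun a => MvPolynomial.map φ (d a)) = C
  simp only [hG, hκ, hD, hU, hV, hd]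

end Lift

/-! ### codes -/

/-- certificate data with coefficients `k₀[c]`, and a polynomial `rr` in `c` -/
structure Code (k₀ : Type) [CommRing k₀] (n N : ℕ) where
  k : ℕ
  Y : CDat n N (MvPolynomial (Fin k) k₀)
  rr : MvPolynomial (Fin k) k₀

namespace Code

variable {k₀ : Type} [CommRing k₀] [Algebra k₀ ℂ] {n N : ℕ}

/-- the data of the member `c` -/
def mem (K : Code k₀ n N) (c : Fin K.k → ℂ) : CDat n N ℂ :=
  K.Y.map (aeval c : MvPolynomial (Fin K.k) k₀ →ₐ[k₀] ℂ).toRingHom

/-- the data over `k₀[c]` -/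
def rg (K : Code k₀ n N) (c : Fin K.k → ℂ) : CDat n N (Rg k₀ c) := K.Y.map (toRg k₀ c)

theorem rg_map_val (K : Code k₀ n N) (c : Fin K.k → ℂ) :
    (K.rg c).map (Rg k₀ c).val.toRingHom = K.mem c := by
  unfold rg mem
  rw [CDat.map_map]
  rfl


/-- the identities hold for `c` -/
structure Good (K : Code k₀ n N) (c : Fin K.k → ℂ) : Prop where
  ok : (K.rg c).Ok
  ne : aeval c K.rr ≠ 0
  dvd : ∀ a, ∃ α, coeff α (K.Y.d a) ∣ K.rr

variable {K : Code k₀ n N} {c : Fin K.k → ℂ}

/-- **every member is a certificate** -/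
theorem Good.mem_ok (h : K.Good c) : (K.mem c).Ok := by
  rw [← K.rg_map_val c]
  exact h.ok.map _

theorem Good.d_ne (h : K.Good c) (a : Fin (K.mem c).q) : (K.mem c).d a ≠ 0 := by
  obtain ⟨α, p, hp⟩ := h.dvd a
  intro h0
  apply h.ne
  have h1 : coeff α ((K.mem c).d a) = aeval c (coeff α (K.Y.d a)) := coeff_map _ _ _
  rw [h0, coeff_zero] at h1
  rw [hp, map_mul, ← h1, zero_mul]

/-- **all specialisations**: `c'` in any `k₀`-algebra satisfying the relations of `c` -/
theorem Good.ok_of_rel (h : K.Good c) {L : Type} [CommRing L] [Nontrivial L] [Algebra k₀ L]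
    (c' : Fin K.k → L) (hrel : ∀ r : MvPolynomial (Fin K.k) k₀, aeval c r = 0 → aeval c' r = 0) :
    (K.Y.map (aeval c' : MvPolynomial (Fin K.k) k₀ →ₐ[k₀] L).toRingHom).Ok := by
  obtain ⟨φ, hφ⟩ := exists_hom c c' hrel
  have h1 : φ.toRingHom.comp (toRg k₀ c) =
      (aeval c' : MvPolynomial (Fin K.k) k₀ →ₐ[k₀] L).toRingHom := RingHom.ext fun r => hφ r
  rw [← h1, ← CDat.map_map]
  exact h.ok.map _

/-- **specialisation** -/
theorem Good.spec (h : K.Good c) {c' : Fin K.k → ℂ} (hrel : RelOk k₀ c c')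
    (hne : aeval c' K.rr ≠ 0) : K.Good c' := by
  refine ⟨?_, hne, h.dvd⟩
  have hval : ∀ r : MvPolynomial (Fin K.k) k₀,
      ((aeval (fun i => (⟨c' i, mem_Rg c' i⟩ : Rg k₀ c')) r : Rg k₀ c') : ℂ) = aeval c' r := by
    intro r
    have h1 := MvPolynomial.comp_aeval_apply (fun i => (⟨c' i, mem_Rg c' i⟩ : Rg k₀ c'))
      (Rg k₀ c').val r
    exact h1
  have h2 := h.ok_of_rel (fun i => (⟨c' i, mem_Rg c' i⟩ : Rg k₀ c')) (fun r hr => by
    apply Subtype.ext
    rw [hval, hrel r hr]
    rfl)
  have h3 : (aeval (fun i => (⟨c' i, mem_Rg c' i⟩ : Rg k₀ c')) :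
      MvPolynomial (Fin K.k) k₀ →ₐ[k₀] Rg k₀ c').toRingHom = toRg k₀ c' := by
    refine RingHom.ext fun r => Subtype.ext ?_
    exact hval r
  rw [h3] at h2
  exact h2

/-- the punctured cone of the member -/
def cone (K : Code k₀ n N) (c : Fin K.k → ℂ) : Set (EuclideanSpace ℂ (Fin (N + 1))) :=
  {v | v ≠ 0 ∧ OnE (range (K.mem c).G) fun i => v i}

/-- equations with coefficients in `k₀` are equations of every member -/
theorem mem_G_of_C {p : MvPolynomial (Fin (N + 1)) k₀}
    (hp : MvPolynomial.map (MvPolynomial.C : k₀ →+* MvPolynomial (Fin K.k) k₀) p ∈ range K.Y.G)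
    (c : Fin K.k → ℂ) : MvPolynomial.map (algebraMap k₀ ℂ) p ∈ range (K.mem c).G := by
  obtain ⟨l, hl⟩ := hp
  refine ⟨l, ?_⟩
  have h1 : (aeval c : MvPolynomial (Fin K.k) k₀ →ₐ[k₀] ℂ).toRingHom.comp
      (MvPolynomial.C : k₀ →+* MvPolynomial (Fin K.k) k₀) = algebraMap k₀ ℂ := by
    refine RingHom.ext fun a => ?_
    simp
  show MvPolynomial.map (aeval c : MvPolynomial (Fin K.k) k₀ →ₐ[k₀] ℂ).toRingHom (K.Y.G l) = _
  rw [hl, MvPolynomial.map_map, h1]

section Count

variable (k₀) [Countable k₀] (n N)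

theorem countable_kdat (R : Type) [CommRing R] [Countable R] : Countable (KDat n N R) := by
  have : Countable (MvPolynomial (Fin (n + 1)) R) := Sl_957.countable_mvPolynomial _ _
  have : Countable (Polynomial (MvPolynomial (Fin (n + 1)) R)) := Sl_957.countable_polynomial _
  let φ : KDat n N R → (Fin (n + 1) → Fin (N + 1) → R) × (Fin (N + 1) → R) × ℕ ×
    Polynomial (MvPolynomial (Fin (n + 1)) R) ×
      (Fin (N + 1) → Polynomial (MvPolynomial (Fin (n + 1)) R)) :=
    fun κ => (κ.lam, κ.w, κ.D, κ.G, κ.Nm)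
  have hφ : Function.Injective φ := by
    rintro ⟨a, b, c, d, e⟩ ⟨a', b', c', d', e'⟩ h
    simp only [φ, Prod.mk.injEq] at h
    obtain ⟨rfl, rfl, rfl, rfl, rfl⟩ := h
    rfl
  exact hφ.countable

theorem countable_fdat (R : Type) [CommRing R] [Countable R] : Countable (FDat (Fin (N + 1)) R) := by
  have : Countable (MvPolynomial (Fin (N + 1)) R) := Sl_957.countable_mvPolynomial _ _
  let φ : FDat (Fin (N + 1)) R → ℕ × (Fin (N + 1) → Fin (N + 1) → Fin (N + 1) →
    MvPolynomial (Fin (N + 1)) R) := fun D => (D.m, D.s)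
  have hφ : Function.Injective φ := by
    rintro ⟨a, b⟩ ⟨a', b'⟩ h
    cases h
    rfl
  exact hφ.countable

theorem countable_cdat (R : Type) [CommRing R] [Countable R] : Countable (CDat n N R) := by
  have := countable_kdat n N R
  have := countable_fdat N R
  have : Countable (MvPolynomial (Fin (N + 1)) R) := Sl_957.countable_mvPolynomial _ _
  have : Countable (MvPolynomial (Fin (n + 1)) R) := Sl_957.countable_mvPolynomial _ _
  have : Countable (Polynomial (MvPolynomial (Fin (n + 1)) R)) := Sl_957.countable_polynomial _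
  let φ : CDat n N R → Σ p : ℕ × ℕ, (Fin p.1 → MvPolynomial (Fin (N + 1)) R) ×
    (Fin p.2 → KDat n N R) × ℕ × FDat (Fin (N + 1)) R ×
    (Fin p.2 → Polynomial (MvPolynomial (Fin (n + 1)) R)) ×
    (Fin p.2 → Polynomial (MvPolynomial (Fin (n + 1)) R)) ×
    (Fin p.2 → MvPolynomial (Fin (n + 1)) R) :=
    fun C => ⟨(C.r, C.q), C.G, C.κ, C.m, C.D, C.U, C.V, C.d⟩
  have hφ : Function.Injective φ := by
    rintro ⟨a, b, c, d, e, f, g, h, i⟩ ⟨a', b', c', d', e', f', g', h', i'⟩ hh
    simp only [φ] at hh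
    cases hh
    rfl
  exact hφ.countable

instance countable_code : Countable (Code k₀ n N) := by
  have : ∀ k : ℕ, Countable (MvPolynomial (Fin k) k₀) := fun k =>
    Sl_957.countable_mvPolynomial _ _
  have : ∀ k : ℕ, Countable (CDat n N (MvPolynomial (Fin k) k₀)) := fun k =>
    countable_cdat n N _
  let φ : Code k₀ n N → Σ k : ℕ, CDat n N (MvPolynomial (Fin k) k₀) × MvPolynomial (Fin k) k₀ :=
    fun K => ⟨K.k, K.Y, K.rr⟩
  have hφ : Function.Injective φ := by
    rintro ⟨a, b, c⟩ ⟨a', b', c'⟩ h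
    simp only [φ] at h
    cases h
    rfl
  exact hφ.countable

end Count

end Code

end

end Crest.Agent.R281.CA_867
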