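import Crest.Agent.R281.Pe3_313
import Crest.Agent.R281.HkR9_835
import Crest.Agent.R281.Defs_273
import Crest.Agent.R281.Ehr4_268

-- ▼ part R281/Pe4_313
section

/-!
# R281 (S0424), FAM (helper313), part 4: from a projective embedding of a complex manifold to the
carrier of the members

* `cmp_refl`, `cmp_trans`  : compatibility of systems of real charts
* `ofProj`   : `Q : ProjD A` ⇒ `HEmb (ofAtl A) H`, `u i z = b⁻¹ (Q.F i ((A.e i).symm z))`
* `ofProj_cx`, `ofProj_holA` : complex tangent spaces; the atlas `A` is holomorphic for it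
* `ofProj_cone` : the cone
* `HolA.cx`     : conversely, a holomorphic atlas forces the tangent spaces to be complex
-/

set_option autoImplicit false
set_option linter.unusedSectionVars false

open Set Filter Topology Complex
open scoped ContDiff

namespace Crest.Agent.R281.Pe_313

open Crest.Agent.R275.Geo Crest.Agent.R275.Core144 Crest.Agent.R275.GC293
open Crest.Agent.R273.Defs_333 Crest.Agent.R273.Fam_835 Crest.Agent.R273.PB_835
open Crest.Agent.R273.Map_835
open Crest.Agent.R281.HkR_835 Crest.Agent.R281.Ehr2_268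

noncomputable section

section cmp

variable {V V' V'' X : Type} [NormedAddCommGroup V] [NormedSpace ℝ V] [NormedAddCommGroup V']
  [NormedSpace ℝ V'] [NormedAddCommGroup V''] [NormedSpace ℝ V''] [TopologicalSpace X]

theorem cmp_refl (C : RCh V X) : Cmp C C := ⟨fun i j => C.sm j i, fun i j => C.sm i j⟩

theorem mt_trans {C : RCh V X} {C' : RCh V' X} {C'' : RCh V'' X} (h : Cmp C C')
    (h' : Cmp C' C'') (i : C.ι) (j : C''.ι) : ContDiffOn ℝ ∞ (mt C C'' i j) (mov C C'' i j) := by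
  intro z hz
  obtain ⟨k, hk⟩ := C'.cover ((C''.e j).symm z)
  have hz1 : z ∈ mov C' C'' k j := ⟨hz.1, hk⟩
  have e1 : ContDiffAt ℝ ∞ (mt C' C'' k j) z :=
    (h'.s k j).contDiffAt ((Cmp.isOpen_mov C' C'' k j).mem_nhds hz1)
  have hz2 : mt C' C'' k j z ∈ mov C C' i k := by
    refine ⟨(C'.e k).map_source hk, ?_⟩
    show (C'.e k).symm (C'.e k ((C''.e j).symm z)) ∈ (C.e i).source
    rw [(C'.e k).left_inv hk]
    exact hz.2
  have e2 : ContDiffAt ℝ ∞ (mt C C' i k) (mt C' C'' k j z) :=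
    (h.s i k).contDiffAt ((Cmp.isOpen_mov C C' i k).mem_nhds hz2)
  have e3 : ContDiffAt ℝ ∞ (fun y => mt C C' i k (mt C' C'' k j y)) z :=
    ContDiffAt.comp (g := mt C C' i k) (f := mt C' C'' k j) z e2 e1
  refine (e3.congr_of_eventuallyEq ?_).contDiffWithinAt
  filter_upwards [(Cmp.isOpen_mov C' C'' k j).mem_nhds hz1] with y hy
  show C.e i ((C''.e j).symm y) = C.e i ((C'.e k).symm (C'.e k ((C''.e j).symm y)))
  rw [(C'.e k).left_inv hy.2]

theorem cmp_trans {C : RCh V X} {C' : RCh V' X} {C'' : RCh V'' X} (h : Cmp C C')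
    (h' : Cmp C' C'') : Cmp C C'' :=
  ⟨fun i j => mt_trans h h' i j, fun i j => mt_trans h'.symm h.symm j i⟩

end cmp

section conv

variable {X : Type} [TopologicalSpace X] {N : ℕ} {A : Atl N X}
variable {H : Type} [NormedAddCommGroup H] [NormedSpace ℂ H]

section

variable (Q : ProjD A)

theorem F_hol {a : A.ι} {z : Cn N} (hz : z ∈ (A.e a).target) :
    DifferentiableAt ℂ (fun z => Q.F a ((A.e a).symm z)) z := by
  refine differentiableAt_pi.2 fun k => ?_
  have h := Q.hol a k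
  exact (h z ⟨hz, mem_univ _⟩).differentiableAt
    (((A.e a).isOpen_inter_preimage_symm isOpen_univ).mem_nhds ⟨hz, mem_univ _⟩)

theorem F_cont {a : A.ι} {z : Cn N} (hz : z ∈ (A.e a).target) :
    ContDiffAt ℝ ∞ (fun z => Q.F a ((A.e a).symm z)) z :=
  contDiffAt_of_hol (A.e a).open_target (fun _ hy => (F_hol Q hy).differentiableWithinAt) hz

end

/-- homogeneous coordinates of the manifold from a projective embedding -/
def ofProj (Q : ProjD A) (b : H ≃L[ℂ] (Fin (Q.N + 1) → ℂ)) : HEmb (ofAtl A) H where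
  u a z := b.symm (Q.F a ((A.e a).symm z))
  sm a := fun z hz => by
    have h1 : ContDiff ℝ ∞ (fun w : Fin (Q.N + 1) → ℂ => b.symm w) :=
      ((b.symm : (Fin (Q.N + 1) → ℂ) →L[ℂ] H).restrictScalars ℝ).contDiff
    have h2 : ContDiffAt ℝ ∞ (fun z => b.symm (Q.F a ((A.e a).symm z))) z :=
      ContDiffAt.comp (g := fun w : Fin (Q.N + 1) → ℂ => b.symm w)
        (f := fun z => Q.F a ((A.e a).symm z)) z h1.contDiffAt (F_cont Q hz)
    exact h2.contDiffWithinAt
  ne a z hz h := by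
    have h1 : Q.F a ((A.e a).symm z) = 0 := by
      have := congrArg b h
      rwa [b.apply_symm_apply, map_zero] at this
    exact Q.ne a _ ((A.e a).map_target hz) h1
  tr a a' z hz := by
    obtain ⟨c, hc⟩ := Q.tr a a' ((A.e a).symm z) ⟨(A.e a).map_target hz.1, hz.2⟩
    refine ⟨c, ?_⟩
    have h1 : (A.e a').symm ((ofAtl A).t a a' z) = (A.e a).symm z := (A.e a').left_inv hz.2
    show b.symm (Q.F a ((A.e a).symm z)) = c • b.symm (Q.F a' ((A.e a').symm ((ofAtl A).t a a' z)))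
    rw [h1, hc, map_smul]
  inj a a' z hz z' hz' h := by
    obtain ⟨c, hc⟩ := h
    refine Q.inj a a' _ ((A.e a).map_target hz) _ ((A.e a').map_target hz') ⟨c, ?_⟩
    have := congrArg b hc
    rwa [map_smul, b.apply_symm_apply, b.apply_symm_apply] at this
  imm a z hz v h := by
    obtain ⟨c, hc⟩ := h
    have h1 : HasFDerivAt (fun z => b.symm (Q.F a ((A.e a).symm z)))
        (((b.symm : (Fin (Q.N + 1) → ℂ) →L[ℂ] H).comp
          (fderiv ℂ (fun z => Q.F a ((A.e a).symm z)) z)).restrictScalars ℝ) z := by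
      have h2 : HasFDerivAt (fun z => b.symm (Q.F a ((A.e a).symm z)))
          ((b.symm : (Fin (Q.N + 1) → ℂ) →L[ℂ] H).comp
            (fderiv ℂ (fun z => Q.F a ((A.e a).symm z)) z)) z :=
        b.symm.hasFDerivAt.comp z (F_hol Q hz).hasFDerivAt
      exact h2.restrictScalars ℝ
    rw [h1.fderiv] at hc
    refine Q.imm a z hz v ⟨c, ?_⟩
    have h3 : b.symm (fderiv ℂ (fun z => Q.F a ((A.e a).symm z)) z v) =
        c • b.symm (Q.F a ((A.e a).symm z)) := hc
    have h4 := congrArg b h3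
    rwa [map_smul, b.apply_symm_apply, b.apply_symm_apply] at h4

variable (Q : ProjD A) (b : H ≃L[ℂ] (Fin (Q.N + 1) → ℂ))

@[simp] theorem ofProj_u (a : A.ι) (z : Cn N) :
    (ofProj Q b).u a z = b.symm (Q.F a ((A.e a).symm z)) := rfl

theorem ofProj_fderiv {a : A.ι} {z : Cn N} (hz : z ∈ (A.e a).target) (v : Cn N) :
    fderiv ℝ ((ofProj Q b).u a) z v =
      b.symm (fderiv ℂ (fun z => Q.F a ((A.e a).symm z)) z v) := by
  have h2 : HasFDerivAt (fun z => b.symm (Q.F a ((A.e a).symm z)))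
      ((b.symm : (Fin (Q.N + 1) → ℂ) →L[ℂ] H).comp
        (fderiv ℂ (fun z => Q.F a ((A.e a).symm z)) z)) z :=
    b.symm.hasFDerivAt.comp z (F_hol Q hz).hasFDerivAt
  have h3 : fderiv ℝ ((ofProj Q b).u a) z = _ := (h2.restrictScalars ℝ).fderiv
  rw [h3]
  rfl


/-- the cone of the embedding -/
theorem ofProj_cone (w : H) : w ∈ (ofProj Q b).cone ↔
    ∃ a, ∃ x ∈ (A.e a).source, ∃ c : ℂ, c ≠ 0 ∧ b w = c • Q.F a x := by
  constructor
  · rintro ⟨a, z, hz, c, hc, rfl⟩
    refine ⟨a, (A.e a).symm z, (A.e a).map_target hz, c, hc, ?_⟩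
    rw [map_smul, ofProj_u, b.apply_symm_apply]
  · rintro ⟨a, x, hx, c, hc, h⟩
    refine ⟨a, A.e a x, (A.e a).map_source hx, c, hc, ?_⟩
    rw [ofProj_u, (A.e a).left_inv hx, ← map_smul, ← h, b.symm_apply_apply]

/-- affine coordinates of the embedding -/
theorem ofProj_nuX {a : A.ι} {x : X} (hx : x ∈ (A.e a).source) {k : Fin (Q.N + 1)}
    (hk : x ∈ OX (ofProj Q b) b k) :
    Q.F a x k ≠ 0 ∧ nuX (ofProj Q b) b k x = (Q.F a x k)⁻¹ • Q.F a x := by
  have h1 := (mem_OX (P := ofProj Q b) (b := b) (i := a) hx).1 hk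
  have h2 : b ((ofProj Q b).u a ((ofAtl A).e a x)) = Q.F a x := by
    show b (b.symm (Q.F a ((A.e a).symm (A.e a x)))) = Q.F a x
    rw [b.apply_symm_apply, (A.e a).left_inv hx]
  refine ⟨?_, ?_⟩
  · have h3 := h1.2
    rwa [h2] at h3
  · rw [nuX_eq (i := a) hx hk]
    show (b ((ofProj Q b).u a ((ofAtl A).e a x)) k)⁻¹ • b ((ofProj Q b).u a ((ofAtl A).e a x)) = _
    rw [h2]

/-- the atlas is holomorphic for the embedding -/
theorem ofProj_holA : HolA (ofProj Q b) b A where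
  cmp := cmp_refl _
  hol a k z hz hk := by
    have h1 : ∀ᶠ y in 𝓝 z, nuX (ofProj Q b) b k ((A.e a).symm y) =
        (Q.F a ((A.e a).symm y) k)⁻¹ • Q.F a ((A.e a).symm y) := by
      have h3 : ∀ᶠ z' in 𝓝 z, (A.e a).symm z' ∈ OX (ofProj Q b) b k :=
        ((A.e a).continuousAt_symm hz).preimage_mem_nhds ((isOpen_OX k).mem_nhds hk)
      filter_upwards [(A.e a).open_target.mem_nhds hz, h3] with y hy hk'
      exact (ofProj_nuX Q b ((A.e a).map_target hy) hk').2
    have h2 := F_hol Q hz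
    have h4 : Q.F a ((A.e a).symm z) k ≠ 0 := (ofProj_nuX Q b ((A.e a).map_target hz) hk).1
    have h5 : DifferentiableAt ℂ (fun y => (Q.F a ((A.e a).symm y) k)⁻¹ •
        Q.F a ((A.e a).symm y)) z :=
      ((differentiableAt_pi.1 h2 k).inv h4).smul h2
    exact h5.congr_of_eventuallyEq h1

end conv

section back

variable {V X : Type} [NormedAddCommGroup V] [NormedSpace ℝ V] [TopologicalSpace X]
variable {H : Type} [NormedAddCommGroup H] [NormedSpace ℂ H] {K N : ℕ}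
variable {C : RCh V X} {P : HEmb C H} {b : H ≃L[ℂ] (Fin (K + 1) → ℂ)} {A : Atl N X}

/-- derivative of `nu` in the chart `i` along a real vector, through the holomorphic atlas -/
theorem HolA.dnu (h : HolA P b A) {a : A.ι} {i : C.ι} {z : Cn N} (hz : z ∈ mov C (ofAtl A) i a)
    {k : Fin (K + 1)} (hk : (A.e a).symm z ∈ OX P b k) (v : Cn N) :
    fderiv ℝ (nu P b k i) (mt C (ofAtl A) i a z) (fderiv ℝ (mt C (ofAtl A) i a) z v) =
      fderiv ℂ (fun z => nuX P b k ((A.e a).symm z)) z v := by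
  have hd := h.hol a k z hz.1 hk
  have h2 : (fun z => nuX P b k ((A.e a).symm z)) =ᶠ[𝓝 z]
      fun z => nu P b k i (mt C (ofAtl A) i a z) := by
    have h3 : ∀ᶠ z' in 𝓝 z, (A.e a).symm z' ∈ OX P b k :=
      ((A.e a).continuousAt_symm hz.1).preimage_mem_nhds ((isOpen_OX k).mem_nhds hk)
    filter_upwards [(Cmp.isOpen_mov C (ofAtl A) i a).mem_nhds hz, h3] with z' hz' hk'
    exact h.nuX_mt hz' hk'
  have hzd : mt C (ofAtl A) i a z ∈ dm P b k i := (mem_OX hz.2).1 hk
  have h4 := HasFDerivAt.comp (g := nu P b k i) (f := mt C (ofAtl A) i a) z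
    (nu_diff hzd).hasFDerivAt (h.cmp.diff hz).hasFDerivAt
  have h5 : fderiv ℝ (fun z => nu P b k i (mt C (ofAtl A) i a z)) z = _ := h4.fderiv
  have h6 : fderiv ℝ (fun z => nuX P b k ((A.e a).symm z)) z v =
      fderiv ℂ (fun z => nuX P b k ((A.e a).symm z)) z v := by
    rw [hd.fderiv_restrictScalars ℝ]
    rfl
  rw [← h6, h2.fderiv_eq, h5]
  rfl

end back

end

end Crest.Agent.R281.Pe_313
end

-- ▼ part R281/Pe5_313
section

/-!
# R281 (S0424), FAM (helper313), part 5: types of forms and the complex atlas of a member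

`P : HEmb C H`, `HolA P b A`.  `IRel P i z v v'` : `v' = J v` for the complex structure of the
tangent spaces of the image, `i · Du(v) = Du(v') + c u`.

* `HolA.iRel`   : `J` corresponds to the multiplication by `i` in the charts of `A`
* `HolA.iRel_iff`
* `HolA.hsymp`  : `s₁ + i s₂` of type `(2,0)` for `P`, closed, nondegenerate ⇒ `HSymp A`,
                  `hsymp_w` (the value of the form)
* `HolA.k11`    : closed `(1,1)`-form for `P` ⇒ `K11 A`; `HolA.posDef`
-/

set_option autoImplicit false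
set_option linter.unusedSectionVars false

open Set Filter Topology Complex
open scoped ContDiff ComplexOrder

namespace Crest.Agent.R281.Pe_313

open Crest.Agent.R275.Geo Crest.Agent.R275.Core144 Crest.Agent.R275.GC293
open Crest.Agent.R273.Defs_333 Crest.Agent.R273.Fam_835 Crest.Agent.R273.PB_835
open Crest.Agent.R273.Map_835 Crest.Agent.R273.Kah_333
open Crest.Agent.R281.HkR_835 Crest.Agent.R281.Ehr2_268 Crest.Agent.R281.Defs_273

noncomputable section

variable {V X : Type} [NormedAddCommGroup V] [NormedSpace ℝ V] [TopologicalSpace X]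
variable {H : Type} [NormedAddCommGroup H] [NormedSpace ℂ H] {K N : ℕ}
variable {C : RCh V X}

/-- `v' = J v` for the complex structure of the tangent spaces of the image -/
def IRel (P : HEmb C H) (i : C.ι) (z : V) (v v' : V) : Prop :=
  ∃ c : ℂ, I • fderiv ℝ (P.u i) z v = fderiv ℝ (P.u i) z v' + c • P.u i z

theorem IRel.neg {P : HEmb C H} {i : C.ι} {z v v' : V} (h : IRel P i z v v') :
    IRel P i z v' (-v) := by
  obtain ⟨c, hc⟩ := h
  refine ⟨-(I * c), ?_⟩
  have h1 : fderiv ℝ (P.u i) z v' = I • fderiv ℝ (P.u i) z v - c • P.u i z := by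
    rw [hc, add_sub_cancel_right]
  rw [h1, smul_sub, smul_smul, I_mul_I, smul_smul, map_neg, neg_one_smul, neg_smul, sub_eq_add_neg]

theorem IRel.uniq {P : HEmb C H} {i : C.ι} {z v v' v'' : V} (hz : z ∈ (C.e i).target)
    (h : IRel P i z v v') (h' : IRel P i z v v'') : v' = v'' := by
  obtain ⟨c, hc⟩ := h
  obtain ⟨c', hc'⟩ := h'
  refine sub_eq_zero.1 (P.imm i z hz (v' - v'') ⟨c' - c, ?_⟩)
  rw [map_sub, sub_smul, sub_eq_sub_iff_add_eq_add, ← hc, add_comm, ← hc']

theorem exists_iRel {P : HEmb C H} (hcx : P.Cx) {i : C.ι} {z : V} (hz : z ∈ (C.e i).target)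
    (v : V) : ∃ v', IRel P i z v v' := by
  obtain ⟨w, a, h⟩ := hcx i z hz v
  exact ⟨w, a, h⟩

variable {P : HEmb C H} {b : H ≃L[ℂ] (Fin (K + 1) → ℂ)} {A : Atl N X}

theorem iRel_of_nu {i : C.ι} {z : V} {k : Fin (K + 1)} (hz : z ∈ dm P b k i) {v v' : V}
    (h : I • fderiv ℝ (nu P b k i) z v = fderiv ℝ (nu P b k i) z v') : IRel P i z v v' := by
  rw [fderiv_nu hz, fderiv_nu hz] at h
  set p : Fin (K + 1) → ℂ := b (fderiv ℝ (P.u i) z v) with hp
  set p' : Fin (K + 1) → ℂ := b (fderiv ℝ (P.u i) z v') with hp'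
  set w : Fin (K + 1) → ℂ := b (P.u i z) with hw
  refine ⟨(I * p k - p' k) * (w k)⁻¹, ?_⟩
  apply b.injective
  rw [map_add, map_smul, map_smul, ← hp, ← hp', ← hw]
  have h1 := congrArg (fun y => w k • y) h
  have hk : w k ≠ 0 := hz.2
  funext l
  have h2 := congrFun h1 l
  simp only [Pi.smul_apply, Pi.sub_apply, Pi.add_apply, smul_eq_mul] at h2 ⊢
  field_simp at h2 ⊢
  linear_combination h2

namespace HolA

variable (h : HolA P b A)
include h

theorem iRel {a : A.ι} {i : C.ι} {z : Cn N} (hz : z ∈ mov C (ofAtl A) i a) (v : Cn N) :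
    IRel P i (mt C (ofAtl A) i a z) (fderiv ℝ (mt C (ofAtl A) i a) z v)
      (fderiv ℝ (mt C (ofAtl A) i a) z (I • v)) := by
  obtain ⟨k, hk⟩ := exists_OX (P := P) (b := b) ((A.e a).symm z)
  have e1 : I • fderiv ℝ (nu P b k i) (mt C (ofAtl A) i a z)
      (fderiv ℝ (mt C (ofAtl A) i a) z v) = fderiv ℝ (nu P b k i) (mt C (ofAtl A) i a z)
        (fderiv ℝ (mt C (ofAtl A) i a) z (I • v)) := by
    rw [h.dnu hz hk, h.dnu hz hk, map_smul]
  exact iRel_of_nu (b := b) (k := k) (z := mt C (ofAtl A) i a z) ((mem_OX hz.2).1 hk) e1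

theorem iRel_iff {a : A.ι} {i : C.ι} {z : Cn N} (hz : z ∈ mov C (ofAtl A) i a) (v v' : Cn N) :
    IRel P i (mt C (ofAtl A) i a z) (fderiv ℝ (mt C (ofAtl A) i a) z v)
      (fderiv ℝ (mt C (ofAtl A) i a) z v') ↔ v' = I • v := by
  constructor
  · intro h1
    have h2 := IRel.uniq (Cmp.mt_mem hz).1 h1 (h.iRel hz v)
    exact Cmp.inj h.cmp hz h2
  · rintro rfl
    exact h.iRel hz v

/-- the derivative of the transition to a chart of `C` is onto -/
theorem exists_dmt {a : A.ι} {i : C.ι} {z : Cn N} (hz : z ∈ mov C (ofAtl A) i a) (v : V) :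
    ∃ w : Cn N, fderiv ℝ (mt C (ofAtl A) i a) z w = v :=
  ⟨_, Cmp.d_d' h.cmp hz v⟩

end HolA

/-- `s₁ + i s₂` is of type `(2,0)` for the embedding -/
def Typ (P : HEmb C H) (s₁ s₂ : F2 C) : Prop :=
  ∀ i, ∀ z ∈ (C.e i).target, ∀ v v' u : V, IRel P i z v v' → s₁.w i z v' u = -s₂.w i z v u

theorem Typ.snd {s₁ s₂ : F2 C} (ht : Typ P s₁ s₂) {i : C.ι} {z : V} (hz : z ∈ (C.e i).target)
    {v v' : V} (u : V) (hv : IRel P i z v v') : s₂.w i z v' u = s₁.w i z v u := by
  have h1 := ht i z hz v' (-v) u hv.neg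
  rw [map_neg, neg_apply] at h1
  linarith

/-- `w` is of type `(1,1)` for the embedding -/
def Typ11 (P : HEmb C H) (w : F2 C) : Prop :=
  ∀ i, ∀ z ∈ (C.e i).target, ∀ v v' u u' : V, IRel P i z v v' → IRel P i z u u' →
    w.w i z v' u' = w.w i z v u

/-- nondegenerate -/
def Nd (s : F2 C) : Prop := ∀ i, ∀ z ∈ (C.e i).target, ∀ v : V, (∀ u, s.w i z v u = 0) → v = 0

/-- `w` is positive on the complex lines: `w(v, Jv) > 0` -/
def Pos11 (P : HEmb C H) (w : F2 C) : Prop :=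
  ∀ i, ∀ z ∈ (C.e i).target, ∀ v v' : V, IRel P i z v v' → v ≠ 0 → 0 < w.w i z v v'

namespace HolA

variable (h : HolA P b A)

theorem typ_F {s₁ s₂ : F2 C} (ht : Typ P s₁ s₂) (a : A.ι) (z : Cn N) (hz : z ∈ (A.e a).target)
    (u v : Cn N) : (h.cmp.F s₁).w a z (I • u) v = -(h.cmp.F s₂).w a z u v := by
  obtain ⟨i, hi⟩ := C.cover ((A.e a).symm z)
  have hm : z ∈ mov C (ofAtl A) i a := ⟨hz, hi⟩
  rw [Cmp.F_w h.cmp s₁ hm, Cmp.F_w h.cmp s₂ hm]
  exact ht i _ (Cmp.mt_mem hm).1 _ _ _ (h.iRel hm u)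

theorem typ11_F {w : F2 C} (ht : Typ11 P w) (a : A.ι) (z : Cn N) (hz : z ∈ (A.e a).target)
    (u v : Cn N) : (h.cmp.F w).w a z (I • u) (I • v) = (h.cmp.F w).w a z u v := by
  obtain ⟨i, hi⟩ := C.cover ((A.e a).symm z)
  have hm : z ∈ mov C (ofAtl A) i a := ⟨hz, hi⟩
  rw [Cmp.F_w h.cmp w hm, Cmp.F_w h.cmp w hm]
  exact ht i _ (Cmp.mt_mem hm).1 _ _ _ _ (h.iRel hm u) (h.iRel hm v)

theorem pos11_F {w : F2 C} (ht : Pos11 P w) (a : A.ι) (z : Cn N) (hz : z ∈ (A.e a).target)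
    (u : Cn N) (hu : u ≠ 0) : 0 < (h.cmp.F w).w a z u (I • u) := by
  obtain ⟨i, hi⟩ := C.cover ((A.e a).symm z)
  have hm : z ∈ mov C (ofAtl A) i a := ⟨hz, hi⟩
  rw [Cmp.F_w h.cmp w hm]
  refine ht i _ (Cmp.mt_mem hm).1 _ _ (h.iRel hm u) fun h0 => hu ?_
  exact Cmp.inj h.cmp hm (by rw [h0, map_zero])

theorem nd_F {s : F2 C} (hs : Nd s) (a : A.ι) (z : Cn N) (hz : z ∈ (A.e a).target)
    (u : Cn N) (hu : ∀ v, (h.cmp.F s).w a z u v = 0) : u = 0 := by
  obtain ⟨i, hi⟩ := C.cover ((A.e a).symm z)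
  have hm : z ∈ mov C (ofAtl A) i a := ⟨hz, hi⟩
  have h1 : fderiv ℝ (mt C (ofAtl A) i a) z u = 0 := by
    refine hs i _ (Cmp.mt_mem hm).1 _ fun v => ?_
    obtain ⟨w, rfl⟩ := h.exists_dmt hm v
    have := hu w
    rwa [Cmp.F_w h.cmp s hm] at this
  exact Cmp.inj h.cmp hm (by rw [h1, map_zero])

/-- the holomorphic symplectic form of a member -/
def hsymp {s₁ s₂ : F2 C} (ht : Typ P s₁ s₂) (hnd : Nd s₁) : HSymp A where
  toH2 := h20 (h.cmp.F s₁) (h.cmp.F s₂) (h.typ_F ht)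
  nd a x hx h0 := by
    set z := A.e a x with hzdef
    have hz : z ∈ (A.e a).target := (A.e a).map_source hx
    have ht' := h.typ_F ht a z hz
    have h1 : (SB ((h.cmp.F s₁).w a z) ((h.cmp.F s₂).w a z)).det = 0 := h0
    obtain ⟨v, hv0, hv⟩ := Matrix.exists_vecMul_eq_zero_iff.2 h1
    refine hv0 ?_
    have h2 : ∀ u : Cn N, sw ((h.cmp.F s₁).w a z) ((h.cmp.F s₂).w a z)
        (WithLp.toLp 2 v : Cn N) u = 0 := by
      intro u
      rw [sw_eq ht' ((h.cmp.F s₁).alt a z hz) ((h.cmp.F s₂).alt a z hz)]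
      have h3 : sb (SB ((h.cmp.F s₁).w a z) ((h.cmp.F s₂).w a z)) (WithLp.toLp 2 v : Cn N) u =
          ∑ c, (Matrix.vecMul v (SB ((h.cmp.F s₁).w a z) ((h.cmp.F s₂).w a z))) c * u c := by
        simp only [sb, Matrix.vecMul, dotProduct, Finset.sum_mul]
        rw [Finset.sum_comm]
        refine Finset.sum_congr rfl fun c _ => Finset.sum_congr rfl fun d _ => ?_
        ring
      rw [h3, hv]
      simp
    have h4 : (WithLp.toLp 2 v : Cn N) = 0 := by
      refine h.nd_F hnd a z hz _ fun u => ?_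
      have h5 := h2 u
      rw [sw] at h5
      have h6 := congrArg Complex.re h5
      simpa using h6
    have h7 := congrArg (fun w : Cn N => (w : Fin N → ℂ)) h4
    simpa using h7

theorem hsymp_w {s₁ s₂ : F2 C} (ht : Typ P s₁ s₂) (hnd : Nd s₁) {a : A.ι} {z : Cn N}
    (hz : z ∈ (A.e a).target) (u v : Cn N) :
    ((h.cmp.F s₁).w a z u v : ℂ) + I * ((h.cmp.F s₂).w a z u v : ℂ) =
      sb ((h.hsymp ht hnd).s a ((A.e a).symm z)) u v := by
  have h1 := sw_eq (h.typ_F ht a z hz) ((h.cmp.F s₁).alt a z hz) ((h.cmp.F s₂).alt a z hz) u v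
  have h2 : (h.hsymp ht hnd).s a ((A.e a).symm z) =
      SB ((h.cmp.F s₁).w a z) ((h.cmp.F s₂).w a z) := by
    show SB ((h.cmp.F s₁).w a (A.e a ((A.e a).symm z)))
      ((h.cmp.F s₂).w a (A.e a ((A.e a).symm z))) = _
    rw [(A.e a).right_inv hz]
  rw [h2]
  exact h1

/-- the `(1,1)`-form of a member -/
def k11 {w : F2 C} (ht : Typ11 P w) : K11 A := (h.cmp.F w).k11 (h.typ11_F ht)


theorem k11_hb {w : F2 C} (ht : Typ11 P w) {a : A.ι} {x : X} (hx : x ∈ (A.e a).source)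
    (u v : Cn N) : hb ((h.k11 ht).g a x) u v =
      ((h.cmp.F w).w a (A.e a x) u (I • v) : ℂ) - I * ((h.cmp.F w).w a (A.e a x) u v : ℂ) :=
  (hw_eq (h.typ11_F ht a _ ((A.e a).map_source hx)) u v).symm

theorem k11_pos {w : F2 C} (ht : Typ11 P w) (hp : Pos11 P w) (a : A.ι) (x : X)
    (hx : x ∈ (A.e a).source) : ((h.k11 ht).g a x).PosDef := by
  refine Matrix.PosDef.of_dotProduct_mulVec_pos ((h.k11 ht).herm a x hx) fun y hy => ?_
  set v : Cn N := WithLp.toLp 2 (fun b => (starRingEnd ℂ) (y b)) with hv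
  have hz := (A.e a).map_source hx
  have h1 : star y ⬝ᵥ ((h.k11 ht).g a x).mulVec y = hb ((h.k11 ht).g a x) v v := by
    rw [hb_self]
    congr 2
    · funext b
      simp [hv]
    · funext b
      simp [hv]
  have hv0 : v ≠ 0 := by
    intro h0
    apply hy
    funext b
    have : v b = 0 := by rw [h0]; rfl
    simpa [hv] using this
  have h2 := h.k11_hb ht hx v v
  have h3 : (h.cmp.F w).w a (A.e a x) v v = 0 := by
    have := (h.cmp.F w).alt a _ hz v v
    linarith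
  rw [h1, h2, h3]
  have h4 := h.pos11_F hp a _ hz v hv0
  simp only [ofReal_zero, mul_zero, sub_zero]
  exact_mod_cast h4

/-- the Kaehler form of a member -/
def kah {w : F2 C} (ht : Typ11 P w) (hp : Pos11 P w) : Kah A := (h.k11 ht).kah (h.k11_pos ht hp)


end HolA

/-! ### the converse: forms on the manifold `(A, Q : ProjD A)` -/

section conv

variable (Q : ProjD A) (b' : H ≃L[ℂ] (Fin (Q.N + 1) → ℂ))




end conv

end

end Crest.Agent.R281.Pe_313
end

-- ▼ part R281/Pe6_313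

/-!
# R281 (S0424), FAM (helper313), part 6: the complex structure of an embedding and the triples

`C : RCh V X` the fixed real charts, `P : HEmb C' H₀` a member (`Cmp C C'`), `T : HkT C`.

* `CxOf P T`      : `T.J 0` is the complex structure of the embedding
* `CxOf.cp`       : `HolA P b A` ⇒ `Cp (T.acm 0) A`  (the atlas of the embedding is a holomorphic
                    atlas of `J 0`; no Newlander-Nirenberg)
* `cxOf_of_cp`    : `HolA P b A`, `Cp (T.acm 0) A` ⇒ `CxOf P T`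
* `CxOf.holA`     : `CxOf P T`, `Cp (T.acm 0) A` ⇒ `HolA P b A`
* `cxOf_ofProj`   : `Cp (T.acm 0) A`, `Q : ProjD A` ⇒ `CxOf (ofProj Q b) T`
* `CxOf.over`     : `CxOf` depends only on the map
* `typ_of_cxOf` .. : types of forms read with `T.J 0`
-/

set_option autoImplicit false
set_option linter.unusedSectionVars false

open Set Filter Topology Complex
open scoped ContDiff

namespace Crest.Agent.R281.Pe_313

open Crest.Agent.R275.Geo Crest.Agent.R275.Core144 Crest.Agent.R275.GC293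
open Crest.Agent.R273.Defs_333 Crest.Agent.R273.Fam_835 Crest.Agent.R273.PB_835
open Crest.Agent.R273.Map_835
open Crest.Agent.R260.ACM_580 Crest.Agent.R260.NNB_580
open Crest.Agent.R281.HkR_835 Crest.Agent.R281.Ehr2_268 Crest.Agent.R281.Defs_273

noncomputable section

section comp

variable {V V' V'' X : Type} [NormedAddCommGroup V] [NormedSpace ℝ V] [NormedAddCommGroup V']
  [NormedSpace ℝ V'] [NormedAddCommGroup V''] [NormedSpace ℝ V''] [TopologicalSpace X]
  {C : RCh V X} {C' : RCh V' X} {C'' : RCh V'' X}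

theorem mov_comp {i : C.ι} {j : C'.ι} {k : C''.ι} {z : V''} (h1 : z ∈ mov C C'' i k)
    (h2 : z ∈ mov C' C'' j k) : mt C' C'' j k z ∈ mov C C' i j := by
  refine ⟨(C'.e j).map_source h2.2, ?_⟩
  show (C'.e j).symm (C'.e j ((C''.e k).symm z)) ∈ (C.e i).source
  rw [(C'.e j).left_inv h2.2]
  exact h1.2

theorem mt_comp {i : C.ι} {j : C'.ι} {k : C''.ι} {z : V''} (h2 : z ∈ mov C' C'' j k) :
    mt C C' i j (mt C' C'' j k z) = mt C C'' i k z := by
  show C.e i ((C'.e j).symm (C'.e j ((C''.e k).symm z))) = C.e i ((C''.e k).symm z)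
  rw [(C'.e j).left_inv h2.2]

theorem dmt_comp (h : Cmp C C') (h' : Cmp C' C'') {i : C.ι} {j : C'.ι} {k : C''.ι} {z : V''}
    (h1 : z ∈ mov C C'' i k) (h2 : z ∈ mov C' C'' j k) (v : V'') :
    fderiv ℝ (mt C C' i j) (mt C' C'' j k z) (fderiv ℝ (mt C' C'' j k) z v) =
      fderiv ℝ (mt C C'' i k) z v := by
  have e1 : (fun y => mt C C' i j (mt C' C'' j k y)) =ᶠ[𝓝 z] mt C C'' i k := by
    filter_upwards [(Cmp.isOpen_mov C' C'' j k).mem_nhds h2] with y hy using mt_comp hy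
  have e2 := HasFDerivAt.comp (g := mt C C' i j) (f := mt C' C'' j k) z
    (h.diff (mov_comp h1 h2)).hasFDerivAt (h'.diff h2).hasFDerivAt
  have e3 : fderiv ℝ (fun y => mt C C' i j (mt C' C'' j k y)) z = _ := e2.fderiv
  rw [e1.fderiv_eq] at e3
  rw [e3]
  rfl

end comp

variable {V V' V₂ X : Type} [NormedAddCommGroup V] [NormedSpace ℝ V] [NormedAddCommGroup V']
  [NormedSpace ℝ V'] [NormedAddCommGroup V₂] [NormedSpace ℝ V₂] [TopologicalSpace X]
variable {H : Type} [NormedAddCommGroup H] [NormedSpace ℂ H] {K N : ℕ}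
variable {C : RCh V X} {C' : RCh V' X} {C₂ : RCh V₂ X}


/-- `T.J 0` is the complex structure of the tangent spaces of the image of the embedding -/
def CxOf (P : HEmb C' H) (T : HkT C) : Prop :=
  ∀ (i : C.ι) (j : C'.ι), ∀ z ∈ mov C' C j i, ∀ v : V,
    IRel P j (mt C' C j i z) (fderiv ℝ (mt C' C j i) z v)
      (fderiv ℝ (mt C' C j i) z (T.J 0 i z v))

variable {P : HEmb C' H} {T : HkT C} {b : H ≃L[ℂ] (Fin (K + 1) → ℂ)} {A : Atl N X}

/-- the tangent spaces are complex -/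
theorem CxOf.cx (hc : Cmp C C') (h : CxOf P T) : P.Cx := by
  intro j y hy v
  obtain ⟨i, hi⟩ := Cmp.exists_mov (C' := C') C hy
  -- the point in the chart of `C`
  have hz : mt C C' i j y ∈ mov C' C j i := Cmp.mt_mem hi
  obtain ⟨c, hc'⟩ := h i j _ hz (fderiv ℝ (mt C C' i j) y v)
  rw [Cmp.mt_mt hi, hc.d_d hi] at hc'
  exact ⟨_, c, hc'⟩

/-- the atlas of the embedding is a holomorphic atlas of `J 0` -/
theorem CxOf.cp (hc : Cmp C C') (h : CxOf P T) (hA : HolA P b A) : Cp (T.acm 0) A := by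
  intro a
  refine ⟨fun i => ?_, fun i => ?_, fun i z hz v => ?_⟩
  · exact (cmp_trans hc hA.cmp).s' i a
  · exact (cmp_trans hc hA.cmp).s i a
  · have hz : z ∈ mov (ofAtl A) C a i := hz
    obtain ⟨j, hj⟩ := C'.cover ((C.e i).symm z)
    have hzj : z ∈ mov C' C j i := ⟨hz.1, hj⟩
    have hy : mt (ofAtl A) C a i z ∈ mov C' (ofAtl A) j a := by
      refine ⟨((ofAtl A).e a).map_source hz.2, ?_⟩
      show ((ofAtl A).e a).symm ((ofAtl A).e a ((C.e i).symm z)) ∈ _
      rw [((ofAtl A).e a).left_inv hz.2]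
      exact hj
    have e1 := h i j z hzj v
    have hcA : Cmp (ofAtl A) C := (cmp_trans hc hA.cmp).symm
    have e2 := dmt_comp hA.cmp hcA hzj hz v
    have e3 := dmt_comp hA.cmp hcA hzj hz (T.J 0 i z v)
    have e4 : mt C' (ofAtl A) j a (mt (ofAtl A) C a i z) = mt C' C j i z := mt_comp hz
    rw [← e2, ← e3, ← e4] at e1
    exact (hA.iRel_iff hy _ _).1 e1

/-- conversely -/
theorem cxOf_of_cp (hc : Cmp C C') (hA : HolA P b A) (hp : Cp (T.acm 0) A) : CxOf P T := by
  intro i j z hz v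
  obtain ⟨a, ha⟩ := (ofAtl A).cover ((C.e i).symm z)
  have hza : z ∈ mov (ofAtl A) C a i := ⟨hz.1, ha⟩
  have hcA : Cmp (ofAtl A) C := (cmp_trans hc hA.cmp).symm
  have hy : mt (ofAtl A) C a i z ∈ mov C' (ofAtl A) j a := by
    refine ⟨((ofAtl A).e a).map_source hza.2, ?_⟩
    show ((ofAtl A).e a).symm ((ofAtl A).e a ((C.e i).symm z)) ∈ _
    rw [((ofAtl A).e a).left_inv hza.2]
    exact hz.2
  have e2 := dmt_comp hA.cmp hcA hz hza v
  have e3 := dmt_comp hA.cmp hcA hz hza (T.J 0 i z v)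
  have e4 : mt C' (ofAtl A) j a (mt (ofAtl A) C a i z) = mt C' C j i z := mt_comp hza
  rw [← e2, ← e3, ← e4]
  exact (hA.iRel_iff hy _ _).2 ((hp a).lin i z hza v)


/-- the embedding given by `Q : ProjD A`, `A` a holomorphic atlas of `J 0` -/
theorem cxOf_ofProj (hp : Cp (T.acm 0) A) (Q : ProjD A) (b : H ≃L[ℂ] (Fin (Q.N + 1) → ℂ)) :
    CxOf (ofProj Q b) T :=
  cxOf_of_cp (cmp_of_cp hp) (ofProj_holA Q b) hp

/-- existence of a finite good atlas of `J 0` in which the coordinates of the embedding are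
holomorphic -/
theorem CxOf.exists_atl [FiniteDimensional ℝ V'] [CompactSpace X] [T2Space X] (hc : Cmp C C')
    (h : CxOf P T) (hN : Module.finrank ℝ V' = 2 * N) (b : H ≃L[ℂ] (Fin (K + 1) → ℂ)) {κ : Type*}
    (O : κ → Set X) (hO : ∀ k, IsOpen (O k)) (hOc : ∀ x, ∃ k, x ∈ O k) :
    ∃ A : Atl N X, Finite A.ι ∧ GoodA A ∧ Nonempty (Part A) ∧ HolA P b A ∧ Cp (T.acm 0) A ∧
      (∀ a, ∃ k, (A.e a).source ⊆ O k) ∧ (∀ a, ∃ k, (A.e a).source ⊆ OX P b k) ∧
      (∀ a, ∃ i, (A.e a).source ⊆ (C'.e i).source) := by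
  obtain ⟨A, h1, h2, h3, h4, h5, h6, h7⟩ :=
    Pe_313.exists_atl (P := P) (h.cx hc) hN b O hO hOc
  exact ⟨A, h1, h2, h3, h4, h.cp hc h4, h5, h6, h7⟩

/-! ### `CxOf` depends only on the map to the projective space -/


end

end Crest.Agent.R281.Pe_313
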