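import Crest.Agent.R281.Ehr7_268
import Crest.Agent.R281.Phl1_655

/-!
# R281 (S0424), B4-EHR (helper268), part 8: basic forms on the cones give natural classes

* `pull_nat`        : naturality of `BF.pull` (655) under smooth maps over the identity of `P(H)`
* `BF.mono`         : restriction of a basic form to a smaller cone family
* `F.R q0`          : the cones over the target of the chart `F.e q0`
* `Mark.pf m`       : the transport of a marking as a `PFam` (655) over the ball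
* `Mark.cx`         : the members have complex tangent spaces (from local equations)
* `QBF F`           : basic forms on the cones of a `QFam`; `QBF.form`, `QBF.natF : NatF F C`
* `QBF.cls_s`       : the class along the transport is the class of `BF.pull` at the parameter
-/

set_option autoImplicit false
set_option maxSynthPendingDepth 5
set_option linter.unusedSectionVars false

open Set Filter Topology Complex
open scoped ContDiff

namespace Crest.Agent.R281.Ehr8_268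

open Crest.Agent.R281.HkR_835 Crest.Agent.R281.Ehr2_268 Crest.Agent.R281.Dif_268
open Crest.Agent.R281.Ehr4_268 Crest.Agent.R281.CL_473 Crest.Agent.R281.Ehr6_268
open Crest.Agent.R281.Cdr_234 Crest.Agent.R281.Ehr7_268 Crest.Agent.R281.Phl_655

noncomputable section

universe uq

section nat

variable {V₁ X₁ V₂ X₂ : Type} [NormedAddCommGroup V₁] [NormedSpace ℝ V₁] [TopologicalSpace X₁]
  [NormedAddCommGroup V₂] [NormedSpace ℝ V₂] [TopologicalSpace X₂]
  {E₁ E₂ H : Type} [NormedAddCommGroup E₁] [NormedSpace ℂ E₁] [NormedAddCommGroup E₂]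
  [NormedSpace ℂ E₂] [NormedAddCommGroup H] [NormedSpace ℂ H]
  {C₁ : RCh V₁ X₁} {C₂ : RCh V₂ X₂} {B₁ : Set E₁} {B₂ : Set E₂} {S₁ : Set (E₁ × H)}
  {S₂ : Set (E₂ × H)}

theorem vel_congr {c₁ : E₁} {c₂ : E₂} (h : ∀ w, (c₁, w) ∈ S₁ ↔ (c₂, w) ∈ S₂) {x v : H}
    (hv : Vel S₂ c₂ x v) : Vel S₁ c₁ x v := by
  obtain ⟨γ, h0, h1, h2⟩ := hv
  exact ⟨γ, h0, h1, h2.mono fun t ht => (h _).mpr ht⟩

/-- **naturality of the pull back of a basic form** -/
theorem pull_nat (σ₁ : BF S₁) (σ₂ : BF S₂) (F₁ : PFam C₁ H B₁) (F₂ : PFam C₂ H B₂)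
    (hS₁ : Cn S₁) (hS₂ : Cn S₂) (h₁ : F₁.In S₁) (h₂ : F₂.In S₂) {c₁ : E₁} (hc₁ : c₁ ∈ B₁)
    {c₂ : E₂} (hc₂ : c₂ ∈ B₂) (hfib : ∀ w, (c₁, w) ∈ S₁ ↔ (c₂, w) ∈ S₂)
    (hsg : ∀ x u v, Vel S₁ c₁ x u → Vel S₁ c₁ x v → σ₁.sg c₁ x u v = σ₂.sg c₂ x u v)
    (g : SMap C₁ C₂)
    (hg : ∀ i, ∀ z ∈ (C₁.e i).target, ∀ j, ∀ z' ∈ (C₂.e j).target,
      (C₂.e j).symm z' = g.f ((C₁.e i).symm z) → ∃ a : ℂ, a ≠ 0 ∧ F₁.u i c₁ z = a • F₂.u j c₂ z') :
    Eqv (g.pull (σ₂.pull F₂ hS₂ h₂ hc₂)) (σ₁.pull F₁ hS₁ h₁ hc₁) := by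
  intro i z hz u v
  obtain ⟨j, hj⟩ := g.exists_dom hz
  have hz' : loc C₂ C₁ g.f j i z ∈ (C₂.e j).target := g.loc_mem hj
  obtain ⟨U₁, hU₁⟩ := F₁.exists_lift (i := i) hc₁ hz
  obtain ⟨U₂, hU₂⟩ := F₂.exists_lift (i := j) hc₂ hz'
  rw [g.pull_w _ hj, BF.pull_w, BF.pull_w, pw_apply σ₂ hS₂ h₂ hc₂ hz' hU₂,
    pw_apply σ₁ hS₁ h₁ hc₁ hz hU₁]
  -- the two lifts as functions of `y`
  have hW : HasFDerivAt (fun y => U₂ (c₂, loc C₂ C₁ g.f j i y))
      ((dz U₂ (c₂, loc C₂ C₁ g.f j i z)).comp (fderiv ℝ (loc C₂ C₁ g.f j i) z)) z :=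
    HasFDerivAt.comp (f := loc C₂ C₁ g.f j i) (g := fun y => U₂ (c₂, y)) z
      (hasFDerivAt_dz hU₂.diff) (g.diff_loc hj).hasFDerivAt
  have hR : HasFDerivAt (fun y => U₁ (c₁, y)) (dz U₁ (c₁, z)) z := hasFDerivAt_dz hU₁.diff
  set W : V₁ → H := fun y => U₂ (c₂, loc C₂ C₁ g.f j i y) with hWd
  set R : V₁ → H := fun y => U₁ (c₁, y) with hRd
  have hW0 : W z ≠ 0 := hU₂.ne hc₂ hz'
  -- proportional near `z`
  have hprop : ∀ᶠ y in 𝓝 z, ∃ k : ℂ, k ≠ 0 ∧ R y = k • W y := by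
    have t1 : Tendsto (fun y : V₁ => (c₁, y)) (𝓝 z) (𝓝 (c₁, z)) :=
      Continuous.tendsto' (by fun_prop) _ _ rfl
    have t2 : Tendsto (fun y : V₁ => (c₂, loc C₂ C₁ g.f j i y)) (𝓝 z)
        (𝓝 (c₂, loc C₂ C₁ g.f j i z)) :=
      tendsto_const_nhds.prodMk_nhds (g.diff_loc hj).continuousAt
    filter_upwards [t1.eventually hU₁, t2.eventually hU₂, (g.isOpen_dom j i).mem_nhds hj] with
      y h3 h4 h5
    obtain ⟨-, ⟨a₁, ha₁, e₁⟩, -⟩ := h3
    obtain ⟨-, ⟨a₂, ha₂, e₂⟩, -⟩ := h4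
    obtain ⟨a, ha, e⟩ := hg i y h5.1 j (loc C₂ C₁ g.f j i y) (g.loc_mem h5) (g.symm_loc h5)
    refine ⟨a₁ * a * a₂⁻¹, mul_ne_zero (mul_ne_zero ha₁ ha) (inv_ne_zero ha₂), ?_⟩
    show U₁ (c₁, y) = _ • U₂ (c₂, loc C₂ C₁ g.f j i y)
    rw [e₁, e₂, smul_smul, inv_mul_cancel_right₀ ha₂, mul_smul, ← e]
  -- the scalar
  obtain ⟨f, -, hf⟩ := exists_dual_vector ℂ (W z) (norm_ne_zero_iff.mpr hW0)
  have hf0 : f (W z) ≠ 0 := by rw [hf]; simpa using hW0
  let fr : H →L[ℝ] ℂ := f.restrictScalars ℝ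
  have hfW : HasFDerivAt (fun y => f (W y)) (fr.comp ((dz U₂ (c₂, loc C₂ C₁ g.f j i z)).comp
      (fderiv ℝ (loc C₂ C₁ g.f j i) z))) z := fr.hasFDerivAt.comp z hW
  have hfR : HasFDerivAt (fun y => f (R y)) (fr.comp (dz U₁ (c₁, z))) z :=
    fr.hasFDerivAt.comp z hR
  have hl : DifferentiableAt ℝ (fun y => f (R y) * (f (W y))⁻¹) z :=
    hfR.differentiableAt.mul (hfW.differentiableAt.inv hf0)
  set l : V₁ → ℂ := fun y => f (R y) * (f (W y))⁻¹ with hld
  have hRl : ∀ᶠ y in 𝓝 z, R y = l y • W y := by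
    filter_upwards [hprop, hfW.continuousAt.eventually_ne hf0] with y hy hy0
    obtain ⟨k, hk, e⟩ := hy
    have h5 : l y = k := by
      show f (R y) * (f (W y))⁻¹ = k
      rw [e, map_smul, smul_eq_mul, mul_assoc, mul_inv_cancel₀ hy0, mul_one]
    rw [h5, e]
  have hl0 : l z ≠ 0 := by
    obtain ⟨k, hk, e⟩ := hprop.self_of_nhds
    have h5 : l z = k := by
      show f (R z) * (f (W z))⁻¹ = k
      rw [e, map_smul, smul_eq_mul, mul_assoc, mul_inv_cancel₀ hf0, mul_one]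
    rwa [h5]
  have hd : ∀ u, dz U₁ (c₁, z) u = l z • dz U₂ (c₂, loc C₂ C₁ g.f j i z)
      (fderiv ℝ (loc C₂ C₁ g.f j i) z u) + fderiv ℝ l z u • W z := by
    intro u
    have h6 := (hl.hasFDerivAt.smul hW)
    have h7 : R =ᶠ[𝓝 z] fun y => l y • W y := hRl
    have h8 := (h6.congr_of_eventuallyEq h7).unique hR
    rw [← h8]
    simp
  have hm₂ : (c₂, W z) ∈ S₂ := hU₂.mem hS₂ h₂ hc₂ hz'
  have hv₂ : ∀ u, Vel S₂ c₂ (W z) (dz U₂ (c₂, loc C₂ C₁ g.f j i z)
      (fderiv ℝ (loc C₂ C₁ g.f j i) z u)) := fun u => hU₂.vel hS₂ h₂ hc₂ hz' _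
  have hR0 : U₁ (c₁, z) = l z • W z := hRl.self_of_nhds
  rw [hd, hd, hR0, σ₁.bas c₁ (W z) ((hfib _).mpr hm₂) (l z) hl0 _ _ _ _
    (vel_congr hfib (hv₂ u)) (vel_congr hfib (hv₂ v)),
    hsg _ _ _ (vel_congr hfib (hv₂ u)) (vel_congr hfib (hv₂ v))]

end nat

section mono

variable {E H : Type} [NormedAddCommGroup E] [NormedSpace ℂ E] [NormedAddCommGroup H]
  [NormedSpace ℂ H] {S S' : Set (E × H)}

theorem vel_mono (h : S ⊆ S') {c : E} {x v : H} (hv : Vel S c x v) : Vel S' c x v := by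
  obtain ⟨γ, h0, h1, h2⟩ := hv
  exact ⟨γ, h0, h1, h2.mono fun t ht => h ht⟩

/-- restriction of a basic form -/
def _root_.Crest.Agent.R281.Phl_655.BF.mono (σ : BF S') (h : S ⊆ S') : BF S where
  sg := σ.sg
  loc c x hx := by
    obtain ⟨Sg, h1, h2⟩ := σ.loc c x (h hx)
    refine ⟨Sg, ?_, fun u v w hu hv hw => h2 u v w (vel_mono h hu) (vel_mono h hv)
      (vel_mono h hw)⟩
    filter_upwards [h1] with p hp
    exact ⟨hp.1, fun hpS => ⟨(hp.2 (h hpS)).1, fun u v hu hv =>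
      (hp.2 (h hpS)).2 u v (vel_mono h hu) (vel_mono h hv)⟩⟩
  bas c x hx a ha b b' u v hu hv := σ.bas c x (h hx) a ha b b' u v (vel_mono h hu) (vel_mono h hv)

end mono

/-! ### the markings -/

variable {Q : Type uq} [TopologicalSpace Q] {E H : Type} [NormedAddCommGroup E]
    [NormedSpace ℂ E] [NormedAddCommGroup H] [NormedSpace ℂ H] {V X : Type}
    [NormedAddCommGroup V] [NormedSpace ℝ V] [TopologicalSpace X]
    {F : QFam Q E H} {C : RCh V X}

/-- the cones over the target of the chart -/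
def _root_.Crest.Agent.R281.Ehr6_268.QFam.R (F : QFam Q E H) (q0 : Q) : Set (E × H) :=
  {p | p ∈ F.T q0 ∧ p.1 ∈ (F.e q0).target}

theorem _root_.Crest.Agent.R281.Ehr6_268.QFam.u_target (F : QFam Q E H) {q0 q : Q}
    (hq : q ∈ (F.e q0).source) : F.u q ∈ (F.e q0).target := by
  rw [← F.coe q0 q hq]
  exact (F.e q0).map_source hq

theorem _root_.Crest.Agent.R281.Ehr6_268.QFam.R_iff (F : QFam Q E H) {q0 q : Q}
    (hq : q ∈ (F.e q0).source) (w : H) : (F.u q, w) ∈ F.R q0 ↔ w ∈ F.S q := by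
  rw [← F.T_eq q0 q hq w]
  exact ⟨fun h => h.1, fun h => ⟨h, F.u_target hq⟩⟩

theorem _root_.Crest.Agent.R281.Ehr6_268.QFam.cn (F : QFam Q E H) (q0 : Q) : Cn (F.R q0) :=
  fun c x h a ha => ⟨(F.hM q0).cone (c, x) h.1 a ha, h.2⟩

theorem _root_.Crest.Agent.R281.Ehr6_268.Mark.coneS (m : Mark F C) (w : H) :
    (F.u m.q, w) ∈ F.T m.q ↔ w ∈ m.P.cone := (m.coneT w).symm

/-- the transport of a marking, as a family over the ball -/
def _root_.Crest.Agent.R281.Ehr6_268.Mark.pf (m : Mark F C) :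
    PFam m.C' H (Metric.ball (F.u m.q) (F.r m.q)) where
  op := Metric.isOpen_ball
  u := m.P.fam (F.Φ m.q)
  ne i c hc z hz := fam_ne m.P (F.hM m.q) m.coneS hc hz
  tr i j c hc z hz := by
    obtain ⟨a, -, h⟩ := fam_tr m.P (F.hM m.q) m.coneS hz
    exact ⟨a, h c hc⟩
  loc i c hc z hz := by
    refine ⟨fun p => m.P.fam (F.Φ m.q) i p.1 p.2, ?_⟩
    have h1 : ∀ᶠ p : E × V in 𝓝 (c, z),
        p ∈ Metric.ball (F.u m.q) (F.r m.q) ×ˢ (m.C'.e i).target :=
      (Metric.isOpen_ball.prod (m.C'.e i).open_target).mem_nhds ⟨hc, hz⟩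
    filter_upwards [h1] with p hp
    refine ⟨fam_contDiffAt m.P (F.hM m.q) m.coneS hp.1 hp.2
      ((m.P.sm i).contDiffAt ((m.C'.e i).open_target.mem_nhds hp.2)),
      ⟨1, one_ne_zero, (one_smul ℂ _).symm⟩, ?_⟩
    exact fam_holo m.P (F.hM m.q) m.coneS hp.1 hp.2


theorem pf_in (m : Mark F C) : m.pf.In (F.R m.q) := fun _ _ hc _ hz =>
  ⟨fam_mem m.P (F.hM m.q) m.coneS hc hz, F.ball_target m.q hc⟩

theorem pf_id (m : Mark F C) {i : m.C'.ι} {z : V} (hz : z ∈ (m.C'.e i).target) :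
    m.pf.u i (F.u m.q) z = m.P.u i z := fam_id m.P (F.hM m.q) m.coneS hz

/-- the members have complex tangent spaces -/
theorem _root_.Crest.Agent.R281.Ehr6_268.Mark.cx [FiniteDimensional ℂ H] [FiniteDimensional ℝ V]
    (m : Mark F C) {k : ℕ} (hk : Module.finrank ℝ V + 2 + 2 * k = 2 * Module.finrank ℂ H)
    (hloc : ∀ w, w ∈ F.S m.q → LocEq (F.T m.q) k (F.u m.q, w)) : m.P.Cx := fun _ _ hz v =>
  cx_of_locEq m.P (fun w => m.coneS w) hk hz (hloc _ ((m.cone _).mp (m.P.mem_cone hz))) v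

/-- basic forms on the cones of the family -/
structure QBF (F : QFam Q E H) where
  β : ∀ q0, BF (F.R q0)
  compat : ∀ q0, ∀ q ∈ (F.e q0).source, ∀ x u v, Vel (F.R q) (F.u q) x u →
    Vel (F.R q) (F.u q) x v → (β q0).sg (F.u q) x u v = (β q).sg (F.u q) x u v

/-- a basic form on a set containing all the cones -/
def QBF.const {S : Set (E × H)} (σ : BF S) (h : ∀ q0, F.R q0 ⊆ S) : QBF F where
  β q0 := σ.mono (h q0)
  compat _ _ _ _ _ _ _ _ := rfl

namespace QBF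

variable (b : QBF F)

/-- the pull back along the transport of the marking `m`, at the parameter `c` -/
def at' (m : Mark F C) {c : E} (hc : c ∈ Metric.ball (F.u m.q) (F.r m.q)) : F2 m.C' :=
  (b.β m.q).pull m.pf (F.cn m.q) (pf_in m) hc

/-- the form of a marking, on the chart system of the marking -/
def form' (m : Mark F C) : F2 m.C' := b.at' m (F.ball_of_mem (F.U_mem m.q))

/-- the form of a marking -/
def form (m : Mark F C) : F2 C := (SMap.ofCmp m.cmp.symm).pull (b.form' m)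

theorem form'_nat (m m' : Mark F C) (h : m.q = m'.q) (g : SMap m.C' m'.C')
    (hg : Over m.P m'.P g.f) : Eqv (g.pull (b.form' m')) (b.form' m) := by
  refine pull_nat (b.β m.q) (b.β m'.q) m.pf m'.pf (F.cn m.q) (F.cn m'.q) (pf_in m) (pf_in m')
    (F.ball_of_mem (F.U_mem m.q)) (F.ball_of_mem (F.U_mem m'.q)) ?_ ?_ g ?_
  · intro w
    rw [h]
  · intro x u v _ _
    rw [h]
  · intro i z hz j z' hz' he
    rw [pf_id m hz, pf_id m' hz']
    exact hg i z hz j z' hz' he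

/-- **the natural forms of the markings** -/
def natF (C : RCh V X) : NatF F C where
  w := b.form
  nat m m' h g hg := by
    let g' : SMap m.C' m'.C' := (SMap.ofCmp m'.cmp.symm).comp (g.comp (SMap.ofCmp m.cmp))
    have h1 : Eqv (g'.pull (b.form' m')) (b.form' m) := b.form'_nat m m' h g' hg
    have e : g'.comp (SMap.ofCmp m.cmp.symm) = (SMap.ofCmp m'.cmp.symm).comp g := SMap.ext' rfl
    have h2 : Eqv ((SMap.ofCmp m.cmp.symm).pull (g'.pull (b.form' m'))) (b.form m) := h1.pull _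
    have h3 := pull_comp g' (SMap.ofCmp m.cmp.symm) (b.form' m')
    rw [e] at h3
    have h4 := pull_comp (SMap.ofCmp m'.cmp.symm) g (b.form' m')
    exact ((h4.symm.trans h3).trans h2).coh

/-- the form of the transported marking -/
theorem form'_trIn (m : Mark F C) {q : Q} (hq : q ∈ F.U m.q) :
    Eqv (b.form' (m.trIn q hq)) (b.at' m (F.ball_of_mem hq)) := by
  have h1 : Eqv ((SMap.id m.C').pull (b.at' m (F.ball_of_mem hq))) (b.form' (m.trIn q hq)) := by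
    refine pull_nat (C₁ := m.C') (C₂ := m.C') (b.β q) (b.β m.q) (m.trIn q hq).pf m.pf (F.cn q)
      (F.cn m.q) (pf_in (m.trIn q hq)) (pf_in m) (F.ball_of_mem (F.U_mem q))
      (F.ball_of_mem hq) ?_ ?_ (SMap.id m.C') ?_
    · intro w
      show (F.u q, w) ∈ F.R q ↔ (F.u q, w) ∈ F.R m.q
      rw [F.R_iff (F.mem q), F.R_iff hq.1]
    · intro x u v hu hv
      exact (b.compat m.q q hq.1 x u v hu hv).symm
    · intro i z hz j z' hz' he
      obtain ⟨a, ha, e1⟩ := same_point (m.trIn q hq).P hz hz' he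
      refine ⟨a, ha, ?_⟩
      have e2 : (m.trIn q hq).pf.u i (F.u q) z = (m.trIn q hq).P.u i z :=
        pf_id (m.trIn q hq) hz
      exact e2.trans e1
  exact h1.symm.trans (pull_id _)

variable [FiniteDimensional ℝ V] [CompactSpace X] [T2Space X] [FiniteDimensional ℂ H]

theorem cls_mk (m : Mark F C) : (b.natF C).cls (MQ.mk m) = cl (b.form m) := rfl

theorem cls_smul (g : difG C ⧸ tG C) (x : MQ F C) :
    (b.natF C).cls (g • x) = rG C g ((b.natF C).cls x) := (b.natF C).cls_smul g x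

/-- **the class along the transport** -/
theorem cls_s (m : Mark F C) {q : Q} (hq : q ∈ F.U m.q) :
    (b.natF C).cls ((ls F C).s (MQ.mk m) q) =
      cl ((SMap.ofCmp m.cmp.symm).pull (b.at' m (F.ball_of_mem hq))) := by
  rw [NatF.cls_s _ m hq]
  exact cl_eq_iff.mpr ((b.form'_trIn m hq).pull (SMap.ofCmp m.cmp.symm)).coh

/-- a form whose pull back has constant class along the transports -/
theorem cls_s_const
    (hb : ∀ (m : Mark F C) {c c' : E} (hc : c ∈ Metric.ball (F.u m.q) (F.r m.q))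
      (hc' : c' ∈ Metric.ball (F.u m.q) (F.r m.q)), Coh (b.at' m hc) (b.at' m hc'))
    (x : MQ F C) (q : Q) (hq : q ∈ (ls F C).U ((ls F C).p x)) :
    (b.natF C).cls ((ls F C).s x q) = (b.natF C).cls x := by
  obtain ⟨m, rfl⟩ := MQ.exists_rep x
  have hq' : q ∈ F.U m.q := hq
  rw [b.cls_s m hq', cls_mk]
  exact cl_eq_iff.mpr ((hb m _ _).pull _)

end QBF

end

end Crest.Agent.R281.Ehr8_268
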