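import Crest.Agent.R281.KrB5_871
import Crest.Agent.R281.Ehr6_268

/-!
# R281, QFAM (helper871): constructor of `Ehr6_268.QFam` from a certificate

`Cert n N R` : homogeneous equations `E` over the coefficient ring `R`, Kronecker data (488) which are `Good`,
cover identity.  `Q` any space spread over a normed space `E0` by `u`, `ev q : R →+* ℂ` analytic functions
of `u` (`AnE`).  Output: `qfam : QFam Q E0 (EuclideanSpace ℂ (Fin (N + 1)))`.
-/

set_option autoImplicit false
set_option linter.unusedSectionVars false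

open Set Filter Topology

namespace Crest.Agent.R281.QF_871

open Crest.Agent.R281.Kr_488 Crest.Agent.R281.KrB1_871 Crest.Agent.R281.KrB4_871
  Crest.Agent.R281.KrB5_871

noncomputable section

/-- the certificate: a family of projective manifolds over `Spec R` -/
structure Cert (n N : ℕ) (R : Type*) [CommRing R] where
  /-- the equations -/
  E : Set (MvPolynomial (Fin (N + 1)) R)
  hom : ∀ F ∈ E, ∃ m, F.IsHomogeneous m
  ι : Type
  κ : ι → KDat n N R
  good : ∀ a, (κ a).Good E
  m : ℕ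
  cov : ∀ i, (MvPolynomial.X i : MvPolynomial (Fin (N + 1)) R) ^ m ∈
    Ideal.span (E ∪ Set.range fun a => (κ a).dG)

variable {n N : ℕ} {R : Type*} [CommRing R]

namespace Cert

/-- change of the coefficient ring -/
def map {S : Type*} [CommRing S] [Nontrivial S] (c : Cert n N R) (φ : R →+* S) : Cert n N S where
  E := MvPolynomial.map φ '' c.E
  hom := by
    rintro _ ⟨F, hF, rfl⟩
    obtain ⟨m, hm⟩ := c.hom F hF
    exact ⟨m, hm.map φ⟩
  ι := c.ι
  κ := fun a => mapK (c.κ a) φ
  good := fun a => KrB1_871.Good.map (c.good a) φ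
  m := c.m
  cov := fun i => by
    have h1 := Ideal.mem_map_of_mem (MvPolynomial.map φ) (c.cov i)
    rw [map_pow, MvPolynomial.map_X, Ideal.map_span] at h1
    refine Ideal.span_mono ?_ h1
    rintro _ ⟨F, hF | ⟨a, rfl⟩, rfl⟩
    · exact Or.inl ⟨F, hF, rfl⟩
    · exact Or.inr ⟨a, dG_map (c.κ a) φ⟩

/-- the punctured cone of the member with coefficients `φ` -/
def cone (c : Cert n N R) (φ : R →+* ℂ) : Set (EuclideanSpace ℂ (Fin (N + 1))) :=
  {w | w ≠ 0 ∧ ∀ F ∈ c.E, MvPolynomial.eval (fun i => w i) (MvPolynomial.map φ F) = 0}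

theorem mem_cone {c : Cert n N R} {φ : R →+* ℂ} {w : EuclideanSpace ℂ (Fin (N + 1))} :
    w ∈ c.cone φ ↔ w ≠ 0 ∧ ∀ F ∈ c.E, MvPolynomial.eval (fun i => w i) (MvPolynomial.map φ F) = 0 :=
  Iff.rfl


variable {P : Type*}

theorem mem_KC {c : Cert n N R} {ev : P → (R →+* ℂ)} {p : P} {w : EuclideanSpace ℂ (Fin (N + 1))} :
    (p, w) ∈ KC ev c.E ↔ w ∈ c.cone (ev p) := Iff.rfl

variable [NormedAddCommGroup P] [NormedSpace ℂ P] {ev : P → (R →+* ℂ)} {p0 : P}

theorem fam (c : Cert n N R) (han : ∀ r, AnalyticAt ℂ (fun p => ev p r) p0) :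
    Eh3_461.Fam (KC ev c.E) p0 := fam_of_cover c.good c.hom c.cov han

end Cert

universe uq

variable {Q : Type uq} [TopologicalSpace Q] {E0 : Type} [NormedAddCommGroup E0] [NormedSpace ℂ E0]

/-- `g` is an analytic function of `u` near every point -/
def AnE (u : Q → E0) (g : Q → ℂ) : Prop :=
  ∀ q, ∃ φ : E0 → ℂ, AnalyticAt ℂ φ (u q) ∧ g =ᶠ[𝓝 q] φ ∘ u

/-- local inverse of a local homeomorphism -/
def locE {u : Q → E0} (hu : IsLocalHomeomorph u) (q : Q) : OpenPartialHomeomorph Q E0 :=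
  Classical.choose (hu q)

theorem mem_locE {u : Q → E0} (hu : IsLocalHomeomorph u) (q : Q) : q ∈ (locE hu q).source :=
  (Classical.choose_spec (hu q)).1

theorem coe_locE {u : Q → E0} (hu : IsLocalHomeomorph u) (q0 q : Q) : locE hu q0 q = u q :=
  (congrFun (Classical.choose_spec (hu q0)).2 q).symm

theorem u_mem_target {u : Q → E0} (hu : IsLocalHomeomorph u) {q0 q : Q}
    (hq : q ∈ (locE hu q0).source) : u q ∈ (locE hu q0).target := by
  have h1 := (locE hu q0).map_source hq
  rwa [coe_locE] at h1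

theorem symm_u {u : Q → E0} (hu : IsLocalHomeomorph u) {q0 q : Q}
    (hq : q ∈ (locE hu q0).source) : (locE hu q0).symm (u q) = q := by
  have h1 := (locE hu q0).left_inv hq
  rwa [coe_locE] at h1

theorem u_symm {u : Q → E0} (hu : IsLocalHomeomorph u) {q0 : Q} {p : E0}
    (hp : p ∈ (locE hu q0).target) : u ((locE hu q0).symm p) = p := by
  have h1 := (locE hu q0).right_inv hp
  rwa [coe_locE] at h1

open Classical in
/-- the coefficients as functions of the coordinate -/
def evL {u : Q → E0} (hu : IsLocalHomeomorph u) (ev : Q → (R →+* ℂ)) (q0 : Q) (p : E0) : R →+* ℂ :=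
  if p ∈ (locE hu q0).target then ev ((locE hu q0).symm p) else ev q0

theorem evL_u {u : Q → E0} (hu : IsLocalHomeomorph u) (ev : Q → (R →+* ℂ)) (q0 : Q) {q : Q}
    (hq : q ∈ (locE hu q0).source) : evL hu ev q0 (u q) = ev q := by
  rw [evL, if_pos (u_mem_target hu hq), symm_u hu hq]

theorem analyticAt_evL {u : Q → E0} (hu : IsLocalHomeomorph u) {ev : Q → (R →+* ℂ)} {r : R}
    (han : AnE u fun q => ev q r) (q0 : Q) : AnalyticAt ℂ (fun p => evL hu ev q0 p r) (u q0) := by
  obtain ⟨φ, h1, h2⟩ := han q0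
  refine h1.congr ?_
  have ht : (locE hu q0).target ∈ 𝓝 (u q0) :=
    (locE hu q0).open_target.mem_nhds (u_mem_target hu (mem_locE hu q0))
  have h4 : Tendsto (locE hu q0).symm (𝓝 (u q0)) (𝓝 q0) := by
    have h5 := (locE hu q0).tendsto_symm (mem_locE hu q0)
    rwa [coe_locE] at h5
  filter_upwards [ht, h4.eventually h2] with p hp hp2
  show φ p = evL hu ev q0 p r
  have h8 : ev ((locE hu q0).symm p) r = φ (u ((locE hu q0).symm p)) := hp2
  rw [evL, if_pos hp, h8, u_symm hu hp]

/-- **the constructor** -/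
def qfam [FiniteDimensional ℂ E0] {u : Q → E0} (hu : IsLocalHomeomorph u) (c : Cert n N R) (ev : Q → (R →+* ℂ))
    (han : ∀ r, AnE u fun q => ev q r) :
    Ehr6_268.QFam Q E0 (EuclideanSpace ℂ (Fin (N + 1))) where
  u := u
  S := fun q => c.cone (ev q)
  e := locE hu
  mem := mem_locE hu
  coe := fun q0 q _ => coe_locE hu q0 q
  T := fun q0 => KC (evL hu ev q0) c.E
  T_eq := fun q0 q hq w => by
    rw [Cert.mem_KC, evL_u hu ev q0 hq]
  cm := fun q0 => Eh4_461.exists_coneMap (c.fam fun r => analyticAt_evL hu (han r) q0)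

@[simp] theorem qfam_u [FiniteDimensional ℂ E0] {u : Q → E0} (hu : IsLocalHomeomorph u) (c : Cert n N R)
    (ev : Q → (R →+* ℂ)) (han : ∀ r, AnE u fun q => ev q r) : (qfam hu c ev han).u = u := rfl

@[simp] theorem qfam_S [FiniteDimensional ℂ E0] {u : Q → E0} (hu : IsLocalHomeomorph u) (c : Cert n N R)
    (ev : Q → (R →+* ℂ)) (han : ∀ r, AnE u fun q => ev q r) (q : Q) :
    (qfam hu c ev han).S q = c.cone (ev q) := rfl

end

end Crest.Agent.R281.QF_871
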