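import Crest.Agent.R281.Esc1_989
import Crest.Agent.R281.Nc3_957
import Crest.Agent.R281.QF1_871
import Crest.Agent.R281.Sl4_957
import Crest.Agent.R281.Am1_957
import Crest.Agent.R281.CA3_867
import Crest.Agent.R281.Ehr8_268

-- ▼ part R281/Esc2_989
section

/-!
# Row 281, END-SCALE (part 2): the curve `Qs f δ` as a space spread over the plane; regular functions
are holomorphic; injectivity of the restriction to an end (identity theorem).
-/

open Polynomial Set Filter Topology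
open scoped Polynomial.Bivariate

namespace Crest.Agent.R281.Esc2_989

open Ends1_989 Ends2_989 Ends3_989 Ends4_989 Ends5_989 Esc1_989 Nc_957

noncomputable section

variable {f : ℂ[X][Y]} {δ : ℂ[X]}

/-- the coordinate `u` on the curve -/
def uQ (f : ℂ[X][Y]) (δ : ℂ[X]) (q : Qs f δ) : ℂ := q.1.1

/-- the inclusion of the smooth part into the whole curve -/
def inc (f : ℂ[X][Y]) (δ : ℂ[X]) (q : Qs f δ) : Zf f := ⟨q.1, q.2.1⟩

theorem isOpen_ne (δ : ℂ[X]) : IsOpen {u : ℂ | δ.eval u ≠ 0} :=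
  isOpen_ne_fun δ.continuous continuous_const

theorem isOpenEmbedding_inc (f : ℂ[X][Y]) (δ : ℂ[X]) : IsOpenEmbedding (inc f δ) := by
  refine ⟨⟨?_, ?_⟩, ?_⟩
  · have h1 : IsInducing (Subtype.val ∘ inc f δ) := by
      have : (Subtype.val ∘ inc f δ) = (Subtype.val : Qs f δ → ℂ × ℂ) := rfl
      rw [this]; exact IsInducing.subtypeVal
    exact IsInducing.of_comp (by unfold inc; fun_prop) continuous_subtype_val h1
  · intro a b hab
    exact Subtype.ext (congrArg (fun x : Zf f => x.1) hab)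
  · have : range (inc f δ) = pr f ⁻¹' {u | δ.eval u ≠ 0} := by
      ext x
      constructor
      · rintro ⟨q, rfl⟩; exact q.2.2
      · intro hx; exact ⟨⟨x.1, x.2, hx⟩, rfl⟩
    rw [this]
    exact (isOpen_ne δ).preimage (continuous_pr f)

/-- the curve is spread over the plane -/
theorem isLocalHomeomorph_uQ (hs : Sep f δ) : IsLocalHomeomorph (uQ f δ) := by
  have h1 := (isLocalHomeomorphOn_pr hs).comp
    ((isOpenEmbedding_inc f δ).isLocalHomeomorph.isLocalHomeomorphOn (s := univ))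
    (fun q _ => q.2.2)
  exact isLocalHomeomorph_iff_isLocalHomeomorphOn_univ.2 h1

/-- holomorphic functions of `(u,w)` are holomorphic on the curve -/
theorem an_of_analytic (hs : Sep f δ) {F : ℂ × ℂ → ℂ}
    (hF : ∀ q : Qs f δ, AnalyticAt ℂ F q.1) : An (uQ f δ) (fun q => F q.1) := by
  intro q
  obtain ⟨e, hxe, he, hdiff⟩ := exists_chart (f := f) (δ := δ)
    (fun q h1 h2 => derivative_ne_zero hs h1 h2) (q := q.1) q.2.1 q.2.2
  -- the local section `s u = e.symm (u, 0)`
  have hmem : (uQ f δ q, (0 : ℂ)) ∈ e.target := by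
    have h1 := e.map_source hxe
    rw [he] at h1
    simp only [Psi] at h1
    rw [show f.evalEval q.1.1 q.1.2 = 0 from q.2.1] at h1
    exact h1
  have hzero : ∀ q' : Qs f δ, q'.1 ∈ e.source → e.symm (uQ f δ q', 0) = q'.1 := fun q' h' => by
    have h3 := e.left_inv h'
    have h4 : e q'.1 = (uQ f δ q', 0) := by
      rw [he]; simp only [Psi, uQ]
      rw [show f.evalEval q'.1.1 q'.1.2 = 0 from q'.2.1]
    rw [h4] at h3
    exact h3
  have hU : {u : ℂ | (u, (0 : ℂ)) ∈ e.target ∧ δ.eval u ≠ 0} ∈ 𝓝 (uQ f δ q) := by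
    refine ((e.open_target.preimage (by fun_prop : Continuous fun u : ℂ => (u, (0 : ℂ)))).inter
      (isOpen_ne δ)).mem_nhds ⟨hmem, q.2.2⟩
  have hdiffs : ∀ u ∈ {u : ℂ | (u, (0 : ℂ)) ∈ e.target ∧ δ.eval u ≠ 0},
      DifferentiableAt ℂ (fun u : ℂ => e.symm (u, 0)) u := by
    intro u hu
    have h5 : e.symm (u, 0) ∈ e.source := e.map_target hu.1
    have h6 := e.right_inv hu.1
    rw [he] at h6
    simp only [Psi, Prod.mk.injEq] at h6
    obtain ⟨L, hL⟩ := exists_hasStrictFDerivAt (f := f) (q := e.symm (u, 0))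
      (derivative_ne_zero hs h6.2 (by rw [h6.1]; exact hu.2))
    have h7 : DifferentiableAt ℂ e.symm (u, 0) := by
      have h8 : HasFDerivAt (e : ℂ × ℂ → ℂ × ℂ) (L : (ℂ × ℂ) →L[ℂ] (ℂ × ℂ)) (e.symm (u, 0)) := by
        rw [he]; exact hL.hasFDerivAt
      exact (e.hasFDerivAt_symm hu.1 h8).differentiableAt
    exact DifferentiableAt.comp (f := fun u : ℂ => (u, (0 : ℂ))) u h7 (by fun_prop)
  have hsec : AnalyticAt ℂ (fun u : ℂ => e.symm (u, 0)) (uQ f δ q) := by
    have hd : DifferentiableOn ℂ (fun u : ℂ => e.symm (u, 0))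
        {u : ℂ | (u, (0 : ℂ)) ∈ e.target ∧ δ.eval u ≠ 0} :=
      fun u hu => (hdiffs u hu).differentiableWithinAt
    exact hd.analyticAt hU
  refine ⟨fun u => F (e.symm (u, 0)), ?_, ?_⟩
  · have h9 : AnalyticAt ℂ F (e.symm (uQ f δ q, 0)) := by
      rw [hzero q hxe]; exact hF q
    exact h9.comp_of_eq hsec rfl
  · have h10 : ∀ᶠ q' in 𝓝 q, q'.1 ∈ e.source :=
      continuous_subtype_val.continuousAt (e.open_source.mem_nhds hxe)
    filter_upwards [h10] with q' hq'
    simp only [Function.comp_apply, hzero q' hq']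

theorem an_regular (hs : Sep f δ) (g : ℂ[X][Y]) (k : ℕ) :
    An (uQ f δ) (fun q => g.evalEval q.1.1 q.1.2 / δ.eval q.1.1 ^ k) := by
  refine an_of_analytic hs (F := fun p => g.evalEval p.1 p.2 / δ.eval p.1 ^ k) fun q => ?_
  have h1 : AnalyticAt ℂ (fun p : ℂ × ℂ => g.evalEval p.1 p.2) q.1 :=
    ((contDiff_evalEval g ⊤).contDiffAt (x := q.1)).analyticAt
  have h2 : AnalyticAt ℂ (fun p : ℂ × ℂ => δ.eval p.1 ^ k) q.1 := by
    have h3 : ContDiff ℂ ⊤ (fun u : ℂ => δ.eval u) := by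
      simpa [Polynomial.coe_aeval_eq_eval] using δ.contDiff_aeval (𝕜 := ℂ) ⊤
    exact (((h3.comp contDiff_fst).pow k).contDiffAt (x := q.1)).analyticAt
  exact h1.div h2 (pow_ne_zero _ q.2.2)

variable {R : Type*} [CommRing R]

theorem an_reg (hs : Sep f δ) (ρ : Reg f δ R) (r : R) : An (uQ f δ) (fun q => ρ.evq q r) := by
  obtain ⟨g, k, h⟩ := ρ.reg r
  exact (an_regular hs g k).congr h





end

end Crest.Agent.R281.Esc2_989
end

-- ▼ part R281/QF2_871
section

/-!
# R281, QFAM (helper871): specialisation of the coefficient ring `k₀[c]`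

`A k₀ c = k₀[c] ⊆ ℂ`; a vector `c'` satisfying all `k₀`-relations of `c` gives `spec : k₀[c] →+* ℂ`,
`c i ↦ c' i`.  Along a plane curve (989's `Reg`) and along a format (957's `Fmt`).
-/

set_option autoImplicit false
set_option linter.unusedSectionVars false

open Set Filter Topology Polynomial

namespace Crest.Agent.R281.QF_871

open Crest.Agent.R281.Sl_957 Crest.Agent.R281.Ends1_989 Crest.Agent.R281.Esc1_989
  Crest.Agent.R281.Esc2_989

noncomputable section

section alg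

variable (k₀ : Type*) [Field k₀] [Algebra k₀ ℂ] {ι : Type*}

/-- the ring `k₀[c]` -/
def A (c : ι → ℂ) : Subalgebra k₀ ℂ := (MvPolynomial.aeval c : MvPolynomial ι k₀ →ₐ[k₀] ℂ).range

/-- the inclusion -/
def inc0 (c : ι → ℂ) : A k₀ c →+* ℂ := (A k₀ c).val


/-- the generators -/
def gen (c : ι → ℂ) (i : ι) : A k₀ c := ⟨c i, MvPolynomial.X i, MvPolynomial.aeval_X c i⟩

@[simp] theorem inc0_gen (c : ι → ℂ) (i : ι) : inc0 k₀ c (gen k₀ c i) = c i := rfl

/-- `c'` satisfies the `k₀`-relations of `c` -/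
def Spz (c c' : ι → ℂ) : Prop :=
  ∀ G : MvPolynomial ι k₀, MvPolynomial.aeval c G = 0 → MvPolynomial.aeval c' G = 0

theorem Spz.refl (c : ι → ℂ) : Spz k₀ c c := fun _ h => h

variable {k₀} {c c' : ι → ℂ}

/-- a polynomial representing an element -/
def rep (r : A k₀ c) : MvPolynomial ι k₀ := Classical.choose r.2

theorem aeval_rep (r : A k₀ c) : MvPolynomial.aeval c (rep r) = (r : ℂ) :=
  Classical.choose_spec r.2

theorem Spz.congr (h : Spz k₀ c c') {G G' : MvPolynomial ι k₀}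
    (hG : MvPolynomial.aeval c G = MvPolynomial.aeval c G') :
    MvPolynomial.aeval c' G = MvPolynomial.aeval c' G' := by
  have h1 := h (G - G') (by rw [map_sub, hG, sub_self])
  rwa [map_sub, sub_eq_zero] at h1

/-- the specialisation -/
def spec (h : Spz k₀ c c') : A k₀ c →+* ℂ where
  toFun r := MvPolynomial.aeval c' (rep r)
  map_one' := by
    rw [← map_one (MvPolynomial.aeval c' : MvPolynomial ι k₀ →ₐ[k₀] ℂ)]
    exact h.congr (by rw [aeval_rep, map_one]; rfl)
  map_mul' a b := by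
    rw [← map_mul]
    exact h.congr (by rw [aeval_rep, map_mul, aeval_rep, aeval_rep]; rfl)
  map_zero' := by
    rw [← map_zero (MvPolynomial.aeval c' : MvPolynomial ι k₀ →ₐ[k₀] ℂ)]
    exact h.congr (by rw [aeval_rep, map_zero]; rfl)
  map_add' a b := by
    rw [← map_add]
    exact h.congr (by rw [aeval_rep, map_add, aeval_rep, aeval_rep]; rfl)


theorem spec_eq (h : Spz k₀ c c') {r : A k₀ c} {G : MvPolynomial ι k₀}
    (hG : MvPolynomial.aeval c G = (r : ℂ)) : spec h r = MvPolynomial.aeval c' G :=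
  h.congr (by rw [aeval_rep, hG])

@[simp] theorem spec_gen (h : Spz k₀ c c') (i : ι) : spec h (gen k₀ c i) = c' i := by
  rw [spec_eq h (G := MvPolynomial.X i) (MvPolynomial.aeval_X c i), MvPolynomial.aeval_X]




end alg

/-! ### along a plane curve -/

section curve

variable {k₀ : Type*} [Field k₀] [Algebra k₀ ℂ] {ι : Type*} {c : ι → ℂ}








/-- **QFam over the plane curve** -/
def qfamQs {n N : ℕ} {f : ℂ[X][X]} {δ : ℂ[X]} (hs : Sep f δ) {R : Type*} [CommRing R]
    (C : Cert n N R) (ρ : Reg f δ R) :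
    Ehr6_268.QFam (Qs f δ) ℂ (EuclideanSpace ℂ (Fin (N + 1))) :=
  qfam (isLocalHomeomorph_uQ hs) C ρ.evq fun r => an_reg hs ρ r

@[simp] theorem qfamQs_u {n N : ℕ} {f : ℂ[X][X]} {δ : ℂ[X]} (hs : Sep f δ) {R : Type*} [CommRing R]
    (C : Cert n N R) (ρ : Reg f δ R) : (qfamQs hs C ρ).u = uQ f δ := rfl

@[simp] theorem qfamQs_S {n N : ℕ} {f : ℂ[X][X]} {δ : ℂ[X]} (hs : Sep f δ) {R : Type*} [CommRing R]
    (C : Cert n N R) (ρ : Reg f δ R) (q : Qs f δ) : (qfamQs hs C ρ).S q = C.cone (ρ.evq q) := rfl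

end curve

/-! ### over an open set of the parameter space -/

section open_

universe ue

variable {E0 : Type} [NormedAddCommGroup E0] [NormedSpace ℂ E0] [FiniteDimensional ℂ E0]

theorem isLocalHomeomorph_val {U : Set E0} (hU : IsOpen U) :
    IsLocalHomeomorph (Subtype.val : U → E0) :=
  hU.isOpenEmbedding_subtypeVal.isLocalHomeomorph

/-- **QFam over an open set** -/
def qfamU {n N : ℕ} {U : Set E0} (hU : IsOpen U) {R : Type*} [CommRing R] (C : Cert n N R)
    (ev : E0 → (R →+* ℂ)) (han : ∀ r, ∀ p ∈ U, AnalyticAt ℂ (fun p => ev p r) p) :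
    Ehr6_268.QFam U E0 (EuclideanSpace ℂ (Fin (N + 1))) :=
  qfam (isLocalHomeomorph_val hU) C (fun q => ev q.1) fun r q =>
    ⟨fun p => ev p r, han r q.1 q.2, Filter.Eventually.of_forall fun _ => rfl⟩

@[simp] theorem qfamU_u {n N : ℕ} {U : Set E0} (hU : IsOpen U) {R : Type*} [CommRing R]
    (C : Cert n N R) (ev : E0 → (R →+* ℂ)) (han : ∀ r, ∀ p ∈ U, AnalyticAt ℂ (fun p => ev p r) p) :
    (qfamU hU C ev han).u = Subtype.val := rfl

@[simp] theorem qfamU_S {n N : ℕ} {U : Set E0} (hU : IsOpen U) {R : Type*} [CommRing R]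
    (C : Cert n N R) (ev : E0 → (R →+* ℂ)) (han : ∀ r, ∀ p ∈ U, AnalyticAt ℂ (fun p => ev p r) p)
    (q : U) : (qfamU hU C ev han).S q = C.cone (ev q.1) := rfl

end open_

end

end Crest.Agent.R281.QF_871
end

-- ▼ part R281/QF3_871
section

/-!
# R281, QFAM (helper871): QFam over the `m`-dimensional model `QM M` of helper957
-/

set_option autoImplicit false
set_option linter.unusedSectionVars false

open Set Filter Topology Polynomial

namespace Crest.Agent.R281.QF_871

open Crest.Agent.R281.Sl_957 Crest.Agent.R281.Am_957 Crest.Agent.R281.Esc1_989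

noncomputable section

variable {k₀ ι : Type*} [Field k₀] [Algebra k₀ ℂ] {M : Fmt k₀ ι}

/-- functions analytic in `(z, w)` are analytic functions of the coordinate -/
theorem anE_of_analytic (h : M.Nice) {F : (Fin M.m → ℂ) × ℂ → ℂ}
    (hF : ∀ q : QM M, AnalyticAt ℂ F q.1) : AnE (zc M) fun q => F q.1 := by
  intro x
  obtain ⟨W, h1, h2, -, h4⟩ := exists_root h (z₀ := x.1.1) (w₀ := x.1.2) x.2
  refine ⟨fun z => F (z, W z), ?_, ?_⟩
  · have h5 : AnalyticAt ℂ F ((fun z => (z, W z)) (zc M x)) := by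
      show AnalyticAt ℂ F (x.1.1, W x.1.1)
      rw [h2]
      exact hF x
    exact AnalyticAt.comp (g := F) (f := fun z => (z, W z)) h5 (analyticAt_id.prod h1)
  · have h5 : ∀ᶠ q : QM M in 𝓝 x, M.F.eval₂ (ez q.1.1) q.1.2 = 0 → q.1.2 = W q.1.1 :=
      continuous_subtype_val.continuousAt.eventually h4
    filter_upwards [h5] with q hq
    show F q.1 = F (q.1.1, W q.1.1)
    rw [← hq q.2.1]

theorem analyticAt_pt (M : Fmt k₀ ι) (i : ι) (q : QM M) :
    AnalyticAt ℂ (fun p : (Fin M.m → ℂ) × ℂ => M.pt p.1 p.2 i) q.1 := by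
  have h1 : AnalyticAt ℂ (fun p : (Fin M.m → ℂ) × ℂ => (M.P i).eval₂ (ez p.1) p.2) q.1 :=
    ((contDiff_eval₂ (M.P i) ⊤).contDiffAt (x := q.1)).analyticAt
  have h2 : AnalyticAt ℂ (fun p : (Fin M.m → ℂ) × ℂ => (ez p.1 M.D : ℂ)) q.1 :=
    (((contDiff_ez M.D ⊤).comp contDiff_fst).contDiffAt (x := q.1)).analyticAt
  exact h1.div h2 q.2.2

theorem analyticAt_aeval_pt (M : Fmt k₀ ι) (G : MvPolynomial ι k₀) (q : QM M) :
    AnalyticAt ℂ (fun p : (Fin M.m → ℂ) × ℂ => MvPolynomial.aeval (M.pt p.1 p.2) G) q.1 := by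
  induction G using MvPolynomial.induction_on with
  | C a =>
    simp only [MvPolynomial.aeval_C]
    exact analyticAt_const
  | add p q hp hq =>
    simp only [map_add]
    exact hp.add hq
  | mul_X p i hp =>
    simp only [map_mul, MvPolynomial.aeval_X]
    exact hp.mul (analyticAt_pt M i q)

variable {c : ι → ℂ}

/-- the specialisation at the points of the model -/
def evM (hM : ∀ (z : Fin M.m → ℂ) (w : ℂ), M.On z w → Spz k₀ c (M.pt z w)) (q : QM M) :
    A k₀ c →+* ℂ := spec (hM q.1.1 q.1.2 q.2)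



theorem anE_evM (h : M.Nice) (hM : ∀ (z : Fin M.m → ℂ) (w : ℂ), M.On z w → Spz k₀ c (M.pt z w))
    (r : A k₀ c) : AnE (zc M) fun q => evM hM q r :=
  anE_of_analytic h (F := fun p => MvPolynomial.aeval (M.pt p.1 p.2) (rep r))
    fun q => analyticAt_aeval_pt M (rep r) q

/-- **QFam over the model** -/
def qfamM {n N : ℕ} (h : M.Nice)
    (hM : ∀ (z : Fin M.m → ℂ) (w : ℂ), M.On z w → Spz k₀ c (M.pt z w)) (C : Cert n N (A k₀ c)) :
    Ehr6_268.QFam (QM M) (Fin M.m → ℂ) (EuclideanSpace ℂ (Fin (N + 1))) :=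
  qfam (isLocalHomeomorph_zc h) C (evM hM) (anE_evM h hM)

@[simp] theorem qfamM_u {n N : ℕ} (h : M.Nice)
    (hM : ∀ (z : Fin M.m → ℂ) (w : ℂ), M.On z w → Spz k₀ c (M.pt z w)) (C : Cert n N (A k₀ c)) :
    (qfamM h hM C).u = zc M := rfl

@[simp] theorem qfamM_S {n N : ℕ} (h : M.Nice)
    (hM : ∀ (z : Fin M.m → ℂ) (w : ℂ), M.On z w → Spz k₀ c (M.pt z w)) (C : Cert n N (A k₀ c))
    (q : QM M) : (qfamM h hM C).S q = C.cone (evM hM q) := rfl



end

end Crest.Agent.R281.QF_871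
end

-- ▼ part R281/QF4_871
section

/-!
# R281, QFAM (helper871): pointwise certificates

The identities of the certificate are only required at every point of the base (`PCert.OkAt (ev q)`), not
over one coefficient ring: `fam_pt`, `qfamP`, `qfamPM` (over the model `QM M`, coefficients polynomials in
the coordinates `M.pt`).
-/

set_option autoImplicit false
set_option linter.unusedSectionVars false

open Set Filter Topology

namespace Crest.Agent.R281.QF_871

open Crest.Agent.R281.Kr_488 Crest.Agent.R281.KrB1_871 Crest.Agent.R281.KrB2_871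
  Crest.Agent.R281.KrB3_871 Crest.Agent.R281.KrB4_871 Crest.Agent.R281.KrB5_871

noncomputable section

section loc

variable {P : Type*} {n N : ℕ} {R : Type*} [CommRing R] [NormedAddCommGroup P] [NormedSpace ℂ P]
  {ev : P → (R →+* ℂ)} {p0 : P}

/-- **local equations**, identities at every parameter near `p0` -/
theorem exists_loc_pt {κ : KDat n N R} {E : Set (MvPolynomial (Fin (N + 1)) R)}
    (h0 : (mapK κ (ev p0)).Good (MvPolynomial.map (ev p0) '' E))
    (h : ∀ᶠ p in 𝓝 p0, (mapK κ (ev p)).Good (MvPolynomial.map (ev p) '' E))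
    (hE : ∀ᶠ p in 𝓝 p0, ∀ F ∈ E, ∃ m, (MvPolynomial.map (ev p) F).IsHomogeneous m)
    (han : ∀ r, AnalyticAt ℂ (fun p => ev p r) p0)
    {u : EuclideanSpace ℂ (Fin (N + 1))} (hu : u ≠ 0) (hd : val ev κ.dG (p0, u) ≠ 0) :
    ∃ g : P × EuclideanSpace ℂ (Fin (N + 1)) → EuclideanSpace ℂ (Fin (cod κ (ev p0))),
      AnalyticAt ℂ g (p0, u) ∧ Function.Surjective (fderiv ℂ (fun v => g (p0, v)) u) ∧
      ∀ᶠ q in 𝓝 (p0, u), q ∈ KC ev E ↔ g q = 0 := by
  refine ⟨fun q => PiL κ (ev p0) (HV ev κ q), ?_, ?_, ?_⟩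
  · exact ((PiL κ (ev p0)).analyticAt _).comp (analyticAt_HV han κ u)
  · have hd0 : MvPolynomial.eval (fun i => u i) (mapK κ (ev p0)).dG ≠ 0 := by
      rw [dG_map]
      exact hd
    have h1 : (fun v => PiL κ (ev p0) (HV ev κ (p0, v))) =
        fun v => PiL κ (ev p0) (Hv (mapK κ (ev p0)) v) := by
      funext v
      rw [HV_eq]
    have h2 : HasFDerivAt (fun v => PiL κ (ev p0) (Hv (mapK κ (ev p0)) v))
        ((PiL κ (ev p0)).comp (fderiv ℂ (Hv (mapK κ (ev p0))) u)) u :=
      (PiL κ (ev p0)).hasFDerivAt.comp u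
        (analyticAt_Hv (mapK κ (ev p0)) u).differentiableAt.hasFDerivAt
    rw [h1, h2.fderiv]
    intro y
    obtain ⟨x, hx, hxy⟩ := PiL_surj κ (ev p0) y
    obtain ⟨z, _, hz⟩ := D_surj h0 hd0 (mem_K0.mp hx)
    exact ⟨z, by rw [ContinuousLinearMap.comp_apply, hz, hxy]⟩
  · have e1 : ∀ᶠ q in 𝓝 (p0, u), val ev κ.dG q ≠ 0 :=
      (continuousAt_val han κ.dG u).eventually_ne hd
    have e2 : ∀ᶠ q : P × EuclideanSpace ℂ (Fin (N + 1)) in 𝓝 (p0, u), q.2 ≠ 0 :=
      (show ContinuousAt (fun q : P × EuclideanSpace ℂ (Fin (N + 1)) => q.2) (p0, u) from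
        continuousAt_snd).eventually_ne hu
    have hfst : ContinuousAt (fun q : P × EuclideanSpace ℂ (Fin (N + 1)) => q.1) (p0, u) :=
      continuousAt_fst
    have e3 : ∀ᶠ q : P × EuclideanSpace ℂ (Fin (N + 1)) in 𝓝 (p0, u),
        ∀ x, TT (mapK κ (ev q.1)).lam x = 0 → PiL κ (ev p0) x = 0 → x = 0 :=
      hfst.eventually (eventually_inj han κ)
    filter_upwards [e1, e2, e3, hfst.eventually h, hfst.eventually hE] with q h1 h2 h3 hGq hEq'
    have hdq : MvPolynomial.eval (fun i => q.2 i) (mapK κ (ev q.1)).dG ≠ 0 := by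
      rw [dG_map]
      exact h1
    have hEq : ∀ F ∈ MvPolynomial.map (ev q.1) '' E, ∃ m, F.IsHomogeneous m := by
      rintro _ ⟨F, hF, rfl⟩
      exact hEq' F hF
    have key := mem_iff hGq hEq hdq
    constructor
    · intro hq
      have h4 : ∀ k, MvPolynomial.eval (fun i => q.2 i) (Hp (mapK κ (ev q.1)) k) = 0 := by
        refine key.mp ?_
        rintro _ ⟨F, hF, rfl⟩
        exact hq.2 F hF
      have h5 : HV ev κ q = 0 := by
        rw [HV_eq]
        ext k
        rw [Hv_apply]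
        exact h4 k
      show PiL κ (ev p0) (HV ev κ q) = 0
      rw [h5, map_zero]
    · intro hq
      have h5 : HV ev κ q = 0 := by
        refine h3 _ ?_ hq
        rw [HV_eq]
        exact TT_Hv hGq q.2
      refine ⟨h2, fun F hF => ?_⟩
      have h4 : ∀ k, MvPolynomial.eval (fun i => q.2 i) (Hp (mapK κ (ev q.1)) k) = 0 := by
        intro k
        have h6 : HV ev κ q k = 0 := by
          rw [h5]
          rfl
        rw [HV_eq, Hv_apply] at h6
        exact h6
      exact key.mpr h4 _ ⟨F, hF, rfl⟩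


/-- a certificate whose identities are required pointwise -/
structure PCert (n N : ℕ) (R : Type*) [CommRing R] where
  E : Set (MvPolynomial (Fin (N + 1)) R)
  ι : Type
  κ : ι → KDat n N R

/-- the identities at `φ` -/
structure PCert.OkAt (c : PCert n N R) (φ : R →+* ℂ) : Prop where
  hom : ∀ F ∈ c.E, ∃ m, (MvPolynomial.map φ F).IsHomogeneous m
  good : ∀ a, (mapK (c.κ a) φ).Good (MvPolynomial.map φ '' c.E)
  cov : ∀ v : EuclideanSpace ℂ (Fin (N + 1)), v ≠ 0 →
    (∀ F ∈ c.E, MvPolynomial.eval (fun i => v i) (MvPolynomial.map φ F) = 0) →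
    ∃ a, MvPolynomial.eval (fun i => v i) (MvPolynomial.map φ (c.κ a).dG) ≠ 0

/-- the punctured cone of the member -/
def PCert.cone (c : PCert n N R) (φ : R →+* ℂ) : Set (EuclideanSpace ℂ (Fin (N + 1))) :=
  {w | w ≠ 0 ∧ ∀ F ∈ c.E, MvPolynomial.eval (fun i => w i) (MvPolynomial.map φ F) = 0}

theorem PCert.mem_cone {c : PCert n N R} {φ : R →+* ℂ} {w : EuclideanSpace ℂ (Fin (N + 1))} :
    w ∈ c.cone φ ↔ w ≠ 0 ∧ ∀ F ∈ c.E, MvPolynomial.eval (fun i => w i) (MvPolynomial.map φ F) = 0 :=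
  Iff.rfl

/-- **461's `Fam`** from pointwise identities -/
theorem fam_pt (c : PCert n N R) (hok : ∀ p, c.OkAt (ev p))
    (han : ∀ r, AnalyticAt ℂ (fun p => ev p r) p0) : Eh3_461.Fam (KC ev c.E) p0 where
  conic := by
    rintro p u l hl ⟨h1, h2⟩
    refine ⟨smul_ne_zero hl h1, fun F hF => ?_⟩
    obtain ⟨m, hm⟩ := (hok p).hom F hF
    have h3 := eval_smul_homog hm l (fun i => u i)
    have h4 : (fun i => (l • u) i) = l • fun i => u i := rfl
    show MvPolynomial.eval (fun i => (l • u) i) (MvPolynomial.map (ev p) F) = 0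
    rw [h4, h3]
    have h5 : MvPolynomial.eval (fun i => u i) (MvPolynomial.map (ev p) F) = 0 := h2 F hF
    rw [h5, mul_zero]
  ne := fun p u h => h.1
  closed := by
    intro u hu hnot
    have h1 : ∃ F ∈ c.E, val ev F (p0, u) ≠ 0 := by
      by_contra hcon
      push Not at hcon
      exact hnot ⟨hu, hcon⟩
    obtain ⟨F, hF, h2⟩ := h1
    filter_upwards [(continuousAt_val han F u).eventually_ne h2] with q hq hqC
    exact hq (hqC.2 F hF)
  loc := fun u hu => by
    obtain ⟨a, hd⟩ := (hok p0).cov u hu.1 hu.2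
    obtain ⟨g, h1, h2, h3⟩ := exists_loc_pt (κ := c.κ a) (E := c.E) ((hok p0).good a)
      (Eventually.of_forall fun p => (hok p).good a) (Eventually.of_forall fun p => (hok p).hom)
      han hu.1 hd
    exact ⟨_, g, h1, h2, h3⟩

end loc


universe uq

section constr

variable {Q : Type uq} [TopologicalSpace Q] {E0 : Type} [NormedAddCommGroup E0] [NormedSpace ℂ E0]
  {n N : ℕ} {R : Type*} [CommRing R]

theorem evL_mem {u : Q → E0} (hu : IsLocalHomeomorph u) (ev : Q → (R →+* ℂ)) (q0 : Q) (p : E0) :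
    ∃ q, evL hu ev q0 p = ev q := by
  unfold evL
  split
  · exact ⟨_, rfl⟩
  · exact ⟨_, rfl⟩

/-- **the constructor**, pointwise certificates -/
def qfamP [FiniteDimensional ℂ E0] {u : Q → E0} (hu : IsLocalHomeomorph u) (c : PCert n N R)
    (ev : Q → (R →+* ℂ)) (han : ∀ r, AnE u fun q => ev q r) (hok : ∀ q, c.OkAt (ev q)) :
    Ehr6_268.QFam Q E0 (EuclideanSpace ℂ (Fin (N + 1))) where
  u := u
  S := fun q => c.cone (ev q)
  e := locE hu
  mem := mem_locE hu
  coe := fun q0 q _ => coe_locE hu q0 q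
  T := fun q0 => KC (evL hu ev q0) c.E
  T_eq := fun q0 q hq w => by
    have h1 : (u q, w) ∈ KC (evL hu ev q0) c.E ↔ w ∈ c.cone (evL hu ev q0 (u q)) := Iff.rfl
    rw [h1, evL_u hu ev q0 hq]
  cm := fun q0 => Eh4_461.exists_coneMap (fam_pt c (fun p => by
    obtain ⟨q, hq⟩ := evL_mem hu ev q0 p
    rw [hq]
    exact hok q) fun r => analyticAt_evL hu (han r) q0)

@[simp] theorem qfamP_u [FiniteDimensional ℂ E0] {u : Q → E0} (hu : IsLocalHomeomorph u)
    (c : PCert n N R) (ev : Q → (R →+* ℂ)) (han : ∀ r, AnE u fun q => ev q r)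
    (hok : ∀ q, c.OkAt (ev q)) : (qfamP hu c ev han hok).u = u := rfl

@[simp] theorem qfamP_S [FiniteDimensional ℂ E0] {u : Q → E0} (hu : IsLocalHomeomorph u)
    (c : PCert n N R) (ev : Q → (R →+* ℂ)) (han : ∀ r, AnE u fun q => ev q r)
    (hok : ∀ q, c.OkAt (ev q)) (q : Q) : (qfamP hu c ev han hok).S q = c.cone (ev q) := rfl



end constr

/-! ### over the model -/

section model

open Crest.Agent.R281.Sl_957 Crest.Agent.R281.Am_957

variable {k₀ ι : Type*} [Field k₀] [Algebra k₀ ℂ] {M : Fmt k₀ ι}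

/-- evaluation of the polynomials in the coordinates -/
def evP (M : Fmt k₀ ι) (q : QM M) : MvPolynomial ι k₀ →+* ℂ :=
  (MvPolynomial.aeval (M.pt q.1.1 q.1.2) : MvPolynomial ι k₀ →ₐ[k₀] ℂ).toRingHom


theorem anE_evP (h : M.Nice) (G : MvPolynomial ι k₀) : AnE (zc M) fun q => evP M q G :=
  anE_of_analytic h (F := fun p => MvPolynomial.aeval (M.pt p.1 p.2) G)
    fun q => analyticAt_aeval_pt M G q

/-- **QFam over the model**, pointwise certificates -/
def qfamPM {n N : ℕ} (h : M.Nice) (c : PCert n N (MvPolynomial ι k₀))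
    (hok : ∀ q : QM M, c.OkAt (evP M q)) :
    Ehr6_268.QFam (QM M) (Fin M.m → ℂ) (EuclideanSpace ℂ (Fin (N + 1))) :=
  qfamP (isLocalHomeomorph_zc h) c (evP M) (anE_evP h) hok

@[simp] theorem qfamPM_u {n N : ℕ} (h : M.Nice) (c : PCert n N (MvPolynomial ι k₀))
    (hok : ∀ q : QM M, c.OkAt (evP M q)) : (qfamPM h c hok).u = zc M := rfl

@[simp] theorem qfamPM_S {n N : ℕ} (h : M.Nice) (c : PCert n N (MvPolynomial ι k₀))
    (hok : ∀ q : QM M, c.OkAt (evP M q)) (q : QM M) : (qfamPM h c hok).S q = c.cone (evP M q) := rfl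


end model

end

end Crest.Agent.R281.QF_871
end

-- ▼ part R281/QF5_871

/-!
# R281, QFAM (helper871): the family of a code (helper867) over the model `QM M` (helper957)

`qfamC K M h hM : QFam (QM M) (Fin M.m → ℂ) (EuclideanSpace ℂ (Fin (N + 1)))`, depending on the code `K` and
the format `M` only, with `S q = K.cone (M.pt q)`; local equations of codimension `N - n` at every point;
every marking has complex tangent spaces (`qfamC_cx`).
-/

set_option autoImplicit false
set_option linter.unusedSectionVars false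

open Set Filter Topology

namespace Crest.Agent.R281.QF_871

open Crest.Agent.R281.Kr_488 Crest.Agent.R281.KrB1_871 Crest.Agent.R281.KrB2_871
  Crest.Agent.R281.KrB3_871 Crest.Agent.R281.KrB4_871 Crest.Agent.R281.KrB5_871
open Crest.Agent.R281.Sl_957 Crest.Agent.R281.Am_957 Crest.Agent.R281.CA_867
open Crest.Agent.R281.HkR_835 Crest.Agent.R281.Ehr2_268 Crest.Agent.R281.Dif_268
  Crest.Agent.R281.Ehr4_268 Crest.Agent.R281.Ehr6_268

noncomputable section

variable {k₀ : Type} [Field k₀] [Algebra k₀ ℂ] {n N : ℕ}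

/-- the pointwise certificate of a code -/
def pcC (K : Code k₀ n N) : PCert n N (MvPolynomial (Fin K.k) k₀) where
  E := range K.Y.G
  ι := Fin K.Y.q
  κ := K.Y.κ

theorem okAt {K : Code k₀ n N} {c : Fin K.k → ℂ} (h : K.Good c) :
    (pcC K).OkAt (MvPolynomial.aeval c : MvPolynomial (Fin K.k) k₀ →ₐ[k₀] ℂ).toRingHom where
  hom := by
    rintro _ ⟨l, rfl⟩
    exact h.mem_ok.hom l
  good := fun a => by
    have h1 := h.mem_ok.good a
    have h2 : range (K.mem c).G = MvPolynomial.map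
        (MvPolynomial.aeval c : MvPolynomial (Fin K.k) k₀ →ₐ[k₀] ℂ).toRingHom '' range K.Y.G :=
      CDat.range_map K.Y _
    rw [h2] at h1
    exact h1
  cov := fun v hv hG => by
    have hv' : (fun i => v i) ≠ 0 := by
      intro h0
      apply hv
      ext i
      exact congrFun h0 i
    obtain ⟨a, ha⟩ := h.mem_ok.exists_dG hv' fun l => hG _ ⟨l, rfl⟩
    refine ⟨a, ?_⟩
    have h3 : ((K.mem c).κ a).dG = MvPolynomial.map
        (MvPolynomial.aeval c : MvPolynomial (Fin K.k) k₀ →ₐ[k₀] ℂ).toRingHom (K.Y.κ a).dG :=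
      KDat.dG_map _ (K.Y.κ a)
    rw [h3] at ha
    exact ha

theorem cone_eq (K : Code k₀ n N) (c : Fin K.k → ℂ) :
    (pcC K).cone (MvPolynomial.aeval c : MvPolynomial (Fin K.k) k₀ →ₐ[k₀] ℂ).toRingHom =
      K.cone c := by
  ext w
  rw [PCert.mem_cone]
  refine and_congr_right fun _ => ?_
  constructor
  · rintro h _ ⟨l, rfl⟩
    exact h _ ⟨l, rfl⟩
  · rintro h _ ⟨l, rfl⟩
    exact h _ ⟨l, rfl⟩

variable {K : Code k₀ n N} {M : Fmt k₀ (Fin K.k)}

/-- **the family of a code** -/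
def qfamC (K : Code k₀ n N) (M : Fmt k₀ (Fin K.k)) (h : M.Nice)
    (hM : ∀ (z : Fin M.m → ℂ) (w : ℂ), M.On z w → K.Good (M.pt z w)) :
    QFam (QM M) (Fin M.m → ℂ) (EuclideanSpace ℂ (Fin (N + 1))) :=
  { qfamPM h (pcC K) fun q => okAt (hM q.1.1 q.1.2 q.2) with
    S := fun q => K.cone (M.pt q.1.1 q.1.2)
    T_eq := fun q0 q hq w => by
      rw [(qfamPM h (pcC K) fun q => okAt (hM q.1.1 q.1.2 q.2)).T_eq q0 q hq w, ← cone_eq]
      rfl }

variable (h : M.Nice) (hM : ∀ (z : Fin M.m → ℂ) (w : ℂ), M.On z w → K.Good (M.pt z w))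

@[simp] theorem qfamC_u : (qfamC K M h hM).u = zc M := rfl

@[simp] theorem qfamC_S (q : QM M) : (qfamC K M h hM).S q = K.cone (M.pt q.1.1 q.1.2) := rfl





variable {V X : Type} [NormedAddCommGroup V] [NormedSpace ℝ V] [TopologicalSpace X]
  [FiniteDimensional ℝ V] {C : RCh V X}



end

end Crest.Agent.R281.QF_871
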