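import Mathlib
import Crest.Agent.R281.KrD_488
import Crest.Agent.R272.CpChow_338
import Crest.Agent.R281.KrF_488
import Crest.Agent.R281.CA3_867
import Crest.Agent.R281.QF5_871
import Crest.Agent.R281.Pe6_313

-- ▼ part R281/Kr1_488
section

/-!
# R281, KRON (helper488), part 1: Kronecker's formula `x G'(w) ∈ R[w]`
-/

set_option autoImplicit false
set_option linter.unusedSectionVars false

open Polynomial

namespace Crest.Agent.R281.Kr_488

section General

variable {R S : Type*} [CommRing R] [IsDomain R] [IsIntegrallyClosed R] [CommRing S] [IsDomain S]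
  [Algebra R S] [FaithfulSMul R S] [Algebra.IsIntegral R S]

theorem kron_field (K L : Type*) [Field K] [Field L] [Algebra R K] [IsFractionRing R K]
    [Algebra S L] [IsFractionRing S L] [Algebra K L] [Algebra R L] [IsScalarTower R K L]
    [IsScalarTower R S L] [FiniteDimensional K L] [Algebra.IsSeparable K L] (w : S)
    (hw : Algebra.adjoin K {algebraMap S L w} = ⊤) (x : S) :
    ∃ p : R[X], (∀ i, (minpoly R w).natDegree ≤ i → p.coeff i = 0) ∧
      aeval w p = x * aeval w (derivative (minpoly R w)) := by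
  classical
  set w' := algebraMap S L w with hw'
  set x' := algebraMap S L x with hx'
  have hwi : IsIntegral R w := Algebra.IsIntegral.isIntegral w
  have hwi' : IsIntegral R w' := hwi.map (IsScalarTower.toAlgHom R S L)
  have hxi' : IsIntegral R x' :=
    (Algebra.IsIntegral.isIntegral (R := R) x).map (IsScalarTower.toAlgHom R S L)
  have hinj : Function.Injective (algebraMap S L) := IsFractionRing.injective S L
  have hmin : minpoly R w' = minpoly R w :=
    minpoly.algebraMap_eq (A := R) (B := S) (B' := L) hinj w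
  have hminK : minpoly K w' = (minpoly R w).map (algebraMap R K) := by
    rw [minpoly.isIntegrallyClosed_eq_field_fractions' K hwi', hmin]
  have hne : aeval w' (derivative (minpoly K w')) ≠ 0 :=
    (Algebra.IsSeparable.isSeparable K w').aeval_derivative_ne_zero (minpoly.aeval _ _)
  have hmem : x' ∈ (Algebra.traceForm K L).dualSubmodule
      (Subalgebra.toSubmodule (Algebra.adjoin R {w'})) := by
    rw [LinearMap.BilinForm.mem_dualSubmodule]
    intro y hy
    have hy' : IsIntegral R y := by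
      have h1 : Algebra.adjoin R {w'} ≤ integralClosure R L := by
        rw [Algebra.adjoin_le_iff]
        rintro z rfl
        exact hwi'
      exact h1 hy
    have h2 : IsIntegral R (Algebra.trace K L (x' * y)) := Algebra.isIntegral_trace (hxi'.mul hy')
    obtain ⟨r, hr⟩ := IsIntegrallyClosed.isIntegral_iff.1 h2
    rw [Algebra.traceForm_apply, ← hr, Submodule.mem_one]
    exact ⟨r, rfl⟩
  rw [traceForm_dualSubmodule_adjoin R K hw hwi'] at hmem
  obtain ⟨z, hz, hzx⟩ := (Submodule.mem_smul_pointwise_iff_exists _ _ _).1 hmem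
  have hz' : z = x' * aeval w' (derivative (minpoly K w')) := by
    rw [← hzx, smul_eq_mul]
    field_simp
  have hz2 : z ∈ Algebra.adjoin R {w'} := hz
  rw [Algebra.adjoin_singleton_eq_range_aeval] at hz2
  obtain ⟨q, hq⟩ := hz2
  have hq' : aeval w' q = z := hq
  have hmon : (minpoly R w).Monic := minpoly.monic hwi
  refine ⟨q %ₘ minpoly R w, fun i hi => ?_, ?_⟩
  · refine coeff_eq_zero_of_degree_lt ?_
    refine lt_of_lt_of_le (degree_modByMonic_lt _ hmon) ?_
    rw [degree_eq_natDegree hmon.ne_zero]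
    exact_mod_cast hi
  · apply hinj
    have h3 : aeval w (q %ₘ minpoly R w) = aeval w q := by
      conv_rhs => rw [← modByMonic_add_div q (minpoly R w)]
      rw [map_add, map_mul, minpoly.aeval, zero_mul, add_zero]
    rw [h3, ← aeval_algebraMap_apply, hq', hz', map_mul, ← aeval_algebraMap_apply, hminK,
      derivative_map, aeval_map_algebraMap]

attribute [local instance] FractionRing.liftAlgebra

/-- **Kronecker's formula** -/
theorem kron_alg [Module.Finite R S] [CharZero R] (w : S)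
    (hw : Algebra.adjoin (FractionRing R) {algebraMap S (FractionRing S) w} = ⊤) (x : S) :
    ∃ p : R[X], (∀ i, (minpoly R w).natDegree ≤ i → p.coeff i = 0) ∧
      aeval w p = x * aeval w (derivative (minpoly R w)) := by
  have : FiniteDimensional (FractionRing R) (FractionRing S) :=
    Module.Finite.of_isLocalization R S (nonZeroDivisors R)
  exact kron_field (FractionRing R) (FractionRing S) w hw x

end General

end Crest.Agent.R281.Kr_488
end

-- ▼ part R281/Kr2_488
section

/-!
# R281, KRON (helper488), part 2: the coordinate ring over `ℂ[y]`, finiteness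
-/

set_option autoImplicit false
set_option linter.unusedSectionVars false

open MvPolynomial

namespace Crest.Agent.R281.Kr_488

noncomputable section

variable {n N : ℕ}

/-- homogeneous ideal -/
def HomI (I : Ideal (MvPolynomial (Fin (N + 1)) ℂ)) : Prop :=
  ∀ p ∈ I, ∀ d, homogeneousComponent d p ∈ I

/-- the substitution `y_j ↦ lam_j (x)` -/
def sY (lam : Fin (n + 1) → Fin (N + 1) → ℂ) :
    MvPolynomial (Fin (n + 1)) ℂ →ₐ[ℂ] MvPolynomial (Fin (N + 1)) ℂ :=
  MvPolynomial.aeval fun j => lin (lam j)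

/-- the coordinate ring, as an algebra over `ℂ[y]` -/
def CR (I : Ideal (MvPolynomial (Fin (N + 1)) ℂ)) (_lam : Fin (n + 1) → Fin (N + 1) → ℂ) : Type :=
  MvPolynomial (Fin (N + 1)) ℂ ⧸ I

section

variable (I : Ideal (MvPolynomial (Fin (N + 1)) ℂ)) (lam : Fin (n + 1) → Fin (N + 1) → ℂ)

instance : CommRing (CR I lam) := inferInstanceAs (CommRing (MvPolynomial (Fin (N + 1)) ℂ ⧸ I))

instance : Algebra ℂ (CR I lam) := inferInstanceAs (Algebra ℂ (MvPolynomial (Fin (N + 1)) ℂ ⧸ I))

/-- the quotient map -/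
def mkA : MvPolynomial (Fin (N + 1)) ℂ →ₐ[ℂ] CR I lam := Ideal.Quotient.mkₐ ℂ I

instance : Algebra (MvPolynomial (Fin (n + 1)) ℂ) (CR I lam) :=
  ((mkA I lam).comp (sY lam)).toRingHom.toAlgebra

theorem algebraMap_eq (p : MvPolynomial (Fin (n + 1)) ℂ) :
    algebraMap (MvPolynomial (Fin (n + 1)) ℂ) (CR I lam) p = mkA I lam (sY lam p) := rfl

instance : IsScalarTower ℂ (MvPolynomial (Fin (n + 1)) ℂ) (CR I lam) :=
  IsScalarTower.of_algebraMap_eq fun c => by
    rw [algebraMap_eq]
    show algebraMap ℂ (CR I lam) c = mkA I lam (sY lam (algebraMap ℂ _ c))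
    rw [AlgHom.commutes, AlgHom.commutes]

instance [I.IsPrime] : IsDomain (CR I lam) :=
  inferInstanceAs (IsDomain (MvPolynomial (Fin (N + 1)) ℂ ⧸ I))

theorem mkA_surjective : Function.Surjective (mkA I lam) := Ideal.Quotient.mk_surjective

theorem mkA_eq_zero {p : MvPolynomial (Fin (N + 1)) ℂ} : mkA I lam p = 0 ↔ p ∈ I :=
  Ideal.Quotient.eq_zero_iff_mem

theorem smul_mkA (b : MvPolynomial (Fin (n + 1)) ℂ) (p : MvPolynomial (Fin (N + 1)) ℂ) :
    b • mkA I lam p = mkA I lam (sY lam b * p) := by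
  rw [Algebra.smul_def, algebraMap_eq, map_mul]

end

/-! ### homogeneous components -/

theorem hc_mul_left {m : ℕ} {p : MvPolynomial (Fin m) ℂ} {i : ℕ} (hp : p.IsHomogeneous i)
    (q : MvPolynomial (Fin m) ℂ) (d : ℕ) :
    homogeneousComponent d (p * q) = if i ≤ d then p * homogeneousComponent (d - i) q else 0 := by
  conv_lhs => rw [← sum_homogeneousComponent q, Finset.mul_sum, map_sum]
  have h1 : ∀ k, homogeneousComponent d (p * homogeneousComponent k q) =
      if d = i + k then p * homogeneousComponent k q else 0 := fun k =>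
    homogeneousComponent_of_mem ((mem_homogeneousSubmodule _ _).2
      (hp.mul (homogeneousComponent_isHomogeneous k q)))
  simp only [h1]
  split_ifs with h
  · by_cases h2 : d - i ∈ Finset.range (q.totalDegree + 1)
    · rw [Finset.sum_eq_single_of_mem _ h2 fun k _ hk => if_neg (by omega), if_pos (by omega)]
    · rw [Finset.sum_eq_zero fun k hk => if_neg ?_, homogeneousComponent_eq_zero, mul_zero]
      · rw [Finset.mem_range] at h2
        omega
      · rintro h3
        exact h2 (by rwa [h3, Nat.add_sub_cancel_left])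
  · exact Finset.sum_eq_zero fun k _ => if_neg (by omega)

/-- monomials of degree `d` -/
def isMon (d : ℕ) (p : MvPolynomial (Fin (N + 1)) ℂ) : Prop :=
  ∃ α : Fin (N + 1) →₀ ℕ, α.degree = d ∧ p = monomial α 1

theorem homog_mem_span {d : ℕ} {p : MvPolynomial (Fin (N + 1)) ℂ} (hp : p.IsHomogeneous d) :
    p ∈ Submodule.span ℂ {q | isMon d q} := by
  rw [p.as_sum]
  refine Submodule.sum_mem _ fun α hα => ?_
  have h1 : monomial α (coeff α p) = (coeff α p) • (monomial α (1 : ℂ)) := by
    rw [smul_monomial, smul_eq_mul, mul_one]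
  rw [h1]
  refine Submodule.smul_mem _ _ (Submodule.subset_span ⟨α, ?_, rfl⟩)
  have h2 := hp (mem_support_iff.1 hα)
  rw [Finsupp.degree_eq_weight_one]
  exact h2

/-- **graded Nakayama** -/
theorem span_of_power {I : Ideal (MvPolynomial (Fin (N + 1)) ℂ)} (hI : HomI I)
    {lam : Fin (n + 1) → Fin (N + 1) → ℂ} {E0 : ℕ} (hE0 : 0 < E0)
    (hE : ∀ p, isMon E0 p → p ∈ I ⊔ Ideal.span (Set.range fun j => lin (lam j))) (d : ℕ) :
    ∀ p, isMon (N := N) d p → mkA I lam p ∈ Submodule.span (MvPolynomial (Fin (n + 1)) ℂ)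
      ((fun q => mkA I lam q) '' {q | ∃ k < E0, isMon k q}) := by
  induction d using Nat.strong_induction_on with
  | _ d ih =>
    intro p hp
    by_cases hd : d < E0
    · exact Submodule.subset_span ⟨p, ⟨d, hd, hp⟩, rfl⟩
    push Not at hd
    obtain ⟨α, hα, rfl⟩ := hp
    -- a submonomial of degree `E0`
    obtain ⟨γ, hγα, hγ⟩ : ∃ γ : Fin (N + 1) →₀ ℕ, γ ≤ α ∧ γ.degree = E0 := by
      clear ih hE hE0
      induction E0 with
      | zero => exact ⟨0, bot_le, by simp⟩
      | succ k ihk =>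
        obtain ⟨γ, h1, h2⟩ := ihk (by omega)
        have h3 : γ ≠ α := by
          rintro rfl
          omega
        have h4 : ∃ i, γ i < α i := by
          by_contra h
          push Not at h
          exact h3 (le_antisymm h1 fun i => h i)
        obtain ⟨i, hi⟩ := h4
        refine ⟨γ + Finsupp.single i 1, ?_, ?_⟩
        · intro j
          rcases eq_or_ne j i with rfl | hj
          · rw [Finsupp.add_apply, Finsupp.single_eq_same]
            exact hi
          · rw [Finsupp.add_apply, Finsupp.single_eq_of_ne hj, add_zero]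
            exact h1 j
        · rw [map_add, h2, Finsupp.degree_single]
    have hmul : monomial α (1 : ℂ) = monomial γ 1 * monomial (α - γ) 1 := by
      rw [monomial_mul, mul_one, add_tsub_cancel_of_le hγα]
    have h1 := hE (monomial γ 1) ⟨γ, hγ, rfl⟩
    obtain ⟨a, ha, b, hb, hab⟩ := Submodule.mem_sup.1 h1
    obtain ⟨c, hc⟩ := (Ideal.mem_span_range_iff_exists_fun).1 hb
    have hhom : (monomial α (1 : ℂ)).IsHomogeneous d := isHomogeneous_monomial _ hα
    obtain ⟨m, hm⟩ : ∃ m : MvPolynomial (Fin (N + 1)) ℂ, m = monomial (α - γ) (1 : ℂ) := ⟨_, rfl⟩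
    rw [← hm] at hmul
    have hsum : monomial α (1 : ℂ) = a * m + ∑ j, lin (lam j) * (c j * m) := by
      have h2 : monomial α (1 : ℂ) = (a + ∑ j, c j * lin (lam j)) * m := by
        rw [hmul, ← hab, hc]
      rw [h2, add_mul, Finset.sum_mul]
      exact congrArg (fun t => a * m + t) (Finset.sum_congr rfl fun j _ => by ring)
    have hd1 : 1 ≤ d := by omega
    have hcomp : monomial α (1 : ℂ) = homogeneousComponent d (a * m) +
        ∑ j, lin (lam j) * homogeneousComponent (d - 1) (c j * m) := by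
      have h2 := congrArg (homogeneousComponent d) hsum
      rw [homogeneousComponent_of_mem ((mem_homogeneousSubmodule _ _).2 hhom), if_pos rfl, map_add,
        map_sum] at h2
      rw [h2]
      refine congrArg (fun t => homogeneousComponent d (a * m) + t)
        (Finset.sum_congr rfl fun j _ => ?_)
      rw [hc_mul_left (lin_homog _), if_pos hd1]
    rw [hcomp, map_add, (mkA_eq_zero I lam).2 (hI _ (I.mul_mem_right _ ha) d), zero_add, map_sum]
    refine Submodule.sum_mem _ fun j _ => ?_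
    have h3 : mkA I lam (lin (lam j) * homogeneousComponent (d - 1) (c j * m)) =
        (X j : MvPolynomial (Fin (n + 1)) ℂ) • mkA I lam (homogeneousComponent (d - 1) (c j * m)) := by
      rw [smul_mkA]
      simp [sY]
    rw [h3]
    refine Submodule.smul_mem _ _ ?_
    have h4 := homog_mem_span (homogeneousComponent_isHomogeneous (d - 1) (c j * m))
    refine Submodule.span_induction (p := fun q _ => mkA I lam q ∈ Submodule.span
      (MvPolynomial (Fin (n + 1)) ℂ) ((fun q => mkA I lam q) '' {q | ∃ k < E0, isMon k q}))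
      ?_ ?_ ?_ ?_ h4
    · exact fun q hq => ih (d - 1) (by omega) q hq
    · rw [map_zero]
      exact Submodule.zero_mem _
    · intro x y _ _ hx hy
      rw [map_add]
      exact Submodule.add_mem _ hx hy
    · intro r x _ hx
      rw [map_smul, ← algebraMap_smul (MvPolynomial (Fin (n + 1)) ℂ) r (mkA I lam x)]
      exact Submodule.smul_mem _ _ hx

theorem finite_monos (E0 : ℕ) : {q : MvPolynomial (Fin (N + 1)) ℂ | ∃ k < E0, isMon k q}.Finite := by
  have h1 : (Set.Iic (Finsupp.equivFunOnFinite.symm fun _ : Fin (N + 1) => E0)).Finite :=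
    Set.finite_Iic _
  refine (h1.image fun α => monomial α (1 : ℂ)).subset ?_
  rintro q ⟨k, hk, α, hα, rfl⟩
  refine ⟨α, fun i => ?_, rfl⟩
  have h2 : α i ≤ α.degree := Finsupp.le_degree i α
  show α i ≤ E0
  omega

theorem finite_of_power {I : Ideal (MvPolynomial (Fin (N + 1)) ℂ)} (hI : HomI I)
    {lam : Fin (n + 1) → Fin (N + 1) → ℂ} {E0 : ℕ} (hE0 : 0 < E0)
    (hE : ∀ p, isMon E0 p → p ∈ I ⊔ Ideal.span (Set.range fun j => lin (lam j))) :
    Module.Finite (MvPolynomial (Fin (n + 1)) ℂ) (CR I lam) := by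
  refine ⟨⟨((finite_monos (N := N) E0).image fun q => mkA I lam q).toFinset, ?_⟩⟩
  rw [eq_top_iff]
  rintro x -
  obtain ⟨p, rfl⟩ := mkA_surjective I lam x
  rw [Set.Finite.coe_toFinset, p.as_sum, map_sum]
  refine Submodule.sum_mem _ fun α _ => ?_
  have h1 : monomial α (coeff α p) = (coeff α p) • (monomial α (1 : ℂ)) := by
    rw [smul_monomial, smul_eq_mul, mul_one]
  rw [h1, map_smul, ← algebraMap_smul (MvPolynomial (Fin (n + 1)) ℂ)]
  exact Submodule.smul_mem _ _ (span_of_power hI hE0 hE α.degree _ ⟨α, rfl, rfl⟩)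

theorem power_of_noZero {J : Ideal (MvPolynomial (Fin (N + 1)) ℂ)}
    (h0 : ∀ v : Fin (N + 1) → ℂ, (∀ p ∈ J, eval v p = 0) → v = 0) :
    ∃ e : ℕ, 0 < e ∧ ∀ i, (X i : MvPolynomial (Fin (N + 1)) ℂ) ^ e ∈ J := by
  have h1 : ∀ i, (X i : MvPolynomial (Fin (N + 1)) ℂ) ∈ J.radical := by
    intro i
    rw [← vanishingIdeal_zeroLocus_eq_radical (K := ℂ) J, mem_vanishingIdeal_iff]
    intro v hv
    have h2 := h0 v fun p hp => by
      have h3 := mem_zeroLocus_iff.1 hv p hp
      rwa [aeval_eq_eval] at h3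
    rw [h2]
    simp
  choose e he using h1
  refine ⟨(∑ i, e i) + 1, by omega, fun i => ?_⟩
  exact Ideal.pow_mem_of_pow_mem _ (he i)
    (le_trans (Finset.single_le_sum (fun j _ => Nat.zero_le (e j)) (Finset.mem_univ i))
      (Nat.le_succ _))

theorem mon_mem_of_power {J : Ideal (MvPolynomial (Fin (N + 1)) ℂ)} {e : ℕ}
    (he : ∀ i, (X i : MvPolynomial (Fin (N + 1)) ℂ) ^ e ∈ J) (p : MvPolynomial (Fin (N + 1)) ℂ)
    (hp : isMon ((N + 1) * e + 1) p) : p ∈ J := by
  obtain ⟨α, hα, rfl⟩ := hp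
  have h1 : ∃ i, e ≤ α i := by
    by_contra h
    push Not at h
    have h2 : α.degree = ∑ i, α i := Finsupp.degree_eq_sum α
    have h3 : ∑ i, α i ≤ ∑ _i : Fin (N + 1), e := Finset.sum_le_sum fun i _ => (h i).le
    rw [Finset.sum_const, Finset.card_univ, Fintype.card_fin, smul_eq_mul] at h3
    omega
  obtain ⟨i, hi⟩ := h1
  have h2 : monomial α (1 : ℂ) = X i ^ e * monomial (α - Finsupp.single i e) 1 := by
    rw [X_pow_eq_monomial, monomial_mul, mul_one, add_tsub_cancel_of_le]
    intro j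
    rcases eq_or_ne j i with rfl | hj
    · rw [Finsupp.single_eq_same]
      exact hi
    · rw [Finsupp.single_eq_of_ne hj]
      exact Nat.zero_le _
  rw [h2]
  exact J.mul_mem_right _ (he i)

/-- **finiteness of the projection** -/
theorem finite_of_noZero {I : Ideal (MvPolynomial (Fin (N + 1)) ℂ)} (hI : HomI I)
    {lam : Fin (n + 1) → Fin (N + 1) → ℂ}
    (h0 : ∀ v : Fin (N + 1) → ℂ, (∀ p ∈ I, eval v p = 0) → (∀ j, lv (lam j) v = 0) → v = 0) :
    Module.Finite (MvPolynomial (Fin (n + 1)) ℂ) (CR I lam) := by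
  obtain ⟨e, _, he⟩ := power_of_noZero (J := I ⊔ Ideal.span (Set.range fun j => lin (lam j)))
    fun v hv => h0 v (fun p hp => hv p (Ideal.mem_sup_left hp)) fun j => by
      rw [← eval_lin]
      exact hv _ (Ideal.mem_sup_right (Ideal.subset_span ⟨j, rfl⟩))
  exact finite_of_power hI (Nat.succ_pos _) fun p hp => mon_mem_of_power he p hp

end

end Crest.Agent.R281.Kr_488
end

-- ▼ part R281/Kr3_488
section

/-!
# R281, KRON (helper488), part 3: `G`, `Nm_k` and the identities
-/

set_option autoImplicit false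
set_option linter.unusedSectionVars false

open MvPolynomial

namespace Crest.Agent.R281.Kr_488

noncomputable section

variable {n N : ℕ}

/-- `ℂ[y]` -/
abbrev BR (n : ℕ) : Type := MvPolynomial (Fin (n + 1)) ℂ

/-- substitution `y_j = lam_j (x)`, `W = w (x)` -/
def subW (lam : Fin (n + 1) → Fin (N + 1) → ℂ) (w : Fin (N + 1) → ℂ) :
    Polynomial (BR n) →+* MvPolynomial (Fin (N + 1)) ℂ :=
  Polynomial.eval₂RingHom (sY lam).toRingHom (lin w)

theorem sY_homog (lam : Fin (n + 1) → Fin (N + 1) → ℂ) {p : BR n} {d : ℕ}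
    (hp : p.IsHomogeneous d) : (sY lam p).IsHomogeneous d := by
  have h := hp.aeval (fun j => lin (lam j)) fun j => lin_homog (lam j)
  rwa [one_mul] at h

theorem hc_sY (lam : Fin (n + 1) → Fin (N + 1) → ℂ) (p : BR n) (d : ℕ) :
    homogeneousComponent d (sY lam p) = sY lam (homogeneousComponent d p) := by
  conv_lhs => rw [← sum_homogeneousComponent p, map_sum, map_sum]
  have h1 : ∀ k, homogeneousComponent d (sY lam (homogeneousComponent k p)) =
      if d = k then sY lam (homogeneousComponent k p) else 0 := fun k =>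
    homogeneousComponent_of_mem ((mem_homogeneousSubmodule _ _).2
      (sY_homog lam (homogeneousComponent_isHomogeneous k p)))
  simp only [h1]
  by_cases h : d ∈ Finset.range (p.totalDegree + 1)
  · rw [Finset.sum_eq_single_of_mem _ h fun k _ hk => if_neg fun h => hk h.symm, if_pos rfl]
  · rw [Finset.sum_eq_zero fun k hk => if_neg ?_, homogeneousComponent_eq_zero, map_zero]
    · rw [Finset.mem_range] at h
      omega
    · rintro rfl
      exact h hk

/-- the part of total degree `d` -/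
def hp (d : ℕ) (P : Polynomial (BR n)) : Polynomial (BR n) :=
  ∑ i ∈ Finset.range (d + 1), Polynomial.C (homogeneousComponent (d - i) (P.coeff i)) *
    Polynomial.X ^ i

theorem coeff_hp (d : ℕ) (P : Polynomial (BR n)) (i : ℕ) :
    (hp d P).coeff i = if i ≤ d then homogeneousComponent (d - i) (P.coeff i) else 0 := by
  rw [hp, Polynomial.finsetSum_coeff]
  simp only [Polynomial.coeff_C_mul, Polynomial.coeff_X_pow, mul_ite, mul_one, mul_zero]
  rw [Finset.sum_ite_eq]
  simp only [Finset.mem_range, Nat.lt_succ_iff]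

theorem hc_subW (lam : Fin (n + 1) → Fin (N + 1) → ℂ) (w : Fin (N + 1) → ℂ)
    (P : Polynomial (BR n)) (d : ℕ) :
    homogeneousComponent d (subW lam w P) = subW lam w (hp d P) := by
  have h1 : subW lam w P = ∑ i ∈ Finset.range (P.natDegree + 1), sY lam (P.coeff i) * lin w ^ i := by
    show Polynomial.eval₂ _ _ P = _
    rw [Polynomial.eval₂_eq_sum_range]
    rfl
  have hlw : ∀ i, (lin w ^ i).IsHomogeneous i := fun i => by
    have := (lin_homog w).pow i
    rwa [one_mul] at this
  have h2 : ∀ i, homogeneousComponent d (sY lam (P.coeff i) * lin w ^ i) =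
      if i ≤ d then sY lam (homogeneousComponent (d - i) (P.coeff i)) * lin w ^ i else 0 := by
    intro i
    rw [mul_comm, hc_mul_left (hlw i)]
    split_ifs with h
    · rw [hc_sY, mul_comm]
    · rfl
  rw [h1, map_sum]
  simp only [h2]
  rw [hp, map_sum, ← Finset.sum_filter]
  have h3 : ∀ i, subW lam w (Polynomial.C (homogeneousComponent (d - i) (P.coeff i)) *
      Polynomial.X ^ i) = sY lam (homogeneousComponent (d - i) (P.coeff i)) * lin w ^ i := by
    intro i
    simp [subW]
  simp only [h3]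
  refine Finset.sum_subset_zero_on_sdiff ?_ ?_ fun _ _ => rfl
  · intro i hi
    rw [Finset.mem_filter] at hi
    exact Finset.mem_range.2 (Nat.lt_succ_of_le hi.2)
  · intro i hi
    rw [Finset.mem_sdiff, Finset.mem_filter, Finset.mem_range, Finset.mem_range] at hi
    have h4 : P.natDegree < i := by
      by_contra h
      exact hi.2 ⟨by omega, by omega⟩
    rw [Polynomial.coeff_eq_zero_of_natDegree_lt h4, map_zero, map_zero, zero_mul]

theorem aeval_mul_homog {σ R S : Type*} [CommRing R] [CommRing S] [Algebra R S]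
    {F : MvPolynomial σ R} {d : ℕ} (hF : F.IsHomogeneous d) (g : σ → S) (s : S) :
    MvPolynomial.aeval (fun k => g k * s) F = s ^ d * MvPolynomial.aeval g F := by
  rw [MvPolynomial.aeval_def, MvPolynomial.aeval_def, MvPolynomial.eval₂_eq,
    MvPolynomial.eval₂_eq, Finset.mul_sum]
  refine Finset.sum_congr rfl fun α hα => ?_
  have h1 : ∏ i ∈ α.support, (g i * s) ^ α i = (∏ i ∈ α.support, g i ^ α i) * s ^ d := by
    have h2 : α.degree = d := by
      rw [Finsupp.degree_eq_weight_one]
      exact hF (MvPolynomial.mem_support_iff.1 hα)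
    simp only [mul_pow]
    rw [Finset.prod_mul_distrib, Finset.prod_pow_eq_pow_sum]
    rw [← h2]
    rfl
  rw [h1]
  ring

section Main

variable (I : Ideal (MvPolynomial (Fin (N + 1)) ℂ)) (lam : Fin (n + 1) → Fin (N + 1) → ℂ)
  (w : Fin (N + 1) → ℂ)

/-- the element `w` of the coordinate ring -/
def wb : CR I lam := mkA I lam (lin w)

theorem aeval_wb (P : Polynomial (BR n)) :
    Polynomial.aeval (wb I lam w) P = mkA I lam (subW lam w P) := by
  have h : (Polynomial.aeval (wb I lam w) : Polynomial (BR n) →ₐ[BR n] CR I lam).toRingHom =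
      (mkA I lam).toRingHom.comp (subW lam w) := by
    refine Polynomial.ringHom_ext' ?_ ?_
    · refine MvPolynomial.ringHom_ext ?_ ?_
      · intro r
        simp [subW, algebraMap_eq]
      · intro j
        simp [subW, algebraMap_eq]
    · simp [subW, wb]
  exact congrArg (fun f => f P) h

variable [I.IsPrime] [Module.Finite (BR n) (CR I lam)] [FaithfulSMul (BR n) (CR I lam)]

/-- the minimal polynomial -/
def GG : Polynomial (BR n) := minpoly (BR n) (wb I lam w)

theorem wb_int : IsIntegral (BR n) (wb I lam w) := Algebra.IsIntegral.isIntegral _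

theorem GG_monic : (GG I lam w).Monic := minpoly.monic (wb_int I lam w)

theorem GG_dvd_iff (P : Polynomial (BR n)) : GG I lam w ∣ P ↔ subW lam w P ∈ I := by
  have h := minpoly.isIntegrallyClosed_dvd_iff (wb_int I lam w) P
  rw [aeval_wb, mkA_eq_zero] at h
  exact h.symm

/-- the degree -/
def DD : ℕ := (GG I lam w).natDegree

theorem DD_pos : 0 < DD I lam w := minpoly.natDegree_pos (wb_int I lam w)

theorem eq_zero_of_lt {P : Polynomial (BR n)} (hP : ∀ i, DD I lam w ≤ i → P.coeff i = 0)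
    (h : subW lam w P ∈ I) : P = 0 := by
  by_contra h0
  obtain ⟨Q, hQ⟩ := (GG_dvd_iff I lam w P).2 h
  have h1 : P.natDegree < DD I lam w := by
    by_contra h2
    push Not at h2
    have := hP _ h2
    rw [Polynomial.coeff_natDegree, Polynomial.leadingCoeff_eq_zero] at this
    exact h0 this
  have hQ0 : Q ≠ 0 := by
    rintro rfl
    rw [mul_zero] at hQ
    exact h0 hQ
  have h2 : P.natDegree = DD I lam w + Q.natDegree := by
    rw [hQ, (GG_monic I lam w).natDegree_mul' hQ0]
    rfl
  omega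

variable {I}

theorem GG_hp (hI : HomI I) : hp (DD I lam w) (GG I lam w) = GG I lam w := by
  rw [← sub_eq_zero]
  refine eq_zero_of_lt I lam w (fun i hi => ?_) ?_
  · rw [Polynomial.coeff_sub, coeff_hp]
    rcases hi.eq_or_lt with h | h
    · subst h
      rw [if_pos le_rfl, Nat.sub_self]
      have h1 : (GG I lam w).coeff (DD I lam w) = 1 := (GG_monic I lam w).coeff_natDegree
      rw [h1, homogeneousComponent_of_mem ((mem_homogeneousSubmodule _ _).2
        (isHomogeneous_one (Fin (n + 1)) ℂ)), if_pos rfl, sub_self]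
    · rw [if_neg (by omega), Polynomial.coeff_eq_zero_of_natDegree_lt h, sub_self]
  · rw [map_sub, ← hc_subW]
    have h1 : subW lam w (GG I lam w) ∈ I := (GG_dvd_iff I lam w _).1 dvd_rfl
    exact I.sub_mem (hI _ h1 _) h1

theorem GG_homog (hI : HomI I) (i : ℕ) (hi : i ≤ DD I lam w) :
    ((GG I lam w).coeff i).IsHomogeneous (DD I lam w - i) := by
  rw [← GG_hp lam w hI, coeff_hp, if_pos hi]
  exact homogeneousComponent_isHomogeneous _ _

theorem dG_homog (hI : HomI I) :
    (subW lam w (Polynomial.derivative (GG I lam w))).IsHomogeneous (DD I lam w - 1) := by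
  have h1 : Polynomial.derivative (GG I lam w) =
      hp (DD I lam w - 1) (Polynomial.derivative (GG I lam w)) := by
    ext1 i
    rw [coeff_hp, Polynomial.coeff_derivative]
    split_ifs with h
    · have h2 := (GG_homog lam w hI (i + 1) (by have := DD_pos I lam w; omega))
      have h3 : ((GG I lam w).coeff (i + 1) * ((i : BR n) + 1)).IsHomogeneous
          (DD I lam w - 1 - i) := by
        have h4 : ((i : BR n) + 1).IsHomogeneous 0 := by
          have := isHomogeneous_C (R := ℂ) (Fin (n + 1)) ((i : ℂ) + 1)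
          rwa [map_add, map_one, map_natCast] at this
        have h5 := h2.mul h4
        rw [add_zero] at h5
        convert h5 using 1
        omega
      rw [homogeneousComponent_of_mem ((mem_homogeneousSubmodule _ _).2 h3), if_pos rfl]
    · rw [Polynomial.coeff_eq_zero_of_natDegree_lt, zero_mul]
      have := DD_pos I lam w
      show DD I lam w < _
      omega
  rw [h1, ← hc_subW]
  exact homogeneousComponent_isHomogeneous _ _

attribute [local instance] FractionRing.liftAlgebra

/-- **the Kronecker data of `(I, lam, w)`** -/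
theorem exists_good (hI : HomI I)
    (hw : Algebra.adjoin (FractionRing (BR n))
      {algebraMap (CR I lam) (FractionRing (CR I lam)) (wb I lam w)} = ⊤) :
    ∃ κ : KDat n N ℂ, κ.lam = lam ∧ κ.w = w ∧ κ.G = GG I lam w ∧
      κ.Good {p | p ∈ I ∧ ∃ d, p.IsHomogeneous d} := by
  classical
  choose q hq1 hq2 using fun k => kron_alg (wb I lam w) hw (mkA I lam (X k))
  set D := DD I lam w with hD
  have hDp : 0 < D := DD_pos I lam w
  have hsq : ∀ k, subW lam w (hp D (q k)) - X k * subW lam w (Polynomial.derivative (GG I lam w))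
      ∈ I := by
    intro k
    have h1 : subW lam w (q k) - X k * subW lam w (Polynomial.derivative (GG I lam w)) ∈ I := by
      rw [← mkA_eq_zero I lam, map_sub, map_mul, ← aeval_wb, ← aeval_wb, hq2 k]
      exact sub_self _
    have h2 := hI _ h1 D
    rw [map_sub, hc_subW] at h2
    have h3 : (X k * subW lam w (Polynomial.derivative (GG I lam w))).IsHomogeneous D := by
      have := (isHomogeneous_X ℂ k).mul (dG_homog lam w hI)
      convert this using 1
      omega
    rwa [homogeneousComponent_of_mem ((mem_homogeneousSubmodule _ _).2 h3), if_pos rfl] at h2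
  have hNd : ∀ k i, D ≤ i → (hp D (q k)).coeff i = 0 := by
    intro k i hi
    rw [coeff_hp]
    split_ifs with h
    · rw [hq1 k i hi, map_zero]
    · rfl
  have hder : ∀ i, D ≤ i → (Polynomial.derivative (GG I lam w)).coeff i = 0 := by
    intro i hi
    rw [Polynomial.coeff_derivative, Polynomial.coeff_eq_zero_of_natDegree_lt, zero_mul]
    show D < _
    omega
  let κ : KDat n N ℂ := ⟨lam, w, D, GG I lam w, fun k => hp D (q k)⟩
  have hlin : ∀ a : Fin (N + 1) → ℂ, subW lam w (∑ k, Polynomial.C (MvPolynomial.C (a k)) *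
      hp D (q k)) - lin a * subW lam w (Polynomial.derivative (GG I lam w)) ∈ I := by
    intro a
    have h1 : subW lam w (∑ k, Polynomial.C (MvPolynomial.C (a k)) * hp D (q k)) -
        lin a * subW lam w (Polynomial.derivative (GG I lam w)) =
        ∑ k, MvPolynomial.C (a k) * (subW lam w (hp D (q k)) -
          X k * subW lam w (Polynomial.derivative (GG I lam w))) := by
      rw [map_sum, lin, Finset.sum_mul, ← Finset.sum_sub_distrib]
      refine Finset.sum_congr rfl fun k _ => ?_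
      rw [map_mul]
      have h2 : subW lam w (Polynomial.C (MvPolynomial.C (a k))) = MvPolynomial.C (a k) := by
        simp [subW, sY]
      rw [h2]
      ring
    rw [h1]
    exact I.sum_mem fun k _ => I.mul_mem_left _ (hsq k)
  refine ⟨κ, rfl, rfl, rfl, ⟨hDp, GG_monic I lam w, rfl, fun i hi => GG_homog lam w hI i hi, hNd,
    fun k i hi => ?_, fun j => ?_, ?_, ?_, ?_, fun k => ?_⟩⟩
  · show ((hp D (q k)).coeff i).IsHomogeneous _
    rw [coeff_hp, if_pos hi.le]
    exact homogeneousComponent_isHomogeneous _ _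
  · rw [← sub_eq_zero]
    refine eq_zero_of_lt I lam w (fun i hi => ?_) ?_
    · rw [Polynomial.coeff_sub, Polynomial.finsetSum_coeff]
      rw [Finset.sum_eq_zero fun k _ => by
        rw [Polynomial.coeff_C_mul]
        show _ * (hp D (q k)).coeff i = 0
        rw [hNd k i hi, mul_zero]]
      rw [Polynomial.coeff_C_mul]
      show 0 - _ * (Polynomial.derivative (GG I lam w)).coeff i = 0
      rw [hder i hi, mul_zero, sub_zero]
    · have h1 := hlin (lam j)
      rw [map_sub, map_mul]
      have h2 : subW lam w (Polynomial.C (X j)) = lin (lam j) := by simp [subW, sY]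
      rw [h2]
      exact h1
  · rw [← sub_eq_zero]
    refine eq_zero_of_lt I lam w (fun i hi => ?_) ?_
    · rw [Polynomial.coeff_sub, Polynomial.finsetSum_coeff]
      rw [Finset.sum_eq_zero fun k _ => by
        rw [Polynomial.coeff_C_mul]
        show _ * (hp D (q k)).coeff i = 0
        rw [hNd k i hi, mul_zero]]
      rw [zero_sub, neg_eq_zero, Polynomial.coeff_sub]
      have h3 : ((D : Polynomial (BR n)) * GG I lam w).coeff i = (D : BR n) *
          (GG I lam w).coeff i := by
        rw [← Polynomial.C_eq_natCast, Polynomial.coeff_C_mul]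
      show (Polynomial.X * Polynomial.derivative (GG I lam w)).coeff i -
        ((D : Polynomial (BR n)) * GG I lam w).coeff i = 0
      obtain ⟨i', rfl⟩ : ∃ i', i = i' + 1 := ⟨i - 1, by omega⟩
      rw [h3, Polynomial.coeff_X_mul, Polynomial.coeff_derivative]
      rcases hi.eq_or_lt with h | h
      · have hD2 : D = i' + 1 := h
        rw [hD2]
        push_cast
        ring
      · rw [Polynomial.coeff_eq_zero_of_natDegree_lt (show (GG I lam w).natDegree < i' + 1 from h)]
        ring
    · have h1 := hlin w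
      have h4 : subW lam w (GG I lam w) ∈ I := (GG_dvd_iff I lam w _).1 dvd_rfl
      have h5 : subW lam w (∑ k, Polynomial.C (MvPolynomial.C (w k)) * hp D (q k) -
          (Polynomial.X * Polynomial.derivative (GG I lam w) -
            (D : Polynomial (BR n)) * GG I lam w)) =
          (subW lam w (∑ k, Polynomial.C (MvPolynomial.C (w k)) * hp D (q k)) -
            lin w * subW lam w (Polynomial.derivative (GG I lam w))) +
          (D : MvPolynomial (Fin (N + 1)) ℂ) * subW lam w (GG I lam w) := by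
        rw [map_sub, map_sub, map_mul, map_mul, map_natCast]
        have h6 : subW lam w Polynomial.X = lin w := by simp [subW]
        rw [h6]
        ring
      show subW lam w (∑ k, Polynomial.C (MvPolynomial.C (w k)) * hp D (q k) -
          (Polynomial.X * Polynomial.derivative (GG I lam w) -
            (D : Polynomial (BR n)) * GG I lam w)) ∈ I
      rw [h5]
      exact I.add_mem h1 (I.mul_mem_left _ h4)
  · rintro F ⟨hF, d, hFd⟩
    show GG I lam w ∣ _
    rw [GG_dvd_iff]
    -- `F (N) ≡ dG^d F (x)`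
    have h1 : mkA I lam (subW lam w (MvPolynomial.aeval (fun k => hp D (q k)) F)) =
        mkA I lam (MvPolynomial.aeval (fun k => X k *
          subW lam w (Polynomial.derivative (GG I lam w))) F) := by
      have h2 : (mkA I lam).toRingHom.comp ((subW lam w).comp
          (MvPolynomial.aeval (R := ℂ) fun k => hp D (q k)).toRingHom) =
          (mkA I lam).toRingHom.comp (MvPolynomial.aeval (R := ℂ) fun k => X k *
          subW lam w (Polynomial.derivative (GG I lam w))).toRingHom := by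
        refine MvPolynomial.ringHom_ext ?_ ?_
        · intro r
          have h3 : subW lam w (algebraMap ℂ (Polynomial (BR n)) r) = MvPolynomial.C r := by
            rw [Polynomial.algebraMap_apply]
            simp [subW, sY]
          simp only [RingHom.comp_apply, AlgHom.toRingHom_eq_coe, RingHom.coe_coe,
            MvPolynomial.algHom_C]
          rw [h3]
          simp
        · intro k
          simp only [RingHom.comp_apply, AlgHom.toRingHom_eq_coe, RingHom.coe_coe,
            MvPolynomial.aeval_X]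
          rw [← sub_eq_zero, ← map_sub, mkA_eq_zero]
          exact hsq k
      exact congrArg (fun f => f F) h2
    rw [← mkA_eq_zero I lam]
    refine h1.trans ?_
    rw [mkA_eq_zero]
    have h3 : MvPolynomial.aeval (fun k => X k *
        subW lam w (Polynomial.derivative (GG I lam w))) F =
        subW lam w (Polynomial.derivative (GG I lam w)) ^ d * F := by
      rw [aeval_mul_homog hFd, MvPolynomial.aeval_X_left_apply]
    rw [h3]
    exact I.mul_mem_left _ hF
  · refine ⟨(GG_dvd_iff I lam w _).1 dvd_rfl, D, ?_⟩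
    have h1 := homogeneousComponent_isHomogeneous D (subW lam w (GG I lam w))
    rw [hc_subW, GG_hp lam w hI] at h1
    exact h1
  · have h1 : X k * κ.dG - κ.sub (κ.Nm k) = -(subW lam w (hp D (q k)) -
        X k * subW lam w (Polynomial.derivative (GG I lam w))) := by
      rw [neg_sub]
      rfl
    rw [h1]
    refine ⟨I.neg_mem (hsq k), D, ?_⟩
    rw [neg_sub]
    refine IsHomogeneous.sub ?_ ?_
    · have h5 := (isHomogeneous_X ℂ k).mul (dG_homog lam w hI)
      have h6 : 1 + (DD I lam w - 1) = D := by omega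
      rw [h6] at h5
      exact h5
    · rw [← hc_subW]
      exact homogeneousComponent_isHomogeneous _ _

end Main

end

end Crest.Agent.R281.Kr_488
end

-- ▼ part R281/Kr4_488
section

/-!
# R281, KRON (helper488), part 4: lifting of points, separability, `G' ≠ 0` at a good point
-/

set_option autoImplicit false
set_option linter.unusedSectionVars false

open MvPolynomial Filter Topology

namespace Crest.Agent.R281.Kr_488

noncomputable section

variable {n N : ℕ}

/-- the zero set -/
def Vz (I : Ideal (MvPolynomial (Fin (N + 1)) ℂ)) : Set (Fin (N + 1) → ℂ) :=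
  {v | ∀ p ∈ I, eval v p = 0}

/-- the values of the linear forms -/
def lamv (lam : Fin (n + 1) → Fin (N + 1) → ℂ) (v : Fin (N + 1) → ℂ) : Fin (n + 1) → ℂ :=
  fun j => lv (lam j) v

/-- the value at `(y, W)` -/
def ev (y : Fin (n + 1) → ℂ) (W : ℂ) : Polynomial (BR n) →+* ℂ :=
  Polynomial.eval₂RingHom (MvPolynomial.eval y) W

theorem eval_subW (lam : Fin (n + 1) → Fin (N + 1) → ℂ) (w : Fin (N + 1) → ℂ)
    (p : Polynomial (BR n)) (v : Fin (N + 1) → ℂ) :
    MvPolynomial.eval v (subW lam w p) = ev (lamv lam v) (lv w v) p := by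
  have h : (MvPolynomial.eval v).comp (subW lam w) = ev (lamv lam v) (lv w v) := by
    refine Polynomial.ringHom_ext' ?_ ?_
    · refine MvPolynomial.ringHom_ext ?_ ?_
      · intro r
        simp [subW, ev, sY]
      · intro j
        simp [subW, ev, sY, eval_lin, lamv]
    · simp [subW, ev, eval_lin]
  exact congrArg (fun f => f p) h

theorem isClosed_Vz (I : Ideal (MvPolynomial (Fin (N + 1)) ℂ)) : IsClosed (Vz I) := by
  have h : Vz I = ⋂ p ∈ I, {v | eval v p = 0} := by
    ext v
    simp [Vz]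
  rw [h]
  exact isClosed_biInter fun p _ => isClosed_eq (MvPolynomial.continuous_eval p) continuous_const

theorem continuous_lv (a : Fin (N + 1) → ℂ) : Continuous (lv a) := by
  unfold lv
  fun_prop

theorem continuous_lamv (lam : Fin (n + 1) → Fin (N + 1) → ℂ) : Continuous (lamv lam) :=
  continuous_pi fun j => continuous_lv (lam j)

theorem lv_smul (a : Fin (N + 1) → ℂ) (c : ℂ) (v : Fin (N + 1) → ℂ) : lv a (c • v) = c * lv a v := by
  unfold lv
  rw [Finset.mul_sum]
  exact Finset.sum_congr rfl fun k _ => by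
    rw [Pi.smul_apply, smul_eq_mul]
    ring

theorem lamv_smul (lam : Fin (n + 1) → Fin (N + 1) → ℂ) (c : ℂ) (v : Fin (N + 1) → ℂ) :
    lamv lam (c • v) = c • lamv lam v := by
  funext j
  exact lv_smul _ _ _

theorem eval_smul_homog {m : ℕ} {p : MvPolynomial (Fin m) ℂ} {d : ℕ} (hp : p.IsHomogeneous d)
    (c : ℂ) (v : Fin m → ℂ) : eval (c • v) p = c ^ d * eval v p := by
  have h := aeval_mul_homog (S := ℂ) hp v c
  rw [MvPolynomial.aeval_eq_eval, MvPolynomial.aeval_eq_eval] at h
  rw [← h]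
  congr 1
  congr 1
  funext k
  rw [Pi.smul_apply, smul_eq_mul, mul_comm]

/-- the zero set is a cone -/
theorem Vz_smul {I : Ideal (MvPolynomial (Fin (N + 1)) ℂ)} (hI : HomI I) {v : Fin (N + 1) → ℂ}
    (hv : v ∈ Vz I) (c : ℂ) : c • v ∈ Vz I := by
  intro p hp
  rw [← sum_homogeneousComponent p, map_sum]
  refine Finset.sum_eq_zero fun d _ => ?_
  rw [eval_smul_homog (homogeneousComponent_isHomogeneous d p), hv _ (hI p hp d), mul_zero]

/-- boundedness of the fibres -/
theorem exists_bound {I : Ideal (MvPolynomial (Fin (N + 1)) ℂ)} (hI : HomI I)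
    {lam : Fin (n + 1) → Fin (N + 1) → ℂ} (h0 : ∀ v ∈ Vz I, lamv lam v = 0 → v = 0) :
    ∃ C : ℝ, 0 < C ∧ ∀ v ∈ Vz I, ‖v‖ ≤ C * ‖lamv lam v‖ := by
  have hK : IsCompact (Metric.sphere (0 : Fin (N + 1) → ℂ) 1 ∩ Vz I) :=
    (isCompact_sphere 0 1).inter_right (isClosed_Vz I)
  rcases (Metric.sphere (0 : Fin (N + 1) → ℂ) 1 ∩ Vz I).eq_empty_or_nonempty with he | hne
  · refine ⟨1, one_pos, fun v hv => ?_⟩
    rcases eq_or_ne v 0 with rfl | hv0
    · simp
    · exfalso
      have hn : ‖v‖ ≠ 0 := norm_ne_zero_iff.2 hv0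
      have h1 : ((‖v‖⁻¹ : ℝ) : ℂ) • v ∈ Metric.sphere (0 : Fin (N + 1) → ℂ) 1 ∩ Vz I := by
        refine ⟨?_, Vz_smul hI hv _⟩
        rw [mem_sphere_zero_iff_norm, norm_smul, Complex.norm_real, norm_inv, norm_norm,
          inv_mul_cancel₀ hn]
      rw [he] at h1
      exact h1
  · obtain ⟨v0, hv0, hmin⟩ := hK.exists_isMinOn hne (continuous_lamv lam).norm.continuousOn
    have hc : 0 < ‖lamv lam v0‖ := by
      rw [norm_pos_iff]
      intro h
      have h1 := h0 v0 hv0.2 h
      have h2 := hv0.1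
      rw [h1, mem_sphere_zero_iff_norm, norm_zero] at h2
      exact zero_ne_one h2
    refine ⟨‖lamv lam v0‖⁻¹, inv_pos.2 hc, fun v hv => ?_⟩
    rcases eq_or_ne v 0 with rfl | hvn
    · rw [norm_zero]
      positivity
    · have hn : 0 < ‖v‖ := norm_pos_iff.2 hvn
      have h1 : ((‖v‖⁻¹ : ℝ) : ℂ) • v ∈ Metric.sphere (0 : Fin (N + 1) → ℂ) 1 ∩ Vz I := by
        refine ⟨?_, Vz_smul hI hv _⟩
        rw [mem_sphere_zero_iff_norm, norm_smul, Complex.norm_real, norm_inv, norm_norm,
          inv_mul_cancel₀ hn.ne']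
      have h2 : ‖lamv lam v0‖ ≤ ‖lamv lam (((‖v‖⁻¹ : ℝ) : ℂ) • v)‖ := hmin h1
      rw [lamv_smul, norm_smul, Complex.norm_real, norm_inv, norm_norm] at h2
      rw [inv_mul_eq_div, le_div_iff₀ hc]
      have h3 := mul_le_mul_of_nonneg_left h2 hn.le
      rwa [← mul_assoc, mul_inv_cancel₀ hn.ne', one_mul] at h3

/-- a non-zero polynomial does not vanish near a point -/
theorem mem_closure_ne_zero {m : ℕ} {d : MvPolynomial (Fin m) ℂ} (hd : d ≠ 0) (y0 : Fin m → ℂ) :
    y0 ∈ closure {y | eval y d ≠ 0} := by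
  by_contra h
  rw [mem_closure_iff_frequently, not_frequently] at h
  apply hd
  obtain ⟨ε, hε, hb⟩ := Metric.eventually_nhds_iff_ball.1 h
  refine MvPolynomial.funext_set (fun i => Metric.ball (y0 i) ε) (fun i => ?_) fun y hy => ?_
  · exact infinite_of_mem_nhds (y0 i) (Metric.ball_mem_nhds _ hε)
  · rw [map_zero]
    by_contra h0
    refine hb y ?_ h0
    rw [Metric.mem_ball, dist_pi_lt_iff hε]
    exact fun i => hy i (Set.mem_univ i)

section Main

variable (I : Ideal (MvPolynomial (Fin (N + 1)) ℂ)) (lam : Fin (n + 1) → Fin (N + 1) → ℂ)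
  (w : Fin (N + 1) → ℂ) [I.IsPrime] [Module.Finite (BR n) (CR I lam)]
  [FaithfulSMul (BR n) (CR I lam)]

/-- **lying over** -/
theorem exists_lift {y : Fin (n + 1) → ℂ} {W : ℂ} (h : ev y W (GG I lam w) = 0) :
    ∃ v ∈ Vz I, lamv lam v = y ∧ lv w v = W := by
  let φ : Polynomial (BR n) →+* CR I lam := (mkA I lam).toRingHom.comp (subW lam w)
  have hφ : ∀ p, φ p = mkA I lam (subW lam w p) := fun _ => rfl
  have hint : φ.IsIntegral := by
    refine RingHom.IsIntegral.tower_top (Polynomial.C : BR n →+* Polynomial (BR n)) φ ?_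
    have h1 : φ.comp (Polynomial.C : BR n →+* Polynomial (BR n)) =
        algebraMap (BR n) (CR I lam) := by
      refine RingHom.ext fun p => ?_
      simp [φ, subW, algebraMap_eq]
    rw [h1]
    exact fun x => Algebra.IsIntegral.isIntegral x
  have hsurj : Function.Surjective (ev y W) := by
    intro c
    refine ⟨Polynomial.C (MvPolynomial.C c), ?_⟩
    simp [ev]
  letI : Algebra (Polynomial (BR n)) (CR I lam) := φ.toAlgebra
  haveI : Algebra.IsIntegral (Polynomial (BR n)) (CR I lam) := ⟨hint⟩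
  haveI := RingHom.ker_isMaximal_of_surjective (ev y W) hsurj
  obtain ⟨Q, hQ, hQP⟩ := Ideal.exists_ideal_over_maximal_of_isIntegral (S := CR I lam)
    (RingHom.ker (ev y W)) (by
      intro p hp
      have h1 : φ p = 0 := hp
      rw [hφ, mkA_eq_zero, ← GG_dvd_iff] at h1
      obtain ⟨q, rfl⟩ := h1
      rw [RingHom.mem_ker, map_mul, h, zero_mul])
  have hmax : (Ideal.comap (mkA I lam) Q).IsMaximal :=
    Ideal.comap_isMaximal_of_surjective (mkA I lam) (mkA_surjective I lam)
  obtain ⟨v, hv⟩ := MvPolynomial.isMaximal_iff_eq_vanishingIdeal_singleton.1 hmax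
  have hmem : ∀ p : MvPolynomial (Fin (N + 1)) ℂ, mkA I lam p ∈ Q → eval v p = 0 := by
    intro p hp
    have h1 : p ∈ Ideal.comap (mkA I lam) Q := hp
    rw [hv, MvPolynomial.mem_vanishingIdeal_singleton_iff] at h1
    rwa [MvPolynomial.aeval_eq_eval] at h1
  have hker : ∀ p : Polynomial (BR n), ev y W p = 0 → ev (lamv lam v) (lv w v) p = 0 := by
    intro p hp
    rw [← eval_subW]
    refine hmem _ ?_
    have h1 : p ∈ Ideal.comap (algebraMap (Polynomial (BR n)) (CR I lam)) Q := by
      rw [hQP]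
      exact hp
    exact h1
  refine ⟨v, fun p hp => hmem p ?_, ?_, ?_⟩
  · rw [(mkA_eq_zero I lam).2 hp]
    exact Q.zero_mem
  · funext j
    have h1 := hker (Polynomial.C (X j - MvPolynomial.C (y j))) (by simp [ev])
    have h2 : lamv lam v j - y j = 0 := by simpa [ev] using h1
    exact sub_eq_zero.1 h2
  · have h1 := hker (Polynomial.X - Polynomial.C (MvPolynomial.C W)) (by simp [ev])
    have h2 : lv w v - W = 0 := by simpa [ev] using h1
    exact sub_eq_zero.1 h2

/-- **Bezout identity** -/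
theorem exists_bezout : ∃ (U V : Polynomial (BR n)) (d : BR n), d ≠ 0 ∧
    U * GG I lam w + V * Polynomial.derivative (GG I lam w) = Polynomial.C d := by
  classical
  have hirr : Irreducible ((GG I lam w).map (algebraMap (BR n) (FractionRing (BR n)))) :=
    ((GG_monic I lam w).irreducible_iff_irreducible_map_fraction_map).1
      (minpoly.irreducible (wb_int I lam w))
  obtain ⟨a, b, hab⟩ := (Polynomial.separable_def' _).1 hirr.separable
  obtain ⟨c, hc, hc'⟩ := IsLocalization.integerNormalization_spec (nonZeroDivisors (BR n)) a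
  obtain ⟨e, he, he'⟩ := IsLocalization.integerNormalization_spec (nonZeroDivisors (BR n)) b
  refine ⟨Polynomial.C e * IsLocalization.integerNormalization (nonZeroDivisors (BR n)) a,
    Polynomial.C c * IsLocalization.integerNormalization (nonZeroDivisors (BR n)) b, c * e,
    mul_ne_zero (nonZeroDivisors.ne_zero hc) (nonZeroDivisors.ne_zero he), ?_⟩
  apply Polynomial.map_injective (algebraMap (BR n) (FractionRing (BR n)))
    (IsFractionRing.injective _ _)
  simp only [Polynomial.map_add, Polynomial.map_mul, Polynomial.map_C]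
  rw [hc', he', ← Polynomial.derivative_map]
  rw [Algebra.smul_def, Algebra.smul_def]
  have h1 : ∀ r : BR n, algebraMap (BR n) (Polynomial (FractionRing (BR n))) r =
      Polynomial.C (algebraMap (BR n) (FractionRing (BR n)) r) := fun r => rfl
  rw [h1, h1]
  have h2 := congrArg (fun t => Polynomial.C (algebraMap (BR n) (FractionRing (BR n)) c) *
    Polynomial.C (algebraMap (BR n) (FractionRing (BR n)) e) * t) hab
  simp only [mul_one] at h2
  rw [map_mul, map_mul, ← h2]
  ring

/-- distinct lifts over a regular point -/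
theorem exists_lifts {y : Fin (n + 1) → ℂ} {U V : Polynomial (BR n)} {d : BR n}
    (hUV : U * GG I lam w + V * Polynomial.derivative (GG I lam w) = Polynomial.C d)
    (hd : eval y d ≠ 0) :
    ∃ v : Fin (DD I lam w) → (Fin (N + 1) → ℂ), (∀ i, v i ∈ Vz I) ∧ (∀ i, lamv lam (v i) = y) ∧
      Function.Injective (fun i => lv w (v i)) ∧
      ∀ T, ev y T (GG I lam w) = ∏ i, (T - lv w (v i)) := by
  classical
  set g : Polynomial ℂ := (GG I lam w).map (eval y) with hg
  have hgm : g.Monic := (GG_monic I lam w).map _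
  have hgd : g.natDegree = DD I lam w := (GG_monic I lam w).natDegree_map _
  have hsep : g.Separable := by
    rw [Polynomial.separable_def']
    refine ⟨Polynomial.C (eval y d)⁻¹ * U.map (eval y), Polynomial.C (eval y d)⁻¹ * V.map (eval y),
      ?_⟩
    have h1 := congrArg (Polynomial.map (eval y)) hUV
    rw [Polynomial.map_add, Polynomial.map_mul, Polynomial.map_mul, Polynomial.map_C,
      ← Polynomial.derivative_map] at h1
    rw [mul_assoc, mul_assoc, ← mul_add, h1, ← Polynomial.C_mul, inv_mul_cancel₀ hd,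
      Polynomial.C_1]
  have hnd := Polynomial.nodup_roots hsep
  have hcard : Fintype.card g.roots.toFinset = DD I lam w := by
    rw [Fintype.card_coe, Multiset.toFinset_card_of_nodup hnd, ← hgd]
    exact (IsAlgClosed.splits g).natDegree_eq_card_roots.symm
  let σ : Fin (DD I lam w) ≃ g.roots.toFinset := (Fintype.equivFinOfCardEq hcard).symm
  have hroot : ∀ i, ev y (σ i : ℂ) (GG I lam w) = 0 := by
    intro i
    have h1 : (σ i : ℂ) ∈ g.roots := Multiset.mem_toFinset.1 (σ i).2
    have h2 := Polynomial.isRoot_of_mem_roots h1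
    rw [Polynomial.IsRoot, Polynomial.eval_map] at h2
    exact h2
  choose v hv1 hv2 hv3 using fun i => exists_lift I lam w (hroot i)
  refine ⟨v, hv1, hv2, ?_, ?_⟩
  · intro i j hij
    simp only [hv3] at hij
    exact σ.injective (Subtype.ext hij)
  · intro T
    have h1 := (IsAlgClosed.splits g).eq_prod_roots_of_monic hgm
    have h2 : ev y T (GG I lam w) = g.eval T := by
      rw [hg, Polynomial.eval_map]
      rfl
    rw [h2, h1, Polynomial.eval_multiset_prod, Multiset.map_map]
    simp only [Function.comp_apply, Polynomial.eval_sub, Polynomial.eval_X, Polynomial.eval_C, hv3]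
    have h3 : (∏ i, (T - (σ i : ℂ))) = ∏ x : g.roots.toFinset, (T - (x : ℂ)) :=
      Fintype.prod_equiv σ _ _ fun i => rfl
    rw [h3, Finset.prod_coe_sort g.roots.toFinset (fun x => T - x), Finset.prod,
      Multiset.toFinset_val, hnd.dedup]

/-- **`G' ≠ 0` at a point where the projection is locally injective and `w` separates the
fibre** -/
theorem dG_ne_zero (hI : HomI I) (h0 : ∀ v ∈ Vz I, lamv lam v = 0 → v = 0)
    {x0 : Fin (N + 1) → ℂ} (hx0 : x0 ∈ Vz I)
    (hloc : ∃ O ∈ 𝓝 x0, Set.InjOn (lamv lam) (Vz I ∩ O))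
    (hsep : ∀ v ∈ Vz I, lamv lam v = lamv lam x0 → lv w v = lv w x0 → v = x0) :
    eval x0 (subW lam w (Polynomial.derivative (GG I lam w))) ≠ 0 := by
  classical
  obtain ⟨U, V, d, hd, hUV⟩ := exists_bezout I lam w
  obtain ⟨C, hC, hCb⟩ := exists_bound hI h0
  set y0 := lamv lam x0 with hy0
  set W0 := lv w x0 with hW0
  obtain ⟨ys, hys, hyt⟩ := mem_closure_iff_seq_limit.1 (mem_closure_ne_zero hd y0)
  choose vs hv1 hv2 hv3 hv4 using fun m => exists_lifts I lam w hUV (hys m)
  -- bounded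
  obtain ⟨R, hR⟩ : ∃ R : ℝ, ∀ m, ‖ys m‖ ≤ R := by
    obtain ⟨R, hR⟩ := (Metric.isBounded_range_of_tendsto ys hyt).exists_norm_le
    exact ⟨R, fun m => hR _ ⟨m, rfl⟩⟩
  have hR0 : 0 ≤ R := (norm_nonneg _).trans (hR 0)
  have hb : ∀ m, vs m ∈ Metric.closedBall (0 : Fin (DD I lam w) → (Fin (N + 1) → ℂ)) (C * R) := by
    intro m
    rw [mem_closedBall_zero_iff, pi_norm_le_iff_of_nonneg (by positivity)]
    intro i
    refine (hCb _ (hv1 m i)).trans ?_
    rw [hv2 m i]
    exact mul_le_mul_of_nonneg_left (hR m) hC.le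
  obtain ⟨v, -, φ, hφ, hφt⟩ := (isCompact_closedBall _ _).tendsto_subseq hb
  have hvi : ∀ i, Tendsto (fun m => vs (φ m) i) atTop (𝓝 (v i)) := fun i =>
    (tendsto_pi_nhds.1 hφt) i
  have hyφ : Tendsto (fun m => ys (φ m)) atTop (𝓝 y0) := hyt.comp hφ.tendsto_atTop
  have hvX : ∀ i, v i ∈ Vz I := fun i =>
    (isClosed_Vz I).mem_of_tendsto (hvi i) (Eventually.of_forall fun m => hv1 _ i)
  have hvy : ∀ i, lamv lam (v i) = y0 := by
    intro i
    refine tendsto_nhds_unique (((continuous_lamv lam).tendsto _).comp (hvi i)) ?_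
    refine hyφ.congr fun m => ?_
    exact (hv2 (φ m) i).symm
  have hprod : ∀ T, ev y0 T (GG I lam w) = ∏ i, (T - lv w (v i)) := by
    intro T
    have hcont : Continuous fun y : Fin (n + 1) → ℂ => ev y T (GG I lam w) := by
      have h1 : (fun y : Fin (n + 1) → ℂ => ev y T (GG I lam w)) = fun y =>
          ∑ i ∈ Finset.range ((GG I lam w).natDegree + 1), eval y ((GG I lam w).coeff i) * T ^ i := by
        funext y
        show Polynomial.eval₂ _ _ _ = _
        rw [Polynomial.eval₂_eq_sum_range]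
      rw [h1]
      exact continuous_finsetSum _ fun i _ => (MvPolynomial.continuous_eval _).mul continuous_const
    refine tendsto_nhds_unique ((hcont.tendsto y0).comp hyφ) ?_
    have h2 : Tendsto (fun m => ∏ i, (T - lv w (vs (φ m) i))) atTop
        (𝓝 (∏ i, (T - lv w (v i)))) :=
      tendsto_finsetProd _ fun i _ => tendsto_const_nhds.sub
        (((continuous_lv w).tendsto _).comp (hvi i))
    refine h2.congr fun m => ?_
    exact (hv4 (φ m) T).symm
  have hG0 : ev y0 W0 (GG I lam w) = 0 := by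
    rw [hy0, hW0, ← eval_subW]
    exact hx0 _ ((GG_dvd_iff I lam w _).1 dvd_rfl)
  obtain ⟨i0, -, hi0⟩ := Finset.prod_eq_zero_iff.1 ((hprod W0).symm.trans hG0)
  have hw0 : lv w (v i0) = W0 := (sub_eq_zero.1 hi0).symm
  have hv0 : v i0 = x0 := hsep _ (hvX i0) (hvy i0) hw0
  have huniq : ∀ j, j ≠ i0 → W0 - lv w (v j) ≠ 0 := by
    intro j hj h
    have hvj : v j = x0 := hsep _ (hvX j) (hvy j) (sub_eq_zero.1 h).symm
    obtain ⟨O, hO, hinj⟩ := hloc
    have h1 : ∀ᶠ m in atTop, vs (φ m) i0 ∈ O := (hvi i0) (by rw [hv0]; exact hO)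
    have h2 : ∀ᶠ m in atTop, vs (φ m) j ∈ O := (hvi j) (by rw [hvj]; exact hO)
    obtain ⟨m, hm1, hm2⟩ := (h1.and h2).exists
    have h3 : vs (φ m) j = vs (φ m) i0 := hinj ⟨hv1 _ _, hm2⟩ ⟨hv1 _ _, hm1⟩ (by
      rw [hv2, hv2])
    exact hj (hv3 (φ m) (congrArg (lv w) h3))
  -- the derivative
  rw [eval_subW]
  have hpoly : (GG I lam w).map (eval y0) = ∏ i, (Polynomial.X - Polynomial.C (lv w (v i))) := by
    refine Polynomial.funext fun T => ?_
    have h1 : ((GG I lam w).map (eval y0)).eval T = ev y0 T (GG I lam w) := by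
      rw [Polynomial.eval_map]
      rfl
    rw [h1, hprod, Polynomial.eval_prod]
    simp
  have hev : ev y0 W0 (Polynomial.derivative (GG I lam w)) =
      (Polynomial.derivative ((GG I lam w).map (eval y0))).eval W0 := by
    rw [Polynomial.derivative_map, Polynomial.eval_map]
    rfl
  rw [← hy0, ← hW0, hev, hpoly, ← Finset.mul_prod_erase _ _ (Finset.mem_univ i0),
    Polynomial.derivative_mul, Polynomial.eval_add, Polynomial.eval_mul, Polynomial.eval_mul]
  simp only [Polynomial.derivative_sub, Polynomial.derivative_X, Polynomial.derivative_C, sub_zero,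
    Polynomial.eval_one, one_mul, Polynomial.eval_sub, Polynomial.eval_X, Polynomial.eval_C, hw0,
    sub_self, zero_mul, add_zero, Polynomial.eval_prod]
  rw [Finset.prod_ne_zero_iff]
  intro j hj
  exact huniq j (Finset.ne_of_mem_erase hj)

end Main

end

end Crest.Agent.R281.Kr_488
end

-- ▼ part R281/Kr5_488
section

/-!
# R281, KRON (helper488), part 5: a generic `w`; the abstract theorem
-/

set_option autoImplicit false
set_option linter.unusedSectionVars false

open MvPolynomial Filter Topology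

namespace Crest.Agent.R281.Kr_488

noncomputable section

variable {n N : ℕ}

theorem lin_add (a b : Fin (N + 1) → ℂ) : lin (a + b) = lin a + lin b := by
  unfold lin
  rw [← Finset.sum_add_distrib]
  exact Finset.sum_congr rfl fun k _ => by
    rw [Pi.add_apply, map_add]
    ring

theorem lin_smul (c : ℂ) (a : Fin (N + 1) → ℂ) : lin (c • a) = MvPolynomial.C c * lin a := by
  unfold lin
  rw [Finset.mul_sum]
  exact Finset.sum_congr rfl fun k _ => by
    rw [Pi.smul_apply, smul_eq_mul, map_mul]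
    ring

theorem lin_zero : lin (0 : Fin (N + 1) → ℂ) = 0 := by
  simp [lin]

theorem lin_single (k : Fin (N + 1)) : lin (Pi.single k (1 : ℂ)) = X k := by
  unfold lin
  rw [Finset.sum_eq_single k]
  · simp
  · intro j _ hj
    rw [Pi.single_eq_of_ne hj, map_zero, zero_mul]
  · simp

theorem lv_single (k : Fin (N + 1)) (v : Fin (N + 1) → ℂ) : lv (Pi.single k (1 : ℂ)) v = v k := by
  rw [← eval_lin, lin_single, eval_X]


/-- the linear forms which take the same value at two points -/
def sepS (v v' : Fin (N + 1) → ℂ) : Submodule ℂ (Fin (N + 1) → ℂ) where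
  carrier := {a | lv a v = lv a v'}
  add_mem' := by
    intro a b ha hb
    have ha' : lv a v = lv a v' := ha
    have hb' : lv b v = lv b v' := hb
    have h : ∀ u, lv (a + b) u = lv a u + lv b u := by
      intro u
      rw [← eval_lin, lin_add, map_add, eval_lin, eval_lin]
    show lv (a + b) v = lv (a + b) v'
    rw [h, h, ha', hb']
  zero_mem' := by
    show lv 0 v = lv 0 v'
    simp [lv]
  smul_mem' := by
    intro c a ha
    have ha' : lv a v = lv a v' := ha
    have h : ∀ u, lv (c • a) u = c * lv a u := by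
      intro u
      rw [← eval_lin, lin_smul, map_mul, eval_C, eval_lin]
    show lv (c • a) v = lv (c • a) v'
    rw [h, h, ha']

theorem sepS_ne_top {v v' : Fin (N + 1) → ℂ} (h : v ≠ v') : sepS v v' ≠ ⊤ := by
  intro h1
  apply h
  funext k
  have h2 : Pi.single k (1 : ℂ) ∈ sepS v v' := by
    rw [h1]
    trivial
  have h3 : lv (Pi.single k (1 : ℂ)) v = lv (Pi.single k (1 : ℂ)) v' := h2
  rwa [lv_single, lv_single] at h3

section Main

variable (I : Ideal (MvPolynomial (Fin (N + 1)) ℂ)) (lam : Fin (n + 1) → Fin (N + 1) → ℂ)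
  [I.IsPrime] [Module.Finite (BR n) (CR I lam)] [FaithfulSMul (BR n) (CR I lam)]

/-- finite fibres -/
theorem finite_fibre (y0 : Fin (n + 1) → ℂ) : {v | v ∈ Vz I ∧ lamv lam v = y0}.Finite := by
  classical
  have h1 : ∀ k, IsIntegral (BR n) (mkA I lam (X k)) := fun k => Algebra.IsIntegral.isIntegral _
  choose P hP1 hP2 using h1
  have h2 : ∀ k, ((P k).map (eval y0)).roots.toFinset.finite_toSet.toFinset.Nonempty ∨ True :=
    fun _ => Or.inr trivial
  refine (Set.Finite.pi fun k => ((P k).map (eval y0)).roots.toFinset.finite_toSet).subset ?_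
  rintro v ⟨hv, hvy⟩ k -
  rw [Finset.mem_coe, Multiset.mem_toFinset, Polynomial.mem_roots ((hP1 k).map _).ne_zero,
    Polynomial.IsRoot, Polynomial.eval_map]
  -- `P_k (X_k) ∈ I`
  have h3 : (P k).eval₂ (sY lam).toRingHom (X k) ∈ I := by
    rw [← mkA_eq_zero I lam]
    have h4 := hP2 k
    rw [← h4]
    exact Polynomial.hom_eval₂ (P k) (sY lam).toRingHom (mkA I lam).toRingHom (X k)
  have h5 := hv _ h3
  have h6 : eval v ((P k).eval₂ (sY lam).toRingHom (X k)) =
      (P k).eval₂ ((eval v).comp (sY lam).toRingHom) (eval v (X k)) :=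
    Polynomial.hom_eval₂ (P k) (sY lam).toRingHom (eval v) (X k)
  rw [h6, eval_X] at h5
  have h7 : (eval v).comp (sY lam).toRingHom = eval y0 := by
    refine MvPolynomial.ringHom_ext ?_ ?_
    · intro r
      simp [sY]
    · intro j
      rw [← hvy]
      simp [sY, eval_lin, lamv]
  rwa [h7] at h5

attribute [local instance] FractionRing.liftAlgebra

/-- the linear forms whose class lies in an intermediate field -/
def fieldS (M : IntermediateField (FractionRing (BR n)) (FractionRing (CR I lam))) :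
    Submodule ℂ (Fin (N + 1) → ℂ) where
  carrier := {a | algebraMap (CR I lam) (FractionRing (CR I lam)) (wb I lam a) ∈ M}
  add_mem' := by
    intro a b ha hb
    show algebraMap (CR I lam) (FractionRing (CR I lam)) (mkA I lam (lin (a + b))) ∈ M
    rw [lin_add, map_add, map_add]
    exact M.add_mem ha hb
  zero_mem' := by
    show algebraMap (CR I lam) (FractionRing (CR I lam)) (mkA I lam (lin 0)) ∈ M
    rw [lin_zero, map_zero, map_zero]
    exact M.zero_mem
  smul_mem' := by
    intro c a ha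
    show algebraMap (CR I lam) (FractionRing (CR I lam)) (mkA I lam (lin (c • a))) ∈ M
    have h1 : mkA I lam (MvPolynomial.C c) = algebraMap (BR n) (CR I lam) (MvPolynomial.C c) := by
      rw [algebraMap_eq]
      simp [sY]
    rw [lin_smul, map_mul, map_mul, h1]
    refine M.mul_mem ?_ ha
    rw [← IsScalarTower.algebraMap_apply (BR n) (CR I lam) (FractionRing (CR I lam)),
      IsScalarTower.algebraMap_apply (BR n) (FractionRing (BR n)) (FractionRing (CR I lam))]
    exact M.algebraMap_mem _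

theorem fieldS_ne_top {M : IntermediateField (FractionRing (BR n)) (FractionRing (CR I lam))}
    (hM : M ≠ ⊤) : fieldS I lam M ≠ ⊤ := by
  intro h
  apply hM
  rw [eq_top_iff]
  rintro x -
  have hC : ∀ c : ℂ, algebraMap (CR I lam) (FractionRing (CR I lam)) (mkA I lam (C c)) ∈ M := by
    intro c
    have h1 : mkA I lam (MvPolynomial.C c) = algebraMap (BR n) (CR I lam) (MvPolynomial.C c) := by
      rw [algebraMap_eq]
      simp [sY]
    rw [h1, ← IsScalarTower.algebraMap_apply (BR n) (CR I lam) (FractionRing (CR I lam)),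
      IsScalarTower.algebraMap_apply (BR n) (FractionRing (BR n)) (FractionRing (CR I lam))]
    exact M.algebraMap_mem _
  have hX : ∀ k, algebraMap (CR I lam) (FractionRing (CR I lam)) (mkA I lam (X k)) ∈ M := by
    intro k
    have h1 : Pi.single k (1 : ℂ) ∈ fieldS I lam M := by
      rw [h]
      trivial
    have h2 : algebraMap (CR I lam) (FractionRing (CR I lam))
      (mkA I lam (lin (Pi.single k (1 : ℂ)))) ∈ M := h1
    rwa [lin_single] at h2
  have hall : ∀ p : MvPolynomial (Fin (N + 1)) ℂ,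
      algebraMap (CR I lam) (FractionRing (CR I lam)) (mkA I lam p) ∈ M := by
    intro p
    induction p using MvPolynomial.induction_on with
    | C c => exact hC c
    | add p q hp hq =>
      rw [map_add, map_add]
      exact M.add_mem hp hq
    | mul_X p k hp =>
      rw [map_mul, map_mul]
      exact M.mul_mem hp (hX k)
  obtain ⟨a, b, hb, rfl⟩ := IsFractionRing.div_surjective (A := CR I lam) x
  obtain ⟨p, rfl⟩ := mkA_surjective I lam a
  obtain ⟨q, rfl⟩ := mkA_surjective I lam b
  exact M.div_mem (hall p) (hall q)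

/-- **a generic `w`** -/
theorem exists_w (x0 : Fin (N + 1) → ℂ) :
    ∃ w : Fin (N + 1) → ℂ, Algebra.adjoin (FractionRing (BR n))
      {algebraMap (CR I lam) (FractionRing (CR I lam)) (wb I lam w)} = ⊤ ∧
      ∀ v ∈ Vz I, lamv lam v = lamv lam x0 → lv w v = lv w x0 → v = x0 := by
  classical
  have hfd : FiniteDimensional (FractionRing (BR n)) (FractionRing (CR I lam)) :=
    Module.Finite.of_isLocalization (BR n) (CR I lam) (nonZeroDivisors (BR n))
  have hfin : Finite (IntermediateField (FractionRing (BR n)) (FractionRing (CR I lam))) :=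
    Field.finite_intermediateField_of_exists_primitive_element _ _
      (Field.exists_primitive_element _ _)
  have := Fintype.ofFinite (IntermediateField (FractionRing (BR n)) (FractionRing (CR I lam)))
  have hfib := finite_fibre I lam (lamv lam x0)
  let s : Finset (Submodule ℂ (Fin (N + 1) → ℂ)) :=
    ((Finset.univ.filter fun M : IntermediateField (FractionRing (BR n)) (FractionRing (CR I lam)) =>
      M ≠ ⊤).image fun M => fieldS I lam M) ∪
    ((hfib.toFinset.filter fun v => v ≠ x0).image fun v => sepS v x0)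
  have hs : ⊤ ∉ s := by
    intro h
    rcases Finset.mem_union.1 h with h | h
    · obtain ⟨M, hM, hMt⟩ := Finset.mem_image.1 h
      exact fieldS_ne_top I lam (Finset.mem_filter.1 hM).2 hMt
    · obtain ⟨v, hv, hvt⟩ := Finset.mem_image.1 h
      exact sepS_ne_top (Finset.mem_filter.1 hv).2 hvt
  have h1 := Subspace.biUnion_ne_univ_of_top_notMem hs
  obtain ⟨w, hw⟩ := (Set.ne_univ_iff_exists_notMem _).1 h1
  simp only [Set.mem_iUnion, not_exists] at hw
  refine ⟨w, ?_, ?_⟩
  · set α := algebraMap (CR I lam) (FractionRing (CR I lam)) (wb I lam w) with hα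
    have h2 : IntermediateField.adjoin (FractionRing (BR n)) {α} = ⊤ := by
      by_contra hne
      refine hw (fieldS I lam (IntermediateField.adjoin (FractionRing (BR n)) {α})) ?_ ?_
      · exact Finset.mem_union_left _ (Finset.mem_image.2
          ⟨_, Finset.mem_filter.2 ⟨Finset.mem_univ _, hne⟩, rfl⟩)
      · exact IntermediateField.mem_adjoin_simple_self _ α
    have h3 := IntermediateField.adjoin_simple_toSubalgebra_of_isAlgebraic
      (F := FractionRing (BR n)) (α := α) (IsAlgebraic.of_finite _ α)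
    rw [← h3, h2]
    rfl
  · intro v hv hy hvw
    by_contra hne
    refine hw (sepS v x0) ?_ hvw
    exact Finset.mem_union_right _ (Finset.mem_image.2
      ⟨v, Finset.mem_filter.2 ⟨hfib.mem_toFinset.2 ⟨hv, hy⟩, hne⟩, rfl⟩)

end Main

theorem faithful_of_interior {I : Ideal (MvPolynomial (Fin (N + 1)) ℂ)}
    {lam : Fin (n + 1) → Fin (N + 1) → ℂ} (h : (interior (lamv lam '' Vz I)).Nonempty) :
    FaithfulSMul (BR n) (CR I lam) := by
  rw [faithfulSMul_iff_algebraMap_injective, injective_iff_map_eq_zero]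
  intro p hp
  rw [algebraMap_eq, mkA_eq_zero] at hp
  by_contra hp0
  obtain ⟨y0, hy0⟩ := h
  have h1 := mem_closure_ne_zero hp0 y0
  rw [mem_closure_iff_frequently] at h1
  obtain ⟨y, hy1, hy2⟩ := (h1.and_eventually (isOpen_interior.mem_nhds hy0)).exists
  obtain ⟨v, hv, rfl⟩ := interior_subset hy2
  apply hy1
  have h2 := hv _ hp
  rw [← h2]
  have h7 : (eval v).comp (sY lam).toRingHom = eval (lamv lam v) := by
    refine MvPolynomial.ringHom_ext ?_ ?_
    · intro r
      simp [sY]
    · intro j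
      simp [sY, eval_lin, lamv]
  exact (congrArg (fun f => f p) h7).symm

/-- **KRON, abstract form** -/
theorem kron_abs {I : Ideal (MvPolynomial (Fin (N + 1)) ℂ)} (hp : I.IsPrime) (hI : HomI I)
    {lam : Fin (n + 1) → Fin (N + 1) → ℂ} (h0 : ∀ v ∈ Vz I, lamv lam v = 0 → v = 0)
    (hint : (interior (lamv lam '' Vz I)).Nonempty) {x0 : Fin (N + 1) → ℂ} (hx0 : x0 ∈ Vz I)
    (hloc : ∃ O ∈ 𝓝 x0, Set.InjOn (lamv lam) (Vz I ∩ O)) :
    ∃ κ : KDat n N ℂ, κ.lam = lam ∧ κ.Good {p | p ∈ I ∧ ∃ d, p.IsHomogeneous d} ∧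
      eval x0 κ.dG ≠ 0 ∧ Irreducible κ.G ∧ (∃ (U V : Polynomial (BR n)) (d : BR n), d ≠ 0 ∧
        U * κ.G + V * Polynomial.derivative κ.G = Polynomial.C d) ∧
      (∀ y W, ev y W κ.G = 0 → ∃ v ∈ Vz I, lamv lam v = y ∧ lv κ.w v = W) ∧
      (∀ P : Polynomial (BR n), κ.G ∣ P ↔ κ.sub P ∈ I) := by
  haveI := hp
  haveI : Module.Finite (BR n) (CR I lam) := finite_of_noZero hI fun v hv hv' =>
    h0 v hv (funext hv')
  haveI : FaithfulSMul (BR n) (CR I lam) := faithful_of_interior hint
  obtain ⟨w, hw, hsep⟩ := exists_w I lam x0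
  obtain ⟨κ, h1, h2, h3, hg⟩ := exists_good lam w hI hw
  have hsub : ∀ P, κ.sub P = subW lam w P := by
    intro P
    subst h1 h2
    rfl
  refine ⟨κ, h1, hg, ?_, ?_, ?_, ?_, ?_⟩
  · have h4 : κ.dG = subW lam w (Polynomial.derivative (GG I lam w)) := by
      rw [← h3]
      exact hsub _
    rw [h4]
    exact dG_ne_zero I lam w hI h0 hx0 hloc hsep
  · rw [h3]
    exact minpoly.irreducible (wb_int I lam w)
  · rw [h3]
    exact exists_bezout I lam w
  · rw [h3, h2]
    exact fun y W h => exists_lift I lam w h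
  · intro P
    rw [h3, hsub]
    exact GG_dvd_iff I lam w P

end

end Crest.Agent.R281.Kr_488
end

-- ▼ part R281/Kr6_488
section

/-!
# R281, KRON (helper488), part 6: the ideal of a projective manifold, its cone, local structure
-/

set_option autoImplicit false
set_option linter.unusedSectionVars false

open Set Filter Topology MvPolynomial
open Crest.AlgGeometry

namespace Crest.Agent.R281.Kr_488

open Crest.Agent.R275 Crest.Agent.R275.Geo Crest.Agent.R275.Core144 Crest.Agent.R275.Dg199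
open Crest.Agent.R273.LamN127 Crest.Agent.R273.SerA_945
open Crest.Agent.R273.SerB_945 Crest.Agent.R273.SerC_945 Crest.Agent.R273.SerE_945
open Crest.Agent.R273.Defs_333 Crest.Agent.R273.FS_333 Crest.Agent.R273.SteinC_794
open Crest.Agent.R273.Chow_313 Crest.Agent.R273.TD3_733
open Crest.Agent.R272.CpTop_338 Crest.Agent.R272.CpSub_338 Crest.Agent.R272.CpChow_338

noncomputable section

variable {n : ℕ} {M : Type} [TopologicalSpace M] {A : Atl n M}

/-- the homogeneous ideal of the image -/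
def IP (P : ProjD A) : Ideal (MvPolynomial (Fin (P.N + 1)) ℂ) := Ideal.span (VanS P)

attribute [local instance] MvPolynomial.gradedAlgebra

theorem IP_isHomogeneous (P : ProjD A) :
    (IP P).IsHomogeneous (homogeneousSubmodule (Fin (P.N + 1)) ℂ) := by
  refine Ideal.homogeneous_span _ _ ?_
  rintro p ⟨⟨d, hd⟩, -⟩
  exact ⟨d, hd⟩

theorem IP_HomI (P : ProjD A) : HomI (IP P) := fun _ hp d =>
  homogeneousComponent_mem_of_mem (IP_isHomogeneous P) hp d

theorem eval_IP (P : ProjD A) {p : MvPolynomial (Fin (P.N + 1)) ℂ} (hp : p ∈ IP P) {i : A.ι} {x : M}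
    (hx : x ∈ (A.e i).source) : eval (P.F i x) p = 0 := by
  have h : IP P ≤ RingHom.ker (eval (P.F i x)) := by
    unfold IP
    rw [Ideal.span_le]
    intro q hq
    exact hq.2 i x hx
  exact h hp

/-- the homogeneous elements of the ideal are the homogeneous relations -/
theorem IP_homog (P : ProjD A) : {p | p ∈ IP P ∧ ∃ d, p.IsHomogeneous d} = VanS P := by
  ext p
  constructor
  · rintro ⟨hp, hd⟩
    exact ⟨hd, fun i x hx => eval_IP P hp hx⟩
  · exact fun hp => ⟨Ideal.subset_span hp, hp.1⟩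

theorem IP_prime [ConnectedSpace M] (P : ProjD A) : (IP P).IsPrime := by
  refine (IP_isHomogeneous P).isPrime_of_homogeneous_mem_or_mem ?_ ?_
  · rw [Ideal.ne_top_iff_one]
    intro h
    obtain ⟨x⟩ := (inferInstance : Nonempty M)
    have h1 := eval_IP P h (ci_mem A x)
    rw [map_one] at h1
    exact one_ne_zero h1
  · rintro p q ⟨d, hd⟩ ⟨e, he⟩ hpq
    have hd' : p.IsHomogeneous d := hd
    have he' : q.IsHomogeneous e := he
    by_cases hq : ∃ i x, evF (fun k => sec P k) q i x ≠ 0
    · left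
      have h1 : ∀ i, ∀ x ∈ (A.e i).source, evF (fun k => sec P k) p i x *
          evF (fun k => sec P k) q i x = 0 := by
        intro i x hx
        rw [evF_apply _ _ hx, evF_apply _ _ hx, ← map_mul]
        have h2 : (fun k => sec P k i x) = P.F i x := funext fun k => sec_eq P hx k
        rw [h2]
        exact eval_IP P hpq hx
      have h2 := eq_zero_of_mul (isHS_evF (isHS_sec P) hd') (isHS_evF (isHS_sec P) he') hq h1
      refine Ideal.subset_span ⟨⟨d, hd'⟩, fun i x hx => ?_⟩
      have h3 := h2 i x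
      rw [evF_apply _ _ hx] at h3
      have h4 : (fun k => sec P k i x) = P.F i x := funext fun k => sec_eq P hx k
      rwa [h4] at h3
    · right
      push Not at hq
      refine Ideal.subset_span ⟨⟨e, he'⟩, fun i x hx => ?_⟩
      have h3 := hq i x
      rw [evF_apply _ _ hx] at h3
      have h4 : (fun k => sec P k i x) = P.F i x := funext fun k => sec_eq P hx k
      rwa [h4] at h3

variable [T2Space M] [ConnectedSpace M] [CompactSpace M] [Finite A.ι]

theorem Vz_IP_iff (PA : Part A) (hD : D2 A) (P : ProjD A) {v : Fin (P.N + 1) → ℂ} (hv : v ≠ 0) :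
    v ∈ Vz (IP P) ↔ CPn.mk v hv ∈ range (toCP P) := by
  rw [mem_range_iff PA hD P v hv]
  constructor
  · exact fun h p hp => h p (Ideal.subset_span hp)
  · intro h p hp
    have h1 : IP P ≤ RingHom.ker (eval v) := by
      unfold IP
      rw [Ideal.span_le]
      exact fun q hq => h q hq
    exact h1 hp

theorem F_mem_Vz (P : ProjD A) {i : A.ι} {x : M} (hx : x ∈ (A.e i).source) (c : ℂ) :
    c • P.F i x ∈ Vz (IP P) :=
  Vz_smul (IP_HomI P) (fun _ hp => eval_IP P hp hx) c

/-- the parametrisation of the cone -/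
def par (P : ProjD A) (i : A.ι) (q : ℂ × Cn n) : Fin (P.N + 1) → ℂ :=
  q.1 • P.F i ((A.e i).symm q.2)

theorem local_param (PA : Part A) (hD : D2 A) (P : ProjD A) {i : A.ι} {x0 : M}
    (hx0 : x0 ∈ (A.e i).source) {V' : Set (ℂ × Cn n)} (hV' : V' ∈ 𝓝 ((1 : ℂ), A.e i x0)) :
    ∀ᶠ v in 𝓝 (P.F i x0), v ∈ Vz (IP P) → v ∈ par P i '' V' := by
  set u0 := P.F i x0 with hu0
  have hu0n : u0 ≠ 0 := P.ne i x0 hx0
  obtain ⟨k, hk⟩ := Function.ne_iff.1 hu0n
  have hk' : u0 k ≠ 0 := hk
  set z0 := A.e i x0 with hz0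
  have hz0t : z0 ∈ (A.e i).target := (A.e i).map_source hx0
  have hsz : (A.e i).symm z0 = x0 := (A.e i).left_inv hx0
  obtain ⟨U1, hU1, U2, hU2, hU12⟩ := mem_nhds_prod_iff.1 hV'
  -- the ratio
  have hFc : ContinuousAt (fun z => P.F i ((A.e i).symm z) k) z0 :=
    (Fdiff P i hz0t k).continuousAt
  have hrat : ContinuousAt (fun q : (Fin (P.N + 1) → ℂ) × Cn n =>
      q.1 k / P.F i ((A.e i).symm q.2) k) (u0, z0) := by
    refine ContinuousAt.div ?_ ?_ ?_
    · exact ((continuous_apply k).comp continuous_fst).continuousAt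
    · exact ContinuousAt.comp (g := fun z => P.F i ((A.e i).symm z) k)
        (f := fun q : (Fin (P.N + 1) → ℂ) × Cn n => q.2) hFc continuousAt_snd
    · show P.F i ((A.e i).symm z0) k ≠ 0
      rw [hsz]
      exact hk'
  have hrat0 : (fun q : (Fin (P.N + 1) → ℂ) × Cn n =>
      q.1 k / P.F i ((A.e i).symm q.2) k) (u0, z0) = 1 := by
    show u0 k / P.F i ((A.e i).symm z0) k = 1
    rw [hsz]
    exact div_self hk'
  have h1 : {q : (Fin (P.N + 1) → ℂ) × Cn n | q.1 k / P.F i ((A.e i).symm q.2) k ∈ U1} ∈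
      𝓝 (u0, z0) := hrat (by rw [hrat0]; exact hU1)
  obtain ⟨V1, hV1, W2, hW2, hVW⟩ := mem_nhds_prod_iff.1 h1
  -- the neighbourhood in `M`
  have hFk : ∀ᶠ z in 𝓝 z0, P.F i ((A.e i).symm z) k ≠ 0 := by
    refine hFc.eventually_ne ?_
    rw [hsz]
    exact hk'
  have h2 : {x | x ∈ (A.e i).source ∧ A.e i x ∈ U2 ∩ W2 ∩
      {z | P.F i ((A.e i).symm z) k ≠ 0}} ∈ 𝓝 x0 := by
    refine inter_mem ((A.e i).open_source.mem_nhds hx0) ?_
    exact (A.e i).continuousAt hx0 (inter_mem (inter_mem hU2 hW2) hFk)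
  rw [(isClosedEmbedding_toCP P).isInducing.nhds_eq_comap, mem_comap] at h2
  obtain ⟨O, hO, hOs⟩ := h2
  rw [toCP_eq P hx0] at hO
  have h3 : ∀ᶠ v in 𝓝 u0, ∀ hv : v ≠ 0, CPn.mk v hv ∈ O := by
    have h4 : ContinuousAt (q (N := P.N)) ⟨u0, hu0n⟩ := continuous_q.continuousAt
    have h5 := h4 hO
    rw [Filter.mem_map, nhds_subtype_eq_comap, mem_comap] at h5
    obtain ⟨S, hS, hSs⟩ := h5
    filter_upwards [hS] with v hv hv0
    exact hSs (show (⟨v, hv0⟩ : NZ P.N) ∈ Subtype.val ⁻¹' S from hv)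
  have h6 : ∀ᶠ v in 𝓝 u0, v ≠ 0 := continuousAt_id.eventually_ne hu0n
  filter_upwards [hV1, h3, h6] with v hv1 hv2 hv3 hv4
  obtain ⟨x, hx⟩ := (Vz_IP_iff PA hD P hv3).1 hv4
  obtain ⟨hxs, ⟨hxU, hxW⟩, hxk⟩ := hOs (show toCP P x ∈ O from by rw [hx]; exact hv2 hv3)
  rw [toCP_eq P hxs] at hx
  obtain ⟨c, hc, hvc⟩ := (mk_eq_iff' hv3 (P.ne i x hxs)).1 hx.symm
  have hxsy : (A.e i).symm (A.e i x) = x := (A.e i).left_inv hxs
  refine ⟨(c, A.e i x), hU12 ⟨?_, hxU⟩, ?_⟩
  · have h7 : (v, A.e i x) ∈ V1 ×ˢ W2 := ⟨hv1, hxW⟩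
    have h8 := hVW h7
    have h9 : v k / P.F i ((A.e i).symm (A.e i x)) k ∈ U1 := h8
    rw [hxsy] at h9
    have hxk' : P.F i x k ≠ 0 := by
      have h10 : P.F i ((A.e i).symm (A.e i x)) k ≠ 0 := hxk
      rwa [hxsy] at h10
    rw [hvc, Pi.smul_apply, smul_eq_mul, mul_div_cancel_right₀ _ hxk'] at h9
    exact h9
  · show c • P.F i ((A.e i).symm (A.e i x)) = v
    rw [hxsy, hvc]

end

end Crest.Agent.R281.Kr_488
end

-- ▼ part R281/Kr7_488
section

/-!
# R281, KRON (helper488), part 7: generic linear projection of a projective manifold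
-/

set_option autoImplicit false
set_option linter.unusedSectionVars false

open Set Filter Topology MvPolynomial
open Crest.AlgGeometry
open scoped ContDiff

namespace Crest.Agent.R281.Kr_488

open Crest.Agent.R275 Crest.Agent.R275.Geo Crest.Agent.R275.Core144 Crest.Agent.R275.Dg199
open Crest.Agent.R273.LamN127 Crest.Agent.R273.SerA_945
open Crest.Agent.R273.SerB_945 Crest.Agent.R273.SerC_945 Crest.Agent.R273.SerE_945
open Crest.Agent.R273.Defs_333 Crest.Agent.R273.FS_333 Crest.Agent.R273.SteinC_794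
open Crest.Agent.R273.Chow_313 Crest.Agent.R273.TD3_733
open Crest.Agent.R272.CpTop_338 Crest.Agent.R272.CpSub_338 Crest.Agent.R272.CpChow_338

noncomputable section

variable {n : ℕ} {M : Type} [TopologicalSpace M] {A : Atl n M}

/-- the projection as a continuous linear map -/
def LamL {N : ℕ} (lam : Fin (n + 1) → Fin (N + 1) → ℂ) :
    (Fin (N + 1) → ℂ) →L[ℂ] (Fin (n + 1) → ℂ) :=
  ∑ j, ∑ k, lam j k • (ContinuousLinearMap.single ℂ (fun _ : Fin (n + 1) => ℂ) j).comp
    (ContinuousLinearMap.proj (R := ℂ) (φ := fun _ : Fin (N + 1) => ℂ) k)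

theorem LamL_apply {N : ℕ} (lam : Fin (n + 1) → Fin (N + 1) → ℂ) (v : Fin (N + 1) → ℂ) :
    LamL lam v = lamv lam v := by
  funext j
  simp only [LamL, _root_.sum_apply, _root_.smul_apply,
    ContinuousLinearMap.comp_apply, ContinuousLinearMap.proj_apply, Finset.sum_apply,
    Pi.smul_apply, smul_eq_mul, ContinuousLinearMap.single_apply]
  rw [Finset.sum_eq_single j]
  · simp [lamv, lv]
  · intro i _ hij
    refine Finset.sum_eq_zero fun k _ => ?_
    rw [Pi.single_eq_of_ne (Ne.symm hij), mul_zero]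
  · simp

theorem continuous_LamL {N : ℕ} :
    Continuous (LamL (n := n) (N := N)) := by
  unfold LamL
  refine continuous_finsetSum _ fun j _ => continuous_finsetSum _ fun k _ => ?_
  exact (continuous_apply_apply j k).smul continuous_const

/-- the embedding read in a chart -/
def Gz (P : ProjD A) (i : A.ι) (z : Cn n) : Fin (P.N + 1) → ℂ := P.F i ((A.e i).symm z)

theorem Gz_diff (P : ProjD A) (i : A.ι) : DifferentiableOn ℂ (Gz P i) (A.e i).target := by
  intro z hz
  refine DifferentiableAt.differentiableWithinAt ?_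
  exact differentiableAt_pi.2 fun k => Fdiff P i hz k

theorem Gz_contDiffAt (P : ProjD A) (i : A.ι) {z : Cn n} (hz : z ∈ (A.e i).target) :
    ContDiffAt ℂ 1 (Gz P i) z :=
  ((Crest.Agent.R266.SCV.contDiffOn_omega_of_differentiableOn (A.e i).open_target
    (Gz_diff P i)).contDiffAt ((A.e i).open_target.mem_nhds hz)).of_le le_top

/-- the derivative of the parametrisation of the cone at `(1, z)` -/
def TL (P : ProjD A) (i : A.ι) (z : Cn n) : ℂ × Cn n →L[ℂ] (Fin (P.N + 1) → ℂ) :=
  (fderiv ℂ (Gz P i) z).comp (ContinuousLinearMap.snd ℂ ℂ (Cn n)) +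
    (ContinuousLinearMap.fst ℂ ℂ (Cn n)).smulRight (Gz P i z)

theorem TL_apply (P : ProjD A) (i : A.ι) (z : Cn n) (q : ℂ × Cn n) :
    TL P i z q = fderiv ℂ (Gz P i) z q.2 + q.1 • Gz P i z := rfl

theorem TL_inj (P : ProjD A) {i : A.ι} {z : Cn n} (hz : z ∈ (A.e i).target) :
    Function.Injective (TL P i z) := by
  rw [injective_iff_map_eq_zero]
  rintro ⟨s, v⟩ h
  rw [TL_apply] at h
  have h1 : fderiv ℂ (Gz P i) z v = (-s) • Gz P i z := by
    rw [neg_smul]
    exact eq_neg_of_add_eq_zero_left h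
  have hv : v = 0 := P.imm i z hz v ⟨-s, h1⟩
  subst hv
  rw [map_zero] at h1
  have h2 : Gz P i z ≠ 0 := P.ne i _ ((A.e i).map_target hz)
  have h3 : -s = 0 := by
    rcases smul_eq_zero.1 h1.symm with h3 | h3
    · exact h3
    · exact absurd h3 h2
  rw [neg_eq_zero] at h3
  rw [h3]
  rfl

theorem par_hasFDerivAt (P : ProjD A) {i : A.ι} {z : Cn n} (hz : z ∈ (A.e i).target) :
    HasFDerivAt (par P i) (TL P i z) ((1 : ℂ), z) := by
  have h1 : HasFDerivAt (fun q : ℂ × Cn n => Gz P i q.2)
      ((fderiv ℂ (Gz P i) z).comp (ContinuousLinearMap.snd ℂ ℂ (Cn n))) ((1 : ℂ), z) :=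
    HasFDerivAt.comp (g := Gz P i) (f := fun q : ℂ × Cn n => q.2) ((1 : ℂ), z)
      ((Gz_contDiffAt P i hz).differentiableAt (by norm_num)).hasFDerivAt hasFDerivAt_snd
  have h2 := (hasFDerivAt_fst (𝕜 := ℂ) (p := ((1 : ℂ), z))).smul h1
  have h3 : (((1 : ℂ), z) : ℂ × Cn n).1 • ((fderiv ℂ (Gz P i) z).comp
      (ContinuousLinearMap.snd ℂ ℂ (Cn n))) + (ContinuousLinearMap.fst ℂ ℂ (Cn n)).smulRight
        (Gz P i (((1 : ℂ), z) : ℂ × Cn n).2) = TL P i z := by
    rw [one_smul]
    rfl
  rw [h3] at h2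
  exact h2

theorem par_contDiffAt (P : ProjD A) {i : A.ι} {z : Cn n} (hz : z ∈ (A.e i).target) :
    ContDiffAt ℂ 1 (par P i) ((1 : ℂ), z) := by
  have h1 : ContDiffAt ℂ 1 (fun q : ℂ × Cn n => Gz P i q.2) ((1 : ℂ), z) :=
    ContDiffAt.comp (g := Gz P i) (f := fun q : ℂ × Cn n => q.2) ((1 : ℂ), z)
      (Gz_contDiffAt P i hz) contDiffAt_snd
  exact contDiffAt_fst.smul h1

/-- local injectivity and openness of the projection -/
theorem loc_proj (P : ProjD A) {i : A.ι} {z0 : Cn n} (hz0 : z0 ∈ (A.e i).target)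
    {lam : Fin (n + 1) → Fin (P.N + 1) → ℂ}
    (hinj : Function.Injective ((LamL lam).comp (TL P i z0))) :
    ∃ S ∈ 𝓝 ((1 : ℂ), z0), InjOn (fun q => lamv lam (par P i q)) S ∧
      (∀ q ∈ S, q.2 ∈ (A.e i).target) ∧
      (interior ((fun q => lamv lam (par P i q)) '' S)).Nonempty := by
  have hfr : Module.finrank ℂ (ℂ × Cn n) = Module.finrank ℂ (Fin (n + 1) → ℂ) := by
    rw [Module.finrank_prod, Module.finrank_self, finrank_euclideanSpace_fin,
      Module.finrank_fin_fun, add_comm]
  let e : (ℂ × Cn n) ≃ₗ[ℂ] (Fin (n + 1) → ℂ) :=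
    LinearEquiv.ofInjectiveOfFinrankEq ((LamL lam).comp (TL P i z0) : ℂ × Cn n →ₗ[ℂ] _) hinj hfr
  let e' : (ℂ × Cn n) ≃L[ℂ] (Fin (n + 1) → ℂ) := e.toContinuousLinearEquiv
  let f : ℂ × Cn n → (Fin (n + 1) → ℂ) := fun q => LamL lam (par P i q)
  have hfc : ContDiffAt ℂ 1 f ((1 : ℂ), z0) :=
    (LamL lam).contDiff.contDiffAt.comp _ (par_contDiffAt P hz0)
  have hfd : HasFDerivAt f (e' : ℂ × Cn n →L[ℂ] (Fin (n + 1) → ℂ)) ((1 : ℂ), z0) := by
    have h1 : HasFDerivAt f ((LamL lam).comp (TL P i z0)) ((1 : ℂ), z0) :=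
      (LamL lam).hasFDerivAt.comp _ (par_hasFDerivAt P hz0)
    have h2 : (e' : ℂ × Cn n →L[ℂ] (Fin (n + 1) → ℂ)) = (LamL lam).comp (TL P i z0) :=
      ContinuousLinearMap.ext fun q => rfl
    rw [h2]
    exact h1
  let R := hfc.toOpenPartialHomeomorph f hfd one_ne_zero
  have hR : ∀ p, R p = f p := fun p => rfl
  have hmem : ((1 : ℂ), z0) ∈ R.source :=
    hfc.mem_toOpenPartialHomeomorph_source hfd one_ne_zero
  have hopen : IsOpen ({q : ℂ × Cn n | q.2 ∈ (A.e i).target}) :=
    (A.e i).open_target.preimage continuous_snd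
  have hfl : ∀ q, lamv lam (par P i q) = f q := fun q => (LamL_apply lam _).symm
  refine ⟨R.source ∩ {q | q.2 ∈ (A.e i).target},
    (R.open_source.inter hopen).mem_nhds ⟨hmem, hz0⟩, ?_, fun q hq => hq.2, ?_⟩
  · intro q1 h1 q2 h2 h12
    have h3 : f q1 = f q2 := by
      rw [← hfl, ← hfl]
      exact h12
    exact R.injOn h1.1 h2.1 h3
  · have h1 : IsOpen (R '' (R.source ∩ {q | q.2 ∈ (A.e i).target})) :=
      R.isOpen_image_of_subset_source (R.open_source.inter hopen) inter_subset_left
    have h2 : (fun q => lamv lam (par P i q)) '' (R.source ∩ {q | q.2 ∈ (A.e i).target}) =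
        R '' (R.source ∩ {q | q.2 ∈ (A.e i).target}) := by
      refine image_congr fun q _ => ?_
      rw [hR]
      exact hfl q
    rw [h2, h1.interior_eq]
    exact ⟨_, ⟨_, ⟨hmem, hz0⟩, rfl⟩⟩

/-- there are projections which are injective on a tangent space -/
theorem exists_lamT {N : ℕ} (T : ℂ × Cn n →L[ℂ] (Fin (N + 1) → ℂ)) (hT : Function.Injective T) :
    ∃ lam : Fin (n + 1) → Fin (N + 1) → ℂ, Function.Injective ((LamL lam).comp T) := by
  classical
  have hfr : Module.finrank ℂ (ℂ × Cn n) = Module.finrank ℂ (Fin (n + 1) → ℂ) := by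
    rw [Module.finrank_prod, Module.finrank_self, finrank_euclideanSpace_fin,
      Module.finrank_fin_fun, add_comm]
  obtain ⟨g, hg⟩ := LinearMap.exists_leftInverse_of_injective
    (T : ℂ × Cn n →ₗ[ℂ] (Fin (N + 1) → ℂ)) (LinearMap.ker_eq_bot.2 hT)
  let e : (ℂ × Cn n) ≃ₗ[ℂ] (Fin (n + 1) → ℂ) := LinearEquiv.ofFinrankEq _ _ hfr
  let L : (Fin (N + 1) → ℂ) →ₗ[ℂ] (Fin (n + 1) → ℂ) := e.toLinearMap ∘ₗ g
  refine ⟨fun j k => L (Pi.single k 1) j, ?_⟩
  have h1 : ∀ v, LamL (fun j k => L (Pi.single k 1) j) v = L v := by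
    intro v
    rw [LamL_apply]
    funext j
    have h2 : v = ∑ k, v k • (Pi.single k (1 : ℂ) : Fin (N + 1) → ℂ) := by
      funext m
      rw [Finset.sum_apply, Finset.sum_eq_single m]
      · simp
      · intro k _ hk
        rw [Pi.smul_apply, Pi.single_eq_of_ne (Ne.symm hk), smul_zero]
      · simp
    conv_rhs => rw [h2, map_sum, Finset.sum_apply]
    unfold lamv lv
    refine Finset.sum_congr rfl fun k _ => ?_
    rw [map_smul, Pi.smul_apply, smul_eq_mul, mul_comm]
  rw [injective_iff_map_eq_zero]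
  intro q hq
  have h2 : L (T q) = 0 := by
    rw [← h1]
    exact hq
  have h3 : g (T q) = q := congrArg (fun f => f q) hg
  have h4 : e (g (T q)) = 0 := h2
  rw [h3] at h4
  exact e.map_eq_zero_iff.1 h4

end

end Crest.Agent.R281.Kr_488
end

-- ▼ part R281/Kr8_488
section

/-!
# R281, KRON (helper488), part 8: a generic projection has no zero on the manifold; the theorem
-/

set_option autoImplicit false
set_option linter.unusedSectionVars false

open Set Filter Topology MvPolynomial
open Crest.AlgGeometry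
open scoped ContDiff NNReal

namespace Crest.Agent.R281.Kr_488

open Crest.Agent.R275 Crest.Agent.R275.Geo Crest.Agent.R275.Core144 Crest.Agent.R275.Dg199
open Crest.Agent.R273.LamN127 Crest.Agent.R273.SerA_945
open Crest.Agent.R273.SerB_945 Crest.Agent.R273.SerC_945 Crest.Agent.R273.SerE_945
open Crest.Agent.R273.Defs_333 Crest.Agent.R273.FS_333 Crest.Agent.R273.SteinC_794
open Crest.Agent.R273.Chow_313 Crest.Agent.R273.TD3_733
open Crest.Agent.R272.CpTop_338 Crest.Agent.R272.CpSub_338 Crest.Agent.R272.CpChow_338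

noncomputable section

variable {n : ℕ} {M : Type} [TopologicalSpace M] {A : Atl n M}

/-- the parametrisation of the bad projections -/
def badF (P : ProjD A) (i : A.ι) (k : Fin (P.N + 1))
    (q : Cn n × (Fin (n + 1) → Fin P.N → ℂ)) : Fin (n + 1) → Fin (P.N + 1) → ℂ :=
  fun j => Fin.insertNth (α := fun _ => ℂ) k (-∑ l, q.2 j l * aff P i k q.1 l) (q.2 j)

theorem badF_contDiffAt (P : ProjD A) (i : A.ι) (k : Fin (P.N + 1))
    {q : Cn n × (Fin (n + 1) → Fin P.N → ℂ)} (hq : q.1 ∈ affD P i k) :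
    ContDiffAt ℝ 1 (badF P i k) q := by
  have haff : ContDiffAt ℝ 1 (aff P i k) q.1 :=
    (((Crest.Agent.R266.SCV.contDiffOn_omega_of_differentiableOn (isOpen_affD P i k)
      (aff_diff P i k)).contDiffAt ((isOpen_affD P i k).mem_nhds hq)).of_le le_top).restrict_scalars ℝ
  have hl : ∀ l, ContDiffAt ℝ 1 (fun q : Cn n × (Fin (n + 1) → Fin P.N → ℂ) =>
      aff P i k q.1 l) q := fun l =>
    ContDiffAt.comp (g := fun z => aff P i k z l) (f := fun q : Cn n × (Fin (n + 1) →
      Fin P.N → ℂ) => q.1) q ((contDiffAt_pi.1 haff) l) contDiffAt_fst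
  have hm : ∀ j l, ContDiffAt ℝ 1 (fun q : Cn n × (Fin (n + 1) → Fin P.N → ℂ) => q.2 j l) q := by
    intro j l
    have h1 : ContDiff ℝ 1 (fun m : Fin (n + 1) → Fin P.N → ℂ => m j l) :=
      (contDiff_apply_apply ℝ ℂ j l)
    exact h1.contDiffAt.comp q contDiffAt_snd
  rw [contDiffAt_pi]
  intro j
  rw [contDiffAt_pi]
  intro m
  refine Fin.succAboveCases k ?_ (fun l => ?_) m
  · have h1 : (fun q => badF P i k q j k) = fun q => -∑ l, q.2 j l * aff P i k q.1 l := by
      funext q
      exact Fin.insertNth_apply_same _ _ _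
    rw [h1]
    exact (ContDiffAt.sum fun l _ => (hm j l).mul (hl l)).neg
  · have h1 : (fun q => badF P i k q j (k.succAbove l)) = fun q => q.2 j l := by
      funext q
      exact Fin.insertNth_apply_succAbove _ _ _ _
    rw [h1]
    exact hm j l

/-- the projections with a zero in the chart `i`, `F_k ≠ 0` -/
def bad (P : ProjD A) (i : A.ι) (k : Fin (P.N + 1)) : Set (Fin (n + 1) → Fin (P.N + 1) → ℂ) :=
  badF P i k '' {q | q.1 ∈ affD P i k}

theorem dimH_bad (P : ProjD A) (i : A.ι) (k : Fin (P.N + 1)) :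
    dimH (bad P i k) ≤ ((2 * n + (n + 1) * (P.N * 2) : ℕ) : ENNReal) := by
  have h1 : dimH (bad P i k) ≤ dimH {q : Cn n × (Fin (n + 1) → Fin P.N → ℂ) | q.1 ∈ affD P i k} := by
    refine dimH_image_le_of_locally_lipschitzOn fun q hq => ?_
    obtain ⟨K, t, ht, hK⟩ := (badF_contDiffAt P i k hq).exists_lipschitzOnWith
    exact ⟨K, t, mem_nhdsWithin_of_mem_nhds ht, hK⟩
  refine h1.trans ((dimH_mono (subset_univ _)).trans ?_)
  rw [Real.dimH_univ_eq_finrank, Module.finrank_prod]
  have h2 : Module.finrank ℝ (Cn n) = 2 * n := by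
    rw [finrank_real_of_complex, finrank_euclideanSpace_fin]
  have h3 : Module.finrank ℝ (Fin (n + 1) → Fin P.N → ℂ) = (n + 1) * (P.N * 2) := by
    rw [Module.finrank_pi_fintype]
    simp [Module.finrank_pi_fintype, Complex.finrank_real_complex]
  rw [h2, h3]

theorem mem_bad (P : ProjD A) {lam : Fin (n + 1) → Fin (P.N + 1) → ℂ} {i : A.ι} {x : M}
    (hx : x ∈ (A.e i).source) (h0 : lamv lam (P.F i x) = 0) : ∃ k, lam ∈ bad P i k := by
  obtain ⟨k, hk⟩ := Function.ne_iff.1 (P.ne i x hx)
  have hk' : P.F i x k ≠ 0 := hk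
  have hxs : (A.e i).symm (A.e i x) = x := (A.e i).left_inv hx
  refine ⟨k, (A.e i x, fun j l => lam j (k.succAbove l)), ⟨(A.e i).map_source hx, ?_⟩, ?_⟩
  · rw [hxs]
    exact hk'
  · funext j m
    have h1 := congrFun h0 j
    unfold lamv lv at h1
    rw [Fin.sum_univ_succAbove _ k] at h1
    refine Fin.succAboveCases k ?_ (fun l => ?_) m
    · have h2 : badF P i k (A.e i x, fun j l => lam j (k.succAbove l)) j k =
          -∑ l, lam j (k.succAbove l) * aff P i k (A.e i x) l :=
        Fin.insertNth_apply_same _ _ _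
      rw [h2]
      have h3 : ∀ l, lam j (k.succAbove l) * aff P i k (A.e i x) l =
          (lam j (k.succAbove l) * P.F i x (k.succAbove l)) / P.F i x k := by
        intro l
        rw [aff, hxs, mul_div_assoc]
      rw [Finset.sum_congr rfl fun l _ => h3 l, ← Finset.sum_div]
      have h4 : ∑ l, lam j (k.succAbove l) * P.F i x (k.succAbove l) =
          -(lam j k * P.F i x k) := by
        have h5 : lam j k * P.F i x k + ∑ l, lam j (k.succAbove l) * P.F i x (k.succAbove l) = 0 :=
          h1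
        exact eq_neg_of_add_eq_zero_right h5
      rw [h4, neg_div, neg_neg, mul_div_cancel_right₀ _ hk']
    · exact Fin.insertNth_apply_succAbove _ _ _ _

/-- **a generic projection** -/
theorem exists_lam [Finite A.ι] (P : ProjD A) {i0 : A.ι} {z0 : Cn n} (hz0 : z0 ∈ (A.e i0).target) :
    ∃ lam : Fin (n + 1) → Fin (P.N + 1) → ℂ,
      (∀ i, ∀ x ∈ (A.e i).source, lamv lam (P.F i x) ≠ 0) ∧
      Function.Injective ((LamL lam).comp (TL P i0 z0)) := by
  have h1 : dimH (⋃ i, ⋃ k, bad P i k) < (Module.finrank ℝ (Fin (n + 1) → Fin (P.N + 1) → ℂ) :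
      ENNReal) := by
    refine lt_of_le_of_lt (b := ((2 * n + (n + 1) * (P.N * 2) : ℕ) : ENNReal)) ?_ ?_
    · rw [dimH_iUnion]
      refine iSup_le fun i => ?_
      rw [dimH_iUnion]
      exact iSup_le fun k => dimH_bad P i k
    · have h2 : Module.finrank ℝ (Fin (n + 1) → Fin (P.N + 1) → ℂ) =
          (n + 1) * ((P.N + 1) * 2) := by
        rw [Module.finrank_pi_fintype]
        simp [Module.finrank_pi_fintype, Complex.finrank_real_complex]
      rw [h2]
      have h3 : 2 * n + (n + 1) * (P.N * 2) < (n + 1) * ((P.N + 1) * 2) := by ring_nf; omega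
      exact_mod_cast h3
  have h2 : Dense (⋃ i, ⋃ k, bad P i k)ᶜ := dense_compl_of_dimH_lt_finrank h1
  have h3 : IsOpen {lam : Fin (n + 1) → Fin (P.N + 1) → ℂ |
      Function.Injective ((LamL lam).comp (TL P i0 z0))} := by
    have h4 : Continuous fun lam : Fin (n + 1) → Fin (P.N + 1) → ℂ =>
        (LamL lam).comp (TL P i0 z0) := continuous_LamL.clm_comp continuous_const
    exact ContinuousLinearMap.isOpen_injective.preimage h4
  obtain ⟨lam0, hlam0⟩ := exists_lamT (TL P i0 z0) (TL_inj P hz0)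
  obtain ⟨lam, hl1, hl2⟩ := h2.inter_open_nonempty _ h3 ⟨lam0, hlam0⟩
  refine ⟨lam, fun i x hx h0 => ?_, hl1⟩
  obtain ⟨k, hk⟩ := mem_bad P hx h0
  exact hl2 (mem_iUnion.2 ⟨i, mem_iUnion.2 ⟨k, hk⟩⟩)

/-! ### homogeneity of `sub` -/

theorem sub_isHomogeneous {R : Type*} [CommRing R] {N : ℕ} (κ : KDat n N R)
    {p : Polynomial (MvPolynomial (Fin (n + 1)) R)} {d : ℕ}
    (h1 : ∀ i ≤ d, (p.coeff i).IsHomogeneous (d - i)) (h2 : ∀ i, d < i → p.coeff i = 0) :
    (κ.sub p).IsHomogeneous d := by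
  have h3 : κ.sub p = ∑ i ∈ Finset.range (p.natDegree + 1),
      κ.subY (p.coeff i) * lin κ.w ^ i := by
    show Polynomial.eval₂ _ _ p = _
    rw [Polynomial.eval₂_eq_sum_range]
    rfl
  rw [h3]
  refine MvPolynomial.IsHomogeneous.sum _ _ _ fun i _ => ?_
  by_cases hi : i ≤ d
  · have h4 : (κ.subY (p.coeff i)).IsHomogeneous (1 * (d - i)) :=
      (h1 i hi).aeval (fun j => lin (κ.lam j)) fun j => lin_homog (κ.lam j)
    have h5 := h4.mul ((lin_homog κ.w).pow i)
    have h6 : 1 * (d - i) + 1 * i = d := by omega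
    rwa [h6] at h5
  · rw [h2 i (by omega), map_zero, zero_mul]
    exact MvPolynomial.isHomogeneous_zero _ _ _

theorem dG_isHomogeneous {R : Type*} [CommRing R] {N : ℕ} {κ : KDat n N R}
    {E : Set (MvPolynomial (Fin (N + 1)) R)} (h : κ.Good E) : κ.dG.IsHomogeneous (κ.D - 1) := by
  have hD := h.D_pos
  refine sub_isHomogeneous κ (fun i hi => ?_) fun i hi => ?_
  · rw [Polynomial.coeff_derivative]
    have h4 : ((i : MvPolynomial (Fin (n + 1)) R) + 1).IsHomogeneous 0 := by
      have := isHomogeneous_C (R := R) (Fin (n + 1)) ((i : R) + 1)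
      rwa [map_add, map_one, map_natCast] at this
    have h5 := (h.homG (i + 1) (by omega)).mul h4
    have h6 : κ.D - (i + 1) + 0 = κ.D - 1 - i := by omega
    rwa [h6] at h5
  · rw [Polynomial.coeff_derivative, Polynomial.coeff_eq_zero_of_natDegree_lt, zero_mul]
    rw [h.deg]
    omega

/-! ### the theorem -/

section Final

variable [T2Space M] [ConnectedSpace M] [CompactSpace M] [Finite A.ι]

theorem Vz_IP_cases (PA : Part A) (hD : D2 A) (P : ProjD A) {v : Fin (P.N + 1) → ℂ}
    (hv : v ∈ Vz (IP P)) (hv0 : v ≠ 0) :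
    ∃ i, ∃ x ∈ (A.e i).source, ∃ c : ℂ, c ≠ 0 ∧ v = c • P.F i x := by
  obtain ⟨x, hx⟩ := (Vz_IP_iff PA hD P hv0).1 hv
  have hxs := ci_mem A x
  rw [toCP_eq P hxs] at hx
  obtain ⟨c, hc, hvc⟩ := (mk_eq_iff' hv0 (P.ne _ x hxs)).1 hx.symm
  exact ⟨_, x, hxs, c, hc, hvc⟩

/-- **KRON at a point** -/
theorem kron_at (PA : Part A) (hD : D2 A) (P : ProjD A) {i0 : A.ι} {x0 : M}
    (hx0 : x0 ∈ (A.e i0).source) :
    ∃ κ : KDat n P.N ℂ, κ.Good (VanS P) ∧ eval (P.F i0 x0) κ.dG ≠ 0 ∧
      (∀ i, ∀ x ∈ (A.e i).source, κ.lamv (P.F i x) ≠ 0) ∧ Irreducible κ.G ∧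
      (∃ (U V : Polynomial (MvPolynomial (Fin (n + 1)) ℂ)) (d : MvPolynomial (Fin (n + 1)) ℂ),
        d ≠ 0 ∧ U * κ.G + V * Polynomial.derivative κ.G = Polynomial.C d) ∧
      (∀ y W, KDat.ev y W κ.G = 0 → ∃ v ∈ Vz (IP P), κ.lamv v = y ∧ lv κ.w v = W) := by
  have hz0 : A.e i0 x0 ∈ (A.e i0).target := (A.e i0).map_source hx0
  have hsz : (A.e i0).symm (A.e i0 x0) = x0 := (A.e i0).left_inv hx0
  obtain ⟨lam, hl1, hl2⟩ := exists_lam P hz0
  obtain ⟨S, hS, hSi, hSt, hSo⟩ := loc_proj P hz0 hl2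
  have h0 : ∀ v ∈ Vz (IP P), lamv lam v = 0 → v = 0 := by
    intro v hv hv0
    by_contra hne
    obtain ⟨i, x, hx, c, hc, rfl⟩ := Vz_IP_cases PA hD P hv hne
    rw [lamv_smul, smul_eq_zero] at hv0
    rcases hv0 with h | h
    · exact hc h
    · exact hl1 i x hx h
  have hmem : ∀ q ∈ S, par P i0 q ∈ Vz (IP P) := fun q hq =>
    F_mem_Vz P ((A.e i0).map_target (hSt q hq)) _
  have hint : (interior (lamv lam '' Vz (IP P))).Nonempty := by
    refine hSo.mono (interior_mono ?_)
    rintro y ⟨q, hq, rfl⟩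
    exact ⟨_, hmem q hq, rfl⟩
  have hloc : ∃ O ∈ 𝓝 (P.F i0 x0), Set.InjOn (lamv lam) (Vz (IP P) ∩ O) := by
    refine ⟨_, local_param PA hD P hx0 hS, ?_⟩
    rintro v1 ⟨h1, h1'⟩ v2 ⟨h2, h2'⟩ h12
    obtain ⟨q1, hq1, rfl⟩ := h1' h1
    obtain ⟨q2, hq2, rfl⟩ := h2' h2
    rw [hSi hq1 hq2 h12]
  have hx0V : P.F i0 x0 ∈ Vz (IP P) := by
    have := F_mem_Vz P hx0 1
    rwa [one_smul] at this
  obtain ⟨κ, hκl, hκ, hκd, hirr, hbez, hlift, -⟩ := kron_abs (IP_prime P) (IP_HomI P) h0 hint hx0V
    hloc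
  rw [IP_homog] at hκ
  refine ⟨κ, hκ, hκd, ?_, hirr, hbez, ?_⟩
  · intro i x hx h
    refine hl1 i x hx ?_
    rw [← hκl]
    exact h
  · intro y W h
    obtain ⟨v, hv, hvy, hvw⟩ := hlift y W h
    refine ⟨v, hv, ?_, hvw⟩
    rw [← hvy, ← hκl]
    rfl

/-- **KRON**: finitely many Kronecker representations cover the manifold -/
theorem kron (PA : Part A) (hD : D2 A) (P : ProjD A) :
    ∃ (m : ℕ) (κ : Fin m → KDat n P.N ℂ), (∀ a, (κ a).Good (VanS P)) ∧
      (∀ i, ∀ x ∈ (A.e i).source, ∃ a, eval (P.F i x) (κ a).dG ≠ 0) ∧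
      (∀ a i, ∀ x ∈ (A.e i).source, (κ a).lamv (P.F i x) ≠ 0) ∧
      (∀ a, Irreducible (κ a).G) ∧
      (∀ a, ∃ (U V : Polynomial (MvPolynomial (Fin (n + 1)) ℂ)) (d : MvPolynomial (Fin (n + 1)) ℂ),
        d ≠ 0 ∧ U * (κ a).G + V * Polynomial.derivative (κ a).G = Polynomial.C d) ∧
      (∀ a y W, KDat.ev y W (κ a).G = 0 → ∃ v ∈ Vz (IP P), (κ a).lamv v = y ∧
        lv (κ a).w v = W) := by
  classical
  choose κ h1 h2 h3 h4 h5 h6 using fun x0 : M => kron_at PA hD P (ci_mem A x0)
  have hU : ∀ x0 : M, {x | ∃ i, x ∈ (A.e i).source ∧ eval (P.F i x) (κ x0).dG ≠ 0} ∈ 𝓝 x0 := by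
    intro x0
    have hx0 := ci_mem A x0
    have hc : ContinuousAt (fun x => eval (P.F (ci A x0) x) (κ x0).dG) x0 :=
      (MvPolynomial.continuous_eval (κ x0).dG).continuousAt.comp (continuousAt_F P hx0)
    filter_upwards [(A.e (ci A x0)).open_source.mem_nhds hx0, hc.eventually_ne (h2 x0)] with x h7 h8
    exact ⟨_, h7, h8⟩
  obtain ⟨t, ht⟩ := isCompact_univ.elim_nhds_subcover _ fun x0 _ => hU x0
  let e : Fin t.card ≃ t := t.equivFin.symm
  refine ⟨t.card, fun a => κ (e a), fun a => h1 _, ?_, fun a => h3 _, fun a => h4 _,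
    fun a => h5 _, fun a => h6 _⟩
  intro i x hx
  obtain ⟨x0, hx0t, j, hxj, hne⟩ : ∃ x0 ∈ t, ∃ j, x ∈ (A.e j).source ∧
      eval (P.F j x) (κ x0).dG ≠ 0 := by
    have := ht.2 (mem_univ x)
    simpa using this
  refine ⟨e.symm ⟨x0, hx0t⟩, ?_⟩
  show eval (P.F i x) (κ (e (e.symm ⟨x0, hx0t⟩))).dG ≠ 0
  rw [e.apply_symm_apply]
  obtain ⟨c, hc⟩ := P.tr j i x ⟨hxj, hx⟩
  -- `F j x = c • F i x`
  intro h0
  apply hne
  rw [hc]
  have hhom : ∃ d, (κ x0).dG.IsHomogeneous d := ⟨(κ x0).D - 1, by
    exact dG_isHomogeneous (h1 x0)⟩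
  obtain ⟨d, hd⟩ := hhom
  rw [eval_smul_homog hd, h0, mul_zero]

end Final

end

end Crest.Agent.R281.Kr_488
end

-- ▼ part R281/KrG_488
section

/-!
# R281, KRON (helper488): the local form for an analytic family of specialisations
-/

set_option autoImplicit false
set_option linter.unusedSectionVars false

open MvPolynomial Filter Topology

namespace Crest.Agent.R281.Kr_488

noncomputable section

variable {n N : ℕ}

section Loc

variable {P : Type*} [NormedAddCommGroup P] [NormedSpace ℂ P] {R : Type*} [CommRing R]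
  {evp : P → (R →+* ℂ)} {p0 : P}


/-- the linear forms of the specialisation -/
def Lp (κ : KDat n N R) (φ : R →+* ℂ) : (Fin (N + 1) → ℂ) →L[ℂ] (Fin (n + 1) → ℂ) :=
  ∑ j, ∑ k, φ (κ.lam j k) • (ContinuousLinearMap.single ℂ (fun _ : Fin (n + 1) => ℂ) j).comp
    (ContinuousLinearMap.proj (R := ℂ) (φ := fun _ : Fin (N + 1) => ℂ) k)






end Loc

end

end Crest.Agent.R281.Kr_488
end

-- ▼ part R281/Kr9_488
section

/-!
# R281, KRON (helper488), part 9: finite sets of equations, Nullstellensatz identities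
-/

set_option autoImplicit false
set_option linter.unusedSectionVars false

open Set Filter Topology MvPolynomial
open Crest.AlgGeometry

namespace Crest.Agent.R281.Kr_488

open Crest.Agent.R275 Crest.Agent.R275.Geo Crest.Agent.R275.Core144 Crest.Agent.R275.Dg199
open Crest.Agent.R273.LamN127 Crest.Agent.R273.SerA_945
open Crest.Agent.R273.SerB_945 Crest.Agent.R273.SerC_945 Crest.Agent.R273.SerE_945
open Crest.Agent.R273.Defs_333 Crest.Agent.R273.FS_333 Crest.Agent.R273.SteinC_794
open Crest.Agent.R273.Chow_313 Crest.Agent.R273.TD3_733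
open Crest.Agent.R272.CpTop_338 Crest.Agent.R272.CpSub_338 Crest.Agent.R272.CpChow_338

noncomputable section

variable {n : ℕ}

/-- the equations of the Kronecker representation -/
def KDat.eqs {N : ℕ} {R : Type*} [CommRing R] (κ : KDat n N R) :
    Set (MvPolynomial (Fin (N + 1)) R) :=
  insert (κ.sub κ.G) (range fun k => X k * κ.dG - κ.sub (κ.Nm k))

theorem KDat.eqs_finite {N : ℕ} {R : Type*} [CommRing R] (κ : KDat n N R) : κ.eqs.Finite :=
  (finite_range _).insert _

theorem KDat.Good.mono {N : ℕ} {R : Type*} [CommRing R] {κ : KDat n N R}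
    {E E' : Set (MvPolynomial (Fin (N + 1)) R)} (h : κ.Good E) (h1 : κ.eqs ⊆ E') (h2 : E' ⊆ E) :
    κ.Good E' where
  D_pos := h.D_pos
  monic := h.monic
  deg := h.deg
  homG := h.homG
  degN := h.degN
  homN := h.homN
  lamN := h.lamN
  wN := h.wN
  dvd F hF := h.dvd F (h2 hF)
  memG := h1 (mem_insert _ _)
  memN k := h1 (mem_insert_of_mem _ ⟨k, rfl⟩)

theorem KDat.Good.eqs_subset {N : ℕ} {R : Type*} [CommRing R] {κ : KDat n N R}
    {E : Set (MvPolynomial (Fin (N + 1)) R)} (h : κ.Good E) : κ.eqs ⊆ E := by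
  rintro F (rfl | ⟨k, rfl⟩)
  · exact h.memG
  · exact h.memN k

variable {M : Type} [TopologicalSpace M] {A : Atl n M}


theorem eval_span {N : ℕ} {S : Set (MvPolynomial (Fin (N + 1)) ℂ)} {v : Fin (N + 1) → ℂ}
    (h : ∀ p ∈ Ideal.span S, eval v p = 0) : ∀ p ∈ S, eval v p = 0 :=
  fun p hp => h p (Ideal.subset_span hp)

section Final

variable [T2Space M] [ConnectedSpace M] [CompactSpace M] [Finite A.ι]

/-- **KRON, final form** -/
theorem kron_all (PA : Part A) (hD : D2 A) (P : ProjD A) :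
    ∃ (m : ℕ) (κ : Fin m → KDat n P.N ℂ) (E0 : Finset (MvPolynomial (Fin (P.N + 1)) ℂ)),
      (↑E0 : Set (MvPolynomial (Fin (P.N + 1)) ℂ)) ⊆ VanS P ∧
      (∀ E : Set (MvPolynomial (Fin (P.N + 1)) ℂ), ↑E0 ⊆ E → E ⊆ VanS P →
        (∀ a, (κ a).Good E) ∧
        (∀ v, (∀ F ∈ E, eval v F = 0) ↔ v ∈ Vz (IP P)) ∧
        (∃ q, 0 < q ∧ ∀ i, (X i : MvPolynomial (Fin (P.N + 1)) ℂ) ^ q ∈
          Ideal.span (E ∪ range fun a => (κ a).dG)) ∧
        (∀ a, ∃ q, 0 < q ∧ ∀ i, (X i : MvPolynomial (Fin (P.N + 1)) ℂ) ^ q ∈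
          Ideal.span (E ∪ range fun j => lin ((κ a).lam j)))) ∧
      (∀ i, ∀ x ∈ (A.e i).source, ∃ a, eval (P.F i x) (κ a).dG ≠ 0) ∧
      (∀ a i, ∀ x ∈ (A.e i).source, (κ a).lamv (P.F i x) ≠ 0) ∧
      (∀ a, Irreducible (κ a).G) ∧
      (∀ a, ∃ (U V : Polynomial (MvPolynomial (Fin (n + 1)) ℂ)) (d : MvPolynomial (Fin (n + 1)) ℂ),
        d ≠ 0 ∧ U * (κ a).G + V * Polynomial.derivative (κ a).G = Polynomial.C d) ∧
      (∀ a y W, KDat.ev y W (κ a).G = 0 → ∃ v ∈ Vz (IP P), (κ a).lamv v = y ∧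
        lv (κ a).w v = W) := by
  classical
  obtain ⟨m, κ, h1, h2, h3, h4, h5, h6⟩ := kron PA hD P
  have hfg : (Ideal.span (VanS P)).FG := (isNoetherianRing_iff_ideal_fg _).1 inferInstance _
  obtain ⟨s, hs1, hs2⟩ := (Submodule.fg_span_iff_fg_span_finset_subset (VanS P)).1 hfg
  have hfin : (⋃ a, (κ a).eqs).Finite := finite_iUnion fun a => (κ a).eqs_finite
  refine ⟨m, κ, s ∪ hfin.toFinset, ?_, ?_, h2, h3, h4, h5, h6⟩
  · intro F hF
    rcases Finset.mem_union.1 (Finset.mem_coe.1 hF) with h | h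
    · exact hs1 h
    · obtain ⟨a, ha⟩ := mem_iUnion.1 (hfin.mem_toFinset.1 h)
      exact (h1 a).eqs_subset ha
  · intro E hE0 hE
    have hg : ∀ a, (κ a).Good E := fun a => (h1 a).mono (fun F hF => hE0 (Finset.mem_coe.2
      (Finset.mem_union_right _ (hfin.mem_toFinset.2 (mem_iUnion.2 ⟨a, hF⟩))))) hE
    have hv : ∀ v, (∀ F ∈ E, eval v F = 0) ↔ v ∈ Vz (IP P) := by
      intro v
      constructor
      · intro h p hp
        have h7 : IP P = Ideal.span (↑s : Set (MvPolynomial (Fin (P.N + 1)) ℂ)) := hs2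
        rw [h7] at hp
        have h8 : Ideal.span (↑s : Set (MvPolynomial (Fin (P.N + 1)) ℂ)) ≤
            RingHom.ker (eval v) := by
          rw [Ideal.span_le]
          intro q hq
          exact h q (hE0 (Finset.mem_coe.2 (Finset.mem_union_left _ hq)))
        exact h8 hp
      · exact fun h F hF => h F (Ideal.subset_span (hE hF))
    refine ⟨hg, hv, ?_, ?_⟩
    · refine power_of_noZero fun v hv0 => ?_
      have h7 := eval_span hv0
      have h8 : v ∈ Vz (IP P) := (hv v).1 fun F hF => h7 F (Or.inl hF)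
      by_contra hne
      obtain ⟨i, x, hx, c, hc, rfl⟩ := Vz_IP_cases PA hD P h8 hne
      obtain ⟨a, ha⟩ := h2 i x hx
      have h9 := h7 _ (Or.inr ⟨a, rfl⟩)
      rw [eval_smul_homog (dG_isHomogeneous (h1 a))] at h9
      rcases mul_eq_zero.1 h9 with h10 | h10
      · exact pow_ne_zero _ hc h10
      · exact ha h10
    · intro a
      refine power_of_noZero fun v hv0 => ?_
      have h7 := eval_span hv0
      have h8 : v ∈ Vz (IP P) := (hv v).1 fun F hF => h7 F (Or.inl hF)
      by_contra hne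
      obtain ⟨i, x, hx, c, hc, rfl⟩ := Vz_IP_cases PA hD P h8 hne
      have h9 : (κ a).lamv (c • P.F i x) = 0 := by
        funext j
        have h10 := h7 _ (Or.inr ⟨j, rfl⟩)
        rw [eval_lin] at h10
        exact h10
      have h11 : (κ a).lamv (c • P.F i x) = c • (κ a).lamv (P.F i x) := lamv_smul _ _ _
      rw [h11, smul_eq_zero] at h9
      rcases h9 with h12 | h12
      · exact hc h12
      · exact h3 a i x hx h12

end Final

end

end Crest.Agent.R281.Kr_488
end

-- ▼ part R281/CA4_867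
section

/-!
# R281 (S0424), CERT-ASM, part 4 (helper867): the certificate and the code of a projective embedding

* `IsCert P σ C`  : the certificate `C` belongs to the embedding `P` and the closed holomorphic
                    symplectic form `σ`;
* `exists_isCert` : existence, the equations may contain any finite set of relations;
* `exists_code`   : existence of a code.
-/

set_option autoImplicit false

open MvPolynomial Set Filter Topology
open scoped Matrix

namespace Crest.Agent.R281.CA_867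

open Crest.Agent.R281.AF_867 Crest.Agent.R281.Kr_488 Crest.Agent.R281.Ns_476
open Crest.Agent.R275 Crest.Agent.R275.Geo Crest.Agent.R275.Core144
open Crest.Agent.R273.SerA_945 Crest.Agent.R273.SerB_945 Crest.Agent.R273.SerC_945
open Crest.Agent.R273.SerE_945 Crest.Agent.R273.TD3_733 Crest.Agent.R273.FS_333
open Crest.Agent.R273.Defs_333 Crest.Agent.R281.Defs_273 Crest.Agent.R272.CpChow_338
open Crest.Agent.R273.Chow_313

noncomputable section

variable {n : ℕ} {M : Type} [TopologicalSpace M] {A : Atl n M}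

/-- the certificate belongs to the embedding and the form -/
structure IsCert (P : ProjD A) (σ : HSymp A) (C : CDat n P.N ℂ) : Prop where
  pre : Pre C
  eqs : Eqs (fun k => sec P k) (range C.G)
  frm : ∀ j i, ∀ x ∈ (A.e i).source, sec P j i x ^ C.D.m • σ.s i x =
    (DF (fun k => sec P k) i x)ᵀ * evM (fun k => sec P k) (C.D.s j) i x * DF (fun k => sec P k) i x
  irr : ∀ a, Irreducible (C.κ a).G
  dne : ∀ a, C.d a ≠ 0
  lift : ∀ a y W, KDat.ev y W (C.κ a).G = 0 → ∃ v, OnE (range C.G) v ∧ (C.κ a).lamv v = y ∧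
    lv (C.κ a).w v = W

theorem IsCert.setM {P : ProjD A} {σ : HSymp A} {C : CDat n P.N ℂ} (h : IsCert P σ C) (m : ℕ) :
    IsCert P σ { C with m := m } :=
  ⟨⟨h.pre.hom, h.pre.good, h.pre.cov, h.pre.covl, h.pre.bez, h.pre.exact, h.pre.imp⟩, h.eqs, h.frm,
    h.irr, h.dne, h.lift⟩

theorem vanS_eq (P : ProjD A) : VanS P = Rels (fun k => sec P k) := by
  ext p
  unfold VanS Rels
  simp only [mem_ofPred_eq]
  refine and_congr_right fun _ => forall_congr' fun i => forall_congr' fun x =>
    forall_congr' fun hx => ?_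
  rw [show (fun k => sec P k i x) = P.F i x from funext fun k => sec_eq P hx k]

/-- the cone of the certificate -/
theorem IsCert.onE_iff {P : ProjD A} {σ : HSymp A} {C : CDat n P.N ℂ} (h : IsCert P σ C)
    {v : Fin (P.N + 1) → ℂ} (hv : v ≠ 0) : OnE (range C.G) v ↔
      ∃ i, ∃ x ∈ (A.e i).source, ∃ c : ℂ, c ≠ 0 ∧ v = c • P.F i x := by
  constructor
  · intro h1
    obtain ⟨i, x, hx, c, hc, hvc⟩ := h.eqs.pt v hv h1
    refine ⟨i, x, hx, c, hc, ?_⟩
    rw [hvc, show (fun k => sec P k i x) = P.F i x from funext fun k => sec_eq P hx k]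
  · rintro ⟨i, x, hx, c, hc, rfl⟩ p hp
    obtain ⟨⟨d, hd⟩, h1⟩ := h.eqs.rel hp
    have h2 := h1 i x hx
    rw [show (fun k => sec P k i x) = P.F i x from funext fun k => sec_eq P hx k] at h2
    have h3 := eval_smul hd (c := c) (v := P.F i x)
    rw [h3, h2, mul_zero]

theorem eq_zero_of_mem {N : ℕ} {ι : Type*} {S : Set (MvPolynomial (Fin (N + 1)) ℂ)}
    {f : ι → MvPolynomial (Fin (N + 1)) ℂ} {q : ℕ}
    (hq : ∀ i, (X i : MvPolynomial (Fin (N + 1)) ℂ) ^ q ∈ Ideal.span (S ∪ range f))
    {v : Fin (N + 1) → ℂ} (hv : v ≠ 0) (hS : ∀ p ∈ S, eval v p = 0) : ∃ a, eval v (f a) ≠ 0 := by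
  by_contra hcon
  push Not at hcon
  apply hv
  have h1 : Ideal.span (S ∪ range f) ≤ RingHom.ker (eval v) := by
    rw [Ideal.span_le]
    rintro F (hF | ⟨a, rfl⟩)
    · exact hS F hF
    · exact hcon a
  funext i
  have h2 := h1 (hq i)
  rw [RingHom.mem_ker, map_pow, eval_X] at h2
  exact eq_zero_of_pow_eq_zero h2

variable [T2Space M] [ConnectedSpace M] [CompactSpace M] [Finite A.ι]

open Classical in
/-- **the certificate of an embedding** -/
theorem exists_isCert (PA : Part A) (hD : D2 A) (P : ProjD A) (σ : HSymp A)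
    (hcl : Closed σ.toH2) (T : Finset (MvPolynomial (Fin (P.N + 1)) ℂ))
    (hT : (T : Set (MvPolynomial (Fin (P.N + 1)) ℂ)) ⊆ Rels (fun k => sec P k)) :
    ∃ C : CDat n P.N ℂ, IsCert P σ C ∧
      (T : Set (MvPolynomial (Fin (P.N + 1)) ℂ)) ⊆ range C.G := by
  obtain ⟨E1, hE1, hEq⟩ := exists_eqs_proj PA hD P
  obtain ⟨D, hX, hfrm, hImp⟩ := exists_fdat PA hD P σ hcl
  obtain ⟨q, κ, E2, hE2, hall, -, -, hirr, hbez, hlift⟩ := kron_all PA hD P
  choose U V d hd hUV using hbez
  let E : Finset (MvPolynomial (Fin (P.N + 1)) ℂ) := E1 ∪ E2 ∪ T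
  have hE : (E : Set (MvPolynomial (Fin (P.N + 1)) ℂ)) ⊆ Rels (fun k => sec P k) := by
    intro p hp
    rcases Finset.mem_union.1 (Finset.mem_coe.1 hp) with h | h
    · rcases Finset.mem_union.1 h with h | h
      · exact hE1 h
      · rw [← vanS_eq]
        exact hE2 h
    · exact hT h
  have h1E : (E1 : Set (MvPolynomial (Fin (P.N + 1)) ℂ)) ⊆ E := fun p hp =>
    Finset.mem_coe.2 (Finset.mem_union_left _ (Finset.mem_union_left _ hp))
  have h2E : (E2 : Set (MvPolynomial (Fin (P.N + 1)) ℂ)) ⊆ E := fun p hp =>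
    Finset.mem_coe.2 (Finset.mem_union_left _ (Finset.mem_union_right _ hp))
  have hTE : (T : Set (MvPolynomial (Fin (P.N + 1)) ℂ)) ⊆ E := fun p hp =>
    Finset.mem_coe.2 (Finset.mem_union_right _ hp)
  have hEqs := hEq E h1E hE
  obtain ⟨hg, hv, ⟨q1, -, hq1⟩, hq2⟩ := hall E h2E (by rw [vanS_eq]; exact hE)
  let G : Fin E.card → MvPolynomial (Fin (P.N + 1)) ℂ := fun l => (E.equivFin.symm l).1
  have hr : range G = E := by
    ext p
    constructor
    · rintro ⟨l, rfl⟩
      exact (E.equivFin.symm l).2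
    · intro hp
      refine ⟨E.equivFin ⟨p, hp⟩, ?_⟩
      simp only [G, Equiv.symm_apply_apply]
  refine ⟨⟨E.card, G, q, κ, 0, D, U, V, d⟩, ⟨⟨?_, ?_, ?_, ?_, ?_, hX, ?_⟩, ?_, hfrm, hirr, hd, ?_⟩,
    ?_⟩
  · intro l
    exact (hE (E.equivFin.symm l).2).1
  · intro a
    show (κ a).Good (range G)
    rw [hr]
    exact hg a
  · intro v hv0 hvG
    refine eq_zero_of_mem hq1 hv0 fun p hp => ?_
    rw [← hr] at hp
    obtain ⟨l, rfl⟩ := hp
    exact hvG l
  · intro a v hv0 hvG
    obtain ⟨q2, -, hq⟩ := hq2 a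
    obtain ⟨j, hj⟩ := eq_zero_of_mem hq hv0 fun p hp => by
      rw [← hr] at hp
      obtain ⟨l, rfl⟩ := hp
      exact hvG l
    rw [eval_lin] at hj
    exact ⟨j, hj⟩
  · exact hUV
  · show D.Imp (range G)
    rw [hr]
    exact hImp _ hEqs
  · show Eqs _ (range G)
    rw [hr]
    exact hEqs
  · intro a y W h
    obtain ⟨v, hv1, hv2, hv3⟩ := hlift a y W h
    refine ⟨v, ?_, hv2, hv3⟩
    show OnE (range G) v
    rw [hr]
    exact (hv v).2 hv1
  · show (T : Set (MvPolynomial (Fin (P.N + 1)) ℂ)) ⊆ range G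
    rw [hr]
    exact hTE

open Classical in
/-- **the code of an embedding** -/
theorem exists_code (k₀ : Type) [CommRing k₀] [Algebra k₀ ℂ]
    (hinj : Function.Injective (algebraMap k₀ ℂ)) (PA : Part A) (hD : D2 A) (P : ProjD A)
    (σ : HSymp A) (hcl : Closed σ.toH2) (T : Finset (MvPolynomial (Fin (P.N + 1)) k₀))
    (hT : ∀ p ∈ T, MvPolynomial.map (algebraMap k₀ ℂ) p ∈ Rels (fun k => sec P k)) :
    ∃ (K : Code k₀ n P.N) (c : Fin K.k → ℂ), K.Good c ∧ IsCert P σ (K.mem c) ∧
      ∀ p ∈ T, MvPolynomial.map (MvPolynomial.C : k₀ →+* MvPolynomial (Fin K.k) k₀) p ∈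
        range K.Y.G := by
  obtain ⟨C, hC, hTC⟩ := exists_isCert PA hD P σ hcl
    (T.image (MvPolynomial.map (algebraMap k₀ ℂ))) (by
      intro p hp
      obtain ⟨p', hp', rfl⟩ := Finset.mem_image.1 (Finset.mem_coe.1 hp)
      exact hT p' hp')
  obtain ⟨m, S, hS⟩ := exists_desc hC.pre
  let c : Fin S.card → ℂ := fun l => (S.equivFin.symm l).1
  have hcS : ∀ x ∈ S, x ∈ Rg k₀ c := by
    intro x hx
    have h1 : x = c (S.equivFin ⟨x, hx⟩) := by
      simp only [c, Equiv.symm_apply_apply]
    rw [h1]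
    exact mem_Rg c _
  obtain ⟨Y0, hY0, hok⟩ := hS (R := Rg k₀ c) (i := (Rg k₀ c).val.toRingHom)
    Subtype.val_injective (fun x hx => ⟨⟨x, hcS x hx⟩, rfl⟩)
  have hv0 : ((Rg k₀ c).val.toRingHom).comp (algebraMap k₀ (Rg k₀ c)) = algebraMap k₀ ℂ := rfl
  have hi0 : Function.Injective (MvPolynomial.map (σ := Fin (P.N + 1))
      (Rg k₀ c).val.toRingHom) := MvPolynomial.map_injective _ Subtype.val_injective
  have hi1 : Function.Injective (MvPolynomial.map (σ := Fin (P.N + 1))
      (algebraMap k₀ (Rg k₀ c))) := by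
    refine MvPolynomial.map_injective _ fun a b hab => hinj ?_
    exact congrArg Subtype.val hab
  have hcc : (toRg k₀ c).comp (MvPolynomial.C : k₀ →+* MvPolynomial (Fin S.card) k₀) =
      algebraMap k₀ (Rg k₀ c) := by
    refine RingHom.ext fun a => Subtype.ext ?_
    show aeval c (MvPolynomial.C a) = algebraMap k₀ ℂ a
    exact algHom_C _ a
  have hG : ∀ l, ∃ g : MvPolynomial (Fin (P.N + 1)) (MvPolynomial (Fin S.card) k₀),
      MvPolynomial.map (toRg k₀ c) g = Y0.G l ∧
      ∀ p ∈ T, MvPolynomial.map (algebraMap k₀ (Rg k₀ c)) p = Y0.G l →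
        g = MvPolynomial.map MvPolynomial.C p := by
    intro l
    by_cases h : ∃ p ∈ T, MvPolynomial.map (algebraMap k₀ (Rg k₀ c)) p = Y0.G l
    · obtain ⟨p, hp, hpl⟩ := h
      refine ⟨MvPolynomial.map MvPolynomial.C p, ?_, fun p' hp' hpl' => ?_⟩
      · rw [MvPolynomial.map_map, hcc, hpl]
      · rw [hi1 (hpl.trans hpl'.symm)]
    · obtain ⟨g, hg⟩ := mv_lift_surj (toRg_surjective (k₀ := k₀) c) (Y0.G l)
      exact ⟨g, hg, fun p hp hpl => absurd ⟨p, hp, hpl⟩ h⟩
  choose g hg1 hg2 using hG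
  obtain ⟨Y, hr, hY, hYG⟩ := CDat.exists_lift (toRg_surjective (k₀ := k₀) c) Y0 g hg1
  have hmemY : Y.map (aeval c : MvPolynomial (Fin S.card) k₀ →ₐ[k₀] ℂ).toRingHom =
      { C with m := m } := by
    rw [← val_comp_toRg, ← CDat.map_map, hY, hY0]
  have hdne : ∀ a, MvPolynomial.map (aeval c : MvPolynomial (Fin S.card) k₀ →ₐ[k₀] ℂ).toRingHom
      (Y.d a) ≠ 0 := by
    have h1 : ∀ C' : CDat n P.N ℂ, C' = { C with m := m } → ∀ a, C'.d a ≠ 0 := by
      rintro _ rfl
      exact hC.dne
    exact h1 _ hmemY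
  have hα : ∀ a, ∃ α, aeval c (coeff α (Y.d a)) ≠ 0 := by
    intro a
    by_contra hcon
    push Not at hcon
    apply hdne a
    ext α
    rw [coeff_map, coeff_zero]
    exact hcon α
  choose α hα using hα
  let K : Code k₀ n P.N := ⟨S.card, Y, ∏ a, coeff (α a) (Y.d a)⟩
  have hKrg : K.rg c = Y0 := hY
  have hKmem : K.mem c = { C with m := m } := hmemY
  refine ⟨K, c, ⟨by rw [hKrg]; exact hok, ?_, fun a => ⟨α a, Finset.dvd_prod_of_mem
    (fun a => coeff (α a) (Y.d a)) (Finset.mem_univ a)⟩⟩, ?_, ?_⟩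
  · show aeval c (∏ a, coeff (α a) (Y.d a)) ≠ 0
    rw [map_prod]
    exact Finset.prod_ne_zero_iff.2 fun a _ => hα a
  · rw [hKmem]
    exact hC.setM m
  · intro p hp
    have h1 : MvPolynomial.map (algebraMap k₀ ℂ) p ∈ range C.G :=
      hTC (Finset.mem_coe.2 (Finset.mem_image_of_mem _ hp))
    have h2 : ∀ C' : CDat n P.N ℂ, C' = { C with m := m } →
        MvPolynomial.map (algebraMap k₀ ℂ) p ∈ range C'.G := by
      rintro _ rfl
      exact h1
    obtain ⟨l, hl⟩ := h2 _ hY0
    have h3 : MvPolynomial.map (algebraMap k₀ (Rg k₀ c)) p = Y0.G l := by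
      apply hi0
      rw [MvPolynomial.map_map, hv0]
      exact hl.symm
    refine ⟨Fin.cast hr.symm l, ?_⟩
    show Y.G (Fin.cast hr.symm l) = _
    rw [hYG, ← hg2 l p hp h3]
    rfl

end

end Crest.Agent.R281.CA_867
end

-- ▼ part R281/CB1_867

/-!
# R281 (S0424), START-CODE (helper867): a projective embedding is a member of the family of a code

* `IsCert.form`   : the value of the form of the certificate on the derivatives of the embedding is
                    `F_j ^ m σ`, in the shape of 313's `ofProj`;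
* `exists_start`  : code, model, base point, and 268's marking `⟨q0, ofAtl A, hc, ofProj P b, _⟩`.
-/

set_option autoImplicit false

open MvPolynomial Set Filter Topology
open scoped Matrix

namespace Crest.Agent.R281.CB_867

open Crest.Agent.R281.AF_867 Crest.Agent.R281.Kr_488 Crest.Agent.R281.CA_867
open Crest.Agent.R275 Crest.Agent.R275.Geo Crest.Agent.R275.Core144
open Crest.Agent.R273.SerA_945 Crest.Agent.R273.SerB_945 Crest.Agent.R273.SerC_945
open Crest.Agent.R273.SerE_945 Crest.Agent.R273.TD3_733 Crest.Agent.R273.FS_333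
open Crest.Agent.R273.Defs_333 Crest.Agent.R281.Defs_273 Crest.Agent.R272.CpChow_338
open Crest.Agent.R273.SteinC_794 Crest.Agent.R273.KosGen_313 Crest.Agent.R273.Chow_313 Crest.Agent.R260.Zt_313
open Crest.Agent.R281.Sl_957 Crest.Agent.R281.Am_957 Crest.Agent.R281.QF_871
open Crest.Agent.R281.HkR_835 Crest.Agent.R281.Ehr2_268 Crest.Agent.R281.Ehr6_268
open Crest.Agent.R281.Pe_313 Crest.Agent.R273.Fam_835

noncomputable section

variable {n : ℕ} {M : Type} [TopologicalSpace M] {A : Atl n M}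

section Form

variable {P : ProjD A} {σ : HSymp A} {C : CDat n P.N ℂ}

theorem b_sum_right {κ α : Type*} [Fintype κ] (D : FDat κ ℂ) (j : κ) (x : κ → ℂ) (s : Finset α)
    (c : α → ℂ) (v : κ → ℂ) (w : α → κ → ℂ) :
    D.b j x v (∑ a ∈ s, c a • w a) = ∑ a ∈ s, c a * D.b j x v (w a) := by
  classical
  induction s using Finset.induction_on with
  | empty => simp [FDat.b]
  | insert a s ha ih =>
    rw [Finset.sum_insert ha, Finset.sum_insert ha, FDat.b_add_right, FDat.b_smul_right, ih]

/-- the form of the certificate on the columns of derivatives -/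
theorem form_dcol (h : IsCert P σ C) {i : A.ι} {x : M} (hx : x ∈ (A.e i).source)
    (j : Fin (P.N + 1)) (a b : Fin n) :
    C.D.b j (fun k => sec P k i x) (dcol (fun k => sec P k) i x a)
      (dcol (fun k => sec P k) i x b) = sec P j i x ^ C.D.m * σ.s i x a b := by
  have h1 := congrFun (congrFun (h.frm j i x hx) a) b
  rw [Matrix.smul_apply, smul_eq_mul] at h1
  rw [h1, Matrix.mul_apply]
  unfold FDat.b
  rw [Finset.sum_comm]
  refine Finset.sum_congr rfl fun l _ => ?_
  rw [Matrix.mul_apply, Finset.sum_mul]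
  refine Finset.sum_congr rfl fun k _ => ?_
  rw [Matrix.transpose_apply, evM_apply]
  show MvPolynomial.eval (fun k => sec P k i x) (C.D.s j k l) *
    (DF (fun k => sec P k) i x k a * DF (fun k => sec P k) i x l b) = _
  ring

/-- `df` of the sections `F_k` is the derivative of `P.F` -/
theorem df_sec {i : A.ι} {z : Cn n} (hz : z ∈ (A.e i).target) (v : Cn n) (k : Fin (P.N + 1)) :
    df A i (sec P k i) ((A.e i).symm z) v =
      fderiv ℂ (fun w => P.F i ((A.e i).symm w)) z v k := by
  have hx : (A.e i).symm z ∈ (A.e i).source := (A.e i).map_target hz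
  have h1 : HasFDerivAt (fun w => P.F i ((A.e i).symm w))
      (fderiv ℂ (fun w => P.F i ((A.e i).symm w)) z) z := (F_hol P hz).hasFDerivAt
  have h2 : HasFDerivAt (fun w => P.F i ((A.e i).symm w) k)
      ((ContinuousLinearMap.proj k).comp (fderiv ℂ (fun w => P.F i ((A.e i).symm w)) z)) z :=
    (ContinuousLinearMap.proj (R := ℂ) (φ := fun _ : Fin (P.N + 1) => ℂ) k).hasFDerivAt.comp z h1
  have h3 : (fun w => sec P k i ((A.e i).symm w)) =ᶠ[𝓝 z]
      fun w => P.F i ((A.e i).symm w) k := by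
    filter_upwards [(A.e i).open_target.mem_nhds hz] with w hw
    exact sec_eq P ((A.e i).map_target hw) k
  unfold df
  rw [(A.e i).right_inv hz, h3.fderiv_eq, h2.fderiv]
  rfl

/-- **the value of the form** -/
theorem form_eq (h : IsCert P σ C) {i : A.ι} {z : Cn n} (hz : z ∈ (A.e i).target)
    (j : Fin (P.N + 1)) (u v : Cn n) :
    C.D.b j (P.F i ((A.e i).symm z))
      (fderiv ℂ (fun w => P.F i ((A.e i).symm w)) z u)
      (fderiv ℂ (fun w => P.F i ((A.e i).symm w)) z v) =
      P.F i ((A.e i).symm z) j ^ C.D.m * sb (σ.s i ((A.e i).symm z)) u v := by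
  have hx : (A.e i).symm z ∈ (A.e i).source := (A.e i).map_target hz
  have hF : (fun k => sec P k i ((A.e i).symm z)) = P.F i ((A.e i).symm z) :=
    funext fun k => sec_eq P hx k
  have hd : ∀ v : Cn n, fderiv ℂ (fun w => P.F i ((A.e i).symm w)) z v =
      ∑ a, v a • dcol (fun k => sec P k) i ((A.e i).symm z) a := by
    intro v
    rw [← dir_eq (F := fun k => sec P k)]
    funext k
    exact (df_sec hz v k).symm
  rw [hd u, hd v, b_sum_left]
  simp only [b_sum_right]
  have h1 : ∀ a b, C.D.b j (P.F i ((A.e i).symm z))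
      (dcol (fun k => sec P k) i ((A.e i).symm z) a)
      (dcol (fun k => sec P k) i ((A.e i).symm z) b) =
      P.F i ((A.e i).symm z) j ^ C.D.m * σ.s i ((A.e i).symm z) a b := by
    intro a b
    have h2 := form_dcol h hx j a b
    rw [hF, sec_eq P hx j] at h2
    exact h2
  simp only [h1]
  unfold sb
  rw [Finset.mul_sum]
  refine Finset.sum_congr rfl fun a _ => ?_
  rw [Finset.mul_sum, Finset.mul_sum]
  refine Finset.sum_congr rfl fun b _ => ?_
  ring

end Form

/-- the standard coordinates -/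
abbrev bE (N : ℕ) : EuclideanSpace ℂ (Fin (N + 1)) ≃L[ℂ] (Fin (N + 1) → ℂ) :=
  EuclideanSpace.equiv (Fin (N + 1)) ℂ

theorem cone_ofProj {P : ProjD A} {σ : HSymp A} {C : CDat n P.N ℂ} (h : IsCert P σ C)
    (w : EuclideanSpace ℂ (Fin (P.N + 1))) :
    w ∈ (ofProj P (bE P.N)).cone ↔ w ≠ 0 ∧ OnE (range C.G) fun i => w i := by
  rw [ofProj_cone]
  have e : bE P.N w = fun i => w i := rfl
  constructor
  · rintro ⟨a, x, hx, c, hc, hw⟩
    have h0 : (fun i => w i) ≠ (0 : Fin (P.N + 1) → ℂ) := by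
      rw [← e, hw]
      exact smul_ne_zero hc (P.ne a x hx)
    refine ⟨fun hw0 => h0 ?_, (h.onE_iff h0).2 ⟨a, x, hx, c, hc, ?_⟩⟩
    · rw [hw0]
      rfl
    · rw [← e, hw]
  · rintro ⟨hw0, hw⟩
    have h0 : (fun i => w i) ≠ (0 : Fin (P.N + 1) → ℂ) := by
      intro h1
      apply hw0
      ext i
      exact congrFun h1 i
    obtain ⟨a, x, hx, c, hc, hw'⟩ := (h.onE_iff h0).1 hw
    exact ⟨a, x, hx, c, hc, hw'⟩

variable [T2Space M] [ConnectedSpace M] [CompactSpace M] [Finite A.ι]


end

end Crest.Agent.R281.CB_867
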