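import Crest.Agent.R281.GT3_639
import Crest.Agent.R281.Qr2_770
import Crest.Agent.R281.AF3_867
import Crest.Agent.R281.HkP2_508
import Crest.Agent.R273.SteinL_794

-- ▼ part R281/GT5_639
section

/-!
Row 281, glue DIV 2 -> DIV 3 (helper639).  Part 5: the 2-form in the coordinates of a projection.

* `hasFDerivAt_two` : derivative of `P(y(ζ), z(ζ))`
* `hasFDerivAt_td`  : on a solution `F(y(ζ), z(ζ)) = 0` it is `∑ i, TD F P i • dy_i`
* `VK`, `VD`        : the coordinates `v_k = N_k / F'` and their derivatives with respect to `y`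
* `SY`              : the matrix of the form; `SY_RS`
* `form_eq`         : `σ_ab = ∑ (SY) ∂_a y_j ∂_b y_j'`
-/

set_option autoImplicit false

open Polynomial

noncomputable section

namespace Crest.Agent.R281.GT_639

variable {n : ℕ} {R : Type*} [CommRing R]
variable {E : Type*} [NormedAddCommGroup E] [NormedSpace ℂ E]

/-- the covector `∑ c_i dy_i` -/
def lc (c : Fin n → ℂ) (y' : E →L[ℂ] (Fin n → ℂ)) : E →L[ℂ] ℂ := (lf c).comp y'

@[simp] theorem lc_apply (c : Fin n → ℂ) (y' : E →L[ℂ] (Fin n → ℂ)) (v : E) :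
    lc c y' v = ∑ i, c i * y' v i := by
  simp [lc]

/-- derivative of `P(y(ζ), z(ζ))` -/
theorem hasFDerivAt_two (e : R →+* ℂ) (P : (MvPolynomial (Fin n) R)[X]) {y : E → Fin n → ℂ}
    {z : E → ℂ} {ζ : E} {y' : E →L[ℂ] (Fin n → ℂ)} {z' : E →L[ℂ] ℂ} (hy : HasFDerivAt y y' ζ)
    (hz : HasFDerivAt z z' ζ) :
    HasFDerivAt (fun ζ => (P.map (ph e (y ζ))).eval (z ζ))
      (lc (fun i => ((Dc i P).map (ph e (y ζ))).eval (z ζ)) y' +
        (P.derivative.map (ph e (y ζ))).eval (z ζ) • z') ζ := by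
  classical
  set N := P.natDegree + 1 with hN
  have h0 : (fun ζ => (P.map (ph e (y ζ))).eval (z ζ)) =
      fun ζ => ∑ k ∈ Finset.range N, ph e (y ζ) (P.coeff k) * z ζ ^ k := by
    funext ζ
    exact eval_map_eq e P (Nat.lt_succ_self _) (y ζ) (z ζ)
  have h1 : ∀ k ∈ Finset.range N, HasFDerivAt (fun ζ => ph e (y ζ) (P.coeff k) * z ζ ^ k)
      (ph e (y ζ) (P.coeff k) • ((k • z ζ ^ (k - 1)) • z') + z ζ ^ k •
        lc (fun i => ph e (y ζ) (MvPolynomial.pderiv i (P.coeff k))) y') ζ := by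
    intro k _
    have hc : HasFDerivAt (fun ζ => ph e (y ζ) (P.coeff k))
        (lc (fun i => ph e (y ζ) (MvPolynomial.pderiv i (P.coeff k))) y') ζ :=
      (ph_hasFDerivAt e (P.coeff k) (y ζ)).comp ζ hy
    exact hc.fun_mul (hz.pow k)
  have h2 := HasFDerivAt.fun_sum h1
  rw [h0]
  refine h2.congr_fderiv ?_
  apply ContinuousLinearMap.ext
  intro v
  have h3 : (P.derivative.map (ph e (y ζ))).eval (z ζ) =
      ∑ k ∈ Finset.range N, ph e (y ζ) (P.coeff k) * (k * z ζ ^ (k - 1)) := by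
    rw [← derivative_map]
    have h4 := derivative_eval (P.map (ph e (y ζ))) (z ζ)
    rw [h4, Polynomial.sum_over_range' _ _ N (lt_of_le_of_lt natDegree_map_le (by omega))]
    · apply Finset.sum_congr rfl
      intro k _
      rw [coeff_map]
      ring
    · intro k
      simp
  have h5 : ∀ i, ((Dc i P).map (ph e (y ζ))).eval (z ζ) =
      ∑ k ∈ Finset.range N, ph e (y ζ) (MvPolynomial.pderiv i (P.coeff k)) * z ζ ^ k := by
    intro i
    have hd : (Dc i P).natDegree < N := by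
      rw [Nat.lt_succ_iff, natDegree_le_iff_coeff_eq_zero]
      intro k hk
      rw [Dc_coeff, coeff_eq_zero_of_natDegree_lt hk, map_zero]
    rw [eval_map_eq e (Dc i P) hd]
    simp only [Dc_coeff]
  simp only [_root_.sum_apply, _root_.add_apply,
    _root_.smul_apply, lc_apply, smul_eq_mul, nsmul_eq_mul, h3, h5]
  rw [Finset.sum_add_distrib, add_comm]
  congr 1
  · simp only [Finset.sum_mul, Finset.mul_sum]
    rw [Finset.sum_comm]
    apply Finset.sum_congr rfl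
    intro i _
    apply Finset.sum_congr rfl
    intro k _
    ring
  · rw [Finset.sum_mul]
    apply Finset.sum_congr rfl
    intro k _
    ring

/-- along a solution `F(y(ζ), z(ζ)) = 0` with `F' ≠ 0` -/
theorem hasFDerivAt_td (e : R →+* ℂ) (F P : (MvPolynomial (Fin n) R)[X]) {y : E → Fin n → ℂ}
    {z : E → ℂ} {ζ : E} {y' : E →L[ℂ] (Fin n → ℂ)} (hy : HasFDerivAt y y' ζ)
    (hz : DifferentiableAt ℂ z ζ)
    (h0 : ∀ᶠ ζ' in nhds ζ, (F.map (ph e (y ζ'))).eval (z ζ') = 0)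
    (hF : (F.derivative.map (ph e (y ζ))).eval (z ζ) ≠ 0) :
    HasFDerivAt (fun ζ => (P.map (ph e (y ζ))).eval (z ζ))
      (lc (fun i => TD F P i (ph e (y ζ)) (z ζ)) y') ζ := by
  classical
  have h1 := hasFDerivAt_two e F hy hz.hasFDerivAt
  have h2 : HasFDerivAt (fun ζ => (F.map (ph e (y ζ))).eval (z ζ)) (0 : E →L[ℂ] ℂ) ζ := by
    refine (hasFDerivAt_const (0 : ℂ) ζ).congr_of_eventuallyEq ?_
    filter_upwards [h0] with y' hy'
    exact hy'
  have h3 := h1.unique h2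
  have h4 : ∀ v, fderiv ℂ z ζ v = -((∑ i, ((Dc i F).map (ph e (y ζ))).eval (z ζ) * y' v i) *
      ((F.derivative.map (ph e (y ζ))).eval (z ζ))⁻¹) := by
    intro v
    have h5 := congrArg (fun L : E →L[ℂ] ℂ => L v) h3
    simp only [_root_.add_apply, _root_.smul_apply, lc_apply,
      smul_eq_mul, _root_.zero_apply] at h5
    field_simp
    linear_combination h5
  refine (hasFDerivAt_two e P hy hz.hasFDerivAt).congr_fderiv ?_
  apply ContinuousLinearMap.ext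
  intro v
  simp only [_root_.add_apply, _root_.smul_apply, lc_apply,
    smul_eq_mul, h4, TD, sub_mul, Finset.sum_sub_distrib]
  rw [sub_eq_add_neg]
  congr 1
  rw [mul_neg, neg_inj, Finset.sum_mul, Finset.mul_sum]
  apply Finset.sum_congr rfl
  intro i _
  ring


/-! ### the coordinates `v_k = N_k / F'` -/

variable {κ : Type*}

/-- value of the quotient `P / Q` -/
def QV (P Q : (MvPolynomial (Fin n) R)[X]) (φ : MvPolynomial (Fin n) R →+* ℂ) (z : ℂ) : ℂ :=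
  (P.map φ).eval z * ((Q.map φ).eval z)⁻¹

/-- total derivative of the quotient `P / Q` -/
def QD (F P Q : (MvPolynomial (Fin n) R)[X]) (i : Fin n) (φ : MvPolynomial (Fin n) R →+* ℂ)
    (z : ℂ) : ℂ :=
  TD F P i φ z * ((Q.map φ).eval z)⁻¹ -
    (P.map φ).eval z * TD F Q i φ z * (((Q.map φ).eval z)⁻¹ * ((Q.map φ).eval z)⁻¹)

theorem QV_RS [IsDomain R] {F : (MvPolynomial (Fin n) R)[X]} (hm : F.Monic) (hp : Prime F)
    (P : (MvPolynomial (Fin n) R)[X]) {Q : (MvPolynomial (Fin n) R)[X]} (hQ : ¬ F ∣ Q) :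
    RS F (QV P Q) := (RS.poly hp P).mul hp (RS.inv_poly hm hp hQ)

theorem QD_RS [IsDomain R] {F : (MvPolynomial (Fin n) R)[X]} (hm : F.Monic) (hp : Prime F)
    (hs : ¬ F ∣ F.derivative) (P : (MvPolynomial (Fin n) R)[X])
    {Q : (MvPolynomial (Fin n) R)[X]} (hQ : ¬ F ∣ Q) (i : Fin n) : RS F (QD F P Q i) :=
  ((TD_RS hm hp hs P i).mul hp (RS.inv_poly hm hp hQ)).sub hp
    (((RS.poly hp P).mul hp (TD_RS hm hp hs Q i)).mul hp
      ((RS.inv_poly hm hp hQ).mul hp (RS.inv_poly hm hp hQ)))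

theorem hasFDerivAt_QV (e : R →+* ℂ) (F P Q : (MvPolynomial (Fin n) R)[X]) {y : E → Fin n → ℂ}
    {z : E → ℂ} {ζ : E} {y' : E →L[ℂ] (Fin n → ℂ)} (hy : HasFDerivAt y y' ζ)
    (hz : DifferentiableAt ℂ z ζ)
    (h0 : ∀ᶠ ζ' in nhds ζ, (F.map (ph e (y ζ'))).eval (z ζ') = 0)
    (hF : (F.derivative.map (ph e (y ζ))).eval (z ζ) ≠ 0)
    (hQ : (Q.map (ph e (y ζ))).eval (z ζ) ≠ 0) :
    HasFDerivAt (fun ζ => QV P Q (ph e (y ζ)) (z ζ))
      (lc (fun i => QD F P Q i (ph e (y ζ)) (z ζ)) y') ζ := by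
  have h1 := hasFDerivAt_td e F P hy hz h0 hF
  have h2 := hasFDerivAt_td e F Q hy hz h0 hF
  have h4 : HasFDerivAt (fun ζ => ((Q.map (ph e (y ζ))).eval (z ζ))⁻¹)
      ((-(((Q.map (ph e (y ζ))).eval (z ζ)) ^ 2)⁻¹) •
        lc (fun i => TD F Q i (ph e (y ζ)) (z ζ)) y') ζ :=
    (hasDerivAt_inv hQ).comp_hasFDerivAt ζ h2
  have h3 := h1.fun_mul h4
  refine h3.congr_fderiv ?_
  apply ContinuousLinearMap.ext
  intro v
  simp only [_root_.add_apply, _root_.smul_apply, lc_apply, smul_eq_mul, QD, sub_mul,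
    Finset.sum_sub_distrib]
  rw [sub_eq_add_neg, add_comm]
  congr 1
  · rw [Finset.mul_sum]
    apply Finset.sum_congr rfl
    intro i _
    ring
  · rw [neg_mul, mul_neg, Finset.mul_sum, Finset.mul_sum, ← Finset.sum_neg_distrib,
      ← Finset.sum_neg_distrib]
    apply Finset.sum_congr rfl
    intro i _
    field_simp

/-! ### the form -/

variable [Fintype κ]

/-- the coefficients of the form `∑ s_kl dv_k dv_l / v_j^m` in the coordinates `y` -/
def SY (F : (MvPolynomial (Fin n) R)[X]) (Nm : κ → (MvPolynomial (Fin n) R)[X]) (j : κ) (m : ℕ)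
    (s : κ → κ → MvPolynomial κ R) (φ : MvPolynomial (Fin n) R →+* ℂ) (z : ℂ) :
    Matrix (Fin n) (Fin n) ℂ :=
  Matrix.of fun a b => ∑ k, ∑ l, (((Nm j).map φ).eval z)⁻¹ ^ m *
    ((F.derivative.map φ).eval z) ^ m *
    (MvPolynomial.eval₂ (φ.comp MvPolynomial.C) (fun k => QV (Nm k) F.derivative φ z)
      (s k l) * (QD F (Nm k) F.derivative a φ z * QD F (Nm l) F.derivative b φ z))

theorem det_SY_RS [IsDomain R] {F : (MvPolynomial (Fin n) R)[X]} (hm : F.Monic) (hp : Prime F)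
    (hs : ¬ F ∣ F.derivative) (Nm : κ → (MvPolynomial (Fin n) R)[X]) {j : κ} (hj : ¬ F ∣ Nm j)
    (m : ℕ) (s : κ → κ → MvPolynomial κ R) :
    RS F fun φ z => (SY F Nm j m s φ z).det := by
  classical
  refine RS.det hp (g := fun a b φ z => ∑ k, ∑ l, (((Nm j).map φ).eval z)⁻¹ ^ m *
    ((F.derivative.map φ).eval z) ^ m *
    (MvPolynomial.eval₂ (φ.comp MvPolynomial.C) (fun k => QV (Nm k) F.derivative φ z)
      (s k l) * (QD F (Nm k) F.derivative a φ z * QD F (Nm l) F.derivative b φ z)))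
    fun a b => ?_
  refine RS.sum hp Finset.univ fun k _ => RS.sum hp Finset.univ fun l _ => ?_
  refine RS.mul hp (RS.mul hp (RS.pow hp (RS.inv_poly hm hp hj) m)
    (RS.pow hp (RS.poly hp F.derivative) m)) (RS.mul hp ?_ (RS.mul hp ?_ ?_))
  · have h1 := RS.mvpoly hp ((s k l).map (MvPolynomial.C : R →+* MvPolynomial (Fin n) R))
      (v := fun k => QV (Nm k) F.derivative) fun k => QV_RS hm hp (Nm k) hs
    refine h1.congr one_ne_zero fun φ _ z _ => ?_
    rw [MvPolynomial.eval₂_map]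
  · exact QD_RS hm hp hs (Nm k) hs a
  · exact QD_RS hm hp hs (Nm l) hs b

theorem sum4 {κ ι : Type*} [Fintype κ] [Fintype ι] (f : κ → κ → ι → ι → ℂ) :
    ∑ k, ∑ l, ∑ i, ∑ i', f k l i i' = ∑ i', ∑ i, ∑ k, ∑ l, f k l i i' := by
  have h1 : ∀ k, ∑ l, ∑ i, ∑ i', f k l i i' = ∑ i', ∑ i, ∑ l, f k l i i' := by
    intro k
    rw [Finset.sum_comm]
    rw [Finset.sum_congr rfl (fun i _ => Finset.sum_comm)]
    rw [Finset.sum_comm]
  simp only [h1]
  rw [Finset.sum_comm]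
  refine Finset.sum_congr rfl fun i' _ => ?_
  rw [Finset.sum_comm]

theorem quad_expand {κ ι : Type*} [Fintype κ] [Fintype ι] (c : ℂ) (E : κ → κ → ℂ)
    (D : κ → ι → ℂ) (p q : ι → ℂ) :
    c * ∑ k, ∑ l, E k l * ((∑ i, D k i * p i) * ∑ i', D l i' * q i') =
      ∑ i', (∑ i, p i * ∑ k, ∑ l, c * (E k l * (D k i * D l i'))) * q i' := by
  have h1 : ∀ k l, E k l * ((∑ i, D k i * p i) * ∑ i', D l i' * q i') =
      ∑ i, ∑ i', E k l * (D k i * p i * (D l i' * q i')) := by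
    intro k l
    rw [Finset.sum_mul_sum, Finset.mul_sum]
    refine Finset.sum_congr rfl fun i _ => ?_
    rw [Finset.mul_sum]
  simp only [h1]
  rw [sum4]
  rw [Finset.mul_sum]
  refine Finset.sum_congr rfl fun i' _ => ?_
  rw [Finset.mul_sum, Finset.sum_mul]
  refine Finset.sum_congr rfl fun i _ => ?_
  rw [Finset.mul_sum, Finset.mul_sum, Finset.sum_mul]
  refine Finset.sum_congr rfl fun k _ => ?_
  rw [Finset.mul_sum, Finset.mul_sum, Finset.sum_mul]
  refine Finset.sum_congr rfl fun l _ => ?_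
  ring

theorem form_eq (F : (MvPolynomial (Fin n) R)[X]) (Nm : κ → (MvPolynomial (Fin n) R)[X]) (j : κ)
    (m : ℕ) (s : κ → κ → MvPolynomial κ R) (e : R →+* ℂ) (y : Fin n → ℂ) (z : ℂ)
    (y' : Matrix (Fin n) (Fin n) ℂ) (v : κ → ℂ) (v' : κ → Fin n → ℂ)
    (hv : ∀ k, v k = QV (Nm k) F.derivative (ph e y) z)
    (hv' : ∀ k a, v' k a = ∑ i, QD F (Nm k) F.derivative i (ph e y) z * y' i a)
    (hj : v j ≠ 0) (σ : Matrix (Fin n) (Fin n) ℂ)
    (hσ : ∀ a b, v j ^ m * σ a b = ∑ k, ∑ l, MvPolynomial.eval₂ e v (s k l) * (v' k a * v' l b)) :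
    σ = y'.transpose * SY F Nm j m s (ph e y) z * y' := by
  classical
  have e1 : (ph e y).comp (MvPolynomial.C : R →+* MvPolynomial (Fin n) R) = e := by
    ext r
    simp
  have e2 : (fun k => QV (Nm k) F.derivative (ph e y) z) = v := by
    funext k
    rw [hv]
  have e3 : (((Nm j).map (ph e y)).eval z)⁻¹ ^ m * ((F.derivative.map (ph e y)).eval z) ^ m =
      (v j ^ m)⁻¹ := by
    rw [hv j, QV, mul_pow, inv_pow, mul_inv, inv_pow, inv_inv]
  ext a b
  have h1 : σ a b = (v j ^ m)⁻¹ * ∑ k, ∑ l, MvPolynomial.eval₂ e v (s k l) * (v' k a * v' l b) := by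
    rw [← hσ, inv_mul_cancel_left₀ (pow_ne_zero m hj)]
  rw [h1]
  simp only [hv']
  rw [quad_expand]
  simp only [Matrix.mul_apply, Matrix.transpose_apply]
  refine Finset.sum_congr rfl fun i' _ => ?_
  congr 1
  refine Finset.sum_congr rfl fun i _ => ?_
  congr 1
  simp only [SY, Matrix.of_apply, e1, e2, e3]

theorem det_form_eq {y' σ S : Matrix (Fin n) (Fin n) ℂ} (h : σ = y'.transpose * S * y') :
    ‖σ.det‖ = ‖y'.det‖ ^ 2 * ‖S.det‖ := by
  rw [h, Matrix.det_mul, Matrix.det_mul, Matrix.det_transpose, norm_mul, norm_mul]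
  ring

end Crest.Agent.R281.GT_639
end
end

-- ▼ part R281/GT6_639
section

/-!
Row 281, glue DIV 2 -> DIV 3 (helper639).  Part 6: a member of the family.

* `PrD n r R`  : the linear forms `lam_0 .. lam_n`, `w`, the polynomial `F (Z)` and `Nm_k (Z)` over
                 `R[y_1 .. y_n]` (dehomogenised `KDat`)
* `Mbr 𝔭 e O U`: the specialisation `e : R →+* ℂ` of `𝔭` represents the projective manifold `(M, A)`
                 with coordinates `U k`
* `yM`, `zM`, `vM`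
-/

set_option autoImplicit false
set_option linter.unusedSectionVars false

open Polynomial Set Filter Topology Complex MeasureTheory
open scoped ContDiff Matrix ComplexConjugate Manifold ENNReal

noncomputable section

namespace Crest.Agent.R281.GT_639

open Crest.Agent.R275 Crest.Agent.R275.Geo Crest.Agent.R275.Core144 Crest.Agent.R275.EDR890
open Crest.Agent.R273.Defs_333 Crest.Agent.R273.Kah_333
open Crest.Agent.R273.SerA_945 (Fn)
open Crest.Agent.R273.SteinC_794 Crest.Agent.R273.Chow_313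
open Crest.Agent.R281.Defs_273 Crest.Agent.R281.AF_867 Crest.Agent.R281.Qr_770

variable {n r : ℕ} {R : Type*} [CommRing R]

/-- projection data over `R` -/
structure PrD (n r : ℕ) (R : Type*) [CommRing R] where
  lam : Fin (n + 1) → Fin r → R
  w : Fin r → R
  F : (MvPolynomial (Fin n) R)[X]
  Nm : Fin r → (MvPolynomial (Fin n) R)[X]

/-- the value of a linear form -/
def lv (e : R →+* ℂ) (a : Fin r → R) (u : Fin r → ℂ) : ℂ := ∑ k, e (a k) * u k

/-- the algebraic identities -/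
structure PrD.Good (𝔭 : PrD n r R) : Prop where
  monic : 𝔭.F.Monic
  pos : 0 < 𝔭.F.natDegree
  lam0 : ∑ k, C (MvPolynomial.C (𝔭.lam 0 k)) * 𝔭.Nm k = derivative 𝔭.F
  lamS : ∀ j : Fin n, ∑ k, C (MvPolynomial.C (𝔭.lam j.succ k)) * 𝔭.Nm k =
    C (MvPolynomial.X j) * derivative 𝔭.F
  wN : ∑ k, C (MvPolynomial.C (𝔭.w k)) * 𝔭.Nm k =
    X * derivative 𝔭.F - (𝔭.F.natDegree : (MvPolynomial (Fin n) R)[X]) * 𝔭.F

variable {M : Type} [TopologicalSpace M] {A : Atl n M} {O : LB A}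

/-- a linear form on the coordinates, as a section -/
def ls (e : R →+* ℂ) (U : Fin r → Fn A) (a : Fin r → R) : Fn A := fun i x =>
  lv e a fun k => U k i x

theorem isHS_ls {U : Fin r → Fn A} (hU : ∀ k, IsHS O univ (U k)) (e : R →+* ℂ) (a : Fin r → R) :
    IsHS O univ (ls e U a) where
  hol i := by
    have h1 : HolAt A i univ fun x => ∑ k, e (a k) * U k i x :=
      HolAt.sum _ fun k _ => ((hU k).hol i).const_mul _
    exact h1
  off i x hx := by
    simp only [ls, lv]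
    exact Finset.sum_eq_zero fun k _ => by rw [(hU k).off i x hx, mul_zero]
  tr i j x hx hu := by
    simp only [ls, lv]
    rw [Finset.mul_sum]
    refine Finset.sum_congr rfl fun k _ => ?_
    rw [(hU k).tr i j x hx hu]
    ring

/-- the affine coordinates of the projection -/
def yM (𝔭 : PrD n r R) (e : R →+* ℂ) (U : Fin r → Fn A) (x : M) : Fin n → ℂ :=
  fun j => qt (ls e U (𝔭.lam j.succ)) (ls e U (𝔭.lam 0)) x

/-- the primitive element -/
def zM (𝔭 : PrD n r R) (e : R →+* ℂ) (U : Fin r → Fn A) (x : M) : ℂ :=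
  qt (ls e U 𝔭.w) (ls e U (𝔭.lam 0)) x

/-- the coordinates normalised by `lam_0 = 1` -/
def vM (𝔭 : PrD n r R) (e : R →+* ℂ) (U : Fin r → Fn A) (k : Fin r) (x : M) : ℂ :=
  qt (U k) (ls e U (𝔭.lam 0)) x

/-- value of a polynomial in `(y, z)` at a point of `M` -/
def pM (𝔭 : PrD n r R) (e : R →+* ℂ) (U : Fin r → Fn A) (P : (MvPolynomial (Fin n) R)[X])
    (x : M) : ℂ := (P.map (ph e (yM 𝔭 e U x))).eval (zM 𝔭 e U x)

/-- the specialisation `e` of `𝔭` represents the projective manifold `(M, A)` -/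
structure Mbr (𝔭 : PrD n r R) (e : R →+* ℂ) (O : LB A) (U : Fin r → Fn A) : Prop where
  hs : ∀ k, IsHS O univ (U k)
  inj : ∀ i j, ∀ x ∈ (A.e i).source, ∀ y ∈ (A.e j).source,
    (∃ c : ℂ, ∀ k, U k i x = c * U k j y) → x = y
  imm : Immersive U
  eqF : ∀ x ∈ nz (ls e U (𝔭.lam 0)), pM 𝔭 e U 𝔭.F x = 0
  eqN : ∀ x ∈ nz (ls e U (𝔭.lam 0)), ∀ k,
    pM 𝔭 e U (𝔭.Nm k) x = vM 𝔭 e U k x * pM 𝔭 e U (derivative 𝔭.F) x
  surj : ∀ (y : Fin n → ℂ) (z : ℂ), (𝔭.F.map (ph e y)).eval z = 0 →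
    ((derivative 𝔭.F).map (ph e y)).eval z ≠ 0 →
    ∃ i, ∃ x ∈ (A.e i).source, ∃ c : ℂ, ∀ k, ((𝔭.Nm k).map (ph e y)).eval z = c * U k i x

namespace Mbr

variable {𝔭 : PrD n r R} {e : R →+* ℂ} {U : Fin r → Fn A}

theorem hls (h : Mbr 𝔭 e O U) (a : Fin r → R) : IsHS O univ (ls e U a) := isHS_ls h.hs e a

theorem open_nz (h : Mbr 𝔭 e O U) : IsOpen (nz (ls e U (𝔭.lam 0))) := isOpen_nz (h.hls _)

theorem yM_eq (h : Mbr 𝔭 e O U) {i : A.ι} {x : M} (hx : x ∈ (A.e i).source) (j : Fin n) :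
    yM 𝔭 e U x j = lv e (𝔭.lam j.succ) (fun k => U k i x) / lv e (𝔭.lam 0) (fun k => U k i x) :=
  qt_eq (h.hls _) (h.hls _) hx

theorem zM_eq (h : Mbr 𝔭 e O U) {i : A.ι} {x : M} (hx : x ∈ (A.e i).source) :
    zM 𝔭 e U x = lv e 𝔭.w (fun k => U k i x) / lv e (𝔭.lam 0) (fun k => U k i x) :=
  qt_eq (h.hls _) (h.hls _) hx

theorem vM_eq (h : Mbr 𝔭 e O U) {i : A.ι} {x : M} (hx : x ∈ (A.e i).source) (k : Fin r) :
    vM 𝔭 e U k x = U k i x / lv e (𝔭.lam 0) (fun k => U k i x) :=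
  qt_eq (h.hs k) (h.hls _) hx

theorem nz_iff (h : Mbr 𝔭 e O U) {i : A.ι} {x : M} (hx : x ∈ (A.e i).source) :
    x ∈ nz (ls e U (𝔭.lam 0)) ↔ lv e (𝔭.lam 0) (fun k => U k i x) ≠ 0 :=
  mem_nz (h.hls _) hx

theorem hol_yM (h : Mbr 𝔭 e O U) (i : A.ι) (j : Fin n) :
    HolAt A i (nz (ls e U (𝔭.lam 0))) fun x => yM 𝔭 e U x j := qt_hol (h.hls _) (h.hls _) i

theorem hol_zM (h : Mbr 𝔭 e O U) (i : A.ι) :
    HolAt A i (nz (ls e U (𝔭.lam 0))) (zM 𝔭 e U) := qt_hol (h.hls _) (h.hls _) i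


theorem cont_yM (h : Mbr 𝔭 e O U) {x : M} (hx : x ∈ nz (ls e U (𝔭.lam 0))) :
    ContinuousAt (yM 𝔭 e U) x := by
  obtain ⟨i, hi⟩ := A.cover x
  exact continuousAt_pi.2 fun j => continuousAt_of_holAt h.open_nz (h.hol_yM i j) hi hx

theorem cont_zM (h : Mbr 𝔭 e O U) {x : M} (hx : x ∈ nz (ls e U (𝔭.lam 0))) :
    ContinuousAt (zM 𝔭 e U) x := by
  obtain ⟨i, hi⟩ := A.cover x
  exact continuousAt_of_holAt h.open_nz (h.hol_zM i) hi hx

end Mbr

/-! ### evaluation of polynomials is continuous -/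

theorem continuous_ph (e : R →+* ℂ) (p : MvPolynomial (Fin n) R) :
    Continuous fun y : Fin n → ℂ => ph e y p := by
  rw [continuous_iff_continuousAt]
  exact fun y => (ph_hasFDerivAt e p y).continuousAt

theorem continuous_pe (e : R →+* ℂ) (P : (MvPolynomial (Fin n) R)[X]) :
    Continuous fun p : (Fin n → ℂ) × ℂ => (P.map (ph e p.1)).eval p.2 := by
  have h : (fun p : (Fin n → ℂ) × ℂ => (P.map (ph e p.1)).eval p.2) = fun p =>
      ∑ k ∈ Finset.range (P.natDegree + 1), ph e p.1 (P.coeff k) * p.2 ^ k := by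
    funext p
    exact eval_map_eq e P (Nat.lt_succ_self _) _ _
  rw [h]
  exact continuous_finsetSum _ fun k _ =>
    ((continuous_ph e _).comp continuous_fst).mul (continuous_snd.pow k)

namespace Mbr

variable {𝔭 : PrD n r R} {e : R →+* ℂ} {U : Fin r → Fn A}

theorem cont_pM (h : Mbr 𝔭 e O U) (P : (MvPolynomial (Fin n) R)[X]) {x : M}
    (hx : x ∈ nz (ls e U (𝔭.lam 0))) : ContinuousAt (pM 𝔭 e U P) x := by
  have h1 : ContinuousAt (fun x => (yM 𝔭 e U x, zM 𝔭 e U x)) x :=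
    (h.cont_yM hx).prodMk (h.cont_zM hx)
  exact ContinuousAt.comp (g := fun p : (Fin n → ℂ) × ℂ => (P.map (ph e p.1)).eval p.2)
    (continuous_pe e P).continuousAt h1

/-- the good part of `M` -/
def W (𝔭 : PrD n r R) (e : R →+* ℂ) (U : Fin r → Fn A) (P : (MvPolynomial (Fin n) R)[X]) : Set M :=
  {x | x ∈ nz (ls e U (𝔭.lam 0)) ∧ pM 𝔭 e U P x ≠ 0}

theorem open_W (h : Mbr 𝔭 e O U) (P : (MvPolynomial (Fin n) R)[X]) : IsOpen (W 𝔭 e U P) := by
  rw [isOpen_iff_mem_nhds]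
  rintro x ⟨hx, hP⟩
  filter_upwards [h.open_nz.mem_nhds hx, (h.cont_pM P hx).eventually_ne hP] with x' h1 h2
  exact ⟨h1, h2⟩

/-- the chart expression of `y` is differentiable -/
theorem diff_y (h : Mbr 𝔭 e O U) {i : A.ι} {x : M} (hx : x ∈ (A.e i).source)
    (h0 : x ∈ nz (ls e U (𝔭.lam 0))) :
    DifferentiableAt ℂ (fun ζ => yM 𝔭 e U ((A.e i).symm ζ)) (A.e i x) :=
  differentiableAt_pi.2 fun j => (h.hol_yM i j).diffAt h.open_nz hx h0

theorem diff_z (h : Mbr 𝔭 e O U) {i : A.ι} {x : M} (hx : x ∈ (A.e i).source)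
    (h0 : x ∈ nz (ls e U (𝔭.lam 0))) :
    DifferentiableAt ℂ (fun ζ => zM 𝔭 e U ((A.e i).symm ζ)) (A.e i x) :=
  (h.hol_zM i).diffAt h.open_nz hx h0

theorem ev_symm {i : A.ι} {x : M} (hx : x ∈ (A.e i).source) {S : Set M} (hS : S ∈ 𝓝 x) :
    ∀ᶠ ζ in 𝓝 (A.e i x), (A.e i).symm ζ ∈ S := by
  have h3 := (A.e i).continuousAt_symm ((A.e i).map_source hx)
  rw [ContinuousAt, (A.e i).left_inv hx] at h3
  exact h3 hS

/-- the derivative of the normalised coordinates -/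
theorem deriv_v (h : Mbr 𝔭 e O U) {i : A.ι} {x : M} (hx : x ∈ (A.e i).source)
    (hW : x ∈ W 𝔭 e U (derivative 𝔭.F)) (k : Fin r) :
    HasFDerivAt (fun ζ => vM 𝔭 e U k ((A.e i).symm ζ))
      (lc (fun j => QD 𝔭.F (𝔭.Nm k) (derivative 𝔭.F) j (ph e (yM 𝔭 e U x)) (zM 𝔭 e U x))
        (fderiv ℂ (fun ζ => yM 𝔭 e U ((A.e i).symm ζ)) (A.e i x))) (A.e i x) := by
  have hl := (A.e i).left_inv hx
  have h1 := hasFDerivAt_QV e 𝔭.F (𝔭.Nm k) (derivative 𝔭.F)
    (y := fun ζ => yM 𝔭 e U ((A.e i).symm ζ)) (z := fun ζ => zM 𝔭 e U ((A.e i).symm ζ))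
    (ζ := A.e i x) (h.diff_y hx hW.1).hasFDerivAt (h.diff_z hx hW.1)
    (by
      filter_upwards [ev_symm hx (h.open_nz.mem_nhds hW.1)] with ζ hζ
      exact h.eqF _ hζ)
    (by rw [hl]; exact hW.2) (by rw [hl]; exact hW.2)
  rw [hl] at h1
  refine h1.congr_of_eventuallyEq ?_
  filter_upwards [ev_symm hx ((h.open_W (derivative 𝔭.F)).mem_nhds hW)] with ζ hζ
  have h2 := h.eqN _ hζ.1 k
  have h3 := hζ.2
  unfold pM at h2 h3
  rw [QV, h2]
  field_simp

/-- the projection is immersive -/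
theorem y_inj (h : Mbr 𝔭 e O U) {i : A.ι} {x : M} (hx : x ∈ (A.e i).source)
    (hW : x ∈ W 𝔭 e U (derivative 𝔭.F)) {v : Cn n}
    (hv : fderiv ℂ (fun ζ => yM 𝔭 e U ((A.e i).symm ζ)) (A.e i x) v = 0) : v = 0 := by
  have hl := (A.e i).left_inv hx
  set l0 : M → ℂ := ls e U (𝔭.lam 0) i with hl0
  have h0 : l0 x ≠ 0 := (h.nz_iff hx).1 hW.1
  refine h.imm i x hx v ⟨df A i l0 x v / l0 x, fun k => ?_⟩
  have hdl : DifferentiableAt ℂ (fun ζ => l0 ((A.e i).symm ζ)) (A.e i x) :=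
    ((h.hls (𝔭.lam 0)).hol i).diffAt isOpen_univ hx (mem_univ x)
  have h1 := (h.deriv_v hx hW k).fun_mul hdl.hasFDerivAt
  have h2 : HasFDerivAt (fun ζ => U k i ((A.e i).symm ζ)) _ (A.e i x) :=
    h1.congr_of_eventuallyEq (by
      filter_upwards [ev_symm hx ((A.e i).open_source.mem_nhds hx),
        ev_symm hx (h.open_nz.mem_nhds hW.1)] with ζ hζ hζ'
      rw [h.vM_eq hζ k]
      have h4 : l0 ((A.e i).symm ζ) ≠ 0 := (h.nz_iff hζ).1 hζ'
      exact (div_mul_cancel₀ _ h4).symm)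
  have h3 : df A i (U k i) x v = vM 𝔭 e U k x * df A i l0 x v := by
    unfold df
    rw [h2.fderiv]
    simp only [_root_.add_apply, _root_.smul_apply, smul_eq_mul, lc_apply, hl, hv]
    simp
  rw [h3, h.vM_eq hx k]
  simp only [hl0, ls]
  ring

end Mbr

end Crest.Agent.R281.GT_639
end
end

-- ▼ part R281/GT7_639
section

/-!
Row 281, glue DIV 2 -> DIV 3 (helper639).  Part 7: the 2-form and the area formula of a member.
-/

set_option autoImplicit false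
set_option linter.unusedSectionVars false

open Polynomial Set Filter Topology Complex MeasureTheory
open scoped ContDiff Matrix ComplexConjugate Manifold ENNReal

noncomputable section

namespace Crest.Agent.R281.GT_639

open Crest.Agent.R275 Crest.Agent.R275.Geo Crest.Agent.R275.Core144 Crest.Agent.R275.EDR890
open Crest.Agent.R273.Defs_333 Crest.Agent.R273.Kah_333
open Crest.Agent.R273.SerA_945 (Fn)
open Crest.Agent.R273.SteinC_794 Crest.Agent.R273.Chow_313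
open Crest.Agent.R281.Defs_273 Crest.Agent.R281.AF_867 Crest.Agent.R281.Qr_770

variable {n r : ℕ} {R : Type*} [CommRing R]

/-- a polynomial 2-form `∑ s_kl dX_k dX_l / X_j^m` over `R` -/
structure FmD (r : ℕ) (R : Type*) [CommRing R] where
  j : Fin r
  m : ℕ
  s : Fin r → Fin r → MvPolynomial (Fin r) R

structure FmD.Good (𝔰 : FmD r R) : Prop where
  two : 2 ≤ 𝔰.m
  alt : ∀ k l, 𝔰.s k l = - 𝔰.s l k
  hom : ∀ k l, (𝔰.s k l).IsHomogeneous (𝔰.m - 2)
  eul : ∀ k, ∑ l, 𝔰.s k l * MvPolynomial.X l = 0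

variable {M : Type} [TopologicalSpace M] {A : Atl n M} {O : LB A}

/-- the form `σ` is the specialisation of `𝔰` -/
def FMbr (𝔰 : FmD r R) (e : R →+* ℂ) (U : Fin r → Fn A) (σ : H2 A) : Prop :=
  ∀ i, ∀ x ∈ (A.e i).source, ∀ a b, U 𝔰.j i x ^ 𝔰.m * σ.s i x a b =
    ∑ k, ∑ l, MvPolynomial.eval₂ e (fun k => U k i x) (𝔰.s k l) *
      (DF U i x k a * DF U i x l b)

theorem eval₂_smul {e : R →+* ℂ} {p : MvPolynomial (Fin r) R} {d : ℕ} (hp : p.IsHomogeneous d)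
    (c : ℂ) (v : Fin r → ℂ) :
    MvPolynomial.eval₂ e (fun k => c * v k) p = c ^ d * MvPolynomial.eval₂ e v p := by
  rw [← MvPolynomial.eval_map, ← MvPolynomial.eval_map]
  exact (eval_smul (hp.map e) c v).symm ▸ rfl

/-- change of the frame -/
theorem frame (𝔰 : FmD r R) (hs : 𝔰.Good) (e : R →+* ℂ) (l0 : ℂ) (u v : Fin r → ℂ)
    (hu : ∀ k, u k = l0 * v k) (p q p' q' : Fin r → ℂ) (a b : ℂ)
    (hp : ∀ k, p k = l0 * p' k + v k * a) (hq : ∀ k, q k = l0 * q' k + v k * b) :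
    ∑ k, ∑ l, MvPolynomial.eval₂ e u (𝔰.s k l) * (p k * q l) =
      l0 ^ 𝔰.m * ∑ k, ∑ l, MvPolynomial.eval₂ e v (𝔰.s k l) * (p' k * q' l) := by
  obtain ⟨m', hm'⟩ := Nat.exists_eq_add_of_le hs.two
  have hu' : u = fun k => l0 * v k := funext hu
  have h1 : ∀ k l, MvPolynomial.eval₂ e u (𝔰.s k l) =
      l0 ^ m' * MvPolynomial.eval₂ e v (𝔰.s k l) := by
    intro k l
    rw [hu', eval₂_smul (hs.hom k l), show 𝔰.m - 2 = m' by omega]
  set S : Fin r → Fin r → ℂ := fun k l => MvPolynomial.eval₂ e v (𝔰.s k l) with hS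
  have h2 : ∀ k, ∑ l, S k l * v l = 0 := by
    intro k
    have h := congrArg (MvPolynomial.eval₂ e v) (hs.eul k)
    rw [MvPolynomial.eval₂_sum] at h
    simpa [MvPolynomial.eval₂_mul] using h
  have h3 : ∀ l, ∑ k, S k l * v k = 0 := by
    intro l
    have h := h2 l
    rw [← neg_eq_zero, ← Finset.sum_neg_distrib] at h
    rw [← h]
    refine Finset.sum_congr rfl fun k _ => ?_
    have h4 : S k l = - S l k := by
      simp only [hS]
      rw [hs.alt k l]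
      simp [MvPolynomial.eval₂_neg]
    rw [h4, neg_mul]
  have h5 : ∀ k l, MvPolynomial.eval₂ e u (𝔰.s k l) * (p k * q l) =
      l0 ^ 𝔰.m * (S k l * (p' k * q' l)) + l0 ^ (m' + 1) * b * p' k * (S k l * v l) +
        l0 ^ (m' + 1) * a * q' l * (S k l * v k) + l0 ^ m' * a * b * v k * (S k l * v l) := by
    intro k l
    rw [h1, hp, hq, hm']
    simp only [hS]
    ring
  have e1 : ∑ k, ∑ l, l0 ^ (m' + 1) * b * p' k * (S k l * v l) = 0 :=
    Finset.sum_eq_zero fun k _ => by rw [← Finset.mul_sum, h2, mul_zero]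
  have e2 : ∑ k, ∑ l, l0 ^ (m' + 1) * a * q' l * (S k l * v k) = 0 := by
    rw [Finset.sum_comm]
    exact Finset.sum_eq_zero fun l _ => by rw [← Finset.mul_sum, h3, mul_zero]
  have e3 : ∑ k, ∑ l, l0 ^ m' * a * b * v k * (S k l * v l) = 0 :=
    Finset.sum_eq_zero fun k _ => by rw [← Finset.mul_sum, h2, mul_zero]
  have e4 : l0 ^ 𝔰.m * ∑ k, ∑ l, S k l * (p' k * q' l) =
      ∑ k, ∑ l, l0 ^ 𝔰.m * (S k l * (p' k * q' l)) := by
    rw [Finset.mul_sum]
    exact Finset.sum_congr rfl fun k _ => by rw [Finset.mul_sum]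
  rw [e4]
  simp only [h5, Finset.sum_add_distrib]
  rw [e1, e2, e3, add_zero, add_zero, add_zero]

namespace Mbr

variable {𝔭 : PrD n r R} {e : R →+* ℂ} {U : Fin r → Fn A} {𝔰 : FmD r R} {σ : H2 A}

/-- the Jacobian matrix of `y` in the chart `i` -/
def Jy (𝔭 : PrD n r R) (e : R →+* ℂ) (U : Fin r → Fn A) (i : A.ι) (x : M) :
    Matrix (Fin n) (Fin n) ℂ :=
  Matrix.of fun b a => fderiv ℂ (fun ζ => yM 𝔭 e U ((A.e i).symm ζ)) (A.e i x)
    (EuclideanSpace.single a 1) b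

/-- `y` as a map to `Cn n` -/
def fy (𝔭 : PrD n r R) (e : R →+* ℂ) (U : Fin r → Fn A) (x : M) : Cn n :=
  WithLp.toLp 2 (yM 𝔭 e U x)

theorem holW_fy (h : Mbr 𝔭 e O U) (P : (MvPolynomial (Fin n) R)[X]) :
    HolW A (W 𝔭 e U P) (fy 𝔭 e U) := by
  intro i
  rw [show (fun z => fy 𝔭 e U ((A.e i).symm z)) = fun z =>
    (PiLp.continuousLinearEquiv 2 ℂ (fun _ : Fin n => ℂ)).symm (yM 𝔭 e U ((A.e i).symm z)) from rfl]
  refine (PiLp.continuousLinearEquiv 2 ℂ (fun _ : Fin n => ℂ)).symm.differentiable.comp_differentiableOn ?_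
  refine differentiableOn_pi.2 fun j => ?_
  exact ((h.hol_yM i j).mono fun x hx => hx.1 :
    HolAt A i (W 𝔭 e U P) fun x => yM 𝔭 e U x j)

theorem jd_eq (h : Mbr 𝔭 e O U) {i : A.ι} {x : M} (hx : x ∈ (A.e i).source)
    (h0 : x ∈ nz (ls e U (𝔭.lam 0))) : jd A (fy 𝔭 e U) i x = (Jy 𝔭 e U i x).det := by
  have hd := h.diff_y hx h0
  have hd2 : DifferentiableAt ℂ (fun z => fy 𝔭 e U ((A.e i).symm z)) (A.e i x) :=
    ((PiLp.continuousLinearEquiv 2 ℂ (fun _ : Fin n => ℂ)).symm.differentiable _).comp _ hd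
  rw [jd_eq_det hd2]
  congr 1
  ext b a
  rw [Matrix.of_apply, Jy, Matrix.of_apply]
  have h1 : fderiv ℂ (fun z => fy 𝔭 e U ((A.e i).symm z) b) (A.e i x) =
      (ContinuousLinearMap.proj b : (Fin n → ℂ) →L[ℂ] ℂ).comp
        (fderiv ℂ (fun ζ => yM 𝔭 e U ((A.e i).symm ζ)) (A.e i x)) :=
    ((ContinuousLinearMap.proj b : (Fin n → ℂ) →L[ℂ] ℂ).hasFDerivAt.comp _ hd.hasFDerivAt).fderiv
  rw [h1]
  rfl

theorem Jy_mulVec (i : A.ι) (x : M) (v : Fin n → ℂ) :
    (Jy 𝔭 e U i x).mulVec v = fderiv ℂ (fun ζ => yM 𝔭 e U ((A.e i).symm ζ)) (A.e i x)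
      (WithLp.toLp 2 v : Cn n) := by
  funext b
  rw [eq_sum_single (WithLp.toLp 2 v : Cn n), map_sum, Finset.sum_apply]
  simp only [Matrix.mulVec, dotProduct, Jy, Matrix.of_apply]
  refine Finset.sum_congr rfl fun a _ => ?_
  rw [map_smul, Pi.smul_apply, smul_eq_mul, mul_comm]

theorem Jy_det_ne (h : Mbr 𝔭 e O U) {i : A.ι} {x : M} (hx : x ∈ (A.e i).source)
    (hW : x ∈ W 𝔭 e U (derivative 𝔭.F)) : (Jy 𝔭 e U i x).det ≠ 0 := by
  intro h0
  obtain ⟨v, hv, hv0⟩ := Matrix.exists_mulVec_eq_zero_iff.2 h0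
  rw [Jy_mulVec] at hv0
  have h1 := h.y_inj hx hW hv0
  exact hv (congrArg WithLp.ofLp h1)

/-- **the 2-form in the coordinates `y`** -/
theorem form (h : Mbr 𝔭 e O U) (hs : 𝔰.Good) (hσ : FMbr 𝔰 e U σ) {i : A.ι} {x : M}
    (hx : x ∈ (A.e i).source) (hW : x ∈ W 𝔭 e U (derivative 𝔭.F))
    (hj : pM 𝔭 e U (𝔭.Nm 𝔰.j) x ≠ 0) :
    σ.s i x = (Jy 𝔭 e U i x)ᵀ * SY 𝔭.F 𝔭.Nm 𝔰.j 𝔰.m 𝔰.s (ph e (yM 𝔭 e U x)) (zM 𝔭 e U x) *
      Jy 𝔭 e U i x := by
  have hl := (A.e i).left_inv hx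
  set l0 : M → ℂ := ls e U (𝔭.lam 0) i with hl0
  have h0 : l0 x ≠ 0 := (h.nz_iff hx).1 hW.1
  have hdl : DifferentiableAt ℂ (fun ζ => l0 ((A.e i).symm ζ)) (A.e i x) :=
    ((h.hls (𝔭.lam 0)).hol i).diffAt isOpen_univ hx (mem_univ x)
  have hvk : ∀ k, vM 𝔭 e U k x = QV (𝔭.Nm k) (derivative 𝔭.F) (ph e (yM 𝔭 e U x))
      (zM 𝔭 e U x) := by
    intro k
    have h2 := h.eqN _ hW.1 k
    have h3 := hW.2
    unfold pM at h2 h3
    rw [QV, h2]
    field_simp
  have hvj : vM 𝔭 e U 𝔰.j x ≠ 0 := by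
    intro h1
    have h2 := h.eqN _ hW.1 𝔰.j
    rw [h1, zero_mul] at h2
    exact hj h2
  have hDF : ∀ k a, DF U i x k a = l0 x * (∑ j, QD 𝔭.F (𝔭.Nm k) (derivative 𝔭.F) j
      (ph e (yM 𝔭 e U x)) (zM 𝔭 e U x) * Jy 𝔭 e U i x j a) +
        vM 𝔭 e U k x * df A i l0 x (EuclideanSpace.single a 1) := by
    intro k a
    have h1 := (h.deriv_v hx hW k).fun_mul hdl.hasFDerivAt
    have h2 : HasFDerivAt (fun ζ => U k i ((A.e i).symm ζ)) _ (A.e i x) :=
      h1.congr_of_eventuallyEq (by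
        filter_upwards [ev_symm hx ((A.e i).open_source.mem_nhds hx),
          ev_symm hx (h.open_nz.mem_nhds hW.1)] with ζ hζ hζ'
        rw [h.vM_eq hζ k]
        have h4 : l0 ((A.e i).symm ζ) ≠ 0 := (h.nz_iff hζ).1 hζ'
        exact (div_mul_cancel₀ _ h4).symm)
    rw [DF_apply]
    unfold df
    rw [h2.fderiv]
    simp only [_root_.add_apply, _root_.smul_apply, smul_eq_mul, lc_apply, hl]
    rw [add_comm]
    rfl
  refine form_eq 𝔭.F 𝔭.Nm 𝔰.j 𝔰.m 𝔰.s e (yM 𝔭 e U x) (zM 𝔭 e U x) (Jy 𝔭 e U i x)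
    (fun k => vM 𝔭 e U k x) _ hvk (fun k a => rfl) hvj (σ.s i x) fun a b => ?_
  have h1 := hσ i x hx a b
  have hu : ∀ k, U k i x = l0 x * vM 𝔭 e U k x := by
    intro k
    rw [h.vM_eq hx k]
    exact (mul_div_cancel₀ _ h0).symm
  rw [frame 𝔰 hs e (l0 x) (fun k => U k i x) (fun k => vM 𝔭 e U k x) hu _ _ _ _ _ _
    (fun k => hDF k a) (fun k => hDF k b)] at h1
  rw [hu 𝔰.j, mul_pow, mul_assoc] at h1
  exact mul_left_cancel₀ (pow_ne_zero _ h0) h1

end Mbr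

end Crest.Agent.R281.GT_639
end
end

-- ▼ part R281/GT8_639

/-!
Row 281, glue DIV 2 -> DIV 3 (helper639).  Part 8: the area formula of a member.
-/

set_option autoImplicit false
set_option linter.unusedSectionVars false

open Polynomial Set Filter Topology Complex MeasureTheory
open scoped ContDiff Matrix ComplexConjugate Manifold ENNReal

noncomputable section

namespace Crest.Agent.R281.GT_639

open Crest.Agent.R275 Crest.Agent.R275.Geo Crest.Agent.R275.Core144 Crest.Agent.R275.EDR890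
open Crest.Agent.R273.Defs_333 Crest.Agent.R273.Kah_333
open Crest.Agent.R273.SerA_945 (Fn)
open Crest.Agent.R273.SteinC_794 Crest.Agent.R273.Chow_313
open Crest.Agent.R273.Vm_333
open Crest.Agent.R281.Defs_273 Crest.Agent.R281.AF_867 Crest.Agent.R281.Qr_770
open Crest.Agent.R281.HkP2_508 (volS)

variable {n r : ℕ} {R : Type*} [CommRing R]

/-! ### measurability -/

theorem meas_pe (e : R →+* ℂ) (P : (MvPolynomial (Fin n) R)[X]) :
    Measurable fun p : (Fin n → ℂ) × ℂ => (P.map (ph e p.1)).eval p.2 :=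
  (continuous_pe e P).measurable

theorem meas_TD (e : R →+* ℂ) (F P : (MvPolynomial (Fin n) R)[X]) (i : Fin n) :
    Measurable fun p : (Fin n → ℂ) × ℂ => TD F P i (ph e p.1) p.2 :=
  (meas_pe e (Dc i P)).sub (((meas_pe e (derivative P)).mul (meas_pe e (Dc i F))).mul
    (meas_pe e (derivative F)).inv)

theorem meas_QV (e : R →+* ℂ) (P Q : (MvPolynomial (Fin n) R)[X]) :
    Measurable fun p : (Fin n → ℂ) × ℂ => QV P Q (ph e p.1) p.2 :=
  (meas_pe e P).mul (meas_pe e Q).inv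

theorem meas_QD (e : R →+* ℂ) (F P Q : (MvPolynomial (Fin n) R)[X]) (i : Fin n) :
    Measurable fun p : (Fin n → ℂ) × ℂ => QD F P Q i (ph e p.1) p.2 :=
  ((meas_TD e F P i).mul (meas_pe e Q).inv).sub
    (((meas_pe e P).mul (meas_TD e F Q i)).mul ((meas_pe e Q).inv.mul (meas_pe e Q).inv))

theorem meas_eval₂ {T : Type*} [MeasurableSpace T] (e : R →+* ℂ) (p : MvPolynomial (Fin r) R)
    {v : T → Fin r → ℂ} (hv : ∀ k, Measurable fun t => v t k) :
    Measurable fun t => MvPolynomial.eval₂ e (v t) p := by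
  have h : (fun t => MvPolynomial.eval₂ e (v t) p) = fun t =>
      ∑ d ∈ p.support, e (p.coeff d) * ∏ i, v t i ^ d i := by
    funext t
    exact MvPolynomial.eval₂_eq' _ _ _
  rw [h]
  exact Finset.measurable_sum _ fun d _ => (Finset.measurable_prod _ fun k _ =>
    (hv k).pow_const _).const_mul _

theorem meas_det {T : Type*} [MeasurableSpace T] {S : T → Matrix (Fin n) (Fin n) ℂ}
    (h : ∀ a b, Measurable fun t => S t a b) : Measurable fun t => (S t).det := by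
  simp only [Matrix.det_apply']
  exact Finset.measurable_sum _ fun d _ => (Finset.measurable_prod _ fun k _ => h _ _).const_mul _

theorem meas_SY (e : R →+* ℂ) (F : (MvPolynomial (Fin n) R)[X])
    (Nm : Fin r → (MvPolynomial (Fin n) R)[X]) (j : Fin r) (m : ℕ)
    (s : Fin r → Fin r → MvPolynomial (Fin r) R) :
    Measurable fun p : (Fin n → ℂ) × ℂ => (SY F Nm j m s (ph e p.1) p.2).det := by
  refine meas_det fun a b => ?_
  simp only [SY, Matrix.of_apply]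
  refine Finset.measurable_sum _ fun k _ => Finset.measurable_sum _ fun l _ => ?_
  refine (((meas_pe e (Nm j)).inv.pow_const m).mul ((meas_pe e (derivative F)).pow_const m)).mul
    (Measurable.mul ?_ ((meas_QD e F _ _ a).mul (meas_QD e F _ _ b)))
  have h1 : ∀ p : (Fin n → ℂ) × ℂ, (ph e p.1).comp
      (MvPolynomial.C : R →+* MvPolynomial (Fin n) R) = e := by
    intro p
    ext r
    simp
  simp only [h1]
  exact meas_eval₂ e (s k l) (v := fun (p : (Fin n → ℂ) × ℂ) k =>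
    QV (Nm k) (derivative F) (ph e p.1) p.2) fun k => meas_QV e (Nm k) (derivative F)

/-! ### the area formula -/

variable {M : Type} [TopologicalSpace M] {A : Atl n M} {O : LB A}

/-- the density `|det σ_y|` -/
def dS (𝔭 : PrD n r R) (𝔰 : FmD r R) (e : R →+* ℂ) (y : Fin n → ℂ) (z : ℂ) : ℝ :=
  ‖(SY 𝔭.F 𝔭.Nm 𝔰.j 𝔰.m 𝔰.s (ph e y) z).det‖

/-- the polynomial whose nonvanishing defines the good part -/
def PrD.gp (𝔭 : PrD n r R) (𝔰 : FmD r R) : (MvPolynomial (Fin n) R)[X] :=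
  derivative 𝔭.F * 𝔭.Nm 𝔰.j

namespace Mbr

variable {𝔭 : PrD n r R} {e : R →+* ℂ} {U : Fin r → Fn A} {𝔰 : FmD r R} {σ : HSymp A}

theorem W_gp (x : M) : x ∈ W 𝔭 e U (𝔭.gp 𝔰) ↔ x ∈ W 𝔭 e U (derivative 𝔭.F) ∧
    pM 𝔭 e U (𝔭.Nm 𝔰.j) x ≠ 0 := by
  unfold W PrD.gp pM
  simp only [Polynomial.map_mul, eval_mul, mul_ne_zero_iff, mem_ofPred_eq, and_assoc]

theorem reg_eq (h : Mbr 𝔭 e O U) :
    Reg A (fy 𝔭 e U) (W 𝔭 e U (𝔭.gp 𝔰)) = W 𝔭 e U (𝔭.gp 𝔰) := by
  ext x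
  constructor
  · exact fun hx => hx.1
  · intro hx
    refine ⟨hx, fun i hi => ?_⟩
    rw [h.jd_eq hi hx.1]
    exact h.Jy_det_ne hi ((W_gp x).1 hx).1

section meas

variable [MeasurableSpace M] [BorelSpace M]

open Classical in
/-- a measurable version of `(y, z)` -/
def yz (𝔭 : PrD n r R) (e : R →+* ℂ) (U : Fin r → Fn A) (P : (MvPolynomial (Fin n) R)[X]) :
    M → (Fin n → ℂ) × ℂ :=
  (W 𝔭 e U P).piecewise (fun x => (yM 𝔭 e U x, zM 𝔭 e U x)) fun _ => 0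

theorem meas_yz (h : Mbr 𝔭 e O U) (P : (MvPolynomial (Fin n) R)[X]) :
    Measurable (yz 𝔭 e U P) := by
  classical
  refine ContinuousOn.measurable_piecewise (fun x hx => ?_) continuousOn_const
    (h.open_W P).measurableSet
  exact ((h.cont_yM hx.1).prodMk (h.cont_zM hx.1)).continuousWithinAt

theorem yz_eq {P : (MvPolynomial (Fin n) R)[X]} {x : M} (hx : x ∈ W 𝔭 e U P) :
    yz 𝔭 e U P x = (yM 𝔭 e U x, zM 𝔭 e U x) := by
  classical
  exact Set.piecewise_eq_of_mem _ _ _ hx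

theorem meas_pre (h : Mbr 𝔭 e O U) (P : (MvPolynomial (Fin n) R)[X]) {B : Set (Fin n → ℂ)}
    (hB : MeasurableSet B) : MeasurableSet (W 𝔭 e U P ∩ yM 𝔭 e U ⁻¹' B) := by
  have h1 : W 𝔭 e U P ∩ yM 𝔭 e U ⁻¹' B = W 𝔭 e U P ∩ yz 𝔭 e U P ⁻¹' (Prod.fst ⁻¹' B) := by
    ext x
    constructor
    · rintro ⟨h1, h2⟩
      refine ⟨h1, ?_⟩
      show (yz 𝔭 e U P x).1 ∈ B
      rw [yz_eq h1]
      exact h2
    · rintro ⟨h1, h2⟩
      refine ⟨h1, ?_⟩
      change (yz 𝔭 e U P x).1 ∈ B at h2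
      rw [yz_eq h1] at h2
      exact h2
  rw [h1]
  exact (h.open_W P).measurableSet.inter (h.meas_yz P (measurable_fst hB))

variable [Countable A.ι]

/-- **the area formula** -/
theorem area_y (h : Mbr 𝔭 e O U) (hs : 𝔰.Good) (hσ : FMbr 𝔰 e U σ.toH2) {B : Set (Fin n → ℂ)}
    (hB : MeasurableSet B) :
    vm (volS σ) (W 𝔭 e U (𝔭.gp 𝔰) ∩ yM 𝔭 e U ⁻¹' B) =
      ∫⁻ y in B, fsum (yM 𝔭 e U) (W 𝔭 e U (𝔭.gp 𝔰))
        (fun x => ENNReal.ofReal (dS 𝔭 𝔰 e (yM 𝔭 e U x) (zM 𝔭 e U x))) y := by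
  classical
  set Wg := W 𝔭 e U (𝔭.gp 𝔰) with hWg
  set Bm : Set M := Wg ∩ yM 𝔭 e U ⁻¹' B with hBm
  have hBmm : MeasurableSet Bm := h.meas_pre _ hB
  set g : M → ℝ≥0∞ := fun x => ENNReal.ofReal (dS 𝔭 𝔰 e (yz 𝔭 e U (𝔭.gp 𝔰) x).1
    (yz 𝔭 e U (𝔭.gp 𝔰) x).2) with hg
  have hgm : Measurable g :=
    ((meas_SY e 𝔭.F 𝔭.Nm 𝔰.j 𝔰.m 𝔰.s).comp (h.meas_yz (𝔭.gp 𝔰))).norm.ennreal_ofReal
  have hgW : ∀ x ∈ Wg, g x = ENNReal.ofReal (dS 𝔭 𝔰 e (yM 𝔭 e U x) (zM 𝔭 e U x)) := by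
    intro x hx
    simp only [hg]
    rw [yz_eq hx]
  have h1 := area_vm (volS σ) (h.open_W (𝔭.gp 𝔰)) (h.holW_fy (𝔭.gp 𝔰)) (F := Bm.indicator g)
    (Φ := Bm.indicator 1) (hgm.indicator hBmm) (measurable_one.indicator hBmm) (by
      intro i x hx hxW
      by_cases hxB : x ∈ Bm
      · rw [indicator_of_mem hxB, indicator_of_mem hxB, Pi.one_apply, mul_one, hgW x hxW,
          ← ENNReal.ofReal_mul (by positivity)]
        congr 1
        have h2 := (W_gp x).1 hxW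
        have h3 := h.form hs hσ hx h2.1 h2.2
        have h4 := det_form_eq h3
        rw [h.jd_eq hx hxW.1]
        exact h4
      · rw [indicator_of_notMem hxB, indicator_of_notMem hxB, mul_zero, mul_zero])
  rw [h.reg_eq] at h1
  have h2 : ∫⁻ x in Wg, Bm.indicator 1 x ∂(vm (volS σ)) = vm (volS σ) Bm := by
    rw [lintegral_indicator_one hBmm, Measure.restrict_apply hBmm, inter_eq_left.2
      inter_subset_left]
  rw [← h2, h1]
  have h3 : ∀ w : RI n → ℝ, fsum (fun x => rc (fy 𝔭 e U x)) Wg (Bm.indicator g) w =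
      fsum (yM 𝔭 e U) Wg (Bm.indicator g) (Crest.Agent.R273.SteinM_794.kap w) := by
    intro w
    have h4 : ∀ x : M, rc (fy 𝔭 e U x) = w ↔ yM 𝔭 e U x = Crest.Agent.R273.SteinM_794.kap w := by
      intro x
      constructor
      · intro h5
        rw [← h5]
        exact (Crest.Agent.R273.SteinM_794.kap_rc _).symm
      · intro h5
        unfold fy
        rw [h5]
        exact Crest.Agent.R273.SteinM_794.rc_kap w
    unfold fsum
    exact Equiv.tsum_eq (Equiv.subtypeEquivRight h4) fun x => Wg.indicator (Bm.indicator g) x.1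
  refine (lintegral_congr h3).trans ?_
  have h5 := (Crest.Agent.R273.SteinM_794.mp_kap n).lintegral_comp_emb
    (Crest.Agent.R273.SteinM_794.me_kap n) fun y => fsum (yM 𝔭 e U) Wg (Bm.indicator g) y
  rw [h5]
  have h6 : (fun y => fsum (yM 𝔭 e U) Wg (Bm.indicator g) y) = B.indicator
      (fsum (yM 𝔭 e U) Wg
        (fun x => ENNReal.ofReal (dS 𝔭 𝔰 e (yM 𝔭 e U x) (zM 𝔭 e U x)))) := by
    funext y
    by_cases hy : y ∈ B
    · rw [indicator_of_mem hy]
      unfold fsum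
      refine tsum_congr fun x => ?_
      by_cases hx : x.1 ∈ Wg
      · rw [indicator_of_mem hx, indicator_of_mem hx, indicator_of_mem, hgW _ hx]
        exact ⟨hx, by rw [mem_preimage, x.2]; exact hy⟩
      · rw [indicator_of_notMem hx, indicator_of_notMem hx]
    · rw [indicator_of_notMem hy]
      unfold fsum
      rw [ENNReal.tsum_eq_zero]
      intro x
      by_cases hx : x.1 ∈ Wg
      · rw [indicator_of_mem hx, indicator_of_notMem]
        rintro ⟨-, h7⟩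
        rw [mem_preimage, x.2] at h7
        exact hy h7
      · rw [indicator_of_notMem hx]
  rw [h6, lintegral_indicator hB]

end meas

/-! ### the fibres -/

theorem lv_Nm (a : Fin r → R) (e : R →+* ℂ) (y : Fin n → ℂ) (z : ℂ) :
    ((∑ k, C (MvPolynomial.C (a k)) * 𝔭.Nm k).map (ph e y)).eval z =
      lv e a fun k => ((𝔭.Nm k).map (ph e y)).eval z := by
  simp [lv, Polynomial.map_sum, eval_finsetSum]

/-- a point over a root -/
theorem exists_pt (h : Mbr 𝔭 e O U) (hg : 𝔭.Good) {y : Fin n → ℂ} {z : ℂ}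
    (hz : (𝔭.F.map (ph e y)).eval z = 0) (hz' : ((derivative 𝔭.F).map (ph e y)).eval z ≠ 0) :
    ∃ x ∈ nz (ls e U (𝔭.lam 0)), yM 𝔭 e U x = y ∧ zM 𝔭 e U x = z := by
  obtain ⟨i, x, hx, c, hc⟩ := h.surj y z hz hz'
  have e0 : lv e (𝔭.lam 0) (fun k => ((𝔭.Nm k).map (ph e y)).eval z) =
      ((derivative 𝔭.F).map (ph e y)).eval z := by
    rw [← lv_Nm, hg.lam0]
  have eS : ∀ j, lv e (𝔭.lam j.succ) (fun k => ((𝔭.Nm k).map (ph e y)).eval z) =
      y j * ((derivative 𝔭.F).map (ph e y)).eval z := by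
    intro j
    rw [← lv_Nm, hg.lamS j]
    simp
  have ew : lv e 𝔭.w (fun k => ((𝔭.Nm k).map (ph e y)).eval z) =
      z * ((derivative 𝔭.F).map (ph e y)).eval z := by
    rw [← lv_Nm, hg.wN]
    simp [hz]
  have hcc : ∀ a : Fin r → R, lv e a (fun k => ((𝔭.Nm k).map (ph e y)).eval z) =
      c * lv e a (fun k => U k i x) := by
    intro a
    simp only [hc, lv, Finset.mul_sum]
    exact Finset.sum_congr rfl fun k _ => by ring
  rw [hcc] at e0 ew
  simp only [hcc] at eS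
  have hc0 : c ≠ 0 := by
    rintro rfl
    rw [zero_mul] at e0
    exact hz' e0.symm
  have hl0 : lv e (𝔭.lam 0) (fun k => U k i x) ≠ 0 := by
    intro h0
    rw [h0, mul_zero] at e0
    exact hz' e0.symm
  refine ⟨x, (h.nz_iff hx).2 hl0, ?_, ?_⟩
  · funext j
    rw [h.yM_eq hx j, div_eq_iff hl0]
    have h1 := eS j
    rw [← e0] at h1
    have h2 : c * (lv e (𝔭.lam j.succ) (fun k => U k i x) -
        y j * lv e (𝔭.lam 0) (fun k => U k i x)) = 0 := by linear_combination h1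
    exact sub_eq_zero.1 ((mul_eq_zero.1 h2).resolve_left hc0)
  · rw [h.zM_eq hx, div_eq_iff hl0]
    rw [← e0] at ew
    have h2 : c * (lv e 𝔭.w (fun k => U k i x) -
        z * lv e (𝔭.lam 0) (fun k => U k i x)) = 0 := by linear_combination ew
    exact sub_eq_zero.1 ((mul_eq_zero.1 h2).resolve_left hc0)

/-- points are determined by `(y, z)` -/
theorem inj_yz (h : Mbr 𝔭 e O U) {x x' : M} (hx : x ∈ W 𝔭 e U (derivative 𝔭.F))
    (hx' : x' ∈ W 𝔭 e U (derivative 𝔭.F)) (hy : yM 𝔭 e U x = yM 𝔭 e U x')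
    (hz : zM 𝔭 e U x = zM 𝔭 e U x') : x = x' := by
  obtain ⟨i, hi⟩ := A.cover x
  obtain ⟨i', hi'⟩ := A.cover x'
  have hv : ∀ k, vM 𝔭 e U k x = vM 𝔭 e U k x' := by
    intro k
    have h1 := h.eqN _ hx.1 k
    have h2 := h.eqN _ hx'.1 k
    have h3 : pM 𝔭 e U (𝔭.Nm k) x = pM 𝔭 e U (𝔭.Nm k) x' := by unfold pM; rw [hy, hz]
    have h4 : pM 𝔭 e U (derivative 𝔭.F) x = pM 𝔭 e U (derivative 𝔭.F) x' := by
      unfold pM; rw [hy, hz]
    rw [h3, h2, h4] at h1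
    exact (mul_right_cancel₀ hx'.2 h1).symm
  have hl := (h.nz_iff hi).1 hx.1
  have hl' := (h.nz_iff hi').1 hx'.1
  refine h.inj i i' x hi x' hi' ⟨lv e (𝔭.lam 0) (fun k => U k i x) /
    lv e (𝔭.lam 0) (fun k => U k i' x'), fun k => ?_⟩
  have h1 := hv k
  rw [h.vM_eq hi k, h.vM_eq hi' k] at h1
  field_simp at h1 ⊢
  linear_combination h1

theorem root_mem (h : Mbr 𝔭 e O U) (hg : 𝔭.Good) {x : M} (hx : x ∈ nz (ls e U (𝔭.lam 0))) :
    zM 𝔭 e U x ∈ (𝔭.F.map (ph e (yM 𝔭 e U x))).roots := by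
  rw [mem_roots (hg.monic.map _).ne_zero]
  exact h.eqF x hx

theorem fsum_le (h : Mbr 𝔭 e O U) (hg : 𝔭.Good) {S : Set M} (hS : S ⊆ W 𝔭 e U (derivative 𝔭.F))
    {G : M → ℝ≥0∞} {c : ℝ≥0∞} {y : Fin n → ℂ} (hc : ∀ x ∈ S, yM 𝔭 e U x = y → G x ≤ c) :
    fsum (yM 𝔭 e U) S G y ≤ 𝔭.F.natDegree * c := by
  classical
  unfold fsum
  rw [ENNReal.tsum_eq_iSup_sum]
  refine iSup_le fun s => ?_
  have h1 : ∑ x ∈ s, S.indicator G x.1 ≤ ∑ x ∈ s.filter (fun x => x.1 ∈ S), c := by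
    rw [Finset.sum_filter]
    refine Finset.sum_le_sum fun x _ => ?_
    split_ifs with hx
    · rw [indicator_of_mem hx]
      exact hc _ hx x.2
    · rw [indicator_of_notMem hx]
  refine h1.trans ?_
  rw [Finset.sum_const, nsmul_eq_mul]
  gcongr
  have h2 : (s.filter fun x => x.1 ∈ S).card ≤ (𝔭.F.map (ph e y)).roots.toFinset.card := by
    refine Finset.card_le_card_of_injOn (fun x => zM 𝔭 e U x.1) ?_ ?_
    · intro x hx
      have hx' := (Finset.mem_filter.1 (Finset.mem_coe.1 hx)).2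
      have h3 := h.root_mem hg (hS hx').1
      rw [x.2] at h3
      exact Finset.mem_coe.2 (Multiset.mem_toFinset.2 h3)
    · intro x hx x' hx' hxx
      have h3 := (Finset.mem_filter.1 (Finset.mem_coe.1 hx)).2
      have h4 := (Finset.mem_filter.1 (Finset.mem_coe.1 hx')).2
      exact Subtype.ext (h.inj_yz (hS h3) (hS h4) (x.2.trans x'.2.symm) hxx)
  have h3 : (𝔭.F.map (ph e y)).roots.toFinset.card ≤ 𝔭.F.natDegree :=
    (Multiset.toFinset_card_le _).trans ((card_roots' _).trans (natDegree_map_le))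
  exact_mod_cast h2.trans h3

theorem le_fsum {S : Set M} {G : M → ℝ≥0∞} {y : Fin n → ℂ} {x : M} (hx : x ∈ S)
    (hy : yM 𝔭 e U x = y) : G x ≤ fsum (yM 𝔭 e U) S G y := by
  unfold fsum
  have h := ENNReal.le_tsum (f := fun x : {x : M // yM 𝔭 e U x = y} => S.indicator G x.1) ⟨x, hy⟩
  rwa [indicator_of_mem hx] at h

end Mbr

end Crest.Agent.R281.GT_639
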