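import Mathlib

-- ▼ part R281/Thin1_524
section

/-!
# R281 (S0424), DIV 6, S6-O4 (helper524): compact leaves, topological part

`X0 ⊆ X` open, `y : X → B` continuous on `X0`, `Reg` = the points near which `y` is a product
projection with fibre `F`.  `leaf X0 y x` = connected component of `x` in `X0 ∩ y⁻¹{y x}`.

* `tube`  : around a compact leaf inside `Reg` there is an open saturated tube;
* `limit` : a limit of leaves contained in a fixed compact set of `X0` is contained in it.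
-/

set_option autoImplicit false
set_option linter.unusedSectionVars false

open Set Filter Topology Metric

namespace Crest.Agent.R281.Thin1_524

variable {X : Type*} [TopologicalSpace X]
variable {B : Type*} [NormedAddCommGroup B]
variable (F : Type*) [NormedAddCommGroup F] [NormedSpace ℝ F]

/-- the points near which `y` is a product projection with fibre `F` -/
def Reg (X0 : Set X) (y : X → B) : Set X :=
  {p | ∃ e : OpenPartialHomeomorph X (B × F), p ∈ e.source ∧ e.source ⊆ X0 ∧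
    ∀ q ∈ e.source, (e q).1 = y q}

/-- the leaf through `x` -/
def leaf (X0 : Set X) (y : X → B) (x : X) : Set X :=
  connectedComponentIn (X0 ∩ y ⁻¹' {y x}) x

/-- `x` lies on a compact regular leaf -/
structure Good (X0 : Set X) (y : X → B) (x : X) : Prop where
  mem : x ∈ X0
  cpt : IsCompact (leaf X0 y x)
  reg : leaf X0 y x ⊆ Reg F X0 y

variable {X0 : Set X} {y : X → B}

theorem mem_leaf {x : X} (hx : x ∈ X0) : x ∈ leaf X0 y x :=
  mem_connectedComponentIn ⟨hx, rfl⟩

theorem leaf_subset (x : X) : leaf X0 y x ⊆ X0 ∩ y ⁻¹' {y x} :=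
  connectedComponentIn_subset _ _

theorem isPreconnected_leaf (x : X) : IsPreconnected (leaf X0 y x) :=
  isPreconnected_connectedComponentIn

theorem leaf_y {x p : X} (hp : p ∈ leaf X0 y x) : y p = y x := (leaf_subset x hp).2

theorem subset_leaf {x p : X} {s : Set X} (hp : p ∈ leaf X0 y x) (hps : p ∈ s)
    (hs : IsPreconnected s) (hsX : s ⊆ X0) (hsy : ∀ q ∈ s, y q = y x) : s ⊆ leaf X0 y x := by
  have h1 : leaf X0 y x = connectedComponentIn (X0 ∩ y ⁻¹' {y x}) p :=
    connectedComponentIn_eq hp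
  rw [h1]
  exact hs.subset_connectedComponentIn hps fun q hq => ⟨hsX hq, hsy q hq⟩



/-! ## boxes -/

/-- a cell of a box -/
def cell {F : Type*} [NormedAddCommGroup F] (e : OpenPartialHomeomorph X (B × F)) (U : Set B)
    (S : Set F) : Set X := e.symm '' (U ×ˢ S)

variable {F}

section cell

variable {e : OpenPartialHomeomorph X (B × F)} {U U' : Set B} {S S' : Set F}

theorem cell_mono (hU : U ⊆ U') (hS : S ⊆ S') : cell e U S ⊆ cell e U' S' :=
  image_mono (Set.prod_mono hU hS)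

theorem cell_subset_source (h : U ×ˢ S ⊆ e.target) : cell e U S ⊆ e.source := by
  rintro _ ⟨z, hz, rfl⟩
  exact e.map_target (h hz)

theorem mem_cell_iff (h : U ×ˢ S ⊆ e.target) {q : X} :
    q ∈ cell e U S ↔ q ∈ e.source ∧ (e q).1 ∈ U ∧ (e q).2 ∈ S := by
  constructor
  · rintro ⟨z, hz, rfl⟩
    refine ⟨e.map_target (h hz), ?_⟩
    rw [e.right_inv (h hz)]
    exact ⟨hz.1, hz.2⟩
  · rintro ⟨h1, h2, h3⟩
    exact ⟨e q, ⟨h2, h3⟩, e.left_inv h1⟩

theorem isOpen_cell (hU : IsOpen U) (hS : IsOpen S) (h : U ×ˢ S ⊆ e.target) :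
    IsOpen (cell e U S) :=
  e.isOpen_image_symm_of_subset_target (hU.prod hS) h

theorem isCompact_cell (hU : IsCompact U) (hS : IsCompact S) (h : U ×ˢ S ⊆ e.target) :
    IsCompact (cell e U S) :=
  (hU.prod hS).image_of_continuousOn (e.continuousOn_symm.mono h)

theorem isPreconnected_cell (hU : IsPreconnected U) (hS : IsPreconnected S)
    (h : U ×ˢ S ⊆ e.target) : IsPreconnected (cell e U S) :=
  (hU.prod hS).image _ (e.continuousOn_symm.mono h)

theorem y_cell (he : ∀ q ∈ e.source, (e q).1 = y q) (h : U ×ˢ S ⊆ e.target) {q : X}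
    (hq : q ∈ cell e U S) : y q ∈ U := by
  have h1 := (mem_cell_iff h).1 hq
  rw [← he q h1.1]
  exact h1.2.1

end cell

/-- a regular point has arbitrarily small boxes -/
theorem exists_box {p : X} (hp : p ∈ Reg F X0 y) {O : Set X} (hO : IsOpen O) (hpO : p ∈ O) :
    ∃ e : OpenPartialHomeomorph X (B × F), p ∈ e.source ∧ e.source ⊆ X0 ∧ e.source ⊆ O ∧
      (∀ q ∈ e.source, (e q).1 = y q) ∧ ∃ ρ > 0,
      closedBall (y p) ρ ×ˢ closedBall (e p).2 ρ ⊆ e.target := by
  obtain ⟨e, h1, h2, h3⟩ := hp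
  refine ⟨e.restrOpen O hO, ?_, ?_, ?_, ?_, ?_⟩
  · rw [e.restrOpen_source]
    exact ⟨h1, hpO⟩
  · rw [e.restrOpen_source]
    exact fun q hq => h2 hq.1
  · rw [e.restrOpen_source]
    exact inter_subset_right
  · rw [e.restrOpen_source]
    exact fun q hq => h3 q hq.1
  · have h4 : (e.restrOpen O hO).target ∈ 𝓝 ((e.restrOpen O hO) p) :=
      (e.restrOpen O hO).open_target.mem_nhds
        ((e.restrOpen O hO).map_source (by rw [e.restrOpen_source]; exact ⟨h1, hpO⟩))
    obtain ⟨ρ, hρ, h5⟩ := Metric.nhds_basis_closedBall.mem_iff.1 h4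
    refine ⟨ρ, hρ, ?_⟩
    rw [closedBall_prod_same]
    have h6 : ((e.restrOpen O hO) p) = (y p, ((e.restrOpen O hO) p).2) := by
      refine Prod.ext ?_ rfl
      exact h3 p h1
    rw [← h6]
    exact h5



/-- the plaque of a box through a point of a leaf lies in the leaf -/
theorem plaque_subset {e : OpenPartialHomeomorph X (B × F)} (heX : e.source ⊆ X0)
    (he : ∀ q ∈ e.source, (e q).1 = y q) {S : Set F} (hS : IsPreconnected S) {x p : X}
    (hp : p ∈ leaf X0 y x) (hT : {y x} ×ˢ S ⊆ e.target) (hpc : p ∈ cell e {y x} S) :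
    cell e {y x} S ⊆ leaf X0 y x := by
  refine subset_leaf hp hpc (isPreconnected_cell isPreconnected_singleton hS hT)
    (fun q hq => heX (cell_subset_source hT hq)) fun q hq => ?_
  exact y_cell he hT hq


end Crest.Agent.R281.Thin1_524
end

-- ▼ part R281/Thin2_524
section

/-!
# R281 (S0424), DIV 6, S6-O4 (helper524): the tube around a compact regular leaf (TUBE)
-/

set_option autoImplicit false
set_option linter.unusedSectionVars false

open Set Filter Topology Metric Relation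

namespace Crest.Agent.R281.Thin2_524

open Crest.Agent.R281.Thin1_524

variable {X : Type*} [TopologicalSpace X]
variable {B : Type*} [NormedAddCommGroup B]
variable {F : Type*} [NormedAddCommGroup F] [NormedSpace ℝ F]
variable {X0 : Set X} {y : X → B}

/-- **(TUBE)** a compact regular leaf has arbitrarily small open saturated tubes -/
theorem tube [T2Space X] [ProperSpace B] [ProperSpace F] (hy : ContinuousOn y X0) {x : X}
    (hg : Good F X0 y x) {O : Set X} (hO : IsOpen O) (hxO : leaf X0 y x ⊆ O) :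
    ∃ r₀ > 0, ∀ r, 0 < r → r ≤ r₀ → ∃ W : Set X, IsOpen W ∧ leaf X0 y x ⊆ W ∧ W ⊆ O ∧
      W ⊆ Reg F X0 y ∧ y '' W = ball (y x) r ∧ W ∩ y ⁻¹' {y x} = leaf X0 y x ∧
      (∀ x' ∈ W, leaf X0 y x' = W ∩ y ⁻¹' {y x'}) ∧
      (∀ K ⊆ ball (y x) r, IsCompact K → IsCompact (W ∩ y ⁻¹' K)) := by
  classical
  set T := leaf X0 y x with hT
  have hTy : ∀ p ∈ T, y p = y x := fun p hp => leaf_y hp
  -- choose the boxes
  have hbox : ∀ p : T, ∃ e : OpenPartialHomeomorph X (B × F), (p : X) ∈ e.source ∧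
      e.source ⊆ X0 ∧ e.source ⊆ O ∧ (∀ q ∈ e.source, (e q).1 = y q) ∧ ∃ ρ > 0,
      closedBall (y x) ρ ×ˢ closedBall (e p).2 ρ ⊆ e.target := by
    intro p
    obtain ⟨e, h1, h2, h3, h4, ρ, hρ, h5⟩ := exists_box (hg.reg p.2) hO (hxO p.2)
    exact ⟨e, h1, h2, h3, h4, ρ, hρ, by rw [← hTy p p.2]; exact h5⟩
  choose e he1 he2 he3 he4 ρ hρ he5 using hbox
  have he5' : ∀ p, ball (y x) (ρ p) ×ˢ ball (e p p).2 (ρ p) ⊆ (e p).target := fun p =>
    (Set.prod_mono ball_subset_closedBall ball_subset_closedBall).trans (he5 p)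
  -- finite subcover
  obtain ⟨t, ht⟩ := hg.cpt.elim_nhds_subcover' (fun p hp =>
      cell (e ⟨p, hp⟩) (ball (y x) (ρ ⟨p, hp⟩)) (ball (e ⟨p, hp⟩ p).2 (ρ ⟨p, hp⟩)))
    (by
      intro p hp
      refine (isOpen_cell isOpen_ball isOpen_ball (he5' ⟨p, hp⟩)).mem_nhds ?_
      rw [mem_cell_iff (he5' ⟨p, hp⟩)]
      refine ⟨he1 ⟨p, hp⟩, ?_, mem_ball_self (hρ _)⟩
      rw [he4 _ _ (he1 ⟨p, hp⟩), hTy p hp]
      exact mem_ball_self (hρ _))
  have ht' : ∀ q ∈ T, ∃ p ∈ t, q ∈ cell (e p) (ball (y x) (ρ p)) (ball (e p p).2 (ρ p)) := by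
    intro q hq
    have h1 := ht hq
    simp only [mem_iUnion, exists_prop] at h1
    obtain ⟨p, h2, h3⟩ := h1
    exact ⟨p, h2, h3⟩
  have hxT : x ∈ T := mem_leaf hg.mem
  obtain ⟨p₀, hp₀, -⟩ := ht' x hxT
  -- a common radius
  obtain ⟨r₁, hr₁, hr₁'⟩ : ∃ r₁ > 0, ∀ p ∈ t, r₁ ≤ ρ p := by
    obtain ⟨p₁, h1, h2⟩ := t.exists_min_image ρ ⟨p₀, hp₀⟩
    exact ⟨ρ p₁, hρ p₁, h2⟩
  set V : ℝ → Set X := fun r => ⋃ p ∈ t, cell (e p) (ball (y x) r) (ball (e p p).2 (ρ p))
    with hV
  set C : Set X := ⋃ p ∈ t, cell (e p) (closedBall (y x) r₁) (closedBall (e p p).2 (ρ p))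
    with hC
  have hcs : ∀ p ∈ t, closedBall (y x) r₁ ×ˢ closedBall (e p p).2 (ρ p) ⊆ (e p).target :=
    fun p hp => (Set.prod_mono (closedBall_subset_closedBall (hr₁' p hp)) Subset.rfl).trans
      (he5 p)
  have hvs : ∀ r ≤ r₁, ∀ p ∈ t, ball (y x) r ×ˢ ball (e p p).2 (ρ p) ⊆ (e p).target :=
    fun r hr p hp => (Set.prod_mono (ball_subset_ball (hr.trans (hr₁' p hp))) Subset.rfl).trans
      (he5' p)
  have hCc : IsCompact C := t.isCompact_biUnion fun p hp =>
    isCompact_cell (isCompact_closedBall _ _) (isCompact_closedBall _ _) (hcs p hp)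
  have hVo : ∀ r ≤ r₁, IsOpen (V r) := fun r hr =>
    isOpen_biUnion fun p hp => isOpen_cell isOpen_ball isOpen_ball (hvs r hr p hp)
  have hVC : ∀ r ≤ r₁, V r ⊆ C := by
    intro r hr
    refine iUnion₂_mono fun p _ => cell_mono ?_ ball_subset_closedBall
    exact (ball_subset_ball hr).trans ball_subset_closedBall
  have hCX : C ⊆ X0 := iUnion₂_subset fun p hp => (cell_subset_source (hcs p hp)).trans (he2 p)
  -- a point of `C` over `ball (y x) r` which lies in `V r₁` lies in `V r`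
  have hVr : ∀ r ≤ r₁, ∀ q ∈ V r₁, y q ∈ ball (y x) r → q ∈ V r := by
    intro r hr q hq hqr
    simp only [hV, mem_iUnion, exists_prop] at hq ⊢
    obtain ⟨p, hp, hq⟩ := hq
    refine ⟨p, hp, ?_⟩
    rw [mem_cell_iff (hvs r₁ le_rfl p hp)] at hq
    rw [mem_cell_iff (hvs r hr p hp)]
    exact ⟨hq.1, by rw [he4 p q hq.1]; exact hqr, hq.2.2⟩
  have hVy : ∀ r ≤ r₁, ∀ q ∈ V r, y q ∈ ball (y x) r := by
    intro r hr q hq
    simp only [hV, mem_iUnion, exists_prop] at hq
    obtain ⟨p, hp, hq⟩ := hq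
    exact y_cell (he4 p) (hvs r hr p hp) hq
  have hTV : ∀ r, 0 < r → r ≤ r₁ → T ⊆ V r := by
    intro r hr0 hr q hq
    obtain ⟨p, hp, h1⟩ := ht' q hq
    simp only [hV, mem_iUnion, exists_prop]
    refine ⟨p, hp, ?_⟩
    rw [mem_cell_iff (he5' p)] at h1
    rw [mem_cell_iff (hvs r hr p hp)]
    refine ⟨h1.1, ?_, h1.2.2⟩
    rw [he4 p q h1.1, hTy q hq]
    exact mem_ball_self hr0
  -- `C` meets the fibre exactly in the leaf
  have hCF : ∀ q ∈ C, y q = y x → q ∈ T := by
    intro q hq hqy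
    simp only [hC, mem_iUnion, exists_prop] at hq
    obtain ⟨p, hp, hq⟩ := hq
    have h1 : ({y x} : Set B) ×ˢ closedBall (e p p).2 (ρ p) ⊆ (e p).target :=
      (Set.prod_mono (singleton_subset_iff.2 (mem_closedBall_self (hρ p).le))
        Subset.rfl).trans (he5 p)
    have h2 : cell (e p) {y x} (closedBall (e p p).2 (ρ p)) ⊆ T := by
      refine plaque_subset (he2 p) (he4 p) (convex_closedBall _ _).isPreconnected p.2 h1 ?_
      rw [mem_cell_iff h1]
      exact ⟨he1 p, by rw [he4 p _ (he1 p), hTy p p.2]; rfl, mem_closedBall_self (hρ p).le⟩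
    apply h2
    rw [mem_cell_iff (hcs p hp)] at hq
    rw [mem_cell_iff h1]
    exact ⟨hq.1, by rw [he4 p q hq.1, hqy]; rfl, hq.2.2⟩
  -- the gap
  obtain ⟨δ, hδ, hgap⟩ : ∃ δ > 0, ∀ q ∈ C, y q ∈ ball (y x) δ → q ∈ V r₁ := by
    have h1 : IsCompact (y '' (C \ V r₁)) :=
      (hCc.diff (hVo r₁ le_rfl)).image_of_continuousOn (hy.mono (sdiff_subset.trans hCX))
    have h2 : y x ∉ y '' (C \ V r₁) := by
      rintro ⟨q, ⟨h3, h4⟩, h5⟩
      exact h4 (hTV r₁ hr₁ le_rfl (hCF q h3 h5))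
    obtain ⟨δ, hδ, h3⟩ := Metric.isOpen_iff.1 h1.isClosed.isOpen_compl (y x) h2
    refine ⟨δ, hδ, fun q hq hqy => ?_⟩
    by_contra h4
    exact h3 hqy ⟨q, ⟨hq, h4⟩, rfl⟩
  -- the chain of plaques
  set P : T → B → Set X := fun p b => cell (e p) {b} (ball (e p p).2 (ρ p)) with hP
  have hps : ∀ b ∈ ball (y x) r₁, ∀ p ∈ t, ({b} : Set B) ×ˢ ball (e p p).2 (ρ p) ⊆
      (e p).target := fun b hb p hp =>
    (Set.prod_mono (singleton_subset_iff.2 hb) Subset.rfl).trans (hvs r₁ le_rfl p hp)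
  have hx1 : y x ∈ ball (y x) r₁ := mem_ball_self hr₁
  have hVP : ∀ r ≤ r₁, ∀ b ∈ ball (y x) r, V r ∩ y ⁻¹' {b} = ⋃ p ∈ t, P p b := by
    intro r hr b hb
    ext q
    simp only [hV, hP, mem_inter_iff, mem_iUnion, exists_prop, mem_preimage,
      mem_singleton_iff]
    have hb1 : b ∈ ball (y x) r₁ := ball_subset_ball hr hb
    constructor
    · rintro ⟨⟨p, hp, hq⟩, hqb⟩
      refine ⟨p, hp, ?_⟩
      rw [mem_cell_iff (hvs r hr p hp)] at hq
      rw [mem_cell_iff (hps b hb1 p hp)]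
      exact ⟨hq.1, by rw [he4 p q hq.1, hqb]; rfl, hq.2.2⟩
    · rintro ⟨p, hp, hq⟩
      rw [mem_cell_iff (hps b hb1 p hp)] at hq
      have h1 : y q = b := by rw [← he4 p q hq.1]; exact hq.2.1
      refine ⟨⟨p, hp, ?_⟩, h1⟩
      rw [mem_cell_iff (hvs r hr p hp)]
      exact ⟨hq.1, by rw [he4 p q hq.1, h1]; exact hb, hq.2.2⟩
  have hgraph : ∀ i ∈ t, ∀ j ∈ t,
      ReflTransGen (fun i j => (P i (y x) ∩ P j (y x)).Nonempty ∧ i ∈ t ∧ j ∈ t) i j := by
    intro i hi j hj
    by_contra hij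
    set R := fun i j : T => (P i (y x) ∩ P j (y x)).Nonempty ∧ i ∈ t ∧ j ∈ t
    set u : Set X := ⋃ k ∈ t.filter (fun k => ReflTransGen R i k),
      cell (e k) (ball (y x) (ρ k)) (ball (e k k).2 (ρ k))
    set v : Set X := ⋃ k ∈ t.filter (fun k => ¬ ReflTransGen R i k),
      cell (e k) (ball (y x) (ρ k)) (ball (e k k).2 (ρ k))
    have hu : IsOpen u := isOpen_biUnion fun k _ =>
      isOpen_cell isOpen_ball isOpen_ball (he5' k)
    have hv : IsOpen v := isOpen_biUnion fun k _ =>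
      isOpen_cell isOpen_ball isOpen_ball (he5' k)
    have hself : ∀ k : T, (k : X) ∈ cell (e k) (ball (y x) (ρ k)) (ball (e k k).2 (ρ k)) := by
      intro k
      rw [mem_cell_iff (he5' k)]
      exact ⟨he1 k, by rw [he4 k _ (he1 k), hTy k k.2]; exact mem_ball_self (hρ k),
        mem_ball_self (hρ k)⟩
    have h1 := isPreconnected_leaf (X0 := X0) (y := y) x u v hu hv (by
      intro q hq
      obtain ⟨p, hp, h2⟩ := ht' q hq
      by_cases h3 : ReflTransGen R i p
      · left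
        exact mem_iUnion₂.2 ⟨p, Finset.mem_filter.2 ⟨hp, h3⟩, h2⟩
      · right
        exact mem_iUnion₂.2 ⟨p, Finset.mem_filter.2 ⟨hp, h3⟩, h2⟩)
      ⟨i, i.2, mem_iUnion₂.2 ⟨i, Finset.mem_filter.2 ⟨hi, ReflTransGen.refl⟩, hself i⟩⟩
      ⟨j, j.2, mem_iUnion₂.2 ⟨j, Finset.mem_filter.2 ⟨hj, hij⟩, hself j⟩⟩
    obtain ⟨q, hq, hqu, hqv⟩ := h1
    obtain ⟨k, hk, hqk⟩ := mem_iUnion₂.1 hqu
    obtain ⟨l, hl, hql⟩ := mem_iUnion₂.1 hqv
    rw [Finset.mem_filter] at hk hl
    apply hl.2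
    refine hk.2.tail ⟨⟨q, ?_, ?_⟩, hk.1, hl.1⟩
    · rw [mem_cell_iff (he5' k)] at hqk
      show q ∈ cell (e k) {y x} (ball (e k k).2 (ρ k))
      rw [mem_cell_iff (hps _ hx1 k hk.1)]
      exact ⟨hqk.1, by rw [he4 k q hqk.1, hTy q hq]; rfl, hqk.2.2⟩
    · rw [mem_cell_iff (he5' l)] at hql
      show q ∈ cell (e l) {y x} (ball (e l l).2 (ρ l))
      rw [mem_cell_iff (hps _ hx1 l hl.1)]
      exact ⟨hql.1, by rw [he4 l q hql.1, hTy q hq]; rfl, hql.2.2⟩
  -- stability of the chain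
  have hstab : ∀ᶠ b in 𝓝 (y x), ∀ i ∈ t, ∀ j ∈ t, (P i (y x) ∩ P j (y x)).Nonempty →
      (P i b ∩ P j b).Nonempty := by
    rw [Filter.eventually_all_finset]
    intro i hi
    rw [Filter.eventually_all_finset]
    intro j hj
    by_cases hij : (P i (y x) ∩ P j (y x)).Nonempty
    · obtain ⟨q, hqi, hqj⟩ := hij
      have h1 : q ∈ cell (e i) {y x} (ball (e i i).2 (ρ i)) := hqi
      have h2 : q ∈ cell (e j) {y x} (ball (e j j).2 (ρ j)) := hqj
      rw [mem_cell_iff (hps _ hx1 i hi)] at h1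
      rw [mem_cell_iff (hps _ hx1 j hj)] at h2
      have hqy : y q = y x := by rw [← he4 i q h1.1]; exact h1.2.1
      have h9 : (y x, (e i q).2) = e i q := Prod.ext (h1.2.1).symm rfl
      have h11 : (e i).symm (y x, (e i q).2) = q := by rw [h9, (e i).left_inv h1.1]
      have h8 : ContinuousAt (fun b : B => (e i).symm (b, (e i q).2)) (y x) := by
        have h10 : ContinuousAt (e i).symm (y x, (e i q).2) := by
          rw [h9]
          exact (e i).continuousAt_symm ((e i).map_source h1.1)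
        exact ContinuousAt.comp (f := fun b : B => (b, (e i q).2)) h10 (by fun_prop)
      have h12 : cell (e j) (ball (y x) (ρ j)) (ball (e j j).2 (ρ j)) ∈ 𝓝 q := by
        refine (isOpen_cell isOpen_ball isOpen_ball (he5' j)).mem_nhds ?_
        rw [mem_cell_iff (he5' j)]
        exact ⟨h2.1, by rw [he4 j q h2.1, hqy]; exact mem_ball_self (hρ j), h2.2.2⟩
      have h13 : ∀ᶠ b in 𝓝 (y x), (e i).symm (b, (e i q).2) ∈
          cell (e j) (ball (y x) (ρ j)) (ball (e j j).2 (ρ j)) :=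
        h8 (by simpa only [h11] using h12)
      filter_upwards [h13, isOpen_ball.mem_nhds hx1] with b hb hb1 _
      have hbi : (b, (e i q).2) ∈ (e i).target := hvs r₁ le_rfl i hi ⟨hb1, h1.2.2⟩
      have hyb : y ((e i).symm (b, (e i q).2)) = b := by
        rw [← he4 i _ ((e i).map_target hbi), (e i).right_inv hbi]
      refine ⟨(e i).symm (b, (e i q).2), ⟨(b, (e i q).2), ⟨rfl, h1.2.2⟩, rfl⟩, ?_⟩
      rw [mem_cell_iff (he5' j)] at hb
      show _ ∈ cell (e j) {b} (ball (e j j).2 (ρ j))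
      rw [mem_cell_iff (hps b hb1 j hj)]
      exact ⟨hb.1, by rw [he4 j _ hb.1, hyb]; rfl, hb.2.2⟩
    · exact Filter.Eventually.of_forall fun b h => absurd h hij
  obtain ⟨r₂, hr₂, hst⟩ := Metric.eventually_nhds_iff_ball.1 hstab
  -- conclusion
  refine ⟨min (min δ r₁) r₂, by positivity, fun r hr0 hr => ?_⟩
  have hrδ : r ≤ δ := hr.trans ((min_le_left _ _).trans (min_le_left _ _))
  have hr1 : r ≤ r₁ := hr.trans ((min_le_left _ _).trans (min_le_right _ _))
  have hr2 : r ≤ r₂ := hr.trans (min_le_right _ _)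
  have hCV : ∀ q ∈ C, y q ∈ ball (y x) r → q ∈ V r := fun q hq hqy =>
    hVr r hr1 q (hgap q hq (ball_subset_ball hrδ hqy)) hqy
  have hVX : V r ⊆ X0 := (hVC r hr1).trans hCX
  have hconn : ∀ b ∈ ball (y x) r, IsPreconnected (V r ∩ y ⁻¹' {b}) := by
    intro b hb
    rw [hVP r hr1 b hb]
    have hb1 := ball_subset_ball hr1 hb
    refine IsPreconnected.biUnion_of_reflTransGen (fun p hp =>
      isPreconnected_cell isPreconnected_singleton (convex_ball _ _).isPreconnected
        (hps b hb1 p hp)) ?_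
    intro i hi j hj
    have h1 := hgraph i hi j hj
    clear hj
    induction h1 with
    | refl => exact ReflTransGen.refl
    | @tail k l h3 h4 ih =>
      exact ih.tail ⟨hst b (ball_subset_ball hr2 hb) k h4.2.1 l h4.2.2 h4.1, h4.2.1⟩
  refine ⟨V r, hVo r hr1, hTV r hr0 hr1, ?_, ?_, ?_, ?_, ?_, ?_⟩
  · exact iUnion₂_subset fun p hp =>
      (cell_subset_source (hvs r hr1 p hp)).trans (he3 p)
  · intro q hq
    simp only [hV, mem_iUnion, exists_prop] at hq
    obtain ⟨p, hp, hq⟩ := hq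
    exact ⟨e p, cell_subset_source (hvs r hr1 p hp) hq, he2 p, he4 p⟩
  · apply Subset.antisymm
    · rintro _ ⟨q, hq, rfl⟩
      exact hVy r hr1 q hq
    · intro b hb
      have h1 : (b, (e p₀ p₀).2) ∈ ball (y x) r ×ˢ ball (e p₀ p₀).2 (ρ p₀) :=
        ⟨hb, mem_ball_self (hρ p₀)⟩
      refine ⟨(e p₀).symm (b, (e p₀ p₀).2), mem_iUnion₂.2 ⟨p₀, hp₀, ⟨_, h1, rfl⟩⟩, ?_⟩
      rw [← he4 p₀ _ ((e p₀).map_target (hvs r hr1 p₀ hp₀ h1)),
        (e p₀).right_inv (hvs r hr1 p₀ hp₀ h1)]
  · apply Subset.antisymm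
    · rintro q ⟨hq, hqy⟩
      exact hCF q (hVC r hr1 hq) hqy
    · exact fun q hq => ⟨hTV r hr0 hr1 hq, hTy q hq⟩
  · intro x' hx'
    have hb : y x' ∈ ball (y x) r := hVy r hr1 x' hx'
    apply Subset.antisymm
    · -- `V r ∩ y⁻¹{y x'}` is clopen in the fibre
      have hcl : IsPreconnected (leaf X0 y x') := isPreconnected_leaf x'
      have hcc : IsClosed (C ∩ y ⁻¹' {y x'}) :=
        (hy.mono hCX).preimage_isClosed_of_isClosed hCc.isClosed isClosed_singleton
      intro q hq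
      refine ⟨?_, leaf_y hq⟩
      by_contra hqV
      obtain ⟨z, hz, hzu, hzv⟩ := hcl (V r) (C ∩ y ⁻¹' {y x'})ᶜ (hVo r hr1) hcc.isOpen_compl
        (by
          intro z hz
          by_cases h1 : z ∈ C
          · left
            exact hCV z h1 (by rw [leaf_y hz]; exact hb)
          · right
            exact fun h2 => h1 h2.1)
        ⟨x', mem_leaf (hVX hx'), hx'⟩
        ⟨q, hq, fun h1 => hqV (hCV q h1.1 (by rw [leaf_y hq]; exact hb))⟩
      exact hzv ⟨hVC r hr1 hzu, leaf_y hz⟩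
    · exact (hconn (y x') hb).subset_connectedComponentIn ⟨hx', rfl⟩
        (inter_subset_inter_left _ hVX)
  · intro K hK hKc
    have h1 : V r ∩ y ⁻¹' K = C ∩ y ⁻¹' K := by
      apply Subset.antisymm
      · exact inter_subset_inter_left _ (hVC r hr1)
      · exact fun q hq => ⟨hCV q hq.1 (hK hq.2), hq.2⟩
    rw [h1]
    refine hCc.of_isClosed_subset ?_ inter_subset_left
    exact (hy.mono hCX).preimage_isClosed_of_isClosed hCc.isClosed hKc.isClosed



end Crest.Agent.R281.Thin2_524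
end

-- ▼ part R281/Thin3_524

/-!
# R281 (S0424), DIV 6, S6-O4 (helper524): density of an open set with thin frontier (DENSE)

`LT E T S` : at every point `z` of the open set `T ⊆ E`, for a dense set of directions `v`, the
complex line `z + ℂ v` meets `S` in a countable set (inside `T`).
-/

set_option autoImplicit false
set_option linter.unusedSectionVars false

open Set Filter Topology Metric

namespace Crest.Agent.R281.Thin3_524

/-- `S` is thin on lines inside `T` -/
def LT {E : Type*} [NormedAddCommGroup E] [NormedSpace ℂ E] (T S : Set E) : Prop :=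
  ∀ z ∈ T, Dense {v : E | {c : ℂ | z + c • v ∈ T ∩ S}.Countable}

theorem LT.mono {E : Type*} [NormedAddCommGroup E] [NormedSpace ℂ E] {T S S' : Set E}
    (h : LT T S) (hS : T ∩ S' ⊆ S) : LT T S' := by
  intro z hz
  refine (h z hz).mono fun v hv => ?_
  have hv' : {c : ℂ | z + c • v ∈ T ∩ S}.Countable := hv
  show {c : ℂ | z + c • v ∈ T ∩ S'}.Countable
  refine hv'.mono ?_
  intro c hc
  exact ⟨hc.1, hS hc⟩

theorem isConnected_ball_diff {S : Set ℂ} (hS : S.Countable) (c : ℂ) {r : ℝ} (hr : 0 < r) :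
    IsConnected (ball c r \ S) := by
  have h1 : ball c r \ S = (OpenPartialHomeomorph.univBall c r) ''
      ((OpenPartialHomeomorph.univBall c r) ⁻¹' S)ᶜ := by
    have h2 : (OpenPartialHomeomorph.univBall c r) '' univ = ball c r := by
      have h3 := (OpenPartialHomeomorph.univBall c r).image_source_eq_target
      rwa [OpenPartialHomeomorph.univBall_source, OpenPartialHomeomorph.univBall_target c hr]
        at h3
    ext z
    constructor
    · rintro ⟨hz, hzS⟩
      rw [← h2] at hz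
      obtain ⟨w, -, rfl⟩ := hz
      exact ⟨w, hzS, rfl⟩
    · rintro ⟨w, hw, rfl⟩
      exact ⟨h2 ▸ mem_image_of_mem _ (mem_univ w), hw⟩
  rw [h1]
  have hinj : Function.Injective (OpenPartialHomeomorph.univBall c r) := by
    intro a b hab
    have h3 := (OpenPartialHomeomorph.univBall c r).injOn
    rw [OpenPartialHomeomorph.univBall_source] at h3
    exact h3 (mem_univ a) (mem_univ b) hab
  have hcont : Continuous (OpenPartialHomeomorph.univBall c r) := by
    have h3 := (OpenPartialHomeomorph.univBall c r).continuousOn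
    rwa [OpenPartialHomeomorph.univBall_source, continuousOn_univ] at h3
  refine IsConnected.image ?_ _ hcont.continuousOn
  refine (hS.preimage_of_injOn hinj.injOn).isConnected_compl_of_one_lt_rank ?_
  rw [Complex.rank_real_complex]
  norm_num

variable {M : Type*} [TopologicalSpace M] {E : Type*} [NormedAddCommGroup E] [NormedSpace ℂ E]
variable {ι : Type*} (e : ι → OpenPartialHomeomorph M E)

/-- thin on lines in every chart -/
def LTM (S : Set M) : Prop := ∀ i, LT (e i).target ((e i).symm ⁻¹' S)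

variable {e}

/-- spreading along lines -/
theorem ball_subset_closure {Om : Set M} (ho : IsOpen Om) (hS : LTM e (closure Om \ Om))
    {i : ι} {z : E} {ρ : ℝ} (hb : ball z ρ ⊆ (e i).target) (hz : (e i).symm z ∈ Om)
    {w : E} (hw : w ∈ ball z ρ) : (e i).symm w ∈ closure Om := by
  have hρ : 0 < ρ := dist_nonneg.trans_lt hw
  have hzt : z ∈ (e i).target := hb (mem_ball_self hρ)
  -- the set of good end points
  have hd := hS i z hzt
  -- points `z + v`, `v` good and small, are in `closure Om`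
  have h1 : ∀ v : E, {c : ℂ | z + c • v ∈ (e i).target ∩ (e i).symm ⁻¹' (closure Om \ Om)}.Countable →
      ‖v‖ < ρ → (e i).symm (z + v) ∈ closure Om := by
    intro v hv hvρ
    by_cases hv0 : v = 0
    · subst hv0
      rw [add_zero]
      exact subset_closure hz
    have hvn : 0 < ‖v‖ := norm_pos_iff.2 hv0
    set R := ρ / ‖v‖ with hR
    have hR1 : 1 < R := by rw [hR, lt_div_iff₀ hvn]; simpa using hvρ
    have hin : ∀ c ∈ ball (0 : ℂ) R, z + c • v ∈ ball z ρ := by
      intro c hc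
      rw [mem_ball_zero_iff] at hc
      rw [mem_ball, dist_eq_norm, add_sub_cancel_left, norm_smul]
      rw [hR, lt_div_iff₀ hvn] at hc
      exact hc
    set S' := {c : ℂ | z + c • v ∈ (e i).target ∩ (e i).symm ⁻¹' (closure Om \ Om)} with hS'
    have hc := isConnected_ball_diff hv (0 : ℂ) (zero_lt_one.trans hR1)
    by_contra hcl
    -- the map
    have hcont : ContinuousOn (fun c : ℂ => (e i).symm (z + c • v)) (ball (0 : ℂ) R \ S') := by
      refine (e i).continuousOn_symm.comp (by fun_prop) ?_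
      intro c hc
      exact hb (hin c hc.1)
    have hpc := hc.isPreconnected.image _ hcont
    obtain ⟨q, hq, hq1, hq2⟩ := hpc Om (closure Om)ᶜ ho isClosed_closure.isOpen_compl
      (by
        rintro _ ⟨c, hc, rfl⟩
        by_cases h2 : (e i).symm (z + c • v) ∈ closure Om
        · left
          by_contra h3
          exact hc.2 ⟨hb (hin c hc.1), h2, h3⟩
        · exact Or.inr h2)
      ⟨(e i).symm z, ⟨0, ⟨mem_ball_self (zero_lt_one.trans hR1), fun h2 => by
        have h3 := h2.2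
        simp only [zero_smul, add_zero, mem_preimage] at h3
        exact h3.2 hz⟩, by simp⟩, hz⟩
      ⟨(e i).symm (z + v), ⟨1, ⟨by rw [mem_ball_zero_iff]; simpa using hR1, fun h2 => by
        have h3 := h2.2
        simp only [one_smul, mem_preimage] at h3
        exact hcl h3.1⟩, by simp⟩, hcl⟩
    exact hq2 (subset_closure hq1)
  -- density
  rw [mem_closure_iff_nhds]
  intro N hN
  have hwt : w ∈ (e i).target := hb hw
  have h3 : ∀ᶠ v in 𝓝 (w - z), (e i).symm (z + v) ∈ interior N ∧ z + v ∈ ball z ρ := by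
    have h4 : ∀ᶠ w' in 𝓝 w, (e i).symm w' ∈ interior N ∧ w' ∈ ball z ρ :=
      Filter.Eventually.and ((e i).continuousAt_symm hwt (interior_mem_nhds.2 hN))
        (isOpen_ball.mem_nhds hw)
    have h5 : Tendsto (fun v => z + v) (𝓝 (w - z)) (𝓝 w) := by
      have : Tendsto (fun v => z + v) (𝓝 (w - z)) (𝓝 (z + (w - z))) :=
        (continuous_const.add continuous_id).continuousAt
      simpa using this
    exact h5.eventually h4
  obtain ⟨v, hv1, hv2⟩ := hd.inter_nhds_nonempty h3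
  have h6 : ‖v‖ < ρ := by
    have := hv2.2
    rwa [mem_ball, dist_eq_norm, add_sub_cancel_left] at this
  have h7 := h1 v hv1 h6
  obtain ⟨q, hq1, hq2⟩ := mem_closure_iff_nhds.1 h7 (interior N) (isOpen_interior.mem_nhds hv2.1)
  exact ⟨q, interior_subset hq1, hq2⟩

/-- **(DENSE)** -/
theorem dense_of_thin [PreconnectedSpace M] (hcov : ∀ x, ∃ i, x ∈ (e i).source) {Om : Set M}
    (ho : IsOpen Om) (hne : Om.Nonempty) (hS : LTM e (closure Om \ Om)) : Dense Om := by
  have hop : IsOpen (closure Om) := by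
    rw [isOpen_iff_mem_nhds]
    intro x hx
    obtain ⟨i, hi⟩ := hcov x
    obtain ⟨ρ, hρ, hb⟩ := Metric.isOpen_iff.1 (e i).open_target (e i x) ((e i).map_source hi)
    have h1 : ∀ᶠ q in 𝓝 x, q ∈ (e i).source ∧ e i q ∈ ball (e i x) (ρ / 4) :=
      Filter.Eventually.and ((e i).open_source.mem_nhds hi)
        ((e i).continuousAt hi (isOpen_ball.mem_nhds (mem_ball_self (by positivity))))
    obtain ⟨q, ⟨hq1, hq2⟩, hq3⟩ := mem_closure_iff_nhds.1 hx _ h1
    have hb' : ball (e i q) (ρ / 2) ⊆ (e i).target := by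
      refine Subset.trans ?_ hb
      refine ball_subset_ball' ?_
      rw [mem_ball] at hq2
      linarith
    have hx' : ball (e i x) (ρ / 4) ⊆ ball (e i q) (ρ / 2) := by
      refine ball_subset_ball' ?_
      rw [mem_ball, dist_comm] at hq2
      linarith
    filter_upwards [h1] with p hp
    have h2 := ball_subset_closure ho hS hb' (by rw [(e i).left_inv hq1]; exact hq3)
      (hx' hp.2)
    rwa [(e i).left_inv hp.1] at h2
  have h2 : closure Om = univ := IsClopen.eq_univ ⟨isClosed_closure, hop⟩ hne.closure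
  exact dense_iff_closure_eq.2 h2

/-- the open set is preconnected -/
theorem preconnected_of_thin [PreconnectedSpace M] (hcov : ∀ x, ∃ i, x ∈ (e i).source)
    {Om : Set M} (ho : IsOpen Om) (hS : LTM e (closure Om \ Om)) : IsPreconnected Om := by
  intro u v hu hv huv hnu hnv
  by_contra hne
  have hdis : ∀ x ∈ Om, x ∈ u → x ∈ v → False := fun x h1 h2 h3 => hne ⟨x, h1, h2, h3⟩
  have key : ∀ u v : Set M, IsOpen u → IsOpen v → Om ⊆ u ∪ v →
      (∀ x ∈ Om, x ∈ u → x ∈ v → False) → (Om ∩ u).Nonempty → Dense (Om ∩ u) := by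
    intro u v hu hv huv hdis hnu
    refine dense_of_thin hcov (ho.inter hu) hnu fun i => (hS i).mono ?_
    rintro z ⟨-, hz1, hz2⟩
    refine ⟨closure_mono inter_subset_left hz1, fun h3 => hz2 ⟨h3, ?_⟩⟩
    by_contra h4
    have h5 : (e i).symm z ∈ v := (huv h3).resolve_left h4
    obtain ⟨q, hq1, hq2⟩ := mem_closure_iff_nhds.1 hz1 v (hv.mem_nhds h5)
    exact hdis q hq2.1 hq2.2 hq1
  have h1 := key u v hu hv huv hdis hnu
  have h2 := key v u hv hu (by rwa [union_comm]) (fun x a b c => hdis x a c b) hnv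
  obtain ⟨q, hq1, hq2⟩ := h1.inter_open_nonempty (Om ∩ v) (ho.inter hv) hnv
  exact hdis q hq1.1 hq2.2 hq1.2

end Crest.Agent.R281.Thin3_524
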