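import Crest.Agent.R281.GT11_639
import Crest.Agent.R281.KrD_488
import Crest.Agent.R281.Pri2_989
import Crest.Agent.R281.Esc1_989
import Crest.Agent.R281.CA3_867

-- ▼ part R281/GTi1_989
section

/-!
# R281 (S0424), GLUE-23, instance part 1 (helper989, second owner of 639's GT15)

* `deh`          : `Y_0 = 1`
* `prD κ`        : 488's `KDat` dehomogenised to 639's `PrD`; `good_prD`
* `ConeM E e O U`: `(M, A)` with the sections `U` of `O` is the projective manifold with cone
                   `{v ≠ 0 | E^e (v) = 0}`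
* `mbr_of_cone`  : `ConeM` ==> `Mbr (prD κ) e O U`
-/

set_option autoImplicit false
set_option linter.unusedSectionVars false

open Polynomial Set Filter Topology Complex

noncomputable section

namespace Crest.Agent.R281.GTi_989

open Crest.Agent.R275.Geo Crest.Agent.R275.Core144
open Crest.Agent.R281.GT_639 Crest.Agent.R281.Kr_488
open Crest.Agent.R281.AF_867 (Immersive)
open Crest.Agent.R273.SerA_945 (Fn)
open Crest.Agent.R273.SteinC_794 (nz mem_nz isOpen_nz)

variable {n N : ℕ} {R : Type*} [CommRing R]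

/-- `Y_0 = 1` -/
def deh : MvPolynomial (Fin (n + 1)) R →+* MvPolynomial (Fin n) R :=
  (MvPolynomial.aeval (R := R) (Fin.cons 1 MvPolynomial.X : Fin (n + 1) → MvPolynomial (Fin n) R)
    : MvPolynomial (Fin (n + 1)) R →ₐ[R] MvPolynomial (Fin n) R).toRingHom

@[simp] theorem deh_C (a : R) : deh (n := n) (MvPolynomial.C a) = MvPolynomial.C a := by
  simp [deh]

@[simp] theorem deh_X0 : deh (R := R) (n := n) (MvPolynomial.X 0) = 1 := by
  simp [deh]

@[simp] theorem deh_XS (j : Fin n) :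
    deh (R := R) (n := n) (MvPolynomial.X j.succ) = MvPolynomial.X j := by
  simp [deh]

theorem ph_deh (e : R →+* ℂ) (y : Fin n → ℂ) :
    (ph e y).comp deh = ph e (Fin.cons 1 y : Fin (n + 1) → ℂ) := by
  apply MvPolynomial.ringHom_ext
  · intro r; simp
  · intro i
    refine Fin.cases ?_ (fun j => ?_) i
    · simp
    · simp

/-- 488's data dehomogenised -/
def prD (κ : KDat n N R) : PrD n (N + 1) R where
  lam := κ.lam
  w := κ.w
  F := κ.G.map deh
  Nm := fun k => (κ.Nm k).map deh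

theorem val_deh (P : (MvPolynomial (Fin (n + 1)) R)[X]) (e : R →+* ℂ) (y : Fin n → ℂ) (z : ℂ) :
    ((P.map deh).map (ph e y)).eval z = (P.map (ph e (Fin.cons 1 y : Fin (n + 1) → ℂ))).eval z := by
  rw [Polynomial.map_map, ph_deh]

theorem good_prD [Nontrivial R] {κ : KDat n N R} {E : Set (MvPolynomial (Fin (N + 1)) R)}
    (h : κ.Good E) : (prD κ).Good where
  monic := h.monic.map _
  pos := by
    show 0 < (κ.G.map deh).natDegree
    rw [h.monic.natDegree_map, h.deg]
    exact h.D_pos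
  lam0 := by
    have h1 := congrArg (Polynomial.map deh) (h.lamN 0)
    simpa [prD, Polynomial.map_sum, derivative_map] using h1
  lamS j := by
    have h1 := congrArg (Polynomial.map deh) (h.lamN j.succ)
    simpa [prD, Polynomial.map_sum, derivative_map] using h1
  wN := by
    have h1 := congrArg (Polynomial.map deh) h.wN
    have h2 : (κ.G.map (deh (R := R) (n := n))).natDegree = κ.D := by
      rw [h.monic.natDegree_map, h.deg]
    show _ = X * derivative (κ.G.map deh) - ((κ.G.map (deh (R := R) (n := n))).natDegree :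
      (MvPolynomial (Fin n) R)[X]) * κ.G.map deh
    rw [h2]
    simpa [prD, Polynomial.map_sum, derivative_map] using h1

/-- weighted homogeneity -/
def WH (P : (MvPolynomial (Fin (n + 1)) R)[X]) (D : ℕ) : Prop :=
  (∀ i ≤ D, (P.coeff i).IsHomogeneous (D - i)) ∧ ∀ i, D < i → P.coeff i = 0

theorem WH.eval {P : (MvPolynomial (Fin (n + 1)) R)[X]} {D : ℕ} (h : WH P D) (e : R →+* ℂ)
    (c : ℂ) (Y : Fin (n + 1) → ℂ) (W : ℂ) :
    (P.map (ph e fun j => c * Y j)).eval (c * W) = c ^ D * (P.map (ph e Y)).eval W := by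
  have hd : P.natDegree < D + 1 := by
    rw [Nat.lt_succ_iff, natDegree_le_iff_coeff_eq_zero]
    exact h.2
  rw [eval_map_eq e P hd, eval_map_eq e P hd, Finset.mul_sum]
  refine Finset.sum_congr rfl fun k hk => ?_
  rw [Finset.mem_range, Nat.lt_succ_iff] at hk
  have h1 : ph e (fun j => c * Y j) (P.coeff k) = c ^ (D - k) * ph e Y (P.coeff k) :=
    eval₂_smul (h.1 k hk) c Y
  rw [h1, mul_pow]
  have h2 : c ^ D = c ^ (D - k) * c ^ k := by rw [← pow_add, Nat.sub_add_cancel hk]
  rw [h2]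
  ring

theorem wh_G {κ : KDat n N R} {E : Set (MvPolynomial (Fin (N + 1)) R)} (h : κ.Good E) :
    WH κ.G κ.D :=
  ⟨h.homG, fun i hi => coeff_eq_zero_of_natDegree_lt (by rw [h.deg]; exact hi)⟩

theorem wh_dG {κ : KDat n N R} {E : Set (MvPolynomial (Fin (N + 1)) R)} (h : κ.Good E) :
    WH (derivative κ.G) (κ.D - 1) := by
  have hD := h.D_pos
  constructor
  · intro i hi
    rw [coeff_derivative]
    have h1 := h.homG (i + 1) (by omega)
    have h2 : κ.D - (i + 1) = κ.D - 1 - i := by omega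
    rw [h2] at h1
    have h3 : ((i : MvPolynomial (Fin (n + 1)) R) + 1) = MvPolynomial.C ((i : R) + 1) := by
      simp
    rw [h3]
    have h4 := h1.mul (MvPolynomial.isHomogeneous_C (Fin (n + 1)) ((i : R) + 1))
    rwa [add_zero] at h4
  · intro i hi
    rw [coeff_derivative, coeff_eq_zero_of_natDegree_lt (by rw [h.deg]; omega), zero_mul]

theorem wh_Nm {κ : KDat n N R} {E : Set (MvPolynomial (Fin (N + 1)) R)} (h : κ.Good E)
    (k : Fin (N + 1)) : WH (κ.Nm k) κ.D := by
  constructor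
  · intro i hi
    rcases lt_or_eq_of_le hi with h1 | h1
    · exact h.homN k i h1
    · rw [h.degN k i h1.ge]
      exact MvPolynomial.isHomogeneous_zero _ _ _
  · intro i hi
    exact h.degN k i hi.le

variable {M : Type} [TopologicalSpace M] {A : Atl n M} {O : LB A}

/-- `(M, A)` with the sections `U` of `O` is the projective manifold of the cone
`{v ≠ 0 | E^e (v) = 0}` -/
structure ConeM (E : Set (MvPolynomial (Fin (N + 1)) R)) (e : R →+* ℂ) (O : LB A)
    (U : Fin (N + 1) → Fn A) : Prop where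
  hs : ∀ k, IsHS O univ (U k)
  inj : ∀ i j, ∀ x ∈ (A.e i).source, ∀ y ∈ (A.e j).source,
    (∃ c : ℂ, ∀ k, U k i x = c * U k j y) → x = y
  imm : Immersive U
  nz : ∀ i, ∀ x ∈ (A.e i).source, ∃ k, U k i x ≠ 0
  mem : ∀ i, ∀ x ∈ (A.e i).source, ∀ p ∈ E, MvPolynomial.eval₂ e (fun k => U k i x) p = 0
  surj : ∀ v : Fin (N + 1) → ℂ, v ≠ 0 → (∀ p ∈ E, MvPolynomial.eval₂ e v p = 0) →
    ∃ i, ∃ x ∈ (A.e i).source, ∃ c : ℂ, ∀ k, v k = c * U k i x

/-- evaluation of `κ.sub` -/
theorem eval_sub (κ : KDat n N R) (e : R →+* ℂ) (P : (MvPolynomial (Fin (n + 1)) R)[X])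
    (v : Fin (N + 1) → ℂ) : MvPolynomial.eval₂ e v (κ.sub P) =
      (P.map (ph e fun j => GT_639.lv e (κ.lam j) v)).eval (GT_639.lv e κ.w v) := by
  have hlin : ∀ a : Fin (N + 1) → R, MvPolynomial.eval₂ e v (lin a) = GT_639.lv e a v := by
    intro a
    simp [lin, GT_639.lv, MvPolynomial.eval₂_sum]
  have h : (MvPolynomial.eval₂Hom e v).comp κ.sub =
      eval₂RingHom (ph e fun j => GT_639.lv e (κ.lam j) v) (GT_639.lv e κ.w v) := by
    refine Polynomial.ringHom_ext' ?_ ?_
    · refine MvPolynomial.ringHom_ext ?_ ?_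
      · intro r
        simp [KDat.sub, KDat.subY]
      · intro j
        simp [KDat.sub, KDat.subY, hlin]
    · simp [KDat.sub, hlin]
  have h1 := congrArg (fun f => f P) h
  simp only [RingHom.comp_apply, coe_eval₂RingHom] at h1
  rw [eval_map]
  exact h1

/-- a manifold with the right cone is a member -/
theorem mbr_of_cone [Nontrivial R] {κ : KDat n N R} {E : Set (MvPolynomial (Fin (N + 1)) R)}
    (h : κ.Good E) {e : R →+* ℂ} {U : Fin (N + 1) → Fn A} (hM : ConeM E e O U) :
    Mbr (prD κ) e O U := by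
  have hls : ∀ a : Fin (N + 1) → R, IsHS O univ (ls e U a) := isHS_ls hM.hs e
  -- the coordinates at a point
  have hy : ∀ {i : A.ι} {x : M}, x ∈ (A.e i).source → ∀ j, yM (prD κ) e U x j =
      GT_639.lv e (κ.lam j.succ) (fun k => U k i x) / GT_639.lv e (κ.lam 0) (fun k => U k i x) :=
    fun hx j => Crest.Agent.R273.SteinC_794.qt_eq (hls _) (hls _) hx
  have hz : ∀ {i : A.ι} {x : M}, x ∈ (A.e i).source → zM (prD κ) e U x =
      GT_639.lv e κ.w (fun k => U k i x) / GT_639.lv e (κ.lam 0) (fun k => U k i x) :=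
    fun hx => Crest.Agent.R273.SteinC_794.qt_eq (hls _) (hls _) hx
  have hv : ∀ {i : A.ι} {x : M}, x ∈ (A.e i).source → ∀ k, vM (prD κ) e U k x =
      U k i x / GT_639.lv e (κ.lam 0) (fun k => U k i x) :=
    fun hx k => Crest.Agent.R273.SteinC_794.qt_eq (hM.hs k) (hls _) hx
  have h0 : ∀ {i : A.ι} {x : M}, x ∈ (A.e i).source → x ∈ nz (ls e U (κ.lam 0)) →
      GT_639.lv e (κ.lam 0) (fun k => U k i x) ≠ 0 := fun hx hn => (mem_nz (hls _) hx).1 hn
  -- scaling
  have hsc : ∀ {i : A.ι} {x : M} (_ : x ∈ (A.e i).source) (_ : x ∈ nz (ls e U (κ.lam 0)))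
      {P : (MvPolynomial (Fin (n + 1)) R)[X]} {D : ℕ} (_ : WH P D),
      ((P.map deh).map (ph e (yM (prD κ) e U x))).eval (zM (prD κ) e U x) =
        ((GT_639.lv e (κ.lam 0) (fun k => U k i x))⁻¹) ^ D *
          MvPolynomial.eval₂ e (fun k => U k i x) (κ.sub P) := by
    intro i x hx hn P D hP
    have hl := h0 hx hn
    have e1 : (Fin.cons 1 (yM (prD κ) e U x) : Fin (n + 1) → ℂ) = fun j =>
        (GT_639.lv e (κ.lam 0) (fun k => U k i x))⁻¹ *
          GT_639.lv e (κ.lam j) (fun k => U k i x) := by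
      funext j
      refine Fin.cases ?_ (fun j => ?_) j
      · rw [Fin.cons_zero, inv_mul_cancel₀ hl]
      · rw [Fin.cons_succ, hy hx j, div_eq_mul_inv, mul_comm]
    have e2 : zM (prD κ) e U x = (GT_639.lv e (κ.lam 0) (fun k => U k i x))⁻¹ *
        GT_639.lv e κ.w (fun k => U k i x) := by
      rw [hz hx, div_eq_mul_inv, mul_comm]
    rw [val_deh, eval_sub, ← hP.eval, e1, e2]
  refine ⟨hM.hs, hM.inj, hM.imm, fun x hx => ?_, fun x hx k => ?_, fun y z h1 h2 => ?_⟩
  · obtain ⟨i, hi⟩ := A.cover x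
    show (((κ.G.map deh).map (ph e (yM (prD κ) e U x))).eval (zM (prD κ) e U x)) = 0
    rw [hsc hi hx (wh_G h), hM.mem i x hi _ h.memG, mul_zero]
  · obtain ⟨i, hi⟩ := A.cover x
    have hl := h0 hi hx
    show ((((κ.Nm k).map deh).map (ph e (yM (prD κ) e U x))).eval (zM (prD κ) e U x)) =
      vM (prD κ) e U k x *
        (((derivative (κ.G.map deh)).map (ph e (yM (prD κ) e U x))).eval (zM (prD κ) e U x))
    rw [derivative_map, hsc hi hx (wh_Nm h k), hsc hi hx (wh_dG h), hv hi k]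
    have h3 := hM.mem i x hi _ (h.memN k)
    rw [MvPolynomial.eval₂_sub, MvPolynomial.eval₂_mul, MvPolynomial.eval₂_X, sub_eq_zero] at h3
    rw [← h3]
    have h4 : (GT_639.lv e (κ.lam 0) (fun k => U k i x))⁻¹ ^ κ.D =
        (GT_639.lv e (κ.lam 0) (fun k => U k i x))⁻¹ ^ (κ.D - 1) *
          (GT_639.lv e (κ.lam 0) (fun k => U k i x))⁻¹ := by
      rw [← pow_succ, Nat.sub_add_cancel h.D_pos]
    rw [h4]
    unfold KDat.dG
    ring
  · -- surjectivity
    have h1' : (κ.G.map (ph e (Fin.cons 1 y : Fin (n + 1) → ℂ))).eval z = 0 := by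
      rw [← val_deh]; exact h1
    have h2' : ((derivative κ.G).map (ph e (Fin.cons 1 y : Fin (n + 1) → ℂ))).eval z ≠ 0 := by
      rw [← val_deh, ← derivative_map]; exact h2
    set Y : Fin (n + 1) → ℂ := Fin.cons 1 y with hY
    set v : Fin (N + 1) → ℂ := fun k => ((κ.Nm k).map (ph e Y)).eval z with hvdef
    have hlv : GT_639.lv e (κ.lam 0) v = ((derivative κ.G).map (ph e Y)).eval z := by
      have h3 := congrArg (fun P => (P.map (ph e Y)).eval z) (h.lamN 0)
      simpa [GT_639.lv, hvdef, Polynomial.map_sum, eval_finsetSum, hY] using h3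
    have hvE : ∀ p ∈ E, MvPolynomial.eval₂ e v p = 0 := by
      intro p hp
      obtain ⟨q, hq⟩ := h.dvd p hp
      have h3 : ((MvPolynomial.aeval κ.Nm p : (MvPolynomial (Fin (n + 1)) R)[X]).map
          (ph e Y)).eval z = MvPolynomial.eval₂ e v p := by
        have h4 : ((evalRingHom z).comp (mapRingHom (ph e Y))).comp
            (MvPolynomial.aeval κ.Nm : MvPolynomial (Fin (N + 1)) R →ₐ[R]
              (MvPolynomial (Fin (n + 1)) R)[X]).toRingHom = MvPolynomial.eval₂Hom e v := by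
          apply MvPolynomial.ringHom_ext
          · intro r
            simp [Polynomial.algebraMap_apply, MvPolynomial.algebraMap_eq]
          · intro k
            simp [hvdef]
        exact congrArg (fun f => f p) h4
      rw [← h3, hq, Polynomial.map_mul, eval_mul, h1', zero_mul]
    have hv0 : v ≠ 0 := by
      intro h3
      rw [h3] at hlv
      apply h2'
      rw [← hlv]
      simp [GT_639.lv]
    obtain ⟨i, x, hx, c, hc⟩ := hM.surj v hv0 hvE
    refine ⟨i, x, hx, c, fun k => ?_⟩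
    show (((κ.Nm k).map deh).map (ph e y)).eval z = _
    rw [val_deh]
    exact hc k

end Crest.Agent.R281.GTi_989
end
end

-- ▼ part R281/Pri3_989
section

/-!
# R281 (S0424), GLUE-23 (second owner helper989): **(P3)** primality over the ring of an end
-/

set_option autoImplicit false
set_option linter.unusedSectionVars false

open Polynomial Set Filter Topology

noncomputable section

namespace Crest.Agent.R281.Pri3_989

open Crest.Agent.R275.Geo Crest.Agent.R275.Core144
open Crest.Agent.R281.Pri1_989 Crest.Agent.R281.Pri2_989 Crest.Agent.R281.GT_639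
open Crest.Agent.R281.Esc1_989 Crest.Agent.R281.Ends2_989
open Crest.Agent.R273.SerA_945 (Fn)


/-- **primality over `MgR`** -/
theorem prime_MgR {n : ℕ} {F : (MvPolynomial (Fin n) MgR)[X]} (hm : F.Monic) {l : Filter Hp}
    [l.NeBot] (hl : l ≤ lEnd) (h : ∀ᶠ z in l, Irreducible (spc (ev z) F)) : Prime F := by
  refine prime_of_spc hm (S := {e | ∃ z : Hp, Irreducible (spc (ev z) F) ∧ e = ev z})
    (fun a ha => ?_) ?_
  · obtain ⟨k, C, hk⟩ := order a ha
    obtain ⟨z, hz, hz'⟩ := (h.and (hl hk)).exists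
    exact ⟨ev z, ⟨z, hz, rfl⟩, hz'.1⟩
  · rintro e ⟨z, hz, rfl⟩
    exact hz


end Crest.Agent.R281.Pri3_989
end
end

-- ▼ part R281/GTi2_989

/-!
# R281 (S0424), GLUE-23, instance part 2 (helper989, second owner of 639's GT15)

* `fmD`            : one chart of 867's `FDat` as 639's `FmD`; `good_fmD`
* `ConeC Y O U`    : `(M, A)` with sections `U` is the manifold of the complex certificate `Y : CDat n N ℂ`
* `FormC Y.D U σ`  : `x_j^m σ` is the form of `Y.D` (867's `frm`)
* `isMb_of_cone`   : `ConeC (C.map e)`, `FormC` ==> 639's `IsMb (prD (C.κ a)) (fmD C.D j) e A O U σ`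
* `sep_of_bez`     : one separable fibre polynomial
* `algD_of`        : enough connected members ==> `∃ j, AlgD (prD (C.κ a)) (fmD C.D j)`
* `algD_mg`        : the same over `MgR`
-/

set_option autoImplicit false
set_option linter.unusedSectionVars false

open Polynomial Set Filter Topology Complex
open scoped Matrix

noncomputable section

namespace Crest.Agent.R281.GTi_989

open Crest.Agent.R275.Geo Crest.Agent.R275.Core144
open Crest.Agent.R281.Defs_273
open Crest.Agent.R281.GT_639 Crest.Agent.R281.Kr_488 Crest.Agent.R281.AF_867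
open Crest.Agent.R281.CA_867 Crest.Agent.R281.Pri1_989 Crest.Agent.R281.Pri2_989
open Crest.Agent.R273.SerA_945 (Fn)
open Crest.Agent.R273.SteinC_794 (nz mem_nz isOpen_nz)

variable {n N : ℕ} {R : Type} [CommRing R]

/-! ### the form -/

/-- one chart of the form data -/
def fmD (D : FDat (Fin (N + 1)) R) (j : Fin (N + 1)) : FmD (N + 1) R := ⟨j, D.m, fun k l => D.s j k l⟩

theorem good_fmD {D : FDat (Fin (N + 1)) R} (h : D.Exact) (j : Fin (N + 1)) : (fmD D j).Good where
  two := by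
    have := h.two
    show 2 ≤ D.m
    omega
  alt k l := by
    have h1 := congrFun (congrFun (h.alt j) l) k
    simpa [fmD] using h1
  hom k l := h.hom j k l
  eul k := h.eul j k

/-! ### members -/

variable {M : Type} [TopologicalSpace M] {A : Atl n M} {O : LB A}

/-- `(M, A)` with the sections `U` is the manifold of the complex certificate `Y` -/
structure ConeC (Y : CDat n N ℂ) (O : LB A) (U : Fin (N + 1) → Fn A) : Prop where
  hs : ∀ k, IsHS O univ (U k)
  inj : ∀ i j, ∀ x ∈ (A.e i).source, ∀ y ∈ (A.e j).source,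
    (∃ c : ℂ, ∀ k, U k i x = c * U k j y) → x = y
  imm : Immersive U
  nz : ∀ i, ∀ x ∈ (A.e i).source, ∃ k, U k i x ≠ 0
  mem : ∀ i, ∀ x ∈ (A.e i).source, OnE (range Y.G) fun k => U k i x
  surj : ∀ v : Fin (N + 1) → ℂ, v ≠ 0 → OnE (range Y.G) v →
    ∃ i, ∃ x ∈ (A.e i).source, ∃ c : ℂ, ∀ k, v k = c * U k i x

/-- `x_j ^ m σ` is the form `Y.D` -/
def FormC (D : FDat (Fin (N + 1)) ℂ) (U : Fin (N + 1) → Fn A) (σ : H2 A) : Prop :=
  ∀ j i, ∀ x ∈ (A.e i).source, U j i x ^ D.m • σ.s i x =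
    (DF U i x)ᵀ * evM U (D.s j) i x * DF U i x

theorem ConeC.coneM {C : CDat n N R} {e : R →+* ℂ} {U : Fin (N + 1) → Fn A}
    (h : ConeC (C.map e) O U) : ConeM (range C.G) e O U where
  hs := h.hs
  inj := h.inj
  imm := h.imm
  nz := h.nz
  mem i x hx p hp := by
    obtain ⟨l, rfl⟩ := hp
    have h1 := h.mem i x hx ((C.map e).G l) ⟨l, rfl⟩
    rw [← MvPolynomial.eval_map]
    exact h1
  surj v hv hE := by
    refine h.surj v hv ?_
    rintro _ ⟨l, rfl⟩
    have h1 := hE (C.G l) ⟨l, rfl⟩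
    rw [← MvPolynomial.eval_map] at h1
    exact h1

theorem FormC.fMbr {C : CDat n N R} {e : R →+* ℂ} {U : Fin (N + 1) → Fn A} {σ : H2 A}
    (h : FormC (C.map e).D U σ) (j : Fin (N + 1)) : FMbr (fmD C.D j) e U σ := by
  intro i x hx a b
  have h1 := congrFun (congrFun (h j i x hx) a) b
  have h2 : (U j i x ^ (C.map e).D.m • σ.s i x) a b = U j i x ^ C.D.m * σ.s i x a b := rfl
  rw [h2] at h1
  show U j i x ^ C.D.m * σ.s i x a b = _
  rw [h1, Matrix.mul_apply]
  simp only [Matrix.mul_apply, Finset.sum_mul]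
  rw [Finset.sum_comm]
  refine Finset.sum_congr rfl fun k _ => Finset.sum_congr rfl fun l _ => ?_
  have h3 : evM U ((C.map e).D.s j) i x k l =
      MvPolynomial.eval₂ e (fun k => U k i x) ((fmD C.D j).s k l) := by
    rw [evM_apply, ← MvPolynomial.eval_map]
    rfl
  rw [h3, Matrix.transpose_apply]
  ring

theorem ev_lin (e : R →+* ℂ) (a : Fin (N + 1) → R) (v : Fin (N + 1) → ℂ) :
    MvPolynomial.eval₂ e v (lin a) = GT_639.lv e a v := by
  simp [lin, GT_639.lv, MvPolynomial.eval₂_sum]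

/-- the linear forms of the projection have no common zero -/
theorem base_of_ok {C : CDat n N R} (hC : C.Ok) (a : Fin C.q) {e : R →+* ℂ}
    {U : Fin (N + 1) → Fn A} (hM : ConeM (range C.G) e O U) :
    ∀ i, ∀ x ∈ (A.e i).source, ∃ j, GT_639.lv e ((C.κ a).lam j) (fun k => U k i x) ≠ 0 := by
  intro i x hx
  by_contra hcon
  push Not at hcon
  obtain ⟨k, hk⟩ := hM.nz i x hx
  apply hk
  have h1 : Ideal.span (range C.G ∪ range fun j => lin ((C.κ a).lam j)) ≤
      RingHom.ker (MvPolynomial.eval₂Hom e fun k => U k i x) := by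
    rw [Ideal.span_le]
    rintro F (hF | ⟨j, rfl⟩)
    · exact hM.mem i x hx F hF
    · show MvPolynomial.eval₂ e (fun k => U k i x) (lin ((C.κ a).lam j)) = 0
      rw [ev_lin]
      exact hcon j
  have h2 := h1 (hC.covl a k)
  rw [RingHom.mem_ker, map_pow] at h2
  have h3 := eq_zero_of_pow_eq_zero h2
  simpa using h3

/-- **members** -/
theorem isMb_of_cone [Nontrivial R] {C : CDat n N R} (hC : C.Ok) (a : Fin C.q) {e : R →+* ℂ}
    {U : Fin (N + 1) → Fn A} {σ : HSymp A} (hM : ConeC (C.map e) O U)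
    (hσ : FormC (C.map e).D U σ.toH2) (j : Fin (N + 1)) :
    IsMb (prD (C.κ a)) (fmD C.D j) e A O U σ where
  mb := mbr_of_cone (hC.good a) hM.coneM
  fm := hσ.fMbr j
  base := base_of_ok hC a hM.coneM

/-! ### separability -/

theorem sep_of_bez {C : CDat n N R} (hC : C.Ok) (a : Fin C.q) {e : R →+* ℂ}
    (hd : MvPolynomial.map e (C.d a) ≠ 0) : ∃ y : Fin n → ℂ, ∀ z : ℂ,
      ((prD (C.κ a)).F.map (ph e y)).eval z = 0 →
        ((derivative (prD (C.κ a)).F).map (ph e y)).eval z ≠ 0 := by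
  have h1 : MvPolynomial.X 0 * MvPolynomial.map e (C.d a) ≠ 0 :=
    mul_ne_zero (MvPolynomial.X_ne_zero _) hd
  obtain ⟨Y, hY⟩ : ∃ Y : Fin (n + 1) → ℂ,
      MvPolynomial.eval Y (MvPolynomial.X 0 * MvPolynomial.map e (C.d a)) ≠ 0 := by
    by_contra hcon
    push Not at hcon
    exact h1 (MvPolynomial.funext fun Y => by rw [hcon Y, map_zero])
  rw [map_mul, MvPolynomial.eval_X, MvPolynomial.eval_map] at hY
  have hY0 : Y 0 ≠ 0 := left_ne_zero_of_mul hY
  have hYd : MvPolynomial.eval₂ e Y (C.d a) ≠ 0 := right_ne_zero_of_mul hY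
  refine ⟨fun j => (Y 0)⁻¹ * Y j.succ, fun z hz hz' => ?_⟩
  have hc : (Fin.cons 1 (fun j : Fin n => (Y 0)⁻¹ * Y j.succ) : Fin (n + 1) → ℂ) =
      fun j => (Y 0)⁻¹ * Y j := by
    funext j
    refine Fin.cases ?_ (fun j => ?_) j
    · simp [hY0]
    · simp
  have hzz : z = (Y 0)⁻¹ * (Y 0 * z) := by
    rw [← mul_assoc, inv_mul_cancel₀ hY0, one_mul]
  have hG : (((C.κ a).G).map (ph e Y)).eval (Y 0 * z) = 0 := by
    have h2 : (((C.κ a).G.map deh).map (ph e fun j => (Y 0)⁻¹ * Y j.succ)).eval z = 0 := hz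
    rw [val_deh, hc, hzz, (wh_G (hC.good a)).eval] at h2
    exact (mul_eq_zero.1 h2).resolve_left (pow_ne_zero _ (inv_ne_zero hY0))
  have hG' : ((derivative (C.κ a).G).map (ph e Y)).eval (Y 0 * z) = 0 := by
    have h2 : ((derivative ((C.κ a).G.map deh)).map (ph e fun j => (Y 0)⁻¹ * Y j.succ)).eval z =
      0 := hz'
    rw [derivative_map, val_deh, hc, hzz, (wh_dG (hC.good a)).eval] at h2
    exact (mul_eq_zero.1 h2).resolve_left (pow_ne_zero _ (inv_ne_zero hY0))
  have h3 := congrArg (fun P => (P.map (ph e Y)).eval (Y 0 * z)) (hC.bez a)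
  simp only [Polynomial.map_add, Polynomial.map_mul, eval_add, eval_mul, hG, hG', mul_zero,
    add_zero, map_C, eval_C] at h3
  exact hYd h3.symm

/-! ### the algebraic data -/

theorem exists_not_dvd [IsDomain R] [CharZero R] {𝔭 : PrD n (N + 1) R} (hg : 𝔭.Good) :
    ∃ j, ¬ 𝔭.F ∣ 𝔭.Nm j := by
  by_contra hcon
  push Not at hcon
  have h1 : 𝔭.F ∣ derivative 𝔭.F := by
    rw [← hg.lam0]
    exact Finset.dvd_sum fun k _ => (hcon k).mul_left _
  have h2 : derivative 𝔭.F ≠ 0 := fun h0 => hg.pos.ne' (Polynomial.derivative_eq_zero.1 h0)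
  exact not_lt.2 (Polynomial.natDegree_le_of_dvd h1 h2)
    (Polynomial.natDegree_derivative_lt hg.pos.ne')

/-- `(M, A)` connected, for some atlas: the certificate `Y` has a connected model -/
def ConnM (Y : CDat n N ℂ) : Prop :=
  ∃ (M : Type) (_ : TopologicalSpace M) (_ : PreconnectedSpace M) (A : Atl n M) (O : LB A)
    (U : Fin (N + 1) → Fn A), ConeC Y O U

theorem irr_of_conn [Nontrivial R] {C : CDat n N R} (hC : C.Ok) (a : Fin C.q) {e : R →+* ℂ}
    (hd : MvPolynomial.map e (C.d a) ≠ 0) (hM : ConnM (C.map e)) :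
    Irreducible (spc e (prD (C.κ a)).F) := by
  obtain ⟨M, _, _, A, O, U, h⟩ := hM
  exact irr (good_prD (hC.good a)) (mbr_of_cone (hC.good a) h.coneM) (sep_of_bez hC a hd)


open Crest.Agent.R281.Esc1_989 Crest.Agent.R281.Ends2_989 Crest.Agent.R281.Pri3_989

/-- **algebraic data over the ring of an end** -/
theorem algD_mg {C : CDat n N MgR} (hC : C.Ok) (a : Fin C.q) (hd : C.d a ≠ 0) {l : Filter Hp}
    [l.NeBot] (hl : l ≤ lEnd) (hM : ∀ᶠ z in l, ConnM (C.map (ev z))) :
    ∃ j, AlgD (prD (C.κ a)) (fmD C.D j) := by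
  have hg := good_prD (hC.good a)
  obtain ⟨j, hj⟩ := exists_not_dvd hg
  have hd' : ∀ᶠ z in l, MvPolynomial.map (ev z) (C.d a) ≠ 0 := by
    obtain ⟨α, hα⟩ := MvPolynomial.ne_zero_iff.1 hd
    obtain ⟨k, B, hk⟩ := order _ hα
    filter_upwards [hl hk] with z hz h0
    apply hz.1
    rw [← MvPolynomial.coeff_map, h0, MvPolynomial.coeff_zero]
  refine ⟨j, hg, prime_MgR hg.monic hl ?_, good_fmD hC.exact j, hj⟩
  filter_upwards [hM, hd'] with z h1 h2
  exact irr_of_conn hC a h2 h1

end Crest.Agent.R281.GTi_989
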