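import Crest.Agent.R281.Ehr11_268
import Crest.Agent.R281.QF5_871
import Crest.Agent.R281.Pe6_313
import Crest.Agent.R281.Blk5_592
import Crest.Agent.R281.GTi2_989
import Crest.Agent.R281.CB1_867

-- ▼ part R281/Ehr12_268
section

/-!
# R281 (S0424), PER-HOL / G28 (helper268), part 12: the algebraic symplectic form of a marking

* `PolF F n R`   : polynomial 2-form (867's `FDat`) on the cones of a `QFam`, identities required
                   pointwise; covers 871's `qfam`, `qfamP`, `qfamPM`, `qfamC`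
* `PolF.qcf`     : the `QCF` (holomorphic forms on the markings)
* `PolF.cw_eq`   : `cw * u_j^m = b_j(u; Du v, Du w)` at every parameter, every `j`
* `PolF.cx`, `PolF.typ`, `PolF.nd` : type and nondegeneracy at a marking (313's `Typ`, `Nd`)
* `PolF.hsymp`   : the holomorphic symplectic form of a marking on an atlas `A`, `HolA m.P b A`;
                   `hsymp_w`, `hsymp_re`, `hsymp_im`
* `PolF.formC`   : 989's `FormC` for all sections `U` lifting the embedding
* `polP`, `polC` : the instances over 871's families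
-/

set_option autoImplicit false
set_option linter.unusedSectionVars false
set_option synthInstance.maxHeartbeats 200000
set_option maxSynthPendingDepth 3

open Set Filter Topology Complex
open scoped ContDiff Matrix

namespace Crest.Agent.R281.Ehr12_268

open Crest.Agent.R275 Crest.Agent.R275.Geo Crest.Agent.R275.Core144 Crest.Agent.R275.GC293
open Crest.Agent.R273.SteinC_794 Crest.Agent.R273.SerA_945 Crest.Agent.R273.Defs_333
open Crest.Agent.R273.Fam_835 Crest.Agent.R281.Defs_273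
open Crest.Agent.R281.HkR_835 Crest.Agent.R281.Ehr2_268 Crest.Agent.R281.Dif_268
open Crest.Agent.R281.Ehr4_268 Crest.Agent.R281.Ehr6_268 Crest.Agent.R281.Ehr8_268
open Crest.Agent.R281.Phl_655 Crest.Agent.R281.AF_867 Crest.Agent.R281.KrB4_871
open Crest.Agent.R281.Kr_488 Crest.Agent.R281.KrB1_871
open Crest.Agent.R281.QF_871 Crest.Agent.R281.Ehr9_268 Crest.Agent.R281.Ehr10_268
open Crest.Agent.R281.Ehr11_268 Crest.Agent.R281.Pe_313

noncomputable section

universe uq

/-! ### pointwise polynomial forms -/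

section pt

variable {P : Type} [NormedAddCommGroup P] [NormedSpace ℂ P] {N n : ℕ} {R : Type*} [CommRing R]
  {ev : P → (R →+* ℂ)}

/-- the `JForm` of polynomial data, identities at every point -/
def jfP {E : Set (MvPolynomial (Fin (N + 1)) R)} {S : Set (P × EuclideanSpace ℂ (Fin (N + 1)))}
    (hS : S ⊆ KC ev E) (D : FDat (Fin (N + 1)) R) (hm : 3 ≤ D.m)
    (hX : ∀ c x, (c, x) ∈ S → (D.map (ev c)).Exact)
    (han : ∀ c x, (c, x) ∈ S → ∀ r, AnalyticAt ℂ (fun p => ev p r) c)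
    (hI : ∀ c x, (c, x) ∈ S → (D.map (ev c)).Imp (MvPolynomial.map (ev c) '' E)) :
    JForm S (Fin (N + 1)) where
  m := D.m
  hm := le_trans (by norm_num) hm
  X j := EuclideanSpace.proj j
  s := sj ev D
  cover c x hx := by
    by_contra hcon
    push Not at hcon
    refine (hS hx).1 ?_
    ext j
    exact hcon j
  hol j c x hx := by
    filter_upwards [(analyticAt_sj (han c x hx) D j x).eventually_analyticAt] with p hp
    exact hp.contDiffAt
  alt j p hp u v := by
    rw [sj_apply, sj_apply]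
    exact FDat.b_alt j _ (hX p.1 p.2 hp) _ _
  hom j c x hx a _ u v := by
    rw [sj_apply, sj_apply]
    exact b_scale (hX c x hx) j a _ _ _
  eul j c x hx v := by
    rw [sj_apply]
    exact FDat.b_self_left j _ (hX c x hx) _
  agr i j c x hx u v hu hv := by
    rw [sj_apply, sj_apply]
    refine (hI c x hx).agr (fun i => x i) _ _ ?_ (tanE_of_vel hS hu) (tanE_of_vel hS hv) i j
    rintro _ ⟨p, hp, rfl⟩
    exact (hS hx).2 p hp
  clo j c x hx _ u v w hu hv hw := by
    rw [fderiv_sj (han c x hx), fderiv_sj (han c x hx), fderiv_sj (han c x hx), sj_apply, sj_apply,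
      sj_apply]
    refine (hI c x hx).clo (fun i => x i) _ _ _ ?_ (tanE_of_vel hS hu) (tanE_of_vel hS hv)
      (tanE_of_vel hS hw) j
    rintro _ ⟨p, hp, rfl⟩
    exact (hS hx).2 p hp

theorem TS_map (φ : R →+* ℂ) (E : Set (MvPolynomial (Fin (N + 1)) R)) (x : Fin (N + 1) → ℂ) :
    TS (RingHom.id ℂ) (MvPolynomial.map φ '' E) x = TS φ E x := by
  ext t
  rw [mem_TS, mem_TS]
  have h : MvPolynomial.map (RingHom.id ℂ) '' (MvPolynomial.map φ '' E) =
      MvPolynomial.map φ '' E := by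
    rw [Set.image_image]
    exact Set.image_congr fun q _ => MvPolynomial.map_id (MvPolynomial.map φ q)
  rw [h]

theorem finrank_TS_pt {φ : R →+* ℂ} {E : Set (MvPolynomial (Fin (N + 1)) R)} {κ : KDat n N R}
    (h : (mapK κ φ).Good (MvPolynomial.map φ '' E)) {x : Fin (N + 1) → ℂ}
    (hd : MvPolynomial.eval x (MvPolynomial.map φ κ.dG) ≠ 0) :
    Module.finrank ℂ (TS φ E x) ≤ n + 1 := by
  rw [← TS_map]
  refine finrank_TS_of_good h ?_
  rw [MvPolynomial.map_id, dG_map]
  exact hd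

theorem self_mem_TS_pt {φ : R →+* ℂ} {E : Set (MvPolynomial (Fin (N + 1)) R)}
    (hom : ∀ F ∈ E, ∃ m, (MvPolynomial.map φ F).IsHomogeneous m)
    {x : EuclideanSpace ℂ (Fin (N + 1))}
    (hx : ∀ F ∈ E, MvPolynomial.eval (fun i => x i) (MvPolynomial.map φ F) = 0) :
    x ∈ TS φ E (fun i => x i) := by
  rintro _ ⟨F, hF, rfl⟩
  obtain ⟨m, hm⟩ := hom F hF
  rw [dE_self hm, hx F hF, mul_zero]

end pt

/-! ### polynomial forms on a family -/

variable {Q : Type uq} [TopologicalSpace Q] {E0 : Type} [NormedAddCommGroup E0]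
  [NormedSpace ℂ E0] {n N : ℕ} {R : Type*} [CommRing R]

/-- polynomial 2-form on the cones of a family -/
structure PolF (F : QFam Q E0 (EuclideanSpace ℂ (Fin (N + 1)))) (n : ℕ) (R : Type*)
    [CommRing R] where
  E : Set (MvPolynomial (Fin (N + 1)) R)
  D : FDat (Fin (N + 1)) R
  ev : Q → (R →+* ℂ)
  evl : Q → E0 → (R →+* ℂ)
  exact : ∀ q, (D.map (ev q)).Exact
  sub : ∀ q0, F.R q0 ⊆ KC (evl q0) E
  an : ∀ q0, ∀ c ∈ (F.e q0).target, ∀ r, AnalyticAt ℂ (fun p => evl q0 p r) c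
  eq : ∀ q0, ∀ q ∈ (F.e q0).source, evl q0 (F.u q) = ev q
  imp : ∀ q, (D.map (ev q)).Imp (MvPolynomial.map (ev q) '' E)
  hom : ∀ q, ∀ G ∈ E, ∃ m, (MvPolynomial.map (ev q) G).IsHomogeneous m
  dim : ∀ q, ∀ w ∈ F.S q, Module.finrank ℂ (TS (ev q) E fun i => w i) ≤ n + 1

namespace PolF

variable {F : QFam Q E0 (EuclideanSpace ℂ (Fin (N + 1)))} (p : PolF F n R)

theorem eq' {q0 : Q} {c : E0} (hc : c ∈ (F.e q0).target) :
    p.evl q0 c = p.ev ((F.e q0).symm c) := by
  have h1 : (F.e q0).symm c ∈ (F.e q0).source := (F.e q0).map_target hc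
  rw [← p.eq q0 _ h1, ← F.coe q0 _ h1, (F.e q0).right_inv hc]

theorem two (q : Q) : 3 ≤ p.D.m := (p.exact q).two

theorem exact_l {q0 : Q} {c : E0} (hc : c ∈ (F.e q0).target) : (p.D.map (p.evl q0 c)).Exact := by
  rw [p.eq' hc]
  exact p.exact _

theorem imp_l {q0 : Q} {c : E0} (hc : c ∈ (F.e q0).target) :
    (p.D.map (p.evl q0 c)).Imp (MvPolynomial.map (p.evl q0 c) '' p.E) := by
  rw [p.eq' hc]
  exact p.imp _

/-- the local polynomial forms -/
def jf (q0 : Q) : JForm (F.R q0) (Fin (N + 1)) :=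
  jfP (ev := p.evl q0) (E := p.E) (p.sub q0) p.D (p.two q0) (fun _ _ h => p.exact_l h.2)
    (fun _ _ h r => p.an q0 _ h.2 r) (fun _ _ h => p.imp_l h.2)


theorem sj_congr' {D : FDat (Fin (N + 1)) R} {ev₁ ev₂ : E0 → (R →+* ℂ)} {c : E0}
    (h : ev₁ c = ev₂ c) (j : Fin (N + 1)) (x : EuclideanSpace ℂ (Fin (N + 1))) :
    sj ev₁ D j (c, x) = sj ev₂ D j (c, x) := by
  unfold sj
  refine Finset.sum_congr rfl fun k _ => Finset.sum_congr rfl fun l _ => ?_
  have h1 : KrB4_871.val ev₁ (D.s j k l) (c, x) = KrB4_871.val ev₂ (D.s j k l) (c, x) := by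
    unfold KrB4_871.val
    rw [h]
  rw [h1]

/-- **the holomorphic form on the family** -/
def qcf : QCF F where
  β q0 := (p.jf q0).cf (F.cn q0)
  compat q0 q hq x v w _ _ := by
    have h1 : p.evl q0 (F.u q) = p.evl q (F.u q) := by
      rw [p.eq q0 q hq, p.eq q q (F.mem q)]
    show (p.jf q0).val (F.u q) x v w = (p.jf q).val (F.u q) x v w
    unfold JForm.val
    have h2 : ∀ j, (p.jf q0).s j (F.u q, x) = (p.jf q).s j (F.u q, x) :=
      fun j => sj_congr' h1 j x
    by_cases h : ∃ j : Fin (N + 1), (p.jf q0).X j x ≠ 0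
    · have h' : ∃ j : Fin (N + 1), (p.jf q).X j x ≠ 0 := h
      rw [dif_pos h, dif_pos h', h2]
      rfl
    · have h' : ¬ ∃ j : Fin (N + 1), (p.jf q).X j x ≠ 0 := h
      rw [dif_neg h, dif_neg h']

variable {V X : Type} [NormedAddCommGroup V] [NormedSpace ℝ V] [TopologicalSpace X]
  {C : RCh V X}

/-- **the value of the form** along the transport of a marking -/
theorem cw_eq (m : Mark F C) {c : E0} (hc : c ∈ Metric.ball (F.u m.q) (F.r m.q)) {i : m.C'.ι}
    {z : V} (hz : z ∈ (m.C'.e i).target) (j : Fin (N + 1)) (v w : V) :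
    p.qcf.cw m i c z v w * m.pf.u i c z j ^ p.D.m =
      (p.D.map (p.evl m.q c)).b j (fun k => m.pf.u i c z k)
        (fun k => fderiv ℝ (m.pf.u i c) z v k) (fun k => fderiv ℝ (m.pf.u i c) z w k) := by
  have h0 := QCF.lift_pf m hc hz
  have hv : ∀ v, Vel (F.R m.q) c (m.pf.u i c z) (fderiv ℝ (m.pf.u i c) z v) := by
    intro v
    have h1 := h0.vel (F.cn m.q) (pf_in m) hc hz v
    rw [QCF.dz_pf m hc hz] at h1
    exact h1
  have hin : (c, m.pf.u i c z) ∈ F.R m.q := pf_in m i c hc z hz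
  have h2 : p.qcf.cw m i c z v w = (p.jf m.q).val c
      (m.pf.u i c z) (fderiv ℝ (m.pf.u i c) z v) (fderiv ℝ (m.pf.u i c) z w) :=
    p.qcf.cw_apply m hc hz v w
  obtain ⟨j0, hj0⟩ := (p.jf m.q).cover c _ hin
  have key : ∀ j, (p.jf m.q).s j (c, m.pf.u i c z) (fderiv ℝ (m.pf.u i c) z v)
      (fderiv ℝ (m.pf.u i c) z w) = (p.D.map (p.evl m.q c)).b j (fun k => m.pf.u i c z k)
        (fun k => fderiv ℝ (m.pf.u i c) z v k) (fun k => fderiv ℝ (m.pf.u i c) z w k) :=
    fun j => sj_apply (ev := p.evl m.q) p.D j (c, m.pf.u i c z) _ _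
  have h3 := (p.jf m.q).agr j0 j c _ hin _ _ (hv v) (hv w)
  rw [key, key] at h3
  rw [h2, JForm.val_eq _ hin hj0 (hv v) (hv w), key]
  have hx : ∀ j, (p.jf m.q).X j (m.pf.u i c z) = m.pf.u i c z j := fun _ => rfl
  have hm : (p.jf m.q).m = p.D.m := rfl
  rw [hx] at hj0
  rw [hx, hx, hm] at h3
  rw [hx, hm]
  have h4 : m.pf.u i c z j0 ^ p.D.m ≠ 0 := pow_ne_zero _ hj0
  field_simp
  linear_combination -h3

/-- the derivative at the base point -/
theorem fderiv_pf (m : Mark F C) {i : m.C'.ι} {z : V} (hz : z ∈ (m.C'.e i).target) :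
    fderiv ℝ (m.pf.u i (F.u m.q)) z = fderiv ℝ (m.P.u i) z := by
  refine Filter.EventuallyEq.fderiv_eq ?_
  filter_upwards [(m.C'.e i).open_target.mem_nhds hz] with y hy
  exact pf_id m hy

/-- the complex value at the marking -/
def val (m : Mark F C) (i : m.C'.ι) (z v w : V) : ℂ := p.qcf.cw m i (F.u m.q) z v w

theorem mem_ball (m : Mark F C) : F.u m.q ∈ Metric.ball (F.u m.q) (F.r m.q) :=
  F.ball_of_mem (F.U_mem m.q)



/-- **the value at the marking** -/
theorem val_eq (m : Mark F C) {i : m.C'.ι} {z : V} (hz : z ∈ (m.C'.e i).target)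
    (j : Fin (N + 1)) (v w : V) :
    p.val m i z v w * m.P.u i z j ^ p.D.m = (p.D.map (p.ev m.q)).b j (fun k => m.P.u i z k)
      (fun k => fderiv ℝ (m.P.u i) z v k) (fun k => fderiv ℝ (m.P.u i) z w k) := by
  have h := p.cw_eq m (mem_ball m) hz j v w
  rw [pf_id m hz, fderiv_pf m hz, p.eq m.q m.q (F.mem m.q)] at h
  exact h

variable [FiniteDimensional ℝ V]

/-- the equations on the embedded manifold -/
theorem eqs (m : Mark F C) {w : EuclideanSpace ℂ (Fin (N + 1))} (hw : w ∈ m.P.cone) :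
    w ≠ 0 ∧ ∀ G ∈ p.E, MvPolynomial.eval (fun i => w i) (MvPolynomial.map (p.ev m.q) G) = 0 := by
  have h1 : (F.u m.q, w) ∈ F.R m.q := (F.R_iff (F.mem m.q) w).mpr ((m.cone w).mp hw)
  have h2 := p.sub m.q h1
  refine ⟨h2.1, fun G hG => ?_⟩
  have h3 := h2.2 G hG
  rw [← p.eq m.q m.q (F.mem m.q)]
  exact h3

theorem fderiv_mem (m : Mark F C) {i : m.C'.ι} {z : V} (hz : z ∈ (m.C'.e i).target) (v : V) :
    fderiv ℝ (m.P.u i) z v ∈ TS (p.ev m.q) p.E (fun k => m.P.u i z k) :=
  tanE_of_vel (ev := fun _ : ℂ => p.ev m.q) (S := KC (fun _ : ℂ => p.ev m.q) p.E) (fun _ h => h)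
    (vel_member m.P hz v fun _ hw => p.eqs m hw)

/-- the tangent space is `image Du + ℂ u` -/
theorem span (hV : Module.finrank ℝ V = 2 * n) (m : Mark F C) {i : m.C'.ι} {z : V}
    (hz : z ∈ (m.C'.e i).target) {t : EuclideanSpace ℂ (Fin (N + 1))}
    (ht : t ∈ TS (p.ev m.q) p.E (fun k => m.P.u i z k)) :
    ∃ (v : V) (a : ℂ), t = fderiv ℝ (m.P.u i) z v + a • m.P.u i z :=
  span_of_dim _ (p.dim m.q _ ((m.cone _).mp (m.P.mem_cone hz))) hV (fderiv ℝ (m.P.u i) z)
    (m.P.ne i z hz) (fun v => p.fderiv_mem m hz v)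
    (self_mem_TS_pt (p.hom m.q) (p.eqs m (m.P.mem_cone hz)).2)
    (fun v hv => m.P.imm i z hz v hv) ht

include p in
/-- **the tangent spaces are complex** -/
theorem cx (hV : Module.finrank ℝ V = 2 * n) (m : Mark F C) : m.P.Cx := fun _ _ hz v =>
  p.span hV m hz ((TS (p.ev m.q) p.E _).smul_mem I (p.fderiv_mem m hz v))





/-! ### the symplectic form on a holomorphic atlas -/

variable {A : Atl n X} {K : ℕ} {m : Mark F C}
  {b : EuclideanSpace ℂ (Fin (N + 1)) ≃L[ℂ] (Fin (K + 1) → ℂ)}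






end PolF

/-! ### sections lifting an embedding -/

section lift

variable {V X : Type} [NormedAddCommGroup V] [NormedSpace ℝ V] [TopologicalSpace X]
  {C' : RCh V X} {A : Atl n X} {P : HEmb C' (EuclideanSpace ℂ (Fin (N + 1)))}
  {U : Fin (N + 1) → Fn A}

/-- `U` are homogeneous coordinates of the embedding `P` in the charts of `A` -/
structure LiftU (P : HEmb C' (EuclideanSpace ℂ (Fin (N + 1)))) (A : Atl n X)
    (U : Fin (N + 1) → Fn A) : Prop where
  hol : ∀ k a, HolAt A a univ (U k a)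
  eq : ∀ a i, ∀ x ∈ (A.e a).source, x ∈ (C'.e i).source → ∃ c : ℂ, c ≠ 0 ∧
    ∀ k, U k a x = c * P.u i (C'.e i x) k







end lift

namespace PolF

variable {F : QFam Q E0 (EuclideanSpace ℂ (Fin (N + 1)))} (p : PolF F n R)
  {V X : Type} [NormedAddCommGroup V] [NormedSpace ℝ V] [TopologicalSpace X]
  {C : RCh V X} [FiniteDimensional ℝ V] {A : Atl n X} {K : ℕ} {m : Mark F C}
  {b : EuclideanSpace ℂ (Fin (N + 1)) ≃L[ℂ] (Fin (K + 1) → ℂ)}


end PolF

end

end Crest.Agent.R281.Ehr12_268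
end

-- ▼ part R281/Ehr13_268

/-!
# R281 (S0424), PER-HOL / G28 (helper268), part 13: the form on the family of a code

* `polP`        : `PolF` over 871's `qfamP`
* `polC`        : `PolF` over 871's `qfamC` (family of a code of 867); `polC_D`
* `liftU_toProj`: the sections of 313's `HolA.toProj` lift the embedding
* `formC_code`  : 989's `FormC (K.mem (M.pt m.q)).D U σ`
* `start_s`     : at the marking of 867's START-CODE the form is the given form
-/

set_option autoImplicit false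
set_option linter.unusedSectionVars false
set_option synthInstance.maxHeartbeats 200000
set_option maxSynthPendingDepth 3

open Set Filter Topology Complex
open scoped ContDiff Matrix

namespace Crest.Agent.R281.Ehr13_268

open Crest.Agent.R275 Crest.Agent.R275.Geo Crest.Agent.R275.Core144 Crest.Agent.R275.GC293
open Crest.Agent.R273.SteinC_794 Crest.Agent.R273.SerA_945 Crest.Agent.R273.Defs_333
open Crest.Agent.R273.Fam_835 Crest.Agent.R281.Defs_273
open Crest.Agent.R281.HkR_835 Crest.Agent.R281.Ehr2_268 Crest.Agent.R281.Dif_268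
open Crest.Agent.R281.Ehr4_268 Crest.Agent.R281.Ehr6_268 Crest.Agent.R281.Ehr8_268
open Crest.Agent.R281.Phl_655 Crest.Agent.R281.AF_867 Crest.Agent.R281.KrB4_871
open Crest.Agent.R281.Kr_488 Crest.Agent.R281.KrB1_871 Crest.Agent.R281.CA_867
open Crest.Agent.R281.QF_871 Crest.Agent.R281.Ehr9_268 Crest.Agent.R281.Ehr10_268
open Crest.Agent.R281.Ehr11_268 Crest.Agent.R281.Pe_313 Crest.Agent.R281.Ehr12_268
open Crest.Agent.R281.Sl_957 Crest.Agent.R281.Am_957

noncomputable section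

universe uq

/-! ### instances -/

section inst

variable {Q : Type uq} [TopologicalSpace Q] {E0 : Type} [NormedAddCommGroup E0]
  [NormedSpace ℂ E0] {n N : ℕ} {R : Type*} [CommRing R]


end inst

section code

variable {k₀ : Type} [Field k₀] [Algebra k₀ ℂ] {n N : ℕ} {K : Code k₀ n N}
  {M : Fmt k₀ (Fin K.k)}

/-- **the form on the family of a code** -/
def polC (h : M.Nice) (hM : ∀ (z : Fin M.m → ℂ) (w : ℂ), M.On z w → K.Good (M.pt z w)) :
    PolF (qfamC K M h hM) n (MvPolynomial (Fin K.k) k₀) where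
  E := range K.Y.G
  D := K.Y.D
  ev := evP M
  evl := evL (isLocalHomeomorph_zc h) (evP M)
  exact q := (hM q.1.1 q.1.2 q.2).mem_ok.exact
  sub _ _ hp := hp.1
  an q0 _ hc r := analyticAt_evL' (isLocalHomeomorph_zc h) (anE_evP h r) q0 hc
  eq q0 _ hq := evL_u (isLocalHomeomorph_zc h) (evP M) q0 hq
  imp q := by
    have h1 : MvPolynomial.map (evP M q) '' range K.Y.G = range (K.mem (M.pt q.1.1 q.1.2)).G :=
      (CDat.range_map K.Y _).symm
    rw [h1]
    exact (hM q.1.1 q.1.2 q.2).mem_ok.imp_id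
  hom q := (okAt (hM q.1.1 q.1.2 q.2)).hom
  dim q w hw := by
    have hw' : w ∈ (pcC K).cone (evP M q) := by
      rw [show (pcC K).cone (evP M q) = K.cone (M.pt q.1.1 q.1.2) from cone_eq K _]
      exact hw
    obtain ⟨a, ha⟩ := (okAt (hM q.1.1 q.1.2 q.2)).cov w hw'.1 hw'.2
    exact finrank_TS_pt ((okAt (hM q.1.1 q.1.2 q.2)).good a) ha

variable (h : M.Nice) (hM : ∀ (z : Fin M.m → ℂ) (w : ℂ), M.On z w → K.Good (M.pt z w))


end code

/-! ### lifting sections -/

section lift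

variable {n N : ℕ} {V X : Type} [NormedAddCommGroup V] [NormedSpace ℝ V] [TopologicalSpace X]
  {C' : RCh V X} {A : Atl n X} {P : HEmb C' (EuclideanSpace ℂ (Fin (N + 1)))}
  {b : EuclideanSpace ℂ (Fin (N + 1)) ≃L[ℂ] (Fin (N + 1) → ℂ)}




end lift

/-! ### the member of a code -/

section member

variable {k₀ : Type} [Field k₀] [Algebra k₀ ℂ] {n N : ℕ} {K : Code k₀ n N}
  {M : Fmt k₀ (Fin K.k)} (h : M.Nice)
  (hM : ∀ (z : Fin M.m → ℂ) (w : ℂ), M.On z w → K.Good (M.pt z w))
  {V X : Type} [NormedAddCommGroup V] [NormedSpace ℝ V] [TopologicalSpace X]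
  {C : RCh V X} [FiniteDimensional ℝ V] {A : Atl n X} {L : ℕ}
  {m : Mark (qfamC K M h hM) C}
  {b : EuclideanSpace ℂ (Fin (N + 1)) ≃L[ℂ] (Fin (L + 1) → ℂ)}


end member

section start

variable {k₀ : Type} [Field k₀] [Algebra k₀ ℂ] {n : ℕ} {X : Type} [TopologicalSpace X]
  {A : Atl n X} {P : ProjD A} {σ : HSymp A} {K : Code k₀ n P.N} {M : Fmt k₀ (Fin K.k)}
  (h : M.Nice) (hM : ∀ (z : Fin M.m → ℂ) (w : ℂ), M.On z w → K.Good (M.pt z w))
  {C : RCh (Cn n) X}



end start

end

end Crest.Agent.R281.Ehr13_268
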