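import Mathlib

-- ▼ part R281/Pun1_924
section

/-! # R281 / PUNCT part 1 (helper924)

Schwarz–Pick in the upper half plane and its consequence at a puncture: if `f` maps the upper half
plane to itself holomorphically and `f (z+1) = g • f z` with `g ∈ SL₂(ℝ)`, then `g` is not
hyperbolic.  Mathlib only. -/

namespace R281.Pun_924

open Complex Set Metric
open scoped ComplexConjugate

/-- the upper half plane as a set of complex numbers -/
def UH : Set ℂ := {z | 0 < z.im}

lemma mem_UH {z : ℂ} : z ∈ UH ↔ 0 < z.im := Iff.rfl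

lemma isOpen_UH : IsOpen UH := isOpen_lt continuous_const Complex.continuous_im


lemma norm_sub_conj_sq (z w : ℂ) : ‖z - conj w‖ ^ 2 = ‖z - w‖ ^ 2 + 4 * (z.im * w.im) := by
  rw [← Complex.normSq_eq_norm_sq, ← Complex.normSq_eq_norm_sq, normSq_apply, normSq_apply]
  simp
  ring

lemma sub_conj_ne {z w : ℂ} (hz : 0 < z.im) (hw : 0 < w.im) : z - conj w ≠ 0 := by
  intro h
  have := congrArg Complex.im h
  simp at this
  linarith

/-- inverse Cayley transform centred at `w` -/
noncomputable def psi (w ζ : ℂ) : ℂ := (w - conj w * ζ) / (1 - ζ)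

lemma im_psi (w : ℂ) {ζ : ℂ} (hζ : ζ ≠ 1) :
    (psi w ζ).im = w.im * (1 - ‖ζ‖ ^ 2) / ‖1 - ζ‖ ^ 2 := by
  have h1 : (1 - ζ) ≠ 0 := sub_ne_zero.mpr (Ne.symm hζ)
  have h2 : ‖1 - ζ‖ ^ 2 ≠ 0 := by positivity
  have h3 : normSq (1 - ζ) = ‖1 - ζ‖ ^ 2 := Complex.normSq_eq_norm_sq _
  have h4 : ‖ζ‖ ^ 2 = ζ.re ^ 2 + ζ.im ^ 2 := by
    rw [← Complex.normSq_eq_norm_sq, normSq_apply]; ring
  rw [psi, Complex.div_im, h3, h4]
  field_simp
  simp
  ring

lemma psi_mem {w : ℂ} (hw : 0 < w.im) {ζ : ℂ} (hζ : ‖ζ‖ < 1) : psi w ζ ∈ UH := by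
  have h1 : ζ ≠ 1 := by rintro rfl; simp at hζ
  have h2 : (1 - ζ) ≠ 0 := sub_ne_zero.mpr (Ne.symm h1)
  rw [mem_UH, im_psi w h1]
  have h3 : ‖ζ‖ ^ 2 < 1 := by
    have := norm_nonneg ζ
    nlinarith
  have h4 : 0 < ‖1 - ζ‖ ^ 2 := by positivity
  apply div_pos (mul_pos hw (by linarith)) h4

lemma psi_phi {z w : ℂ} (hz : 0 < z.im) (hw : 0 < w.im) :
    psi w ((z - w) / (z - conj w)) = z := by
  have h1 := sub_conj_ne hz hw
  have h2 := sub_conj_ne hw hw
  have h3 : (1 : ℂ) - (z - w) / (z - conj w) ≠ 0 := by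
    intro h
    rw [sub_eq_zero, eq_comm, div_eq_one_iff_eq h1] at h
    apply h2
    rw [sub_eq_zero]
    have : w = conj w := by
      have := sub_right_injective h
      exact this
    exact this
  rw [psi, div_eq_iff h3]
  field_simp
  ring

/-- **Schwarz–Pick** in the upper half plane. -/
theorem schwarz_pick {f : ℂ → ℂ} (hd : DifferentiableOn ℂ f UH) (hm : MapsTo f UH UH) {z w : ℂ}
    (hz : 0 < z.im) (hw : 0 < w.im) :
    ‖f z - f w‖ ^ 2 * (z.im * w.im) ≤ ‖z - w‖ ^ 2 * ((f z).im * (f w).im) := by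
  have hfw : 0 < (f w).im := hm hw
  have hfz : 0 < (f z).im := hm hz
  set g : ℂ → ℂ := fun ζ => (f (psi w ζ) - f w) / (f (psi w ζ) - conj (f w)) with hg
  have hpd : DifferentiableOn ℂ (psi w) (ball 0 1) := by
    intro ζ hζ
    have h1 : ζ ≠ 1 := by rintro rfl; simp at hζ
    have h2 : (1 - ζ) ≠ 0 := sub_ne_zero.mpr (Ne.symm h1)
    unfold psi
    apply DifferentiableAt.differentiableWithinAt
    apply DifferentiableAt.div _ _ h2
    · fun_prop
    · fun_prop
  have hpm : MapsTo (psi w) (ball 0 1) UH := fun ζ hζ => psi_mem hw (by simpa using hζ)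
  have hfp : DifferentiableOn ℂ (fun ζ => f (psi w ζ)) (ball 0 1) := hd.comp hpd hpm
  have hgd : DifferentiableOn ℂ g (ball 0 1) := by
    intro ζ hζ
    exact ((hfp ζ hζ).sub_const _).div ((hfp ζ hζ).sub_const _) (sub_conj_ne (hm (hpm hζ)) hfw)
  have key : ∀ u v : ℂ, 0 < u.im → 0 < v.im → ‖u - v‖ ≤ ‖u - conj v‖ := by
    intro u v hu hv
    have h1 := norm_sub_conj_sq u v
    have h2 : ‖u - v‖ ^ 2 ≤ ‖u - conj v‖ ^ 2 := by
      rw [h1]
      have := mul_pos hu hv
      linarith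
    exact (sq_le_sq₀ (norm_nonneg _) (norm_nonneg _)).mp h2
  have hgm : MapsTo g (ball 0 1) (closedBall 0 1) := by
    intro ζ hζ
    have h1 := hm (hpm hζ)
    rw [mem_closedBall_zero_iff, hg]
    simp only [norm_div]
    apply div_le_one_of_le₀ (key _ _ h1 hfw) (norm_nonneg _)
  have hg0 : g 0 = 0 := by simp [hg, psi]
  have hζ : ‖(z - w) / (z - conj w)‖ < 1 := by
    rw [norm_div, div_lt_one (norm_pos_iff.mpr (sub_conj_ne hz hw))]
    have h1 := norm_sub_conj_sq z w
    have h2 : ‖z - w‖ ^ 2 < ‖z - conj w‖ ^ 2 := by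
      rw [h1]
      have := mul_pos hz hw
      linarith
    exact (sq_lt_sq₀ (norm_nonneg _) (norm_nonneg _)).mp h2
  have hS := Complex.norm_le_norm_of_mapsTo_ball hgd hgm hg0 hζ
  have e1 : g ((z - w) / (z - conj w)) = (f z - f w) / (f z - conj (f w)) := by
    simp only [hg, psi_phi hz hw]
  rw [e1, norm_div, norm_div, div_le_div_iff₀ (norm_pos_iff.mpr (sub_conj_ne hfz hfw))
    (norm_pos_iff.mpr (sub_conj_ne hz hw))] at hS
  have hS2 : (‖f z - f w‖ * ‖z - conj w‖) ^ 2 ≤ (‖z - w‖ * ‖f z - conj (f w)‖) ^ 2 := by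
    gcongr
  rw [mul_pow, mul_pow, norm_sub_conj_sq, norm_sub_conj_sq] at hS2
  nlinarith [hS2]

/-- the quadratic form of a matrix: `‖P τ‖² = (…)² + (tr² - 4) (Im τ)²` -/
lemma normSq_fix {a b c d : ℝ} (hdet : a * d - b * c = 1) (τ : ℂ) :
    ‖(c : ℂ) * τ ^ 2 + (d - a) * τ - b‖ ^ 2 =
      (((c : ℂ) * τ ^ 2 + (d - a) * τ - b).re + 2 * c * τ.im ^ 2) ^ 2
        + ((a + d) ^ 2 - 4) * τ.im ^ 2 := by
  rw [← Complex.normSq_eq_norm_sq, normSq_apply]
  simp [pow_two]
  linear_combination (-4 * τ.im ^ 2) * hdet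

lemma denom_ne {c d : ℝ} {a b : ℝ} (hdet : a * d - b * c = 1) {τ : ℂ} (hτ : 0 < τ.im) :
    (c : ℂ) * τ + d ≠ 0 := by
  intro h
  have h1 := congrArg Complex.im h
  have h2 := congrArg Complex.re h
  simp at h1 h2
  rcases h1 with h1 | h1
  · subst h1
    simp at h2
    subst h2
    simp at hdet
  · exact hτ.ne' h1

lemma im_moeb {a b c d : ℝ} (hdet : a * d - b * c = 1) (τ : ℂ) :
    (((a : ℂ) * τ + b) / (c * τ + d)).im = τ.im / ‖(c : ℂ) * τ + d‖ ^ 2 := by
  have h3 : normSq ((c : ℂ) * τ + d) = ‖(c : ℂ) * τ + d‖ ^ 2 := Complex.normSq_eq_norm_sq _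
  rw [Complex.div_im, h3, ← sub_div]
  congr 1
  simp
  linear_combination τ.im * hdet

/-- **No hyperbolic monodromy at a puncture.** -/
theorem tr_sq_le_four {f : ℂ → ℂ} (hd : DifferentiableOn ℂ f UH) (hm : MapsTo f UH UH)
    {a b c d : ℝ} (hdet : a * d - b * c = 1)
    (heq : ∀ z, 0 < z.im → f (z + 1) = (a * f z + b) / (c * f z + d)) :
    (a + d) ^ 2 ≤ 4 := by
  have main : ∀ y : ℝ, 0 < y → ((a + d) ^ 2 - 4) * y ^ 2 ≤ 1 := by
    intro y hy
    set z : ℂ := y * I with hz
    have hzi : z.im = y := by simp [hz]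
    have hz0 : 0 < z.im := by rw [hzi]; exact hy
    have hz1 : 0 < (z + 1).im := by simp [hzi, hy]
    have hzi1 : (z + 1).im = y := by simp [hzi]
    set τ := f z with hτ
    have hτ0 : 0 < τ.im := hm hz0
    have h1 := schwarz_pick hd hm hz1 hz0
    rw [heq z hz0, ← hτ, im_moeb hdet τ, hzi1, hzi] at h1
    have hne := denom_ne hdet hτ0
    have h2 : ((a : ℂ) * τ + b) / (c * τ + d) - τ
        = - ((c : ℂ) * τ ^ 2 + (d - a) * τ - b) / (c * τ + d) := by
      rw [eq_div_iff hne, sub_mul, div_mul_cancel₀ _ hne]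
      ring
    have hpos : 0 < ‖(c : ℂ) * τ + d‖ ^ 2 := by positivity
    rw [h2, norm_div, norm_neg, div_pow, normSq_fix hdet] at h1
    have h3 : z + 1 - z = 1 := by ring
    rw [h3, norm_one, one_pow, one_mul] at h1
    have h4 : (((((c : ℂ) * τ ^ 2 + (d - a) * τ - b).re + 2 * c * τ.im ^ 2) ^ 2
        + ((a + d) ^ 2 - 4) * τ.im ^ 2)) * (y * y) ≤ τ.im * τ.im := by
      have h5 := mul_le_mul_of_nonneg_right h1 hpos.le
      have h6 : ∀ A B C D : ℝ, D ≠ 0 → A / D * B * D = A * B := by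
        intro A B C D hD
        field_simp
      have h7 : τ.im / ‖(c : ℂ) * τ + d‖ ^ 2 * τ.im * ‖(c : ℂ) * τ + d‖ ^ 2 = τ.im * τ.im := by
        field_simp
      rw [h7] at h5
      rw [h6 _ _ 0 _ hpos.ne'] at h5
      exact h5
    have h8 : ((a + d) ^ 2 - 4) * y ^ 2 * (τ.im * τ.im) ≤ 1 * (τ.im * τ.im) := by
      nlinarith [h4, sq_nonneg ((((c : ℂ) * τ ^ 2 + (d - a) * τ - b).re + 2 * c * τ.im ^ 2) * y)]
    exact le_of_mul_le_mul_right h8 (mul_pos hτ0 hτ0)
  by_contra hcon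
  push Not at hcon
  have hk : 0 < (a + d) ^ 2 - 4 := by linarith
  have hy : 0 < 1 + 1 / ((a + d) ^ 2 - 4) := by positivity
  have h := main _ hy
  have h2 : ((a + d) ^ 2 - 4) * (1 + 1 / ((a + d) ^ 2 - 4)) ^ 2
      = ((a + d) ^ 2 - 4) + 2 + 1 / ((a + d) ^ 2 - 4) := by
    field_simp
    ring
  rw [h2] at h
  have : 0 < 1 / ((a + d) ^ 2 - 4) := by positivity
  linarith

end R281.Pun_924
end

-- ▼ part R281/Pun2_924
section

/-! # R281 / PUNCT part 2 (helper924)

Removable singularities at a puncture.  `f : UH → UH` holomorphic with `f (z+1) = f z + w`, `w`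
real: then `w ≥ 0` and `f z = w z + h (exp (2πiz))` with `h` holomorphic on the unit disc; if
`w = 0`, then `h` takes values in the upper half plane (also at `0`).  Mathlib only. -/

namespace R281.Pun_924

open Complex Set Metric Filter Function.Periodic
open scoped ComplexConjugate Topology Real

lemma qParam_one (z : ℂ) : qParam 1 z = Complex.exp (2 * π * I * z) := by
  simp [qParam]

lemma qParam_one_add (z : ℂ) : qParam 1 (z + 1) = qParam 1 z := by
  rw [qParam_one, qParam_one, mul_add, Complex.exp_add, mul_one, Complex.exp_two_pi_mul_I, mul_one]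

lemma invQ_mem {q : ℂ} (hq : q ≠ 0) (hq1 : ‖q‖ < 1) : 0 < (invQParam 1 q).im := by
  rw [im_invQParam]
  have h1 : Real.log ‖q‖ < 0 := Real.log_neg (norm_pos_iff.mpr hq) hq1
  have h2 : (-1 / (2 * π)) < 0 := by
    apply div_neg_of_neg_of_pos (by norm_num) (by positivity)
  exact mul_pos_of_neg_of_neg h2 h1


lemma qParam_inv {q : ℂ} (hq : q ≠ 0) : qParam 1 (invQParam 1 q) = q :=
  qParam_right_inv one_ne_zero hq

lemma qParam_one_ne (z : ℂ) : qParam 1 z ≠ 0 := qParam_ne_zero z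

/-- extension of a function on `UH` by zero -/
noncomputable def ext0 (f : ℂ → ℂ) : ℂ → ℂ := by
  classical exact fun z => if 0 < z.im then f z else 0

lemma ext0_of {f : ℂ → ℂ} {z : ℂ} (hz : 0 < z.im) : ext0 f z = f z := by
  simp [ext0, hz]

lemma ext0_periodic {f : ℂ → ℂ} (h : ∀ z, 0 < z.im → f (z + 1) = f z) :
    Function.Periodic (ext0 f) ((1 : ℝ) : ℂ) := by
  intro z
  have e : (z + ((1 : ℝ) : ℂ)).im = z.im := by simp
  by_cases hz : 0 < z.im
  · rw [ext0_of hz, ext0_of (by rw [e]; exact hz), Complex.ofReal_one, h z hz]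
  · have hz' : ¬ 0 < (z + ((1 : ℝ) : ℂ)).im := by rw [e]; exact hz
    simp only [ext0, hz, hz', if_false]

lemma ext0_diff {f : ℂ → ℂ} (hd : DifferentiableOn ℂ f UH) {z : ℂ} (hz : 0 < z.im) :
    DifferentiableAt ℂ (ext0 f) z := by
  have h1 : DifferentiableAt ℂ f z := (hd z hz).differentiableAt (isOpen_UH.mem_nhds hz)
  apply h1.congr_of_eventuallyEq
  filter_upwards [isOpen_UH.mem_nhds (show z ∈ UH from hz)] with u hu
  exact ext0_of hu

lemma eventually_I {P : ℂ → Prop} (h : ∀ᶠ z in comap im atTop, P z) :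
    ∃ R : ℝ, 0 < R ∧ ∀ z : ℂ, R < z.im → P z := by
  rw [Filter.eventually_comap] at h
  obtain ⟨R, hR⟩ := Filter.eventually_atTop.mp h
  exact ⟨max R 1, by positivity, fun z hz => hR z.im (le_of_lt (lt_of_le_of_lt (le_max_left _ _) hz)) z rfl⟩

lemma eventually_I' {P : ℂ → Prop} (R : ℝ) (h : ∀ z : ℂ, R < z.im → P z) :
    ∀ᶠ z in comap im atTop, P z := by
  rw [Filter.eventually_comap]
  filter_upwards [Filter.eventually_gt_atTop R] with a ha z hz
  exact h z (by rw [hz]; exact ha)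

lemma cusp_diff {f : ℂ → ℂ} (hd : DifferentiableOn ℂ f UH)
    (hp : ∀ z, 0 < z.im → f (z + 1) = f z) {q : ℂ} (hq : q ≠ 0) (hq1 : ‖q‖ < 1) :
    DifferentiableAt ℂ (cuspFunction 1 (ext0 f)) q := by
  have h1 := differentiableAt_cuspFunction (h := 1) one_ne_zero (ext0_periodic hp)
    (ext0_diff hd (invQ_mem hq hq1))
  rwa [qParam_inv hq] at h1

lemma cusp_diff_zero {f : ℂ → ℂ} (hd : DifferentiableOn ℂ f UH)
    (hp : ∀ z, 0 < z.im → f (z + 1) = f z) (hb : BoundedAtFilter (comap im atTop) (ext0 f)) :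
    DifferentiableAt ℂ (cuspFunction 1 (ext0 f)) 0 := by
  refine differentiableAt_cuspFunction_zero (h := 1) one_pos (ext0_periodic hp) ?_ hb
  exact eventually_I' 0 (fun z hz => ext0_diff hd hz)

lemma cusp_apply {f : ℂ → ℂ} (hp : ∀ z, 0 < z.im → f (z + 1) = f z) {z : ℂ} (hz : 0 < z.im) :
    cuspFunction 1 (ext0 f) (qParam 1 z) = f z := by
  rw [eq_cuspFunction (h := 1) one_ne_zero (ext0_periodic hp), ext0_of hz]

lemma cusp_apply' {f : ℂ → ℂ} {q : ℂ} (hq : q ≠ 0) (hq1 : ‖q‖ < 1) :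
    cuspFunction 1 (ext0 f) q = f (invQParam 1 q) := by
  rw [cuspFunction_eq_of_nonzero _ _ hq, ext0_of (invQ_mem hq hq1)]

/-- A holomorphic function with `exp (2πi N) = 1` on a convex open set is constant. -/
lemma const_of_exp {N : ℂ → ℂ} {S : Set ℂ} (hS : IsOpen S) (hc : IsPreconnected S)
    (hN : DifferentiableOn ℂ N S) (h1 : ∀ z ∈ S, Complex.exp (2 * π * I * N z) = 1) :
    ∃ c, ∀ z ∈ S, N z = c := by
  apply hS.exists_is_const_of_deriv_eq_zero hc hN
  intro z hz
  have hd : HasDerivAt N (deriv N z) z := ((hN z hz).differentiableAt (hS.mem_nhds hz)).hasDerivAt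
  have h2 : HasDerivAt (fun z => Complex.exp (2 * π * I * N z))
      (Complex.exp (2 * π * I * N z) * (2 * π * I * deriv N z)) z := (hd.const_mul _).cexp
  have h3 : (fun z => Complex.exp (2 * π * I * N z)) =ᶠ[𝓝 z] fun _ => (1 : ℂ) := by
    filter_upwards [hS.mem_nhds hz] with u hu
    exact h1 u hu
  have h4 := (h2.congr_of_eventuallyEq h3.symm).unique (hasDerivAt_const z (1 : ℂ))
  rw [h1 z hz, one_mul] at h4
  have h5 : (2 * π * I : ℂ) ≠ 0 := Complex.two_pi_I_ne_zero
  exact (mul_eq_zero.mp h4).resolve_left h5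

/-- **Asymptotic form** of a period map with unipotent monodromy. -/
theorem asymptotic {f : ℂ → ℂ} (hd : DifferentiableOn ℂ f UH) (hm : MapsTo f UH UH)
    {v : ℝ} (hv : 0 < v) {k' : ℤ} (heq : ∀ z, 0 < z.im → f (z + 1) = f z + ((k' * v : ℝ) : ℂ)) :
    ∃ (k : ℕ) (L : ℂ → ℂ) (R : ℝ), (k : ℤ) = k' ∧ AnalyticAt ℂ L 0 ∧ 0 < R ∧
      ∀ z : ℂ, R < z.im → f z = ((k' * v : ℝ) : ℂ) * z + L (qParam 1 z) := by
  have hvC : (v : ℂ) ≠ 0 := by exact_mod_cast hv.ne'
  have h2pi : (2 * π * I : ℂ) ≠ 0 := Complex.two_pi_I_ne_zero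
  set Q : ℂ → ℂ := fun z => Complex.exp (2 * π * I * (f z / v)) with hQ
  have hQd : DifferentiableOn ℂ Q UH := ((hd.div_const _).const_mul _).cexp
  have hQp : ∀ z, 0 < z.im → Q (z + 1) = Q z := by
    intro z hz
    simp only [hQ]
    rw [heq z hz, add_div, mul_add, Complex.exp_add]
    have : (2 * π * I * (((k' * v : ℝ) : ℂ) / v)) = k' * (2 * π * I) := by
      push_cast
      field_simp
    rw [this, Complex.exp_int_mul_two_pi_mul_I, mul_one]
  have hQn : ∀ z, 0 < z.im → ‖Q z‖ ≤ 1 := by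
    intro z hz
    simp only [hQ]
    rw [Complex.norm_exp]
    have h1 : (2 * π * I * (f z / v)).re = - (2 * π * ((f z).im / v)) := by
      have : (f z / v : ℂ).im = (f z).im / v := Complex.div_ofReal_im _ _
      simp [this]
    rw [h1, Real.exp_le_one_iff]
    have : 0 < (f z).im := hm hz
    have : 0 < 2 * π * ((f z).im / v) := by positivity
    linarith
  have hQb : BoundedAtFilter (comap im atTop) (ext0 Q) := by
    refine Asymptotics.IsBigO.of_bound 1 ?_
    refine Filter.Eventually.of_forall fun z => ?_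
    by_cases hz : 0 < z.im
    · rw [ext0_of hz]; simpa using hQn z hz
    · simp [ext0, hz]
  set Qh := cuspFunction 1 (ext0 Q) with hQh
  have hQ0 : DifferentiableAt ℂ Qh 0 := cusp_diff_zero hQd hQp hQb
  have hQD : DifferentiableOn ℂ Qh (ball 0 1) := by
    intro q hq
    rw [mem_ball_zero_iff] at hq
    by_cases h0 : q = 0
    · rw [h0]; exact hQ0.differentiableWithinAt
    · exact (cusp_diff hQd hQp h0 hq).differentiableWithinAt
  have hQA : AnalyticAt ℂ Qh 0 := hQD.analyticAt (ball_mem_nhds _ one_pos)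
  have hnz : ¬ ∀ᶠ q in 𝓝 (0 : ℂ), Qh q = 0 := by
    intro h
    have h1 : ∀ᶠ q in 𝓝[≠] (0 : ℂ), Qh q = 0 ∧ ‖q‖ < 1 ∧ q ≠ 0 := by
      have h2 : ∀ᶠ q in 𝓝 (0 : ℂ), ‖q‖ < 1 := by
        filter_upwards [ball_mem_nhds (0 : ℂ) one_pos] with q hq
        simpa using hq
      filter_upwards [h.filter_mono nhdsWithin_le_nhds, h2.filter_mono nhdsWithin_le_nhds,
        self_mem_nhdsWithin] with q h1 h2 h3
      exact ⟨h1, h2, h3⟩
    obtain ⟨q, h2, h3, h4⟩ := h1.exists
    rw [hQh, cusp_apply' h4 h3] at h2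
    exact Complex.exp_ne_zero _ h2
  obtain ⟨k, u, huA, hu0, hku⟩ := hQA.exists_eventuallyEq_pow_smul_nonzero_iff.mpr hnz
  simp only [sub_zero, smul_eq_mul] at hku
  -- local logarithm of `u`
  set L0 : ℂ → ℂ := fun q => (v / (2 * π * I)) * (Complex.log (u q / u 0) + Complex.log (u 0))
    with hL0
  have hslit : u 0 / u 0 ∈ Complex.slitPlane := by
    rw [div_self hu0]; exact Complex.one_mem_slitPlane
  have huA' : AnalyticAt ℂ (fun q => u q / u 0) 0 := huA.div analyticAt_const hu0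
  have hL0A : AnalyticAt ℂ L0 0 :=
    analyticAt_const.mul ((huA'.clog hslit).add analyticAt_const)
  have hev : ∀ᶠ q in 𝓝[≠] (0 : ℂ), Qh q = q ^ k * u q ∧ DifferentiableAt ℂ L0 q ∧ u q ≠ 0 := by
    have h1 : ∀ᶠ q in 𝓝 (0 : ℂ), DifferentiableAt ℂ L0 q :=
      hL0A.eventually_analyticAt.mono fun q hq => hq.differentiableAt
    have h2 : ∀ᶠ q in 𝓝 (0 : ℂ), u q ≠ 0 := huA.continuousAt.eventually_ne hu0
    exact ((hku.and (h1.and h2))).filter_mono nhdsWithin_le_nhds
  obtain ⟨R, hR, hRP⟩ := eventually_I ((qParam_tendsto (h := 1) one_pos).eventually hev)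
  have hexpL : ∀ z : ℂ, R < z.im →
      Complex.exp (2 * π * I * (L0 (qParam 1 z) / v)) = u (qParam 1 z) := by
    intro z hz
    obtain ⟨-, -, h3⟩ := hRP z hz
    have h4 : 2 * π * I * (L0 (qParam 1 z) / v)
        = Complex.log (u (qParam 1 z) / u 0) + Complex.log (u 0) := by
      simp only [hL0]
      have hpi : (π : ℂ) ≠ 0 := by exact_mod_cast Real.pi_ne_zero
      have hI := Complex.I_ne_zero
      field_simp
    rw [h4, Complex.exp_add, Complex.exp_log (div_ne_zero h3 hu0), Complex.exp_log hu0,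
      div_mul_cancel₀ _ hu0]
  set S : Set ℂ := {z | R < z.im} with hS
  have hSo : IsOpen S := isOpen_lt continuous_const Complex.continuous_im
  have hSc : IsPreconnected S := (convex_halfSpace_im_gt R).isPreconnected
  have hSU : S ⊆ UH := fun z hz => lt_trans hR hz
  set N : ℂ → ℂ := fun z => (f z - k * v * z - L0 (qParam 1 z)) / v with hN
  have hNd : DifferentiableOn ℂ N S := by
    intro z hz
    have h1 : DifferentiableAt ℂ f z :=
      (hd z (hSU hz)).differentiableAt (isOpen_UH.mem_nhds (hSU hz))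
    have h2 : DifferentiableAt ℂ (fun z => L0 (qParam 1 z)) z :=
      DifferentiableAt.comp (g := L0) (f := qParam 1) z (hRP z hz).2.1 (differentiable_qParam z)
    have h3 : DifferentiableAt ℂ (fun z : ℂ => (k : ℂ) * v * z) z := by fun_prop
    exact (((h1.sub h3).sub h2).div_const _).differentiableWithinAt
  have hN1 : ∀ z ∈ S, Complex.exp (2 * π * I * N z) = 1 := by
    intro z hz
    have h1 : 2 * π * I * N z = 2 * π * I * (f z / v) - k * (2 * π * I * z)
        - 2 * π * I * (L0 (qParam 1 z) / v) := by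
      simp only [hN]
      field_simp
    rw [h1, Complex.exp_sub, Complex.exp_sub, hexpL z hz, Complex.exp_nat_mul, ← qParam_one z]
    have h2 : Complex.exp (2 * π * I * (f z / v)) = qParam 1 z ^ k * u (qParam 1 z) := by
      have h3 := (hRP z hz).1
      rw [hQh, cusp_apply hQp (hSU hz)] at h3
      exact h3
    rw [h2]
    have h4 := (hRP z hz).2.2
    have h5 := pow_ne_zero k (qParam_one_ne z)
    field_simp
  obtain ⟨c, hc⟩ := const_of_exp hSo hSc hNd hN1
  have hfz : ∀ z ∈ S, f z = k * v * z + (L0 (qParam 1 z) + c * v) := by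
    intro z hz
    have h1 := hc z hz
    simp only [hN] at h1
    rw [div_eq_iff hvC] at h1
    linear_combination h1
  have hkk : ((k : ℤ) : ℂ) = (k' : ℂ) := by
    set z : ℂ := ((R + 1 : ℝ) : ℂ) * I with hz
    have hzi : z.im = R + 1 := by simp [hz]
    have hz1 : z ∈ S := by
      show R < z.im
      rw [hzi]; linarith
    have hz2 : z + 1 ∈ S := by
      show R < (z + 1).im
      simp only [Complex.add_im, Complex.one_im, add_zero]; rw [hzi]; linarith
    have h1 := hfz z hz1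
    have h2 := hfz (z + 1) hz2
    rw [heq z (hSU hz1), qParam_one_add, h1] at h2
    have h3 : ((k' : ℂ) - k) * v = 0 := by
      push_cast at h2
      linear_combination h2
    rcases mul_eq_zero.mp h3 with h | h
    · push_cast
      linear_combination - h
    · exact absurd h hvC
  have hkk' : (k : ℤ) = k' := by exact_mod_cast hkk
  refine ⟨k, fun q => L0 q + c * v, R, hkk', hL0A.add analyticAt_const, hR, ?_⟩
  intro z hz
  rw [hfz z hz]
  have : (k : ℂ) = (k' : ℂ) := by exact_mod_cast hkk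
  rw [this]
  push_cast
  ring

/-- **Puncture, unipotent case.** -/
theorem unipotent {f : ℂ → ℂ} (hd : DifferentiableOn ℂ f UH) (hm : MapsTo f UH UH)
    {v : ℝ} (hv : 0 < v) {k' : ℤ} (heq : ∀ z, 0 < z.im → f (z + 1) = f z + ((k' * v : ℝ) : ℂ)) :
    0 ≤ k' ∧ ∃ h : ℂ → ℂ, DifferentiableOn ℂ h (ball 0 1) ∧
      (∀ z : ℂ, 0 < z.im → f z = ((k' * v : ℝ) : ℂ) * z + h (qParam 1 z)) ∧
      (∀ q : ℂ, q ≠ 0 → ‖q‖ < 1 →
        h q = f (invQParam 1 q) - ((k' * v : ℝ) : ℂ) * invQParam 1 q) := by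
  obtain ⟨k, L, R, hk, hLA, hR, hL⟩ := asymptotic hd hm hv heq
  refine ⟨by omega, ?_⟩
  set w : ℂ := ((k' * v : ℝ) : ℂ) with hw
  set F : ℂ → ℂ := fun z => f z - w * z with hF
  have hFd : DifferentiableOn ℂ F UH :=
    hd.sub ((differentiable_const _).mul differentiable_id).differentiableOn
  have hFp : ∀ z, 0 < z.im → F (z + 1) = F z := by
    intro z hz
    simp only [hF, heq z hz]
    ring
  have hFb : BoundedAtFilter (comap im atTop) (ext0 F) := by
    have h1 : Tendsto (fun z => L (qParam 1 z)) (comap im atTop) (𝓝 (L 0)) := by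
      have h2 : Tendsto L (𝓝[≠] 0) (𝓝 (L 0)) :=
        hLA.continuousAt.tendsto.mono_left nhdsWithin_le_nhds
      exact h2.comp (qParam_tendsto (h := 1) one_pos)
    have h3 : Tendsto (ext0 F) (comap im atTop) (𝓝 (L 0)) := by
      refine h1.congr' ?_
      refine eventually_I' R fun z hz => ?_
      rw [ext0_of (lt_trans hR hz)]
      simp only [hF]
      rw [hL z hz]
      ring
    exact h3.isBigO_one ℝ
  refine ⟨cuspFunction 1 (ext0 F), ?_, ?_, ?_⟩
  · intro q hq
    rw [mem_ball_zero_iff] at hq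
    by_cases h0 : q = 0
    · rw [h0]; exact (cusp_diff_zero hFd hFp hFb).differentiableWithinAt
    · exact (cusp_diff hFd hFp h0 hq).differentiableWithinAt
  · intro z hz
    rw [cusp_apply hFp hz]
    simp only [hF]
    ring
  · intro q hq hq1
    rw [cusp_apply' hq hq1]

/-- **(S2)** trivial monodromy: the period map extends to the puncture, with a value in the open
upper half plane. -/
theorem periodic_case {f : ℂ → ℂ} (hd : DifferentiableOn ℂ f UH) (hm : MapsTo f UH UH)
    (heq : ∀ z, 0 < z.im → f (z + 1) = f z) :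
    ∃ h : ℂ → ℂ, DifferentiableOn ℂ h (ball 0 1) ∧ MapsTo h (ball 0 1) UH ∧
      ∀ z : ℂ, 0 < z.im → f z = h (Complex.exp (2 * π * I * z)) := by
  obtain ⟨-, h, hh, h1, h2⟩ := unipotent (k' := 0) hd hm one_pos (fun z hz => by simp [heq z hz])
  simp only [Int.cast_zero, zero_mul, Complex.ofReal_zero, zero_add, sub_zero] at h1 h2
  have hpos : ∀ q : ℂ, q ≠ 0 → ‖q‖ < 1 → 0 < (h q).im := fun q hq hq1 => by
    rw [h2 q hq hq1]; exact hm (invQ_mem hq hq1)
  have hdiff0 : ∀ᶠ q in 𝓝 (0 : ℂ), DifferentiableAt ℂ h q := by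
    filter_upwards [ball_mem_nhds (0 : ℂ) one_pos] with q hq
    exact (hh q hq).differentiableAt (isOpen_ball.mem_nhds hq)
  have hc0 : ContinuousAt h 0 := hdiff0.self_of_nhds.continuousAt
  have hev1 : ∀ᶠ q in 𝓝[≠] (0 : ℂ), 0 < (h q).im := by
    have : ∀ᶠ q in 𝓝 (0 : ℂ), ‖q‖ < 1 := by
      filter_upwards [ball_mem_nhds (0 : ℂ) one_pos] with q hq
      simpa using hq
    filter_upwards [this.filter_mono nhdsWithin_le_nhds, self_mem_nhdsWithin] with q h1 h2
    exact hpos q h2 h1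
  have h0 : 0 ≤ (h 0).im := by
    have ht : Tendsto (fun q => (h q).im) (𝓝[≠] 0) (𝓝 (h 0).im) :=
      (Complex.continuous_im.continuousAt.comp hc0).tendsto.mono_left nhdsWithin_le_nhds
    exact ge_of_tendsto ht (hev1.mono fun q hq => hq.le)
  have h0' : 0 < (h 0).im := by
    rcases h0.lt_or_eq with hlt | heq0
    · exact hlt
    · exfalso
      set E : ℂ → ℂ := fun q => Complex.exp (I * h q) with hE
      have hEn : ∀ q, ‖E q‖ = Real.exp (-(h q).im) := by
        intro q
        simp only [hE]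
        rw [Complex.norm_exp]
        simp
      have hmax : IsLocalMax (norm ∘ E) 0 := by
        filter_upwards [ball_mem_nhds (0 : ℂ) one_pos] with q hq
        rw [mem_ball_zero_iff] at hq
        simp only [Function.comp_apply, hEn, ← heq0, neg_zero, Real.exp_zero, Real.exp_le_one_iff]
        by_cases hq0 : q = 0
        · rw [hq0, ← heq0]; simp
        · have := hpos q hq0 hq
          linarith
      have hEd : ∀ᶠ q in 𝓝 (0 : ℂ), DifferentiableAt ℂ E q := by
        filter_upwards [hdiff0] with q hq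
        exact (hq.const_mul _).cexp
      have hloc := Complex.norm_eventually_eq_of_isLocalMax hEd hmax
      obtain ⟨q, h3, h4⟩ := ((hloc.filter_mono nhdsWithin_le_nhds).and hev1).exists
      rw [hEn, hEn, Real.exp_eq_exp, ← heq0] at h3
      linarith
  refine ⟨h, hh, ?_, fun z hz => by rw [h1 z hz, qParam_one]⟩
  intro q hq
  rw [mem_ball_zero_iff] at hq
  by_cases hq0 : q = 0
  · rw [hq0]; exact h0'
  · exact hpos q hq0 hq

/-- **(S3)** parabolic monodromy. -/
theorem parabolic_case {f : ℂ → ℂ} (hd : DifferentiableOn ℂ f UH) (hm : MapsTo f UH UH)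
    {w : ℝ} (hw : w ≠ 0) (heq : ∀ z, 0 < z.im → f (z + 1) = f z + w) :
    0 < w ∧ ∃ h : ℂ → ℂ, DifferentiableOn ℂ h (ball 0 1) ∧
      ∀ z : ℂ, 0 < z.im → f z = w * z + h (Complex.exp (2 * π * I * z)) := by
  rcases lt_or_gt_of_ne hw with hneg | hpos
  · exfalso
    have h1 := unipotent (k' := -1) (v := -w) hd hm (by linarith) (fun z hz => by
      rw [heq z hz]; push_cast; ring)
    have := h1.1
    omega
  · obtain ⟨-, h, hh, h1, -⟩ := unipotent (k' := 1) (v := w) hd hm hpos (fun z hz => by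
      rw [heq z hz]; push_cast; ring)
    refine ⟨hpos, h, hh, fun z hz => ?_⟩
    rw [h1 z hz, qParam_one]
    push_cast
    ring

end R281.Pun_924
end

-- ▼ part R281/Pun3_924

/-! # R281 / PUNCT part 3 (helper924)

The full puncture theorem (S4): `f : UH → UH` holomorphic, `f (z+1) = g • f z`, `g ∈ SL₂(ℝ)`, such
that some power of `g` is trivial if `g` is elliptic.  Then either `f z = h (exp (2πiz/m))` with
`h : ball → UH` holomorphic (finite order), or, for a real Moebius transformation `κ`,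
`κ (f z) = r z + h (exp (2πiz))` with `r > 0` and `h` holomorphic on the unit disc (parabolic).
Mathlib only. -/

namespace R281.Pun_924

open Complex Set Metric Filter Function.Periodic
open scoped ComplexConjugate Topology Real

/-- real Moebius transformation with matrix `(a b; c d)` -/
noncomputable def mob (a b c d : ℝ) (τ : ℂ) : ℂ := ((a : ℂ) * τ + b) / (c * τ + d)

lemma mob_im {a b c d : ℝ} (hdet : a * d - b * c = 1) (τ : ℂ) :
    (mob a b c d τ).im = τ.im / ‖(c : ℂ) * τ + d‖ ^ 2 := im_moeb hdet τ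

lemma mob_mem {a b c d : ℝ} (hdet : a * d - b * c = 1) {τ : ℂ} (hτ : 0 < τ.im) :
    0 < (mob a b c d τ).im := by
  rw [mob_im hdet]
  have := denom_ne hdet hτ
  positivity

lemma mob_mob {a b c d a' b' c' d' : ℝ} (hdet : a * d - b * c = 1) (hdet' : a' * d' - b' * c' = 1)
    {τ : ℂ} (hτ : 0 < τ.im) :
    mob a b c d (mob a' b' c' d' τ) =
      mob (a * a' + b * c') (a * b' + b * d') (c * a' + d * c') (c * b' + d * d') τ := by
  have h1 := denom_ne hdet' hτ
  have h2 := denom_ne hdet (mob_mem hdet' hτ)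
  have hdet2 : (a * a' + b * c') * (c * b' + d * d') - (a * b' + b * d') * (c * a' + d * c') = 1 := by
    linear_combination (a' * d' - b' * c') * hdet + hdet'
  have h3 := denom_ne hdet2 hτ
  unfold mob at h2 ⊢
  have h4 : (c : ℂ) * (((a' : ℂ) * τ + b') / (c' * τ + d')) + d
      = (((c * a' + d * c' : ℝ) : ℂ) * τ + ((c * b' + d * d' : ℝ) : ℂ)) / (c' * τ + d') := by
    rw [eq_div_iff h1, add_mul, mul_assoc, div_mul_cancel₀ _ h1]
    push_cast
    ring
  have h5 : (a : ℂ) * (((a' : ℂ) * τ + b') / (c' * τ + d')) + b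
      = (((a * a' + b * c' : ℝ) : ℂ) * τ + ((a * b' + b * d' : ℝ) : ℂ)) / (c' * τ + d') := by
    rw [eq_div_iff h1, add_mul, mul_assoc, div_mul_cancel₀ _ h1]
    push_cast
    ring
  rw [h4, h5]
  rw [div_div_div_cancel_right₀ h1]

lemma mob_diff {f : ℂ → ℂ} (hd : DifferentiableOn ℂ f UH) (hm : MapsTo f UH UH)
    {a b c d : ℝ} (hdet : a * d - b * c = 1) :
    DifferentiableOn ℂ (fun z => mob a b c d (f z)) UH := by
  intro z hz
  unfold mob
  exact (((hd z hz).const_mul _).add_const _).div (((hd z hz).const_mul _).add_const _)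
    (denom_ne hdet (hm hz))

/-- a parabolic transformation in its normal form -/
lemma parabolic_normal {a b c d : ℝ} (hdet : a * d - b * c = 1) (htr : (a + d) ^ 2 = 4)
    (hc : c ≠ 0) {τ : ℂ} (hτ : 0 < τ.im) :
    mob 0 (-1) 1 (-((a - d) / (2 * c))) (mob a b c d τ)
      = mob 0 (-1) 1 (-((a - d) / (2 * c))) τ + ((-((a + d) / 2 * c) : ℝ) : ℂ) := by
  set x : ℝ := (a - d) / (2 * c) with hx
  set ε : ℝ := (a + d) / 2 with hε
  have hε2 : ε ^ 2 = 1 := by rw [hε]; linear_combination htr / 4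
  have hcx : c * x + d = ε := by rw [hx, hε]; field_simp; ring
  have hax : a = c * x + ε := by rw [hx, hε]; field_simp; ring
  have hd' : d = ε - c * x := by linarith
  have hb : b = -(c * x ^ 2) := by
    have : b * c = -(c * x ^ 2) * c := by
      have h0 : b * c = a * d - 1 := by linarith
      rw [h0, hax, hd']
      linear_combination hε2
    exact mul_right_cancel₀ hc this
  have h1 := denom_ne hdet hτ
  have hdk : (0 : ℝ) * (-x) - (-1) * 1 = 1 := by norm_num
  have h2 := denom_ne hdk hτ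
  have h3 := denom_ne hdk (mob_mem hdet hτ)
  have hcC : (c : ℂ) ≠ 0 := by exact_mod_cast hc
  have hεC : (ε : ℂ) ^ 2 = 1 := by exact_mod_cast hε2
  have hε0 : (ε : ℂ) ≠ 0 := by
    intro h; rw [h] at hεC; norm_num at hεC
  have h4 : mob a b c d τ - x = ε * (τ - x) / (c * τ + d) := by
    unfold mob
    rw [eq_div_iff h1, sub_mul, div_mul_cancel₀ _ h1, hb, hax, hd']
    push_cast
    ring
  have h2' : τ - x ≠ 0 := by
    intro h
    apply h2
    push_cast
    linear_combination h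
  have e1 : ∀ u : ℂ, mob 0 (-1) 1 (-x) u = -1 / (u - x) := by
    intro u
    unfold mob
    push_cast
    ring_nf
  rw [e1, e1, h4, hd']
  have h5 : (c : ℂ) * τ + ((ε - c * x : ℝ) : ℂ) ≠ 0 := by rw [← hd']; exact h1
  push_cast at h5 ⊢
  field_simp
  linear_combination ((c : ℂ) * (τ - x)) * hεC

/-- iterated `(S2)`: a period map which is `m`-periodic extends to the `m`-fold cover. -/
theorem finite_case {f : ℂ → ℂ} (hd : DifferentiableOn ℂ f UH) (hm : MapsTo f UH UH)
    {m : ℕ} (hm0 : 0 < m) (heq : ∀ z, 0 < z.im → f (z + m) = f z) :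
    ∃ h : ℂ → ℂ, DifferentiableOn ℂ h (ball 0 1) ∧ MapsTo h (ball 0 1) UH ∧
      ∀ z : ℂ, 0 < z.im → f z = h (Complex.exp (2 * π * I * z / m)) := by
  have hmC : (m : ℂ) ≠ 0 := by exact_mod_cast hm0.ne'
  have hmR : (0 : ℝ) < m := by exact_mod_cast hm0
  have him : ∀ z : ℂ, ((m : ℂ) * z).im = m * z.im := by
    intro z; simp
  have hmap : MapsTo (fun z : ℂ => (m : ℂ) * z) UH UH := by
    intro z hz
    rw [mem_UH, him]
    exact mul_pos hmR hz
  have hd' : DifferentiableOn ℂ (fun z => f ((m : ℂ) * z)) UH :=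
    hd.comp ((differentiable_const _).mul differentiable_id).differentiableOn hmap
  obtain ⟨h, h1, h2, h3⟩ := periodic_case hd' (fun z hz => hm (hmap hz)) (fun z hz => by
    rw [mul_add, mul_one]
    exact heq _ (hmap hz))
  refine ⟨h, h1, h2, fun z hz => ?_⟩
  have h4 : 0 < (z / m).im := by
    have : (z / (m : ℂ)).im = z.im / m := by
      simp
    rw [this]; positivity
  have h5 := h3 (z / m) h4
  rw [mul_div_cancel₀ _ hmC] at h5
  rw [h5, mul_div_assoc]

/-- finite order end: `f z = h (exp (2πiz/m))` with `h : ball → UH` holomorphic. -/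
def FinEnd (f : ℂ → ℂ) : Prop :=
  ∃ m : ℕ, 0 < m ∧ ∃ h : ℂ → ℂ, DifferentiableOn ℂ h (ball 0 1) ∧ MapsTo h (ball 0 1) UH ∧
    ∀ z : ℂ, 0 < z.im → f z = h (Complex.exp (2 * π * I * z / m))

/-- parabolic end: `κ (f z) = r z + h (exp (2πiz))`, `κ = (α β; γ δ)`, `r > 0`, and `κ g κ⁻¹` is the
translation by `r`. -/
def ParEnd (f : ℂ → ℂ) (a b c d : ℝ) : Prop :=
  ∃ α β γ δ r : ℝ, α * δ - β * γ = 1 ∧ 0 < r ∧
    (∀ τ : ℂ, 0 < τ.im → mob α β γ δ (mob a b c d τ) = mob α β γ δ τ + r) ∧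
    ∃ h : ℂ → ℂ, DifferentiableOn ℂ h (ball 0 1) ∧
    ∀ z : ℂ, 0 < z.im → mob α β γ δ (f z) = r * z + h (Complex.exp (2 * π * I * z))

/-- **THE PUNCTURE THEOREM** (S4).  `g = (a b; c d)` is the monodromy; if it is elliptic, we assume
that it has finite order (true in an arithmetic group). -/
theorem puncture {f : ℂ → ℂ} (hd : DifferentiableOn ℂ f UH) (hm : MapsTo f UH UH)
    {a b c d : ℝ} (hdet : a * d - b * c = 1)
    (heq : ∀ z, 0 < z.im → f (z + 1) = mob a b c d (f z))
    (hell : (a + d) ^ 2 < 4 → ∃ m : ℕ, 0 < m ∧ ∀ z, 0 < z.im → f (z + m) = f z) :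
    FinEnd f ∨ ParEnd f a b c d := by
  have htr : (a + d) ^ 2 ≤ 4 := tr_sq_le_four hd hm hdet heq
  have triv : (∀ z, 0 < z.im → f (z + 1) = f z) → FinEnd f ∨ ParEnd f a b c d := by
    intro h0
    obtain ⟨h, h1, h2, h3⟩ := finite_case hd hm one_pos (fun z hz => by simpa using h0 z hz)
    exact Or.inl ⟨1, one_pos, h, h1, h2, h3⟩
  have par : ∀ α β γ δ w : ℝ, α * δ - β * γ = 1 → w ≠ 0 →
      (∀ τ : ℂ, 0 < τ.im → mob α β γ δ (mob a b c d τ) = mob α β γ δ τ + w) →
      FinEnd f ∨ ParEnd f a b c d := by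
    intro α β γ δ w hκ hw hτ
    obtain ⟨h1, h, h2, h3⟩ := parabolic_case (f := fun z => mob α β γ δ (f z)) (w := w)
      (mob_diff hd hm hκ) (fun z hz => mob_mem hκ (hm hz)) hw (fun z hz => by
        simp only [heq z hz]
        exact hτ _ (hm hz))
    exact Or.inr ⟨α, β, γ, δ, w, hκ, h1, hτ, h, h2, h3⟩
  rcases htr.lt_or_eq with hlt | heq4
  · left
    obtain ⟨m, hm0, hper⟩ := hell hlt
    obtain ⟨h, h1, h2, h3⟩ := finite_case hd hm hm0 hper
    exact ⟨m, hm0, h, h1, h2, h3⟩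
  · by_cases hc : c = 0
    · subst hc
      have had : a * d = 1 := by linarith
      have had2 : (a - d) ^ 2 = 0 := by nlinarith
      have had3 : a = d := by
        have := pow_eq_zero_iff (n := 2) (by norm_num) |>.mp had2
        linarith
      subst had3
      have haC : (a : ℂ) * a = 1 := by exact_mod_cast had
      have ha0 : (a : ℂ) ≠ 0 := by
        intro h; rw [h] at haC; norm_num at haC
      have hmob : ∀ τ : ℂ, mob a b 0 a τ = τ + ((a * b : ℝ) : ℂ) := by
        intro τ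
        unfold mob
        push_cast
        rw [zero_mul, zero_add, div_eq_iff ha0]
        linear_combination (-(b : ℂ)) * haC
      by_cases hb : a * b = 0
      · refine triv fun z hz => ?_
        rw [heq z hz, hmob, hb]
        simp
      · refine par 1 0 0 1 (a * b) (by norm_num) hb fun τ hτ => ?_
        rw [hmob]
        simp [mob]
    · have hw : -((a + d) / 2 * c) ≠ 0 := by
        have : a + d ≠ 0 := by
          intro h; rw [h] at heq4; norm_num at heq4
        have : (a + d) / 2 * c ≠ 0 := mul_ne_zero (div_ne_zero this (by norm_num)) hc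
        exact neg_ne_zero.mpr this
      exact par 0 (-1) 1 (-((a - d) / (2 * c))) _ (by norm_num) hw
        fun τ hτ => parabolic_normal hdet heq4 hc hτ

/-- growth in the parabolic case: `Im (κ (f z)) ≥ r Im z - C`, uniformly in `Re z`, for
`Im z ≥ 1`. -/
theorem parabolic_growth {F h : ℂ → ℂ} {r : ℝ} (hh : DifferentiableOn ℂ h (ball 0 1))
    (hF : ∀ z : ℂ, 0 < z.im → F z = r * z + h (Complex.exp (2 * π * I * z))) :
    ∃ C : ℝ, ∀ z : ℂ, 1 ≤ z.im → |(F z).im - r * z.im| ≤ C ∧ |(F z).re - r * z.re| ≤ C := by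
  have h1 : ContinuousOn h (closedBall 0 (Real.exp (-2 * π))) := by
    apply hh.continuousOn.mono
    apply closedBall_subset_ball
    rw [Real.exp_lt_one_iff]
    have := Real.pi_pos
    linarith
  obtain ⟨C, hC⟩ := (isCompact_closedBall (0 : ℂ) (Real.exp (-2 * π))).exists_bound_of_continuousOn h1
  refine ⟨C, fun z hz => ?_⟩
  have hz0 : 0 < z.im := by linarith
  have h2 : Complex.exp (2 * π * I * z) ∈ closedBall (0 : ℂ) (Real.exp (-2 * π)) := by
    rw [mem_closedBall_zero_iff, ← qParam_one, norm_qParam, Real.exp_le_exp, div_one]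
    have := Real.pi_pos
    nlinarith
  have h3 := hC _ h2
  have h4 : (F z).im - r * z.im = (h (Complex.exp (2 * π * I * z))).im := by
    rw [hF z hz0]; simp
  have h5 : (F z).re - r * z.re = (h (Complex.exp (2 * π * I * z))).re := by
    rw [hF z hz0]; simp
  rw [h4, h5]
  exact ⟨(Complex.abs_im_le_norm _).trans h3, (Complex.abs_re_le_norm _).trans h3⟩

end R281.Pun_924
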