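import Crest.Agent.R281.As3_957
import Crest.Agent.R281.CL1_473
import Crest.Agent.R281.W3c_698
import Crest.Agent.R281.Pun3_924
import Crest.Agent.R281.Am1_957

-- ▼ part R281/As4_957
section

/-!
# R281 / As4 (helper957): isometries preserving the line of `e = (0,0,1)` act on `ℍ` by real
translations; normal form of the period along an end over the cusp `e`
-/

set_option autoImplicit false
set_option linter.style.haveILetI false

open Polynomial Set Filter Topology UpperHalfPlane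
open scoped Polynomial.Bivariate

namespace Crest.Agent.R281.As_957

open Ends1_989 Ends2_989 Ends3_989 Ends4_989 Ends5_989 CL_473 Nc_957

/-- an automorphism of the lattice multiplies `e` by a scalar of absolute value at least one -/
theorem one_le_of_fix {N : ℝ} {Λ : Set (Fin 3 → ℝ)} (hΛ : Lat N Λ)
    {A : (Fin 3 → ℝ) →ₗ[ℝ] (Fin 3 → ℝ)} (hA : ∀ w ∈ Λ, A w ∈ Λ) {s : ℝ} (hs : s ≠ 0)
    (h : A ![0, 0, 1] = s • ![0, 0, 1]) : 1 ≤ |s| := by
  by_contra hlt
  push Not at hlt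
  have hmem : ∀ n : ℕ, (s ^ n • ![0, 0, 1] : Fin 3 → ℝ) ∈ Λ := fun n => by
    induction n with
    | zero => simpa using hΛ.e_mem
    | succ n ih =>
      have h1 := hA _ ih
      rw [map_smul, h, smul_smul, ← pow_succ] at h1
      exact h1
  have hinj : Function.Injective fun n : ℕ => (s ^ n • ![0, 0, 1] : Fin 3 → ℝ) := by
    intro n m hnm
    have h1 := congrFun hnm 2
    have h2 : s ^ n = s ^ m := by simpa using h1
    have h3 : |s| ^ n = |s| ^ m := by rw [← abs_pow, ← abs_pow, h2]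
    exact pow_right_injective₀ (abs_pos.2 hs) hlt.ne h3
  refine (Set.infinite_of_injective_forall_mem hinj (s := {w | w ∈ Λ ∧ ∀ i, |w i| ≤ 1})
    fun n => ⟨hmem n, fun i => ?_⟩) (hΛ.fin 1)
  have h1 : |s| ^ n ≤ 1 := pow_le_one₀ (abs_nonneg _) hlt.le
  fin_cases i <;> simp [abs_pow, h1]

/-- ... hence the scalar is a sign -/
theorem sign_of_fix {N : ℝ} {Λ : Set (Fin 3 → ℝ)} (hΛ : Lat N Λ)
    {A B : (Fin 3 → ℝ) →ₗ[ℝ] (Fin 3 → ℝ)} (hA : ∀ w ∈ Λ, A w ∈ Λ) (hB : ∀ w ∈ Λ, B w ∈ Λ)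
    (hBA : ∀ w, B (A w) = w) {s : ℝ} (h : A ![0, 0, 1] = s • ![0, 0, 1]) : s = 1 ∨ s = -1 := by
  have hs : s ≠ 0 := by
    rintro rfl
    rw [zero_smul] at h
    have h1 := hBA ![0, 0, 1]
    rw [h, map_zero] at h1
    have h2 := congrFun h1 2
    simp at h2
  have h1 := one_le_of_fix hΛ hA hs h
  have h2 : B ![0, 0, 1] = s⁻¹ • ![0, 0, 1] := by
    have h3 := hBA ![0, 0, 1]
    rw [h, map_smul] at h3
    rw [← h3, smul_smul, inv_mul_cancel₀ hs, one_smul, h3]
  have h3 := one_le_of_fix hΛ hB (inv_ne_zero hs) h2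
  rw [abs_inv] at h3
  have h4 : |s| = 1 := le_antisymm ((one_le_inv₀ (abs_pos.2 hs)).1 h3) h1
  exact eq_or_eq_neg_of_abs_eq h4

theorem cx_add' (A : (Fin 3 → ℝ) →ₗ[ℝ] (Fin 3 → ℝ)) (v w : Fin 3 → ℂ) :
    cx A (v + w) = cx A v + cx A w := by
  have e1 : (fun k => ((v + w) k).re) = (fun k => (v k).re) + fun k => (w k).re := by
    funext k; simp
  have e2 : (fun k => ((v + w) k).im) = (fun k => (v k).im) + fun k => (w k).im := by
    funext k; simp
  funext i
  have a1 := congrFun (congrArg A e1) i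
  have a2 := congrFun (congrArg A e2) i
  rw [map_add, Pi.add_apply] at a1 a2
  change ((A (fun k => ((v + w) k).re) i : ℝ) : ℂ) +
    ((A (fun k => ((v + w) k).im) i : ℝ) : ℂ) * Complex.I =
    (((A (fun k => (v k).re) i : ℝ) : ℂ) + ((A (fun k => (v k).im) i : ℝ) : ℂ) * Complex.I) +
    (((A (fun k => (w k).re) i : ℝ) : ℂ) + ((A (fun k => (w k).im) i : ℝ) : ℂ) * Complex.I)
  rw [a1, a2]
  push_cast
  ring

/-- complexification of a real vector -/
def rc (x : Fin 3 → ℝ) : Fin 3 → ℂ := fun i => (x i : ℂ)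

theorem cx_rc (A : (Fin 3 → ℝ) →ₗ[ℝ] (Fin 3 → ℝ)) (x : Fin 3 → ℝ) : cx A (rc x) = rc (A x) := by
  funext i
  have e1 : (fun k => (rc x k).re) = x := by funext k; simp [rc]
  have e2 : (fun k => (rc x k).im) = 0 := by funext k; simp [rc]
  change ((A (fun k => (rc x k).re) i : ℝ) : ℂ) + ((A (fun k => (rc x k).im) i : ℝ) : ℂ) *
    Complex.I = ((A x i : ℝ) : ℂ)
  rw [e1, e2, map_zero]
  simp

theorem sig_eq (N : ℝ) (τ : ℂ) : sig N τ =
    rc ![1, 0, 0] + (τ • rc ![0, 1, 0] + (-(N / 2 : ℂ) * τ ^ 2) • rc ![0, 0, 1]) := by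
  funext i
  fin_cases i <;> simp [sig, rc]

/-- **isometries fixing the line of `e` act by real translations** -/
theorem mv_fix {N : ℝ} (hN : 0 < N) {A : (Fin 3 → ℝ) →ₗ[ℝ] (Fin 3 → ℝ)} (hA : Iso N A)
    (hup : ∀ τ : ℂ, 0 < τ.im → 0 < (mv N A τ).im) {s : ℝ} (hs : s = 1 ∨ s = -1)
    (h : A ![0, 0, 1] = s • ![0, 0, 1]) : ∃ β : ℝ, ∀ τ : ℂ, mv N A τ = τ + β := by
  have hs2 : s * s = 1 := by rcases hs with rfl | rfl <;> norm_num
  set x := A ![1, 0, 0] with hx
  set y := A ![0, 1, 0] with hy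
  have hcx : ∀ τ : ℂ, cx A (sig N τ) =
      rc x + (τ • rc y + (-(N / 2 : ℂ) * τ ^ 2) • rc (s • ![0, 0, 1])) := fun τ => by
    rw [sig_eq, cx_add', cx_add', cx_smul, cx_smul, cx_rc, cx_rc, cx_rc, h]
  -- coordinates
  have hy0 : y 0 = 0 := by
    have h1 := hA ![0, 0, 1] ![0, 1, 0]
    rw [h, ← hy] at h1
    have h2 : s * y 0 = 0 := by simpa [qb] using h1
    rcases mul_eq_zero.1 h2 with h3 | h3
    · rw [h3] at hs2; norm_num at hs2
    · exact h3
  have hx0 : x 0 = s := by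
    have h1 := hA ![0, 0, 1] ![1, 0, 0]
    rw [h, ← hx] at h1
    have h2 : s * x 0 = 1 := by simpa [qb] using h1
    have h3 : s * (s * x 0) = s := by rw [h2, mul_one]
    rwa [← mul_assoc, hs2, one_mul] at h3
  have hy1 : y 1 * y 1 = 1 := by
    have h1 := hA ![0, 1, 0] ![0, 1, 0]
    rw [← hy] at h1
    have h2 : N * (y 1 * y 1) = N := by simpa [qb, hy0] using h1
    have h3 : N * (y 1 * y 1 - 1) = 0 := by linarith
    rcases mul_eq_zero.1 h3 with h4 | h4
    · exact absurd h4 hN.ne'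
    · linarith
  have h0 : ∀ τ : ℂ, cx A (sig N τ) 0 = s := fun τ => by
    rw [hcx τ]
    simp [rc, hx0, hy0]
  have h1 : ∀ τ : ℂ, cx A (sig N τ) 1 = x 1 + τ * y 1 := fun τ => by
    rw [hcx τ]
    simp [rc]
  have hsC : (s : ℂ) * s = 1 := by exact_mod_cast hs2
  have hmv : ∀ τ : ℂ, mv N A τ = s * (x 1 + τ * y 1) := fun τ => by
    rw [mv, h0, h1, div_eq_iff (fun h0 => by rw [h0, zero_mul] at hsC; exact zero_ne_one hsC)]
    rw [mul_right_comm, hsC, one_mul]
  have hpos : 0 < s * y 1 := by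
    have h2 := hup Complex.I (by simp)
    rw [hmv] at h2
    simpa using h2
  have hsy : s * y 1 = 1 := by
    have h3 : (s * y 1) * (s * y 1) = 1 := by
      calc (s * y 1) * (s * y 1) = (s * s) * (y 1 * y 1) := by ring
        _ = 1 := by rw [hs2, hy1, one_mul]
    nlinarith
  have hsyC : (s : ℂ) * (y 1 : ℂ) = 1 := by exact_mod_cast hsy
  refine ⟨s * x 1, fun τ => ?_⟩
  rw [hmv]
  push_cast
  linear_combination τ * hsyC

end Crest.Agent.R281.As_957
end

-- ▼ part R281/As5_957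
section

/-!
# R281 / As5 (helper957): normal form of the period along an end over the cusp `e`
-/

set_option autoImplicit false
set_option linter.style.haveILetI false

open Polynomial Set Filter Topology UpperHalfPlane
open scoped Polynomial.Bivariate

namespace Crest.Agent.R281.As_957

open Ends1_989 Ends2_989 Ends3_989 Ends4_989 Ends5_989 CL_473 Nc_957

noncomputable section

/-- the coordinate is a holomorphic function of `Φ` off the critical set -/
theorem exists_kappa {E : Type*} [TopologicalSpace E] {u Φ : E → ℂ} (hu : IsLocalHomeomorph u)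
    (hΦ : An u Φ) {x : E} (hx : x ∉ Crit u Φ) :
    ∃ κ : ℂ → ℂ, AnalyticAt ℂ κ (Φ x) ∧ ∀ᶠ x' in 𝓝 x, u x' = κ (Φ x') := by
  obtain ⟨φ, hφ, he⟩ := hΦ x
  have h0 : deriv φ (u x) ≠ 0 := fun h => hx ⟨φ, hφ, he, h⟩
  have hΦx : Φ x = φ (u x) := he.self_of_nhds
  let e₂ := (hφ.hasStrictDerivAt.hasStrictFDerivAt_equiv h0).toOpenPartialHomeomorph φ
  have hx₂ : u x ∈ e₂.source :=
    (hφ.hasStrictDerivAt.hasStrictFDerivAt_equiv h0).mem_toOpenPartialHomeomorph_source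
  have hev : ∀ᶠ z in 𝓝 (u x), AnalyticAt ℂ φ z ∧ deriv φ z ≠ 0 :=
    hφ.eventually_analyticAt.and (hφ.deriv.continuousAt.eventually_ne h0)
  obtain ⟨W, hW, hWo, hxW⟩ := eventually_nhds_iff.1 hev
  let e₃ := e₂.restr W
  have hsrc : e₃.source = e₂.source ∩ W := OpenPartialHomeomorph.restr_source' _ _ hWo
  have hx₃ : u x ∈ e₃.source := by rw [hsrc]; exact ⟨hx₂, hxW⟩
  have hcoe : ∀ z, e₃ z = φ z := fun z => rfl
  have htgt : Φ x ∈ e₃.target := by
    rw [hΦx]
    exact e₃.map_source hx₃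
  refine ⟨e₃.symm, ?_, ?_⟩
  · have hd : DifferentiableOn ℂ e₃.symm e₃.target := fun τ hτ => by
      have h1 := e₃.map_target hτ
      rw [hsrc] at h1
      have h2 := hW _ h1.2
      exact (e₃.hasDerivAt_symm hτ h2.2
        h2.1.differentiableAt.hasDerivAt).differentiableAt.differentiableWithinAt
    exact hd.analyticAt (e₃.open_target.mem_nhds htgt)
  · have h1 : ∀ᶠ x' in 𝓝 x, u x' ∈ e₃.source :=
      hu.continuous.continuousAt.eventually (e₃.open_source.mem_nhds hx₃)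
    filter_upwards [h1, he] with x' h2 h3
    rw [h3]
    exact (e₃.left_inv h2).symm

/-- bad values, with the critical values -/
theorem exists_bad' {E : Type*} [TopologicalSpace E] [LindelofSpace E] {G : Type*} [Group G]
    [Countable G] [MulAction G ℍ]
    {u : E → ℂ} (hu : IsLocalHomeomorph u) {Φ : E → ℍ} (hΦ : An u fun x => (Φ x : ℂ))
    {P : Set ℍ} (hP : P.Countable) :
    ∃ Bad : Set ℍ, Bad.Countable ∧ P ⊆ Bad ∧ (∀ (g : G), ∀ τ ∈ Bad, g • τ ∈ Bad) ∧
      (∀ x, Φ x ∉ Bad → ∃ s : ℍ → E, ∃ U ∈ 𝓝 x, ∃ V ∈ 𝓝 (Φ x), ContinuousOn s V ∧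
        (∀ τ ∈ V, Φ (s τ) = τ) ∧ ∀ x' ∈ U, s (Φ x') = x') ∧
      ∀ x, Φ x ∉ Bad → x ∉ Crit u fun x => (Φ x : ℂ) := by
  have hc : (Φ '' Crit u fun x => (Φ x : ℂ)).Countable := by
    have h1 : ((fun x => (Φ x : ℂ)) '' Crit u fun x => (Φ x : ℂ)).Countable := countable_bad hu hΦ
    have h2 : ((↑) : ℍ → ℂ) '' (Φ '' Crit u fun x => (Φ x : ℂ)) =
        (fun x => (Φ x : ℂ)) '' Crit u fun x => (Φ x : ℂ) := by
      rw [image_image]
    rw [← h2] at h1
    exact Set.countable_of_injective_of_countable_image UpperHalfPlane.coe_injective.injOn h1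
  obtain ⟨Bad, h1, h2, h3, h4⟩ := exists_bad (G := G) hu hΦ (hP.union hc)
  exact ⟨Bad, h1, fun τ hτ => h2 (Or.inl hτ), h3, h4, fun x hx hxc => hx (h2 (Or.inr ⟨x, hxc, rfl⟩))⟩

variable {f : ℂ[X][Y]} {δ : ℂ[X]} {N : ℝ} {Λ : Set (Fin 3 → ℝ)} {G : Type*} [Group G] {E : Type*}
  [MulAction G E] {D : Geom f δ N Λ G E}

/-- translate of a lifted end -/
def LEnd.smul (e : LEnd D) (g : G) : LEnd D where
  En := e.En
  F := fun z => g • e.F z
  g := g * e.g * g⁻¹
  cont := (D.toLS.continuous_smul' g).comp e.cont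
  pr := fun z hz => by rw [D.toLS.pr_smul]; exact e.pr z hz
  per := fun z => by rw [e.per, ← mul_smul, ← mul_smul]; congr 1; group

theorem ρ_inv (D : Geom f δ N Λ G E) (g : G) (w : Fin 3 → ℝ) : D.R.ρ g⁻¹ (D.R.ρ g w) = w := by
  have h : (D.R.ρ g⁻¹ * D.R.ρ g) w = w := by
    rw [← map_mul, inv_mul_cancel, map_one]
    rfl
  exact h

theorem ρ_mul (D : Geom f δ N Λ G E) (g g' : G) (w : Fin 3 → ℝ) :
    D.R.ρ (g * g') w = D.R.ρ g (D.R.ρ g' w) := by
  rw [map_mul]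
  rfl

theorem Maj_smul_e (N : ℝ) (τ : ℍ) (t : ℝ) :
    Maj N τ (t • ![0, 0, 1]) = 2 / (N * τ.im ^ 2) * t ^ 2 := by
  simp [Maj]

/-- monodromy of a translated end in normal position is a real translation -/
theorem LEnd.translation (hN : 0 < N) {e : LEnd D} {w : Fin 3 → ℝ} (hw : Good e w) {g : G} {t : ℝ}
    (ht : t ≠ 0) (hg : D.R.ρ g w = t • ![0, 0, 1]) :
    ∃ β : ℝ, ∀ z, (D.Ψ (g • e.F (z + 1)) : ℂ) = D.Ψ (g • e.F z) + β := by
  have h1 : D.R.ρ g⁻¹ ![0, 0, 1] = t⁻¹ • w := by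
    have h2 := ρ_inv D g w
    rw [hg, map_smul] at h2
    rw [← h2, smul_smul, inv_mul_cancel₀ ht, one_smul]
  have h3 : ∃ s : ℝ, (s = 1 ∨ s = -1) ∧ D.R.ρ (g * e.g * g⁻¹) ![0, 0, 1] = s • ![0, 0, 1] := by
    rcases hw.inv with h | h
    · refine ⟨1, Or.inl rfl, ?_⟩
      rw [ρ_mul, ρ_mul, h1, map_smul, h, map_smul, hg, smul_smul, inv_mul_cancel₀ ht]
    · refine ⟨-1, Or.inr rfl, ?_⟩
      rw [ρ_mul, ρ_mul, h1, map_smul, h, map_smul, map_neg, hg, smul_neg, smul_smul,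
        inv_mul_cancel₀ ht, one_smul]
      simp
  obtain ⟨s, hs, h4⟩ := h3
  obtain ⟨β, hβ⟩ := mv_fix hN (D.R.iso (g * e.g * g⁻¹)) (D.R.up _) hs h4
  refine ⟨β, fun z => ?_⟩
  have h5 : g • e.F (z + 1) = (g * e.g * g⁻¹) • (g • e.F z) := (e.smul g).per z
  rw [h5, ← hβ]
  exact D.Φ_smul _ _

/-- **normal form** -/
theorem LEnd.normal (hN : 0 < N) {e : LEnd D} {w : Fin 3 → ℝ} (hw : Good e w) {g : G} {t : ℝ}
    (ht : t ≠ 0) (hg : D.R.ρ g w = t • ![0, 0, 1]) :
    ∃ r : ℝ, 0 < r ∧ ∃ h : ℂ → ℂ,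
      DifferentiableOn ℂ h (Metric.ball 0 (Real.exp (-(2 * Real.pi)))) ∧
      ∀ z : ℂ, 1 < z.im → (D.Ψ (g • e.F z) : ℂ) = r * z + h (qq z) := by
  obtain ⟨β, hβ⟩ := LEnd.translation hN hw ht hg
  set F : ℂ → ℂ := fun z => (D.Ψ (g • e.F (z + Complex.I)) : ℂ) with hF
  have hd : DifferentiableOn ℂ F _root_.R281.Pun_924.UH := by
    have h1 := (e.smul g).diff
    exact h1.comp (f := fun z : ℂ => z + Complex.I) (by fun_prop) fun z (hz : 0 < z.im) => by
      change 1 < (z + Complex.I).im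
      simpa using hz
  have hm : MapsTo F _root_.R281.Pun_924.UH _root_.R281.Pun_924.UH := fun z _ => by
    change 0 < (F z).im
    rw [hF]
    simp only [UpperHalfPlane.coe_im]
    exact UpperHalfPlane.im_pos _
  have hper : ∀ z : ℂ, 0 < z.im → F (z + 1) = F z + β := fun z _ => by
    rw [hF]
    simp only
    rw [add_right_comm]
    exact hβ _
  by_cases hβ0 : β = 0
  · exfalso
    obtain ⟨h, hh, -, hh'⟩ := _root_.R281.Pun_924.periodic_case hd hm
      (fun z hz => by rw [hper z hz, hβ0, Complex.ofReal_zero, add_zero])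
    obtain ⟨r, hr, C, hC⟩ := hw.growth
    -- the imaginary part is bounded near the puncture
    have hcont : ContinuousAt h 0 :=
      (hh.differentiableAt (Metric.ball_mem_nhds _ one_pos)).continuousAt
    have hev : ∀ᶠ q in 𝓝 (0 : ℂ), ‖h q‖ < ‖h 0‖ + 1 :=
      hcont.norm.eventually_lt continuousAt_const (by simp)
    obtain ⟨ε, hε, hball⟩ := Metric.eventually_nhds_iff_ball.1 hev
    obtain ⟨T, hT⟩ := norm_qq_lt_of hε
    -- a point high up
    set B : ℝ := ‖h 0‖ + 1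
    set cN : ℝ := Real.sqrt (2 / N * t ^ 2) with hcN
    have hcN0 : 0 < cN := Real.sqrt_pos.2 (by positivity)
    set y₀ : ℝ := max (T + 1) (max 2 ((C + 1 + B / cN) / r)) with hy₀
    have hyT : T < y₀ := by
      have := le_max_left (T + 1) (max 2 ((C + 1 + B / cN) / r))
      linarith
    have hy2 : 2 ≤ y₀ := (le_max_left _ _).trans (le_max_right _ _)
    have hyr : (C + 1 + B / cN) / r ≤ y₀ := (le_max_right _ _).trans (le_max_right _ _)
    have h1 := hC ((y₀ : ℂ) * Complex.I + Complex.I) (by simp; linarith)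
    have hMaj : Maj N (D.Ψ (e.F ((y₀ : ℂ) * Complex.I + Complex.I))) w =
        (cN / (D.Ψ (g • e.F ((y₀ : ℂ) * Complex.I + Complex.I))).im) ^ 2 := by
      rw [← D.maj_smul hN g, hg, Maj_smul_e, div_pow, hcN, Real.sq_sqrt (by positivity)]
      field_simp
    have him : (D.Ψ (g • e.F ((y₀ : ℂ) * Complex.I + Complex.I))).im < B := by
      have h2 := hh' ((y₀ : ℂ) * Complex.I) (by simp; linarith)
      have h3 : ‖F ((y₀ : ℂ) * Complex.I)‖ < B := by
        rw [h2, ← _root_.R281.Pun_924.qParam_one]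
        refine hball _ ?_
        rw [mem_ball_zero_iff]
        refine hT _ ?_
        simpa using hyT
      have h4 : |(F ((y₀ : ℂ) * Complex.I)).im| < B := (Complex.abs_im_le_norm _).trans_lt h3
      rw [hF] at h4
      simp only [UpperHalfPlane.coe_im] at h4
      exact (abs_lt.1 h4).2
    set y := (D.Ψ (g • e.F ((y₀ : ℂ) * Complex.I + Complex.I))).im with hy
    have hypos : 0 < y := UpperHalfPlane.im_pos _
    rw [hMaj, Real.sqrt_sq (by positivity), one_div_div] at h1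
    have h5 := (abs_le.1 h1).1
    have h6 : ((y₀ : ℂ) * Complex.I + Complex.I).im = y₀ + 1 := by simp
    rw [h6] at h5
    have h7 : y / cN < B / cN := by gcongr
    have h8 : C + 1 + B / cN ≤ r * y₀ := by
      rw [div_le_iff₀ hr] at hyr
      linarith
    nlinarith
  · obtain ⟨hβpos, h, hh, hh'⟩ := _root_.R281.Pun_924.parabolic_case hd hm hβ0 hper
    refine ⟨β, hβpos, fun q => -(β * Complex.I) + h (Real.exp (2 * Real.pi) * q), ?_,
      fun z hz => ?_⟩
    · refine DifferentiableOn.const_add _ (hh.comp (f := fun q : ℂ =>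
        (Real.exp (2 * Real.pi) : ℂ) * q) (by fun_prop) fun q hq => ?_)
      rw [mem_ball_zero_iff] at hq ⊢
      rw [norm_mul, Complex.norm_real, Real.norm_eq_abs, abs_of_pos (Real.exp_pos _)]
      calc Real.exp (2 * Real.pi) * ‖q‖ < Real.exp (2 * Real.pi) * Real.exp (-(2 * Real.pi)) := by
            gcongr
        _ = 1 := by rw [← Real.exp_add]; simp
    · have h1 := hh' (z - Complex.I) (by simpa using hz)
      rw [hF] at h1
      simp only [sub_add_cancel] at h1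
      rw [h1]
      have h2 : Complex.exp (2 * Real.pi * Complex.I * (z - Complex.I)) =
          (Real.exp (2 * Real.pi) : ℂ) * qq z := by
        have h3 : (qq z : ℂ) = Complex.exp (2 * Real.pi * Complex.I * z) :=
          _root_.R281.Pun_924.qParam_one z
        rw [h3, Complex.ofReal_exp, ← Complex.exp_add]
        congr 1
        push_cast
        linear_combination (-2 * (Real.pi : ℂ)) * Complex.I_mul_I
      rw [h2]
      ring

/-- two normal positions differ by a real translation -/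
theorem LEnd.compare (hN : 0 < N) (hΛ : Lat N Λ) {e : LEnd D} {w : Fin 3 → ℝ} {g g' : G} {t t' : ℝ}
    (ht : t ≠ 0) (hg : D.R.ρ g w = t • ![0, 0, 1]) (hg' : D.R.ρ g' w = t' • ![0, 0, 1]) :
    ∃ β : ℝ, ∀ z, (D.Ψ (g' • e.F z) : ℂ) = D.Ψ (g • e.F z) + β := by
  have h1 : D.R.ρ g⁻¹ ![0, 0, 1] = t⁻¹ • w := by
    have h2 := ρ_inv D g w
    rw [hg, map_smul] at h2
    rw [← h2, smul_smul, inv_mul_cancel₀ ht, one_smul]
  have h2 : D.R.ρ (g' * g⁻¹) ![0, 0, 1] = (t⁻¹ * t') • ![0, 0, 1] := by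
    rw [ρ_mul, h1, map_smul, hg', smul_smul]
  have h3 := sign_of_fix hΛ (A := D.R.ρ (g' * g⁻¹)) (B := D.R.ρ (g' * g⁻¹)⁻¹) (D.mem _) (D.mem _)
    (ρ_inv D _) h2
  obtain ⟨β, hβ⟩ := mv_fix hN (D.R.iso (g' * g⁻¹)) (D.R.up _) h3 h2
  refine ⟨β, fun z => ?_⟩
  have h5 : g' • e.F z = (g' * g⁻¹) • (g • e.F z) := by
    rw [← mul_smul]
    congr 1
    group
  rw [h5, ← hβ]
  exact D.Φ_smul _ _

end

end Crest.Agent.R281.As_957
end

-- ▼ part R281/As6_957
section

/-!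
# R281 / As6 (helper957): the whole vertical ray lifts and runs into one end over the cusp `e`
-/

set_option autoImplicit false
set_option linter.style.haveILetI false

open Polynomial Set Filter Topology UpperHalfPlane
open scoped Polynomial.Bivariate

namespace Crest.Agent.R281.As_957

open Ends1_989 Ends2_989 Ends3_989 Ends4_989 Ends5_989 CL_473 Nc_957

noncomputable section

variable {f : ℂ[X][Y]} {δ : ℂ[X]} {N : ℝ} {Λ : Set (Fin 3 → ℝ)} {G : Type*} [Group G] {E : Type*}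
  [MulAction G E]

/-- **the lifted vertical ray through `x₀` and the end over the cusp `e` into which it runs** -/
structure Ray (D : Geom f δ N Λ G E) (x₀ : D.T) where
  /-- the end -/
  e : LEnd D
  /-- its isotropic vector -/
  w : Fin 3 → ℝ
  good : Good e w
  /-- marking -/
  g : G
  t : ℝ
  t_ne : t ≠ 0
  map_w : D.R.ρ g w = t • ![0, 0, 1]
  /-- width of the cusp -/
  r : ℝ
  r_pos : 0 < r
  h : ℂ → ℂ
  h_diff : DifferentiableOn ℂ h (Metric.ball 0 (Real.exp (-(2 * Real.pi))))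
  nf : ∀ z : ℂ, 1 < z.im → (D.Ψ (g • e.F z) : ℂ) = r * z + h (qq z)
  Y₁ : ℝ
  Y₂ : ℝ
  Y₂_lt : Y₂ < Y₁
  le_Y₁ : (D.Ψ x₀).im ≤ Y₁
  /-- inverse of the normal form -/
  k : ℂ → ℂ
  k_diff : DifferentiableOn ℂ k {τ | Y₂ < τ.im}
  k_im : ∀ τ : ℂ, Y₂ < τ.im → 1 < (k τ).im
  k_inv : ∀ τ : ℂ, Y₂ < τ.im → (r : ℂ) * k τ + h (qq (k τ)) = τ
  C : ℝ
  k_bd : ∀ τ : ℂ, Y₂ < τ.im → ‖(r : ℂ) * k τ - τ‖ ≤ C
  /-- the lift of the ray -/
  c : ℝ → D.T
  c_cont : ContinuousOn c (Ici (D.Ψ x₀).im)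
  c_start : c (D.Ψ x₀).im = x₀
  c_ray : ∀ y, (D.Ψ x₀).im ≤ y → D.Ψ (c y) = ray (D.Ψ x₀).re y
  c_end : ∀ y, Y₁ ≤ y → c y = g • e.F (k ((D.Ψ x₀).re + y * Complex.I))
  c_an : ∀ y, (D.Ψ x₀).im ≤ y → ∃ κ : ℂ → ℂ,
    AnalyticAt ℂ κ ((D.Ψ x₀).re + y * Complex.I) ∧
    ∀ᶠ y' in 𝓝[Ici (D.Ψ x₀).im] y, D.u (c y') = κ ((D.Ψ x₀).re + (y' : ℝ) * Complex.I)

/-- data at an end, uniform in the marking -/
theorem LEnd.exists_data {D : Geom f δ N Λ G E} (hN : 0 < N) (hΛ : Lat N Λ) {e : LEnd D}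
    {w : Fin 3 → ℝ} (hw : Good e w) : ∃ T Y₂ : ℝ, ∀ (g : G) (t : ℝ), t ≠ 0 →
      D.R.ρ g w = t • ![0, 0, 1] → ∃ r : ℝ, 0 < r ∧ ∃ h : ℂ → ℂ,
        DifferentiableOn ℂ h (Metric.ball 0 (Real.exp (-(2 * Real.pi)))) ∧
        (∀ z : ℂ, 1 < z.im → (D.Ψ (g • e.F z) : ℂ) = r * z + h (qq z)) ∧
        (∀ z z' : ℂ, T < z.im → T < z'.im → (r : ℂ) * z + h (qq z) = r * z' + h (qq z') →
          z = z') ∧
        ∃ (k : ℂ → ℂ) (C : ℝ), DifferentiableOn ℂ k {τ | Y₂ < τ.im} ∧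
          ∀ τ : ℂ, Y₂ < τ.im → max T 1 < (k τ).im ∧ (r : ℂ) * k τ + h (qq (k τ)) = τ ∧
            ‖(r : ℂ) * k τ - τ‖ ≤ C := by
  by_cases hex : ∃ (g : G) (t : ℝ), t ≠ 0 ∧ D.R.ρ g w = t • ![0, 0, 1]
  · obtain ⟨g₀, t₀, ht₀, hg₀⟩ := hex
    obtain ⟨r, hr, h, hh, hnf⟩ := LEnd.normal hN hw ht₀ hg₀
    obtain ⟨T, hinj, hT⟩ := exists_inv hr (Real.exp_pos _) hh
    obtain ⟨k, Y₂, C, hk, hk'⟩ := hT (max T 1) (le_max_left _ _)
    refine ⟨T, Y₂, fun g t ht hg => ?_⟩
    obtain ⟨β, hβ⟩ := LEnd.compare (e := e) hN hΛ ht₀ hg₀ hg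
    refine ⟨r, hr, fun q => h q + β, hh.add_const _, fun z hz => ?_, fun z z' hz hz' hzz' => ?_,
      fun τ => k (τ - β), C + |β|, ?_, fun τ hτ => ?_⟩
    · rw [hβ, hnf z hz, add_assoc]
    · refine hinj z z' hz hz' ?_
      linear_combination hzz'
    · exact hk.comp (f := fun τ : ℂ => τ - β) (by fun_prop) fun τ (hτ : Y₂ < τ.im) => by
        change Y₂ < (τ - β).im
        simpa using hτ
    · obtain ⟨h1, h2, h3⟩ := hk' (τ - β) (by simpa using hτ)
      refine ⟨h1, by rw [← add_assoc, h2, sub_add_cancel], ?_⟩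
      have h4 : (r : ℂ) * k (τ - β) - τ = ((r : ℂ) * k (τ - β) - (τ - β)) + (-β) := by ring
      rw [h4]
      refine (norm_add_le _ _).trans (add_le_add h3 ?_)
      rw [norm_neg, Complex.norm_real, Real.norm_eq_abs]
  · exact ⟨0, 0, fun g t ht hg => absurd ⟨g, t, ht, hg⟩ hex⟩


theorem exists_ray_of_ends (D : Geom f δ N Λ G E) [Countable G] (hN : 0 < N) (hΛ : Lat N Λ)
    (hE : EndsProp N Λ) (hf : f.Monic) (hδ : δ ≠ 0) (hs : Sep f δ) :
    ∃ Nl : Set ℝ, Nl.Countable ∧ ∀ x₀ : D.T, (D.Ψ x₀).re ∉ Nl → Nonempty (Ray D x₀) := by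
  classical
  letI act := D.R.act hN
  obtain ⟨n, s, e, K, hK, hcov⟩ := exists_lends D hf hδ hs
  haveI : LindelofSpace D.T := isLindelof_of_cover (fun (g : G) (x : D.T) => g • x)
    (fun g => D.toLS.continuous_smul' g) hK (fun i : s => (e i).F)
    (fun i => (e i).cont.continuousOn) hcov
  -- the ends
  have hends : ∀ i : s, (∃ p : ℍ, ∀ W ∈ 𝓝 p, ∃ T, ∀ z : ℂ, T ≤ z.im → D.Ψ ((e i).F z) ∈ W) ∨
      ∃ w : Fin 3 → ℝ, Good (e i) w ∧
        ∀ ε > 0, ∃ T, ∀ z : ℂ, T ≤ z.im → Maj N (D.Ψ ((e i).F z)) w < ε := fun i => by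
    rcases hE (fun z => D.Ψ ((e i).F z)) (e i).diff (D.R.ρ (e i).g) (D.mem _)
      (fun w => D.R.iso _ w w) (fun z _ w => by rw [(e i).per]; exact D.maj_smul hN _ _ w) with
      h | ⟨w, h1, h2, h3, h4, h5, h6⟩
    · exact Or.inl h
    · exact Or.inr ⟨w, ⟨h1, h2, h3, h4, h6⟩, h5⟩
  let cusp : s → Prop := fun i => ∃ w : Fin 3 → ℝ, Good (e i) w ∧
    ∀ ε > 0, ∃ T, ∀ z : ℂ, T ≤ z.im → Maj N (D.Ψ ((e i).F z)) w < ε
  let w : s → Fin 3 → ℝ := fun i => if h : cusp i then h.choose else 0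
  have hw : ∀ i, cusp i → Good (e i) (w i) ∧
      ∀ ε > 0, ∃ T, ∀ z : ℂ, T ≤ z.im → Maj N (D.Ψ ((e i).F z)) (w i) < ε := fun i h => by
    simp only [w, dif_pos h]
    exact h.choose_spec
  let pt : s → ℍ := fun i => if h : (∃ p : ℍ, ∀ W ∈ 𝓝 p, ∃ T, ∀ z : ℂ, T ≤ z.im →
    D.Ψ ((e i).F z) ∈ W) then h.choose else UpperHalfPlane.I
  have hpt : ∀ i, ¬ cusp i → ∀ W ∈ 𝓝 (pt i), ∃ T, ∀ z : ℂ, T ≤ z.im → D.Ψ ((e i).F z) ∈ W :=
    fun i h => by
    have h1 := (hends i).resolve_right h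
    simp only [pt, dif_pos h1]
    exact h1.choose_spec
  have hu := D.localHomeo_u hf hs
  obtain ⟨Bad, hBc, hPB, hBinv, hgood, hcrit⟩ := exists_bad' (G := G) (P := range pt) hu D.an
    (countable_range pt)
  let Da : Dat N Λ G D.T s :=
    { ρ := fun g => D.R.ρ g
      ρ_mem := D.mem
      ρ_iso := fun g w => D.R.iso g w w
      ρ_maj := fun g τ w => (D.R.iso g).maj hN _ _ rfl w
      act := fun g g' h τ => UpperHalfPlane.ext (by
        change mv N (D.R.ρ g) τ = mv N (D.R.ρ g') τ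
        rw [h])
      act_cont := D.R.act_continuous hN
      act_E := fun g => D.toLS.continuous_smul' g
      Φ := D.Ψ
      Φ_cont := D.continuous_Ψ hf hs
      Φ_equiv := D.Ψ_smul hN
      K := K
      K_comp := hK
      ε := fun i => (e i).F
      ε_cont := fun i => (e i).cont.continuousOn
      ε_per := fun i z _ => ⟨(e i).g, (e i).per z⟩
      cover := hcov
      Bad := Bad
      Bad_inv := hBinv
      good := hgood
      cusp := cusp
      w := w
      w_mem := fun i h => ⟨(hw i h).1.mem, (hw i h).1.ne, (hw i h).1.iso⟩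
      w_lim := fun i h ε hε => by
        obtain ⟨T, hT⟩ := (hw i h).2 ε hε
        exact ⟨T, fun z _ hz => hT z hz⟩
      pt := pt
      pt_bad := fun i _ => hPB ⟨i, rfl⟩
      pt_lim := fun i h W hW => by
        obtain ⟨T, hT⟩ := hpt i h W hW
        exact ⟨T, fun z _ hz => hT z hz⟩ }
  refine ⟨UpperHalfPlane.re '' Bad, hBc.image _, fun x₀ hx₀ => ?_⟩
  -- uniform data at the cusp ends
  have hdat : ∀ i : s, ∃ T Y₂ : ℝ, cusp i → ∀ (g : G) (t : ℝ), t ≠ 0 →
      D.R.ρ g (w i) = t • ![0, 0, 1] → ∃ r : ℝ, 0 < r ∧ ∃ h : ℂ → ℂ,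
        DifferentiableOn ℂ h (Metric.ball 0 (Real.exp (-(2 * Real.pi)))) ∧
        (∀ z : ℂ, 1 < z.im → (D.Ψ (g • (e i).F z) : ℂ) = r * z + h (qq z)) ∧
        (∀ z z' : ℂ, T < z.im → T < z'.im → (r : ℂ) * z + h (qq z) = r * z' + h (qq z') →
          z = z') ∧
        ∃ (k : ℂ → ℂ) (C : ℝ), DifferentiableOn ℂ k {τ | Y₂ < τ.im} ∧
          ∀ τ : ℂ, Y₂ < τ.im → max T 1 < (k τ).im ∧ (r : ℂ) * k τ + h (qq (k τ)) = τ ∧
            ‖(r : ℂ) * k τ - τ‖ ≤ C := fun i => by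
    by_cases h : cusp i
    · obtain ⟨T, Y₂, hT⟩ := LEnd.exists_data hN hΛ (hw i h).1
      exact ⟨T, Y₂, fun _ => hT⟩
    · exact ⟨0, 0, fun h' => absurd h' h⟩
  choose T Y₂ hdat using hdat
  obtain ⟨M₁, hM₁⟩ := (Set.finite_range T).bddAbove
  obtain ⟨M₂, hM₂⟩ := (Set.finite_range Y₂).bddAbove
  set a := (D.Ψ x₀).re with ha
  have hb0 : 0 < (D.Ψ x₀).im := (D.Ψ x₀).im_pos
  have hx₀' : Da.Φ x₀ = ray a (D.Ψ x₀).im :=
    UpperHalfPlane.ext_re_im (ray_re hb0).symm (ray_im hb0).symm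
  have hbad : ∀ y, (D.Ψ x₀).im ≤ y → ray a y ∉ Da.Bad := fun y hy hmem =>
    hx₀ ⟨_, hmem, ray_re (hb0.trans_le hy)⟩
  have hlift := Da.exists_lift hN hΛ hb0 hx₀' hbad
  obtain ⟨Y₀, hY₀⟩ := Da.reach_cusp hN hΛ a (max M₁ 1 + 1)
  set Y₁ : ℝ := max (max Y₀ (M₂ + 1)) (D.Ψ x₀).im with hY₁
  have hY₀₁ : Y₀ ≤ Y₁ := (le_max_left _ _).trans (le_max_left _ _)
  have hM₂₁ : M₂ + 1 ≤ Y₁ := (le_max_right _ _).trans (le_max_left _ _)
  have hle : (D.Ψ x₀).im ≤ Y₁ := le_max_right _ _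
  obtain ⟨c₀, hc₀, hc0, hcΦ⟩ := hlift Y₁ hle
  obtain ⟨g, i, z₁, hi, h1, h2, hx, t, ht, hg⟩ := hY₀ Y₁ hY₀₁ (c₀ Y₁) (hcΦ _ ⟨hle, le_rfl⟩)
  obtain ⟨r, hr, h, hh, hnf, hinj, k, C, hk, hk'⟩ := hdat i hi g t ht hg
  have hTi : T i ≤ M₁ := hM₁ ⟨i, rfl⟩
  have hYi : Y₂ i < Y₁ := by
    have := hM₂ (⟨i, rfl⟩ : Y₂ i ∈ range Y₂)
    linarith
  have hz₁T : T i < z₁.im := by
    have := le_max_left M₁ 1
    linarith
  have hz₁1 : 1 < z₁.im := by
    have := le_max_right M₁ 1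
    linarith
  have him : ∀ y : ℝ, ((a : ℂ) + y * Complex.I).im = y := fun y => by simp
  have hY₁0 : 0 < Y₁ := hb0.trans_le hle
  -- the point over height `Y₁`
  have hkz : k (a + Y₁ * Complex.I) = z₁ := by
    obtain ⟨h3, h4, -⟩ := hk' (a + Y₁ * Complex.I) (by rw [him]; exact hYi)
    refine hinj _ _ ((le_max_left _ _).trans_lt h3) hz₁T ?_
    rw [h4, ← hnf z₁ hz₁1, ← ray_coe hY₁0, ← hcΦ Y₁ ⟨hle, le_rfl⟩]
    exact congrArg (fun x => (D.Ψ x : ℂ)) hx
  set c₁ : ℝ → D.T := fun y => g • (e i).F (k (a + y * Complex.I)) with hc₁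
  have hc₁Y : c₁ Y₁ = c₀ Y₁ := by
    rw [hc₁]
    simp only
    rw [hkz]
    exact hx.symm
  have hc₁c : ContinuousOn c₁ (Ici Y₁) := by
    have h3 : ContinuousOn (fun y : ℝ => k ((a : ℂ) + y * Complex.I)) (Ici Y₁) :=
      hk.continuousOn.comp (by fun_prop) fun y (hy : Y₁ ≤ y) => by
        change Y₂ i < ((a : ℂ) + y * Complex.I).im
        rw [him]
        exact hYi.trans_le hy
    exact (D.toLS.continuous_smul' g).comp_continuousOn ((e i).cont.comp_continuousOn h3)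
  have hc₁Φ : ∀ y, Y₁ ≤ y → D.Ψ (c₁ y) = ray a y := fun y hy => by
    obtain ⟨h3, h4, -⟩ := hk' (a + y * Complex.I) (by rw [him]; exact hYi.trans_le hy)
    apply UpperHalfPlane.ext
    rw [ray_coe (hY₁0.trans_le hy), ← h4]
    exact hnf _ ((le_max_right _ _).trans_lt h3)
  set c : ℝ → D.T := fun y => if y ≤ Y₁ then c₀ y else c₁ y with hc
  have hc_le : ∀ y, y ≤ Y₁ → c y = c₀ y := fun y hy => by simp only [hc, if_pos hy]
  have hc_ge : ∀ y, Y₁ ≤ y → c y = c₁ y := fun y hy => by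
    rcases hy.lt_or_eq with h3 | rfl
    · simp only [hc, if_neg (not_le.2 h3)]
    · rw [hc_le _ le_rfl, hc₁Y]
  have hcc : ContinuousOn c (Ici (D.Ψ x₀).im) := by
    have h3 : Ici (D.Ψ x₀).im = Icc (D.Ψ x₀).im Y₁ ∪ Ici Y₁ := (Icc_union_Ici_eq_Ici hle).symm
    rw [h3]
    exact (hc₀.congr fun y hy => hc_le y hy.2).union_of_isClosed
      (hc₁c.congr fun y hy => hc_ge y hy) isClosed_Icc isClosed_Ici
  have hcray : ∀ y, (D.Ψ x₀).im ≤ y → D.Ψ (c y) = ray a y := fun y hy => by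
    rcases le_total y Y₁ with h3 | h3
    · rw [hc_le y h3]
      exact hcΦ y ⟨hy, h3⟩
    · rw [hc_ge y h3]
      exact hc₁Φ y h3
  exact ⟨{
    e := e i
    w := w i
    good := (hw i hi).1
    g := g
    t := t
    t_ne := ht
    map_w := hg
    r := r
    r_pos := hr
    h := h
    h_diff := hh
    nf := hnf
    Y₁ := Y₁
    Y₂ := Y₂ i
    Y₂_lt := hYi
    le_Y₁ := hle
    k := k
    k_diff := hk
    k_im := fun τ hτ => (le_max_right _ _).trans_lt (hk' τ hτ).1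
    k_inv := fun τ hτ => (hk' τ hτ).2.1
    C := C
    k_bd := fun τ hτ => (hk' τ hτ).2.2
    c := c
    c_cont := hcc
    c_start := by rw [hc_le _ hle]; exact hc0
    c_ray := hcray
    c_end := fun y hy => hc_ge y hy
    c_an := fun y hy => by
      have h3 : c y ∉ Crit D.u fun x => (D.Ψ x : ℂ) := hcrit _ (by
        rw [hcray y hy]
        exact hbad y hy)
      obtain ⟨κ, hκ, hκ'⟩ := exists_kappa hu D.an h3
      have h4 : ∀ y', (D.Ψ x₀).im ≤ y' → (D.Ψ (c y') : ℂ) = a + y' * Complex.I := fun y' hy' => by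
        rw [hcray y' hy']
        exact ray_coe (hb0.trans_le hy')
      refine ⟨κ, by rw [← h4 y hy]; exact hκ, ?_⟩
      have h5 : ∀ᶠ y' in 𝓝[Ici (D.Ψ x₀).im] y, D.u (c y') = κ (D.Ψ (c y')) :=
        (hcc y hy).eventually hκ'
      filter_upwards [h5, self_mem_nhdsWithin] with y' hy1 hy2
      rw [hy1, h4 y' hy2] }⟩

/-- **non-constancy** on the marked cover -/
theorem Geom.not_lc (D : Geom f δ N Λ G E) (hf : f.Monic) (hδ : δ ≠ 0) (hs : Sep f δ) (x₀ : D.T)
    {b : ℂ} (hb : δ.eval b ≠ 0) {S : Set ℍ} (hS : ∀ x : D.T, D.u x = b → D.Ψ x ∈ S)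
    (h0 : D.Ψ x₀ ∉ S) : ¬ LC (fun x => (D.Ψ x : ℂ)) x₀ := by
  obtain ⟨y, hj, hy⟩ := exists_joined (countable_Zd hδ) (isCoveringMap_qpr hf hs)
    D.toLS.isCoveringMap x₀ ⟨b, hb⟩
  have hyb : D.u y = b := congrArg Subtype.val hy
  refine not_lc_of_joined (D.localHomeo_u hf hs) D.an (S := ((↑) : ℍ → ℂ) '' S) (fun h => ?_)
    (mem_image_of_mem _ (hS y hyb)) hj (Joined.refl x₀)
  obtain ⟨τ, hτ, h2⟩ := h
  exact h0 (by rw [← UpperHalfPlane.coe_injective h2]; exact hτ)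

end

end Crest.Agent.R281.As_957
end

-- ▼ part R281/PE1_698
section

/-! # R281 / PUNCT-ENDS part 1 (helper698): majorants and Moebius transformations -/

namespace Crest.Agent.R281.PE_698

open Filter Topology Set UpperHalfPlane
open Crest.Agent.R281.CL_473
open _root_.R281.Pun_924 (mob UH mem_UH mob_im mob_mem mob_mob mob_diff puncture FinEnd ParEnd)
open scoped ComplexConjugate

/-- The majorant determines the point. -/
theorem maj_inj {N : ℝ} (hN : 0 < N) {τ τ' : ℍ} (h : ∀ w, Maj N τ w = Maj N τ' w) : τ = τ' := by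
  have h0 := h ![0, 0, 1]
  have h1 := h ![0, 1, 0]
  have h2 := h ![0, 1, 1]
  have hy : 0 < τ.im := τ.im_pos
  have hy' : 0 < τ'.im := τ'.im_pos
  simp only [Maj, Matrix.cons_val_zero, Matrix.cons_val_one, Matrix.cons_val] at h0 h1 h2
  have e0 : τ.im = τ'.im := by
    have h3 : 2 / (N * τ.im ^ 2) = 2 / (N * τ'.im ^ 2) := by linarith
    rw [div_eq_div_iff (by positivity) (by positivity)] at h3
    have h4 : τ.im ^ 2 = τ'.im ^ 2 := by
      have : (2 * N) * τ.im ^ 2 = (2 * N) * τ'.im ^ 2 := by linarith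
      exact mul_left_cancel₀ (by positivity) this
    nlinarith [sq_nonneg (τ.im - τ'.im), sq_nonneg (τ.im + τ'.im)]
  rw [e0] at h1 h2
  have hk : 2 / (N * τ'.im ^ 2) ≠ 0 := by positivity
  have e1 : (N * 1 * τ.re) ^ 2 = (N * 1 * τ'.re) ^ 2 := by
    apply mul_left_cancel₀ hk
    ring_nf at h1 ⊢
    linarith
  have e2 : (1 + N * τ.re) ^ 2 = (1 + N * τ'.re) ^ 2 := by
    apply mul_left_cancel₀ hk
    ring_nf at h2 ⊢
    linarith
  have e3 : τ.re = τ'.re := by
    have : N * τ.re = N * τ'.re := by nlinarith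
    exact mul_left_cancel₀ hN.ne' this
  apply UpperHalfPlane.ext
  apply Complex.ext
  · rw [UpperHalfPlane.coe_re, UpperHalfPlane.coe_re, e3]
  · rw [UpperHalfPlane.coe_im, UpperHalfPlane.coe_im, e0]

theorem qb_eq (N : ℝ) (x y : Fin 3 → ℝ) : W3c_698.qb N x y = qb N x y := by
  unfold W3c_698.qb qb; ring

theorem qb_polar {N : ℝ} {A : (Fin 3 → ℝ) →ₗ[ℝ] (Fin 3 → ℝ)}
    (h : ∀ w, qb N (A w) (A w) = qb N w w) (x y : Fin 3 → ℝ) : qb N (A x) (A y) = qb N x y := by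
  have h1 := h (x + y)
  have h2 := h x
  have h3 := h y
  rw [map_add] at h1
  simp only [qb, Pi.add_apply] at h1 h2 h3 ⊢
  linarith

theorem iso_inj {N : ℝ} (hN : 0 < N) {A : (Fin 3 → ℝ) →ₗ[ℝ] (Fin 3 → ℝ)}
    (h : ∀ w, qb N (A w) (A w) = qb N w w) : Function.Injective A := by
  rw [injective_iff_map_eq_zero]
  intro x hx
  have h0 := qb_polar h x ![0, 0, 1]
  have h1 := qb_polar h x ![0, 1, 0]
  have h2 := qb_polar h x ![1, 0, 0]
  rw [hx] at h0 h1 h2
  simp [qb] at h0 h1 h2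
  funext i
  fin_cases i
  · exact h0.symm
  · rcases h1 with h1 | h1
    · exact absurd h1 hN.ne'
    · exact h1
  · exact h2.symm

theorem iso_surj {N : ℝ} (hN : 0 < N) {A : (Fin 3 → ℝ) →ₗ[ℝ] (Fin 3 → ℝ)}
    (h : ∀ w, qb N (A w) (A w) = qb N w w) : Function.Surjective A :=
  LinearMap.injective_iff_surjective.mp (iso_inj hN h)

/-- the period of a transformed vector -/
theorem per_sym2 {N : ℝ} (hN : 0 < N) {a b c d : ℝ} (hdet : a * d - b * c = 1 ∨ a * d - b * c = -1)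
    {τ : ℂ} (hτ : (c : ℂ) * τ + d ≠ 0) (x : Fin 3 → ℝ) :
    per N (W3c_698.sym2 N a b c d x) (mob a b c d τ) * (c * τ + d) ^ 2 = per N x τ := by
  have hNC : (N : ℂ) ≠ 0 := by exact_mod_cast hN.ne'
  have hd2 : ((a : ℂ) * d - b * c) ^ 2 = 1 := by
    have : (a * d - b * c) ^ 2 = 1 := by rcases hdet with h | h <;> rw [h] <;> norm_num
    exact_mod_cast this
  have e : mob a b c d τ * (c * τ + d) = a * τ + b := by
    unfold mob
    rw [div_mul_cancel₀ _ hτ]
  have e2 : per N (W3c_698.sym2 N a b c d x) (mob a b c d τ) * (c * τ + d) ^ 2 =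
      -(N / 2 : ℂ) * (W3c_698.sym2 N a b c d x 0 : ℝ) * (mob a b c d τ * (c * τ + d)) ^ 2
        + (W3c_698.sym2 N a b c d x 2 : ℝ) * (c * τ + d) ^ 2
        + N * (W3c_698.sym2 N a b c d x 1 : ℝ) * (mob a b c d τ * (c * τ + d)) * (c * τ + d) := by
    unfold per; ring
  rw [e2, e]
  have p0 : W3c_698.sym2 N a b c d x 0
      = d ^ 2 * x 0 + 2 * c * d * x 1 - 2 / N * c ^ 2 * x 2 := rfl
  have p1 : W3c_698.sym2 N a b c d x 1
      = b * d * x 0 + (a * d + b * c) * x 1 - 2 / N * a * c * x 2 := rfl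
  have p2 : W3c_698.sym2 N a b c d x 2
      = -(N / 2) * b ^ 2 * x 0 - N * a * b * x 1 + a ^ 2 * x 2 := rfl
  rw [p0, p1, p2]
  unfold per
  push_cast
  have key : -(N / 2 : ℂ) * ((d : ℂ) ^ 2 * x 0 + 2 * c * d * x 1 - 2 / N * c ^ 2 * x 2)
        * (a * τ + b) ^ 2
      + (-(N / 2) * (b : ℂ) ^ 2 * x 0 - N * a * b * x 1 + a ^ 2 * x 2) * (c * τ + d) ^ 2
      + N * (b * d * x 0 + (a * d + b * c) * x 1 - 2 / N * a * c * x 2) * (a * τ + b) * (c * τ + d)
      = ((a : ℂ) * d - b * c) ^ 2 * (-(N / 2 : ℂ) * x 0 * τ ^ 2 + x 2 + N * x 1 * τ) := by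
    field_simp
    ring
  rw [key, hd2, one_mul]

theorem per_conj (N : ℝ) (w : Fin 3 → ℝ) (τ : ℂ) : per N w (conj τ) = conj (per N w τ) := by
  simp only [per, map_add, map_mul, map_neg, map_div₀, map_pow, Complex.conj_ofReal, map_ofNat]

theorem sym2_smul (N a b c d s : ℝ) (x : Fin 3 → ℝ) :
    s • W3c_698.sym2 N a b c d x = W3c_698.sym2 N a b c d (s • x) := by
  funext i
  fin_cases i <;> simp [W3c_698.sym2] <;> ring

theorem per_smul (N s : ℝ) (w : Fin 3 → ℝ) (τ : ℂ) : per N (s • w) τ = s * per N w τ := by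
  simp only [per, Pi.smul_apply, smul_eq_mul]
  push_cast; ring

theorem im_mob_det {a b c d : ℝ} (τ : ℂ) :
    (mob a b c d τ).im = (a * d - b * c) * τ.im / ‖(c : ℂ) * τ + d‖ ^ 2 := by
  unfold mob
  rw [Complex.div_im, ← Complex.normSq_eq_norm_sq]
  simp
  ring

/-- invariance of the majorant under the Moebius action (both orientations) -/
theorem maj_mob {N : ℝ} (hN : 0 < N) {A : (Fin 3 → ℝ) →ₗ[ℝ] (Fin 3 → ℝ)}
    (hiso : ∀ w, qb N (A w) (A w) = qb N w w) {s a b c d : ℝ}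
    (hs : s = 1 ∨ s = -1) (hdet : a * d - b * c = 1 ∨ a * d - b * c = -1)
    (hA : ∀ x, A x = s • W3c_698.sym2 N a b c d x) {τ τ' : ℍ}
    (h : (τ' : ℂ) = mob a b c d τ ∨ (τ' : ℂ) = conj (mob a b c d τ)) (x : Fin 3 → ℝ) :
    Maj N τ' (A x) = Maj N τ x := by
  have hcd : (c : ℂ) * τ + d ≠ 0 := W3c_698.denom_ne (W3c_698.cd_ne hdet) τ.im_pos
  have hD : 0 < ‖(c : ℂ) * τ + d‖ := norm_pos_iff.mpr hcd
  have hp := per_sym2 hN hdet hcd x
  -- the norm of the period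
  have hs2 : s ^ 2 = 1 := by rcases hs with h | h <;> rw [h] <;> norm_num
  have n1 : Complex.normSq (per N (A x) τ') = Complex.normSq (per N (A x) (mob a b c d τ)) := by
    rcases h with h | h
    · rw [h]
    · rw [h, per_conj, Complex.normSq_conj]
  have n2 : Complex.normSq (per N (A x) (mob a b c d τ)) * (‖(c : ℂ) * τ + d‖ ^ 2) ^ 2
      = Complex.normSq (per N x τ) := by
    rw [← hp, hA, per_smul, map_mul, map_mul, Complex.normSq_ofReal, map_pow,
      Complex.normSq_eq_norm_sq ((c : ℂ) * τ + d)]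
    linear_combination (Complex.normSq (per N (W3c_698.sym2 N a b c d x) (mob a b c d τ))
      * (‖(c : ℂ) * τ + d‖ ^ 2) ^ 2) * hs2
  have n3 : τ'.im ^ 2 * (‖(c : ℂ) * τ + d‖ ^ 2) ^ 2 = τ.im ^ 2 := by
    have i1 : τ'.im ^ 2 = (mob a b c d τ).im ^ 2 := by
      rcases h with h | h
      · rw [← UpperHalfPlane.coe_im, h]
      · rw [← UpperHalfPlane.coe_im, h, Complex.conj_im, neg_sq]
    rw [i1, im_mob_det, div_pow, div_mul_cancel₀ _ (by positivity), mul_pow]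
    have : (a * d - b * c) ^ 2 = 1 := by rcases hdet with h | h <;> rw [h] <;> norm_num
    rw [this, one_mul, UpperHalfPlane.coe_im]
  rw [Maj_eq hN, Maj_eq hN, hiso, ← n2, ← n3, n1]
  have hy' : 0 < τ'.im := τ'.im_pos
  field_simp

end Crest.Agent.R281.PE_698
end

-- ▼ part R281/PE2_698
section

/-! # R281 / PUNCT-ENDS part 2 (helper698): the ends of the period map

Main theorem `ends`: an end of the period map (monodromy `A` preserving the lattice) either tends to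
an interior point, or to a cusp carried by an isotropic lattice vector. -/

namespace Crest.Agent.R281.PE_698

open Filter Topology Set UpperHalfPlane
open Crest.Agent.R281.CL_473
open _root_.R281.Pun_924 (mob UH mem_UH mob_im mob_mem mob_mob mob_diff puncture FinEnd ParEnd)
open scoped ComplexConjugate

/-- A holomorphic function whose conjugate is holomorphic is constant. -/
theorem const_of_conj {U : Set ℂ} (hU : IsOpen U) (hc : IsPreconnected U) {u v : ℂ → ℂ}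
    (hu : DifferentiableOn ℂ u U) (hv : DifferentiableOn ℂ v U)
    (h : ∀ z ∈ U, v z = conj (u z)) {z w : ℂ} (hz : z ∈ U) (hw : w ∈ U) : u z = u w := by
  refine hU.is_const_of_deriv_eq_zero hc hu (fun x hx => ?_) hz hw
  have h1 : HasDerivAt u (deriv u x) x := ((hu x hx).differentiableAt (hU.mem_nhds hx)).hasDerivAt
  have h2 : HasDerivAt v (deriv v x) x := ((hv x hx).differentiableAt (hU.mem_nhds hx)).hasDerivAt
  have h1r := h1.hasFDerivAt.restrictScalars ℝ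
  have h2r := h2.hasFDerivAt.restrictScalars ℝ
  have h3 := ((Complex.conjCLE : ℂ ≃L[ℝ] ℂ).toContinuousLinearMap.hasFDerivAt (x := u x)).comp x h1r
  have h4 : v =ᶠ[𝓝 x] ((Complex.conjCLE : ℂ ≃L[ℝ] ℂ).toContinuousLinearMap ∘ u) := by
    filter_upwards [hU.mem_nhds hx] with y hy
    exact h y hy
  have h5 := (h3.congr_of_eventuallyEq h4).unique h2r
  have e1 := congrArg (fun L : ℂ →L[ℝ] ℂ => L 1) h5
  have e2 := congrArg (fun L : ℂ →L[ℝ] ℂ => L Complex.I) h5
  simp at e1 e2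
  have e3 : Complex.I * deriv v x = 0 := by
    rw [← e1] at e2 ⊢
    linear_combination (-(1 / 2) : ℂ) * e2
  have e4 : deriv v x = 0 := by
    rcases mul_eq_zero.mp e3 with h | h
    · exact absurd h Complex.I_ne_zero
    · exact h
  rw [e4] at e1
  simpa using e1

/-- the fixed point of an elliptic transformation -/
theorem exists_fixed {a b c d : ℝ} (hdet : a * d - b * c = 1) (hell : (a + d) ^ 2 < 4) :
    ∃ τ : ℍ, (τ : ℂ) = mob a b c d τ := by
  have hc : c ≠ 0 := by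
    rintro rfl
    have h1 : a * d = 1 := by linarith
    nlinarith [sq_nonneg (a - d)]
  set D := 4 - (a + d) ^ 2 with hD
  have hD0 : 0 < D := by rw [hD]; linarith
  set y := Real.sqrt D / (2 * |c|) with hy
  have hy0 : 0 < y := by
    rw [hy]
    have := Real.sqrt_pos.mpr hD0
    have := abs_pos.mpr hc
    positivity
  have hy2 : y ^ 2 = D / (4 * c ^ 2) := by
    rw [hy, div_pow, Real.sq_sqrt hD0.le, mul_pow, sq_abs]; norm_num
  set x := (a - d) / (2 * c) with hx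
  let τ : ℂ := ⟨x, y⟩
  have hne : (c : ℂ) * τ + d ≠ 0 := W3c_698.denom_ne (Or.inl hc) hy0
  refine ⟨⟨τ, hy0⟩, ?_⟩
  show τ = ((a : ℂ) * τ + b) / (c * τ + d)
  rw [eq_div_iff hne]
  have key1 : c * (x ^ 2 - y ^ 2) + (d - a) * x - b = 0 := by
    rw [hy2, hx, hD]
    field_simp
    linear_combination (16 : ℝ) * hdet
  have key2 : 2 * c * x + (d - a) = 0 := by
    rw [hx]; field_simp; ring
  apply Complex.ext
  · simp only [τ, Complex.mul_re, Complex.add_re, Complex.add_im, Complex.mul_im, Complex.ofReal_re,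
      Complex.ofReal_im]
    linear_combination key1
  · simp only [τ, Complex.mul_re, Complex.add_re, Complex.add_im, Complex.mul_im, Complex.ofReal_re,
      Complex.ofReal_im]
    linear_combination y * key2

/-- finite order of an integral isometry fixing a majorant -/
theorem fin_order {N : ℝ} (hN : 0 < N) {Λ : Set (Fin 3 → ℝ)} (hΛ : Lat N Λ)
    {A : (Fin 3 → ℝ) →ₗ[ℝ] (Fin 3 → ℝ)} (hA : ∀ w ∈ Λ, A w ∈ Λ)
    (hiso : ∀ w, qb N (A w) (A w) = qb N w w) {τ : ℍ} (hfix : ∀ w, Maj N τ (A w) = Maj N τ w) :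
    ∃ m : ℕ, 0 < m ∧ A ^ m = 1 := by
  have hfin := hΛ.fin_map hN (C := {τ}) (C' := {τ}) isCompact_singleton isCompact_singleton
  have hmem : ∀ n : ℕ, (A ^ n) ∈ {A : (Fin 3 → ℝ) →ₗ[ℝ] (Fin 3 → ℝ) | (∀ w ∈ Λ, A w ∈ Λ) ∧
      ∃ τ₁ ∈ ({τ} : Set ℍ), ∃ τ' ∈ ({τ} : Set ℍ), ∀ w, Maj N τ' (A w) = Maj N τ₁ w} := by
    intro n
    induction n with
    | zero => exact ⟨fun w hw => hw, τ, rfl, τ, rfl, fun w => rfl⟩
    | succ n ih =>
      obtain ⟨h1, τ1, h2, τ2, h3, h4⟩ := ih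
      rw [mem_singleton_iff] at h2 h3
      subst h2; subst h3
      refine ⟨fun w hw => ?_, _, rfl, _, rfl, fun w => ?_⟩
      · rw [pow_succ, Module.End.mul_apply]
        exact h1 _ (hA w hw)
      · rw [pow_succ, Module.End.mul_apply, h4, hfix]
  have := hfin.to_subtype
  obtain ⟨n, m, hnm, he⟩ := Finite.exists_ne_map_eq_of_infinite
    (fun n : ℕ => (⟨A ^ n, hmem n⟩ : {A : (Fin 3 → ℝ) →ₗ[ℝ] (Fin 3 → ℝ) | (∀ w ∈ Λ, A w ∈ Λ) ∧
      ∃ τ₁ ∈ ({τ} : Set ℍ), ∃ τ' ∈ ({τ} : Set ℍ), ∀ w, Maj N τ' (A w) = Maj N τ₁ w}))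
  have he' : A ^ n = A ^ m := congrArg Subtype.val he
  have hinj := iso_inj hN hiso
  have hinjn : ∀ n : ℕ, Function.Injective (A ^ n) := by
    intro n
    rw [Module.End.coe_pow]
    exact hinj.iterate n
  have gen : ∀ n m : ℕ, n < m → A ^ n = A ^ m → ∃ m : ℕ, 0 < m ∧ A ^ m = 1 := by
    intro n m h1 h2
    refine ⟨m - n, Nat.sub_pos_of_lt h1, ?_⟩
    apply LinearMap.ext
    intro x
    apply hinjn n
    have : (A ^ n) ((A ^ (m - n)) x) = (A ^ m) x := by
      rw [← Module.End.mul_apply, ← pow_add, Nat.add_sub_cancel' h1.le]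
    rw [this, ← h2]; rfl
  rcases lt_or_gt_of_ne hnm with h | h
  · exact gen n m h he'
  · exact gen m n h he'.symm

/-- the matrix of a parabolic transformation in terms of its normalisation -/
theorem par_matrix {a b c d α β γ δ r : ℝ} (hdet : a * d - b * c = 1) (hκ : α * δ - β * γ = 1)
    (h : ∀ τ : ℂ, 0 < τ.im → mob α β γ δ (mob a b c d τ) = mob α β γ δ τ + r) :
    ∃ ε : ℝ, (ε = 1 ∨ ε = -1) ∧ a = ε * (1 + r * γ * δ) ∧ b = ε * (r * δ ^ 2) ∧
      c = -(ε * (r * γ ^ 2)) ∧ d = ε * (1 - r * γ * δ) := by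
  -- the matrix `κ g`
  obtain ⟨P, hP⟩ : ∃ P, P = α * a + β * c := ⟨_, rfl⟩
  obtain ⟨Q, hQ⟩ : ∃ Q, Q = α * b + β * d := ⟨_, rfl⟩
  obtain ⟨P', hP'⟩ : ∃ P', P' = γ * a + δ * c := ⟨_, rfl⟩
  obtain ⟨Q', hQ'⟩ : ∃ Q', Q' = γ * b + δ * d := ⟨_, rfl⟩
  have hdet2 : P * Q' - Q * P' = 1 := by
    rw [hP, hQ, hP', hQ']
    linear_combination (a * d - b * c) * hκ + hdet
  have h' : ∀ τ : ℂ, 0 < τ.im → mob P Q P' Q' τ = mob α β γ δ τ + r := by
    intro τ hτ
    rw [← h τ hτ, mob_mob hκ hdet hτ, hP, hQ, hP', hQ']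
  have him : ∀ τ : ℂ, 0 < τ.im → ‖(P' : ℂ) * τ + Q'‖ ^ 2 = ‖(γ : ℂ) * τ + δ‖ ^ 2 := by
    intro τ hτ
    have h1 := congrArg Complex.im (h' τ hτ)
    rw [Complex.add_im, Complex.ofReal_im, add_zero, mob_im hdet2, mob_im hκ] at h1
    have n1 : (P' : ℂ) * τ + Q' ≠ 0 := W3c_698.denom_ne (W3c_698.cd_ne (Or.inl hdet2)) hτ
    have n2 : (γ : ℂ) * τ + δ ≠ 0 := W3c_698.denom_ne (W3c_698.cd_ne (Or.inl hκ)) hτ
    have n1' : ‖(P' : ℂ) * τ + Q'‖ ^ 2 ≠ 0 := by positivity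
    have n2' : ‖(γ : ℂ) * τ + δ‖ ^ 2 ≠ 0 := by positivity
    rw [div_eq_div_iff n1' n2'] at h1
    exact (mul_left_cancel₀ hτ.ne' h1).symm
  have ev : ∀ x y p q : ℝ, ‖(p : ℂ) * (⟨x, y⟩ : ℂ) + q‖ ^ 2 = (p * x + q) ^ 2 + (p * y) ^ 2 := by
    intro x y p q
    rw [← Complex.normSq_eq_norm_sq, Complex.normSq_apply]
    simp
    ring
  have e1 := him ⟨0, 1⟩ one_pos
  have e2 := him ⟨0, 2⟩ two_pos
  have e3 := him ⟨1, 1⟩ one_pos
  rw [ev, ev] at e1 e2 e3
  have f1 : P' ^ 2 = γ ^ 2 := by nlinarith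
  have f2 : Q' ^ 2 = δ ^ 2 := by nlinarith
  have f3 : P' * Q' = γ * δ := by nlinarith
  obtain ⟨ε, hε, g1, g2⟩ : ∃ ε : ℝ, (ε = 1 ∨ ε = -1) ∧ P' = ε * γ ∧ Q' = ε * δ := by
    rcases eq_or_ne γ 0 with h0 | h0
    · rw [h0] at f1
      have hP0 : P' = 0 := by simpa using f1
      rcases sq_eq_sq_iff_eq_or_eq_neg.mp f2 with h | h
      · exact ⟨1, Or.inl rfl, by rw [hP0, h0]; simp, by rw [h]; ring⟩
      · exact ⟨-1, Or.inr rfl, by rw [hP0, h0]; simp, by rw [h]; ring⟩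
    · rcases sq_eq_sq_iff_eq_or_eq_neg.mp f1 with h | h
      · refine ⟨1, Or.inl rfl, by rw [h]; ring, ?_⟩
        rw [h] at f3
        rw [mul_left_cancel₀ h0 f3]; ring
      · refine ⟨-1, Or.inr rfl, by rw [h]; ring, ?_⟩
        rw [h] at f3
        have : γ * (-Q') = γ * δ := by linarith
        have := mul_left_cancel₀ h0 this
        linarith
  have hε2 : ε ^ 2 = 1 := by rcases hε with h | h <;> rw [h] <;> norm_num
  have hεC : (ε : ℂ) ≠ 0 := by
    rcases hε with h | h <;> rw [h] <;> norm_num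
  -- numerators at τ = i
  have hI : (0 : ℝ) < (⟨0, 1⟩ : ℂ).im := one_pos
  have hi := h' ⟨0, 1⟩ hI
  have n2 : (γ : ℂ) * (⟨0, 1⟩ : ℂ) + δ ≠ 0 := W3c_698.denom_ne (W3c_698.cd_ne (Or.inl hκ)) hI
  have hnum : (P : ℂ) * (⟨0, 1⟩ : ℂ) + Q
      = ε * ((α + r * γ) * (⟨0, 1⟩ : ℂ) + (β + r * δ)) := by
    unfold mob at hi
    have hden : (P' : ℂ) * (⟨0, 1⟩ : ℂ) + Q' = ε * (γ * (⟨0, 1⟩ : ℂ) + δ) := by
      rw [g1, g2]; push_cast; ring
    rw [hden, div_add' _ _ _ n2, div_eq_div_iff (mul_ne_zero hεC n2) n2] at hi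
    apply mul_right_cancel₀ n2
    rw [hi]; ring
  have hPe : P = ε * (α + r * γ) := by
    have := congrArg Complex.im hnum
    simp at this
    exact this
  have hQe : Q = ε * (β + r * δ) := by
    have := congrArg Complex.re hnum
    simp at this
    exact this
  refine ⟨ε, hε, ?_, ?_, ?_, ?_⟩
  · have : a = δ * P - β * P' := by rw [hP, hP']; linear_combination (-a) * hκ
    rw [this, hPe, g1]; linear_combination ε * hκ
  · have : b = δ * Q - β * Q' := by rw [hQ, hQ']; linear_combination (-b) * hκ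
    rw [this, hQe, g2]; ring
  · have : c = -γ * P + α * P' := by rw [hP, hP']; linear_combination (-c) * hκ
    rw [this, hPe, g1]; ring
  · have : d = -γ * Q + α * Q' := by rw [hQ, hQ']; linear_combination (-d) * hκ
    rw [this, hQe, g2]; linear_combination ε * hκ

/-- the isotropic vector of the cusp `κ⁻¹ ∞` -/
noncomputable def cv (N γ δ : ℝ) : Fin 3 → ℝ := ![-(2 * γ ^ 2 / N), 2 * γ * δ / N, δ ^ 2]

theorem cv_iso {N : ℝ} (hN : 0 < N) (γ δ : ℝ) : qb N (cv N γ δ) (cv N γ δ) = 0 := by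
  simp only [qb, cv, Matrix.cons_val_zero, Matrix.cons_val_one, Matrix.cons_val]
  field_simp
  ring

theorem cv_ne {N : ℝ} (hN : 0 < N) {γ δ : ℝ} (h : γ ≠ 0 ∨ δ ≠ 0) : cv N γ δ ≠ 0 := by
  intro h0
  have h1 := congrFun h0 0
  have h2 := congrFun h0 2
  simp [cv, hN.ne'] at h1 h2
  rcases h with h | h
  · exact h h1
  · exact h h2

theorem per_cv {N : ℝ} (hN : 0 < N) (γ δ : ℝ) (τ : ℂ) : per N (cv N γ δ) τ = (γ * τ + δ) ^ 2 := by
  have hNC : (N : ℂ) ≠ 0 := by exact_mod_cast hN.ne'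
  simp only [per, cv, Matrix.cons_val_zero, Matrix.cons_val_one, Matrix.cons_val]
  push_cast
  field_simp
  ring

theorem maj_cv {N : ℝ} (hN : 0 < N) {α β γ δ : ℝ} (hκ : α * δ - β * γ = 1) (τ : ℍ) :
    Maj N τ (cv N γ δ) = 2 / N / (mob α β γ δ τ).im ^ 2 := by
  rw [Maj_eq hN, cv_iso hN, sub_zero, per_cv hN, map_pow, Complex.normSq_eq_norm_sq, mob_im hκ,
    UpperHalfPlane.coe_im]
  have hy : 0 < τ.im := τ.im_pos
  have hcd : (γ : ℂ) * τ + δ ≠ 0 := W3c_698.denom_ne (W3c_698.cd_ne (Or.inl hκ)) τ.im_pos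
  have hD : 0 < ‖(γ : ℂ) * τ + δ‖ := norm_pos_iff.mpr hcd
  field_simp

theorem maj_smul {N : ℝ} (t : ℝ) (τ : ℍ) (w : Fin 3 → ℝ) : Maj N τ (t • w) = t ^ 2 * Maj N τ w := by
  simp only [Maj, Pi.smul_apply, smul_eq_mul]; ring

/-- `sym2` of a parabolic element on its cusp vector -/
theorem sym2_cv {N : ℝ} (hN : 0 < N) {a b c d γ δ r ε : ℝ} (hε : ε = 1 ∨ ε = -1)
    (ha : a = ε * (1 + r * γ * δ)) (hb : b = ε * (r * δ ^ 2)) (hc : c = -(ε * (r * γ ^ 2)))
    (hd : d = ε * (1 - r * γ * δ)) : W3c_698.sym2 N a b c d (cv N γ δ) = cv N γ δ := by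
  have hε2 : ε ^ 2 = 1 := by rcases hε with h | h <;> rw [h] <;> norm_num
  subst ha hb hc hd
  funext i
  fin_cases i
  · simp only [W3c_698.sym2, cv, Fin.zero_eta, Matrix.cons_val_zero, Matrix.cons_val_one,
      Matrix.cons_val]
    field_simp
    linear_combination (-γ ^ 2) * hε2
  · simp only [W3c_698.sym2, cv, Fin.mk_one, Matrix.cons_val_zero, Matrix.cons_val_one,
      Matrix.cons_val]
    field_simp
    linear_combination (γ * δ) * hε2
  · simp only [W3c_698.sym2, cv, Fin.reduceFinMk, Matrix.cons_val_zero, Matrix.cons_val_one,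
      Matrix.cons_val]
    field_simp
    linear_combination (δ ^ 2) * hε2

/-- the square of the nilpotent part of a parabolic element -/
theorem sym2_sq {N : ℝ} (hN : 0 < N) {a b c d γ δ r ε : ℝ} (hε : ε = 1 ∨ ε = -1)
    (ha : a = ε * (1 + r * γ * δ)) (hb : b = ε * (r * δ ^ 2)) (hc : c = -(ε * (r * γ ^ 2)))
    (hd : d = ε * (1 - r * γ * δ)) (x : Fin 3 → ℝ) :
    W3c_698.sym2 N a b c d (W3c_698.sym2 N a b c d x) - (2 : ℝ) • W3c_698.sym2 N a b c d x + x
      = (-(N * r ^ 2) * qb N x (cv N γ δ)) • cv N γ δ := by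
  have hε2 : ε ^ 2 = 1 := by rcases hε with h | h <;> rw [h] <;> norm_num
  have hε4 : ε ^ 4 = 1 := by
    have : ε ^ 4 = (ε ^ 2) ^ 2 := by ring
    rw [this, hε2, one_pow]
  subst ha hb hc hd
  funext i
  fin_cases i
  · simp only [W3c_698.sym2, cv, qb, Fin.zero_eta, Matrix.cons_val_zero, Matrix.cons_val_one,
      Matrix.cons_val, Pi.add_apply, Pi.sub_apply, Pi.smul_apply, smul_eq_mul]
    field_simp
    ring_nf
    simp only [hε2, hε4]
    ring
  · simp only [W3c_698.sym2, cv, qb, Fin.mk_one, Matrix.cons_val_zero, Matrix.cons_val_one,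
      Matrix.cons_val, Pi.add_apply, Pi.sub_apply, Pi.smul_apply, smul_eq_mul]
    field_simp
    ring_nf
    simp only [hε2, hε4]
    ring
  · simp only [W3c_698.sym2, cv, qb, Fin.reduceFinMk, Matrix.cons_val_zero, Matrix.cons_val_one,
      Matrix.cons_val, Pi.add_apply, Pi.sub_apply, Pi.smul_apply, smul_eq_mul]
    field_simp
    ring_nf
    simp only [hε2, hε4]
    ring

end Crest.Agent.R281.PE_698
end

-- ▼ part R281/PE3_698
section

/-! # R281 / PUNCT-ENDS part 3 (helper698): main theorem -/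

namespace Crest.Agent.R281.PE_698

open Filter Topology Set UpperHalfPlane Metric
open Crest.Agent.R281.CL_473
open _root_.R281.Pun_924 (mob UH mem_UH mob_im mob_mem mob_mob mob_diff puncture FinEnd ParEnd
  parabolic_growth)
open scoped ComplexConjugate Real

/-- the interior alternative: periodic and converging to a point of `ℍ` -/
def IntEnd (φ : ℂ → ℍ) : Prop :=
  (∃ m : ℕ, 0 < m ∧ ∀ z : ℂ, 1 < z.im → φ (z + m) = φ z) ∧
    ∃ p : ℍ, ∀ W ∈ 𝓝 p, ∃ T : ℝ, ∀ z : ℂ, T ≤ z.im → φ z ∈ W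

/-- the cusp alternative -/
def CuspEnd (N : ℝ) (Λ : Set (Fin 3 → ℝ)) (φ : ℂ → ℍ) (A : (Fin 3 → ℝ) →ₗ[ℝ] (Fin 3 → ℝ)) : Prop :=
  ∃ w ∈ Λ, w ≠ 0 ∧ qb N w w = 0 ∧ (A w = w ∨ A w = -w) ∧
    (∀ δ > 0, ∃ T : ℝ, ∀ z : ℂ, T ≤ z.im → Maj N (φ z) w < δ) ∧
    ∃ r > 0, ∃ C, ∀ z : ℂ, 2 ≤ z.im → |1 / Real.sqrt (Maj N (φ z) w) - r * z.im| ≤ C

theorem intEnd_of_const {φ : ℂ → ℍ} (p : ℍ) (h : ∀ z : ℂ, 1 < z.im → φ z = p) : IntEnd φ := by
  refine ⟨⟨1, one_pos, fun z hz => ?_⟩, p, fun W hW => ⟨2, fun z hz => ?_⟩⟩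
  · rw [h z hz, h _ (by simpa using hz)]
  · rw [h z (by linarith)]; exact mem_of_mem_nhds hW

theorem intEnd_of_finEnd {φ : ℂ → ℍ} (h : FinEnd (fun z => (φ (z + Complex.I) : ℂ))) :
    IntEnd φ := by
  obtain ⟨m, hm, h, hd, hmaps, heq⟩ := h
  have hmR : (0 : ℝ) < m := by exact_mod_cast hm
  have hmC : (m : ℂ) ≠ 0 := by exact_mod_cast hm.ne'
  have hval : ∀ z : ℂ, 1 < z.im →
      (φ z : ℂ) = h (Complex.exp (2 * π * Complex.I * (z - Complex.I) / m)) := by
    intro z hz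
    have := heq (z - Complex.I) (by simpa using hz)
    simpa using this
  have h0 : (0 : ℂ) ∈ ball (0 : ℂ) 1 := mem_ball_self one_pos
  have hp : 0 < (h 0).im := hmaps h0
  refine ⟨⟨m, hm, fun z hz => ?_⟩, ⟨h 0, hp⟩, fun W hW => ?_⟩
  · apply UpperHalfPlane.ext
    rw [hval z hz, hval (z + m) (by simpa using hz)]
    congr 1
    have : 2 * π * Complex.I * (z + m - Complex.I) / m
        = 2 * π * Complex.I * (z - Complex.I) / m + 2 * π * Complex.I := by
      field_simp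
      ring
    rw [this, Complex.exp_add, Complex.exp_two_pi_mul_I, mul_one]
  · rw [UpperHalfPlane.isEmbedding_coe.nhds_eq_comap, mem_comap] at hW
    obtain ⟨V, hV, hVW⟩ := hW
    have hcont : ContinuousAt h 0 :=
      ((hd 0 h0).differentiableAt (isOpen_ball.mem_nhds h0)).continuousAt
    have h1 : h ⁻¹' V ∈ 𝓝 (0 : ℂ) := hcont hV
    obtain ⟨ρ, hρ, hball⟩ := Metric.mem_nhds_iff.mp h1
    have hlim : Tendsto (fun t : ℝ => Real.exp (-(2 * π * t / m))) atTop (𝓝 0) := by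
      apply Real.tendsto_exp_neg_atTop_nhds_zero.comp
      have : (fun t : ℝ => 2 * π * t / m) = fun t : ℝ => (2 * π / m) * t := by
        funext t; ring
      rw [this]
      exact tendsto_id.const_mul_atTop (by positivity)
    obtain ⟨T0, hT0⟩ := eventually_atTop.mp (hlim.eventually (gt_mem_nhds hρ))
    refine ⟨max T0 1 + 1, fun z hz => ?_⟩
    have hz1 : 1 < z.im := by
      have := le_max_right T0 1
      linarith
    have hz0 : T0 ≤ z.im - 1 := by
      have := le_max_left T0 1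
      linarith
    apply hVW
    show (φ z : ℂ) ∈ V
    rw [hval z hz1]
    apply hball
    rw [mem_ball_zero_iff, Complex.norm_exp]
    have hre : (2 * π * Complex.I * (z - Complex.I) / m).re = -(2 * π * (z.im - 1) / m) := by
      have : 2 * π * Complex.I * (z - Complex.I) / m
          = ((2 * π / m : ℝ) : ℂ) * (Complex.I * (z - Complex.I)) := by
        push_cast; ring
      rw [this, Complex.re_ofReal_mul]
      simp
      ring
    rw [hre]
    exact hT0 _ hz0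

theorem cuspEnd_of_parEnd {N : ℝ} (hN : 0 < N) {Λ : Set (Fin 3 → ℝ)} (hΛ : Lat N Λ)
    (hsub : ∀ x ∈ Λ, ∀ y ∈ Λ, x - y ∈ Λ) {φ : ℂ → ℍ}
    {A : (Fin 3 → ℝ) →ₗ[ℝ] (Fin 3 → ℝ)} (hA : ∀ w ∈ Λ, A w ∈ Λ)
    {s a b c d : ℝ} (hs : s = 1 ∨ s = -1) (hdet : a * d - b * c = 1)
    (hAx : ∀ x, A x = s • W3c_698.sym2 N a b c d x)
    (h : ParEnd (fun z => (φ (z + Complex.I) : ℂ)) a b c d) :
    CuspEnd N Λ φ A := by
  obtain ⟨α, β, γ, δ, r, hκ, hr, hκg, h, hd, heq⟩ := h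
  obtain ⟨ε, hε, ea, eb, ec, ed⟩ := par_matrix hdet hκ hκg
  have hs2 : s * s = 1 := by rcases hs with h | h <;> rw [h] <;> norm_num
  have hγδ : γ ≠ 0 ∨ δ ≠ 0 := W3c_698.cd_ne (Or.inl hκ)
  set v := cv N γ δ with hv
  have hv0 : v ≠ 0 := cv_ne hN hγδ
  have hAv : A v = s • v := by rw [hAx, sym2_cv hN hε ea eb ec ed]
  -- a lattice vector not orthogonal to `v`
  obtain ⟨x, hxΛ, hx⟩ : ∃ x ∈ Λ, qb N x v ≠ 0 := by
    by_contra hcon
    push Not at hcon
    let L : (Fin 3 → ℝ) →ₗ[ℝ] ℝ :=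
      { toFun := fun x => qb N x v
        map_add' := fun x y => by simp only [qb, Pi.add_apply]; ring
        map_smul' := fun t x => by
          simp only [qb, Pi.smul_apply, smul_eq_mul, RingHom.id_apply]; ring }
    have hle : Submodule.span ℝ Λ ≤ LinearMap.ker L := Submodule.span_le.mpr hcon
    rw [hΛ.span] at hle
    have hall : ∀ x, qb N x v = 0 := fun x => hle (Submodule.mem_top : x ∈ ⊤)
    apply hv0
    have h0 := hall ![0, 0, 1]
    have h1 := hall ![0, 1, 0]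
    have h2 := hall ![1, 0, 0]
    simp [qb] at h0 h1 h2
    funext i
    fin_cases i
    · exact h0
    · rcases h1 with h1 | h1
      · exact absurd h1 hN.ne'
      · exact h1
    · exact h2
  set t : ℝ := -(N * r ^ 2) * qb N x v with ht
  have ht0 : t ≠ 0 := by
    rw [ht]
    exact mul_ne_zero (neg_ne_zero.mpr (by positivity)) hx
  have hw : A (A x) - (2 * s) • A x + x = t • v := by
    rw [ht, ← sym2_sq hN hε ea eb ec ed x, hAx (A x), hAx x, ← sym2_smul, smul_smul, smul_smul, hs2,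
      one_smul]
    congr 2
    rw [mul_assoc, hs2, mul_one]
  have hwΛ : t • v ∈ Λ := by
    rw [← hw]
    have hx1 := hA _ hxΛ
    have hx2 := hA _ hx1
    rcases hs with h | h
    · have h1 := hsub _ (hsub _ hx2 _ hx1) _ (hsub _ hx1 _ hxΛ)
      convert h1 using 1
      rw [h, mul_one, two_smul]; abel
    · have h0 := hsub _ hxΛ _ hxΛ
      have hn : ∀ y ∈ Λ, -y ∈ Λ := by
        intro y hy
        have := hsub _ h0 _ hy
        simpa using this
      have h1 := hsub _ (hsub _ hx2 _ (hn _ hx1)) _ (hn _ (hsub _ hx1 _ (hn _ hxΛ)))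
      convert h1 using 1
      rw [h, mul_neg, mul_one, _root_.neg_smul, two_smul]; abel
  -- majorant along the end
  obtain ⟨C, hC⟩ := parabolic_growth hd (r := r) heq
  set k : ℝ := Real.sqrt (2 / N) * |t| with hk
  have hk0 : 0 < k := by
    rw [hk]
    have := abs_pos.mpr ht0
    have : 0 < Real.sqrt (2 / N) := Real.sqrt_pos.mpr (by positivity)
    positivity
  have hk2 : k ^ 2 = 2 / N * t ^ 2 := by
    rw [hk, mul_pow, Real.sq_sqrt (by positivity), sq_abs]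
  have hmajw : ∀ z : ℂ, Maj N (φ z) (t • v) = (k / (mob α β γ δ (φ z)).im) ^ 2 := by
    intro z
    rw [maj_smul, hv, maj_cv hN hκ, div_pow, hk2]
    ring
  have himpos : ∀ z : ℂ, 0 < (mob α β γ δ (φ z)).im := fun z => mob_mem hκ (φ z).im_pos
  have hsqrt : ∀ z : ℂ, 1 / Real.sqrt (Maj N (φ z) (t • v)) = (mob α β γ δ (φ z)).im / k := by
    intro z
    have := himpos z
    rw [hmajw, Real.sqrt_sq (by positivity), one_div_div]
  have hgrow : ∀ z : ℂ, 2 ≤ z.im → |(mob α β γ δ (φ z)).im - r * (z.im - 1)| ≤ C := by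
    intro z hz
    have := (hC (z - Complex.I) (by simp; linarith)).1
    simpa using this
  have hC0 : 0 ≤ C := (abs_nonneg _).trans (hgrow (2 * Complex.I) (by simp))
  refine ⟨t • v, hwΛ, smul_ne_zero ht0 hv0, ?_, ?_, ?_, r / k, by positivity, (C + r) / k, ?_⟩
  · have h1 : qb N (t • v) (t • v) = t ^ 2 * qb N v v := by
      simp only [qb, Pi.smul_apply, smul_eq_mul]; ring
    rw [h1, hv, cv_iso hN, mul_zero]
  · rw [map_smul, hAv]
    rcases hs with h | h
    · left; rw [h, one_smul]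
    · right; rw [h, _root_.neg_smul, one_smul, smul_neg]
  · intro δ' hδ'
    refine ⟨max 2 ((k / Real.sqrt δ' + C + r + 1) / r), fun z hz => ?_⟩
    have hz2 : 2 ≤ z.im := (le_max_left _ _).trans hz
    have hz3 : k / Real.sqrt δ' + C + r + 1 ≤ r * z.im := by
      have := (le_max_right _ _).trans hz
      rw [div_le_iff₀ hr] at this
      linarith
    have h1 := abs_le.mp (hgrow z hz2)
    have h2 : k / Real.sqrt δ' < (mob α β γ δ (φ z)).im := by
      have := h1.1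
      nlinarith
    have hsδ : 0 < Real.sqrt δ' := Real.sqrt_pos.mpr hδ'
    have h3 : k / (mob α β γ δ (φ z)).im < Real.sqrt δ' := by
      rw [div_lt_iff₀ (himpos z)]
      rw [div_lt_iff₀ hsδ] at h2
      linarith
    rw [hmajw, ← Real.sq_sqrt hδ'.le]
    have := himpos z
    exact pow_lt_pow_left₀ h3 (by positivity) two_ne_zero
  · intro z hz
    rw [hsqrt]
    have h1 := hgrow z hz
    have e : (mob α β γ δ (φ z)).im / k - r / k * z.im
        = (((mob α β γ δ (φ z)).im - r * (z.im - 1)) - r) / k := by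
      field_simp; ring
    rw [e, abs_div, abs_of_pos hk0]
    gcongr
    calc |(mob α β γ δ (φ z)).im - r * (z.im - 1) - r|
        ≤ |(mob α β γ δ (φ z)).im - r * (z.im - 1)| + |r| := abs_sub _ _
      _ ≤ C + r := by rw [abs_of_pos hr]; linarith

/-- **PUNCT-ENDS.** -/
theorem ends {N : ℝ} (hN : 0 < N) {Λ : Set (Fin 3 → ℝ)} (hΛ : Lat N Λ)
    (hsub : ∀ x ∈ Λ, ∀ y ∈ Λ, x - y ∈ Λ) {φ : ℂ → ℍ}
    (hφ : DifferentiableOn ℂ (fun z => (φ z : ℂ)) {z | 1 < z.im})
    {A : (Fin 3 → ℝ) →ₗ[ℝ] (Fin 3 → ℝ)} (hA : ∀ w ∈ Λ, A w ∈ Λ)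
    (hiso : ∀ w, qb N (A w) (A w) = qb N w w)
    (hmaj : ∀ z : ℂ, 1 < z.im → ∀ w, Maj N (φ (z + 1)) (A w) = Maj N (φ z) w) :
    IntEnd φ ∨ CuspEnd N Λ φ A := by
  obtain ⟨s, a, b, c, d, hs, hdet, hAx⟩ := W3c_698.exists_sym2 hN A (fun x y => by
    rw [qb_eq, qb_eq]; exact qb_polar hiso x y)
  have hsurj := iso_surj hN hiso
  -- the Moebius relation
  have hrel : ∀ z : ℂ, 1 < z.im → ∀ τ' : ℍ,
      ((τ' : ℂ) = mob a b c d (φ z) ∨ (τ' : ℂ) = conj (mob a b c d (φ z))) → φ (z + 1) = τ' := by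
    intro z hz τ' hτ'
    apply maj_inj hN
    intro w
    obtain ⟨x, rfl⟩ := hsurj w
    rw [hmaj z hz, maj_mob hN hiso hs hdet hAx hτ']
  have hshift : MapsTo (fun z : ℂ => z + Complex.I) UH {z | 1 < z.im} := by
    intro z hz
    have : 0 < z.im := hz
    simp
    exact this
  rcases hdet with hdet | hdet
  · -- orientation preserving
    have hrel1 : ∀ z : ℂ, 1 < z.im → (φ (z + 1) : ℂ) = mob a b c d (φ z) := by
      intro z hz
      have := hrel z hz ⟨mob a b c d (φ z), mob_mem hdet (φ z).im_pos⟩ (Or.inl rfl)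
      rw [this]
    have hd : DifferentiableOn ℂ (fun z => (φ (z + Complex.I) : ℂ)) UH :=
      hφ.comp (differentiable_id.add_const _).differentiableOn hshift
    have hm : MapsTo (fun z => (φ (z + Complex.I) : ℂ)) UH UH := fun z _ => (φ _).im_pos
    have heq : ∀ z : ℂ, 0 < z.im → (φ (z + 1 + Complex.I) : ℂ)
        = mob a b c d (φ (z + Complex.I)) := by
      intro z hz
      rw [← hrel1 (z + Complex.I) (by simpa using hz)]
      congr 2; ring
    have hell : (a + d) ^ 2 < 4 → ∃ m : ℕ, 0 < m ∧ ∀ z : ℂ, 0 < z.im →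
        (φ (z + m + Complex.I) : ℂ) = φ (z + Complex.I) := by
      intro hlt
      obtain ⟨τ0, hτ0⟩ := exists_fixed hdet hlt
      obtain ⟨m, hm, hAm⟩ := fin_order hN hΛ hA hiso (τ := τ0)
        (fun w => maj_mob hN hiso hs (Or.inl hdet) hAx (Or.inl hτ0) w)
      refine ⟨m, hm, fun z hz => ?_⟩
      have hn : ∀ n : ℕ, ∀ w, Maj N (φ (z + Complex.I + n)) ((A ^ n) w)
          = Maj N (φ (z + Complex.I)) w := by
        intro n
        induction n with
        | zero => intro w; simp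
        | succ n ih =>
          intro w
          rw [pow_succ', Module.End.mul_apply, ← ih w]
          have := hmaj (z + Complex.I + n) (by simpa using hz) ((A ^ n) w)
          rw [← this]
          congr 2
          push_cast; ring
      have h1 : φ (z + Complex.I + m) = φ (z + Complex.I) := by
        apply maj_inj hN
        intro w
        have := hn m w
        rw [hAm] at this
        exact this
      rw [← h1]
      congr 2; ring
    rcases puncture hd hm hdet heq hell with h | h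
    · exact Or.inl (intEnd_of_finEnd h)
    · exact Or.inr (cuspEnd_of_parEnd hN hΛ hsub hA hs hdet hAx h)
  · -- orientation reversing: the period map is constant
    left
    have hU : IsOpen {z : ℂ | 1 < z.im} := isOpen_lt continuous_const Complex.continuous_im
    have hUc : IsPreconnected {z : ℂ | 1 < z.im} := (convex_halfSpace_im_gt 1).isPreconnected
    have hne : ∀ z : ℂ, (c : ℂ) * (φ z : ℂ) + d ≠ 0 := fun z =>
      W3c_698.denom_ne (W3c_698.cd_ne (Or.inr hdet)) (φ z).im_pos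
    have hrel1 : ∀ z : ℂ, 1 < z.im → mob a b c d (φ z) = conj (φ (z + 1) : ℂ) := by
      intro z hz
      have him : 0 < (conj (mob a b c d (φ z))).im := by
        rw [Complex.conj_im, im_mob_det, hdet]
        have hD := norm_pos_iff.mpr (hne z)
        have hy : 0 < (φ z : ℂ).im := (φ z).im_pos
        have : -(-1 * (φ z : ℂ).im / ‖(c : ℂ) * (φ z : ℂ) + d‖ ^ 2)
            = (φ z : ℂ).im / ‖(c : ℂ) * (φ z : ℂ) + d‖ ^ 2 := by ring
        rw [this]
        positivity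
      have := hrel z hz ⟨conj (mob a b c d (φ z)), him⟩ (Or.inr rfl)
      rw [this]
      simp
    have hv : DifferentiableOn ℂ (fun z => mob a b c d (φ z)) {z | 1 < z.im} := by
      intro z hz
      unfold mob
      exact (((hφ z hz).const_mul _).add_const _).div (((hφ z hz).const_mul _).add_const _) (hne z)
    have hu : DifferentiableOn ℂ (fun z => (φ (z + 1) : ℂ)) {z | 1 < z.im} :=
      hφ.comp (differentiable_id.add_const _).differentiableOn (fun z hz => by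
        have : 1 < z.im := hz
        simpa using this)
    have hconst := fun (z w : ℂ) (hz : 1 < z.im) (hw : 1 < w.im) =>
      const_of_conj hU hUc hu hv (fun z hz => hrel1 z hz) hz hw
    apply intEnd_of_const (φ (2 * Complex.I))
    intro z hz
    apply UpperHalfPlane.ext
    have := hconst (z - 1) (2 * Complex.I - 1) (by simpa using hz) (by simp)
    simpa using this


end Crest.Agent.R281.PE_698
end

-- ▼ part R281/As7_957
section

/-!
# R281 / As7 (helper957): **the curve part of B4**, final form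
-/

set_option autoImplicit false
set_option linter.style.haveILetI false

open Polynomial Set Filter Topology UpperHalfPlane
open scoped Polynomial.Bivariate

namespace Crest.Agent.R281.As_957

open Ends1_989 CL_473 Nc_957

/-- helper698's theorem `ends` -/
theorem endsProp {N : ℝ} (hN : 0 < N) {Λ : Set (Fin 3 → ℝ)} (hΛ : Lat N Λ)
    (hsub : ∀ x ∈ Λ, ∀ y ∈ Λ, x - y ∈ Λ) : EndsProp N Λ := by
  intro φ hφ A hA hiso hmaj
  rcases PE_698.ends hN hΛ hsub hφ hA hiso hmaj with ⟨-, h⟩ | h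
  · exact Or.inl h
  · exact Or.inr h

variable {f : ℂ[X][Y]} {δ : ℂ[X]} {N : ℝ} {Λ : Set (Fin 3 → ℝ)} {G : Type*} [Group G] {E : Type*}
  [MulAction G E]

/-- **B4**: for all but countably many abscissas the vertical ray through the period of a marked
member lifts completely and runs into one end of the curve, over the cusp `e = (0,0,1)` itself. -/
theorem exists_ray (D : Geom f δ N Λ G E) [Countable G] (hN : 0 < N) (hΛ : Lat N Λ)
    (hsub : ∀ x ∈ Λ, ∀ y ∈ Λ, x - y ∈ Λ) (hf : f.Monic) (hδ : δ ≠ 0) (hs : Sep f δ) :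
    ∃ Nl : Set ℝ, Nl.Countable ∧ ∀ x₀ : D.T, (D.Ψ x₀).re ∉ Nl → Nonempty (Ray D x₀) :=
  exists_ray_of_ends D hN hΛ (endsProp hN hΛ hsub) hf hδ hs


end Crest.Agent.R281.As_957
end

-- ▼ part R281/Am2_957

/-!
# R281 / Am2 (helper957): pull back of local transports, geometry over the `m`-dimensional model,
restriction to lines
-/

set_option autoImplicit false
set_option linter.style.haveILetI false
set_option linter.unusedSectionVars false

open Polynomial Set Filter Topology UpperHalfPlane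
open scoped Polynomial.Bivariate

namespace Crest.Agent.R281.Am_957

open Sl_957 Ends1_989 CL_473 Nc_957 As_957

noncomputable section

section pull

variable {B B' : Type*} [TopologicalSpace B] [TopologicalSpace B'] {G : Type*} [Group G]
  {E : Type*} [MulAction G E]

/-- points of the pulled back cover -/
abbrev PE (L : LS B G E) (ι : B' → B) : Type _ := {y : B' × E // L.p y.2 = ι y.1}

instance (L : LS B G E) (ι : B' → B) : MulAction G (PE L ι) where
  smul g y := ⟨(y.1.1, g • y.1.2), by rw [L.p_smul]; exact y.2⟩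
  one_smul y := Subtype.ext (Prod.ext rfl (one_smul G y.1.2))
  mul_smul g h y := Subtype.ext (Prod.ext rfl (mul_smul g h y.1.2))

theorem PE.smul_def (L : LS B G E) (ι : B' → B) (g : G) (y : PE L ι) :
    (g • y).1 = (y.1.1, g • y.1.2) := rfl

open Classical in
/-- the transport of the pulled back cover -/
def PE.s (L : LS B G E) (ι : B' → B) (y : PE L ι) (q : B') : PE L ι :=
  if h : ι q ∈ L.U (L.p y.1.2) then ⟨(q, L.s y.1.2 (ι q)), L.p_s _ _ h⟩ else y

theorem PE.s_of (L : LS B G E) (ι : B' → B) (y : PE L ι) {q : B'} (h : ι q ∈ L.U (L.p y.1.2)) :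
    (PE.s L ι y q).1 = (q, L.s y.1.2 (ι q)) := by
  unfold PE.s
  rw [dif_pos h]

/-- **pull back of local transports** -/
def pull (L : LS B G E) (ι : B' → B) (hι : Continuous ι) : LS B' G (PE L ι) where
  p y := y.1.1
  U q := ι ⁻¹' L.U (ι q)
  U_open q := (L.U_open _).preimage hι
  U_mem q := L.U_mem _
  s := PE.s L ι
  p_s y q hq := by
    have h : ι q ∈ L.U (L.p y.1.2) := by rw [y.2]; exact hq
    rw [PE.s_of L ι y h]
  s_self y := by
    have h : ι y.1.1 ∈ L.U (L.p y.1.2) := by rw [y.2]; exact L.U_mem _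
    apply Subtype.ext
    rw [PE.s_of L ι y h, ← y.2, L.s_self]
  surj q0 y hy := by
    have hy' : L.p y.1.2 ∈ L.U (ι q0) := by rw [y.2]; exact hy
    obtain ⟨x, hx, hxy⟩ := L.surj (ι q0) y.1.2 hy'
    refine ⟨⟨(q0, x), hx⟩, rfl, ?_⟩
    have h : ι y.1.1 ∈ L.U (L.p x) := by rw [hx]; exact hy
    apply Subtype.ext
    rw [PE.s_of L ι _ h]
    refine Prod.ext rfl ?_
    change L.s x (ι y.1.1) = y.1.2
    rw [← y.2]
    exact hxy
  inj x y hxy q hq hs := by
    have hx : ι q ∈ L.U (L.p x.1.2) := by rw [x.2]; exact hq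
    have hxy' : x.1.1 = y.1.1 := hxy
    have hy : ι q ∈ L.U (L.p y.1.2) := by rw [y.2, ← hxy']; exact hq
    have h1 := congrArg Subtype.val hs
    rw [PE.s_of L ι x hx, PE.s_of L ι y hy] at h1
    apply Subtype.ext
    exact Prod.ext hxy' (L.inj _ _ (by rw [x.2, y.2, hxy']) _ hx (congrArg Prod.snd h1))
  loc x q1 hq1 := by
    have h1 : ι q1 ∈ L.U (L.p x.1.2) := by rw [x.2]; exact hq1
    have h2 := (hι.tendsto q1).eventually (L.loc x.1.2 (ι q1) h1)
    have h3 := (hι.tendsto q1).eventually ((L.U_open (L.p x.1.2)).mem_nhds h1)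
    have h4 := (hι.tendsto q1).eventually ((L.U_open (ι q1)).mem_nhds (L.U_mem (ι q1)))
    filter_upwards [h2, h3, h4] with q hq2 hq3 hq4
    have h5 : (PE.s L ι x q1).1 = (q1, L.s x.1.2 (ι q1)) := PE.s_of L ι x h1
    have h6 : ι q ∈ L.U (L.p (PE.s L ι x q1).1.2) := by
      rw [h5]
      change ι q ∈ L.U (L.p (L.s x.1.2 (ι q1)))
      rw [L.p_s _ _ h1]
      exact hq4
    apply Subtype.ext
    rw [PE.s_of L ι x hq3, PE.s_of L ι _ h6, h5]
    exact Prod.ext rfl hq2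
  p_smul g x := rfl
  s_smul g x q hq := by
    have h : ι q ∈ L.U (L.p x.1.2) := by rw [x.2]; exact hq
    have h' : ι q ∈ L.U (L.p (g • x).1.2) := by
      change ι q ∈ L.U (L.p (g • x.1.2))
      rw [L.p_smul]
      exact h
    apply Subtype.ext
    rw [PE.s_of L ι _ h', PE.smul_def L ι g (PE.s L ι x q), PE.s_of L ι x h]
    exact Prod.ext rfl (L.s_smul g x.1.2 _ h)
  trans x y hxy := by
    have hxy' : x.1.1 = y.1.1 := hxy
    obtain ⟨g, hg⟩ := L.trans x.1.2 y.1.2 (by rw [x.2, y.2, hxy'])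
    exact ⟨g, Subtype.ext (Prod.ext hxy'.symm hg)⟩

end pull

/-- **the geometry over the `m`-dimensional model** -/
structure GeomM {k₀ R : Type*} [Field k₀] [Algebra k₀ ℂ] (M : Fmt k₀ R) (N : ℝ)
    (Λ : Set (Fin 3 → ℝ)) (G : Type*) [Group G] (E : Type*) [MulAction G E] extends
    LS (QM M) G E where
  /-- action on the ternary lattice -/
  R : UpRep N G
  mem : ∀ g, ∀ w ∈ Λ, R.ρ g w ∈ Λ
  /-- the period map -/
  Φ : E → ℍ
  Φ_smul : ∀ g x, (Φ (g • x) : ℂ) = mv N (R.ρ g) (Φ x)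
  /-- holomorphic along the transports, in the coordinate `z ∈ ℂ^m` -/
  Φ_hol : ∀ x, ∃ φ : (Fin M.m → ℂ) → ℂ, AnalyticAt ℂ φ (p x).1.1 ∧
    ∀ᶠ q in 𝓝 (p x), (Φ (s x q) : ℂ) = φ q.1.1

namespace GeomM

variable {k₀ R : Type*} [Field k₀] [Algebra k₀ ℂ] {M : Fmt k₀ R} {N : ℝ} {Λ : Set (Fin 3 → ℝ)}
  {G : Type*} [Group G] {E : Type*} [MulAction G E] (D : GeomM M N Λ G E)

/-- the total space -/
abbrev T : Type _ := D.toLS.Tot

/-- the coordinate in `ℂ^m` -/
def z (x : D.T) : Fin M.m → ℂ := (D.toLS.pr x).1.1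

/-- the period map on the total space -/
def Ψ (x : D.T) : ℍ := D.Φ x

/-- inclusion of the curve over a line -/
def lm (M : Fmt k₀ R) (a d : Fin M.m → ℂ) (q : Qs (M.lf a d) (M.lδ a d)) : QM M :=
  ⟨(fun j => a j + q.1.1 * d j, q.1.2), (M.on_iff a d q.1.1 q.1.2).2 q.2⟩

theorem continuous_lm (M : Fmt k₀ R) (a d : Fin M.m → ℂ) : Continuous (lm M a d) := by
  unfold lm
  fun_prop

/-- **restriction to a line** -/
def line (a d : Fin M.m → ℂ) :
    Geom (M.lf a d) (M.lδ a d) N Λ G (PE D.toLS (lm M a d)) where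
  toLS := pull D.toLS (lm M a d) (continuous_lm M a d)
  R := D.R
  mem := D.mem
  Φ y := D.Φ y.1.2
  Φ_smul g y := D.Φ_smul g y.1.2
  Φ_hol y := by
    obtain ⟨φ, hφ, h⟩ := D.Φ_hol y.1.2
    have hy : D.p y.1.2 = lm M a d y.1.1 := y.2
    rw [hy] at hφ h
    refine ⟨fun u => φ fun j => a j + u * d j, ?_, ?_⟩
    · have h1 : AnalyticAt ℂ (fun (u : ℂ) (j : Fin M.m) => a j + u * d j) y.1.1.1.1 := by
        rw [analyticAt_pi_iff]
        intro j
        exact analyticAt_const.add (analyticAt_id.mul analyticAt_const)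
      exact AnalyticAt.fun_comp hφ h1
    · have h2 := ((continuous_lm M a d).tendsto y.1.1).eventually h
      have h3 : ∀ᶠ q in 𝓝 y.1.1, lm M a d q ∈ D.U (D.p y.1.2) :=
        ((continuous_lm M a d).tendsto y.1.1).eventually
          ((D.U_open (D.p y.1.2)).mem_nhds (by rw [hy]; exact D.U_mem _))
      change ∀ᶠ q in 𝓝 y.1.1, (D.Φ (PE.s D.toLS (lm M a d) y q).1.2 : ℂ) = _
      filter_upwards [h2, h3] with q hq2 hq3
      rw [PE.s_of D.toLS (lm M a d) y hq3]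
      exact hq2

/-- a marked member over a point of the line -/
def onLine (a d : Fin M.m → ℂ) (x : D.T) (u : ℂ) (hx : D.z x = fun j => a j + u * d j) :
    (D.line a d).T :=
  (⟨(⟨(u, (D.toLS.pr x).1.2), (M.on_iff a d u (D.toLS.pr x).1.2).1 (by
    have h : M.On (D.z x) (D.toLS.pr x).1.2 := (D.toLS.pr x).2
    rw [hx] at h
    exact h)⟩, x), by
    apply Subtype.ext
    exact Prod.ext hx rfl⟩ : PE D.toLS (lm M a d))


theorem Ψ_onLine (a d : Fin M.m → ℂ) (x : D.T) (u : ℂ) (hx : D.z x = fun j => a j + u * d j) :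
    (D.line a d).Ψ (D.onLine a d x u hx) = D.Ψ x := rfl

/-- the original member -/
def toT (a d : Fin M.m → ℂ) (y : (D.line a d).T) : D.T := (y : PE D.toLS (lm M a d)).1.2

theorem Ψ_toT (a d : Fin M.m → ℂ) (y : (D.line a d).T) : D.Ψ (D.toT a d y) = (D.line a d).Ψ y := rfl

theorem z_toT (a d : Fin M.m → ℂ) (y : (D.line a d).T) :
    D.z (D.toT a d y) = fun j => a j + (D.line a d).u y * d j := by
  have h := congrArg (fun q : QM M => q.1.1) (y : PE D.toLS (lm M a d)).2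
  exact h

theorem toT_onLine (a d : Fin M.m → ℂ) (x : D.T) (u : ℂ) (hx : D.z x = fun j => a j + u * d j) :
    D.toT a d (D.onLine a d x u hx) = x := rfl

/-- the map of total spaces is continuous -/
theorem continuous_toT (a d : Fin M.m → ℂ) : Continuous (D.toT a d) := by
  apply (D.line a d).toLS.continuous_of
  intro y
  have hy : D.p (y : PE D.toLS (lm M a d)).1.2 = lm M a d (y : PE D.toLS (lm M a d)).1.1 :=
    (y : PE D.toLS (lm M a d)).2
  set q₀ : Qs (M.lf a d) (M.lδ a d) := (y : PE D.toLS (lm M a d)).1.1 with hq₀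
  set x : D.T := D.toT a d y with hx
  have hmem : lm M a d q₀ ∈ D.U (D.p x) := by
    change lm M a d q₀ ∈ D.U (D.p (y : PE D.toLS (lm M a d)).1.2)
    rw [hy]
    exact D.U_mem _
  have h1 : ContinuousAt (D.toLS.tr x) (lm M a d q₀) :=
    (D.toLS.continuousOn_tr x).continuousAt ((D.U_open _).mem_nhds hmem)
  have h2 : ContinuousAt (fun q => D.toLS.tr x (lm M a d q)) q₀ :=
    h1.comp (continuous_lm M a d).continuousAt
  change ContinuousAt (fun q => D.toT a d ((D.line a d).toLS.tr y q)) q₀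
  refine h2.congr ?_
  have h3 : ∀ᶠ q in 𝓝 q₀, lm M a d q ∈ D.U (D.p x) :=
    ((continuous_lm M a d).tendsto q₀).eventually ((D.U_open _).mem_nhds hmem)
  filter_upwards [h3] with q hq
  exact (congrArg Prod.snd (PE.s_of D.toLS (lm M a d) y hq)).symm

end GeomM

end

end Crest.Agent.R281.Am_957
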