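import Crest.Agent.R281.Cdr10_234
import Crest.Agent.R281.Ehr7_268

/-!
# R281 (S0424), CDR (helper234), part 11: the lattice of integral classes, adapters

`B : HBas C` (Cdr10): the literal forms consumed by 770 (`RSpan`, `IFin`, `RInt`), 311 (`Bas`),
902 (`Ctx.span`), 473 (`IsInt B.basis (Lz C)`), density and countability of the rational classes.
-/

set_option autoImplicit false
set_option linter.unusedSectionVars false
set_option maxSynthPendingDepth 3

open Set Filter Topology
open scoped ContDiff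

namespace Crest.Agent.R281.Cdr_234

open Crest.Agent.R281.HkR_835 Crest.Agent.R281.Dif_268
open Crest.Agent.R281.Ti_846 (F1 IsD Ex d1)
open Crest.Agent.R281.Ehr7_268 (cl clsQ Lz cl_mem_clsQ cl_surj)

noncomputable section

namespace HBas

variable {V X : Type} [NormedAddCommGroup V] [NormedSpace ℝ V] [TopologicalSpace X]
  {C : RCh V X} {G : AddSubgroup ℝ}

/-- 311's `Bas C` -/
theorem bas (B : HBas C) : ∃ (N : ℕ) (b : Fin N → F2 C), (∀ k, IntF (b k)) ∧
    (∀ w : F2 C, ∃ t : Fin N → ℝ, Ex (w - ∑ k, t k • b k)) ∧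
    ∀ t : Fin N → ℝ, IntF (∑ k, t k • b k) → ∀ k, ∃ m : ℤ, t k = m :=
  ⟨B.N, B.b, B.int, B.span, fun t ht => (B.intF_iff t).1 ht⟩






/-- the integral classes have integral coordinates: 473's `IsInt B.basis (Lz C)` -/
theorem isInt (B : HBas C) : ∀ x ∈ Lz C, ∀ k, ∃ m : ℤ, B.basis.repr x k = m := by
  intro x hx k
  obtain ⟨w, rfl⟩ := cl_surj x
  exact B.intF_iff_co.1 (cl_mem_clsQ.1 hx) k








end HBas

end

end Crest.Agent.R281.Cdr_234
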