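import Mathlib
import Crest.Agent.R281.CL4_473

-- ▼ part R281/CL5_473
section

/-!
# CUSP-LIFT, part 5 (row 281, helper473): `Dat` from a marked cover of a curve with ends
-/

namespace Crest.Agent.R281.CL_473

open Filter Topology Set UpperHalfPlane

/-- a space with a compact core and finitely many ends -/
structure QEnds (Q : Type*) [TopologicalSpace Q] (ι : Type*) where
  K0 : Set Q
  K0_comp : IsCompact K0
  η : ι → ℂ → Q
  η_cont : ∀ i, ContinuousOn (η i) {z | 1 ≤ z.im}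
  η_per : ∀ i (z : ℂ), 1 ≤ z.im → η i (z + 1) = η i z
  cover : ∀ q, q ∈ K0 ∨ ∃ i, ∃ z : ℂ, 1 ≤ z.im ∧ q = η i z

/-- the marked cover with its period map -/
structure Per (N : ℝ) (Λ : Set (Fin 3 → ℝ)) (Q : Type*) [TopologicalSpace Q] (G : Type*) [Group G]
    (E : Type*) [MulAction G E] where
  L : LS Q G E
  surj : ∀ q, ∃ x : E, L.p x = q
  R : UpRep N G
  mem : ∀ g, ∀ w ∈ Λ, R.ρ g w ∈ Λ
  Φ : E → ℍ
  Φ_cont : ∀ x, ContinuousAt (fun q => Φ (L.s x q)) (L.p x)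
  Φ_equiv : ∀ (g : G) x, (Φ (g • x) : ℂ) = mv N (R.ρ g) (Φ x)

namespace Per

variable {N : ℝ} {Λ : Set (Fin 3 → ℝ)} {Q : Type*} [TopologicalSpace Q] {G : Type*} [Group G]
  {E : Type*} [MulAction G E]

/-- the period map on the total space -/
def Ph (P : Per N Λ Q G E) : P.L.Tot → ℍ := P.Φ


/-- a lift of an end of `Q` with its monodromy -/
structure EndL {ι : Type*} (P : Per N Λ Q G E) (B : QEnds Q ι) (i : ι) where
  F : ℂ → P.L.Tot
  g : G
  cont : Continuous F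
  pr : ∀ z : ℂ, 1 ≤ z.im → P.L.pr (F z) = B.η i z
  per : ∀ z, F (z + 1) = g • F z



/-- the type of an end: the classification of the puncture theorem -/
structure EndT {ι : Type*} (P : Per N Λ Q G E) (B : QEnds Q ι) (e : ∀ i, P.EndL B i) where
  cusp : ι → Prop
  w : ι → Fin 3 → ℝ
  w_mem : ∀ i, cusp i → w i ∈ Λ ∧ w i ≠ 0 ∧ qb N (w i) (w i) = 0
  w_lim : ∀ i, cusp i → ∀ δ > 0, ∃ T, ∀ z : ℂ, 1 ≤ z.im → T ≤ z.im →
    Maj N (P.Ph ((e i).F z)) (w i) < δ
  pt : ι → ℍ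
  pt_lim : ∀ i, ¬ cusp i → ∀ W ∈ 𝓝 (pt i), ∃ T, ∀ z : ℂ, 1 ≤ z.im → T ≤ z.im →
    P.Ph ((e i).F z) ∈ W

/-- the bad values -/
structure BadS {ι : Type*} {P : Per N Λ Q G E} {B : QEnds Q ι} {e : ∀ i, P.EndL B i}
    (T : P.EndT B e) where
  Bad : Set ℍ
  inv : ∀ (g : G), ∀ τ ∈ Bad, ∀ τ' : ℍ, (τ' : ℂ) = mv N (P.R.ρ g) τ → τ' ∈ Bad
  pt_bad : ∀ i, ¬ T.cusp i → T.pt i ∈ Bad
  good : ∀ x : P.L.Tot, P.Ph x ∉ Bad → ∃ s : ℍ → P.L.Tot, ∃ U ∈ 𝓝 x, ∃ V ∈ 𝓝 (P.Ph x),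
    ContinuousOn s V ∧ (∀ τ ∈ V, P.Ph (s τ) = τ) ∧ ∀ x' ∈ U, s (P.Ph x') = x'



end Per

end Crest.Agent.R281.CL_473
end

-- ▼ part R281/CL6_473
section

/-!
# CUSP-LIFT, part 6 (row 281, helper473): restriction of marked covers

* `LS.sub`  : restriction to a transport-invariant set of markings and a subgroup;
* `LS.base` : restriction to the clopen set of base points that are reached;
* `QEnds.res` : restriction of a curve with ends to a clopen set.
-/

namespace Crest.Agent.R281.CL_473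

open Filter Topology Set UpperHalfPlane

namespace LS

variable {Q : Type*} [TopologicalSpace Q] {G : Type*} [Group G] {E : Type*} [MulAction G E]

/-- the action of a subgroup on an invariant set -/
@[reducible] def subAct (T : Set E) (H : Subgroup G) (hH : ∀ g ∈ H, ∀ x ∈ T, g • x ∈ T) :
    MulAction H T where
  smul g x := ⟨g.1 • x.1, hH g.1 g.2 x.1 x.2⟩
  one_smul x := Subtype.ext (one_smul G x.1)
  mul_smul g h x := Subtype.ext (mul_smul g.1 h.1 x.1)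

open Classical in
/-- restriction of a marked cover to a transport-invariant set of markings -/
noncomputable def sub (L : LS Q G E) (T : Set E) (H : Subgroup G)
    (hH : ∀ g ∈ H, ∀ x ∈ T, g • x ∈ T)
    (hT : ∀ x, ∀ q ∈ L.U (L.p x), (L.s x q ∈ T ↔ x ∈ T))
    (htr : ∀ x ∈ T, ∀ g : G, g • x ∈ T → ∃ h ∈ H, g • x = h • x) :
    @LS Q _ H _ T (subAct T H hH) :=
  letI := subAct T H hH
  { p := fun x => L.p x.1
    U := L.U
    U_open := L.U_open
    U_mem := L.U_mem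
    s := fun x q => if h : L.s x.1 q ∈ T then ⟨L.s x.1 q, h⟩ else x
    p_s := fun x q hq => by
      have h : L.s x.1 q ∈ T := (hT x.1 q hq).mpr x.2
      simp only [dif_pos h]; exact L.p_s x.1 q hq
    s_self := fun x => by
      have h : L.s x.1 (L.p x.1) ∈ T := by rw [L.s_self]; exact x.2
      rw [dif_pos h]; exact Subtype.ext (L.s_self x.1)
    surj := fun q0 y hy => by
      obtain ⟨x, hx, hxy⟩ := L.surj q0 y.1 hy
      have hU : L.p y.1 ∈ L.U (L.p x) := by rw [hx]; exact hy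
      have hxT : x ∈ T := (hT x _ hU).mp (by rw [hxy]; exact y.2)
      refine ⟨⟨x, hxT⟩, hx, ?_⟩
      have h : L.s x (L.p y.1) ∈ T := by rw [hxy]; exact y.2
      simp only [dif_pos h]; exact Subtype.ext hxy
    inj := fun x y hp q hq he => by
      have h1 : L.s x.1 q ∈ T := (hT x.1 q hq).mpr x.2
      have h2 : L.s y.1 q ∈ T := (hT y.1 q (by rw [← hp]; exact hq)).mpr y.2
      simp only [dif_pos h1, dif_pos h2] at he
      exact Subtype.ext (L.inj x.1 y.1 hp q hq (congrArg Subtype.val he))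
    loc := fun x q1 hq1 => by
      have h1 : L.s x.1 q1 ∈ T := (hT x.1 q1 hq1).mpr x.2
      have hU : L.U (L.p x.1) ∈ 𝓝 q1 := (L.U_open _).mem_nhds hq1
      have hU2 : L.U q1 ∈ 𝓝 q1 := (L.U_open _).mem_nhds (L.U_mem _)
      filter_upwards [L.loc x.1 q1 hq1, hU, hU2] with q h2 hq hq2
      have h3 : L.s x.1 q ∈ T := (hT x.1 q hq).mpr x.2
      have h4 : L.s (L.s x.1 q1) q ∈ T := by rw [← h2]; exact h3
      simp only [dif_pos h1, dif_pos h3, dif_pos h4]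
      exact Subtype.ext h2
    p_smul := fun g x => L.p_smul g.1 x.1
    s_smul := fun g x q hq => by
      have h1 : L.s x.1 q ∈ T := (hT x.1 q hq).mpr x.2
      have h2 : L.s (g.1 • x.1) q = g.1 • L.s x.1 q := L.s_smul g.1 x.1 q hq
      have h3 : L.s (g.1 • x.1) q ∈ T := by rw [h2]; exact hH g.1 g.2 _ h1
      have h4 : (g • x : T).1 = g.1 • x.1 := rfl
      simp only [h4, dif_pos h1, dif_pos h3]
      exact Subtype.ext h2
    trans := fun x y hp => by
      obtain ⟨g, hg⟩ := L.trans x.1 y.1 hp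
      obtain ⟨h, hh, he⟩ := htr x.1 x.2 g (by rw [← hg]; exact y.2)
      exact ⟨⟨h, hh⟩, Subtype.ext (hg.trans he)⟩ }

/-- the set of base points with a marking -/
def reached (L : LS Q G E) : Set Q := {q | ∃ x, L.p x = q}


/-- restriction to the reached base points -/
def base (L : LS Q G E) : LS L.reached G E where
  p x := ⟨L.p x, x, rfl⟩
  U q := Subtype.val ⁻¹' L.U q.1
  U_open q := (L.U_open q.1).preimage continuous_subtype_val
  U_mem q := L.U_mem q.1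
  s x q := L.s x q.1
  p_s x q hq := Subtype.ext (L.p_s x q.1 hq)
  s_self x := L.s_self x
  surj q0 y hy := by
    obtain ⟨x, hx, h⟩ := L.surj q0.1 y hy
    exact ⟨x, Subtype.ext hx, h⟩
  inj x y hp q hq he := L.inj x y (congrArg Subtype.val hp) q.1 hq he
  loc x q1 hq1 := by
    have h := L.loc x q1.1 hq1
    exact (continuous_subtype_val.tendsto q1).eventually h
  p_smul g x := Subtype.ext (L.p_smul g x)
  s_smul g x q hq := L.s_smul g x q.1 hq
  trans x y hp := L.trans x y (congrArg Subtype.val hp)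

theorem base_surj (L : LS Q G E) : ∀ q, ∃ x, L.base.p x = q := by
  rintro ⟨_, x, rfl⟩; exact ⟨x, rfl⟩

end LS



/-- a `Per` without surjectivity -/
structure PerPre (N : ℝ) (Λ : Set (Fin 3 → ℝ)) (Q : Type*) [TopologicalSpace Q] (G : Type*) [Group G]
    (E : Type*) [MulAction G E] where
  L : LS Q G E
  R : UpRep N G
  mem : ∀ g, ∀ w ∈ Λ, R.ρ g w ∈ Λ
  Φ : E → ℍ
  Φ_cont : ∀ x, ContinuousAt (fun q => Φ (L.s x q)) (L.p x)
  Φ_equiv : ∀ (g : G) x, (Φ (g • x) : ℂ) = mv N (R.ρ g) (Φ x)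

/-- the `Per` over the reached base points -/
def PerPre.base {N : ℝ} {Λ : Set (Fin 3 → ℝ)} {Q : Type*} [TopologicalSpace Q] {G : Type*} [Group G]
    {E : Type*} [MulAction G E] (P : PerPre N Λ Q G E) : Per N Λ P.L.reached G E where
  L := P.L.base
  surj := P.L.base_surj
  R := P.R
  mem := P.mem
  Φ := P.Φ
  Φ_cont x := by
    have h := P.Φ_cont x
    have h2 : ContinuousAt (Subtype.val : P.L.reached → Q) (P.L.base.p x) :=
      continuous_subtype_val.continuousAt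
    exact ContinuousAt.comp (f := (Subtype.val : P.L.reached → Q)) h h2
  Φ_equiv := P.Φ_equiv

end Crest.Agent.R281.CL_473
end

-- ▼ part R281/LI1_473
section

/-!
# LS-INST / PER-INST, part 1 (row 281, helper473): ternary frames in a real quadratic space

`H` a real vector space, `Q` a symmetric bilinear form, `(f, v, e)` a frame with
`Q(f,e) = 1`, `Q(v,v) = N > 0`, all other products `0`.

* `Fr.κ : ℝ³ → H`, `Fr.co : H → ℝ³`, `Q_κ`, `co_κ`
* `Fr.Λ L := κ⁻¹(L)`, `Fr.lat : Lat N Λ`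
* `Fr.ρ g := co ∘ g ∘ κ`, `Fr.iso`, `Fr.ρ_mul`
* `Fr.ofRat` : a frame from lattice vectors `e, v, w`
-/

set_option autoImplicit false

namespace Crest.Agent.R281.LI_473

open CL_473 Set Filter Topology

/-- a ternary frame of a bilinear form -/
structure Fr {H : Type*} [AddCommGroup H] [Module ℝ H] (Q : H →ₗ[ℝ] H →ₗ[ℝ] ℝ) where
  sym : ∀ x y, Q x y = Q y x
  N : ℝ
  N_pos : 0 < N
  e : H
  v : H
  f : H
  ee : Q e e = 0
  ev : Q e v = 0
  vv : Q v v = N
  ff : Q f f = 0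
  fv : Q f v = 0
  fe : Q f e = 1

namespace Fr

variable {H : Type*} [AddCommGroup H] [Module ℝ H] {Q : H →ₗ[ℝ] H →ₗ[ℝ] ℝ}

/-- the embedding of `ℝ³` -/
noncomputable def κ (F : Fr Q) : (Fin 3 → ℝ) →ₗ[ℝ] H where
  toFun w := w 0 • F.f + w 1 • F.v + w 2 • F.e
  map_add' w w' := by simp only [Pi.add_apply, add_smul]; abel
  map_smul' c w := by
    simp only [Pi.smul_apply, smul_eq_mul, RingHom.id_apply, smul_add, smul_smul]

theorem κ_apply (F : Fr Q) (w : Fin 3 → ℝ) : F.κ w = w 0 • F.f + w 1 • F.v + w 2 • F.e := rfl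

/-- the coordinates -/
noncomputable def co (F : Fr Q) : H →ₗ[ℝ] (Fin 3 → ℝ) where
  toFun x := ![Q x F.e, Q x F.v / F.N, Q x F.f]
  map_add' x y := by
    funext i; fin_cases i <;> simp [add_div]
  map_smul' c x := by
    funext i; fin_cases i <;> simp [mul_div_assoc]

theorem co_apply (F : Fr Q) (x : H) : F.co x = ![Q x F.e, Q x F.v / F.N, Q x F.f] := rfl

theorem co_κ (F : Fr Q) (w : Fin 3 → ℝ) : F.co (F.κ w) = w := by
  have hN := F.N_pos.ne'
  have h1 : Q F.v F.e = 0 := by rw [F.sym]; exact F.ev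
  have h2 : Q F.v F.f = 0 := by rw [F.sym]; exact F.fv
  have h3 : Q F.e F.f = 1 := by rw [F.sym]; exact F.fe
  rw [co_apply, κ_apply]
  funext i
  fin_cases i
  · simp [F.fe, F.ee, h1]
  · simp [F.fv, F.vv, F.ev, hN]
  · simp [F.ff, h2, h3]

theorem κ_inj (F : Fr Q) : Function.Injective F.κ := fun w w' h => by
  rw [← F.co_κ w, ← F.co_κ w', h]

theorem Q_κ (F : Fr Q) (w w' : Fin 3 → ℝ) : Q (F.κ w) (F.κ w') = qb F.N w w' := by
  have h1 : Q F.v F.e = 0 := by rw [F.sym]; exact F.ev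
  have h2 : Q F.v F.f = 0 := by rw [F.sym]; exact F.fv
  have h3 : Q F.e F.f = 1 := by rw [F.sym]; exact F.fe
  rw [κ_apply, κ_apply]
  simp only [map_add, map_smul, LinearMap.add_apply, LinearMap.smul_apply, smul_eq_mul, F.ee, F.ev,
    F.vv, F.ff, F.fv, F.fe, h1, h2, h3, qb]
  ring

@[simp] theorem κ_e (F : Fr Q) : F.κ ![0, 0, 1] = F.e := by simp [κ_apply]
@[simp] theorem κ_v (F : Fr Q) : F.κ ![0, 1, 0] = F.v := by simp [κ_apply]
@[simp] theorem κ_f (F : Fr Q) : F.κ ![1, 0, 0] = F.f := by simp [κ_apply]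

/-- the space spanned by the frame -/
noncomputable def M (F : Fr Q) : Submodule ℝ H := LinearMap.range F.κ

theorem κ_co (F : Fr Q) {x : H} (hx : x ∈ F.M) : F.κ (F.co x) = x := by
  obtain ⟨w, rfl⟩ := hx
  rw [F.co_κ]

theorem Q_co (F : Fr Q) {x y : H} (hx : x ∈ F.M) (hy : y ∈ F.M) :
    qb F.N (F.co x) (F.co y) = Q x y := by
  rw [← F.Q_κ, F.κ_co hx, F.κ_co hy]

theorem mem_M_κ (F : Fr Q) (w : Fin 3 → ℝ) : F.κ w ∈ F.M := ⟨w, rfl⟩

/-- the lattice in coordinates -/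
def Λ (F : Fr Q) (L : AddSubgroup H) : Set (Fin 3 → ℝ) := {w | F.κ w ∈ L}

/-- integral coordinates in a basis -/
def IsInt {ι : Type*} (b : Module.Basis ι ℝ H) (L : AddSubgroup H) : Prop :=
  ∀ x ∈ L, ∀ i, ∃ k : ℤ, b.repr x i = k

theorem lat {ι : Type*} [Finite ι] (F : Fr Q) {L : AddSubgroup H} (b : Module.Basis ι ℝ H)
    (hb : IsInt b L) (hint : ∀ x ∈ L, ∀ y ∈ L, ∃ k : ℤ, Q x y = k)
    (he : F.e ∈ L) (hv : ∃ c : ℝ, c ≠ 0 ∧ c • F.v ∈ L) (hf : ∃ c : ℝ, c ≠ 0 ∧ c • F.f ∈ L) :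
    Lat F.N (F.Λ L) where
  fin R := by
    have := Fintype.ofFinite ι
    set φ : (Fin 3 → ℝ) → (ι → ℝ) := fun w i => b.repr (F.κ w) i with hφ
    have hinj : Function.Injective φ := by
      intro w w' h
      apply F.κ_inj
      apply b.repr.injective
      ext i; exact congrFun h i
    -- bound
    set C : ι → ℝ := fun i => |R| * (|b.repr F.f i| + |b.repr F.v i| + |b.repr F.e i|) with hC
    have hfin : ∀ i, {t : ℝ | (∃ k : ℤ, t = k) ∧ |t| ≤ C i}.Finite := by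
      intro i
      have h1 : ((fun k : ℤ => (k : ℝ)) '' Icc (-⌈C i⌉) ⌈C i⌉).Finite := (finite_Icc _ _).image _
      refine h1.subset ?_
      rintro t ⟨⟨k, rfl⟩, hk⟩
      refine ⟨k, ⟨?_, ?_⟩, rfl⟩
      · have h2 := (abs_le.mp hk).1
        have h3 := Int.le_ceil (C i)
        have h4 : ((-⌈C i⌉ : ℤ) : ℝ) ≤ (k : ℝ) := by push_cast; linarith
        exact_mod_cast h4
      · have h2 := (abs_le.mp hk).2
        have h3 := Int.le_ceil (C i)
        have h4 : (k : ℝ) ≤ ((⌈C i⌉ : ℤ) : ℝ) := by linarith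
        exact_mod_cast h4
    have hpi : (Set.univ.pi fun i => {t : ℝ | (∃ k : ℤ, t = k) ∧ |t| ≤ C i}).Finite :=
      Set.Finite.pi hfin
    refine (hpi.preimage hinj.injOn).subset ?_
    rintro w ⟨hw, hwR⟩
    intro i _
    refine ⟨hb _ hw i, ?_⟩
    have hwR' : ∀ j, |w j| ≤ |R| := fun j => (hwR j).trans (le_abs_self R)
    have h1 : b.repr (F.κ w) i = w 0 * b.repr F.f i + w 1 * b.repr F.v i + w 2 * b.repr F.e i := by
      rw [κ_apply]; simp
    change |b.repr (F.κ w) i| ≤ C i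
    rw [h1]
    calc |w 0 * b.repr F.f i + w 1 * b.repr F.v i + w 2 * b.repr F.e i|
        ≤ |w 0 * b.repr F.f i| + |w 1 * b.repr F.v i| + |w 2 * b.repr F.e i| := abs_add_three _ _ _
      _ = |w 0| * |b.repr F.f i| + |w 1| * |b.repr F.v i| + |w 2| * |b.repr F.e i| := by
        simp only [abs_mul]
      _ ≤ |R| * |b.repr F.f i| + |R| * |b.repr F.v i| + |R| * |b.repr F.e i| := by
        have h0 := mul_le_mul_of_nonneg_right (hwR' 0) (abs_nonneg (b.repr F.f i))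
        have h1 := mul_le_mul_of_nonneg_right (hwR' 1) (abs_nonneg (b.repr F.v i))
        have h2 := mul_le_mul_of_nonneg_right (hwR' 2) (abs_nonneg (b.repr F.e i))
        linarith
      _ = C i := by rw [hC]; ring
  span := by
    obtain ⟨c, hc, hcv⟩ := hv
    obtain ⟨d, hd, hdf⟩ := hf
    rw [eq_top_iff]
    intro w _
    have h0 : ![0, 0, 1] ∈ F.Λ L := by change F.κ _ ∈ L; rw [κ_e]; exact he
    have h1 : ![0, c, 0] ∈ F.Λ L := by
      change F.κ _ ∈ L; simpa [κ_apply] using hcv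
    have h2 : ![d, 0, 0] ∈ F.Λ L := by
      change F.κ _ ∈ L; simpa [κ_apply] using hdf
    have h3 : w = (w 2) • ![0, 0, 1] + (w 1 / c) • ![0, c, 0] + (w 0 / d) • ![d, 0, 0] := by
      funext i; fin_cases i <;> simp [hc, hd]
    rw [h3]
    exact add_mem (add_mem (Submodule.smul_mem _ _ (Submodule.subset_span h0))
      (Submodule.smul_mem _ _ (Submodule.subset_span h1)))
      (Submodule.smul_mem _ _ (Submodule.subset_span h2))
  int w hw w' hw' := by
    obtain ⟨k, hk⟩ := hint _ hw _ hw'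
    exact ⟨k, by rw [← hk, F.Q_κ]⟩
  e_mem := by change F.κ _ ∈ L; rw [κ_e]; exact he

/-- the representation in coordinates -/
noncomputable def ρ (F : Fr Q) (g : H →ₗ[ℝ] H) : (Fin 3 → ℝ) →ₗ[ℝ] (Fin 3 → ℝ) :=
  F.co ∘ₗ g ∘ₗ F.κ

/-- isometries preserving the space of the frame -/
structure Adm (F : Fr Q) (g : H →ₗ[ℝ] H) : Prop where
  q : ∀ x y, Q (g x) (g y) = Q x y
  M : ∀ x ∈ F.M, g x ∈ F.M

theorem Adm.κ_ρ {F : Fr Q} {g : H →ₗ[ℝ] H} (hg : F.Adm g) (w : Fin 3 → ℝ) :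
    F.κ (F.ρ g w) = g (F.κ w) := F.κ_co (hg.M _ (F.mem_M_κ w))

theorem Adm.co_g {F : Fr Q} {g : H →ₗ[ℝ] H} (hg : F.Adm g) {x : H} (hx : x ∈ F.M) :
    F.co (g x) = F.ρ g (F.co x) := by
  apply F.κ_inj
  rw [hg.κ_ρ, F.κ_co hx, F.κ_co (hg.M _ hx)]

theorem Adm.iso {F : Fr Q} {g : H →ₗ[ℝ] H} (hg : F.Adm g) : Iso F.N (F.ρ g) := fun w w' => by
  rw [← F.Q_κ, hg.κ_ρ, hg.κ_ρ, hg.q, F.Q_κ]

theorem Adm.one (F : Fr Q) : F.Adm 1 := ⟨fun _ _ => rfl, fun _ h => h⟩

theorem Adm.mul {F : Fr Q} {g h : H →ₗ[ℝ] H} (hg : F.Adm g) (hh : F.Adm h) : F.Adm (g * h) :=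
  ⟨fun x y => by change Q (g (h x)) (g (h y)) = _; rw [hg.q, hh.q],
    fun x hx => hg.M _ (hh.M _ hx)⟩

theorem ρ_one (F : Fr Q) : F.ρ 1 = 1 := by
  refine LinearMap.ext fun w => ?_
  exact F.co_κ w

theorem Adm.ρ_mul {F : Fr Q} {g h : H →ₗ[ℝ] H} (hg : F.Adm g) (hh : F.Adm h) :
    F.ρ (g * h) = F.ρ g * F.ρ h := by
  refine LinearMap.ext fun w => ?_
  apply F.κ_inj
  rw [(hg.mul hh).κ_ρ]
  change g (h (F.κ w)) = F.κ (F.ρ g (F.ρ h w))
  rw [hg.κ_ρ, hh.κ_ρ]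

theorem Adm.mem_Λ {F : Fr Q} {g : H →ₗ[ℝ] H} (hg : F.Adm g) {L : AddSubgroup H}
    (hL : ∀ x ∈ L, g x ∈ L) {w : Fin 3 → ℝ} (hw : w ∈ F.Λ L) : F.ρ g w ∈ F.Λ L := by
  change F.κ _ ∈ L
  rw [hg.κ_ρ]
  exact hL _ hw

end Fr

/-! ### a frame from lattice vectors -/

section ofRat

variable {H : Type*} [AddCommGroup H] [Module ℝ H] {Q : H →ₗ[ℝ] H →ₗ[ℝ] ℝ}

/-- the projection of `w` to `v^⊥` -/
noncomputable def wv (Q : H →ₗ[ℝ] H →ₗ[ℝ] ℝ) (v w : H) : H := w - (Q w v / Q v v) • v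

/-- the dual isotropic vector -/
noncomputable def es (Q : H →ₗ[ℝ] H →ₗ[ℝ] ℝ) (e v w : H) : H :=
  (Q w e)⁻¹ • (wv Q v w - (Q (wv Q v w) (wv Q v w) / (2 * Q w e)) • e)



end ofRat

end Crest.Agent.R281.LI_473
end

-- ▼ part R281/LI2_473

/-!
# LS-INST / PER-INST, part 2 (row 281, helper473): the period point in a ternary frame and the
restriction of a marked cover to the markings with prescribed classes

* `Fr.IsPer a b`, `Fr.z0`, `Fr.tau`, `IsPer.spec` (`a + i b = z0 • σ_τ`), `tau_g`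
* `HM L F Lz κ` : a marked cover `L : LS Q G E`, a linear action of `G` on `H`, the classes of a
  marking, its period; output `HM.Mk`, `HM.Gp`, `HM.lS : LS Q Gp Mk`, `HM.R : UpRep N Gp`,
  `HM.Φ : Mk → ℍ`, `HM.perPre : PerPre N Λ Q Gp Mk`
* `countable_of_basis` : a group acting faithfully on a lattice is countable
-/

set_option autoImplicit false

namespace Crest.Agent.R281.LI_473

open CL_473 Set Filter Topology UpperHalfPlane

variable {H : Type*} [AddCommGroup H] [Module ℝ H] {Q : H →ₗ[ℝ] H →ₗ[ℝ] ℝ}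

namespace Fr

/-- a period pair: real and imaginary part of a symplectic class, in the space of the frame -/
structure IsPer (F : Fr Q) (a b : H) : Prop where
  a_mem : a ∈ F.M
  b_mem : b ∈ F.M
  eq : Q a a = Q b b
  pos : 0 < Q a a
  ort : Q a b = 0

/-- the complex coordinates of `a + i b` -/
noncomputable def cv (F : Fr Q) (a b : H) : Fin 3 → ℂ :=
  fun k => (F.co a k : ℂ) + (F.co b k : ℂ) * Complex.I

/-- the product with `e` -/
noncomputable def z0 (F : Fr Q) (a b : H) : ℂ := (Q a F.e : ℂ) + (Q b F.e : ℂ) * Complex.I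

/-- the product with `v` -/
noncomputable def z1 (F : Fr Q) (a b : H) : ℂ := (Q a F.v : ℂ) + (Q b F.v : ℂ) * Complex.I

/-- the period -/
noncomputable def tau (F : Fr Q) (a b : H) : ℂ := F.z1 a b / (F.N * F.z0 a b)

theorem cv_zero (F : Fr Q) (a b : H) : F.cv a b 0 = F.z0 a b := by
  simp [cv, z0, co_apply]

theorem cv_one (F : Fr Q) (a b : H) : F.cv a b 1 = F.z1 a b / F.N := by
  simp [cv, z1, co_apply]; ring

theorem tau_eq (F : Fr Q) (a b : H) : F.tau a b = F.cv a b 1 / F.cv a b 0 := by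
  rw [cv_zero, cv_one, tau, div_div]

theorem cv_re (F : Fr Q) (a b : H) : (fun k => (F.cv a b k).re) = F.co a := by
  funext k; simp [cv]

theorem cv_im (F : Fr Q) (a b : H) : (fun k => (F.cv a b k).im) = F.co b := by
  funext k; simp [cv]

variable {F : Fr Q} {a b : H}

theorem IsPer.spec (h : F.IsPer a b) :
    F.z0 a b ≠ 0 ∧ F.cv a b = F.z0 a b • sig F.N (F.tau a b) ∧ (F.tau a b).im ≠ 0 := by
  rw [tau_eq, ← cv_zero]
  apply eq_smul_sig F.N_pos
  · rw [isoC_iff, cv_re, cv_im, F.Q_co h.a_mem h.a_mem, F.Q_co h.b_mem h.b_mem,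
      F.Q_co h.a_mem h.b_mem]
    exact ⟨h.eq, h.ort⟩
  · unfold hm
    rw [cv_re, cv_im, F.Q_co h.a_mem h.a_mem, F.Q_co h.b_mem h.b_mem, ← h.eq]
    linarith [h.pos]

theorem IsPer.hm (h : F.IsPer a b) :
    Q a a = F.N * Complex.normSq (F.z0 a b) * (F.tau a b).im ^ 2 := by
  have h1 : CL_473.hm F.N (F.cv a b) = 2 * Q a a := by
    unfold CL_473.hm
    rw [cv_re, cv_im, F.Q_co h.a_mem h.a_mem, F.Q_co h.b_mem h.b_mem, ← h.eq]; ring
  rw [h.spec.2.1, hm_smul_sig] at h1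
  linarith

theorem cv_g {g : H →ₗ[ℝ] H} (hg : F.Adm g) (ha : a ∈ F.M) (hb : b ∈ F.M) :
    F.cv (g a) (g b) = cx (F.ρ g) (F.cv a b) := by
  funext k
  simp only [cv, cx]
  rw [hg.co_g ha, hg.co_g hb]
  have h1 := F.cv_re a b
  have h2 := F.cv_im a b
  simp only [cv] at h1 h2
  rw [h1, h2]

theorem IsPer.g {g : H →ₗ[ℝ] H} (hg : F.Adm g) (h : F.IsPer a b) : F.IsPer (g a) (g b) :=
  ⟨hg.M _ h.a_mem, hg.M _ h.b_mem, by rw [hg.q, hg.q, h.eq], by rw [hg.q]; exact h.pos,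
    by rw [hg.q]; exact h.ort⟩

/-- the period of the image -/
theorem IsPer.compat {g : H →ₗ[ℝ] H} (hg : F.Adm g) (h : F.IsPer a b) :
    cx (F.ρ g) (sig F.N (F.tau a b)) = (F.z0 (g a) (g b) / F.z0 a b) • sig F.N (F.tau (g a) (g b)) := by
  have h1 := h.spec
  have h2 := (h.g hg).spec
  have h3 := cv_g hg h.a_mem h.b_mem
  rw [h2.2.1, h1.2.1, cx_smul] at h3
  have h4 : cx (F.ρ g) (sig F.N (F.tau a b)) =
      (F.z0 a b)⁻¹ • (F.z0 a b • cx (F.ρ g) (sig F.N (F.tau a b))) := by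
    rw [smul_smul, inv_mul_cancel₀ h1.1, one_smul]
  rw [h4, ← h3, smul_smul, inv_mul_eq_div]

theorem IsPer.tau_g {g : H →ₗ[ℝ] H} (hg : F.Adm g) (h : F.IsPer a b) :
    F.tau (g a) (g b) = mv F.N (F.ρ g) (F.tau a b) := by
  have h1 := h.compat hg
  have h2 := hg.iso.mv_spec F.N_pos h.spec.2.2
  rw [h2.2.1] at h1
  exact (sig_inj h2.1 h1).2.symm

end Fr

/-- **Hodge data over a marked cover**: a linear action on `H`, classes and periods of the
markings. -/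
structure HM {B : Type*} [TopologicalSpace B] {G : Type*} [Group G] {E : Type*} [MulAction G E]
    (L : LS B G E) (F : Fr Q) (Lz : AddSubgroup H) (κ : Type*) where
  /-- linear action -/
  r : G →* Module.End ℝ H
  r_mem : ∀ g, ∀ x ∈ Lz, r g x ∈ Lz
  /-- the algebraic classes of a marking -/
  cls : κ → E → H
  cls_smul : ∀ i g x, cls i (g • x) = r g (cls i x)
  cls_s : ∀ i x, ∀ q ∈ L.U (L.p x), cls i (L.s x q) = cls i x
  /-- the prescribed classes -/
  cl : κ → H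
  r_q : ∀ g, (∀ i, r g (cl i) = cl i) → ∀ x y, Q (r g x) (r g y) = Q x y
  mem_M : ∀ x, (∀ i, Q x (cl i) = 0) → x ∈ F.M
  perp : ∀ x ∈ F.M, ∀ i, Q x (cl i) = 0
  /-- the period of a marking -/
  re : E → H
  im : E → H
  re_smul : ∀ g x, re (g • x) = r g (re x)
  im_smul : ∀ g x, im (g • x) = r g (im x)
  per : ∀ x, (∀ i, cls i x = cl i) → Q (re x) (re x) = Q (im x) (im x) ∧ 0 < Q (re x) (re x) ∧
    Q (re x) (im x) = 0 ∧ ∀ i, Q (re x) (cl i) = 0 ∧ Q (im x) (cl i) = 0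
  /-- continuity of the period along the transports -/
  cont0 : ∀ x, (∀ i, cls i x = cl i) →
    ContinuousOn (fun q => F.z0 (re (L.s x q)) (im (L.s x q))) (L.U (L.p x))
  cont1 : ∀ x, (∀ i, cls i x = cl i) →
    ContinuousOn (fun q => F.z1 (re (L.s x q)) (im (L.s x q))) (L.U (L.p x))
  conn : ∀ q, IsPreconnected (L.U q)

namespace HM

variable {B : Type*} [TopologicalSpace B] {G : Type*} [Group G] {E : Type*} [MulAction G E]
    {L : LS B G E} {F : Fr Q} {Lz : AddSubgroup H} {κ : Type*} (D : HM L F Lz κ)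

theorem isPer {x : E} (hx : ∀ i, D.cls i x = D.cl i) : F.IsPer (D.re x) (D.im x) := by
  obtain ⟨h1, h2, h3, h4⟩ := D.per x hx
  exact ⟨D.mem_M _ fun i => (h4 i).1, D.mem_M _ fun i => (h4 i).2, h1, h2, h3⟩

theorem adm {g : G} (hg : ∀ i, D.r g (D.cl i) = D.cl i) : F.Adm (D.r g) where
  q := D.r_q g hg
  M x hx := D.mem_M _ fun i => by
    have h1 : Q (D.r g x) (D.r g (D.cl i)) = Q x (D.cl i) := D.r_q g hg _ _
    rw [hg i] at h1
    rw [h1]; exact D.perp x hx i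

theorem inv_cl {g : G} (hg : ∀ i, D.r g (D.cl i) = D.cl i) (i : κ) :
    D.r g⁻¹ (D.cl i) = D.cl i := by
  have h1 : D.r g⁻¹ (D.r g (D.cl i)) = D.cl i := by
    rw [← Module.End.mul_apply, ← map_mul, inv_mul_cancel, map_one, Module.End.one_apply]
  rwa [hg i] at h1

theorem mul_cl {g h : G} (hg : ∀ i, D.r g (D.cl i) = D.cl i) (hh : ∀ i, D.r h (D.cl i) = D.cl i)
    (i : κ) : D.r (g * h) (D.cl i) = D.cl i := by
  rw [map_mul, Module.End.mul_apply, hh, hg]

/-- the group of the restricted cover -/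
def sg : Subgroup G where
  carrier := {g | (∀ i, D.r g (D.cl i) = D.cl i) ∧
    ∀ τ : ℂ, 0 < τ.im → 0 < (mv F.N (F.ρ (D.r g)) τ).im}
  one_mem' := ⟨fun i => by rw [map_one]; rfl, fun τ hτ => by
    rw [map_one, F.ρ_one, mv_one]; exact hτ⟩
  mul_mem' := by
    rintro g h ⟨hg, hg'⟩ ⟨hh, hh'⟩
    refine ⟨D.mul_cl hg hh, fun τ hτ => ?_⟩
    rw [map_mul, (D.adm hg).ρ_mul (D.adm hh), (D.adm hg).iso.mv_comp F.N_pos (D.adm hh).iso hτ.ne']
    exact hg' _ (hh' _ hτ)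
  inv_mem' := by
    rintro g ⟨hg, hg'⟩
    refine ⟨D.inv_cl hg, ?_⟩
    have hI : (0 : ℝ) < Complex.I.im := by simp
    apply (D.adm (D.inv_cl hg)).iso.mv_pos F.N_pos (hg' _ hI)
    rw [← (D.adm (D.inv_cl hg)).iso.mv_comp F.N_pos (D.adm hg).iso hI.ne',
      ← (D.adm (D.inv_cl hg)).ρ_mul (D.adm hg), ← map_mul, inv_mul_cancel, map_one, F.ρ_one, mv_one]
    exact hI

/-- the group of the restricted cover, as a type -/
def Gp : Type _ := D.sg

instance : Group D.Gp := inferInstanceAs (Group D.sg)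

/-- the markings with the prescribed classes and period in `ℍ` -/
def st : Set E := {x | (∀ i, D.cls i x = D.cl i) ∧ 0 < (F.tau (D.re x) (D.im x)).im}

/-- the markings with the prescribed classes and period in `ℍ`, as a type -/
def Mk : Type _ := D.st

variable {D}

theorem cls_iff {x : E} {q : B} (hq : q ∈ L.U (L.p x)) :
    (∀ i, D.cls i (L.s x q) = D.cl i) ↔ ∀ i, D.cls i x = D.cl i :=
  forall_congr' fun i => by rw [D.cls_s i x q hq]

theorem smul_mem {g : G} (hg : g ∈ D.sg) {x : E} (hx : x ∈ D.st) : g • x ∈ D.st := by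
  refine ⟨fun i => by rw [D.cls_smul, hx.1, hg.1], ?_⟩
  rw [D.re_smul, D.im_smul, (D.isPer hx.1).tau_g (D.adm hg.1)]
  exact hg.2 _ hx.2

theorem mem_sg {g : G} {x : E} (hx : x ∈ D.st) (hgx : g • x ∈ D.st) : g ∈ D.sg := by
  have hg : ∀ i, D.r g (D.cl i) = D.cl i := fun i => by
    rw [← hx.1 i, ← D.cls_smul, hgx.1, hx.1]
  refine ⟨hg, ?_⟩
  apply (D.adm hg).iso.mv_pos F.N_pos hx.2
  rw [← (D.isPer hx.1).tau_g (D.adm hg), ← D.re_smul, ← D.im_smul]
  exact hgx.2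

theorem tau_cont {x : E} (hx : ∀ i, D.cls i x = D.cl i) :
    ContinuousOn (fun q => F.tau (D.re (L.s x q)) (D.im (L.s x q))) (L.U (L.p x)) := by
  unfold Fr.tau
  apply ContinuousOn.div (D.cont1 x hx) (continuousOn_const.mul (D.cont0 x hx))
  intro q hq
  have h1 := (D.isPer ((cls_iff hq).mpr hx)).spec.1
  have h2 : (F.N : ℂ) ≠ 0 := Complex.ofReal_ne_zero.mpr F.N_pos.ne'
  exact mul_ne_zero h2 h1

theorem im_sign {x : E} (hx : ∀ i, D.cls i x = D.cl i) {q q' : B} (hq : q ∈ L.U (L.p x))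
    (hq' : q' ∈ L.U (L.p x)) (h : 0 < (F.tau (D.re (L.s x q)) (D.im (L.s x q))).im) :
    0 < (F.tau (D.re (L.s x q')) (D.im (L.s x q'))).im := by
  by_contra hneg
  have hc : ContinuousOn (fun q => (F.tau (D.re (L.s x q)) (D.im (L.s x q))).im)
      (L.U (L.p x)) := Complex.continuous_im.comp_continuousOn (tau_cont hx)
  have hmem := (D.conn (L.p x)).intermediate_value hq' hq hc
    (⟨not_lt.mp hneg, h.le⟩ : (0 : ℝ) ∈ Icc _ _)
  obtain ⟨q2, hq2, h2⟩ := hmem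
  exact (D.isPer ((cls_iff hq2).mpr hx)).spec.2.2 h2

theorem mem_st_iff {x : E} {q : B} (hq : q ∈ L.U (L.p x)) : L.s x q ∈ D.st ↔ x ∈ D.st := by
  constructor
  · rintro ⟨h1, h2⟩
    have h3 := (cls_iff hq).mp h1
    refine ⟨h3, ?_⟩
    have h4 := im_sign h3 hq (L.U_mem _) h2
    rwa [L.s_self] at h4
  · rintro ⟨h1, h2⟩
    refine ⟨(cls_iff hq).mpr h1, ?_⟩
    apply im_sign h1 (L.U_mem _) hq
    rwa [L.s_self]

variable (D)

instance : MulAction D.Gp D.Mk :=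
  LS.subAct D.st D.sg fun _ hg _ hx => smul_mem hg hx

theorem smul_val (g : D.Gp) (x : D.Mk) : (g • x).1 = g.1 • x.1 := rfl

/-- the restricted marked cover -/
noncomputable def lS : LS B D.Gp D.Mk :=
  L.sub D.st D.sg (fun _ hg _ hx => smul_mem hg hx) (fun _ _ hq => mem_st_iff hq)
    (fun _ hx g hgx => ⟨g, mem_sg hx hgx, rfl⟩)



open Classical in
theorem lS_s (x : D.Mk) {q : B} (hq : q ∈ L.U (L.p x.1)) : (D.lS.s x q).1 = L.s x.1 q := by
  have h : L.s x.1 q ∈ D.st := (mem_st_iff hq).mpr x.2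
  have h2 : D.lS.s x q = (⟨L.s x.1 q, h⟩ : D.st) := dif_pos h
  exact congrArg (fun y : D.st => y.1) h2

/-- the linear representation of the group in the frame -/
noncomputable def R : UpRep F.N D.Gp where
  ρ :=
    { toFun := fun g => F.ρ (D.r g.1)
      map_one' := by
        change F.ρ (D.r 1) = 1
        rw [map_one, F.ρ_one]
      map_mul' := fun g h => by
        change F.ρ (D.r (g.1 * h.1)) = _
        rw [map_mul, (D.adm g.2.1).ρ_mul (D.adm h.2.1)] }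
  iso g := (D.adm g.2.1).iso
  up g τ hτ := g.2.2 τ hτ


theorem κ_R (g : D.Gp) (w : Fin 3 → ℝ) : F.κ (D.R.ρ g w) = D.r g.1 (F.κ w) :=
  (D.adm g.2.1).κ_ρ w

theorem R_mem (g : D.Gp) (w : Fin 3 → ℝ) (hw : w ∈ F.Λ Lz) : D.R.ρ g w ∈ F.Λ Lz :=
  (D.adm g.2.1).mem_Λ (D.r_mem g.1) hw

/-- the period -/
noncomputable def Φ (x : D.Mk) : ℍ := ⟨F.tau (D.re x.1) (D.im x.1), x.2.2⟩

theorem Φ_coe (x : D.Mk) : (D.Φ x : ℂ) = F.tau (D.re x.1) (D.im x.1) := rfl

theorem Φ_smul (g : D.Gp) (x : D.Mk) : (D.Φ (g • x) : ℂ) = mv F.N (D.R.ρ g) (D.Φ x) := by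
  rw [Φ_coe, Φ_coe, smul_val, D.re_smul, D.im_smul, (D.isPer x.2.1).tau_g (D.adm g.2.1)]
  rfl

/-- the period vector of a marking -/
theorem vec (x : D.Mk) : F.z0 (D.re x.1) (D.im x.1) ≠ 0 ∧
    F.cv (D.re x.1) (D.im x.1) = F.z0 (D.re x.1) (D.im x.1) • sig F.N (D.Φ x) :=
  ⟨(D.isPer x.2.1).spec.1, (D.isPer x.2.1).spec.2.1⟩

theorem Φ_s (x : D.Mk) {q : B} (hq : q ∈ L.U (L.p x.1)) :
    (D.Φ (D.lS.s x q) : ℂ) = F.tau (D.re (L.s x.1 q)) (D.im (L.s x.1 q)) := by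
  rw [Φ_coe, D.lS_s x hq]



end HM

/-- a group acting faithfully and linearly, preserving a lattice, is countable -/
theorem countable_of_basis {G : Type*} [Group G] {ι : Type*} [Finite ι]
    (b : Module.Basis ι ℝ H) {Lz : AddSubgroup H} (hb : Fr.IsInt b Lz) (hbL : ∀ i, b i ∈ Lz)
    (r : G →* Module.End ℝ H) (hr : Function.Injective r) (r_mem : ∀ g, ∀ x ∈ Lz, r g x ∈ Lz) :
    Countable G := by
  choose k hk using fun (g : G) (i j : ι) => hb _ (r_mem g _ (hbL i)) j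
  have hinj : Function.Injective k := by
    intro g h hgh
    apply hr
    apply b.ext
    intro i
    apply b.repr.injective
    ext j
    rw [hk, hk, hgh]
  exact hinj.countable

theorem HM.countable {B : Type*} [TopologicalSpace B] {G : Type*} [Group G] {E : Type*}
    [MulAction G E] {L : LS B G E} {F : Fr Q} {Lz : AddSubgroup H} {κ : Type*} (D : HM L F Lz κ)
    {ι : Type*} [Finite ι] (b : Module.Basis ι ℝ H) (hb : Fr.IsInt b Lz) (hbL : ∀ i, b i ∈ Lz)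
    (hr : Function.Injective D.r) : Countable D.Gp := by
  have := countable_of_basis b hb hbL D.r hr D.r_mem
  exact inferInstanceAs (Countable D.sg)

end Crest.Agent.R281.LI_473
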