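import Crest.Agent.R281.Ehr11_268
import Crest.Agent.R281.QF5_871

-- ▼ part R281/Qc1_377
section

/-!
# R281 (S0424), PER-HOL (helper377), part 1: pointwise certificates, tangent spaces and forms

Port of helper268's Ehr9 / Ehr10 to 871's pointwise certificates (`PCert`, `OkAt`):

* `jfP`          : `JForm` (655) on `S ⊆ KC ev E` from `FDat` (867), exact at every point only
* `finrank_TSp`, `self_mem_TSp`, `span_tanp`, `cx_of_pcert`, `nd_of_pimp`
-/

set_option autoImplicit false
set_option linter.unusedSectionVars false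
set_option synthInstance.maxHeartbeats 200000
set_option maxSynthPendingDepth 3

open Set Filter Topology Complex
open scoped ContDiff

namespace Crest.Agent.R281.Qc_377

open Crest.Agent.R281.HkR_835 Crest.Agent.R281.Ehr2_268 Crest.Agent.R281.Phl_655
  Crest.Agent.R281.AF_867 Crest.Agent.R281.KrB1_871 Crest.Agent.R281.KrB4_871
  Crest.Agent.R281.Kr_488 Crest.Agent.R281.QF_871 Crest.Agent.R281.Ehr9_268
  Crest.Agent.R281.Ehr10_268

noncomputable section

/-! ### the form -/

section form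

variable {P : Type} [NormedAddCommGroup P] [NormedSpace ℂ P] {N : ℕ} {R : Type*} [CommRing R]
  {ev : P → (R →+* ℂ)}

/-- **the `JForm` of polynomial data, exact at every point** -/
def jfP {E : Set (MvPolynomial (Fin (N + 1)) R)} {S : Set (P × EuclideanSpace ℂ (Fin (N + 1)))}
    (hS : S ⊆ KC ev E) (D : FDat (Fin (N + 1)) R) (hm : 2 ≤ D.m)
    (hX : ∀ c x, (c, x) ∈ S → (D.map (ev c)).Exact)
    (han : ∀ c x, (c, x) ∈ S → ∀ r, AnalyticAt ℂ (fun p => ev p r) c)
    (hI : ∀ c x, (c, x) ∈ S → (D.map (ev c)).Imp (MvPolynomial.map (ev c) '' E)) :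
    JForm S (Fin (N + 1)) where
  m := D.m
  hm := hm
  X j := EuclideanSpace.proj j
  s := sj ev D
  cover c x hx := by
    by_contra hcon
    push Not at hcon
    refine (hS hx).1 ?_
    ext j
    exact hcon j
  hol j c x hx := by
    filter_upwards [(analyticAt_sj (han c x hx) D j x).eventually_analyticAt] with p hp
    exact hp.contDiffAt
  alt j p hp u v := by
    rw [sj_apply, sj_apply]
    exact FDat.b_alt j _ (hX p.1 p.2 hp) _ _
  hom j c x hx a _ u v := by
    rw [sj_apply, sj_apply]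
    exact b_scale (hX c x hx) j a _ _ _
  eul j c x hx v := by
    rw [sj_apply]
    exact FDat.b_self_left j _ (hX c x hx) _
  agr i j c x hx u v hu hv := by
    rw [sj_apply, sj_apply]
    refine (hI c x hx).agr (fun i => x i) _ _ ?_ (tanE_of_vel hS hu) (tanE_of_vel hS hv) i j
    rintro _ ⟨p, hp, rfl⟩
    exact (hS hx).2 p hp
  clo j c x hx _ u v w hu hv hw := by
    rw [fderiv_sj (han c x hx), fderiv_sj (han c x hx), fderiv_sj (han c x hx), sj_apply, sj_apply,
      sj_apply]
    refine (hI c x hx).clo (fun i => x i) _ _ _ ?_ (tanE_of_vel hS hu) (tanE_of_vel hS hv)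
      (tanE_of_vel hS hw) j
    rintro _ ⟨p, hp, rfl⟩
    exact (hS hx).2 p hp

/-- the value of a form, in terms of its data -/
def valG {H κ : Type} [NormedAddCommGroup H] [NormedSpace ℂ H] (Xc : κ → H →L[ℂ] ℂ)
    (s : κ → H →L[ℂ] H →L[ℂ] ℂ) (m : ℕ) (x u v : H) : ℂ :=
  open Classical in
  if h : ∃ j, Xc j x ≠ 0 then s h.choose u v / Xc h.choose x ^ m else 0

theorem val_eq_valG {E H κ : Type} [NormedAddCommGroup E] [NormedSpace ℂ E]
    [NormedAddCommGroup H] [NormedSpace ℂ H] {S : Set (E × H)} (J : JForm S κ) (c : E)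
    (x u v : H) : J.val c x u v = valG J.X (fun j => J.s j (c, x)) J.m x u v := rfl

theorem val_congr {E H κ : Type} [NormedAddCommGroup E] [NormedSpace ℂ E]
    [NormedAddCommGroup H] [NormedSpace ℂ H] {S S' : Set (E × H)} (J : JForm S κ)
    (J' : JForm S' κ) (hX : J.X = J'.X) (hm : J.m = J'.m) {c : E} {x : H}
    (hs : (fun j => J.s j (c, x)) = fun j => J'.s j (c, x)) (u v : H) :
    J.val c x u v = J'.val c x u v := by
  rw [val_eq_valG, val_eq_valG, hX, hm, hs]

end form

/-! ### tangent spaces -/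

variable {n N : ℕ} {R : Type*} [CommRing R]

/-- the dimension of the tangent space where `dG ≠ 0` -/
theorem finrank_TS_of_goodp {φ : R →+* ℂ} {E : Set (MvPolynomial (Fin (N + 1)) R)}
    {κ : KDat n N R} (hg : (mapK κ φ).Good (MvPolynomial.map φ '' E)) {x : Fin (N + 1) → ℂ}
    (hd : MvPolynomial.eval x (MvPolynomial.map φ κ.dG) ≠ 0) :
    Module.finrank ℂ (TS φ E x) ≤ n + 1 := by
  set κ' := KrB1_871.mapK κ φ with hκ'
  have hd' : MvPolynomial.eval x κ'.dG ≠ 0 := by
    rw [hκ', KrB1_871.dG_map]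
    exact hd
  let L : TS φ E x →ₗ[ℂ] (Fin (n + 1) → ℂ) :=
    { toFun := fun t j => lv (κ'.lam j) (fun i => t.1 i)
      map_add' := fun a b => by
        funext j
        exact lv_add (κ'.lam j) (fun i => a.1 i) (fun i => b.1 i)
      map_smul' := fun c a => by
        funext j
        exact lv_smul' (κ'.lam j) (fun i => a.1 i) c }
  have hinj : Function.Injective L := by
    rw [injective_iff_map_eq_zero]
    intro t ht
    have h1 : (fun i => t.1 i) ∈ kerL κ' := mem_kerL.mpr fun j => congrFun ht j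
    have h2 : fderiv ℂ κ'.Hv x (fun i => t.1 i) = 0 := by
      funext k
      rw [fderiv_Hv_dE]
      exact t.2 _ (hg.memN k)
    have h3 := hg.fderiv_inj hd' h1 h2
    ext i
    exact congrFun h3 i
  have h4 := LinearMap.finrank_le_finrank_of_injective hinj
  rwa [Module.finrank_fin_fun] at h4

variable {c : PCert n N R} {φ : R →+* ℂ}

theorem finrank_TSp (hc : c.OkAt φ) {x : EuclideanSpace ℂ (Fin (N + 1))}
    (hx : x ∈ c.cone φ) : Module.finrank ℂ (TS φ c.E (fun i => x i)) ≤ n + 1 := by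
  obtain ⟨a, ha⟩ := hc.cov x hx.1 hx.2
  exact finrank_TS_of_goodp (hc.good a) ha

/-- the Euler vector is tangent -/
theorem self_mem_TSp (hc : c.OkAt φ) {x : EuclideanSpace ℂ (Fin (N + 1))}
    (hx : x ∈ c.cone φ) : x ∈ TS φ c.E (fun i => x i) := by
  rintro _ ⟨F, hF, rfl⟩
  obtain ⟨m, hm⟩ := hc.hom F hF
  rw [dE_self hm, hx.2 F hF, mul_zero]

variable {V X : Type} [NormedAddCommGroup V] [NormedSpace ℝ V] [TopologicalSpace X]
  [FiniteDimensional ℝ V] {C : RCh V X}

theorem fderiv_mem_TSp (P : HEmb C (EuclideanSpace ℂ (Fin (N + 1))))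
    (hP : ∀ w ∈ P.cone, w ∈ c.cone φ) {i : C.ι} {z : V} (hz : z ∈ (C.e i).target) (v : V) :
    fderiv ℝ (P.u i) z v ∈ TS φ c.E (fun k => P.u i z k) :=
  tanE_of_vel (ev := fun _ : ℂ => φ) (S := KC (fun _ : ℂ => φ) c.E) (fun _ h => h)
    (vel_member P hz v fun w hw => hP w hw)

/-- **the tangent space is `image Du + ℂ u`** -/
theorem span_tanp (hc : c.OkAt φ) (hV : Module.finrank ℝ V = 2 * n)
    (P : HEmb C (EuclideanSpace ℂ (Fin (N + 1)))) (hP : ∀ w ∈ P.cone, w ∈ c.cone φ)
    {i : C.ι} {z : V} (hz : z ∈ (C.e i).target) {t : EuclideanSpace ℂ (Fin (N + 1))}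
    (ht : t ∈ TS φ c.E (fun k => P.u i z k)) :
    ∃ (v : V) (a : ℂ), t = fderiv ℝ (P.u i) z v + a • P.u i z :=
  span_of_dim _ (finrank_TSp hc (hP _ (P.mem_cone hz))) hV (fderiv ℝ (P.u i) z) (P.ne i z hz)
    (fun v => fderiv_mem_TSp P hP hz v) (self_mem_TSp hc (hP _ (P.mem_cone hz)))
    (fun v hv => P.imm i z hz v hv) ht

/-- **the tangent spaces of the members are complex** -/
theorem cx_of_pcert (hc : c.OkAt φ) (hV : Module.finrank ℝ V = 2 * n)
    (P : HEmb C (EuclideanSpace ℂ (Fin (N + 1)))) (hP : ∀ w ∈ P.cone, w ∈ c.cone φ) : P.Cx :=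
  fun _ _ hz v => span_tanp hc hV P hP hz
    ((TS φ c.E _).smul_mem I (fderiv_mem_TSp P hP hz v))

/-- **nondegeneracy of the polynomial form** -/
theorem nd_of_pimp (hc : c.OkAt φ) (hV : Module.finrank ℝ V = 2 * n)
    {D : FDat (Fin (N + 1)) R} (hX : (D.map φ).Exact)
    (hI : (D.map φ).Imp (MvPolynomial.map φ '' c.E))
    (P : HEmb C (EuclideanSpace ℂ (Fin (N + 1)))) (hP : ∀ w ∈ P.cone, w ∈ c.cone φ)
    {i : C.ι} {z : V} (hz : z ∈ (C.e i).target) {j : Fin (N + 1)} (hj : P.u i z j ≠ 0) {v : V}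
    (h0 : ∀ w, (D.map φ).b j (fun k => P.u i z k) (fun k => fderiv ℝ (P.u i) z v k)
      (fun k => fderiv ℝ (P.u i) z w k) = 0) : v = 0 := by
  have hon : OnE (MvPolynomial.map φ '' c.E) (fun k => P.u i z k) := by
    rintro _ ⟨F, hF, rfl⟩
    exact (hP _ (P.mem_cone hz)).2 F hF
  obtain ⟨a, ha⟩ := hI.nd (fun k => P.u i z k) (fun k => fderiv ℝ (P.u i) z v k) j hon
    (fderiv_mem_TSp P hP hz v) (fun t ht => by
      obtain ⟨w, b, hw⟩ := span_tanp hc hV P hP hz (t := WithLp.toLp 2 t) ht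
      have h1 : t = (fun k => fderiv ℝ (P.u i) z w k) + b • fun k => P.u i z k := by
        funext k
        exact congrArg (fun s : EuclideanSpace ℂ (Fin (N + 1)) => s k) hw
      rw [h1, FDat.b_add_right, FDat.b_smul_right, FDat.b_self_right j _ hX, h0 w,
        mul_zero, add_zero]) hj
  refine P.imm i z hz v ⟨a, ?_⟩
  ext k
  exact congrFun ha k

end

end Crest.Agent.R281.Qc_377
end

-- ▼ part R281/Qc2_377

/-!
# R281 (S0424), PER-HOL (helper377), part 2: the holomorphic 2-form on the family of a code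

* `qcfC K M h hM : QCF (qfamC K M h hM)` : the form `K.Y.D` (867) over 871's family of record
* `memC`, `memC_cx`, `markC_cx` : the members along the transport, their tangent spaces are complex
* `qcfC_cw`      : value on a member (`cw * X_j^m = b_j`), `qcfC_cw_self` at the marking itself
* `qcfC_nd`, `qcfC_typ` : nondegenerate, type `(2,0)`, on every member along the transport
* `qcfC_nd_self`, `qcfC_typ_self`, `re_form'`, `im_form'` : at the marking itself
-/

set_option autoImplicit false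
set_option linter.unusedSectionVars false
set_option synthInstance.maxHeartbeats 200000
set_option maxSynthPendingDepth 3

open Set Filter Topology Complex
open scoped ContDiff

namespace Crest.Agent.R281.Qc_377

open Crest.Agent.R281.HkR_835 Crest.Agent.R281.Ehr2_268 Crest.Agent.R281.Dif_268
  Crest.Agent.R281.Ehr4_268 Crest.Agent.R281.Ehr6_268 Crest.Agent.R281.Ehr8_268
  Crest.Agent.R281.Phl_655 Crest.Agent.R281.AF_867 Crest.Agent.R281.KrB1_871
  Crest.Agent.R281.KrB4_871 Crest.Agent.R281.Kr_488 Crest.Agent.R281.QF_871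
  Crest.Agent.R281.Ehr9_268 Crest.Agent.R281.Ehr10_268 Crest.Agent.R281.Ehr11_268
  Crest.Agent.R281.Sl_957 Crest.Agent.R281.Am_957 Crest.Agent.R281.CA_867

noncomputable section

variable {k₀ : Type} [Field k₀] [Algebra k₀ ℂ] {n N : ℕ} {K : Code k₀ n N}
  {M : Fmt k₀ (Fin K.k)}

/-- exactness at every point of the model -/
theorem exactC (hM : ∀ (z : Fin M.m → ℂ) (w : ℂ), M.On z w → K.Good (M.pt z w)) (q : QM M) :
    (K.Y.D.map (evP M q)).Exact := (hM q.1.1 q.1.2 q.2).mem_ok.exact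

theorem impC (hM : ∀ (z : Fin M.m → ℂ) (w : ℂ), M.On z w → K.Good (M.pt z w)) (q : QM M) :
    (K.Y.D.map (evP M q)).Imp (MvPolynomial.map (evP M q) '' range K.Y.G) := by
  have h1 := (hM q.1.1 q.1.2 q.2).mem_ok.imp_id
  have h2 : range (K.mem (M.pt q.1.1 q.1.2)).G = MvPolynomial.map (evP M q) '' range K.Y.G :=
    CDat.range_map K.Y _
  rw [h2] at h1
  exact h1

variable (h : M.Nice) (hM : ∀ (z : Fin M.m → ℂ) (w : ℂ), M.On z w → K.Good (M.pt z w))

/-- the coefficients at a parameter of the chart -/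
theorem evL_targetC {q0 : QM M} {p : Fin M.m → ℂ}
    (hp : p ∈ (locE (isLocalHomeomorph_zc h) q0).target) :
    evL (isLocalHomeomorph_zc h) (evP M) q0 p =
      evP M ((locE (isLocalHomeomorph_zc h) q0).symm p) := if_pos hp

/-- the local polynomial forms -/
def qjfC (q0 : QM M) : JForm ((qfamC K M h hM).R q0) (Fin (N + 1)) :=
  jfP (ev := evL (isLocalHomeomorph_zc h) (evP M) q0) (E := range K.Y.G) (fun _ hp => hp.1)
    K.Y.D (le_trans (by norm_num) (exactC hM q0).two)
    (fun p _ hp => by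
      rw [evL_targetC h hp.2]
      exact exactC hM _)
    (fun _ _ hp r => analyticAt_evL' (isLocalHomeomorph_zc h) (anE_evP h r) q0 hp.2)
    (fun p _ hp => by
      rw [evL_targetC h hp.2]
      exact impC hM _)

theorem qjfC_X (q0 : QM M) : (qjfC h hM q0).X = fun j => EuclideanSpace.proj j := rfl

theorem qjfC_m (q0 : QM M) : (qjfC h hM q0).m = K.Y.D.m := rfl

theorem qjfC_s (q0 : QM M) (j : Fin (N + 1)) :
    (qjfC h hM q0).s j = sj (evL (isLocalHomeomorph_zc h) (evP M) q0) K.Y.D j := rfl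

theorem qjfC_congr (q0 : QM M) {q : QM M} (hq : q ∈ (locE (isLocalHomeomorph_zc h) q0).source)
    (x v w : EuclideanSpace ℂ (Fin (N + 1))) :
    (qjfC h hM q0).val (zc M q) x v w = (qjfC h hM q).val (zc M q) x v w := by
  have h1 : evL (isLocalHomeomorph_zc h) (evP M) q0 (zc M q) =
      evL (isLocalHomeomorph_zc h) (evP M) q (zc M q) := by
    rw [evL_u (isLocalHomeomorph_zc h) (evP M) q0 hq,
      evL_u (isLocalHomeomorph_zc h) (evP M) q (mem_locE (isLocalHomeomorph_zc h) q)]
  refine val_congr _ _ ?_ ?_ ?_ v w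
  · rw [qjfC_X, qjfC_X]
  · rw [qjfC_m, qjfC_m]
  · funext j
    rw [qjfC_s, qjfC_s]
    exact sj_congr h1 j x

/-- **the holomorphic form on the family of a code** -/
def qcfC (K : Code k₀ n N) (M : Fmt k₀ (Fin K.k)) (h : M.Nice)
    (hM : ∀ (z : Fin M.m → ℂ) (w : ℂ), M.On z w → K.Good (M.pt z w)) :
    QCF (qfamC K M h hM) where
  β q0 := (qjfC h hM q0).cf ((qfamC K M h hM).cn q0)
  compat q0 _ hq x v w _ _ := qjfC_congr h hM q0 hq x v w

variable {V X : Type} [NormedAddCommGroup V] [NormedSpace ℝ V] [TopologicalSpace X]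
  [FiniteDimensional ℝ V] {C : RCh V X}

/-- the member at the parameter `p` along the transport of a marking -/
def memC (m : Mark (qfamC K M h hM) C) {p : Fin M.m → ℂ}
    (hp : p ∈ Metric.ball ((qfamC K M h hM).u m.q) ((qfamC K M h hM).r m.q)) :
    HEmb m.C' (EuclideanSpace ℂ (Fin (N + 1))) :=
  famEmb m.P ((qfamC K M h hM).hM m.q) m.coneS hp


/-- the point of the model at the parameter `p` -/
def ptC (m : Mark (qfamC K M h hM) C) (p : Fin M.m → ℂ) : QM M :=
  (locE (isLocalHomeomorph_zc h) m.q).symm p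

theorem evL_memC (m : Mark (qfamC K M h hM) C) {p : Fin M.m → ℂ}
    (hp : p ∈ Metric.ball ((qfamC K M h hM).u m.q) ((qfamC K M h hM).r m.q)) :
    evL (isLocalHomeomorph_zc h) (evP M) m.q p = evP M (ptC h hM m p) :=
  evL_targetC h ((qfamC K M h hM).ball_target m.q hp)

theorem memC_cone (m : Mark (qfamC K M h hM) C) {p : Fin M.m → ℂ}
    (hp : p ∈ Metric.ball ((qfamC K M h hM).u m.q) ((qfamC K M h hM).r m.q))
    (w : EuclideanSpace ℂ (Fin (N + 1))) :
    w ∈ (memC h hM m hp).cone ↔ w ∈ (pcC K).cone (evP M (ptC h hM m p)) := by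
  have h1 := (famEmb_cone m.P ((qfamC K M h hM).hM m.q) m.coneS hp w).symm
  refine h1.trans ?_
  rw [← evL_memC h hM m hp]
  rfl


/-- value of the form on a member, in a coordinate `j` -/
theorem qcfC_cw (m : Mark (qfamC K M h hM) C) {p : Fin M.m → ℂ}
    (hp : p ∈ Metric.ball ((qfamC K M h hM).u m.q) ((qfamC K M h hM).r m.q)) {i : m.C'.ι}
    {z : V} (hz : z ∈ (m.C'.e i).target) {j : Fin (N + 1)} (hj : m.pf.u i p z j ≠ 0) (v w : V) :
    (qcfC K M h hM).cw m i p z v w * m.pf.u i p z j ^ K.Y.D.m =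
      (K.Y.D.map (evP M (ptC h hM m p))).b j (fun k => m.pf.u i p z k)
        (fun k => fderiv ℝ (m.pf.u i p) z v k) (fun k => fderiv ℝ (m.pf.u i p) z w k) := by
  have h0 := QCF.lift_pf m hp hz
  have hv : ∀ v, Vel ((qfamC K M h hM).R m.q) p (m.pf.u i p z)
      (fderiv ℝ (m.pf.u i p) z v) := by
    intro v
    have h1 := h0.vel ((qfamC K M h hM).cn m.q) (pf_in m) hp hz v
    rw [QCF.dz_pf m hp hz] at h1
    exact h1
  have hin : (p, m.pf.u i p z) ∈ (qfamC K M h hM).R m.q := pf_in m i p hp z hz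
  have h2 : (qcfC K M h hM).cw m i p z v w = (qjfC h hM m.q).val p
      (m.pf.u i p z) (fderiv ℝ (m.pf.u i p) z v) (fderiv ℝ (m.pf.u i p) z w) :=
    (qcfC K M h hM).cw_apply m hp hz v w
  have hj' : (qjfC h hM m.q).X j (m.pf.u i p z) ≠ 0 := hj
  rw [h2, JForm.val_eq _ hin hj' (hv v) (hv w)]
  have h3 : (qjfC h hM m.q).X j (m.pf.u i p z) = m.pf.u i p z j := rfl
  have h4 : (qjfC h hM m.q).m = K.Y.D.m := rfl
  rw [h3, h4, div_mul_cancel₀ _ (pow_ne_zero _ hj), ← evL_memC h hM m hp]
  exact sj_apply (ev := evL (isLocalHomeomorph_zc h) (evP M) m.q) K.Y.D j (p, m.pf.u i p z) _ _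

/-- **the form is nondegenerate on the members** -/
theorem qcfC_nd (hV : Module.finrank ℝ V = 2 * n) (m : Mark (qfamC K M h hM) C)
    {p : Fin M.m → ℂ}
    (hp : p ∈ Metric.ball ((qfamC K M h hM).u m.q) ((qfamC K M h hM).r m.q)) {i : m.C'.ι}
    {z : V} (hz : z ∈ (m.C'.e i).target) {v : V}
    (h0 : ∀ w, (qcfC K M h hM).cw m i p z v w = 0) : v = 0 := by
  obtain ⟨j, hj⟩ : ∃ j, m.pf.u i p z j ≠ 0 := by
    by_contra hcon
    push Not at hcon
    refine (memC h hM m hp).ne i z hz ?_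
    ext j
    exact hcon j
  refine nd_of_pimp (okAt (hM _ _ (ptC h hM m p).2)) hV (exactC hM (ptC h hM m p))
    (impC hM (ptC h hM m p)) (memC h hM m hp)
    (fun w hw => (memC_cone h hM m hp w).mp hw) hz (j := j) hj fun w => ?_
  have h2 := qcfC_cw h hM m hp hz hj v w
  rw [h0 w, zero_mul] at h2
  exact h2.symm


/-! ### at the marking itself -/

/-- the base point of the transport is the marking -/
theorem ptC_self (m : Mark (qfamC K M h hM) C) : ptC h hM m (zc M m.q) = m.q :=
  symm_u (isLocalHomeomorph_zc h) (mem_locE (isLocalHomeomorph_zc h) m.q)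

theorem self_ball (m : Mark (qfamC K M h hM) C) :
    zc M m.q ∈ Metric.ball ((qfamC K M h hM).u m.q) ((qfamC K M h hM).r m.q) :=
  (qfamC K M h hM).ball_of_mem ((qfamC K M h hM).U_mem m.q)

/-- the marking is its own member at the base parameter -/
theorem pf_self (m : Mark (qfamC K M h hM) C) {i : m.C'.ι} {z : V} (hz : z ∈ (m.C'.e i).target) :
    m.pf.u i (zc M m.q) z = m.P.u i z := pf_id m hz

theorem fderiv_pf_self (m : Mark (qfamC K M h hM) C) {i : m.C'.ι} {z : V}
    (hz : z ∈ (m.C'.e i).target) :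
    fderiv ℝ (m.pf.u i (zc M m.q)) z = fderiv ℝ (m.P.u i) z := by
  refine Filter.EventuallyEq.fderiv_eq ?_
  filter_upwards [(m.C'.e i).open_target.mem_nhds hz] with y hy
  exact pf_self h hM m hy

/-- **the members at a marking have complex tangent spaces** -/
theorem markC_cx (hV : Module.finrank ℝ V = 2 * n) (m : Mark (qfamC K M h hM) C) : m.P.Cx :=
  cx_of_pcert (okAt (hM _ _ m.q.2)) hV _ fun w hw => by
    have h1 := (m.cone w).mp hw
    rw [qfamC_S, ← cone_eq] at h1
    exact h1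

/-- the complex value of the form of a marking, on the chart system of the marking -/
def sgC (m : Mark (qfamC K M h hM) C) (i : m.C'.ι) (z v w : V) : ℂ :=
  (qcfC K M h hM).cw m i (zc M m.q) z v w

theorem re_form' (m : Mark (qfamC K M h hM) C) (i : m.C'.ι) (z v w : V) :
    ((qcfC K M h hM).re.form' m).w i z v w = (sgC h hM m i z v w).re :=
  (qcfC K M h hM).re_at m (self_ball h hM m) i z v w

theorem im_form' (m : Mark (qfamC K M h hM) C) (i : m.C'.ι) (z v w : V) :
    ((qcfC K M h hM).im.form' m).w i z v w = (sgC h hM m i z v w).im :=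
  (qcfC K M h hM).im_at m (self_ball h hM m) i z v w

/-- **value at the marking** : `sgC * u_j ^ m = b_j (u; Du v, Du w)` with the certificate of the
member `K.mem (M.pt m.q)` -/
theorem sgC_mul (m : Mark (qfamC K M h hM) C) {i : m.C'.ι} {z : V}
    (hz : z ∈ (m.C'.e i).target) (j : Fin (N + 1)) (v w : V) (hj : m.P.u i z j ≠ 0) :
    sgC h hM m i z v w * m.P.u i z j ^ K.Y.D.m =
      (K.mem (M.pt m.q.1.1 m.q.1.2)).D.b j (fun k => m.P.u i z k)
        (fun k => fderiv ℝ (m.P.u i) z v k) (fun k => fderiv ℝ (m.P.u i) z w k) := by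
  have h1 := qcfC_cw h hM m (self_ball h hM m) hz (j := j)
    (by rw [pf_self h hM m hz]; exact hj) v w
  rw [pf_self h hM m hz, fderiv_pf_self h hM m hz, ptC_self h hM m] at h1
  exact h1

/-- nondegenerate at the marking -/
theorem sgC_nd (hV : Module.finrank ℝ V = 2 * n) (m : Mark (qfamC K M h hM) C) {i : m.C'.ι}
    {z : V} (hz : z ∈ (m.C'.e i).target) {v : V} (h0 : ∀ w, sgC h hM m i z v w = 0) : v = 0 :=
  qcfC_nd h hM hV m (self_ball h hM m) hz h0

/-- type `(2,0)` at the marking: `i Du v = Du v' + a u ⟹ σ (v', w) = i σ (v, w)` -/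
theorem sgC_typ (m : Mark (qfamC K M h hM) C) {i : m.C'.ι} {z : V}
    (hz : z ∈ (m.C'.e i).target) {v v' : V} {a : ℂ}
    (hv : I • fderiv ℝ (m.P.u i) z v = fderiv ℝ (m.P.u i) z v' + a • m.P.u i z) (w : V) :
    sgC h hM m i z v' w = I * sgC h hM m i z v w := by
  refine QCF.typ _ m (self_ball h hM m) hz (a := a) ?_
  rw [pf_self h hM m hz, fderiv_pf_self h hM m hz]
  exact hv

end

end Crest.Agent.R281.Qc_377
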