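import Crest.Agent.R281.Ehr6_268

/-!
# R281 (S0424), EHR-PATH (helper461), part 1: smooth paths of members, gluing

* `EqT P P'`     : same homogeneous coordinates on the targets of the charts
* `SmP A`        : jointly smooth path `A : ℝ → HEmb C' H`
* `glue A`       : concatenation of countably many pieces `A k` on `[k, k+1]`, each of them constant
                   near its ends
* `glue_smP`     : the concatenation is smooth
* `stp s s'`     : smooth monotone step from `s` (for `t ≤ 1/4`) to `s'` (for `3/4 ≤ t`)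
-/

set_option autoImplicit false
set_option maxSynthPendingDepth 5
set_option linter.unusedSectionVars false

open Set Filter Topology Complex
open scoped ContDiff

namespace Crest.Agent.R281.Ehp_461

open Crest.Agent.R281.HkR_835 Crest.Agent.R281.Ehr2_268 Crest.Agent.R281.Dif_268
open Crest.Agent.R281.Ehr4_268 Crest.Agent.R281.CL_473 Crest.Agent.R281.Ehr6_268

noncomputable section

variable {V X : Type} [NormedAddCommGroup V] [NormedSpace ℝ V] [TopologicalSpace X]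
variable {H : Type} [NormedAddCommGroup H] [NormedSpace ℂ H]
variable {C' : RCh V X}

/-- same homogeneous coordinates on the targets -/
def EqT (P P' : HEmb C' H) : Prop := ∀ i, ∀ z ∈ (C'.e i).target, P.u i z = P'.u i z

theorem EqT.refl (P : HEmb C' H) : EqT P P := fun _ _ _ => rfl

theorem EqT.symm {P P' : HEmb C' H} (h : EqT P P') : EqT P' P := fun i z hz => (h i z hz).symm

theorem EqT.trans {P P' P'' : HEmb C' H} (h : EqT P P') (h' : EqT P' P'') : EqT P P'' :=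
  fun i z hz => (h i z hz).trans (h' i z hz)

theorem EqT.over {P P' : HEmb C' H} (h : EqT P P') : Over P P' id := Over.of_eq h

theorem EqT.cone {P P' : HEmb C' H} (h : EqT P P') (w : H) : w ∈ P.cone ↔ w ∈ P'.cone := by
  constructor
  · rintro ⟨i, z, hz, a, ha, e⟩
    exact ⟨i, z, hz, a, ha, by rw [e, h i z hz]⟩
  · rintro ⟨i, z, hz, a, ha, e⟩
    exact ⟨i, z, hz, a, ha, by rw [e, h i z hz]⟩

/-- jointly smooth path of members -/
def SmP (A : ℝ → HEmb C' H) : Prop :=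
  ∀ i, ContDiffOn ℝ ∞ (fun p : ℝ × V => (A p.1).u i p.2) (univ ×ˢ (C'.e i).target)

theorem SmP.at {A : ℝ → HEmb C' H} (h : SmP A) (i : C'.ι) (t : ℝ) {z : V}
    (hz : z ∈ (C'.e i).target) : ContDiffAt ℝ ∞ (fun p : ℝ × V => (A p.1).u i p.2) (t, z) :=
  (h i).contDiffAt ((isOpen_univ.prod (C'.e i).open_target).mem_nhds ⟨mem_univ _, hz⟩)

/-- composition with a smooth function -/
theorem SmP.comp {A : ℝ → HEmb C' H} (h : SmP A) {β : ℝ → ℝ} (hβ : ContDiff ℝ ∞ β) :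
    SmP (fun t => A (β t)) := by
  intro i p hp
  have e2 : ContDiffAt ℝ ∞ (fun p : ℝ × V => (β p.1, p.2)) p :=
    (hβ.contDiffAt.comp p contDiffAt_fst).prodMk contDiffAt_snd
  exact ((h.at i (β p.1) hp.2).comp (f := fun p : ℝ × V => (β p.1, p.2)) p e2).contDiffWithinAt

/-- a path which is locally `EqT` to smooth paths is smooth -/
theorem smP_of_loc {A : ℝ → HEmb C' H}
    (h : ∀ t0, ∃ B : ℝ → HEmb C' H, SmP B ∧ ∀ᶠ t in 𝓝 t0, EqT (A t) (B t)) : SmP A := by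
  rintro i ⟨t0, z⟩ ⟨-, hz⟩
  obtain ⟨B, hB, he⟩ := h t0
  refine ((hB.at i t0 hz).congr_of_eventuallyEq ?_).contDiffWithinAt
  have h1 : ∀ᶠ p : ℝ × V in 𝓝 (t0, z), EqT (A p.1) (B p.1) :=
    (continuous_fst.tendsto (t0, z)).eventually he
  have h2 : ∀ᶠ p : ℝ × V in 𝓝 (t0, z), p.2 ∈ (C'.e i).target :=
    continuousAt_snd.eventually ((C'.e i).open_target.mem_nhds hz)
  filter_upwards [h1, h2] with p h3 h4 using h3 i p.2 h4

/-! ### concatenation -/

/-- concatenation of the pieces `A k`, on `[k, k+1]` -/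
def glue {M : Type*} (A : ℕ → ℝ → M) (t : ℝ) : M := A ⌊t⌋₊ (t - ⌊t⌋₊)

theorem glue_loc {M : Type*} {R : M → M → Prop} (hR : Equivalence R) {A : ℕ → ℝ → M}
    (hl : ∀ k, ∀ t ≤ (1 / 4 : ℝ), R (A k t) (A k 0))
    (hr : ∀ k, ∀ t, (3 / 4 : ℝ) ≤ t → R (A k t) (A k 1))
    (hm : ∀ k, R (A (k + 1) 0) (A k 1)) (t0 : ℝ) :
    ∀ᶠ t in 𝓝 t0, R (glue A t) (A ⌊t0⌋₊ (t - ⌊t0⌋₊)) := by
  rcases lt_or_ge t0 0 with h0 | h0
  · filter_upwards [eventually_lt_nhds h0] with t ht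
    have e1 : ⌊t⌋₊ = 0 := Nat.floor_of_nonpos ht.le
    have e2 : ⌊t0⌋₊ = 0 := Nat.floor_of_nonpos h0.le
    rw [glue, e1, e2]
    exact hR.refl _
  · set k := ⌊t0⌋₊ with hk
    have h1 : (k : ℝ) ≤ t0 := Nat.floor_le h0
    have h2 : t0 < k + 1 := Nat.lt_floor_add_one t0
    filter_upwards [eventually_lt_nhds h2, eventually_gt_nhds (show (k : ℝ) - 1 / 4 < t0 by linarith)]
      with t ht1 ht2
    rcases lt_or_ge t k with h3 | h3
    · rcases Nat.eq_zero_or_pos k with h4 | h4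
      · have e1 : ⌊t⌋₊ = 0 := Nat.floor_of_nonpos (by rw [h4] at h3; simpa using h3.le)
        rw [glue, e1, h4]
        exact hR.refl _
      · obtain ⟨j, hj⟩ : ∃ j, k = j + 1 := ⟨k - 1, by omega⟩
        have hjr : (k : ℝ) = j + 1 := by rw [hj]; push_cast; ring
        have ht0 : 0 ≤ t := by
          have : (1 : ℝ) ≤ k := by exact_mod_cast h4
          linarith
        have e1 : ⌊t⌋₊ = j := by
          rw [Nat.floor_eq_iff ht0]
          constructor <;> linarith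
        rw [glue, e1]
        have a1 : R (A j (t - j)) (A j 1) := hr j _ (by linarith)
        have a2 : R (A k 0) (A j 1) := by rw [hj]; exact hm j
        have a3 : R (A k (t - k)) (A k 0) := hl k _ (by linarith)
        exact hR.trans a1 (hR.symm (hR.trans a3 a2))
    · have e1 : ⌊t⌋₊ = k := by
        rw [Nat.floor_eq_iff (le_trans (Nat.cast_nonneg k) h3)]
        exact ⟨h3, ht1⟩
      rw [glue, e1]
      exact hR.refl _

theorem eqT_equiv : Equivalence (EqT (C' := C') (H := H)) := ⟨EqT.refl, EqT.symm, EqT.trans⟩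

theorem glue_smP {A : ℕ → ℝ → HEmb C' H} (hA : ∀ k, SmP (A k))
    (hl : ∀ k, ∀ t ≤ (1 / 4 : ℝ), EqT (A k t) (A k 0))
    (hr : ∀ k, ∀ t, (3 / 4 : ℝ) ≤ t → EqT (A k t) (A k 1))
    (hm : ∀ k, EqT (A (k + 1) 0) (A k 1)) : SmP (glue A) :=
  smP_of_loc fun t0 => ⟨fun t => A ⌊t0⌋₊ (t - ⌊t0⌋₊),
    (hA ⌊t0⌋₊).comp (β := fun t => t - (⌊t0⌋₊ : ℝ)) (contDiff_id.sub contDiff_const),
    glue_loc eqT_equiv hl hr hm t0⟩

/-- gluing of real functions -/
theorem glue_contDiff {β : ℕ → ℝ → ℝ} (hβ : ∀ k, ContDiff ℝ ∞ (β k))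
    (hl : ∀ k, ∀ t ≤ (1 / 4 : ℝ), β k t = β k 0)
    (hr : ∀ k, ∀ t, (3 / 4 : ℝ) ≤ t → β k t = β k 1)
    (hm : ∀ k, β (k + 1) 0 = β k 1) : ContDiff ℝ ∞ (glue β) := by
  rw [contDiff_iff_contDiffAt]
  intro t0
  have h1 : ContDiffAt ℝ ∞ (fun t => β ⌊t0⌋₊ (t - (⌊t0⌋₊ : ℝ))) t0 :=
    ((hβ ⌊t0⌋₊).comp (contDiff_id.sub contDiff_const)).contDiffAt
  exact h1.congr_of_eventuallyEq (glue_loc (R := Eq) ⟨fun _ => rfl, Eq.symm, Eq.trans⟩ hl hr hm t0)

theorem glue_mono {β : ℕ → ℝ → ℝ} (hβ : ∀ k, ContDiff ℝ ∞ (β k)) (hmo : ∀ k, Monotone (β k))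
    (hl : ∀ k, ∀ t ≤ (1 / 4 : ℝ), β k t = β k 0)
    (hr : ∀ k, ∀ t, (3 / 4 : ℝ) ≤ t → β k t = β k 1)
    (hm : ∀ k, β (k + 1) 0 = β k 1) : Monotone (glue β) := by
  refine monotone_of_deriv_nonneg ((glue_contDiff hβ hl hr hm).differentiable (by simp)) fun t0 => ?_
  have h1 : glue β =ᶠ[𝓝 t0] fun t => β ⌊t0⌋₊ (t - (⌊t0⌋₊ : ℝ)) :=
    glue_loc (R := Eq) ⟨fun _ => rfl, Eq.symm, Eq.trans⟩ hl hr hm t0
  rw [h1.deriv_eq]
  refine Monotone.deriv_nonneg ?_
  intro a b hab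
  exact hmo _ (by linarith)

theorem glue_of_nonpos {M : Type*} (A : ℕ → ℝ → M) {t : ℝ} (ht : t < 1) : glue A t = A 0 t := by
  have e1 : ⌊t⌋₊ = 0 := by
    rcases le_or_gt t 0 with h | h
    · exact Nat.floor_of_nonpos h
    · rw [Nat.floor_eq_iff h.le]; constructor <;> simp [h.le, ht]
  rw [glue, e1]; simp


/-! ### steps -/

/-- smooth step from `s` (for `t ≤ 1/4`) to `s'` (for `3/4 ≤ t`) -/
def stp (s s' t : ℝ) : ℝ := s + (s' - s) * Real.smoothTransition (2 * t - 1 / 2)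

theorem stp_left (s s' : ℝ) {t : ℝ} (ht : t ≤ 1 / 4) : stp s s' t = s := by
  rw [stp, Real.smoothTransition.zero_of_nonpos (by linarith)]; ring

theorem stp_right (s s' : ℝ) {t : ℝ} (ht : 3 / 4 ≤ t) : stp s s' t = s' := by
  rw [stp, Real.smoothTransition.one_of_one_le (by linarith)]; ring

theorem stp_contDiff (s s' : ℝ) : ContDiff ℝ ∞ (stp s s') := by
  have h1 : ContDiff ℝ ∞ fun t : ℝ => 2 * t - 1 / 2 :=
    (contDiff_const.mul contDiff_id).sub contDiff_const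
  have h2 : ContDiff ℝ ∞ Real.smoothTransition := Real.smoothTransition.contDiff
  exact contDiff_const.add (contDiff_const.mul (h2.comp h1))



theorem stp_mem {s s' : ℝ} (h : s ≤ s') (t : ℝ) : stp s s' t ∈ Icc s s' := by
  have h0 := Real.smoothTransition.nonneg (2 * t - 1 / 2)
  have h1 := Real.smoothTransition.le_one (2 * t - 1 / 2)
  rw [stp]
  constructor <;> nlinarith

end

end Crest.Agent.R281.Ehp_461
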