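import Crest.Agent.R281.Ti4_846
import Crest.Agent.R281.Ehr8_268
import Crest.Agent.R281.Phl3_655
import Crest.Agent.R281.Fuj1_207
import Crest.Agent.R281.Ti5_846

-- ▼ part R281/Phb3_267
section

/-!
# R281 (S0424), (D12) PER-HOL, second owner (helper267): integrals of holomorphic families

* `hol_int` : `q ↦ ∫_K F q z dz` is holomorphic if `F` is `C^1` and pointwise holomorphic in `q`
* `II_hol`  : `q ↦ II(…, R q, …) + i II(…, T q, …)` is holomorphic if `R + iT` is pointwise
              holomorphic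
-/

set_option autoImplicit false
set_option linter.unusedSectionVars false

open Complex Set Filter Topology MeasureTheory
open scoped ContDiff

namespace Crest.Agent.R281.Phb_267

open Crest.Agent.R281.HkR_835 Crest.Agent.R281.Ti_846

noncomputable section

section int

variable {E V : Type*} [NormedAddCommGroup E] [NormedSpace ℂ E]
  [NormedAddCommGroup V] [NormedSpace ℝ V] [FiniteDimensional ℝ V] [MeasurableSpace V]
  [BorelSpace V] {μ : Measure V} [IsFiniteMeasureOnCompacts μ]

theorem hol_int {B : Set E} (hB : IsOpen B) {U : Set V} (hU : IsOpen U) {K : Set V}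
    (hK : IsCompact K) (hKU : K ⊆ U) {F : E → V → ℂ}
    (hF : ContDiffOn ℝ 1 (fun p : E × V => F p.1 p.2) (B ×ˢ U))
    (hh : ∀ z ∈ U, DifferentiableOn ℂ (fun q => F q z) B) :
    DifferentiableOn ℂ (fun q => ∫ z in K, F q z ∂μ) B := by
  have hO : IsOpen (B ×ˢ U) := hB.prod hU
  have hc := hF.continuousOn_fderiv_of_isOpen hO le_rfl
  -- the complex derivative in `q`
  have e1 : ∀ q ∈ B, ∀ z ∈ U, (fderiv ℂ (fun q => F q z) q).restrictScalars ℝ =
      (fderiv ℝ (fun p : E × V => F p.1 p.2) (q, z)).comp (ContinuousLinearMap.inl ℝ E V) := by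
    intro q hq z hz
    have h1 : HasFDerivAt (fun q => F q z) ((fderiv ℂ (fun q => F q z) q).restrictScalars ℝ) q :=
      ((hh z hz q hq).differentiableAt (hB.mem_nhds hq)).hasFDerivAt.restrictScalars ℝ
    have h2 : HasFDerivAt (fun p : E × V => F p.1 p.2)
        (fderiv ℝ (fun p : E × V => F p.1 p.2) (q, z)) (q, z) :=
      ((hF.contDiffAt (hO.mem_nhds ⟨hq, hz⟩)).differentiableAt one_ne_zero).hasFDerivAt
    have h3 : HasFDerivAt (fun q => F q z)
        ((fderiv ℝ (fun p : E × V => F p.1 p.2) (q, z)).comp (ContinuousLinearMap.inl ℝ E V)) q :=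
      HasFDerivAt.comp (f := fun q : E => (q, z)) (g := fun p : E × V => F p.1 p.2) q h2
        (hasFDerivAt_prodMk_left q z)
    exact h1.unique h3
  have hc2 : ContinuousOn (fun p : E × V => (fderiv ℝ (fun p : E × V => F p.1 p.2) p).comp
      (ContinuousLinearMap.inl ℝ E V)) (B ×ˢ U) := hc.clm_comp continuousOn_const
  -- continuity in `z`
  have hcz : ∀ q ∈ B, ContinuousOn (fun z => fderiv ℂ (fun q => F q z) q) U := by
    intro q hq z hz
    have h1 : ContinuousWithinAt (fun z => (fderiv ℂ (fun q => F q z) q).restrictScalars ℝ) U z := by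
      have h2 : ContinuousOn (fun z => (fderiv ℝ (fun p : E × V => F p.1 p.2) (q, z)).comp
          (ContinuousLinearMap.inl ℝ E V)) U :=
        hc2.comp (f := fun z : V => (q, z)) (by fun_prop) fun z hz => ⟨hq, hz⟩
      exact (h2 z hz).congr (fun y hy => e1 q hq y hy) (e1 q hq z hz)
    rw [Metric.continuousWithinAt_iff] at h1 ⊢
    intro ε hε
    obtain ⟨δ, hδ, h2⟩ := h1 ε hε
    refine ⟨δ, hδ, fun y hy hyz => ?_⟩
    have h3 := h2 hy hyz
    rw [dist_eq_norm] at h3 ⊢
    have h4 : (fderiv ℂ (fun q => F q y) q).restrictScalars ℝ -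
        (fderiv ℂ (fun q => F q z) q).restrictScalars ℝ =
        (fderiv ℂ (fun q => F q y) q - fderiv ℂ (fun q => F q z) q).restrictScalars ℝ := rfl
    rwa [h4, ContinuousLinearMap.norm_restrictScalars] at h3
  intro q₀ hq₀
  -- the bound
  have hb : ∃ M : ℝ, ∀ᶠ q in 𝓝 q₀, ∀ z ∈ K, q ∈ B → ‖fderiv ℂ (fun q => F q z) q‖ ≤ M := by
    have h1 : ContinuousOn (fun z => ‖fderiv ℂ (fun q => F q z) q₀‖) K :=
      ((hcz q₀ hq₀).mono hKU).norm
    obtain ⟨M, hM⟩ := hK.bddAbove_image h1
    refine ⟨M + 1, hK.eventually_forall_of_forall_eventually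
      (P := fun q z => q ∈ B → ‖fderiv ℂ (fun q => F q z) q‖ ≤ M + 1) fun z hz => ?_⟩
    have h2 : ContinuousAt (fun p : E × V => ‖(fderiv ℝ (fun p : E × V => F p.1 p.2) p).comp
      (ContinuousLinearMap.inl ℝ E V)‖) (q₀, z) :=
      (hc2.continuousAt (hO.mem_nhds ⟨hq₀, hKU hz⟩)).norm
    have h3 : ‖(fderiv ℝ (fun p : E × V => F p.1 p.2) (q₀, z)).comp
      (ContinuousLinearMap.inl ℝ E V)‖ < M + 1 := by
      rw [← e1 q₀ hq₀ z (hKU hz), ContinuousLinearMap.norm_restrictScalars]
      have h5 : ‖fderiv ℂ (fun q => F q z) q₀‖ ≤ M := hM (mem_image_of_mem _ hz)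
      linarith
    filter_upwards [h2.eventually_lt continuousAt_const h3, hO.mem_nhds ⟨hq₀, hKU hz⟩] with p hp hpO _
    rw [← e1 p.1 hpO.1 p.2 hpO.2, ContinuousLinearMap.norm_restrictScalars] at hp
    exact hp.le
  obtain ⟨M, hM⟩ := hb
  have hs : {q | q ∈ B ∧ ∀ z ∈ K, ‖fderiv ℂ (fun q => F q z) q‖ ≤ M} ∈ 𝓝 q₀ := by
    filter_upwards [hM, hB.mem_nhds hq₀] with q h1 h2
    exact ⟨h2, fun z hz => h1 z hz h2⟩
  have hcF : ∀ q ∈ B, ContinuousOn (F q) K := fun q hq =>
    (hF.continuousOn.comp (f := fun z : V => (q, z)) (by fun_prop) fun z hz =>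
      (⟨hq, hKU hz⟩ : (q, z) ∈ B ×ˢ U))
  have hmain := hasFDerivAt_integral_of_dominated_of_fderiv_le (𝕜 := ℂ) (μ := μ.restrict K)
    (F := F) (F' := fun q z => fderiv ℂ (fun q => F q z) q) (x₀ := q₀) (bound := fun _ => M) hs
    (by
      filter_upwards [hB.mem_nhds hq₀] with q hq
      exact (hcF q hq).aestronglyMeasurable hK.measurableSet)
    ((hcF q₀ hq₀).integrableOn_compact hK)
    (((hcz q₀ hq₀).mono hKU).aestronglyMeasurable hK.measurableSet)
    (by
      refine (ae_restrict_iff' hK.measurableSet).2 (Eventually.of_forall fun z hz q hq => ?_)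
      exact hq.2 z hz)
    (integrableOn_const hK.measure_lt_top.ne)
    (by
      refine (ae_restrict_iff' hK.measurableSet).2 (Eventually.of_forall fun z hz q hq => ?_)
      exact ((hh z (hKU hz) q hq.1).differentiableAt (hB.mem_nhds hq.1)).hasFDerivAt)
  exact hmain.differentiableAt.differentiableWithinAt

end int

section II

variable {E : Type*} [NormedAddCommGroup E] [NormedSpace ℂ E]
  {V X : Type} [NormedAddCommGroup V] [NormedSpace ℝ V] [FiniteDimensional ℝ V]
  [MeasurableSpace V] [BorelSpace V] (μ : Measure V) [μ.IsAddHaarMeasure] [TopologicalSpace X]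
  {K : Type} [Fintype K] [DecidableEq K] {C : RCh V X} {B : Set E}

/-- the family `q ↦ R q + i T q` of closed complex 2-forms is smooth and pointwise holomorphic -/
structure HolF (C : RCh V X) (B : Set E) (R T : E → F2 C) : Prop where
  smR : ∀ i, ContDiffOn ℝ ∞ (fun p : E × V => (R p.1).w i p.2) (B ×ˢ (C.e i).target)
  smT : ∀ i, ContDiffOn ℝ ∞ (fun p : E × V => (T p.1).w i p.2) (B ×ˢ (C.e i).target)
  hol : ∀ i, ∀ z ∈ (C.e i).target, ∀ u v,
    DifferentiableOn ℂ (fun q => (((R q).w i z u v : ℝ) : ℂ) + (((T q).w i z u v : ℝ) : ℂ) * I) B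

/-- `TP` is affine in one factor, complex form -/
theorem TP_update_eq (b : K × Fin 2 → V) (w : K → Bil V) (k : K) (x y : Bil V) :
    ((TP b (Function.update w k x) : ℝ) : ℂ) + ((TP b (Function.update w k y) : ℝ) : ℂ) * I =
    ∑ σ : Equiv.Perm (K × Fin 2), (((((Equiv.Perm.sign σ : ℤ) : ℝ) *
      ∏ j ∈ Finset.univ.erase k, w j (b (σ (j, 0))) (b (σ (j, 1))) : ℝ)) : ℂ) *
      (((x (b (σ (k, 0))) (b (σ (k, 1))) : ℝ) : ℂ) +
        ((y (b (σ (k, 0))) (b (σ (k, 1))) : ℝ) : ℂ) * I) := by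
  have h : ∀ x : Bil V, TP b (Function.update w k x) =
      ∑ σ : Equiv.Perm (K × Fin 2), (((Equiv.Perm.sign σ : ℤ) : ℝ) *
        ∏ j ∈ Finset.univ.erase k, w j (b (σ (j, 0))) (b (σ (j, 1)))) *
        x (b (σ (k, 0))) (b (σ (k, 1))) := by
    intro x
    unfold TP
    refine Finset.sum_congr rfl fun σ _ => ?_
    rw [← Finset.mul_prod_erase _ _ (Finset.mem_univ k), Function.update_self]
    have h2 : ∏ j ∈ Finset.univ.erase k,
        (Function.update w k x j) (b (σ (j, 0))) (b (σ (j, 1))) =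
        ∏ j ∈ Finset.univ.erase k, w j (b (σ (j, 0))) (b (σ (j, 1))) :=
      Finset.prod_congr rfl fun j hj => by
        rw [Function.update_of_ne (Finset.ne_of_mem_erase hj)]
    rw [h2]
    ring
  rw [h x, h y]
  push_cast
  rw [Finset.sum_mul, ← Finset.sum_add_distrib]
  refine Finset.sum_congr rfl fun σ _ => ?_
  ring

theorem update_w (w : K → F2 C) (k : K) (x : F2 C) (i : C.ι) (z : V) :
    (fun j => ((Function.update w k x) j).w i z) =
      Function.update (fun j => (w j).w i z) k (x.w i z) := by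
  funext j
  by_cases h : j = k
  · subst h
    simp
  · simp [Function.update_of_ne h]

variable [CompactSpace X]

/-- **the intersection numbers of a holomorphic family of closed complex 2-forms with fixed real
forms are holomorphic** -/
theorem II_hol (hB : IsOpen B) (b : Module.Basis (K × Fin 2) ℝ V) (P : RPart C) (w : K → F2 C)
    (k : K) {R T : E → F2 C} (h : HolF C B R T) :
    DifferentiableOn ℂ (fun q => ((II μ b P (Function.update w k (R q)) : ℝ) : ℂ) +
      ((II μ b P (Function.update w k (T q)) : ℝ) : ℂ) * I) B := by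
  classical
  -- the integrand
  set F : (s : P.σ) → E → V → ℂ := fun s q z =>
    ((P.ψ s ((C.e (P.c s)).symm z) : ℝ) : ℂ) *
      (((TP b (Function.update (fun j => (w j).w (P.c s) z) k ((R q).w (P.c s) z)) : ℝ) : ℂ) +
      ((TP b (Function.update (fun j => (w j).w (P.c s) z) k ((T q).w (P.c s) z)) : ℝ) : ℂ) * I)
    with hF
  have hKc : ∀ s : P.σ, IsCompact ((C.e (P.c s)) '' (tsupport (P.ψ s))) := fun s =>
    (isClosed_tsupport _).isCompact.image_of_continuousOn ((C.e (P.c s)).continuousOn.mono (P.sub s))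
  have hKs : ∀ s : P.σ, (C.e (P.c s)) '' (tsupport (P.ψ s)) ⊆ (C.e (P.c s)).target := by
    rintro s _ ⟨x, hx, rfl⟩
    exact (C.e (P.c s)).map_source (P.sub s hx)
  have hsmw : ∀ (i : C.ι) (S : E → F2 C),
      ContDiffOn ℝ ∞ (fun p : E × V => (S p.1).w i p.2) (B ×ˢ (C.e i).target) →
      ContDiffOn ℝ ∞ (fun p : E × V =>
        TP b (Function.update (fun j => (w j).w i p.2) k ((S p.1).w i p.2)))
        (B ×ˢ (C.e i).target) := by
    intro i S hS
    unfold TP
    refine ContDiffOn.sum fun σ _ => contDiffOn_const.mul (contDiffOn_prod fun j _ => ?_)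
    by_cases hj : j = k
    · subst hj
      simp only [Function.update_self]
      exact (hS.clm_apply contDiffOn_const).clm_apply contDiffOn_const
    · simp only [Function.update_of_ne hj]
      have h1 : ContDiffOn ℝ ∞ (fun p : E × V => (w j).w i p.2) (B ×ˢ (C.e i).target) :=
        ((w j).sm i).comp contDiffOn_snd fun p hp => hp.2
      exact (h1.clm_apply contDiffOn_const).clm_apply contDiffOn_const
  have hsm : ∀ s : P.σ, ContDiffOn ℝ 1 (fun p : E × V => F s p.1 p.2)
      (B ×ˢ (C.e (P.c s)).target) := by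
    intro s
    have h1 : ContDiffOn ℝ ∞ (fun p : E × V => P.ψ s ((C.e (P.c s)).symm p.2))
        (B ×ˢ (C.e (P.c s)).target) := (P.sm s (P.c s)).comp contDiffOn_snd fun p hp => hp.2
    have h2 := hsmw (P.c s) R (h.smR _)
    have h3 := hsmw (P.c s) T (h.smT _)
    have h1' := ofRealCLM.contDiff.comp_contDiffOn h1
    have h2' := ofRealCLM.contDiff.comp_contDiffOn h2
    have h3' := ofRealCLM.contDiff.comp_contDiffOn h3
    have h4 : ContDiffOn ℝ ∞ (fun p : E × V => F s p.1 p.2) (B ×ˢ (C.e (P.c s)).target) :=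
      h1'.mul (h2'.add (h3'.mul contDiffOn_const))
    exact h4.of_le (by norm_cast)
  have hhol : ∀ s : P.σ, ∀ z ∈ (C.e (P.c s)).target, DifferentiableOn ℂ (fun q => F s q z) B := by
    intro s z hz
    simp only [hF, TP_update_eq]
    refine DifferentiableOn.const_mul ?_ _
    refine DifferentiableOn.fun_sum fun σ _ => DifferentiableOn.const_mul ?_ _
    exact h.hol _ z hz _ _
  have hint : ∀ s : P.σ, DifferentiableOn ℂ (fun q =>
      ∫ z in (C.e (P.c s)) '' (tsupport (P.ψ s)), F s q z ∂μ) B := fun s =>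
    hol_int hB (C.e (P.c s)).open_target (hKc s) (hKs s) (hsm s) (hhol s)
  have hsum : DifferentiableOn ℂ (fun q => ∑ s : P.σ,
      ∫ z in (C.e (P.c s)) '' (tsupport (P.ψ s)), F s q z ∂μ) B :=
    DifferentiableOn.fun_sum fun s _ => hint s
  refine hsum.congr fun q hq => ?_
  -- real and imaginary part
  have hint' : ∀ (s : P.σ) (S : E → F2 C),
      ContDiffOn ℝ ∞ (fun p : E × V => (S p.1).w (P.c s) p.2) (B ×ˢ (C.e (P.c s)).target) →
      IntegrableOn (fun z => P.ψ s ((C.e (P.c s)).symm z) *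
        TP b (Function.update (fun j => (w j).w (P.c s) z) k ((S q).w (P.c s) z)))
        ((C.e (P.c s)) '' (tsupport (P.ψ s))) μ := by
    intro s S hS
    refine ContinuousOn.integrableOn_compact (hKc s) ?_
    have h1 : ContinuousOn (fun z => P.ψ s ((C.e (P.c s)).symm z)) (C.e (P.c s)).target :=
      (P.sm s (P.c s)).continuousOn
    have h2 : ContinuousOn (fun z =>
        TP b (Function.update (fun j => (w j).w (P.c s) z) k ((S q).w (P.c s) z)))
        (C.e (P.c s)).target :=
      (hsmw (P.c s) S hS).continuousOn.comp (f := fun z : V => (q, z)) (by fun_prop)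
        fun z hz => (⟨hq, hz⟩ : (q, z) ∈ B ×ˢ (C.e (P.c s)).target)
    exact (h1.mul h2).mono (hKs s)
  have hII : ∀ (S : E → F2 C), II μ b P (Function.update w k (S q)) = ∑ s : P.σ,
      ∫ z in (C.e (P.c s)) '' (tsupport (P.ψ s)), P.ψ s ((C.e (P.c s)).symm z) *
        TP b (Function.update (fun j => (w j).w (P.c s) z) k ((S q).w (P.c s) z)) ∂μ := by
    intro S
    unfold II intT
    refine Finset.sum_congr rfl fun s _ => ?_
    have h1 : ∀ z, P.ψ s ((C.e (P.c s)).symm z) *
        (TopF.of b (Function.update w k (S q))).D (P.c s) z =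
        P.ψ s ((C.e (P.c s)).symm z) *
        TP b (Function.update (fun j => (w j).w (P.c s) z) k ((S q).w (P.c s) z)) := by
      intro z
      rw [TopF.of_D, update_w]
    simp only [h1]
    refine setIntegral_eq_of_subset_of_forall_sdiff_eq_zero
      (C.e (P.c s)).open_target.measurableSet (hKs s) fun z hz => ?_
    have h2 : (C.e (P.c s)).symm z ∉ tsupport (P.ψ s) := fun h3 =>
      hz.2 ⟨_, h3, (C.e (P.c s)).right_inv hz.1⟩
    rw [psi_zero P s h2, zero_mul]
  rw [hII R, hII T]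
  push_cast
  rw [Finset.sum_mul, ← Finset.sum_add_distrib]
  refine Finset.sum_congr rfl fun s _ => ?_
  rw [← integral_complex_ofReal, ← integral_complex_ofReal, ← integral_mul_const, ← integral_add]
  · refine integral_congr_ae (Eventually.of_forall fun z => ?_)
    simp only [hF]
    push_cast
    ring
  · exact (hint' s R (h.smR _)).ofReal
  · exact (hint' s T (h.smT _)).ofReal.mul_const _

end II

end

end Crest.Agent.R281.Phb_267
end

-- ▼ part R281/Phb6_267

/-!
# R281 (S0424), (D12) PER-HOL, second owner (helper267): the period functions of the marked cover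

* `HolL C ℓ`     : `ℓ` sends holomorphic families of closed forms to holomorphic functions
* `HolL.of_II`, `HolL.Qf`, `holL_QH` : intersection numbers, the form of 207
* `HolF.pull`    : pull back of a holomorphic family under a smooth map
* `QCF F`        : holomorphic forms on the cones of a `QFam`; `QCF.re`, `QCF.im : QBF F`;
                   `QCF.ofQC` from 655's `QC`
* `QCF.holF`     : the family along the transport of a marking
* `QCF.hol_cls`  : `ℓ(re) + i ℓ(im)` along the transport is a holomorphic function of `u q`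
* `QCF.cont_cls`, `QCF.ana_cls`
-/

set_option autoImplicit false
set_option linter.unusedSectionVars false
set_option maxSynthPendingDepth 5

open Complex Set Filter Topology MeasureTheory
open scoped ContDiff

namespace Crest.Agent.R281.Phb_267

open Crest.Agent.R281.HkR_835
open Crest.Agent.R281.Ti_846 (RPart II IM IM_apply)

noncomputable section

universe uq

section HolL

variable {V X : Type} [NormedAddCommGroup V] [NormedSpace ℝ V] [TopologicalSpace X]
  {C : RCh V X}

/-- `ℓ` sends holomorphic families to holomorphic functions -/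
def HolL (C : RCh V X) (ℓ : F2 C → ℝ) : Prop :=
  ∀ (E : Type) [NormedAddCommGroup E] [NormedSpace ℂ E] (B : Set E) (R T : E → F2 C), IsOpen B →
    HolF C B R T → DifferentiableOn ℂ (fun q => (ℓ (R q) : ℂ) + (ℓ (T q) : ℂ) * I) B

theorem HolL.add {ℓ ℓ' : F2 C → ℝ} (h : HolL C ℓ) (h' : HolL C ℓ') :
    HolL C (fun x => ℓ x + ℓ' x) := by
  intro E _ _ B R T hB hf
  have h1 := (h E B R T hB hf).add (h' E B R T hB hf)
  refine h1.congr fun q _ => ?_
  simp only [Pi.add_apply]
  push_cast
  ring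

theorem HolL.smul {ℓ : F2 C → ℝ} (h : HolL C ℓ) (a : ℝ) : HolL C (fun x => a * ℓ x) := by
  intro E _ _ B R T hB hf
  have h1 : DifferentiableOn ℂ (fun q => (a : ℂ) * ((ℓ (R q) : ℂ) + (ℓ (T q) : ℂ) * I)) B :=
    (h E B R T hB hf).const_mul _
  refine h1.congr fun q _ => ?_
  push_cast
  ring

theorem HolL.sub {ℓ ℓ' : F2 C → ℝ} (h : HolL C ℓ) (h' : HolL C ℓ') :
    HolL C (fun x => ℓ x - ℓ' x) := by
  have h1 := h.add (h'.smul (-1))
  refine (funext fun x => ?_ : (fun x => ℓ x + -1 * ℓ' x) = fun x => ℓ x - ℓ' x) ▸ h1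
  ring

theorem HolL.congr {ℓ ℓ' : F2 C → ℝ} (h : HolL C ℓ) (he : ∀ x, ℓ' x = ℓ x) : HolL C ℓ' := by
  have : ℓ' = ℓ := funext he
  rw [this]
  exact h

variable [FiniteDimensional ℝ V] [MeasurableSpace V] [BorelSpace V] (μ : Measure V)
  [μ.IsAddHaarMeasure] [CompactSpace X]

theorem HolL.of_II {K : Type} [Fintype K] [DecidableEq K] (b : Module.Basis (K × Fin 2) ℝ V)
    (P : RPart C) (w : K → F2 C) (k : K) :
    HolL C (fun x => II μ b P (Function.update w k x)) :=
  fun _ _ _ _ _ _ hB hf => II_hol μ hB b P w k hf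

section Qf

variable {N : ℕ} (hN : 2 ≤ N) (b : Module.Basis (Fin N × Fin 2) ℝ V) (P : RPart C)

include hN in
theorem HolL.v1 (r : F2 C) : HolL C (fun x => IM μ b P (Fuj1_207.v1 N x r)) := by
  refine (HolL.of_II μ b P (fun _ => r) (⟨0, by omega⟩ : Fin N)).congr fun x => ?_
  rw [IM_apply, Fuj1_207.v1_eq_update hN]

include hN in
theorem HolL.v2 (r y : F2 C) : HolL C (fun x => IM μ b P (Fuj1_207.v2 N x y r)) := by
  refine (HolL.of_II μ b P (Function.update (fun _ => r) (⟨1, by omega⟩ : Fin N) y)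
    (⟨0, by omega⟩ : Fin N)).congr fun x => ?_
  rw [IM_apply, Fuj1_207.v2_eq_update' hN]

/-- the form of 207 -/
theorem HolL.Qf (ν : ℕ) (r y : F2 C) :
    HolL C (fun x => Fuj1_207.Qf (IM μ b P) hN ν r x y) := by
  have h1 := (HolL.v2 μ hN b P r y).smul
    (Fuj1_207.rt (IM μ b P fun _ => r) ν / (IM μ b P fun _ => r) * (2 * ν - 1))
  have h2 := (HolL.v1 μ hN b P r).smul
    (2 * (ν - 1) * Fuj1_207.rt (IM μ b P fun _ => r) ν / (IM μ b P fun _ => r) ^ 2 *
      IM μ b P (Fuj1_207.v1 N y r))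
  refine (h1.sub h2).congr fun x => ?_
  rw [Fuj1_207.Qf_apply]
  ring

end Qf

end HolL

/-! ### pull back -/

section pull

open Crest.Agent.R281.Dif_268

variable {V V' X X' : Type} [NormedAddCommGroup V] [NormedSpace ℝ V]
  [NormedAddCommGroup V'] [NormedSpace ℝ V'] [TopologicalSpace X] [TopologicalSpace X']
  {C : RCh V X} {C' : RCh V' X'} {E : Type*} [NormedAddCommGroup E] [NormedSpace ℂ E]
  {B : Set E} {R T : E → F2 C}

/-- pull back of a bilinear form -/
def pbv (D : V' →L[ℝ] V) (s : Bil V) : Bil V' :=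
  ((ContinuousLinearMap.compL ℝ V' V ℝ).flip D).comp (s.comp D)

@[simp] theorem pbv_apply (D : V' →L[ℝ] V) (s : Bil V) (v w : V') :
    pbv D s v w = s (D v) (D w) := rfl

theorem contDiffAt_pbv {M : Type*} [NormedAddCommGroup M] [NormedSpace ℝ M]
    {D : M → V' →L[ℝ] V} {s : M → Bil V} {m : M} {n : WithTop ℕ∞} (hD : ContDiffAt ℝ n D m)
    (hs : ContDiffAt ℝ n s m) : ContDiffAt ℝ n (fun y => pbv (D y) (s y)) m := by
  have h1 : ContDiffAt ℝ n (fun y => (ContinuousLinearMap.compL ℝ V' V ℝ).flip (D y)) m :=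
    ContDiffAt.comp (f := D) (g := fun T => (ContinuousLinearMap.compL ℝ V' V ℝ).flip T) m
      (by exact (ContinuousLinearMap.contDiff _).contDiffAt) hD
  exact h1.clm_comp (hs.clm_comp hD)

theorem sm_pull (hB : IsOpen B) (g : SMap C' C)
    (h : ∀ i, ContDiffOn ℝ ∞ (fun p : E × V => (R p.1).w i p.2) (B ×ˢ (C.e i).target))
    (j : C'.ι) :
    ContDiffOn ℝ ∞ (fun p : E × V' => (g.pull (R p.1)).w j p.2) (B ×ˢ (C'.e j).target) := by
  rintro ⟨q, z⟩ ⟨hq, hz⟩
  obtain ⟨i, hi⟩ := g.exists_dom hz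
  have h1 : ContDiffAt ℝ ∞ (fun p : E × V => (R p.1).w i p.2) (q, loc C C' g.f i j z) :=
    (h i).contDiffAt ((hB.prod (C.e i).open_target).mem_nhds ⟨hq, g.loc_mem hi⟩)
  have h2 : ContDiffAt ℝ ∞ (loc C C' g.f i j) z := g.contDiffAt_loc hi
  have h2' : ContDiffAt ℝ ∞ (fun p : E × V' => loc C C' g.f i j p.2) (q, z) :=
    ContDiffAt.comp (f := fun p : E × V' => p.2) (g := loc C C' g.f i j) (q, z) h2 contDiffAt_snd
  have h3 : ContDiffAt ℝ ∞ (fun p : E × V' => (p.1, loc C C' g.f i j p.2)) (q, z) :=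
    contDiffAt_fst.prodMk h2'
  have h4 : ContDiffAt ℝ ∞ (fun p : E × V' => (R p.1).w i (loc C C' g.f i j p.2)) (q, z) :=
    ContDiffAt.comp (f := fun p : E × V' => (p.1, loc C C' g.f i j p.2))
      (g := fun p : E × V => (R p.1).w i p.2) (q, z) h1 h3
  have h5 : ContDiffAt ℝ ∞ (fun p : E × V' => fderiv ℝ (loc C C' g.f i j) p.2) (q, z) :=
    ContDiffAt.comp (f := fun p : E × V' => p.2) (g := fderiv ℝ (loc C C' g.f i j)) (q, z)
      (h2.fderiv_right (m := ∞) (by simp)) contDiffAt_snd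
  refine ((contDiffAt_pbv h5 h4).congr_of_eventuallyEq ?_).contDiffWithinAt
  have h6 : ∀ᶠ p : E × V' in 𝓝 (q, z), p.2 ∈ dom C C' g.f i j :=
    continuousAt_snd.eventually ((g.isOpen_dom i j).mem_nhds hi)
  filter_upwards [h6] with p hp
  ext u v
  rw [g.pull_w _ hp, pbv_apply]

/-- **pull back of a holomorphic family** -/
theorem HolF.pull (hB : IsOpen B) (h : HolF C B R T) (g : SMap C' C) :
    HolF C' B (fun q => g.pull (R q)) (fun q => g.pull (T q)) where
  smR := sm_pull hB g h.smR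
  smT := sm_pull hB g h.smT
  hol j z hz u v := by
    obtain ⟨i, hi⟩ := g.exists_dom hz
    refine (h.hol i _ (g.loc_mem hi) (fderiv ℝ (loc C C' g.f i j) z u)
      (fderiv ℝ (loc C C' g.f i j) z v)).congr fun q _ => ?_
    rw [g.pull_w _ hi, g.pull_w _ hi]

end pull

/-! ### holomorphic forms on a family of cones -/

section QCF

open Crest.Agent.R281.Ehr2_268
open Crest.Agent.R281.Dif_268 hiding Coh symm2
open Crest.Agent.R281.Ehr4_268 Crest.Agent.R281.CL_473 Crest.Agent.R281.Ehr6_268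
open Crest.Agent.R281.Cdr_234 Crest.Agent.R281.Ehr7_268 Crest.Agent.R281.Phl_655
open Crest.Agent.R281.Ehr8_268 (QBF)

variable {Q : Type uq} [TopologicalSpace Q] {E H : Type} [NormedAddCommGroup E]
    [NormedSpace ℂ E] [NormedAddCommGroup H] [NormedSpace ℂ H] {V X : Type}
    [NormedAddCommGroup V] [NormedSpace ℝ V] [TopologicalSpace X]
    {F : QFam Q E H} {C : RCh V X}


/-- holomorphic forms on the cones of the family -/
structure QCF (F : QFam Q E H) where
  σ : ∀ q0, CF (F.R q0)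
  compat : ∀ q0, ∀ q ∈ (F.e q0).source, ∀ x u v, Vel (F.R q) (F.u q) x u →
    Vel (F.R q) (F.u q) x v → (σ q0).sg (F.u q) x u v = (σ q).sg (F.u q) x u v

namespace QCF

variable (b : QCF F)

/-- real or imaginary part -/
def part (π : ℂ →L[ℝ] ℝ) : QBF F where
  β q0 := (b.σ q0).part π
  compat q0 q hq x u v hu hv := congrArg π (b.compat q0 q hq x u v hu hv)

/-- real part -/
def re : QBF F := b.part reCLM

/-- imaginary part -/
def im : QBF F := b.part imCLM


/-- the form along the transport, extended by `0` -/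
def ext (β : QBF F) (m : Mark F C) (c : E) : F2 m.C' :=
  open Classical in
  if hc : c ∈ Metric.ball (F.u m.q) (F.r m.q) then β.at' m hc else 0

theorem ext_of_mem (β : QBF F) (m : Mark F C) {c : E}
    (hc : c ∈ Metric.ball (F.u m.q) (F.r m.q)) : ext β m c = β.at' m hc := dif_pos hc

/-- **the family along the transport of a marking** -/
theorem holF (m : Mark F C) :
    HolF m.C' (Metric.ball (F.u m.q) (F.r m.q)) (ext b.re m) (ext b.im m) where
  smR i := by
    refine (pw_smooth ((b.σ m.q).part reCLM) (F.cn m.q) (Ehr8_268.pf_in m) i).congr fun p hp => ?_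
    rw [ext_of_mem _ _ hp.1]
    rfl
  smT i := by
    refine (pw_smooth ((b.σ m.q).part imCLM) (F.cn m.q) (Ehr8_268.pf_in m) i).congr fun p hp => ?_
    rw [ext_of_mem _ _ hp.1]
    rfl
  hol i z hz u v := by
    have h1 : DifferentiableOn ℂ (fun c => (b.σ m.q).cw i m.pf c z u v)
        (Metric.ball (F.u m.q) (F.r m.q)) := fun c hc =>
      (CF.hol (b.σ m.q) (F.cn m.q) (Ehr8_268.pf_in m) hc hz u v).differentiableWithinAt
    refine h1.congr fun c hc => ?_
    rw [ext_of_mem _ _ hc, ext_of_mem _ _ hc]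
    rfl

variable [FiniteDimensional ℝ V] [CompactSpace X] [T2Space X] [FiniteDimensional ℂ H]

/-- **periods along the transport of a marking** -/
theorem hol_mk (m : Mark F C) {ℓ : HdR C → ℝ} (hℓ : HolL C fun w => ℓ (cl w)) :
    ∃ φ : E → ℂ, DifferentiableOn ℂ φ (Metric.ball (F.u m.q) (F.r m.q)) ∧
      ∀ q ∈ F.U m.q, (ℓ ((b.re.natF C).cls ((ls F C).s (MQ.mk m) q)) : ℂ) +
        (ℓ ((b.im.natF C).cls ((ls F C).s (MQ.mk m) q)) : ℂ) * I = φ (F.u q) := by
  have h1 := (b.holF m).pull Metric.isOpen_ball (SMap.ofCmp m.cmp.symm)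
  have h2 := hℓ E _ _ _ Metric.isOpen_ball h1
  refine ⟨_, h2, fun q hq => ?_⟩
  rw [b.re.cls_s m hq, b.im.cls_s m hq]
  simp only [ext_of_mem _ m (F.ball_of_mem hq)]

/-- **periods along the transports** -/
theorem hol_cls (x : MQ F C) {ℓ : HdR C → ℝ} (hℓ : HolL C fun w => ℓ (cl w)) :
    ∃ φ : E → ℂ, DifferentiableOn ℂ φ (Metric.ball (F.u x.p) (F.r x.p)) ∧
      ∀ q ∈ F.U x.p, (ℓ ((b.re.natF C).cls ((ls F C).s x q)) : ℂ) +
        (ℓ ((b.im.natF C).cls ((ls F C).s x q)) : ℂ) * I = φ (F.u q) := by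
  obtain ⟨m, rfl⟩ := MQ.exists_rep x
  exact b.hol_mk m hℓ

/-- continuity (473: `cont0`, `cont1`) -/
theorem cont_cls (x : MQ F C) {ℓ : HdR C → ℝ} (hℓ : HolL C fun w => ℓ (cl w)) :
    ContinuousOn (fun q => (ℓ ((b.re.natF C).cls ((ls F C).s x q)) : ℂ) +
        (ℓ ((b.im.natF C).cls ((ls F C).s x q)) : ℂ) * I) ((ls F C).U ((ls F C).p x)) := by
  obtain ⟨φ, h1, h2⟩ := b.hol_cls x hℓ
  have h3 : ContinuousOn (fun q => φ (F.u q)) (F.U x.p) := by
    intro q hq
    have h4 : ContinuousAt φ (F.u q) :=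
      h1.continuousOn.continuousAt (Metric.isOpen_ball.mem_nhds (F.ball_of_mem hq))
    exact (ContinuousAt.comp (f := F.u) (g := φ) h4 (F.cont_u q)).continuousWithinAt
  exact h3.congr fun q hq => h2 q hq

end QCF

end QCF

section one

open Crest.Agent.R281.Ehr2_268
open Crest.Agent.R281.Ehr4_268 Crest.Agent.R281.CL_473 Crest.Agent.R281.Ehr6_268
open Crest.Agent.R281.Cdr_234 Crest.Agent.R281.Ehr7_268 Crest.Agent.R281.Phl_655

variable {Q : Type uq} [TopologicalSpace Q] {H : Type} [NormedAddCommGroup H] [NormedSpace ℂ H]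
    {V X : Type} [NormedAddCommGroup V] [NormedSpace ℝ V] [TopologicalSpace X]
    {F : QFam Q ℂ H} {C : RCh V X} [FiniteDimensional ℝ V] [CompactSpace X] [T2Space X]
    [FiniteDimensional ℂ H]


end one

section QH

open Crest.Agent.R281.Cdr_234 Crest.Agent.R281.Ehr7_268

variable {V X : Type} [NormedAddCommGroup V] [NormedSpace ℝ V] [TopologicalSpace X]
  {C : RCh V X} [FiniteDimensional ℝ V] [MeasurableSpace V] [BorelSpace V] (μ : Measure V)
  [μ.IsAddHaarMeasure] [CompactSpace X]


end QH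

end

end Crest.Agent.R281.Phb_267
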