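import Crest.Agent.R281.LI2_473
import Crest.Agent.R281.As1_957
import Crest.Agent.R281.Phb6_267
import Crest.Agent.R281.Am2_957
import Crest.Agent.R266.Osgood

-- ▼ part R281/Phb7_267

/-!
# R281 (S0424), (D12) PER-HOL, second owner (helper267): several parameters

* `QCF.ana_clsE` : the period functions along the transports are analytic functions of `u q`,
                   `E` finite dimensional (Osgood)
* `HM.geomM`     : 957's `GeomM` (model `QM M`, coordinate in `ℂ^m`) from 473's Hodge data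
* `hol_of_QCF`   : the hypothesis of `HM.geomM` for the forms of a `QCF`
-/

set_option autoImplicit false
set_option linter.unusedSectionVars false
set_option maxSynthPendingDepth 5

open Complex Set Filter Topology
open scoped ContDiff

namespace Crest.Agent.R281.Phb_267

open Crest.Agent.R281.HkR_835

noncomputable section

universe uq

section several

open Crest.Agent.R281.Ehr2_268
open Crest.Agent.R281.Ehr4_268 Crest.Agent.R281.CL_473 Crest.Agent.R281.Ehr6_268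
open Crest.Agent.R281.Cdr_234 Crest.Agent.R281.Ehr7_268 Crest.Agent.R281.Phl_655

variable {Q : Type uq} [TopologicalSpace Q] {E H : Type} [NormedAddCommGroup E]
    [NormedSpace ℂ E] [FiniteDimensional ℂ E] [NormedAddCommGroup H] [NormedSpace ℂ H]
    {V X : Type} [NormedAddCommGroup V] [NormedSpace ℝ V] [TopologicalSpace X]
    {F : QFam Q E H} {C : RCh V X} [FiniteDimensional ℝ V] [CompactSpace X] [T2Space X]
    [FiniteDimensional ℂ H]

/-- analyticity of the period functions, several parameters -/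
theorem QCF.ana_clsE (b : QCF F) (x : MQ F C) {ℓ : HdR C → ℝ}
    (hℓ : HolL C fun w => ℓ (cl w)) :
    ∃ φ : E → ℂ, AnalyticAt ℂ φ (F.u x.p) ∧ ∀ᶠ q in 𝓝 x.p,
      (ℓ ((b.re.natF C).cls ((ls F C).s x q)) : ℂ) +
        (ℓ ((b.im.natF C).cls ((ls F C).s x q)) : ℂ) * I = φ (F.u q) := by
  obtain ⟨φ, h1, h2⟩ := b.hol_cls x hℓ
  refine ⟨φ, Crest.Agent.R266.SCV.analyticOnNhd_of_differentiableOn Metric.isOpen_ball h1 _
    (Metric.mem_ball_self (F.hM x.p).hr), ?_⟩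
  filter_upwards [(F.U_open x.p).mem_nhds (F.U_mem x.p)] with q hq
  exact h2 q hq

end several

end

end Crest.Agent.R281.Phb_267

namespace Crest.Agent.R281.LI_473

open CL_473 Set Filter Topology UpperHalfPlane Am_957 Sl_957

variable {H : Type*} [AddCommGroup H] [Module ℝ H] {Q : H →ₗ[ℝ] H →ₗ[ℝ] ℝ}
  {k₀ ι : Type*} [Field k₀] [Algebra k₀ ℂ] {M : Fmt k₀ ι} {G : Type*} [Group G] {E : Type*}
  [MulAction G E] {L : LS (QM M) G E} {F : Fr Q} {Lz : AddSubgroup H} {κ : Type*}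

/-- **`GeomM` from Hodge data** -/
noncomputable def HM.geomM (D : HM L F Lz κ)
    (hol : ∀ x, (∀ i, D.cls i x = D.cl i) → ∃ φ₀ φ₁ : (Fin M.m → ℂ) → ℂ,
      AnalyticAt ℂ φ₀ (L.p x).1.1 ∧ AnalyticAt ℂ φ₁ (L.p x).1.1 ∧ ∀ᶠ q in 𝓝 (L.p x),
        F.z0 (D.re (L.s x q)) (D.im (L.s x q)) = φ₀ q.1.1 ∧
        F.z1 (D.re (L.s x q)) (D.im (L.s x q)) = φ₁ q.1.1) :
    GeomM M F.N (F.Λ Lz) D.Gp D.Mk where
  toLS := D.lS
  R := D.R
  mem := D.R_mem
  Φ := D.Φ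
  Φ_smul := D.Φ_smul
  Φ_hol x := by
    obtain ⟨φ₀, φ₁, h0, h1, h⟩ := hol x.1 x.2.1
    have hx := h.self_of_nhds
    rw [L.s_self] at hx
    have hN : (F.N : ℂ) ≠ 0 := Complex.ofReal_ne_zero.mpr F.N_pos.ne'
    have hne : φ₀ (L.p x.1).1.1 ≠ 0 := by
      rw [← hx.1]; exact (D.isPer x.2.1).spec.1
    refine ⟨fun u => φ₁ u / (F.N * φ₀ u), h1.div (analyticAt_const.mul h0) (mul_ne_zero hN hne), ?_⟩
    have hU : L.U (L.p x.1) ∈ 𝓝 (L.p x.1) := (L.U_open _).mem_nhds (L.U_mem _)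
    change ∀ᶠ q in 𝓝 (L.p x.1), (D.Φ (D.lS.s x q) : ℂ) = _
    filter_upwards [h, hU] with q hq hqU
    rw [D.Φ_s x hqU, Fr.tau, hq.1, hq.2]




end Crest.Agent.R281.LI_473

namespace Crest.Agent.R281.Phb_267

open Crest.Agent.R281.HkR_835 Crest.Agent.R281.Ehr2_268 Crest.Agent.R281.Ehr4_268
open Crest.Agent.R281.CL_473 Crest.Agent.R281.Ehr6_268 Crest.Agent.R281.Cdr_234
open Crest.Agent.R281.Ehr7_268 Crest.Agent.R281.Phl_655 Crest.Agent.R281.Am_957
open Crest.Agent.R281.LI_473 Crest.Agent.R281.Sl_957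

variable {H : Type} [NormedAddCommGroup H] [NormedSpace ℂ H]
    {V X : Type} [NormedAddCommGroup V] [NormedSpace ℝ V] [TopologicalSpace X]
    {C : RCh V X} [FiniteDimensional ℝ V] [CompactSpace X] [T2Space X]
    [FiniteDimensional ℂ H] {k₀ ι : Type*} [Field k₀] [Algebra k₀ ℂ] {M : Fmt k₀ ι}
    {F : QFam (QM M) (Fin M.m → ℂ) H} {QH : HdR C →ₗ[ℝ] HdR C →ₗ[ℝ] ℝ}

/-- **the hypothesis of `HM.geomM`** for the real and imaginary part of a `QCF` -/
theorem hol_of_QCF (b : QCF F) (Fr : Fr QH) (hQ : ∀ y, HolL C fun w => QH (cl w) y)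
    (hu : ∀ q : QM M, F.u q = q.1.1) (x : MQ F C) :
    ∃ φ₀ φ₁ : (Fin M.m → ℂ) → ℂ, AnalyticAt ℂ φ₀ ((ls F C).p x).1.1 ∧
      AnalyticAt ℂ φ₁ ((ls F C).p x).1.1 ∧ ∀ᶠ q in 𝓝 ((ls F C).p x),
        Fr.z0 ((b.re.natF C).cls ((ls F C).s x q)) ((b.im.natF C).cls ((ls F C).s x q)) =
          φ₀ q.1.1 ∧
        Fr.z1 ((b.re.natF C).cls ((ls F C).s x q)) ((b.im.natF C).cls ((ls F C).s x q)) =
          φ₁ q.1.1 := by
  obtain ⟨φ₀, h0, e0⟩ := b.ana_clsE x (ℓ := fun w => QH w Fr.e) (hQ Fr.e)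
  obtain ⟨φ₁, h1, e1⟩ := b.ana_clsE x (ℓ := fun w => QH w Fr.v) (hQ Fr.v)
  have hp : F.u x.p = ((ls F C).p x).1.1 := hu x.p
  rw [hp] at h0 h1
  refine ⟨φ₀, φ₁, h0, h1, ?_⟩
  have e0' : ∀ᶠ q in 𝓝 ((ls F C).p x), _ := e0
  have e1' : ∀ᶠ q in 𝓝 ((ls F C).p x), _ := e1
  filter_upwards [e0', e1'] with q g0 g1
  rw [hu] at g0 g1
  exact ⟨g0, g1⟩

/-- `cont0`, `cont1` of `HM` -/
theorem cont_of_QCF {Q : Type*} [TopologicalSpace Q] {E : Type} [NormedAddCommGroup E]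
    [NormedSpace ℂ E] {F : QFam Q E H} (b : QCF F) (Fr : Fr QH)
    (hQ : ∀ y, HolL C fun w => QH (cl w) y) (x : MQ F C) :
    ContinuousOn (fun q => Fr.z0 ((b.re.natF C).cls ((ls F C).s x q))
        ((b.im.natF C).cls ((ls F C).s x q))) ((ls F C).U ((ls F C).p x)) ∧
    ContinuousOn (fun q => Fr.z1 ((b.re.natF C).cls ((ls F C).s x q))
        ((b.im.natF C).cls ((ls F C).s x q))) ((ls F C).U ((ls F C).p x)) :=
  ⟨b.cont_cls x (ℓ := fun w => QH w Fr.e) (hQ Fr.e),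
    b.cont_cls x (ℓ := fun w => QH w Fr.v) (hQ Fr.v)⟩

end Crest.Agent.R281.Phb_267
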