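import Crest.Agent.R281.Cus1_581
import Crest.Agent.R281.Phb7_267
import Crest.Agent.R281.Am3_957
import Crest.Agent.R281.Ehp1_461
import Crest.Agent.R281.Am1_957
import Crest.Agent.R281.Sl4_957
import Crest.Agent.R281.LI2_473
import Crest.Agent.R281.Cnt1_311
import Crest.Agent.R281.Dv1_957
import Crest.Agent.R281.Cdr11_234

-- ▼ part R281/Cus2_581
section

/-!
# Row 281, DIV 2, ASM-2 (helper581): the end over the cusp and the two legs, from the algebraic ray

`D : HM (ls Fm C) Fq (Lz C) κ` (helper473), `G := D.geomM hol` (helper267), `Up`, `Ray` (helper957).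

* `valM D`      : the inclusion of the restricted cover into the marked cover, continuous
* `PpH D x τ`   : the marking `x` has the prescribed classes and the period `τ`
* `rayEnd`      : the end map of a ray
* `up_leg`      : the leg along `Up`
* `ray_leg`     : the leg along the ray, into the end
* `exists_cusp` : **both legs and the member of the end**
-/

set_option autoImplicit false
set_option linter.unusedSectionVars false

open Set Filter Topology Polynomial UpperHalfPlane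
open scoped ContDiff

namespace Crest.Agent.R281.Cus_581

open Crest.Agent.R281.HkR_835 Crest.Agent.R281.Ehr2_268 Crest.Agent.R281.Dif_268
open Crest.Agent.R281.Ehr4_268
open Crest.Agent.R281.CL_473 Crest.Agent.R281.Ehr6_268 Crest.Agent.R281.Ehr7_268
open Crest.Agent.R281.Alg_998 Crest.Agent.R281.Cdr_234
open Crest.Agent.R281.Pe_313 Crest.Agent.R281.LI_473 Crest.Agent.R281.Am_957
open Crest.Agent.R281.Sl_957 Crest.Agent.R281.As_957 Crest.Agent.R281.Nc_957
open Crest.Agent.R281.Ends1_989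

noncomputable section

section val

variable {H : Type*} [AddCommGroup H] [Module ℝ H] {Q : H →ₗ[ℝ] H →ₗ[ℝ] ℝ}
  {B : Type*} [TopologicalSpace B] {G : Type*} [Group G] {E : Type*} [MulAction G E]
  {L : LS B G E} {Fq : Fr Q} {Lz : AddSubgroup H} {κ : Type*} (D : HM L Fq Lz κ)

/-- inclusion of the restricted cover -/
def valM (x : D.lS.Tot) : L.Tot := (show D.Mk from x).1


theorem continuous_valM : Continuous (valM D) := by
  apply D.lS.continuous_of
  intro x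
  have hU : L.U (L.pr (valM D x)) ∈ 𝓝 (L.pr (valM D x)) := (L.U_open _).mem_nhds (L.U_mem _)
  have h1 : ContinuousAt (L.tr (valM D x)) (L.pr (valM D x)) :=
    (L.continuousOn_tr (valM D x)).continuousAt hU
  refine ContinuousAt.congr h1 ?_
  filter_upwards [hU] with q hq
  exact (D.lS_s x hq).symm

/-- the marking `x` has the prescribed classes and the period `τ` -/
def PpH (x : L.Tot) (τ : ℂ) : Prop :=
  (∀ i, D.cls i x = D.cl i) ∧ Fq.tau (D.re x) (D.im x) = τ ∧ 0 < τ.im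

end val

variable {V X : Type} [NormedAddCommGroup V] [NormedSpace ℝ V] [TopologicalSpace X]
variable [FiniteDimensional ℝ V] [CompactSpace X] [T2Space X]
variable {H : Type} [NormedAddCommGroup H] [NormedSpace ℂ H] [FiniteDimensional ℂ H]
variable {k₀ ι : Type} [Field k₀] [Algebra k₀ ℂ] {M : Fmt k₀ ι}
variable {Fm : QFam (QM M) (Fin M.m → ℂ) H} {C : RCh V X} {Q : F2 C →ₗ[ℝ] F2 C →ₗ[ℝ] ℝ}
variable {QH : HdR C →ₗ[ℝ] HdR C →ₗ[ℝ] ℝ} {Fq : Fr QH} {Lz₀ : AddSubgroup (HdR C)} {κ : Type}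

section main

variable {D : HM (ls Fm C) Fq Lz₀ κ}
  {hol : ∀ x, (∀ i, D.cls i x = D.cl i) → ∃ φ₀ φ₁ : (Fin M.m → ℂ) → ℂ,
      AnalyticAt ℂ φ₀ ((ls Fm C).p x).1.1 ∧ AnalyticAt ℂ φ₁ ((ls Fm C).p x).1.1 ∧
      ∀ᶠ q in 𝓝 ((ls Fm C).p x),
        Fq.z0 (D.re ((ls Fm C).s x q)) (D.im ((ls Fm C).s x q)) = φ₀ q.1.1 ∧
        Fq.z1 (D.re ((ls Fm C).s x q)) (D.im ((ls Fm C).s x q)) = φ₁ q.1.1}

/-- the class of markings below a point of `GeomM` -/
def vT (x : (D.geomM hol).T) : (ls Fm C).Tot := valM D x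

theorem continuous_vT : Continuous (vT (D := D) (hol := hol)) := continuous_valM D

theorem ppH_vT (x : (D.geomM hol).T) : PpH D (vT x) ((D.geomM hol).Ψ x : ℂ) := by
  have h : (show D.Mk from x).1 ∈ D.st := (show D.Mk from x).2
  exact ⟨h.1, rfl, h.2⟩

theorem u_vT (hu : ∀ q : QM M, Fm.u q = q.1.1) (x : (D.geomM hol).T) :
    Fm.u ((ls Fm C).pr (vT x)) = (D.geomM hol).z x := hu _

variable {F : Frm C Q} {A : F2 C}

/-- **the leg along `Up`** -/
theorem up_leg (hl : LiftS Fm F A (PpH D)) (hu : ∀ q : QM M, Fm.u q = q.1.1)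
    {x₀ x₁ : (D.geomM hol).T} (U : Up (D.geomM hol) x₀ x₁) {T0 : HkT C}
    (h0 : PtOf F A (vT x₀) ((D.geomM hol).Ψ x₀ : ℂ) T0) :
    ∃ T1 : HkT C, Leg F A {τ | τ.re = ((D.geomM hol).Ψ x₀ : ℂ).re ∧ 0 < τ.im} T0 T1 ∧
      PtOf F A (vT x₁) ((D.geomM hol).Ψ x₁ : ℂ) T1 := by
  have e0 : U.X 0 = x₀ := U.X_le 0 le_rfl
  have e1 : U.X 1 = x₁ := U.X_ge 1 le_rfl
  have h0' : PtOf F A (vT (U.X 0)) ((D.geomM hol).Ψ (U.X 0) : ℂ) T0 := by rwa [e0]
  obtain ⟨T1, h1, h2⟩ := exists_leg (c := fun t => vT (U.X t))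
    (τ := fun t => ((D.geomM hol).Ψ (U.X t) : ℂ)) hl (continuous_vT.comp U.X_cont)
    (by
      have h : (fun t => Fm.u ((ls Fm C).pr (vT (U.X t)))) = U.p := by
        funext t
        rw [u_vT hu, U.z_X]
      rw [h]
      exact U.p_smooth)
    U.Ψ_smooth (fun t => ppH_vT _) h0'
    (S := {τ | τ.re = ((D.geomM hol).Ψ x₀ : ℂ).re ∧ 0 < τ.im})
    (fun t => ⟨U.Ψ_re t, ((D.geomM hol).Ψ (U.X t)).im_pos⟩)
  refine ⟨T1, h1, ?_⟩
  simp only [e1] at h2
  exact h2

variable {x₁ : (D.geomM hol).T} {a d : Fin M.m → ℂ} {u : ℂ}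
  {hx : (D.geomM hol).z x₁ = fun j => a j + u * d j}

theorem z_end (ρ : Ray ((D.geomM hol).line a d) ((D.geomM hol).onLine a d x₁ u hx)) {z : ℂ}
    (hz : 1 ≤ z.im) : (D.geomM hol).z ((D.geomM hol).toT a d (ρ.g • ρ.e.F z)) =
      fun j => a j + ρ.e.En.U z * d j := by
  rw [(D.geomM hol).z_toT a d]
  have h1 : ((D.geomM hol).line a d).u (ρ.g • ρ.e.F z) = ρ.e.En.U z := by
    have h2 : ((D.geomM hol).line a d).toLS.pr (ρ.g • ρ.e.F z) =
        ((D.geomM hol).line a d).toLS.pr (ρ.e.F z) := LS.pr_smul _ _ _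
    have h3 := ρ.e.pr z hz
    show (((D.geomM hol).line a d).toLS.pr (ρ.g • ρ.e.F z)).1.1 = _
    rw [h2, h3]
  rw [h1]

/-- **the end map of a ray** -/
def rayEnd (hu : ∀ q : QM M, Fm.u q = q.1.1)
    (ρ : Ray ((D.geomM hol).line a d) ((D.geomM hol).onLine a d x₁ u hx)) {Y : ℝ}
    (hY : ρ.Y₂ ≤ Y) : EndMap Fm C (PpH D) Y where
  pt τ := vT ((D.geomM hol).toT a d (ρ.g • ρ.e.F (ρ.k τ)))
  cont := by
    have h1 : ContinuousOn ρ.k {τ | Y < τ.im} :=
      ρ.k_diff.continuousOn.mono fun τ hτ => lt_of_le_of_lt hY hτ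
    exact (continuous_vT.comp ((D.geomM hol).continuous_toT a d)).comp_continuousOn
      ((((D.geomM hol).line a d).toLS.continuous_smul' ρ.g).comp_continuousOn
        (ρ.e.cont.comp_continuousOn h1))
  sm := by
    have hO : IsOpen {τ : ℂ | Y < τ.im} := isOpen_lt continuous_const Complex.continuous_im
    have h1 : DifferentiableOn ℂ (fun τ => ρ.e.En.U (ρ.k τ)) {τ | Y < τ.im} :=
      ρ.e.En.diffU.comp (ρ.k_diff.mono fun τ hτ => lt_of_le_of_lt hY hτ) fun τ hτ =>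
        lt_of_lt_of_le zero_lt_one (ρ.k_im τ (lt_of_le_of_lt hY hτ)).le
    have h2 : ContDiffOn ℂ ∞ (fun τ => ρ.e.En.U (ρ.k τ)) {τ | Y < τ.im} := h1.contDiffOn hO
    have h3 : ContDiffOn ℝ ∞ (fun τ => (fun j => a j + ρ.e.En.U (ρ.k τ) * d j : Fin M.m → ℂ))
        {τ | Y < τ.im} := by
      rw [contDiffOn_pi]
      intro j
      exact (contDiffOn_const.add (h2.mul contDiffOn_const)).restrict_scalars ℝ
    refine h3.congr fun τ hτ => ?_
    rw [u_vT hu]
    exact z_end ρ (ρ.k_im τ (lt_of_le_of_lt hY hτ)).le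
  per τ hτ := by
    have h0 : ρ.Y₂ < τ.im := lt_of_le_of_lt hY hτ
    have h1 := ppH_vT (hol := hol) ((D.geomM hol).toT a d (ρ.g • ρ.e.F (ρ.k τ)))
    have h2 : ((D.geomM hol).Ψ ((D.geomM hol).toT a d (ρ.g • ρ.e.F (ρ.k τ))) : ℂ) = τ := by
      rw [(D.geomM hol).Ψ_toT, ρ.nf _ (ρ.k_im τ h0), ρ.k_inv τ h0]
    rwa [h2] at h1

/-- **the leg along the ray** -/
theorem ray_leg (hl : LiftS Fm F A (PpH D)) (hu : ∀ q : QM M, Fm.u q = q.1.1)
    (ρ : Ray ((D.geomM hol).line a d) ((D.geomM hol).onLine a d x₁ u hx)) {Y : ℝ}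
    (hY : ρ.Y₂ ≤ Y) {T1 : HkT C} (h1 : PtOf F A (vT x₁) ((D.geomM hol).Ψ x₁ : ℂ) T1) {y : ℝ}
    (hy : ρ.Y₁ ≤ y) :
    ∃ T2 : HkT C, Leg F A {τ | τ.re = ((D.geomM hol).Ψ x₁ : ℂ).re ∧ 0 < τ.im} T1 T2 ∧
      PtOf F A ((rayEnd hu ρ hY).pt (((D.geomM hol).Ψ x₁).re + y * Complex.I))
        (((D.geomM hol).Ψ x₁).re + y * Complex.I) T2 := by
  set a0 : ℝ := ((D.geomM hol).Ψ x₁).re with ha0
  set y0 : ℝ := ((D.geomM hol).Ψ x₁).im with hy0
  have hy0pos : 0 < y0 := ((D.geomM hol).Ψ x₁).im_pos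
  have hy0y : y0 ≤ y := ρ.le_Y₁.trans hy
  set σ : ℝ → ℝ := Ehp_461.stp y0 y with hσ
  have hσm : ∀ t, σ t ∈ Icc y0 y := Ehp_461.stp_mem hy0y
  have hσs : ContDiff ℝ ∞ σ := Ehp_461.stp_contDiff y0 y
  have hσ0 : σ 0 = y0 := Ehp_461.stp_left _ _ (by norm_num)
  have hσ1 : σ 1 = y := Ehp_461.stp_right _ _ (by norm_num)
  have hI : ∀ t, σ t ∈ Ici y0 := fun t => (hσm t).1
  have hcc : Continuous fun t => ρ.c (σ t) := ρ.c_cont.comp_continuous hσs.continuous hI
  have hre : ∀ s : ℝ, ((a0 : ℂ) + s * Complex.I).re = a0 := fun s => by simp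
  have him : ∀ s : ℝ, ((a0 : ℂ) + s * Complex.I).im = s := fun s => by simp
  have hΨ : ∀ t, ((D.geomM hol).Ψ ((D.geomM hol).toT a d (ρ.c (σ t))) : ℂ) =
      (a0 : ℂ) + (σ t : ℝ) * Complex.I := by
    intro t
    rw [(D.geomM hol).Ψ_toT, ρ.c_ray (σ t) (hI t)]
    exact ray_coe (hy0pos.trans_le (hI t))
  have hus : ContDiff ℝ ∞ fun t => ((D.geomM hol).line a d).u (ρ.c (σ t)) := by
    rw [contDiff_iff_contDiffAt]
    intro t0
    obtain ⟨φ, hφ, hφe⟩ := ρ.c_an (σ t0) (hI t0)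
    have e1 : ContDiffAt ℝ ∞ φ ((a0 : ℂ) + (σ t0 : ℝ) * Complex.I) :=
      (hφ.contDiffAt (n := ∞)).restrict_scalars ℝ
    have e2 : ContDiff ℝ ∞ fun t => (a0 : ℂ) + (σ t : ℝ) * Complex.I :=
      contDiff_const.add ((Complex.ofRealCLM.contDiff.comp hσs).mul contDiff_const)
    have e3 : ContDiffAt ℝ ∞ (fun t => φ ((a0 : ℂ) + (σ t : ℝ) * Complex.I)) t0 :=
      e1.comp t0 e2.contDiffAt
    refine e3.congr_of_eventuallyEq ?_
    have e4 : Tendsto σ (𝓝 t0) (𝓝[Ici y0] (σ t0)) :=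
      tendsto_nhdsWithin_of_tendsto_nhds_of_eventually_within _ hσs.continuous.continuousAt
        (Eventually.of_forall hI)
    exact e4.eventually hφe
  have c0 : (D.geomM hol).toT a d (ρ.c (σ 0)) = x₁ := by
    rw [hσ0]
    have h2 : ρ.c y0 = (D.geomM hol).onLine a d x₁ u hx := ρ.c_start
    rw [h2]
    exact (D.geomM hol).toT_onLine a d x₁ u hx
  have h1' : PtOf F A (vT ((D.geomM hol).toT a d (ρ.c (σ 0))))
      ((a0 : ℂ) + (σ 0 : ℝ) * Complex.I) T1 := by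
    rw [← hΨ 0, c0]
    exact h1
  obtain ⟨T2, h3, h4⟩ := exists_leg (c := fun t => vT ((D.geomM hol).toT a d (ρ.c (σ t))))
    (τ := fun t => (a0 : ℂ) + (σ t : ℝ) * Complex.I) hl
    (continuous_vT.comp (((D.geomM hol).continuous_toT a d).comp hcc))
    (by
      have h : (fun t => Fm.u ((ls Fm C).pr (vT ((D.geomM hol).toT a d (ρ.c (σ t)))))) =
          fun t => (fun j => a j + ((D.geomM hol).line a d).u (ρ.c (σ t)) * d j) := by
        funext t
        rw [u_vT hu, (D.geomM hol).z_toT a d]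
      rw [h, contDiff_pi]
      intro j
      exact contDiff_const.add (hus.mul contDiff_const))
    (contDiff_const.add ((Complex.ofRealCLM.contDiff.comp hσs).mul contDiff_const))
    (fun t => by
      have h := ppH_vT (hol := hol) ((D.geomM hol).toT a d (ρ.c (σ t)))
      rwa [hΨ t] at h)
    h1' (S := {τ | τ.re = ((D.geomM hol).Ψ x₁ : ℂ).re ∧ 0 < τ.im})
    (fun t => ⟨hre _, by rw [him]; exact hy0pos.trans_le (hI t)⟩)
  refine ⟨T2, h3, ?_⟩
  have h5 : ρ.c y = ρ.g • ρ.e.F (ρ.k ((a0 : ℂ) + y * Complex.I)) := ρ.c_end y hy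
  simp only [hσ1, h5] at h4
  exact h4

/-- **the two legs and the member of the end** -/
theorem exists_cusp (hl : LiftS Fm F A (PpH D)) (hu : ∀ q : QM M, Fm.u q = q.1.1)
    (hP : PerUniq F A) {x₀ : (D.geomM hol).T} (U : Up (D.geomM hol) x₀ x₁)
    (ρ : Ray ((D.geomM hol).line a d) ((D.geomM hol).onLine a d x₁ u hx)) {Y : ℝ} (hY0 : 0 < Y)
    (hY : ρ.Y₂ ≤ Y) {T0 : HkT C} (h0 : PtOf F A (vT x₀) ((D.geomM hol).Ψ x₀ : ℂ) T0) :
    ∃ (T1 : HkT C) (τ1 : ℂ), (cuspOf hY0 (rayEnd hu ρ hY) hl).Mem τ1 T1 ∧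
      τ1.re = ((D.geomM hol).Ψ x₀ : ℂ).re ∧
      Leg F A {τ | τ.re = ((D.geomM hol).Ψ x₀ : ℂ).re ∧ 0 < τ.im} T0 T1 := by
  obtain ⟨T1, h1, h2⟩ := up_leg hl hu U h0
  have hre : ((D.geomM hol).Ψ x₁ : ℂ).re = ((D.geomM hol).Ψ x₀ : ℂ).re := by
    have h := U.Ψ_re 1
    rw [U.X_ge 1 le_rfl] at h
    exact h
  set y : ℝ := max ρ.Y₁ (Y + 1) with hy
  obtain ⟨T2, h3, h4⟩ := ray_leg hl hu ρ hY h2 (le_max_left ρ.Y₁ (Y + 1))
  refine ⟨T2, ((D.geomM hol).Ψ x₁).re + y * Complex.I, ⟨?_, h4⟩, ?_, ?_⟩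
  · have h5 : ((((D.geomM hol).Ψ x₁).re : ℂ) + y * Complex.I).im = y := by simp
    rw [h5]
    have := le_max_right ρ.Y₁ (Y + 1)
    linarith
  · rw [← hre]
    simp
  · rw [hre] at h3
    exact h1.trans hP h3

end main

end

end Crest.Agent.R281.Cus_581
end

-- ▼ part R281/Cnt2_581
section

/-!
# R281 (S0424), COUNT (D13; helper581), part 2: markings over algebraic points are countable

`G` countable, `L : LS Q G E`:

* `countable_over`  : `S` countable ==> `{x | L.p x ∈ S}` countable (one orbit over every point)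
* `countable_base`  : the points of the model `QM M` with coordinates `z j` in the countable field
                      `k₀` are countable (`F` monic)
* `count`           : `{x : E | ∀ j, z j (p x) ∈ k₀}` is countable, for `L : LS (QM M) G E`
* `count_per`       : the periods `Φ x` of these markings are countable; `count_HM` for 473's `HM`
-/

set_option autoImplicit false

open Set Filter Topology Polynomial

namespace Crest.Agent.R281.Cnt_581

open Crest.Agent.R281.CL_473 Crest.Agent.R281.Sl_957 Crest.Agent.R281.Am_957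

noncomputable section

section LS

variable {Q : Type*} [TopologicalSpace Q] {G : Type*} [Group G] {E : Type*} [MulAction G E]

/-- one orbit over every point -/
theorem countable_fibre [Countable G] (L : LS Q G E) (q : Q) : {x : E | L.p x = q}.Countable := by
  rcases Set.eq_empty_or_nonempty {x : E | L.p x = q} with h | ⟨x0, hx0⟩
  · rw [h]
    exact countable_empty
  · refine (countable_range fun g : G => g • x0).mono fun y hy => ?_
    obtain ⟨g, hg⟩ := L.trans x0 y (Eq.trans hx0 (Eq.symm hy))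
    exact ⟨g, hg.symm⟩

/-- the markings over a countable set are countable -/
theorem countable_over [Countable G] (L : LS Q G E) {S : Set Q} (hS : S.Countable) :
    {x : E | L.p x ∈ S}.Countable := by
  have h : {x : E | L.p x ∈ S} = ⋃ q ∈ S, {x : E | L.p x = q} := by
    ext x
    simp
  rw [h]
  exact hS.biUnion fun q _ => countable_fibre L q

end LS

section base

variable {k₀ R : Type*} [Field k₀] [Algebra k₀ ℂ] {M : Fmt k₀ R}

/-- the points of the model with coordinates in `k₀` -/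
theorem countable_base [Countable k₀] (hM : M.F.Monic) :
    {q : QM M | ∀ j, ∃ a : k₀, algebraMap k₀ ℂ a = zc M q j}.Countable := by
  classical
  let φ : (Fin M.m → k₀) → Set (QM M) := fun z' =>
    {q | zc M q = fun j => algebraMap k₀ ℂ (z' j)}
  have hφ : ∀ z', (φ z').Countable := by
    intro z'
    refine Set.Finite.countable ?_
    have h1 : (M.F.map (ez fun j => algebraMap k₀ ℂ (z' j))) ≠ 0 := (hM.map _).ne_zero
    have h2 : ((M.F.map (ez fun j => algebraMap k₀ ℂ (z' j))).roots.toFinset : Set ℂ).Finite :=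
      Finset.finite_toSet _
    refine Set.Finite.of_injOn (f := fun q : QM M => q.1.2) (fun q hq => ?_) ?_ h2
    · have hq' : q.1.1 = fun j => algebraMap k₀ ℂ (z' j) := hq
      have h3 : M.F.eval₂ (ez q.1.1) q.1.2 = 0 := q.2.1
      rw [hq'] at h3
      simp only [Finset.mem_coe, Multiset.mem_toFinset]
      rw [mem_roots h1, IsRoot.def, eval_map]
      exact h3
    · intro q hq q' hq' h
      have e1 : q.1.1 = fun j => algebraMap k₀ ℂ (z' j) := hq
      have e2 : q'.1.1 = fun j => algebraMap k₀ ℂ (z' j) := hq'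
      exact Subtype.ext (Prod.ext (e1.trans e2.symm) h)
  refine (countable_iUnion hφ).mono fun q hq => ?_
  choose a ha using hq
  rw [mem_iUnion]
  refine ⟨a, ?_⟩
  show zc M q = fun j => algebraMap k₀ ℂ (a j)
  funext j
  exact (ha j).symm

variable {G : Type*} [Group G] {E : Type*} [MulAction G E]

/-- **COUNT**: the markings over algebraic points are countable -/
theorem count [Countable k₀] [Countable G] (L : LS (QM M) G E) (hM : M.F.Monic) :
    {x : E | ∀ j, ∃ a : k₀, algebraMap k₀ ℂ a = zc M (L.p x) j}.Countable :=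
  countable_over L (countable_base hM)

/-- the periods of the markings over algebraic points are countable -/
theorem count_per [Countable k₀] [Countable G] (L : LS (QM M) G E) (hM : M.F.Monic) {T : Type*}
    (Φ : E → T) :
    {τ : T | ∃ x : E, (∀ j, ∃ a : k₀, algebraMap k₀ ℂ a = zc M (L.p x) j) ∧ Φ x = τ}.Countable :=
  (count L hM).image Φ

end base

instance countable_QB_type : Countable QB := countable_QB.to_subtype

section QB

variable {R : Type*} {M : Fmt QB R} {G : Type*} [Group G] {E : Type*} [MulAction G E]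

theorem exists_QB_iff (x : ℂ) : (∃ a : QB, algebraMap QB ℂ a = x) ↔ x ∈ QB :=
  ⟨fun ⟨a, ha⟩ => by rw [← ha]; exact a.2, fun h => ⟨⟨x, h⟩, rfl⟩⟩

/-- **COUNT** over `QB` : `S` of ASM-M -/
theorem count_QB [Countable G] (L : LS (QM M) G E) (hM : M.F.Monic) {T : Type*} (Φ : E → T) :
    {τ : T | ∃ x : E, (∀ j, zc M (L.p x) j ∈ QB) ∧ Φ x = τ}.Countable := by
  refine (count_per L hM Φ).mono ?_
  rintro τ ⟨x, hx, rfl⟩
  exact ⟨x, fun j => (exists_QB_iff _).2 (hx j), rfl⟩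

open Crest.Agent.R281.LI_473 in
/-- **COUNT** for the restricted marked cover of 473 -/
theorem count_HM {H : Type*} [AddCommGroup H] [Module ℝ H] {Q : H →ₗ[ℝ] H →ₗ[ℝ] ℝ} {F : Fr Q}
    {L : LS (QM M) G E} {Lz : AddSubgroup H} {κ : Type*} (D : HM L F Lz κ) [Countable D.Gp]
    (hM : M.F.Monic) :
    {τ : UpperHalfPlane | ∃ x : D.Mk, (∀ j, zc M (D.lS.p x) j ∈ QB) ∧ D.Φ x = τ}.Countable :=
  count_QB D.lS hM D.Φ

end QB

end

end Crest.Agent.R281.Cnt_581
end

-- ▼ part R281/PU1_581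
section

/-!
# Row 281, DIV 2, ASM-2 (helper581): the period is determined by the structure

* `perUniq` : `PerUniq F A` for a symmetric form `Q` which vanishes on exact forms
* `Leg.re_eq`, `Leg.at0`, `Leg.at1`, `Leg.trans'` : consequences
-/

set_option autoImplicit false

open Set Filter Topology
open scoped ContDiff

namespace Crest.Agent.R281.PU_581

open Crest.Agent.R281.HkR_835 Crest.Agent.R281.Cdr_234 Crest.Agent.R281.Alg_998
open Crest.Agent.R281.Ti_846 (Ex)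
open Crest.Agent.R281.Cnt_311

variable {V X : Type} [NormedAddCommGroup V] [NormedSpace ℝ V] [TopologicalSpace X]
  {C : RCh V X} {Q : F2 C →ₗ[ℝ] F2 C →ₗ[ℝ] ℝ}

/-- **the period is determined by the structure** -/
theorem perUniq (hs : ∀ a b, Q a b = Q b a) (hQ : ∀ a b : F2 C, Ex a → Q a b = 0)
    (F : Frm C Q) (A : F2 C) : PerUniq F A := fun _ _ _ h h' =>
  (h.isPer.uniq hs hQ).trans (h'.isPer.uniq hs hQ).symm

end Crest.Agent.R281.PU_581
end

-- ▼ part R281/Dv2_957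

/-!
# R281 (S0424), DIV 2, assembly, part 2 (helper957): the bad real parts and the composition

* `lat_frF`     : the lattice of the frame of `W` is a `Lat` (473)
* `HmOut`       : the Hodge data of a type
* `exists_bad`  : the countable set of bad real parts of a type
* `div2Geo_of`  : `Div2Geo` from START, LIFT and the algebraic data of the ends
-/

set_option autoImplicit false
set_option linter.unusedSectionVars false
set_option maxSynthPendingDepth 5

open Set Filter Topology UpperHalfPlane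
open scoped ContDiff

namespace Crest.Agent.R281.Dv_957

open Crest.Agent.R281.HkR_835 Crest.Agent.R281.Ehr2_268 Crest.Agent.R281.Dif_268
  Crest.Agent.R281.Ehr4_268 Crest.Agent.R281.Ehr6_268 Crest.Agent.R281.Ehr7_268
  Crest.Agent.R281.Ehr8_268 Crest.Agent.R281.Cdr_234 Crest.Agent.R281.Phl_655
  Crest.Agent.R281.Blk_592 Crest.Agent.R281.Sl_957 Crest.Agent.R281.Am_957
  Crest.Agent.R281.CA_867 Crest.Agent.R281.QF_871 Crest.Agent.R281.Cnt_311
  Crest.Agent.R281.Alg_998 Crest.Agent.R281.CL_473 Crest.Agent.R281.LI_473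
  Crest.Agent.R281.As_957 Crest.Agent.R281.Nc_957 Crest.Agent.R281.Cus_581
  Crest.Agent.R281.Pe_313
open Crest.Agent.R281.Sta2_684 (QS)
open Crest.Agent.R281.Sta3_684 (Bq)

noncomputable section

variable {V X : Type} [NormedAddCommGroup V] [NormedSpace ℝ V] [TopologicalSpace X]
  {C : RCh V X} {n : ℕ} {Q : F2 C →ₗ[ℝ] F2 C →ₗ[ℝ] ℝ}

/-- **the lattice of the frame** -/
theorem lat_frF (B : HBas C) (hQ : QS Q)
    (hint : ∀ x y : F2 C, IntF x → IntF y → ∃ k : ℤ, Q x y = k) (F : Frm C Q) :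
    Lat (frF F hQ).N ((frF F hQ).Λ (Lz C)) := by
  refine Fr.lat (frF F hQ) B.basis B.isInt ?_ (cl_mem_Lz.2 F.int_e) ?_ ?_
  · intro x hx y hy
    obtain ⟨w, rfl⟩ := cl_surj x
    obtain ⟨w', rfl⟩ := cl_surj y
    exact hint w w' (cl_mem_Lz.1 hx) (cl_mem_Lz.1 hy)
  · obtain ⟨m, hm, h⟩ := B.rat_int F.rat_v
    exact ⟨m, by exact_mod_cast hm.ne', cl_mem_Lz.2 h⟩
  · obtain ⟨m, hm, h⟩ := B.rat_int F.rat_es
    exact ⟨m, by exact_mod_cast hm.ne', cl_mem_Lz.2 h⟩

theorem sub_Λ (hQ : QS Q) (F : Frm C Q) : ∀ x ∈ (frF F hQ).Λ (Lz C), ∀ y ∈ (frF F hQ).Λ (Lz C),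
    x - y ∈ (frF F hQ).Λ (Lz C) := by
  intro x hx y hy
  show (frF F hQ).κ (x - y) ∈ Lz C
  rw [map_sub]
  exact (Lz C).sub_mem hx hy

variable [FiniteDimensional ℝ V] [CompactSpace X] [T2Space X]

/-- **the Hodge data of a type** -/
structure HmOut (T : Ty n C) (F : Frm C Q) (hQ : QS Q) where
  D : HM T.L (frF F hQ) (Lz C) (Fin T.ρ)
  cls : D.cls = T.cls
  cl : D.cl = T.pcl
  re : D.re = (T.qc.re.natF C).cls
  im : D.im = (T.qc.im.natF C).cls
  hol : ∀ x, (∀ i, D.cls i x = D.cl i) → ∃ φ₀ φ₁ : (Fin T.M.m → ℂ) → ℂ,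
    AnalyticAt ℂ φ₀ (T.L.p x).1.1 ∧ AnalyticAt ℂ φ₁ (T.L.p x).1.1 ∧ ∀ᶠ q in 𝓝 (T.L.p x),
      (frF F hQ).z0 (D.re (T.L.s x q)) (D.im (T.L.s x q)) = φ₀ q.1.1 ∧
      (frF F hQ).z1 (D.re (T.L.s x q)) (D.im (T.L.s x q)) = φ₁ q.1.1

variable {T : Ty n C} {F : Frm C Q} {hQ : QS Q}

/-- the geometry of ASM-M of a type -/
abbrev HmOut.G (O : HmOut T F hQ) := O.D.geomM O.hol

/-- **the bad real parts of a type** -/
theorem exists_bad (B : HBas C) (hint : ∀ x y : F2 C, IntF x → IntF y → ∃ k : ℤ, Q x y = k)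
    (O : HmOut T F hQ) :
    ∃ Nl : Set ℝ, Nl.Countable ∧ ∀ x₀ : O.G.T, (O.G.Ψ x₀).re ∉ Nl →
      ∃ x₁ : O.G.T, Nonempty (Up O.G x₀ x₁) ∧ ∃ (c : Fin T.M.m → QB) (j : Fin T.M.m) (u : ℂ)
        (hx : O.G.z x₁ = fun i => algebraMap QB ℂ (c i) + u * (Pi.single j 1 : Fin T.M.m → ℂ) i),
        Nonempty (Ray (O.G.line (fun i => algebraMap QB ℂ (c i)) (Pi.single j 1))
          (O.G.onLine (fun i => algebraMap QB ℂ (c i)) (Pi.single j 1) x₁ u hx)) := by
  have hG : Countable (difG C ⧸ tG C) := countable_G B.bas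
  have hG' : Countable O.D.Gp := inferInstanceAs (Countable O.D.sg)
  have hS := Cnt_581.count_HM O.D T.nice.monic
  refine exists_rayM_QB O.G T.nice (frF F hQ).N_pos (lat_frF B hQ hint F) (sub_Λ hQ F) hS ?_
  intro x hx
  exact ⟨x, hx, rfl⟩

/-! ### the composition -/

/-- the hypotheses of `Div2Geo` on `A` -/
structure AOk (F : Frm C Q) (A : F2 C) : Prop where
  int : IntF A
  e : Q A F.e = 0
  v : Q A F.v = 0
  es : Q A F.es = 0
  ex : ∃ (H0 : HkT C) (τ0 : ℂ), AtTau F A H0 τ0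

/-- START: every structure over `W` is a member of a family of a type -/
def StartS (F : Frm C Q) (hQ : QS Q) (O : ∀ T : Ty n C, T.Ok F hQ → HmOut T F hQ) : Prop :=
  ∀ A : F2 C, AOk F A → ∀ (H0 : HkT C) (τ0 : ℂ), AtTau F A H0 τ0 →
    ∃ (T : Ty n C) (ok : T.Ok F hQ), T.Rel A ∧ ∃ m0 : Mark T.F C, CxOf m0.P H0 ∧
      PpH (O T ok).D (MQ.mk m0) τ0

/-- LIFT for all types -/
def LiftAll (F : Frm C Q) (hQ : QS Q) (O : ∀ T : Ty n C, T.Ok F hQ → HmOut T F hQ) : Prop :=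
  ∀ (T : Ty n C) (ok : T.Ok F hQ) (A : F2 C), AOk F A → T.Rel A →
    LiftS T.F F A (PpH (O T ok).D)

theorem hu_F (T : Ty n C) : ∀ q : QM T.M, T.F.u q = q.1.1 := fun _ => rfl

/-- the algebraic data of all ends -/
def AlgAll (F : Frm C Q) (hQ : QS Q) (O : ∀ T : Ty n C, T.Ok F hQ → HmOut T F hQ)
    (hl : LiftAll F hQ O) (Alg : ∀ A : F2 C, Cusp F A → Prop) : Prop :=
  ∀ (T : Ty n C) (ok : T.Ok F hQ) (A : F2 C) (hA : AOk F A) (rel : T.Rel A)
    (x₁ : (O T ok).G.T) (c : Fin T.M.m → QB) (j : Fin T.M.m) (u : ℂ)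
    (hx : (O T ok).G.z x₁ = fun i => algebraMap QB ℂ (c i) + u * (Pi.single j 1 : Fin T.M.m → ℂ) i)
    (ρ : Ray ((O T ok).G.line (fun i => algebraMap QB ℂ (c i)) (Pi.single j 1))
      ((O T ok).G.onLine (fun i => algebraMap QB ℂ (c i)) (Pi.single j 1) x₁ u hx)),
    ∃ (Y : ℝ) (hY0 : 0 < Y) (hY : ρ.Y₂ ≤ Y),
      Alg A (cuspOf hY0 (rayEnd (hu_F T) ρ hY) (hl T ok A hA rel))

/-- **DIV 2, composition** -/
theorem div2Geo_of (B : HBas C) (hQ : QS Q)
    (hint : ∀ x y : F2 C, IntF x → IntF y → ∃ k : ℤ, Q x y = k) (F : Frm C Q)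
    (O : ∀ T : Ty n C, T.Ok F hQ → HmOut T F hQ) (hs : StartS F hQ O) (hl : LiftAll F hQ O)
    {Alg : ∀ A : F2 C, Cusp F A → Prop} (ha : AlgAll F hQ O hl Alg) : Div2Geo F Alg := by
  classical
  have hc : Countable (Ty n C) := Ty.countable B.bas
  choose Nl hNl hray using fun (T : Ty n C) (ok : T.Ok F hQ) => exists_bad B hint (O T ok)
  refine ⟨⋃ T : Ty n C, ⋃ ok : T.Ok F hQ, Nl T ok, ?_, ?_⟩
  · exact countable_iUnion fun T => countable_iUnion fun ok => hNl T ok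
  · intro A h1 h2 h3 h4 H0 τ0 h0 hτ
    have hA : AOk F A := ⟨h1, h2, h3, h4, H0, τ0, h0⟩
    obtain ⟨T, ok, rel, m0, hcx, hp⟩ := hs A hA H0 τ0 h0
    set x₀ : (O T ok).G.T := (⟨MQ.mk m0, hp.1, by rw [hp.2.1]; exact hp.2.2⟩ : (O T ok).D.st) with hx₀
    have hΨ : ((O T ok).G.Ψ x₀ : ℂ) = τ0 := hp.2.1
    have hre : ((O T ok).G.Ψ x₀).re = τ0.re := by rw [← hΨ]; rfl
    have hN : ((O T ok).G.Ψ x₀).re ∉ Nl T ok := by
      rw [hre]
      intro h
      exact hτ (mem_iUnion_of_mem T (mem_iUnion_of_mem ok h))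
    obtain ⟨x₁, ⟨U⟩, c, j, u, hx, ⟨ρ⟩⟩ := hray T ok x₀ hN
    obtain ⟨Y, hY0, hY, hAlg⟩ := ha T ok A hA rel x₁ c j u hx ρ
    have hP : PerUniq F A := PU_581.perUniq hQ.symm hQ.ex F A
    have hpt : PtOf F A (vT x₀) ((O T ok).G.Ψ x₀ : ℂ) H0 := by
      rw [hΨ]
      exact ⟨h0, m0, rfl, hcx⟩
    obtain ⟨T1, τ1, hm, hr, hleg⟩ := exists_cusp (hl T ok A hA rel) (hu_F T) hP U ρ hY0 hY hpt
    rw [hΨ] at hr hleg
    exact ⟨_, T1, τ1, hAlg, hm, hr, hleg⟩

end

end Crest.Agent.R281.Dv_957
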