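import Crest.Agent.R281.Ehp1_461

-- ▼ part R281/Ehp2_461
section

/-!
# R281 (S0424), EHR-PATH (helper461), part 2: members along a path of the marked cover

* `PathFam F C cmp c a b P0` : smooth monotone `α` (`a` for `t ≤ 1/4`, `b` for `3/4 ≤ t`) and a jointly
                 smooth path `A : ℝ → HEmb C' H` of members, starting at `P0`, with
                 `[(q (c (α t)), C', A t)] = c (α t)` in the marked cover
* `exists_pathFam` : exists for every continuous path `c` of the marked cover on `[a, b]` whose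
                 projection to the parameter space is smooth
-/

set_option autoImplicit false
set_option maxSynthPendingDepth 5
set_option linter.unusedSectionVars false

open Set Filter Topology Complex
open scoped ContDiff

namespace Crest.Agent.R281.Ehp_461

open Crest.Agent.R281.HkR_835 Crest.Agent.R281.Ehr2_268 Crest.Agent.R281.Dif_268
open Crest.Agent.R281.Ehr4_268 Crest.Agent.R281.CL_473 Crest.Agent.R281.Ehr6_268

noncomputable section

universe uq

variable {Q : Type uq} [TopologicalSpace Q] {E H : Type} [NormedAddCommGroup E]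
  [NormedSpace ℂ E] [NormedAddCommGroup H] [NormedSpace ℂ H]
variable {V X : Type} [NormedAddCommGroup V] [NormedSpace ℝ V] [TopologicalSpace X]
variable [FiniteDimensional ℝ V] [CompactSpace X] [T2Space X] [FiniteDimensional ℂ H]
variable {F : QFam Q E H} {C C' : RCh V X}

/-- the marking with chart system `C'` and member `P` -/
def mk' (cmp : Cmp C C') (q : Q) (P : HEmb C' H) (h : ∀ w, w ∈ P.cone ↔ w ∈ F.S q) : Mark F C :=
  ⟨q, C', cmp, P, h⟩

/-- the member `P` represents the class `x` of markings -/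
def Rep (cmp : Cmp C C') (x : (ls F C).Tot) (P : HEmb C' H) : Prop :=
  ∃ h : ∀ w, w ∈ P.cone ↔ w ∈ F.S ((ls F C).pr x), MQ.mk (mk' cmp ((ls F C).pr x) P h) = x

theorem Rep.congr {cmp : Cmp C C'} {x : (ls F C).Tot} {P P' : HEmb C' H} (h : Rep cmp x P)
    (he : EqT P P') : Rep cmp x P' := by
  obtain ⟨h1, h2⟩ := h
  refine ⟨fun w => (he.cone w).symm.trans (h1 w), ?_⟩
  have e1 : MQ.mk (mk' cmp ((ls F C).pr x) P' fun w => (he.cone w).symm.trans (h1 w)) =
      MQ.mk (mk' cmp ((ls F C).pr x) P h1) := MQ.sound ⟨rfl, id, he.symm.over, HTriv.id C⟩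
  exact e1.trans h2

theorem Rep.cone {cmp : Cmp C C'} {x : (ls F C).Tot} {P : HEmb C' H} (h : Rep cmp x P) (w : H) :
    w ∈ P.cone ↔ w ∈ F.S ((ls F C).pr x) := h.choose w

/-- smooth path on `I`, in the parameter space -/
def SmU (F : QFam Q E H) (q : ℝ → Q) (I : Set ℝ) : Prop :=
  ∀ y ∈ I, ∃ κ : ℝ → E, ContDiffAt ℝ ∞ κ y ∧ ∀ᶠ y' in 𝓝[I] y, F.u (q y') = κ y'

theorem SmU.mono {q : ℝ → Q} {I J : Set ℝ} (h : SmU F q I) (hJ : J ⊆ I) : SmU F q J := by
  intro y hy
  obtain ⟨κ, h1, h2⟩ := h y (hJ hy)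
  exact ⟨κ, h1, h2.filter_mono (nhdsWithin_mono y hJ)⟩

theorem SmU.comp {q : ℝ → Q} {I : Set ℝ} (h : SmU F q I) {α : ℝ → ℝ} (hα : ContDiff ℝ ∞ α)
    (hI : ∀ t, α t ∈ I) : ContDiff ℝ ∞ fun t => F.u (q (α t)) := by
  rw [contDiff_iff_contDiffAt]
  intro t0
  obtain ⟨κ, h1, h2⟩ := h (α t0) (hI t0)
  refine (h1.comp t0 hα.contDiffAt).congr_of_eventuallyEq ?_
  have h3 : Tendsto α (𝓝 t0) (𝓝[I] (α t0)) :=
    tendsto_nhdsWithin_of_tendsto_nhds_of_eventually_within _ hα.continuous.continuousAt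
      (Eventually.of_forall hI)
  exact h3.eventually h2

/-- a path of members over the path `c` of the marked cover -/
structure PathFam (cmp : Cmp C C') (c : ℝ → (ls F C).Tot) (a b : ℝ) (P0 : HEmb C' H) where
  A : ℝ → HEmb C' H
  α : ℝ → ℝ
  sm : SmP A
  αs : ContDiff ℝ ∞ α
  mono : Monotone α
  αl : ∀ t ≤ (1 / 4 : ℝ), α t = a
  αr : ∀ t, (3 / 4 : ℝ) ≤ t → α t = b
  Al : ∀ t ≤ (1 / 4 : ℝ), EqT (A t) P0
  Ar : ∀ t, (3 / 4 : ℝ) ≤ t → EqT (A t) (A 1)
  rep : ∀ t, Rep cmp (c (α t)) (A t)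

theorem PathFam.mem {cmp : Cmp C C'} {c : ℝ → (ls F C).Tot} {a b : ℝ} {P0 : HEmb C' H}
    (p : PathFam cmp c a b P0) (t : ℝ) : p.α t ∈ Icc a b := by
  constructor
  · rcases le_or_gt t (1 / 4) with h | h
    · rw [p.αl t h]
    · calc a = p.α (1 / 4) := (p.αl _ le_rfl).symm
        _ ≤ p.α t := p.mono h.le
  · rcases le_or_gt (3 / 4) t with h | h
    · rw [p.αr t h]
    · calc p.α t ≤ p.α (3 / 4) := p.mono h.le
        _ = b := p.αr _ le_rfl


/-- near a point the path is the transport of its value there -/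
theorem path_loc {c : ℝ → (ls F C).Tot} {I : Set ℝ} (hc : ContinuousOn c I) {y0 : ℝ}
    (hy0 : y0 ∈ I) : ∀ᶠ y in 𝓝[I] y0, (ls F C).pr (c y) ∈ F.U ((ls F C).pr (c y0)) ∧
      c y = (ls F C).tr (c y0) ((ls F C).pr (c y)) := by
  have h1 : Tendsto c (𝓝[I] y0) (map ((ls F C).tr (c y0)) (𝓝 ((ls F C).pr (c y0)))) := by
    rw [← (ls F C).nhds_eq]; exact hc y0 hy0
  have h2 : (ls F C).tr (c y0) '' (F.U ((ls F C).pr (c y0))) ∈ map ((ls F C).tr (c y0)) (𝓝 ((ls F C).pr (c y0))) :=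
    image_mem_map ((F.U_open _).mem_nhds (F.U_mem _))
  filter_upwards [h1 h2] with y hy
  obtain ⟨q, hq, he⟩ := hy
  have e : (ls F C).pr (c y) = q := by
    rw [← he]; exact (ls F C).pr_tr _ hq
  rw [e]
  exact ⟨hq, he.symm⟩

end

end Crest.Agent.R281.Ehp_461
end

-- ▼ part R281/Ehp3_461

/-!
# R281 (S0424), EHR-PATH (helper461), part 3: compact paths and rays of the marked cover

* `PathFam.append`  : concatenation
* `exists_pathFam`  : members along a path on `[a, b]`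
* `RayFam`, `exists_rayFam` : members along a ray `[a, ∞)`
-/

set_option autoImplicit false
set_option maxSynthPendingDepth 5
set_option linter.unusedSectionVars false

open Set Filter Topology Complex
open scoped ContDiff

namespace Crest.Agent.R281.Ehp_461

open Crest.Agent.R281.HkR_835 Crest.Agent.R281.Ehr2_268 Crest.Agent.R281.Dif_268
open Crest.Agent.R281.Ehr4_268 Crest.Agent.R281.CL_473 Crest.Agent.R281.Ehr6_268

noncomputable section

universe uq

variable {Q : Type uq} [TopologicalSpace Q] {E H : Type} [NormedAddCommGroup E]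
  [NormedSpace ℂ E] [NormedAddCommGroup H] [NormedSpace ℂ H]
variable {V X : Type} [NormedAddCommGroup V] [NormedSpace ℝ V] [TopologicalSpace X]
variable [FiniteDimensional ℝ V] [CompactSpace X] [T2Space X] [FiniteDimensional ℂ H]
variable {F : QFam Q E H} {C C' : RCh V X}

theorem smP_const (P : HEmb C' H) : SmP (fun _ : ℝ => P) := fun i =>
  (P.sm i).comp contDiffOn_snd fun _ hp => hp.2


theorem PathFam.Al' {cmp : Cmp C C'} {c : ℝ → (ls F C).Tot} {a b : ℝ} {P0 : HEmb C' H}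
    (p : PathFam cmp c a b P0) {t : ℝ} (ht : t ≤ 1 / 4) : EqT (p.A t) (p.A 0) :=
  (p.Al t ht).trans (p.Al 0 (by norm_num)).symm

/-! ### the glued family of a sequence of families -/

section seq

variable {cmp : Cmp C C'} {c : ℝ → (ls F C).Tot} {s : ℕ → ℝ} {P : ℕ → HEmb C' H}
  (p : ∀ k, PathFam cmp c (s k) (s (k + 1)) (P k)) (hP : ∀ k, EqT (P (k + 1)) ((p k).A 1))
include hP

theorem seq_smP : SmP (glue fun k => (p k).A) :=
  glue_smP (fun k => (p k).sm) (fun k _ ht => (p k).Al' ht) (fun k t ht => (p k).Ar t ht)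
    fun k => ((p (k + 1)).Al 0 (by norm_num)).trans (hP k)

omit hP in
theorem seq_contDiff : ContDiff ℝ ∞ (glue fun k => (p k).α) :=
  glue_contDiff (fun k => (p k).αs)
    (fun k t ht => ((p k).αl t ht).trans ((p k).αl 0 (by norm_num)).symm)
    (fun k t ht => ((p k).αr t ht).trans ((p k).αr 1 (by norm_num)).symm)
    fun k => ((p (k + 1)).αl 0 (by norm_num)).trans ((p k).αr 1 (by norm_num)).symm

omit hP in
theorem seq_mono : Monotone (glue fun k => (p k).α) :=
  glue_mono (fun k => (p k).αs) (fun k => (p k).mono)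
    (fun k t ht => ((p k).αl t ht).trans ((p k).αl 0 (by norm_num)).symm)
    (fun k t ht => ((p k).αr t ht).trans ((p k).αr 1 (by norm_num)).symm)
    fun k => ((p (k + 1)).αl 0 (by norm_num)).trans ((p k).αr 1 (by norm_num)).symm

omit hP in
theorem seq_rep (t : ℝ) : Rep cmp (c ((glue fun k => (p k).α) t)) ((glue fun k => (p k).A) t) :=
  (p ⌊t⌋₊).rep _


end seq

/-- the constant family -/
def PathFam.const {cmp : Cmp C C'} {c : ℝ → (ls F C).Tot} {a : ℝ} {P0 : HEmb C' H}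
    (h : Rep cmp (c a) P0) : PathFam cmp c a a P0 where
  A _ := P0
  α _ := a
  sm := smP_const P0
  αs := contDiff_const
  mono := monotone_const
  αl _ _ := rfl
  αr _ _ := rfl
  Al _ _ := EqT.refl _
  Ar _ _ := EqT.refl _
  rep _ := h

theorem PathFam.rep1 {cmp : Cmp C C'} {c : ℝ → (ls F C).Tot} {a b : ℝ} {P0 : HEmb C' H}
    (p : PathFam cmp c a b P0) : Rep cmp (c b) (p.A 1) := by
  have h := p.rep 1
  rwa [p.αr 1 (by norm_num)] at h

/-- concatenation -/
theorem PathFam.append {cmp : Cmp C C'} {c : ℝ → (ls F C).Tot} {a b d : ℝ} {P0 : HEmb C' H}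
    (p : PathFam cmp c a b P0) (p' : PathFam cmp c b d (p.A 1)) :
    Nonempty (PathFam cmp c a d P0) := by
  let s : ℕ → ℝ := fun k => match k with
    | 0 => a
    | 1 => b
    | _ => d
  let P : ℕ → HEmb C' H := fun k => match k with
    | 0 => P0
    | 1 => p.A 1
    | _ => p'.A 1
  let f : ∀ k, PathFam cmp c (s k) (s (k + 1)) (P k) := fun k => match k with
    | 0 => p
    | 1 => p'
    | (_ + 2) => PathFam.const p'.rep1
  have hP : ∀ k, EqT (P (k + 1)) ((f k).A 1) := fun k => match k with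
    | 0 => EqT.refl _
    | 1 => EqT.refl _
    | (_ + 2) => EqT.refl _
  have hlin : ContDiff ℝ ∞ fun t : ℝ => 4 * t - 1 :=
    (contDiff_const.mul contDiff_id).sub contDiff_const
  have hbig : ∀ t : ℝ, 3 / 4 ≤ t → 2 ≤ ⌊4 * t - 1⌋₊ := by
    intro t ht
    exact Nat.le_floor (by norm_num; linarith)
  have hfα : ∀ n, 2 ≤ n → ∀ x, (f n).α x = d := by
    intro n hn x
    obtain ⟨k, rfl⟩ := Nat.exists_eq_add_of_le' hn
    rfl
  have hfA : ∀ n, 2 ≤ n → ∀ x, (f n).A x = p'.A 1 := by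
    intro n hn x
    obtain ⟨k, rfl⟩ := Nat.exists_eq_add_of_le' hn
    rfl
  refine ⟨⟨fun t => glue (fun k => (f k).A) (4 * t - 1), fun t => glue (fun k => (f k).α) (4 * t - 1),
    (seq_smP f hP).comp hlin, (seq_contDiff f).comp hlin,
    fun x y hxy => seq_mono f (by linarith), ?_, ?_, ?_, ?_, fun t => seq_rep f _⟩⟩
  · intro t ht
    rw [glue_of_nonpos _ (by linarith)]
    exact p.αl _ (by linarith)
  · intro t ht
    exact hfα _ (hbig t ht) _
  · intro t ht
    rw [glue_of_nonpos _ (by linarith)]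
    exact p.Al _ (by linarith)
  · intro t ht
    have e1 := hfA _ (hbig t ht) (4 * t - 1 - (⌊4 * t - 1⌋₊ : ℝ))
    have e2 := hfA _ (hbig 1 (by norm_num)) (4 * 1 - 1 - (⌊(4 : ℝ) * 1 - 1⌋₊ : ℝ))
    show EqT ((f ⌊4 * t - 1⌋₊).A (4 * t - 1 - (⌊4 * t - 1⌋₊ : ℝ)))
      ((f ⌊(4 : ℝ) * 1 - 1⌋₊).A (4 * 1 - 1 - (⌊(4 : ℝ) * 1 - 1⌋₊ : ℝ)))
    rw [e1, e2]
    exact EqT.refl _


/-! ### rays -/

/-- members along a ray of the marked cover -/
structure RayFam (cmp : Cmp C C') (c : ℝ → (ls F C).Tot) (a : ℝ) (P0 : HEmb C' H) where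
  A : ℝ → HEmb C' H
  α : ℝ → ℝ
  sm : SmP A
  αs : ContDiff ℝ ∞ α
  mono : Monotone α
  αl : ∀ t ≤ (1 / 4 : ℝ), α t = a
  αn : ∀ n : ℕ, α n = a + n
  Al : ∀ t ≤ (1 / 4 : ℝ), EqT (A t) P0
  rep : ∀ t, Rep cmp (c (α t)) (A t)

theorem RayFam.mem {cmp : Cmp C C'} {c : ℝ → (ls F C).Tot} {a : ℝ} {P0 : HEmb C' H}
    (p : RayFam cmp c a P0) (t : ℝ) : a ≤ p.α t := by
  rcases le_or_gt t (1 / 4) with h | h
  · rw [p.αl t h]
  · calc a = p.α (1 / 4) := (p.αl _ le_rfl).symm
      _ ≤ p.α t := p.mono h.le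



/-- smoothness in the parameter space -/
theorem PathFam.us {cmp : Cmp C C'} {c : ℝ → (ls F C).Tot} {a b : ℝ} {P0 : HEmb C' H}
    (p : PathFam cmp c a b P0) (hs : SmU F (fun y => (ls F C).pr (c y)) (Icc a b)) :
    ContDiff ℝ ∞ fun t => F.u ((ls F C).pr (c (p.α t))) := hs.comp p.αs p.mem

theorem RayFam.us {cmp : Cmp C C'} {c : ℝ → (ls F C).Tot} {a : ℝ} {P0 : HEmb C' H}
    (p : RayFam cmp c a P0) (hs : SmU F (fun y => (ls F C).pr (c y)) (Ici a)) :
    ContDiff ℝ ∞ fun t => F.u ((ls F C).pr (c (p.α t))) := hs.comp p.αs p.mem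

/-- every class of the marked cover has a member -/
theorem exists_rep (x : (ls F C).Tot) : ∃ (C' : RCh V X) (cmp : Cmp C C') (P : HEmb C' H),
    Rep cmp x P := by
  obtain ⟨m, hm⟩ := MQ.exists_rep x
  subst hm
  exact ⟨m.C', m.cmp, m.P, m.cone, rfl⟩

end

end Crest.Agent.R281.Ehp_461
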