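import Mathlib
import Crest.Agent.R281.Ehr2_268
import Crest.Agent.R281.HkR3_835
import Crest.Agent.R281.Ehr8_268
import Crest.Agent.R281.Ehp3_461

-- ▼ part R281/Ehj1_461
section

/-!
# R281 (S0424), CFAM-INST (helper461), part 1: the complex structure of an immersion into `P(H)`

Pointwise data: `D : V →L[ℝ] H` (differential of homogeneous coordinates), `u : H` (their value).

* `IR D u v v'`  : `i · D v = D v' + c · u` for some scalar `c`
* `Imm D u`      : `u ≠ 0` and `D v` is not a multiple of `u` for `v ≠ 0`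
* `Jof D u`      : the complex structure, `Jof_spec`, `Jof_eq`
* `Jof_contDiffAt` : depends smoothly on `(D, u)`
* `prop_deriv`   : differentials of proportional maps
-/

set_option autoImplicit false
set_option linter.unusedSectionVars false

open Filter Topology Complex Set
open scoped ContDiff

namespace Crest.Agent.R281.Ehj_461

noncomputable section

variable {V H : Type*} [NormedAddCommGroup V] [NormedSpace ℝ V]
  [NormedAddCommGroup H] [NormedSpace ℂ H]

/-- `v' = J v` -/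
def IR (D : V →L[ℝ] H) (u : H) (v v' : V) : Prop := ∃ c : ℂ, I • D v = D v' + c • u

/-- immersion into the projective space -/
structure Imm (D : V →L[ℝ] H) (u : H) : Prop where
  ne : u ≠ 0
  inj : ∀ v, (∃ a : ℂ, D v = a • u) → v = 0

/-- the tangent space of the image is complex -/
def CxD (D : V →L[ℝ] H) (u : H) : Prop := ∀ v, ∃ v', IR D u v v'

theorem IR.uniq {D : V →L[ℝ] H} {u : H} (hi : Imm D u) {v v' v'' : V} (h : IR D u v v')
    (h' : IR D u v v'') : v' = v'' := by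
  obtain ⟨c, hc⟩ := h
  obtain ⟨c', hc'⟩ := h'
  refine sub_eq_zero.1 (hi.inj (v' - v'') ⟨c' - c, ?_⟩)
  rw [map_sub, sub_smul, sub_eq_sub_iff_add_eq_add, ← hc, add_comm, ← hc']

/-- the relation does not depend on the homogeneous coordinates -/
theorem IR.scale {D D' : V →L[ℝ] H} {u u' : H} {l : ℂ} {dl : V → ℂ} (hu : u' = l • u)
    (hl : l ≠ 0) (hD : ∀ v, D' v = l • D v + dl v • u) {v v' : V} (h : IR D u v v') :
    IR D' u' v v' := by
  obtain ⟨c, hc⟩ := h
  refine ⟨(I * dl v + l * c - dl v') * l⁻¹, ?_⟩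
  have e1 : ((I * dl v + l * c - dl v') * l⁻¹) • u' = (I * dl v + l * c - dl v') • u := by
    rw [hu, smul_smul, inv_mul_cancel_right₀ hl]
  rw [e1, hD, hD, smul_add, smul_comm I l, hc]
  module

theorem Imm.scale {D D' : V →L[ℝ] H} {u u' : H} {l : ℂ} {dl : V → ℂ} (hu : u' = l • u)
    (hl : l ≠ 0) (hD : ∀ v, D' v = l • D v + dl v • u) (h : Imm D u) : Imm D' u' := by
  refine ⟨by rw [hu]; exact smul_ne_zero hl h.ne, ?_⟩
  rintro v ⟨a, ha⟩
  refine h.inj v ⟨l⁻¹ * (a * l - dl v), ?_⟩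
  rw [hD, hu] at ha
  have e1 : l • D v = (a * l - dl v) • u := by
    rw [sub_smul, mul_smul]
    exact eq_sub_of_add_eq ha
  rw [mul_smul, ← e1, smul_smul, inv_mul_cancel₀ hl, one_smul]

/-- `(v, a) ↦ D v + a u` -/
def TD (D : V →L[ℝ] H) (u : H) : (V × ℂ) →L[ℝ] H :=
  D.comp (ContinuousLinearMap.fst ℝ V ℂ) +
    ((ContinuousLinearMap.lsmul ℝ ℂ).flip u).comp (ContinuousLinearMap.snd ℝ V ℂ)

@[simp] theorem TD_apply (D : V →L[ℝ] H) (u : H) (p : V × ℂ) : TD D u p = D p.1 + p.2 • u := rfl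

theorem TD_inj {D : V →L[ℝ] H} {u : H} (h : Imm D u) : Function.Injective (TD D u) := by
  rw [injective_iff_map_eq_zero]
  rintro ⟨v, a⟩ hv
  rw [TD_apply] at hv
  have h2 : v = 0 := h.inj v ⟨-a, by rw [neg_smul]; exact eq_neg_of_add_eq_zero_left hv⟩
  subst h2
  simp only [map_zero, zero_add] at hv
  have h3 : a = 0 := (smul_eq_zero.mp hv).resolve_right h.ne
  rw [h3]; rfl

/-- multiplication by `i` -/
def mulI (H : Type*) [NormedAddCommGroup H] [NormedSpace ℂ H] : H →L[ℝ] H :=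
  ContinuousLinearMap.lsmul ℝ ℂ I

@[simp] theorem mulI_apply (w : H) : mulI H w = I • w := rfl

open Classical in
/-- the complex structure -/
def Jof (D : V →L[ℝ] H) (u : H) : V →L[ℝ] V :=
  if h : ∃ J : V →L[ℝ] V, ∀ v, IR D u v (J v) then h.choose else 0

theorem Jof_eq {D : V →L[ℝ] H} {u : H} (hi : Imm D u) {J : V →L[ℝ] V}
    (hJ : ∀ v, IR D u v (J v)) : Jof D u = J := by
  have h : ∃ J : V →L[ℝ] V, ∀ v, IR D u v (J v) := ⟨J, hJ⟩
  rw [Jof, dif_pos h]
  ext v
  exact (h.choose_spec v).uniq hi (hJ v)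

/-- the complex structure from a left inverse of `TD` -/
def JL (L : H →L[ℝ] V × ℂ) (D : V →L[ℝ] H) : V →L[ℝ] V :=
  (ContinuousLinearMap.fst ℝ V ℂ).comp (L.comp ((mulI H).comp D))

theorem JL_spec {L : H →L[ℝ] V × ℂ} {D : V →L[ℝ] H} {u : H} (hL : ∀ p, L (TD D u p) = p)
    (hc : CxD D u) (v : V) : IR D u v (JL L D v) := by
  obtain ⟨v', c, h⟩ := hc v
  have e1 : JL L D v = (L (I • D v)).1 := rfl
  have e2 : I • D v = TD D u (v', c) := by rw [TD_apply]; exact h
  rw [e1, e2, hL]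
  exact ⟨c, h⟩

theorem imm_of_left {L : H →L[ℝ] V × ℂ} {D : V →L[ℝ] H} {u : H} (hL : ∀ p, L (TD D u p) = p) :
    Imm D u := by
  refine ⟨?_, ?_⟩
  · rintro rfl
    have h := hL (0, 1)
    rw [TD_apply] at h
    simp only [map_zero, smul_zero, add_zero] at h
    exact one_ne_zero (congrArg Prod.snd h).symm
  · rintro v ⟨a, ha⟩
    have h := hL (v, -a)
    rw [TD_apply] at h
    simp only [ha, neg_smul, add_neg_cancel, map_zero] at h
    exact (congrArg Prod.fst h).symm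

variable [FiniteDimensional ℝ V] [FiniteDimensional ℂ H]

theorem exists_left {D : V →L[ℝ] H} {u : H} (h : Imm D u) :
    ∃ L : H →L[ℝ] V × ℂ, ∀ p, L (TD D u p) = p := by
  have : FiniteDimensional ℝ H := FiniteDimensional.complexToReal H
  obtain ⟨L, hL⟩ := ((TD D u : (V × ℂ) →ₗ[ℝ] H)).exists_leftInverse_of_injective
    (LinearMap.ker_eq_bot.mpr (TD_inj h))
  refine ⟨LinearMap.toContinuousLinearMap L, fun p => ?_⟩
  exact congrArg (fun T : (V × ℂ) →ₗ[ℝ] (V × ℂ) => T p) hL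

theorem Jof_spec {D : V →L[ℝ] H} {u : H} (hi : Imm D u) (hc : CxD D u) (v : V) :
    IR D u v (Jof D u v) := by
  obtain ⟨L, hL⟩ := exists_left hi
  rw [Jof_eq hi (JL_spec hL hc)]
  exact JL_spec hL hc v

theorem Jof_contDiffAt {W : Type*} [NormedAddCommGroup W] [NormedSpace ℝ W] {n : WithTop ℕ∞}
    {D : W → V →L[ℝ] H} {u : W → H} {p0 : W} (hD : ContDiffAt ℝ n D p0) (hu : ContDiffAt ℝ n u p0)
    (hi : Imm (D p0) (u p0)) (hc : ∀ᶠ p in 𝓝 p0, CxD (D p) (u p)) :
    ContDiffAt ℝ n (fun p => Jof (D p) (u p)) p0 := by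
  obtain ⟨L0, hL0⟩ := exists_left hi
  let M : W → (V × ℂ) →L[ℝ] (V × ℂ) := fun p => L0.comp (TD (D p) (u p))
  have hM0 : M p0 = 1 := ContinuousLinearMap.ext fun p => hL0 p
  have hTD : ContDiffAt ℝ n (fun p => TD (D p) (u p)) p0 := by
    have h1 : ContDiffAt ℝ n (fun p => (D p).comp (ContinuousLinearMap.fst ℝ V ℂ)) p0 :=
      hD.clm_comp contDiffAt_const
    have h2 : ContDiffAt ℝ n (fun p => ((ContinuousLinearMap.lsmul ℝ ℂ).flip (u p) :
        ℂ →L[ℝ] H)) p0 :=
      ContDiffAt.comp (f := u) (g := fun w => ((ContinuousLinearMap.lsmul ℝ ℂ).flip w :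
        ℂ →L[ℝ] H)) p0 (by exact (ContinuousLinearMap.contDiff _).contDiffAt) hu
    exact h1.add (h2.clm_comp contDiffAt_const)
  have hM : ContDiffAt ℝ n M p0 := contDiffAt_const.clm_comp hTD
  have hMc : ContinuousAt M p0 := hM.continuousAt
  have hunit : ∀ᶠ p in 𝓝 p0, IsUnit (M p) := by
    have h1 : {x : (V × ℂ) →L[ℝ] (V × ℂ) | IsUnit x} ∈ 𝓝 (M p0) :=
      Units.isOpen.mem_nhds (by rw [hM0]; exact isUnit_one)
    exact hMc h1
  have hinv : ContDiffAt ℝ n (fun p => Ring.inverse (M p)) p0 := by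
    have h1 : ContDiffAt ℝ n (Ring.inverse : ((V × ℂ) →L[ℝ] (V × ℂ)) → _) (M p0) := by
      have h2 := contDiffAt_ringInverse ℝ (R := (V × ℂ) →L[ℝ] (V × ℂ)) (n := n) 1
      rw [hM0]
      exact h2
    exact h1.comp p0 hM
  have hJ : ContDiffAt ℝ n (fun p => JL ((Ring.inverse (M p)).comp L0) (D p)) p0 := by
    unfold JL
    exact contDiffAt_const.clm_comp ((hinv.clm_comp contDiffAt_const).clm_comp
      (contDiffAt_const.clm_comp hD))
  refine hJ.congr_of_eventuallyEq ?_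
  filter_upwards [hunit, hc] with p h1 h2
  have hL : ∀ q, ((Ring.inverse (M p)).comp L0) (TD (D p) (u p) q) = q := by
    intro q
    have h3 : Ring.inverse (M p) * M p = 1 := Ring.inverse_mul_cancel _ h1
    exact congrArg (fun T : (V × ℂ) →L[ℝ] (V × ℂ) => T q) h3
  exact Jof_eq (imm_of_left hL) (JL_spec hL h2)

omit [FiniteDimensional ℝ V] [FiniteDimensional ℂ H] in
/-- differentials of proportional maps -/
theorem prop_deriv {W R : V → H} {z : V} (hW : DifferentiableAt ℝ W z)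
    (hR : DifferentiableAt ℝ R z) (hW0 : W z ≠ 0) (h : ∀ᶠ y in 𝓝 z, ∃ k : ℂ, R y = k • W y) :
    ∃ (l : ℂ) (dl : V → ℂ), R z = l • W z ∧
      ∀ v, fderiv ℝ R z v = l • fderiv ℝ W z v + dl v • W z := by
  obtain ⟨f, -, hf⟩ := exists_dual_vector ℂ (W z) (norm_ne_zero_iff.mpr hW0)
  have hf0 : f (W z) ≠ 0 := by rw [hf]; simpa using hW0
  let fr : H →L[ℝ] ℂ := f.restrictScalars ℝ
  have hfW : HasFDerivAt (fun y => f (W y)) (fr.comp (fderiv ℝ W z)) z :=
    fr.hasFDerivAt.comp z hW.hasFDerivAt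
  have hfR : HasFDerivAt (fun y => f (R y)) (fr.comp (fderiv ℝ R z)) z :=
    fr.hasFDerivAt.comp z hR.hasFDerivAt
  have hl : DifferentiableAt ℝ (fun y => f (R y) * (f (W y))⁻¹) z :=
    hfR.differentiableAt.mul (hfW.differentiableAt.inv hf0)
  set l : V → ℂ := fun y => f (R y) * (f (W y))⁻¹ with hld
  have hRl : ∀ᶠ y in 𝓝 z, R y = l y • W y := by
    filter_upwards [h, hfW.continuousAt.eventually_ne hf0] with y hy hy0
    obtain ⟨k, e⟩ := hy
    have h5 : l y = k := by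
      show f (R y) * (f (W y))⁻¹ = k
      rw [e, map_smul, smul_eq_mul, mul_assoc, mul_inv_cancel₀ hy0, mul_one]
    rw [h5, e]
  refine ⟨l z, fun v => fderiv ℝ l z v, hRl.self_of_nhds, fun v => ?_⟩
  have h6 := hl.hasFDerivAt.smul hW.hasFDerivAt
  have h7 : R =ᶠ[𝓝 z] fun y => l y • W y := hRl
  have h8 := (h6.congr_of_eventuallyEq h7).unique hR.hasFDerivAt
  rw [← h8]
  simp

end

end Crest.Agent.R281.Ehj_461
end

-- ▼ part R281/Ehj2_461
section

/-!
# R281 (S0424), CFAM-INST (helper461), part 2: the complex structure of a member, read in charts of `C`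

`P : HEmb C' H`, `h : Cmp C C'`.

* `rd P C j i z = P.u j (mt C' C j i z)` : homogeneous coordinates read in the chart `i` of `C`
* `Jm P C i z`   : the complex structure; `Jm_ir`, `Jm_iRel` (relation of 313), `Jm_sq`
* `SmT A T`      : jointly smooth family `A : E' → HEmb C' H` over `T`
* `Jm_smooth`    : the complex structures of a jointly smooth family are jointly smooth
-/

set_option autoImplicit false
set_option linter.unusedSectionVars false

open Filter Topology Complex Set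
open scoped ContDiff

namespace Crest.Agent.R281.Ehj_461

open Crest.Agent.R281.HkR_835 Crest.Agent.R281.Ehr2_268

noncomputable section

variable {V X : Type} [NormedAddCommGroup V] [NormedSpace ℝ V] [TopologicalSpace X]
variable {H : Type} [NormedAddCommGroup H] [NormedSpace ℂ H]
variable {C C' : RCh V X}

/-- homogeneous coordinates read in the chart `i` of `C` -/
def rd (P : HEmb C' H) (C : RCh V X) (j : C'.ι) (i : C.ι) (z : V) : H := P.u j (mt C' C j i z)

section rd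

variable (h : Cmp C C') (P : HEmb C' H) {j : C'.ι} {i : C.ι} {z : V}
include h

theorem rd_smooth (hz : z ∈ mov C' C j i) : ContDiffAt ℝ ∞ (rd P C j i) z := by
  have h1 : ContDiffAt ℝ ∞ (mt C' C j i) z :=
    (h.s' i j).contDiffAt ((Cmp.isOpen_mov C' C j i).mem_nhds hz)
  have h2 : ContDiffAt ℝ ∞ (P.u j) (mt C' C j i z) :=
    (P.sm j).contDiffAt ((C'.e j).open_target.mem_nhds (Cmp.mt_mem hz).1)
  exact h2.comp z h1

theorem rd_diff (hz : z ∈ mov C' C j i) : DifferentiableAt ℝ (rd P C j i) z :=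
  (rd_smooth h P hz).differentiableAt (by simp)

theorem fderiv_rd (hz : z ∈ mov C' C j i) (v : V) : fderiv ℝ (rd P C j i) z v =
    fderiv ℝ (P.u j) (mt C' C j i z) (fderiv ℝ (mt C' C j i) z v) := by
  have h2 : DifferentiableAt ℝ (P.u j) (mt C' C j i z) :=
    ((P.sm j).contDiffAt ((C'.e j).open_target.mem_nhds (Cmp.mt_mem hz).1)).differentiableAt
      (by simp)
  have h3 : HasFDerivAt (rd P C j i) _ z :=
    HasFDerivAt.comp (f := mt C' C j i) (g := P.u j) z h2.hasFDerivAt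
      (h.symm.diff hz).hasFDerivAt
  rw [h3.fderiv]
  rfl

omit h in
theorem rd_ne (hz : z ∈ mov C' C j i) : rd P C j i z ≠ 0 := P.ne j _ (Cmp.mt_mem hz).1

theorem rd_imm (hz : z ∈ mov C' C j i) : Imm (fderiv ℝ (rd P C j i) z) (rd P C j i z) := by
  refine ⟨rd_ne P hz, fun v ⟨a, ha⟩ => ?_⟩
  rw [fderiv_rd h P hz] at ha
  have h1 := P.imm j _ (Cmp.mt_mem hz).1 _ ⟨a, ha⟩
  refine Cmp.inj h.symm hz ?_
  rw [h1, map_zero]

theorem rd_cx (hcx : P.Cx) (hz : z ∈ mov C' C j i) :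
    CxD (fderiv ℝ (rd P C j i) z) (rd P C j i z) := by
  intro v
  obtain ⟨w, a, hw⟩ := hcx j _ (Cmp.mt_mem hz).1 (fderiv ℝ (mt C' C j i) z v)
  refine ⟨fderiv ℝ (mt C C' i j) (mt C' C j i z) w, a, ?_⟩
  rw [fderiv_rd h P hz, fderiv_rd h P hz, hw]
  rw [h.symm.d_d' hz]
  rfl

omit h in
theorem rd_change {j' : C'.ι} (hz : z ∈ mov C' C j i) (hz' : z ∈ mov C' C j' i) :
    ∀ᶠ y in 𝓝 z, ∃ k : ℂ, rd P C j' i y = k • rd P C j i y := by
  filter_upwards [(Cmp.isOpen_mov C' C j i).mem_nhds hz,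
    (Cmp.isOpen_mov C' C j' i).mem_nhds hz'] with y hy hy'
  obtain ⟨a, ha⟩ := P.tr j' j _ (Cmp.mt_ov hy' hy)
  rw [Cmp.mt_t hy'] at ha
  exact ⟨a, ha⟩

/-- change of the chart of `C'` -/
theorem ir_change {j' : C'.ι} (hz : z ∈ mov C' C j i) (hz' : z ∈ mov C' C j' i) {v v' : V}
    (hv : IR (fderiv ℝ (rd P C j i) z) (rd P C j i z) v v') :
    IR (fderiv ℝ (rd P C j' i) z) (rd P C j' i z) v v' := by
  obtain ⟨l, dl, h1, h2⟩ := prop_deriv (rd_diff h P hz) (rd_diff h P hz') (rd_ne P hz)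
    (rd_change P hz hz')
  refine hv.scale h1 ?_ h2
  rintro rfl
  rw [zero_smul] at h1
  exact rd_ne P hz' h1

end rd

/-- the complex structure of the member, in the chart `i` of `C` -/
def Jm (P : HEmb C' H) (C : RCh V X) (i : C.ι) (z : V) : V →L[ℝ] V :=
  Jof (fderiv ℝ (rd P C (Cmp.idx C' C i z) i) z) (rd P C (Cmp.idx C' C i z) i z)

section J

variable [FiniteDimensional ℝ V] [FiniteDimensional ℂ H]
variable (h : Cmp C C') {P : HEmb C' H} (hcx : P.Cx) {j : C'.ι} {i : C.ι} {z : V}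
include h hcx

theorem Jm_ir (hz : z ∈ mov C' C j i) (v : V) :
    IR (fderiv ℝ (rd P C j i) z) (rd P C j i z) v (Jm P C i z v) := by
  have hz' : z ∈ mov C' C (Cmp.idx C' C i z) i := Cmp.idx_mem hz.1
  exact ir_change h P hz' hz (Jof_spec (rd_imm h P hz') (rd_cx h P hcx hz') v)

theorem Jm_uniq (hz : z ∈ mov C' C j i) {v v' : V}
    (hv : IR (fderiv ℝ (rd P C j i) z) (rd P C j i z) v v') : v' = Jm P C i z v :=
  hv.uniq (rd_imm h P hz) (Jm_ir h hcx hz v)

theorem Jm_eq (hz : z ∈ mov C' C j i) :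
    Jof (fderiv ℝ (rd P C j i) z) (rd P C j i z) = Jm P C i z :=
  Jof_eq (rd_imm h P hz) (Jm_ir h hcx hz)


/-- the relation of the tangent spaces, in the charts of `C'` -/
theorem Jm_iRel (hz : z ∈ mov C' C j i) (v : V) : ∃ c : ℂ,
    I • fderiv ℝ (P.u j) (mt C' C j i z) (fderiv ℝ (mt C' C j i) z v) =
      fderiv ℝ (P.u j) (mt C' C j i z) (fderiv ℝ (mt C' C j i) z (Jm P C i z v)) +
        c • P.u j (mt C' C j i z) := by
  obtain ⟨c, hc⟩ := Jm_ir h hcx hz v
  rw [fderiv_rd h P hz, fderiv_rd h P hz] at hc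
  exact ⟨c, hc⟩

end J

/-! ### families -/

variable {E' : Type} [NormedAddCommGroup E'] [NormedSpace ℝ E']

/-- jointly smooth family of members over `T` -/
def SmT (A : E' → HEmb C' H) (T : Set E') : Prop :=
  ∀ i, ContDiffOn ℝ ∞ (fun p : E' × V => (A p.1).u i p.2) (T ×ˢ (C'.e i).target)

section fam

variable (h : Cmp C C') {A : E' → HEmb C' H} {T : Set E'} (hT : IsOpen T) (hA : SmT A T)
  {j : C'.ι} {i : C.ι} {t : E'} {z : V}
include h hT hA

theorem rd_joint (ht : t ∈ T) (hz : z ∈ mov C' C j i) :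
    ContDiffAt ℝ ∞ (fun p : E' × V => rd (A p.1) C j i p.2) (t, z) := by
  have h1 : ContDiffAt ℝ ∞ (mt C' C j i) z :=
    (h.s' i j).contDiffAt ((Cmp.isOpen_mov C' C j i).mem_nhds hz)
  have h2 : ContDiffAt ℝ ∞ (fun p : E' × V => (p.1, mt C' C j i p.2)) (t, z) :=
    contDiffAt_fst.prodMk (ContDiffAt.comp (f := fun p : E' × V => p.2) (g := mt C' C j i) (t, z)
      h1 contDiffAt_snd)
  have h3 : ContDiffAt ℝ ∞ (fun p : E' × V => (A p.1).u j p.2) (t, mt C' C j i z) :=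
    (hA j).contDiffAt ((hT.prod (C'.e j).open_target).mem_nhds ⟨ht, (Cmp.mt_mem hz).1⟩)
  exact h3.comp (f := fun p : E' × V => (p.1, mt C' C j i p.2)) (t, z) h2

theorem fderiv_rd_eq (ht : t ∈ T) (hz : z ∈ mov C' C j i) :
    fderiv ℝ (rd (A t) C j i) z =
      (fderiv ℝ (fun p : E' × V => rd (A p.1) C j i p.2) (t, z)).comp
        (ContinuousLinearMap.inr ℝ E' V) := by
  have h1 : HasFDerivAt (fun p : E' × V => rd (A p.1) C j i p.2)
      (fderiv ℝ (fun p : E' × V => rd (A p.1) C j i p.2) (t, z)) (t, z) :=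
    ((rd_joint h hT hA ht hz).differentiableAt (by simp)).hasFDerivAt
  have h2 : HasFDerivAt (fun y => rd (A t) C j i y) _ z :=
    HasFDerivAt.comp (f := fun y : V => (t, y)) (g := fun p : E' × V => rd (A p.1) C j i p.2) z
      h1 (hasFDerivAt_prodMk_right _ _)
  exact h2.fderiv

theorem nhds_mov (ht : t ∈ T) (hz : z ∈ mov C' C j i) :
    ∀ᶠ p : E' × V in 𝓝 (t, z), p.1 ∈ T ∧ p.2 ∈ mov C' C j i :=
  (hT.prod (Cmp.isOpen_mov C' C j i)).mem_nhds (show (t, z) ∈ _ from ⟨ht, hz⟩)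

theorem fderiv_rd_joint (ht : t ∈ T) (hz : z ∈ mov C' C j i) :
    ContDiffAt ℝ ∞ (fun p : E' × V => fderiv ℝ (rd (A p.1) C j i) p.2) (t, z) := by
  have h1 : ContDiffAt ℝ ∞ (fun p : E' × V =>
      (fderiv ℝ (fun p : E' × V => rd (A p.1) C j i p.2) p).comp
        (ContinuousLinearMap.inr ℝ E' V)) (t, z) :=
    ((rd_joint h hT hA ht hz).fderiv_right (m := ∞) (by simp)).clm_comp contDiffAt_const
  refine h1.congr_of_eventuallyEq ?_
  filter_upwards [nhds_mov h hT hA ht hz] with p hp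
  exact fderiv_rd_eq h hT hA hp.1 hp.2

variable [FiniteDimensional ℝ V] [FiniteDimensional ℂ H]

/-- **the complex structures are jointly smooth** -/
theorem Jm_smooth (hcx : ∀ t ∈ T, (A t).Cx) (i : C.ι) :
    ContDiffOn ℝ ∞ (fun p : E' × V => Jm (A p.1) C i p.2) (T ×ˢ (C.e i).target) := by
  rintro ⟨t, z⟩ ⟨ht, hz⟩
  obtain ⟨j, hj⟩ := Cmp.exists_mov C' hz
  have h1 : ContDiffAt ℝ ∞ (fun p : E' × V => Jof (fderiv ℝ (rd (A p.1) C j i) p.2)
      (rd (A p.1) C j i p.2)) (t, z) := by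
    refine Jof_contDiffAt (fderiv_rd_joint h hT hA ht hj) (rd_joint h hT hA ht hj)
      (rd_imm h (A t) hj) ?_
    filter_upwards [nhds_mov h hT hA ht hj] with p hp
    exact rd_cx h (A p.1) (hcx _ hp.1) hp.2
  refine (h1.congr_of_eventuallyEq ?_).contDiffWithinAt
  filter_upwards [nhds_mov h hT hA ht hj] with p hp
  exact (Jm_eq h (hcx _ hp.1) hp.2).symm

end fam

end

end Crest.Agent.R281.Ehj_461
end

-- ▼ part R281/Ehj3_461

/-!
# R281 (S0424), CFAM-INST (helper461), part 3: forms along a family of members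

* `JS W T`          : jointly smooth family of forms `W : E' → F2 C` over `T`; `JS.pull`, `JS.add`,
                      `JS.smul`
* `form'_w`         : the form of a marking is `sg (u q) (P.u j z) (DP.u v) (DP.u w)`
* `form'_joint`     : jointly smooth along jointly smooth families of members
* `form_joint`      : the same on the fixed chart system `C`
-/

set_option autoImplicit false
set_option maxSynthPendingDepth 5
set_option linter.unusedSectionVars false

open Filter Topology Complex Set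
open scoped ContDiff

namespace Crest.Agent.R281.Ehj_461

open Crest.Agent.R281.HkR_835 Crest.Agent.R281.Ehr2_268 Crest.Agent.R281.Dif_268
open Crest.Agent.R281.Ehr4_268 Crest.Agent.R281.CL_473 Crest.Agent.R281.Ehr6_268
open Crest.Agent.R281.Cdr_234 Crest.Agent.R281.Ehr7_268 Crest.Agent.R281.Phl_655
open Crest.Agent.R281.Ehr8_268 Crest.Agent.R281.Ehp_461

noncomputable section

universe uq

variable {V X : Type} [NormedAddCommGroup V] [NormedSpace ℝ V] [TopologicalSpace X]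
variable {E' : Type} [NormedAddCommGroup E'] [NormedSpace ℝ E']
variable {C C' : RCh V X}

/-- jointly smooth family of 2-forms over `T` -/
def JS (W : E' → F2 C) (T : Set E') : Prop :=
  ∀ i, ContDiffOn ℝ ∞ (fun p : E' × V => (W p.1).w i p.2) (T ×ˢ (C.e i).target)

theorem JS.add {W W' : E' → F2 C} {T : Set E'} (h : JS W T) (h' : JS W' T) :
    JS (fun t => W t + W' t) T := fun i => (h i).add (h' i)

theorem JS.smul {W : E' → F2 C} {T : Set E'} {a : E' → ℝ} (ha : ContDiffOn ℝ ∞ a T)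
    (h : JS W T) : JS (fun t => a t • W t) T := fun i =>
  (ha.comp contDiffOn_fst fun _ hp => hp.1).smul (h i)

theorem JS.const (w : F2 C) (T : Set E') : JS (fun _ : E' => w) T := fun i =>
  (w.sm i).comp contDiffOn_snd fun _ hp => hp.2

/-- pull back of a jointly smooth family -/
theorem JS.pull {W : E' → F2 C'} {T : Set E'} (hT : IsOpen T) (h : JS W T) (g : SMap C C') :
    JS (fun t => g.pull (W t)) T := by
  rintro i ⟨t, z⟩ ⟨ht, hz⟩
  obtain ⟨j, hj⟩ := g.exists_dom hz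
  have hev : ∀ᶠ p : E' × V in 𝓝 (t, z), p.1 ∈ T ∧ p.2 ∈ dom C' C g.f j i :=
    (hT.prod (g.isOpen_dom j i)).mem_nhds (show (t, z) ∈ _ from ⟨ht, hj⟩)
  have hφ : ContDiffAt ℝ ∞ (loc C' C g.f j i) z := g.contDiffAt_loc hj
  have h1 : ContDiffAt ℝ ∞ (fun p : E' × V => (p.1, loc C' C g.f j i p.2)) (t, z) :=
    contDiffAt_fst.prodMk (ContDiffAt.comp (f := fun p : E' × V => p.2) (g := loc C' C g.f j i)
      (t, z) hφ contDiffAt_snd)
  have h2 : ContDiffAt ℝ ∞ (fun p : E' × V => (W p.1).w j p.2) (t, loc C' C g.f j i z) :=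
    (h j).contDiffAt ((hT.prod (C'.e j).open_target).mem_nhds ⟨ht, g.loc_mem hj⟩)
  have h3 : ContDiffAt ℝ ∞ (fun p : E' × V => (W p.1).w j (loc C' C g.f j i p.2)) (t, z) :=
    h2.comp (f := fun p : E' × V => (p.1, loc C' C g.f j i p.2)) (t, z) h1
  have h4 : ContDiffAt ℝ ∞ (fun p : E' × V => fderiv ℝ (loc C' C g.f j i) p.2) (t, z) :=
    ContDiffAt.comp (f := fun p : E' × V => p.2) (g := fderiv ℝ (loc C' C g.f j i)) (t, z)
      (hφ.fderiv_right (m := ∞) (by simp)) contDiffAt_snd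
  have h5 : ContDiffAt ℝ ∞ (fun p : E' × V => ((W p.1).w j (loc C' C g.f j i p.2)).comp
      (fderiv ℝ (loc C' C g.f j i) p.2)) (t, z) := h3.clm_comp h4
  have hb : ContDiff ℝ ∞ (fun T : V →L[ℝ] V => (ContinuousLinearMap.compL ℝ V V ℝ).flip T) := by
    fun_prop
  have h6 : ContDiffAt ℝ ∞ (fun p : E' × V => (ContinuousLinearMap.compL ℝ V V ℝ).flip
      (fderiv ℝ (loc C' C g.f j i) p.2)) (t, z) := hb.contDiffAt.comp (t, z) h4
  have h7 : ContDiffAt ℝ ∞ (fun p : E' × V => pb ((W p.1).w j) (loc C' C g.f j i) p.2)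
      (t, z) := h6.clm_comp h5
  refine (h7.congr_of_eventuallyEq ?_).contDiffWithinAt
  filter_upwards [hev] with p hp
  exact g.w'_eq (W p.1) hp.2

theorem JS.congr {W W' : E' → F2 C} {T : Set E'} (h : JS W T)
    (he : ∀ t ∈ T, ∀ i, ∀ z ∈ (C.e i).target, (W' t).w i z = (W t).w i z) : JS W' T := by
  intro i
  refine (h i).congr ?_
  rintro ⟨t, z⟩ ⟨ht, hz⟩
  exact he t ht i z hz

/-! ### forms of markings -/

variable {Q : Type uq} [TopologicalSpace Q] {E H : Type} [NormedAddCommGroup E]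
    [NormedSpace ℂ E] [NormedAddCommGroup H] [NormedSpace ℂ H] {F : QFam Q E H}

/-- velocities of the cone of a member -/
theorem vel_member (m : Mark F C) {q0 : Q} (hq : m.q ∈ (F.e q0).source) {j : m.C'.ι} {z : V}
    (hz : z ∈ (m.C'.e j).target) (v : V) :
    Vel (F.R q0) (F.u m.q) (m.P.u j z) (fderiv ℝ (m.P.u j) z v) := by
  refine ⟨fun t => m.P.u j (z + t • v), by simp, ?_, ?_⟩
  · have h1 : HasDerivAt (fun t : ℝ => z + t • v) v 0 := by
      simpa using ((hasDerivAt_id (0 : ℝ)).smul_const v).const_add z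
    have h2 : HasFDerivAt (m.P.u j) (fderiv ℝ (m.P.u j) z) (z + (0 : ℝ) • v) := by
      have h3 : DifferentiableAt ℝ (m.P.u j) z :=
        ((m.P.sm j).contDiffAt ((m.C'.e j).open_target.mem_nhds hz)).differentiableAt (by simp)
      simpa using h3.hasFDerivAt
    exact HasFDerivAt.comp_hasDerivAt (f := fun t : ℝ => z + t • v) (l := m.P.u j) (0 : ℝ) h2 h1
  · have h1 : Tendsto (fun t : ℝ => z + t • v) (𝓝 0) (𝓝 z) := by
      have : Continuous (fun t : ℝ => z + t • v) := by fun_prop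
      exact this.tendsto' _ _ (by simp)
    filter_upwards [h1.eventually ((m.C'.e j).open_target.mem_nhds hz)] with t ht
    exact (F.R_iff hq _).mpr ((m.cone _).mp (m.P.mem_cone ht))

/-- the value of the form of a marking -/
theorem form'_w (b : QBF F) (m : Mark F C) {j : m.C'.ι} {z : V} (hz : z ∈ (m.C'.e j).target)
    (v w : V) : (b.form' m).w j z v w = (b.β m.q).sg (F.u m.q) (m.P.u j z)
      (fderiv ℝ (m.P.u j) z v) (fderiv ℝ (m.P.u j) z w) := by
  have hc := F.ball_of_mem (F.U_mem m.q)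
  let U : E × V → H := fun p => m.P.fam (F.Φ m.q) j p.1 p.2
  have hU : Lift m.pf j (F.u m.q) z U := by
    have h1 : ∀ᶠ p : E × V in 𝓝 (F.u m.q, z),
        p ∈ Metric.ball (F.u m.q) (F.r m.q) ×ˢ (m.C'.e j).target :=
      (Metric.isOpen_ball.prod (m.C'.e j).open_target).mem_nhds ⟨hc, hz⟩
    filter_upwards [h1] with p hp
    refine ⟨fam_contDiffAt m.P (F.hM m.q) m.coneS hp.1 hp.2
      ((m.P.sm j).contDiffAt ((m.C'.e j).open_target.mem_nhds hp.2)),
      ⟨1, one_ne_zero, (one_smul ℂ _).symm⟩, ?_⟩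
    exact fam_holo m.P (F.hM m.q) m.coneS hp.1 hp.2
  have e0 : ∀ y ∈ (m.C'.e j).target, U (F.u m.q, y) = m.P.u j y := fun y hy => pf_id m hy
  have e1 : dz U (F.u m.q, z) = fderiv ℝ (m.P.u j) z := by
    rw [← (hasFDerivAt_dz hU.diff).fderiv]
    refine Filter.EventuallyEq.fderiv_eq ?_
    filter_upwards [(m.C'.e j).open_target.mem_nhds hz] with y hy using e0 y hy
  show ((b.β m.q).pw j m.pf (F.u m.q) z) v w = _
  rw [pw_apply (b.β m.q) (F.cn m.q) (pf_in m) hc hz hU, e0 z hz, e1]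

/-- the value through a neighbouring base point -/
theorem form'_w' (b : QBF F) (m : Mark F C) {q0 : Q} (hq : m.q ∈ (F.e q0).source) {j : m.C'.ι}
    {z : V} (hz : z ∈ (m.C'.e j).target) (v w : V) :
    (b.form' m).w j z v w = (b.β q0).sg (F.u m.q) (m.P.u j z)
      (fderiv ℝ (m.P.u j) z v) (fderiv ℝ (m.P.u j) z w) := by
  rw [form'_w b m hz, b.compat q0 m.q hq _ _ _ (vel_member m (F.mem m.q) hz v)
    (vel_member m (F.mem m.q) hz w)]

section joint

variable {A : E' → HEmb C' H} {T : Set E'} {q : E' → Q}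

theorem fderiv_u_joint (hT : IsOpen T) (hA : SmT A T) {j : C'.ι} {t : E'} {z : V} (ht : t ∈ T)
    (hz : z ∈ (C'.e j).target) :
    ContDiffAt ℝ ∞ (fun p : E' × V => fderiv ℝ ((A p.1).u j) p.2) (t, z) := by
  have h0 : ∀ p : E' × V, p ∈ T ×ˢ (C'.e j).target →
      ContDiffAt ℝ ∞ (fun p : E' × V => (A p.1).u j p.2) p := fun p hp =>
    (hA j).contDiffAt ((hT.prod (C'.e j).open_target).mem_nhds hp)
  have h1 : ContDiffAt ℝ ∞ (fun p : E' × V =>
      (fderiv ℝ (fun p : E' × V => (A p.1).u j p.2) p).comp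
        (ContinuousLinearMap.inr ℝ E' V)) (t, z) :=
    ((h0 _ ⟨ht, hz⟩).fderiv_right (m := ∞) (by simp)).clm_comp contDiffAt_const
  refine h1.congr_of_eventuallyEq ?_
  filter_upwards [(hT.prod (C'.e j).open_target).mem_nhds (show (t, z) ∈ _ from ⟨ht, hz⟩)] with
    p hp
  have h2 : HasFDerivAt (fun y => (A p.1).u j y) _ p.2 :=
    HasFDerivAt.comp (f := fun y : V => (p.1, y)) (g := fun p : E' × V => (A p.1).u j p.2) p.2
      ((h0 p hp).differentiableAt (by simp)).hasFDerivAt (hasFDerivAt_prodMk_right _ _)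
  exact h2.fderiv

/-- **the forms are jointly smooth**, on the chart system of the markings -/
theorem form'_joint (b : QBF F) (cmp : Cmp C C') (hT : IsOpen T) (hA : SmT A T)
    (hq : ContinuousOn q T) (hu : ContDiffOn ℝ ∞ (fun t => F.u (q t)) T)
    (hc : ∀ t w, w ∈ (A t).cone ↔ w ∈ F.S (q t)) :
    JS (fun t => (b.form' (mk' cmp (q t) (A t) (hc t)) : F2 C')) T := by
  rintro j ⟨t0, z0⟩ ⟨ht0, hz0⟩
  let m : E' → Mark F C := fun t => mk' cmp (q t) (A t) (hc t)
  have hx0 : (F.u (q t0), (A t0).u j z0) ∈ F.R (q t0) :=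
    (F.R_iff (F.mem _) _).mpr ((hc t0 _).mp ((A t0).mem_cone hz0))
  obtain ⟨Sg, hS1, -⟩ := (b.β (q t0)).loc _ _ hx0
  have hut : ContDiffAt ℝ ∞ (fun t => F.u (q t)) t0 := hu.contDiffAt (hT.mem_nhds ht0)
  have hxj : ContDiffAt ℝ ∞ (fun p : E' × V => (A p.1).u j p.2) (t0, z0) :=
    (hA j).contDiffAt ((hT.prod (C'.e j).open_target).mem_nhds ⟨ht0, hz0⟩)
  have h1 : ContDiffAt ℝ ∞ (fun p : E' × V => (F.u (q p.1), (A p.1).u j p.2)) (t0, z0) :=
    (ContDiffAt.comp (f := fun p : E' × V => p.1) (g := fun t => F.u (q t)) (t0, z0) hut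
      contDiffAt_fst).prodMk hxj
  have h2 : ContDiffAt ℝ ∞ (fun p : E' × V => Sg (F.u (q p.1), (A p.1).u j p.2)) (t0, z0) :=
    ContDiffAt.comp (f := fun p : E' × V => (F.u (q p.1), (A p.1).u j p.2)) (g := Sg) (t0, z0)
      hS1.self_of_nhds.1 h1
  have h3 := contDiffAt_pbl (fderiv_u_joint hT hA ht0 hz0) h2
  refine (h3.congr_of_eventuallyEq ?_).contDiffWithinAt
  have hqc : ContinuousAt (fun p : E' × V => q p.1) (t0, z0) :=
    ContinuousAt.comp (f := fun p : E' × V => p.1) (g := q) (x := (t0, z0))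
      (hq.continuousAt (hT.mem_nhds ht0)) continuousAt_fst
  filter_upwards [(hT.prod (C'.e j).open_target).mem_nhds (show (t0, z0) ∈ _ from ⟨ht0, hz0⟩),
    h1.continuousAt.eventually hS1, hqc.eventually ((F.e (q t0)).open_source.mem_nhds
      (F.mem (q t0)))] with p hp hpS hpq
  have hin : (F.u (q p.1), (A p.1).u j p.2) ∈ F.R (q t0) :=
    (F.R_iff hpq _).mpr ((hc p.1 _).mp ((A p.1).mem_cone hp.2))
  ext v w
  rw [pbl_apply]
  have e1 := form'_w' b (m p.1) (q0 := q t0) hpq (j := j) hp.2 v w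
  have e2 := (hpS.2 hin).2 _ _ (vel_member (m p.1) (q0 := q t0) hpq (j := j) hp.2 v)
    (vel_member (m p.1) (q0 := q t0) hpq (j := j) hp.2 w)
  exact e1.trans e2.symm

/-- **the forms are jointly smooth**, on the fixed chart system -/
theorem form_joint (b : QBF F) (cmp : Cmp C C') (hT : IsOpen T) (hA : SmT A T)
    (hq : ContinuousOn q T) (hu : ContDiffOn ℝ ∞ (fun t => F.u (q t)) T)
    (hc : ∀ t w, w ∈ (A t).cone ↔ w ∈ F.S (q t)) :
    JS (fun t => (b.form (mk' cmp (q t) (A t) (hc t)) : F2 C)) T :=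
  JS.pull (W := fun t => (b.form' (mk' cmp (q t) (A t) (hc t)) : F2 C')) hT
    (form'_joint b cmp hT hA hq hu hc) (SMap.ofCmp cmp.symm)

end joint

end

end Crest.Agent.R281.Ehj_461
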