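import Crest.Agent.R281.CFam_830
import Crest.Agent.R281.Pe6_313
import Crest.Agent.R281.Ehj3_461
import Crest.Agent.R281.Phb6_267
import Crest.Agent.R281.Phl6_655
import Crest.Agent.R281.Blk6_592
import Crest.Agent.R281.Dv1_957
import Crest.Agent.R281.Qc2_377

-- ▼ part R281/Pt1_313
section

/-!
# Row 281, point level, part 1 (helper313): the complex structure of a holomorphic 2-form

* `jS s₁ s₂`  : the endomorphism `J` with `s₁ (J u, v) = - s₂ (u, v)`
* `ajS s₁ s₂` : the field `J` of two closed forms (`0` if `s₁` is degenerate), `js_ajS`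
* `Pl w w'`   : `w : F2 C` is `w' : F2 C'` read in the charts of `C`
* `hd_of`     : an embedding with complex tangent spaces, `Typ`, `Nd`, `Typ11`, `Pos11` give
                `HD (ajS s₁ s₂) w s₁ s₂`; `iRel_ajS` : `ajS` is the complex structure of `P`
-/

set_option autoImplicit false
set_option linter.unusedSectionVars false
set_option maxSynthPendingDepth 3

open Set Filter Topology Complex
open scoped ContDiff

namespace Crest.Agent.R281.Pt_313

open Crest.Agent.R281.HkR_835 Crest.Agent.R281.Ehr2_268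
open Crest.Agent.R281.HkR_835.Cmp
open Crest.Agent.R281.NefO_476 (AJ ofHk Pos)
open Crest.Agent.R281.Nef_252 (T11)
open Crest.Agent.R281.Tt_476 (JSJ JS2 JS0)
open Crest.Agent.R281.Al_830 (HD CFam JSH)
open Crest.Agent.R281.Pe_313 (IRel Typ Typ11 Nd Pos11 exists_iRel CxOf)

noncomputable section

/-! ### linear algebra -/

section lin

variable {V : Type} [NormedAddCommGroup V] [NormedSpace ℝ V]

/-- nondegenerate -/
def NdB (s : Bil V) : Prop := ∀ v, (∀ u, s v u = 0) → v = 0

/-- the endomorphism `J` with `s₁ (J u, v) = - s₂ (u, v)` -/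
def jS (s₁ s₂ : Bil V) : V →L[ℝ] V := -((ContinuousLinearMap.inverse s₁).comp s₂)

variable [FiniteDimensional ℝ V]

theorem exists_eqv {s : Bil V} (h : NdB s) :
    ∃ e : V ≃L[ℝ] (V →L[ℝ] ℝ), (e : V →L[ℝ] (V →L[ℝ] ℝ)) = s := by
  have hd : Module.finrank ℝ V = Module.finrank ℝ (V →L[ℝ] ℝ) := by
    have h1 : Module.finrank ℝ (V →ₗ[ℝ] ℝ) = Module.finrank ℝ (V →L[ℝ] ℝ) :=
      LinearEquiv.finrank_eq (LinearMap.toContinuousLinearMap (𝕜 := ℝ) (E := V) (F' := ℝ))
    rw [← h1]
    exact (Subspace.dual_finrank_eq (K := ℝ) (V := V)).symm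
  have hi : Function.Injective (s : V →ₗ[ℝ] (V →L[ℝ] ℝ)) := by
    rw [injective_iff_map_eq_zero]
    intro v hv
    refine h v fun u => ?_
    have h1 : s v = 0 := hv
    rw [h1]
    rfl
  refine ⟨(LinearMap.linearEquivOfInjective (s : V →ₗ[ℝ] (V →L[ℝ] ℝ)) hi
    hd).toContinuousLinearEquiv, ?_⟩
  ext u v
  rfl

theorem jS_spec {s₁ s₂ : Bil V} (h : NdB s₁) (u v : V) : s₁ (jS s₁ s₂ u) v = -s₂ u v := by
  obtain ⟨e, he⟩ := exists_eqv h
  have h1 : ContinuousLinearMap.inverse s₁ = (e.symm : (V →L[ℝ] ℝ) →L[ℝ] V) := by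
    rw [← he, ContinuousLinearMap.inverse_equiv]
  have h2 : jS s₁ s₂ u = -(e.symm (s₂ u)) := by
    unfold jS
    rw [h1]
    rfl
  rw [h2, map_neg, neg_apply]
  have h3 : s₁ (e.symm (s₂ u)) = s₂ u := by
    have h4 : e (e.symm (s₂ u)) = s₂ u := e.apply_symm_apply _
    rw [← he]
    exact h4
  rw [h3]

theorem jS_uniq {s₁ s₂ : Bil V} (h : NdB s₁) {u u' : V} (hu : ∀ v, s₁ u' v = -s₂ u v) :
    u' = jS s₁ s₂ u := by
  have h1 : u' - jS s₁ s₂ u = 0 := by
    refine h _ fun v => ?_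
    rw [map_sub, sub_apply, hu, jS_spec h, sub_self]
  exact sub_eq_zero.1 h1

theorem contDiffAt_jS {M : Type*} [NormedAddCommGroup M] [NormedSpace ℝ M] {f g : M → Bil V}
    {m : M} {n : WithTop ℕ∞} (hf : ContDiffAt ℝ n f m) (hg : ContDiffAt ℝ n g m)
    (h : NdB (f m)) : ContDiffAt ℝ n (fun y => jS (f y) (g y)) m := by
  have : CompleteSpace V := FiniteDimensional.complete ℝ V
  obtain ⟨e, he⟩ := exists_eqv h
  have h1 : ContDiffAt ℝ n (ContinuousLinearMap.inverse : (V →L[ℝ] (V →L[ℝ] ℝ)) → _) (f m) := by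
    rw [← he]
    exact contDiffAt_map_inverse e
  have h2 : ContDiffAt ℝ n (fun y => ContinuousLinearMap.inverse (f y)) m := h1.comp m hf
  exact (h2.clm_comp hg).neg

end lin

/-! ### the field of endomorphisms -/

section field

variable {V X : Type} [NormedAddCommGroup V] [NormedSpace ℝ V] [TopologicalSpace X]
  {C : RCh V X}

theorem Nd.b {s : F2 C} (h : Nd s) {i : C.ι} {z : V} (hz : z ∈ (C.e i).target) :
    NdB (s.w i z) := h i z hz

variable [FiniteDimensional ℝ V]

open Classical in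
/-- the field `J` with `s₁ (J u, v) = - s₂ (u, v)` -/
def ajS (s₁ s₂ : F2 C) : AJ C where
  J i z := if Nd s₁ then jS (s₁.w i z) (s₂.w i z) else 0
  sm i := by
    by_cases h : Nd s₁
    · simp only [if_pos h]
      intro z hz
      have ho := (C.e i).open_target.mem_nhds hz
      exact (contDiffAt_jS ((s₁.sm i).contDiffAt ho) ((s₂.sm i).contDiffAt ho)
        (Nd.b h hz)).contDiffWithinAt
    · simp only [if_neg h]
      exact contDiffOn_const
  tr i j z hz v := by
    by_cases h : Nd s₁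
    · simp only [if_pos h]
      refine jS_uniq (Nd.b h (RCh.t_mem hz).1) fun w => ?_
      have h1 := RCh.dt_dt' hz w
      rw [← h1, ← s₁.tr i j z hz, ← s₂.tr i j z hz, jS_spec (Nd.b h hz.1)]
    · simp only [if_neg h]
      rw [zero_apply, zero_apply, map_zero]

theorem ajS_J {s₁ s₂ : F2 C} (h : Nd s₁) (i : C.ι) (z : V) :
    (ajS s₁ s₂).J i z = jS (s₁.w i z) (s₂.w i z) := if_pos h

theorem ajS_spec {s₁ s₂ : F2 C} (h : Nd s₁) {i : C.ι} {z : V} (hz : z ∈ (C.e i).target)
    (u v : V) : s₁.w i z ((ajS s₁ s₂).J i z u) v = -s₂.w i z u v := by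
  rw [ajS_J h]
  exact jS_spec (Nd.b h hz) u v

theorem ajS_uniq {s₁ s₂ : F2 C} (h : Nd s₁) {i : C.ι} {z : V} (hz : z ∈ (C.e i).target)
    {u u' : V} (hu : ∀ v, s₁.w i z u' v = -s₂.w i z u v) : u' = (ajS s₁ s₂).J i z u := by
  rw [ajS_J h]
  exact jS_uniq (Nd.b h hz) hu

variable {E : Type} [NormedAddCommGroup E] [NormedSpace ℝ E]


end field

/-! ### forms read in other charts -/

section pl

variable {V V' X : Type} [NormedAddCommGroup V] [NormedSpace ℝ V] [NormedAddCommGroup V']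
  [NormedSpace ℝ V'] [TopologicalSpace X] {C : RCh V X} {C' : RCh V' X}

/-- `w` is `w'` read in the charts of `C` -/
def Pl (w : F2 C) (w' : F2 C') : Prop :=
  ∀ (i : C.ι) (j : C'.ι), ∀ z ∈ mov C' C j i, ∀ u v,
    w.w i z u v = w'.w j (mt C' C j i z) (fderiv ℝ (mt C' C j i) z u)
      (fderiv ℝ (mt C' C j i) z v)


theorem Pl.smul {w : F2 C} {w' : F2 C'} (h : Pl w w') (c : ℝ) : Pl (c • w) (c • w') := by
  intro i j z hz u v
  have h1 := h i j z hz u v
  change c * w.w i z u v = c * w'.w j _ _ _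
  rw [h1]

theorem Pl.nd (hc : Cmp C C') {s : F2 C} {s' : F2 C'} (h : Pl s s') (hs : Nd s') : Nd s := by
  intro i z hz v hv
  obtain ⟨j, hj⟩ : ∃ j, z ∈ mov C' C j i := exists_mov C' hz
  refine hc.symm.inj hj ?_
  rw [map_zero]
  refine hs j _ (mt_mem hj).1 _ fun u => ?_
  have h1 := hc.symm.d_d' hj u
  rw [← h1, ← h i j z hj]
  exact hv _

variable {H : Type} [NormedAddCommGroup H] [NormedSpace ℂ H] {P : HEmb C' H}

/-- the complex structure of the embedding, in the charts of `C` -/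
theorem exists_rel (hc : Cmp C C') (hcx : P.Cx) {i : C.ι} {j : C'.ι} {z : V}
    (hj : z ∈ mov C' C j i) (u : V) : ∃ u', IRel P j (mt C' C j i z)
      (fderiv ℝ (mt C' C j i) z u) (fderiv ℝ (mt C' C j i) z u') := by
  obtain ⟨v', hv'⟩ := exists_iRel hcx (mt_mem hj).1 (fderiv ℝ (mt C' C j i) z u)
  refine ⟨fderiv ℝ (mt C C' i j) (mt C' C j i z) v', ?_⟩
  rw [hc.symm.d_d' hj]
  exact hv'

variable [FiniteDimensional ℝ V] {s₁ s₂ w : F2 C} {s₁' s₂' w' : F2 C'}

/-- `ajS s₁ s₂` is the complex structure of the embedding -/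
theorem iRel_ajS (hc : Cmp C C') (hcx : P.Cx) (ht : Typ P s₁' s₂') (hn : Nd s₁')
    (h1 : Pl s₁ s₁') (h2 : Pl s₂ s₂') {i : C.ι} {j : C'.ι} {z : V} (hj : z ∈ mov C' C j i)
    (u : V) : IRel P j (mt C' C j i z) (fderiv ℝ (mt C' C j i) z u)
      (fderiv ℝ (mt C' C j i) z ((ajS s₁ s₂).J i z u)) := by
  obtain ⟨u', hu'⟩ := exists_rel hc hcx hj u
  have h3 : u' = (ajS s₁ s₂).J i z u := by
    refine ajS_uniq (h1.nd hc hn) hj.1 fun v => ?_
    rw [h1 i j z hj, h2 i j z hj]
    exact ht j _ (mt_mem hj).1 _ _ _ hu'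
  rw [← h3]
  exact hu'

/-- **the data of a member** -/
theorem hd_of (hc : Cmp C C') (hcx : P.Cx) (ht : Typ P s₁' s₂') (hn : Nd s₁')
    (ht11 : Typ11 P w') (hp : Pos11 P w') (h1 : Pl s₁ s₁') (h2 : Pl s₂ s₂') (h3 : Pl w w') :
    HD (ajS s₁ s₂) w s₁ s₂ := by
  have hr : ∀ (i : C.ι) (j : C'.ι) (z : V), z ∈ mov C' C j i → ∀ u,
      IRel P j (mt C' C j i z) (fderiv ℝ (mt C' C j i) z u)
        (fderiv ℝ (mt C' C j i) z ((ajS s₁ s₂).J i z u)) :=
    fun i j z hj u => iRel_ajS hc hcx ht hn h1 h2 hj u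
  refine ⟨fun i z hz u => ?_, fun i z hz u v => ?_, fun i z hz u hu => ?_, fun i z hz u v => ?_,
    h1.nd hc hn⟩
  · obtain ⟨j, hj⟩ : ∃ j, z ∈ mov C' C j i := exists_mov C' hz
    refine hc.symm.inj hj ?_
    rw [map_neg]
    exact ((hr i j z hj _).uniq (mt_mem hj).1 (hr i j z hj u).neg)
  · obtain ⟨j, hj⟩ : ∃ j, z ∈ mov C' C j i := exists_mov C' hz
    rw [h3 i j z hj, h3 i j z hj]
    exact ht11 j _ (mt_mem hj).1 _ _ _ _ (hr i j z hj u) (hr i j z hj v)
  · obtain ⟨j, hj⟩ : ∃ j, z ∈ mov C' C j i := exists_mov C' hz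
    rw [h3 i j z hj]
    refine hp j _ (mt_mem hj).1 _ _ (hr i j z hj u) fun h0 => hu (hc.symm.inj hj ?_)
    rw [h0, map_zero]
  · exact ajS_spec (h1.nd hc hn) hz u v



end pl

end

end Crest.Agent.R281.Pt_313
end

-- ▼ part R281/Pt2_313
section

/-!
# Row 281, point level, part 2 (helper313): positivity of the block forms on the members

* `blk_euler`  : a velocity of the Segre cone whose blocks are radial is radial
* `fsh_self_nonneg`, `fsh_self_zero`, `fsv_I`, `fsv_inv` : the Fubini-Study form of a block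
* `PosF τ`     : a finite family of basic forms on a cone, invariant, `≥ 0`, jointly definite
* `PosF.comap`, `posF_segB` : the block forms of the Segre cone, after a linear embedding
* `PosF.typ11`, `PosF.pos11` : positive combinations pulled back by a member
-/

set_option autoImplicit false
set_option linter.unusedSectionVars false
set_option maxSynthPendingDepth 3

open Set Filter Topology Complex
open scoped ContDiff ComplexConjugate

namespace Crest.Agent.R281.Pt_313

open Crest.Agent.R281.HkR_835 Crest.Agent.R281.Ehr2_268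
open Crest.Agent.R281.HkR_835.Cmp
open Crest.Agent.R281.Pe_313 (IRel Typ Typ11 Nd Pos11 exists_iRel CxOf)
open Crest.Agent.R281.Phl_655

noncomputable section

/-! ### the Segre cone -/

section seg

open Crest.Agent.R281.Blk_592 Function

variable {ι : Type} [Fintype ι] [DecidableEq ι] {J : ι → Type}

/-- a velocity with vanishing blocks vanishes -/
theorem dRel_zero {x w : (∀ k, J k) → ℂ} (hw : DRel x w) {a : ∀ k, J k} (ha : x a ≠ 0)
    (h0 : ∀ k, ext k a w = 0) (hwa : w a = 0) (b : ∀ k, J k) : w b = 0 := by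
  suffices H : ∀ (s : Finset ι) (b : ∀ k, J k), (∀ k, k ∉ s → b k = a k) → w b = 0 from
    H Finset.univ b (by simp)
  intro s
  induction s using Finset.induction_on with
  | empty =>
    intro b hb
    have : b = a := funext fun k => hb k (by simp)
    rw [this]
    exact hwa
  | insert k s hk ih =>
    intro b hb
    have h1 := hw k b a
    have h2 : w (update b k (a k)) = 0 := ih _ fun l hl => by
      by_cases hlk : l = k
      · subst hlk
        simp
      · rw [update_of_ne hlk]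
        exact hb l (by simp [hlk, hl])
    have h3 : w (update a k (b k)) = 0 := congrFun (h0 k) (b k)
    rw [hwa, h2, h3] at h1
    simpa [ha] using h1

/-- a velocity with radial blocks is radial -/
theorem blk_euler {x u : (∀ k, J k) → ℂ} (hx : SegRel x) (hu : DRel x u) {a : ∀ k, J k}
    (ha : x a ≠ 0) (h : ∀ k, ∃ c : ℂ, ext k a u = c • ext k a x) : ∃ c : ℂ, u = c • x := by
  refine ⟨u a / x a, ?_⟩
  have h1 := hu.smul_add hx 1 (-(u a / x a))
  have h2 : ∀ b, ((1 : ℂ) • u + (-(u a / x a)) • x) b = 0 := by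
    refine dRel_zero h1 ha (fun k => ?_) ?_
    · obtain ⟨c, hc⟩ := h k
      have h3 : u a = c * x a := by
        have h4 := congrFun hc (a k)
        rw [ext_self] at h4
        rw [h4]
        show c • ext k a x (a k) = _
        rw [ext_self, smul_eq_mul]
      rw [ext_add, ext_smul, ext_smul, hc, h3, mul_div_cancel_right₀ _ ha, one_smul, neg_smul,
        add_neg_cancel]
    · simp only [Pi.add_apply, Pi.smul_apply, smul_eq_mul]
      field_simp
      ring
  funext b
  have h3 := h2 b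
  simp only [Pi.add_apply, Pi.smul_apply, smul_eq_mul, one_mul, neg_mul] at h3
  simp only [Pi.smul_apply, smul_eq_mul]
  linear_combination h3

end seg

/-! ### the Fubini-Study form -/

section fs

open Crest.Agent.R281.Blk_592

variable {J : Type} [Fintype J]

theorem fsh_smul_left (x v w : J → ℂ) (c : ℂ) : fsh x (c • v) w = c * fsh x v w := by
  unfold fsh
  rw [hp_smul_left, hp_smul_left]
  ring

theorem fsh_smul_right (x v w : J → ℂ) (c : ℂ) : fsh x v (c • w) = conj c * fsh x v w := by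
  unfold fsh
  rw [hp_smul_right, hp_smul_right]
  ring

theorem fsh_add {x : J → ℂ} (hx : x ≠ 0) (v w : J → ℂ) (b b' : ℂ) :
    fsh x (v + b • x) (w + b' • x) = fsh x v w := by
  have h := fsh_bas hx v w one_ne_zero b b'
  simpa only [one_smul] using h

theorem fsh_perp {x w : J → ℂ} (h : hp w x = 0) : fsh x w w = hp w w / hp x x := by
  unfold fsh
  rw [h]
  simp

/-- the component orthogonal to `x` -/
theorem fsh_self {x : J → ℂ} (hx : x ≠ 0) (v : J → ℂ) :
    fsh x v v = hp (v - (hp v x / hp x x) • x) (v - (hp v x / hp x x) • x) / hp x x := by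
  have h0 := hp_self_ne hx
  have h1 : hp (v - (hp v x / hp x x) • x) x = 0 := by
    rw [sub_eq_add_neg, ← neg_smul, hp_add_left, hp_smul_left]
    field_simp
    ring
  rw [← fsh_perp h1]
  have h2 := fsh_add hx (v - (hp v x / hp x x) • x) (v - (hp v x / hp x x) • x)
    (hp v x / hp x x) (hp v x / hp x x)
  rw [sub_add_cancel] at h2
  exact h2

theorem fsh_self_re {x : J → ℂ} (hx : x ≠ 0) (v : J → ℂ) :
    (fsh x v v).re = (∑ k, ‖(v - (hp v x / hp x x) • x) k‖ ^ 2) / (∑ k, ‖x k‖ ^ 2) := by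
  rw [fsh_self hx, hp_self, hp_self, ← ofReal_div, ofReal_re]

theorem sq_pos {x : J → ℂ} (hx : x ≠ 0) : 0 < ∑ k, ‖x k‖ ^ 2 := by
  obtain ⟨k, hk⟩ := Function.ne_iff.1 hx
  refine Finset.sum_pos' (fun _ _ => by positivity) ⟨k, Finset.mem_univ _, ?_⟩
  have : 0 < ‖x k‖ := norm_pos_iff.mpr hk
  positivity

theorem fsh_self_nonneg {x : J → ℂ} (hx : x ≠ 0) (v : J → ℂ) : 0 ≤ (fsh x v v).re := by
  rw [fsh_self_re hx]
  exact div_nonneg (Finset.sum_nonneg fun _ _ => by positivity) (sq_pos hx).le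

theorem fsh_self_zero {x : J → ℂ} (hx : x ≠ 0) {v : J → ℂ} (h : (fsh x v v).re = 0) :
    ∃ c : ℂ, v = c • x := by
  rw [fsh_self_re hx, div_eq_zero_iff] at h
  have h1 : ∑ k, ‖(v - (hp v x / hp x x) • x) k‖ ^ 2 = 0 := h.resolve_right (sq_pos hx).ne'
  refine ⟨hp v x / hp x x, ?_⟩
  funext k
  have h2 := (Finset.sum_eq_zero_iff_of_nonneg fun _ _ => by positivity).1 h1 k
    (Finset.mem_univ _)
  have h3 : (v - (hp v x / hp x x) • x) k = 0 := by
    rw [← norm_eq_zero]
    exact pow_eq_zero_iff (two_ne_zero) |>.1 h2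
  rw [Pi.sub_apply, sub_eq_zero] at h3
  exact h3

/-- invariance of the form under the complex structure -/
theorem fsv_inv {x : J → ℂ} (hx : x ≠ 0) {u u' v v' : J → ℂ} {a b : ℂ}
    (hu : I • u = u' + a • x) (hv : I • v = v' + b • x) : fsv x u' v' = fsv x u v := by
  have e1 : fsh x u' v' = fsh x (I • u) (I • v) := by rw [hu, hv, fsh_add hx]
  unfold fsv
  rw [e1, fsh_smul_left, fsh_smul_right, conj_I]
  congr 1
  linear_combination (-(I * fsh x u v)) * I_mul_I

/-- `w(u, Ju)` -/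
theorem fsv_I {x : J → ℂ} (hx : x ≠ 0) {u u' : J → ℂ} {a : ℂ} (hu : I • u = u' + a • x) :
    fsv x u u' = (fsh x u u).re := by
  have e1 : fsh x u u' = fsh x u (I • u) := by
    rw [hu]
    have h := fsh_add hx u u' 0 a
    rw [zero_smul, add_zero] at h
    exact h.symm
  unfold fsv
  rw [e1, fsh_smul_right, conj_I]
  congr 1
  linear_combination (-(fsh x u u)) * I_mul_I

end fs

/-! ### positive families of basic forms -/

section posF

variable {H : Type} [NormedAddCommGroup H] [NormedSpace ℂ H] {K : Set H}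

/-- a family of basic forms on a cone: invariant, `≥ 0`, jointly definite -/
structure PosF {κ : Type} (τ : κ → B1 K) : Prop where
  inv : ∀ k, ∀ x ∈ K, ∀ u u' v v', V1 K x u → V1 K x u' → V1 K x v → V1 K x v' →
    (∃ a : ℂ, I • u = u' + a • x) → (∃ b : ℂ, I • v = v' + b • x) →
    (τ k).sg x u' v' = (τ k).sg x u v
  nn : ∀ k, ∀ x ∈ K, ∀ u u', V1 K x u → V1 K x u' → (∃ a : ℂ, I • u = u' + a • x) →
    0 ≤ (τ k).sg x u u'
  df : ∀ x ∈ K, ∀ u u', V1 K x u → V1 K x u' → (∃ a : ℂ, I • u = u' + a • x) →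
    (∀ k, (τ k).sg x u u' = 0) → ∃ c : ℂ, u = c • x

theorem v1_map {G : Type} [NormedAddCommGroup G] [NormedSpace ℂ G] {K' : Set G} (T : H →L[ℂ] G)
    (hT : ∀ x ∈ K, T x ∈ K') {x v : H} (h : V1 K x v) : V1 K' (T x) (T v) := by
  obtain ⟨γ, g0, g1, g2⟩ := h
  refine ⟨fun t => T (γ t), by simp only [g0], ?_, g2.mono fun t ht => hT _ ht⟩
  exact (T.restrictScalars ℝ).hasFDerivAt.comp_hasDerivAt (0 : ℝ) g1

/-- linear pull back -/
theorem PosF.comap {κ : Type} {G : Type} [NormedAddCommGroup G] [NormedSpace ℂ G] {K' : Set G}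
    {τ : κ → B1 K'} (h : PosF τ) (T : H →L[ℂ] G) (hT : ∀ x ∈ K, T x ∈ K')
    (hi : Function.Injective T) : PosF fun k => (τ k).comap T hT where
  inv k x hx u u' v v' hu hu' hv hv' := by
    rintro ⟨a, ha⟩ ⟨b, hb⟩
    refine h.inv k (T x) (hT x hx) _ _ _ _ (v1_map T hT hu) (v1_map T hT hu') (v1_map T hT hv)
      (v1_map T hT hv') ⟨a, ?_⟩ ⟨b, ?_⟩
    · rw [← map_smul, ha, map_add, map_smul]
    · rw [← map_smul, hb, map_add, map_smul]
  nn k x hx u u' hu hu' := by
    rintro ⟨a, ha⟩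
    refine h.nn k (T x) (hT x hx) _ _ (v1_map T hT hu) (v1_map T hT hu') ⟨a, ?_⟩
    rw [← map_smul, ha, map_add, map_smul]
  df x hx u u' hu hu' := by
    rintro ⟨a, ha⟩ h0
    obtain ⟨c, hc⟩ := h.df (T x) (hT x hx) _ _ (v1_map T hT hu) (v1_map T hT hu')
      ⟨a, by rw [← map_smul, ha, map_add, map_smul]⟩ h0
    refine ⟨c, hi ?_⟩
    rw [hc, map_smul]

section segB

open Crest.Agent.R281.Blk_592

variable {ι : Type} [Fintype ι] [DecidableEq ι] {J : ι → Type} [∀ k, Fintype (J k)]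

/-- **the block forms of the Segre cone** -/
theorem posF_segB : PosF fun k : ι => (segB k : B1 (segK J)) where
  inv k x hx u u' v v' hu hu' hv hv' := by
    rintro ⟨a, ha⟩ ⟨b, hb⟩
    obtain ⟨α, hα⟩ := exists_nz hx.1
    rw [segB_sg k hx hu' hv' hα, segB_sg k hx hu hv hα]
    refine fsv_inv (ext_ne hα k) (a := a) (b := b) ?_ ?_
    · rw [← ext_smul, ha, ext_add, ext_smul]
    · rw [← ext_smul, hb, ext_add, ext_smul]
  nn k x hx u u' hu hu' := by
    rintro ⟨a, ha⟩
    obtain ⟨α, hα⟩ := exists_nz hx.1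
    rw [segB_sg k hx hu hu' hα, fsv_I (ext_ne hα k) (a := a)
      (by rw [← ext_smul, ha, ext_add, ext_smul])]
    exact fsh_self_nonneg (ext_ne hα k) _
  df x hx u u' hu hu' := by
    rintro ⟨a, ha⟩ h0
    obtain ⟨α, hα⟩ := exists_nz hx.1
    refine blk_euler hx.2 (dRel_of_V1 hu) hα fun k => ?_
    have h1 := h0 k
    rw [segB_sg k hx hu hu' hα, fsv_I (ext_ne hα k) (a := a)
      (by rw [← ext_smul, ha, ext_add, ext_smul])] at h1
    exact fsh_self_zero (ext_ne hα k) h1

end segB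

/-! ### pull back by a member -/

variable {V X : Type} [NormedAddCommGroup V] [NormedSpace ℝ V] [TopologicalSpace X]
  {C : RCh V X} {P : HEmb C H}

/-- the velocities of a member -/
theorem v1_member (hP : InK P K) {i : C.ι} {z : V} (hz : z ∈ (C.e i).target) (v : V) :
    V1 K (P.u i z) (fderiv ℝ (P.u i) z v) := by
  have hd : DifferentiableAt ℝ (P.u i) z :=
    ((P.sm i).contDiffAt ((C.e i).open_target.mem_nhds hz)).differentiableAt (by simp)
  have hm : ∀ᶠ y in 𝓝 z, ((0 : ℂ), P.u i y) ∈ {p : ℂ × H | p.2 ∈ K} := by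
    filter_upwards [(C.e i).open_target.mem_nhds hz] with y hy using hP i y hy
  exact vel_of hd hm v

variable {κ : Type} [Fintype κ] {τ : κ → B1 K} {lam : κ → ℝ} {w : F2 C}

/-- **type (1,1)** of a combination of the forms -/
theorem PosF.typ11 (h : PosF τ) (hP : InK P K)
    (hw : ∀ i, ∀ z ∈ (C.e i).target, ∀ u v, w.w i z u v = ∑ k, lam k *
      (τ k).sg (P.u i z) (fderiv ℝ (P.u i) z u) (fderiv ℝ (P.u i) z v)) : Typ11 P w := by
  intro i z hz v v' u u' hv hu
  rw [hw i z hz, hw i z hz]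
  refine Finset.sum_congr rfl fun k _ => ?_
  rw [h.inv k _ (hP i z hz) _ _ _ _ (v1_member hP hz v) (v1_member hP hz v')
    (v1_member hP hz u) (v1_member hP hz u') hv hu]

/-- **positivity** of a positive combination of the forms -/
theorem PosF.pos11 (h : PosF τ) (hP : InK P K) (hlam : ∀ k, 0 < lam k)
    (hw : ∀ i, ∀ z ∈ (C.e i).target, ∀ u v, w.w i z u v = ∑ k, lam k *
      (τ k).sg (P.u i z) (fderiv ℝ (P.u i) z u) (fderiv ℝ (P.u i) z v)) : Pos11 P w := by
  intro i z hz v v' hv hv0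
  rw [hw i z hz]
  have hnn : ∀ k, 0 ≤ (τ k).sg (P.u i z) (fderiv ℝ (P.u i) z v) (fderiv ℝ (P.u i) z v') :=
    fun k => h.nn k _ (hP i z hz) _ _ (v1_member hP hz v) (v1_member hP hz v') hv
  obtain ⟨k, hk⟩ : ∃ k, (τ k).sg (P.u i z) (fderiv ℝ (P.u i) z v)
      (fderiv ℝ (P.u i) z v') ≠ 0 := by
    by_contra hcon
    push Not at hcon
    obtain ⟨c, hc⟩ := h.df _ (hP i z hz) _ _ (v1_member hP hz v) (v1_member hP hz v') hv hcon
    exact hv0 (P.imm i z hz v ⟨c, hc⟩)
  exact Finset.sum_pos' (fun k _ => mul_nonneg (hlam k).le (hnn k))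
    ⟨k, Finset.mem_univ _, mul_pos (hlam k) ((hnn k).lt_of_ne' hk)⟩

end posF

end

end Crest.Agent.R281.Pt_313
end

-- ▼ part R281/Pt3_313

/-!
# Row 281, point level, part 3 (helper313): `HD` at every marking of a type

* `pl_form`     : the form of a marking on `C` is its form on the charts of the marking
* `Ty.inK`, `qb_form'`, `typ_form'`, `nd_form'`
* `Ty.kf l m`   : `∑ l k • (T.qb k).form m`
* `Ty.hd`       : **`HD` at every marking**, for every `l > 0`
* `Ty.J m`      : the complex structure of a marking on `C`; `Ty.iRel`, `Ty.cxOf`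
-/

set_option autoImplicit false
set_option linter.unusedSectionVars false
set_option maxSynthPendingDepth 3

open Set Filter Topology Complex
open scoped ContDiff ComplexConjugate

namespace Crest.Agent.R281.Pt_313

open Crest.Agent.R281.HkR_835 Crest.Agent.R281.Ehr2_268 Crest.Agent.R281.Dif_268
open Crest.Agent.R281.HkR_835.Cmp
open Crest.Agent.R281.Ehr6_268 Crest.Agent.R281.Ehr8_268
open Crest.Agent.R281.Pe_313 (IRel Typ Typ11 Nd Pos11 exists_iRel CxOf)
open Crest.Agent.R281.Phl_655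
open Crest.Agent.R281.NefO_476 (AJ)
open Crest.Agent.R281.Al_830 (HD)
open Crest.Agent.R281.Dv_957 (Ty segS blkB rx)
open Crest.Agent.R281.Qc_377 (markC_cx sgC sgC_typ sgC_nd re_form' im_form')

noncomputable section

universe uq

section gen

variable {Q : Type uq} [TopologicalSpace Q] {E H : Type} [NormedAddCommGroup E]
    [NormedSpace ℂ E] [NormedAddCommGroup H] [NormedSpace ℂ H] {V X : Type}
    [NormedAddCommGroup V] [NormedSpace ℝ V] [TopologicalSpace X]
    {F : QFam Q E H} {C : RCh V X}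

/-- the form of a marking, on `C` and on the charts of the marking -/
theorem pl_form (b : QBF F) (m : Mark F C) : Pl (b.form m) (b.form' m) := fun _ _ _ hz u v =>
  (SMap.ofCmp m.cmp.symm).pull_w _ hz u v

theorem Pl.sum {κ : Type} [Fintype κ] {C' : RCh V X} {w : κ → F2 C} {w' : κ → F2 C'}
    (h : ∀ k, Pl (w k) (w' k)) (l : κ → ℝ) : Pl (∑ k, l k • w k) (∑ k, l k • w' k) := by
  intro i j z hz u v
  rw [F2.sum_w, F2.sum_w]
  simp only [sum_apply]
  exact Finset.sum_congr rfl fun k _ => (h k).smul (l k) i j z hz u v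

variable {K : Set H}

/-- the members have values in `K` -/
theorem inK_mark (hK : ∀ q0, F.R q0 ⊆ {p : E × H | p.2 ∈ K}) (m : Mark F C) : InK m.P K :=
  fun _ _ hz => hK m.q ((F.R_iff (F.mem m.q) _).mpr ((m.cone _).mp (m.P.mem_cone hz)))

/-- value of a parameter free form at a marking -/
theorem qbf_form' (τ : B1 K) (hK : ∀ q0, F.R q0 ⊆ {p : E × H | p.2 ∈ K}) (m : Mark F C)
    {j : m.C'.ι} {z : V} (hz : z ∈ (m.C'.e j).target) (v w : V) :
    ((qbf τ hK).form' m).w j z v w = τ.sg (m.P.u j z) (fderiv ℝ (m.P.u j) z v)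
      (fderiv ℝ (m.P.u j) z w) := Ehj_461.form'_w (qbf τ hK) m hz v w

theorem sum_form' {κ : Type} [Fintype κ] (τ : κ → B1 K)
    (hK : ∀ q0, F.R q0 ⊆ {p : E × H | p.2 ∈ K}) (m : Mark F C) (l : κ → ℝ)
    {j : m.C'.ι} {z : V} (hz : z ∈ (m.C'.e j).target) (v w : V) :
    (∑ k, l k • (qbf (τ k) hK).form' m : F2 m.C').w j z v w = ∑ k, l k *
      (τ k).sg (m.P.u j z) (fderiv ℝ (m.P.u j) z v) (fderiv ℝ (m.P.u j) z w) := by
  rw [F2.sum_w]
  simp only [sum_apply]
  refine Finset.sum_congr rfl fun k _ => ?_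
  rw [← qbf_form' (τ k) hK m hz]
  rfl

end gen

section ty

variable {V X : Type} [NormedAddCommGroup V] [NormedSpace ℝ V] [TopologicalSpace X]
  {C : RCh V X} {n : ℕ} (T : Ty n C)

theorem rx_inj {ι : Type} [Fintype ι] [DecidableEq ι] {J : ι → Type} [∀ k, Fintype (J k)]
    {N : ℕ} (e : (∀ k, J k) ≃ Fin (N + 1)) : Function.Injective (rx e) := by
  intro x y h
  ext j
  have h1 := congrFun h (e.symm j)
  rw [Dv_957.rx_apply, Dv_957.rx_apply, e.apply_symm_apply] at h1
  exact h1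

/-- **the block forms of a type are positive** -/
theorem posF_blkB {ι : Type} [Fintype ι] [DecidableEq ι] {J : ι → Type} [∀ k, Fintype (J k)]
    {N : ℕ} (e : (∀ k, J k) ≃ Fin (N + 1)) : PosF fun k : ι => blkB e k := by
  have h := (posF_segB (J := J)).comap (K := segS e) (rx e) (Dv_957.rx_mem e) (rx_inj e)
  exact ⟨h.inv, h.nn, h.df⟩

/-- a positive combination of the block forms at a marking -/
def _root_.Crest.Agent.R281.Dv_957.Ty.kf (l : Fin T.ρ → ℝ) (m : Mark T.F C) : F2 C :=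
  ∑ k, l k • (T.qb k).form m

/-- the same on the charts of the marking -/
def _root_.Crest.Agent.R281.Dv_957.Ty.kf' (l : Fin T.ρ → ℝ) (m : Mark T.F C) : F2 m.C' :=
  ∑ k, l k • (T.qb k).form' m

theorem pl_kf (l : Fin T.ρ → ℝ) (m : Mark T.F C) : Pl (T.kf l m) (T.kf' l m) :=
  Pl.sum (fun k => pl_form (T.qb k) m) l

theorem kf'_w (l : Fin T.ρ → ℝ) (m : Mark T.F C) (j : m.C'.ι) (z : V)
    (hz : z ∈ (m.C'.e j).target) (v w : V) : (T.kf' l m).w j z v w = ∑ k, l k *
      (blkB T.e k).sg (m.P.u j z) (fderiv ℝ (m.P.u j) z v) (fderiv ℝ (m.P.u j) z w) :=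
  sum_form' (fun k => blkB T.e k) T.R_seg m l hz v w

theorem inK_ty (m : Mark T.F C) : InK m.P (segS T.e) := inK_mark T.R_seg m

theorem typ11_kf' (l : Fin T.ρ → ℝ) (m : Mark T.F C) : Typ11 m.P (T.kf' l m) :=
  (posF_blkB T.e).typ11 (inK_ty T m) (kf'_w T l m)

theorem pos11_kf' {l : Fin T.ρ → ℝ} (hl : ∀ k, 0 < l k) (m : Mark T.F C) :
    Pos11 m.P (T.kf' l m) :=
  (posF_blkB T.e).pos11 (inK_ty T m) hl (kf'_w T l m)

variable [FiniteDimensional ℝ V]

theorem typ_form' (m : Mark T.F C) : Typ m.P (T.qc.re.form' m) (T.qc.im.form' m) := by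
  intro j z hz v v' u hv
  obtain ⟨c, hc⟩ := hv
  have h1 := sgC_typ T.nice T.good m hz hc u
  have e1 : (T.qc.re.form' m).w j z v' u = (sgC T.nice T.good m j z v' u).re :=
    re_form' T.nice T.good m j z v' u
  have e2 : (T.qc.im.form' m).w j z v u = (sgC T.nice T.good m j z v u).im :=
    im_form' T.nice T.good m j z v u
  rw [e1, e2, h1, mul_re, I_re, I_im]
  ring

theorem nd_form' (hV : Module.finrank ℝ V = 2 * n) (m : Mark T.F C) : Nd (T.qc.re.form' m) := by
  intro j z hz v hv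
  refine sgC_nd T.nice T.good hV m hz (v := v) fun u => ?_
  obtain ⟨u', c, hc⟩ := markC_cx T.nice T.good hV m j z hz u
  have e1 : ∀ u, (T.qc.re.form' m).w j z v u = (sgC T.nice T.good m j z v u).re :=
    fun u => re_form' T.nice T.good m j z v u
  have e2 : (T.qc.im.form' m).w j z v u = (sgC T.nice T.good m j z v u).im :=
    im_form' T.nice T.good m j z v u
  have h1 := typ_form' T m j z hz u u' v ⟨c, hc⟩
  rw [(T.qc.re.form' m).alt j z hz, (T.qc.im.form' m).alt j z hz u v, hv u', e2] at h1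
  have h2 := hv u
  rw [e1] at h2
  refine Complex.ext h2 ?_
  rw [zero_im]
  linarith

/-- **the complex structure of a marking**, on `C` -/
def _root_.Crest.Agent.R281.Dv_957.Ty.J (m : Mark T.F C) : AJ C :=
  ajS (T.qc.re.form m) (T.qc.im.form m)

/-- **`HD` at every marking** -/
theorem _root_.Crest.Agent.R281.Dv_957.Ty.hd (hV : Module.finrank ℝ V = 2 * n)
    (m : Mark T.F C) {l : Fin T.ρ → ℝ} (hl : ∀ k, 0 < l k) :
    HD (T.J m) (T.kf l m) (T.qc.re.form m) (T.qc.im.form m) :=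
  hd_of m.cmp (markC_cx T.nice T.good hV m) (typ_form' T m) (nd_form' T hV m)
    (typ11_kf' T l m) (pos11_kf' T hl m) (pl_form _ m) (pl_form _ m) (pl_kf T l m)

/-- `T.J m` is the complex structure of the member -/
theorem _root_.Crest.Agent.R281.Dv_957.Ty.iRel (hV : Module.finrank ℝ V = 2 * n)
    (m : Mark T.F C) {i : C.ι} {j : m.C'.ι} {z : V} (hj : z ∈ mov m.C' C j i) (u : V) :
    IRel m.P j (mt m.C' C j i z) (fderiv ℝ (mt m.C' C j i) z u)
      (fderiv ℝ (mt m.C' C j i) z ((T.J m).J i z u)) :=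
  iRel_ajS m.cmp (markC_cx T.nice T.good hV m) (typ_form' T m) (nd_form' T hV m)
    (pl_form _ m) (pl_form _ m) hj u



end ty

end

end Crest.Agent.R281.Pt_313
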