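import Mathlib

-- ▼ part R281/FujR_513
section

/-!
# Row 281, FUJ-RAT (249 #6045 (0)): the algebra of the Fujiki relation

Functions on a real vector space `H` which are polynomial on lines (`PolyL`); the identity theorem
for them; `F = q ^ n` on a set with algebraic interior ==> everywhere; if `q ^ n` takes rational
values on a rational structure `Hq`, then `q` is a real multiple of a rational form; the mixed
identities of a symmetric `2n`-linear form `T` with `T (x,..,x) = q x ^ n`.
-/

set_option autoImplicit false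

open Polynomial

namespace Crest.Agent.R281.FujR_513

variable {H : Type*} [AddCommGroup H] [Module ℝ H]

/-- `F` is polynomial on every affine line. -/
def PolyL (F : H → ℝ) : Prop := ∀ x y : H, ∃ p : ℝ[X], ∀ s : ℝ, F (x + s • y) = p.eval s

namespace PolyL

lemma const (c : ℝ) : PolyL (fun _ : H => c) := fun _ _ => ⟨C c, fun s => by simp⟩

lemma add {F G : H → ℝ} (hF : PolyL F) (hG : PolyL G) : PolyL (fun x => F x + G x) := by
  intro x y
  obtain ⟨p, hp⟩ := hF x y
  obtain ⟨r, hr⟩ := hG x y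
  exact ⟨p + r, fun s => by show F _ + G _ = _; rw [hp, hr, eval_add]⟩

lemma sub {F G : H → ℝ} (hF : PolyL F) (hG : PolyL G) : PolyL (fun x => F x - G x) := by
  intro x y
  obtain ⟨p, hp⟩ := hF x y
  obtain ⟨r, hr⟩ := hG x y
  exact ⟨p - r, fun s => by show F _ - G _ = _; rw [hp, hr, eval_sub]⟩

lemma mul {F G : H → ℝ} (hF : PolyL F) (hG : PolyL G) : PolyL (fun x => F x * G x) := by
  intro x y
  obtain ⟨p, hp⟩ := hF x y
  obtain ⟨r, hr⟩ := hG x y
  exact ⟨p * r, fun s => by show F _ * G _ = _; rw [hp, hr, eval_mul]⟩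

lemma smul {F : H → ℝ} (c : ℝ) (hF : PolyL F) : PolyL (fun x => c * F x) := (const c).mul hF

lemma pow {F : H → ℝ} (hF : PolyL F) (n : ℕ) : PolyL (fun x => F x ^ n) := by
  intro x y
  obtain ⟨p, hp⟩ := hF x y
  exact ⟨p ^ n, fun s => by show F _ ^ n = _; rw [hp, eval_pow]⟩

lemma sum {ι : Type*} (S : Finset ι) {F : ι → H → ℝ} (hF : ∀ i ∈ S, PolyL (F i)) :
    PolyL (fun x => ∑ i ∈ S, F i x) := by
  classical
  induction S using Finset.induction_on with
  | empty => simpa using const (0 : ℝ)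
  | insert a S ha ih =>
    simp only [Finset.sum_insert ha]
    exact (hF a (Finset.mem_insert_self _ _)).add
      (ih fun i hi => hF i (Finset.mem_insert_of_mem hi))


lemma quad (q : QuadraticForm ℝ H) : PolyL (fun x => q x) := by
  intro x y
  refine ⟨C (q x) + C (QuadraticMap.polar q x y) * X + C (q y) * X ^ 2, fun s => ?_⟩
  have h1 : q (x + s • y) = q x + q (s • y) + QuadraticMap.polar q x (s • y) := by
    simp [QuadraticMap.polar]
  show q (x + s • y) = _
  rw [h1, QuadraticMap.polar_smul_right, QuadraticMap.map_smul]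
  simp only [eval_add, eval_mul, eval_C, eval_X, eval_pow, smul_eq_mul]
  ring

/-- The diagonal of a multilinear form is polynomial on lines. -/
lemma multilinear {k : ℕ} (T : MultilinearMap ℝ (fun _ : Fin k => H) ℝ) :
    PolyL (fun x => T (fun _ => x)) := by
  classical
  intro x y
  refine ⟨∑ S : Finset (Fin k), C (T (S.piecewise (fun _ => x) (fun _ => y))) * X ^ (Sᶜ).card,
    fun s => ?_⟩
  have h1 : (fun _ : Fin k => x + s • y) = (fun _ => x) + (fun _ => s • y) := rfl
  show T (fun _ : Fin k => x + s • y) = _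
  rw [h1, MultilinearMap.map_add_univ, eval_finsetSum]
  refine Finset.sum_congr rfl fun S _ => ?_
  have h2 : S.piecewise (fun _ : Fin k => x) (fun _ => s • y) =
      (Sᶜ).piecewise (fun i => s • (S.piecewise (fun _ : Fin k => x) (fun _ => y)) i)
        (S.piecewise (fun _ : Fin k => x) (fun _ => y)) := by
    funext i
    by_cases hi : i ∈ S
    · simp [hi]
    · simp [hi]
  rw [h2, MultilinearMap.map_piecewise_smul, Finset.prod_const, eval_mul, eval_C, eval_pow,
    eval_X, smul_eq_mul, mul_comm]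

/-- Identity theorem: two functions polynomial on lines which agree near `x0` along every line
through `x0` are equal. -/
theorem ext_of_near {F G : H → ℝ} (hF : PolyL F) (hG : PolyL G) (x0 : H)
    (h : ∀ y : H, ∃ ε > 0, ∀ s : ℝ, 0 < s → s < ε → F (x0 + s • y) = G (x0 + s • y)) : F = G := by
  funext x
  obtain ⟨p, hp⟩ := hF x0 (x - x0)
  obtain ⟨r, hr⟩ := hG x0 (x - x0)
  obtain ⟨ε, hε, hs⟩ := h (x - x0)
  have hpr : p = r := by
    refine Polynomial.eq_of_infinite_eval_eq p r ?_
    refine (Set.Ioo_infinite hε).mono fun s hs' => ?_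
    have := hs s hs'.1 hs'.2
    rw [hp, hr] at this
    exact this
  have h1 := hp 1
  have h2 := hr 1
  rw [one_smul, add_sub_cancel] at h1 h2
  rw [h1, h2, hpr]


end PolyL

/-! ### Rationality -/

/-- A real polynomial with rational values at all small positive rational points has rational
coefficients. -/
lemma exists_rat_poly {p : ℝ[X]} {ε : ℝ} (hε : 0 < ε)
    (hp : ∀ s : ℚ, 0 < s → (s : ℝ) < ε → ∃ r : ℚ, p.eval (s : ℝ) = r) :
    ∃ p' : ℚ[X], p = p'.map (algebraMap ℚ ℝ) := by
  classical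
  set N := p.natDegree + 1 with hN
  obtain ⟨M, hM⟩ := exists_nat_gt ((N + 1 : ℝ) / ε)
  have hMpos : (0 : ℝ) < M := lt_trans (by positivity) hM
  have hM0 : (M : ℚ) ≠ 0 := by
    have : M ≠ 0 := by rintro rfl; simp at hMpos
    exact_mod_cast this
  set nodes : ℕ → ℚ := fun i => ((i : ℚ) + 1) / M with hnodes
  have hval : ∀ i ∈ Finset.range N, ∃ r : ℚ, p.eval ((nodes i : ℚ) : ℝ) = r := by
    intro i hi
    have hi' : i < N := Finset.mem_range.1 hi
    refine hp _ ?_ ?_
    · have : (0 : ℚ) < M := by exact_mod_cast hMpos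
      rw [hnodes]; positivity
    · rw [hnodes]
      push_cast
      rw [div_lt_iff₀ hMpos]
      have h1 : (N + 1 : ℝ) < ε * M := by
        rw [div_lt_iff₀ hε] at hM; linarith
      have h2 : (i : ℝ) < N := by exact_mod_cast hi'
      linarith
  choose! v hv using hval
  have hinj : Set.InjOn nodes (Finset.range N : Set ℕ) := fun a _ b _ hab => by
    have h1 : ((a : ℚ) + 1) / M = ((b : ℚ) + 1) / M := hab
    rw [div_left_inj' hM0] at h1
    exact_mod_cast (add_right_cancel h1)
  set p' := Lagrange.interpolate (Finset.range N) nodes v with hp'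
  refine ⟨p', ?_⟩
  have hdeg' : p'.degree < (Finset.range N).card :=
    Lagrange.degree_interpolate_lt _ hinj
  have hinjR : Set.InjOn (fun i : ℕ => ((nodes i : ℚ) : ℝ)) (Finset.range N : Set ℕ) :=
    fun a ha b hb hab => hinj ha hb (by exact_mod_cast (show ((nodes a : ℚ) : ℝ) = nodes b from hab))
  refine Polynomial.eq_of_degrees_lt_of_eval_index_eq (s := Finset.range N)
    (v := fun i : ℕ => ((nodes i : ℚ) : ℝ)) hinjR ?_ ?_ ?_
  · rw [Finset.card_range, hN]
    refine lt_of_le_of_lt Polynomial.degree_le_natDegree ?_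
    exact_mod_cast Nat.lt_succ_self _
  · exact lt_of_le_of_lt (Polynomial.degree_map_le) hdeg'
  · intro i hi
    have h2 : p'.eval (nodes i) = v i := Lagrange.eval_interpolate_at_node _ hinj hi
    have h3 : (p'.map (algebraMap ℚ ℝ)).eval ((algebraMap ℚ ℝ) (nodes i)) =
        (algebraMap ℚ ℝ) (p'.eval (nodes i)) := Polynomial.eval_map_apply _ _
    rw [h2] at h3
    simp only [eq_ratCast] at h3
    show p.eval ((nodes i : ℚ) : ℝ) = (p'.map (algebraMap ℚ ℝ)).eval ((nodes i : ℚ) : ℝ)
    rw [h3, hv i hi]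

lemma coeff_rat {p : ℝ[X]} {ε : ℝ} (hε : 0 < ε)
    (hp : ∀ s : ℚ, 0 < s → (s : ℝ) < ε → ∃ r : ℚ, p.eval (s : ℝ) = r) (i : ℕ) :
    ∃ r : ℚ, p.coeff i = r := by
  obtain ⟨p', rfl⟩ := exists_rat_poly hε hp
  exact ⟨p'.coeff i, by simp⟩

/-- Taylor coefficients of `(1 + α X + β X²) ^ n`. -/
lemma coeff_pow (α β : ℝ) (n : ℕ) :
    ((1 + C α * X + C β * X ^ 2 : ℝ[X]) ^ n).coeff 0 = 1 ∧
    ((1 + C α * X + C β * X ^ 2 : ℝ[X]) ^ n).coeff 1 = n * α ∧
    ((1 + C α * X + C β * X ^ 2 : ℝ[X]) ^ n).coeff 2 = n * β + n * (n - 1) / 2 * α ^ 2 := by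
  induction n with
  | zero => simp [coeff_one]
  | succ n ih =>
    obtain ⟨h0, h1, h2⟩ := ih
    set P := (1 + C α * X + C β * X ^ 2 : ℝ[X]) ^ n with hP
    have e : (1 + C α * X + C β * X ^ 2 : ℝ[X]) ^ (n + 1) =
        P + C α * (P * X) + C β * (P * X ^ 2) := by
      rw [pow_succ, ← hP]; ring
    have c1 : (P * X).coeff 0 = 0 := by simp
    have c2 : (P * X).coeff 1 = P.coeff 0 := by
      exact coeff_mul_X P 0
    have c3 : (P * X).coeff 2 = P.coeff 1 := by
      exact coeff_mul_X P 1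
    have d1 : (P * X ^ 2).coeff 0 = 0 := by
      rw [coeff_mul_X_pow']; simp
    have d2 : (P * X ^ 2).coeff 1 = 0 := by
      rw [coeff_mul_X_pow']; simp
    have d3 : (P * X ^ 2).coeff 2 = P.coeff 0 := by
      rw [coeff_mul_X_pow']; simp
    rw [e]
    refine ⟨?_, ?_, ?_⟩
    · simp only [coeff_add, coeff_C_mul, c1, d1, h0]; ring
    · simp only [coeff_add, coeff_C_mul, c2, d2, h0, h1]; push_cast; ring
    · simp only [coeff_add, coeff_C_mul, c3, d3, h0, h1, h2]; push_cast; ring

/-- **Rationality of the Beauville-Bogomolov form up to scale.** `Hq` a `ℚ`-subspace of `H`,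
`q x0 ≠ 0`, and `q ^ n` (`n ≥ 1`) is rational at the points `x0 + s y`, `y ∈ Hq`,
`0 ≤ s` rational and small. Then `q / q x0` and its polar form are rational on `Hq`. -/
theorem rational_form {n : ℕ} (hn : 0 < n) (q : QuadraticForm ℝ H) (Hq : AddSubgroup H)
    {x0 : H} (h0 : q x0 ≠ 0) (hF0 : ∃ r : ℚ, q x0 ^ n = r)
    (hF : ∀ y ∈ Hq, ∃ ε : ℝ, 0 < ε ∧ ∀ s : ℚ, 0 < s → (s : ℝ) < ε →
      ∃ r : ℚ, q (x0 + (s : ℝ) • y) ^ n = r) :
    (∀ x ∈ Hq, ∃ r : ℚ, q x = q x0 * r) ∧
    ∀ x ∈ Hq, ∀ y ∈ Hq, ∃ r : ℚ, QuadraticMap.polar q x y = q x0 * r := by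
  have main : ∀ y ∈ Hq, ∃ r : ℚ, q y = q x0 * r := by
    intro y hy
    set α := QuadraticMap.polar q x0 y / q x0 with hα
    set β := q y / q x0 with hβ
    have hval : ∀ s : ℝ, ((1 + C α * X + C β * X ^ 2 : ℝ[X]) ^ n).eval s =
        q (x0 + s • y) ^ n / q x0 ^ n := by
      intro s
      have h1 : q (x0 + s • y) = q x0 + q (s • y) + QuadraticMap.polar q x0 (s • y) := by
        simp [QuadraticMap.polar]
      rw [h1, QuadraticMap.polar_smul_right, QuadraticMap.map_smul]
      simp only [eval_pow, eval_add, eval_mul, eval_one, eval_C, eval_X, smul_eq_mul]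
      rw [← div_pow, hα, hβ]
      congr 1
      field_simp
      ring
    obtain ⟨r0, hr0⟩ := hF0
    obtain ⟨ε, hε, hFε⟩ := hF y hy
    have hrat : ∀ s : ℚ, 0 < s → (s : ℝ) < ε →
        ∃ r : ℚ, ((1 + C α * X + C β * X ^ 2 : ℝ[X]) ^ n).eval (s : ℝ) = r := by
      intro s hs0 hs1
      obtain ⟨r, hr⟩ := hFε s hs0 hs1
      exact ⟨r / r0, by rw [hval, hr, hr0]; push_cast; rfl⟩
    obtain ⟨a, ha⟩ := coeff_rat hε hrat 1
    obtain ⟨b, hb⟩ := coeff_rat hε hrat 2
    obtain ⟨-, hc1, hc2⟩ := coeff_pow α β n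
    rw [hc1] at ha
    rw [hc2] at hb
    have hn0 : (n : ℝ) ≠ 0 := by positivity
    have hα' : α = ((a / n : ℚ) : ℝ) := by
      push_cast; field_simp; linarith
    have hβ' : β = (((b - n * (n - 1) / 2 * (a / n) ^ 2) / n : ℚ) : ℝ) := by
      push_cast
      rw [hα'] at hb
      push_cast at hb
      rw [eq_div_iff hn0]
      linarith
    refine ⟨(b - n * (n - 1) / 2 * (a / n) ^ 2) / n, ?_⟩
    rw [← hβ', hβ]; field_simp
  refine ⟨main, fun x hx y hy => ?_⟩
  obtain ⟨r1, h1⟩ := main (x + y) (Hq.add_mem hx hy)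
  obtain ⟨r2, h2⟩ := main x hx
  obtain ⟨r3, h3⟩ := main y hy
  refine ⟨r1 - r2 - r3, ?_⟩
  rw [QuadraticMap.polar, h1, h2, h3]
  push_cast
  ring



end Crest.Agent.R281.FujR_513
end

-- ▼ part R281/FujP_513

/-!
# Row 281: polarised Fujiki algebra

`T` a symmetric `k`-linear form on a real vector space `H` (e.g. closed real 2-forms, `T` = integral
of the product). Binomial expansion on lines, polarisation, and the consequences of
`T (x,..,x) = q x ^ n`, `k = 2n`.
-/

set_option autoImplicit false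

open Polynomial

namespace Crest.Agent.R281.FujP_513

open Crest.Agent.R281.FujR_513

variable {H : Type*} [AddCommGroup H] [Module ℝ H]

/-- `T` is symmetric. -/
def Symm {k : ℕ} (T : MultilinearMap ℝ (fun _ : Fin k => H) ℝ) : Prop :=
  ∀ (σ : Equiv.Perm (Fin k)) (v : Fin k → H), T (fun i => v (σ i)) = T v

/-- the vector with `a` entries `y` followed by `k - a` entries `x`. -/
def mixv (k a : ℕ) (x y : H) : Fin k → H := fun i => if (i : ℕ) < a then y else x

/-- For a symmetric form only the number of entries `x`, `y` matters. -/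
lemma Symm.piecewise_eq {k : ℕ} {T : MultilinearMap ℝ (fun _ : Fin k => H) ℝ} (hT : Symm T)
    (S S' : Finset (Fin k)) (h : S.card = S'.card) (x y : H) :
    T (S.piecewise (fun _ => x) (fun _ => y)) = T (S'.piecewise (fun _ => x) (fun _ => y)) := by
  classical
  have e : {i // i ∈ S'} ≃ {i // i ∈ S} := Fintype.equivOfCardEq (by simp [h])
  rw [← hT e.extendSubtype (S.piecewise (fun _ => x) (fun _ => y))]
  congr 1
  funext i
  by_cases hi : i ∈ S'
  · have h1 : e.extendSubtype i ∈ S := e.extendSubtype_mem i hi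
    simp [hi, h1]
  · have h1 : e.extendSubtype i ∉ S := e.extendSubtype_not_mem i hi
    simp [hi, h1]

lemma Symm.eq_mixv {k : ℕ} {T : MultilinearMap ℝ (fun _ : Fin k => H) ℝ} (hT : Symm T)
    (S : Finset (Fin k)) (x y : H) :
    T (S.piecewise (fun _ => x) (fun _ => y)) = T (mixv k (k - S.card) x y) := by
  classical
  set S' : Finset (Fin k) := Finset.univ.filter fun i : Fin k => ¬ ((i : ℕ) < k - S.card)
    with hS'
  have hcard : S.card = S'.card := by
    have h1 : (Finset.univ.filter fun i : Fin k => (i : ℕ) < k - S.card).card = k - S.card := by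
      rw [Fin.card_filter_val_lt]
      exact min_eq_right (Nat.sub_le _ _)
    have h2 := Finset.card_filter_add_card_filter_not (s := (Finset.univ : Finset (Fin k)))
      (fun i : Fin k => (i : ℕ) < k - S.card)
    have h3 : S.card ≤ k := by simpa using Finset.card_le_univ S
    rw [h1, Finset.card_univ, Fintype.card_fin] at h2
    rw [hS']
    omega
  rw [hT.piecewise_eq S S' hcard]
  congr 1
  funext i
  by_cases hi : (i : ℕ) < k - S.card
  · have : i ∉ S' := by
      simp only [hS', Finset.mem_filter, Finset.mem_univ, true_and, not_not]; exact hi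
    simp [mixv, hi, this]
  · have : i ∈ S' := by simp only [hS', Finset.mem_filter, Finset.mem_univ, true_and]; exact hi
    simp [mixv, hi, this]

/-- **Binomial expansion.** -/
theorem Symm.expand {k : ℕ} {T : MultilinearMap ℝ (fun _ : Fin k => H) ℝ} (hT : Symm T)
    (x y : H) (s : ℝ) :
    T (fun _ => x + s • y) =
      ∑ a ∈ Finset.range (k + 1), (k.choose a : ℝ) * s ^ a * T (mixv k a x y) := by
  classical
  have h1 : (fun _ : Fin k => x + s • y) = (fun _ => x) + (fun _ => s • y) := rfl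
  rw [h1, MultilinearMap.map_add_univ]
  have h2 : ∀ S : Finset (Fin k), T (S.piecewise (fun _ => x) (fun _ => s • y)) =
      s ^ (k - S.card) * T (mixv k (k - S.card) x y) := by
    intro S
    have h2 : S.piecewise (fun _ : Fin k => x) (fun _ => s • y) =
        (Sᶜ).piecewise (fun i => s • (S.piecewise (fun _ : Fin k => x) (fun _ => y)) i)
          (S.piecewise (fun _ : Fin k => x) (fun _ => y)) := by
      funext i
      by_cases hi : i ∈ S
      · simp [hi]
      · simp [hi]
    rw [h2, MultilinearMap.map_piecewise_smul, Finset.prod_const, hT.eq_mixv S x y,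
      Finset.card_compl, Fintype.card_fin, smul_eq_mul]
  rw [Finset.sum_congr rfl fun S _ => h2 S]
  have h3 := Finset.sum_powerset_apply_card (x := (Finset.univ : Finset (Fin k)))
    (fun c : ℕ => s ^ (k - c) * T (mixv k (k - c) x y))
  rw [Finset.powerset_univ, Finset.card_univ, Fintype.card_fin] at h3
  rw [h3, ← Finset.sum_range_reflect]
  refine Finset.sum_congr rfl fun a ha => ?_
  have ha' : a ≤ k := Nat.lt_succ_iff.1 (Finset.mem_range.1 ha)
  have e1 : k + 1 - 1 - a = k - a := by omega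
  have e2 : k - (k - a) = a := Nat.sub_sub_self ha'
  rw [e1, e2, Nat.choose_symm ha', nsmul_eq_mul]
  ring

/-- comparison of coefficients in `s`. -/
lemma coeff_of_expand {k : ℕ} (c : ℕ → ℝ) (p : ℝ[X])
    (h : ∀ s : ℝ, ∑ a ∈ Finset.range (k + 1), c a * s ^ a = p.eval s) :
    ∀ a ≤ k, c a = p.coeff a := by
  intro a ha
  have h1 : (∑ a ∈ Finset.range (k + 1), C (c a) * X ^ a : ℝ[X]) = p := by
    refine Polynomial.funext fun s => ?_
    rw [← h s, eval_finsetSum]
    exact Finset.sum_congr rfl fun a _ => by simp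
  rw [← h1, finsetSum_coeff]
  simp only [coeff_C_mul, coeff_X_pow]
  rw [Finset.sum_eq_single a]
  · simp
  · intro b _ hb; simp [Ne.symm hb]
  · intro hcon; exact absurd (Finset.mem_range.2 (Nat.lt_succ_of_le ha)) hcon

omit [AddCommGroup H] [Module ℝ H] in
lemma mixv_one {k : ℕ} (x y : H) : mixv (k + 1) 1 x y = Fin.cons y (fun _ => x) := by
  funext i
  refine Fin.cases ?_ (fun j => ?_) i
  · simp [mixv]
  · simp [mixv]

lemma Symm.curryLeft {k : ℕ} {T : MultilinearMap ℝ (fun _ : Fin (k + 1) => H) ℝ} (hT : Symm T)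
    (y : H) : Symm (T.curryLeft y) := by
  intro σ v
  rw [MultilinearMap.curryLeft_apply, MultilinearMap.curryLeft_apply,
    ← hT (Equiv.Perm.decomposeFin.symm (0, σ)) (Fin.cons y v)]
  congr 1
  funext i
  refine Fin.cases ?_ (fun j => ?_) i
  · rw [Equiv.Perm.decomposeFin_symm_apply_zero]; simp
  · rw [Equiv.Perm.decomposeFin_symm_apply_succ]; simp



/-- fix the first `j` entries equal to `e`. -/
def fixl (e : H) (m : ℕ) : (j : ℕ) → MultilinearMap ℝ (fun _ : Fin (m + j) => H) ℝ →
    MultilinearMap ℝ (fun _ : Fin m => H) ℝ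
  | 0, T => T
  | j + 1, T => fixl e m j (MultilinearMap.curryLeft (n := m + j) T e)

/-- the vector `(e, .., e, v)` with `j` entries `e`. -/
def fixv (e : H) (m : ℕ) : (j : ℕ) → (Fin m → H) → Fin (m + j) → H
  | 0, v => v
  | j + 1, v => Fin.cons (α := fun _ : Fin (m + j + 1) => H) e (fixv e m j v)

lemma fixl_apply (e : H) (m : ℕ) : ∀ (j : ℕ) (T : MultilinearMap ℝ (fun _ : Fin (m + j) => H) ℝ)
    (v : Fin m → H), fixl e m j T v = T (fixv e m j v)
  | 0, T, v => rfl
  | j + 1, T, v => by
    rw [fixl, fixl_apply e m j, MultilinearMap.curryLeft_apply]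
    rfl


omit [AddCommGroup H] [Module ℝ H] in
lemma fixv_apply (e : H) (m : ℕ) : ∀ (j : ℕ) (v : Fin m → H) (i : Fin (m + j)),
    fixv e m j v i = if h : (i : ℕ) < j then e else v ⟨(i : ℕ) - j, by omega⟩
  | 0, v, i => by simp [fixv]
  | j + 1, v, i => by
    rw [fixv]
    refine Fin.cases ?_ (fun i' => ?_) (n := m + j) i
    · simp
    · rw [Fin.cons_succ, fixv_apply e m j]
      simp only [Fin.val_succ, Nat.add_lt_add_iff_right, Nat.reduceSubDiff]

omit [AddCommGroup H] [Module ℝ H] in
lemma fixv_diag (e : H) (m j : ℕ) (x : H) : fixv e m j (fun _ => x) = mixv (m + j) j x e := by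
  funext i
  rw [fixv_apply]
  by_cases h : (i : ℕ) < j <;> simp [mixv, h]

/-! ### The Fujiki relation -/

section Fujiki

variable {n : ℕ} {T : MultilinearMap ℝ (fun _ : Fin (n + n) => H) ℝ} {q : QuadraticForm ℝ H}




end Fujiki

/-- `2 T(y, x^(2n-1)) = q(x)^(n-1) · 2 b(x,y)`: the first polarised Fujiki relation. -/
theorem first_polar {n : ℕ} (hn : 0 < n) {k : ℕ} (hk : k + 1 = n + n)
    {T : MultilinearMap ℝ (fun _ : Fin (k + 1) => H) ℝ} {q : QuadraticForm ℝ H} (hT : Symm T)
    (hq : ∀ x, T (fun _ => x) = q x ^ n) (x y : H) :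
    2 * T (Fin.cons y fun _ => x) = q x ^ (n - 1) * QuadraticMap.polar q x y := by
  set β := QuadraticMap.polar q x y with hβ
  have h1 : ∀ s : ℝ, q (x + s • y) = q x + s * β + s ^ 2 * q y := by
    intro s
    have h1 : q (x + s • y) = q x + q (s • y) + QuadraticMap.polar q x (s • y) := by
      simp [QuadraticMap.polar]
    rw [h1, QuadraticMap.polar_smul_right, QuadraticMap.map_smul]
    simp only [smul_eq_mul, ← hβ]
    ring
  have h2 := coeff_of_expand (k := k + 1)
    (fun a => ((k + 1).choose a : ℝ) * T (mixv (k + 1) a x y))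
    ((C (q x) + C β * X + C (q y) * X ^ 2) ^ n) (by
      intro s
      have h3 := hT.expand x y s
      rw [hq, h1] at h3
      simp only [eval_pow, eval_add, eval_mul, eval_C, eval_X]
      rw [show q x + β * s + q y * s ^ 2 = q x + s * β + s ^ 2 * q y by ring, h3]
      exact Finset.sum_congr rfl fun a _ => by ring) 1 (by omega)
  rw [mixv_one, Nat.choose_one_right] at h2
  have h4 : ((C (q x) + C β * X + C (q y) * X ^ 2 : ℝ[X]) ^ n).coeff 1 =
      n * q x ^ (n - 1) * β := by
    have hd : ((C (q x) + C β * X + C (q y) * X ^ 2 : ℝ[X]) ^ n).coeff 1 =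
        (derivative ((C (q x) + C β * X + C (q y) * X ^ 2 : ℝ[X]) ^ n)).eval 0 := by
      rw [← coeff_zero_eq_eval_zero, coeff_derivative]; simp
    rw [hd, derivative_pow]
    simp
  rw [h4] at h2
  have hn' : (n : ℝ) ≠ 0 := by positivity
  have h5 : (n : ℝ) * (2 * T (Fin.cons y fun _ => x)) = n * (q x ^ (n - 1) * β) := by
    have h6 : ((k + 1 : ℕ) : ℝ) = 2 * n := by rw [hk]; push_cast; ring
    rw [h6] at h2
    linarith
  exact mul_left_cancel₀ hn' h5

end Crest.Agent.R281.FujP_513
private theorem rz_fcfc56e16f : type_of% @_root_.Crest.Agent.R281.FujP_513.fixl.eq_def := @_root_.Crest.Agent.R281.FujP_513.fixl.eq_def -- L169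
private theorem rz_cb09fffe67 : type_of% @_root_.Crest.Agent.R281.FujP_513.fixl.eq_1 := @_root_.Crest.Agent.R281.FujP_513.fixl.eq_1 -- L169
private theorem rz_d8727d6292 : type_of% @_root_.Crest.Agent.R281.FujP_513.fixv.eq_def := @_root_.Crest.Agent.R281.FujP_513.fixv.eq_def -- L175
private theorem rz_bd7bac7b60 : type_of% @_root_.Crest.Agent.R281.FujP_513.fixv.eq_1 := @_root_.Crest.Agent.R281.FujP_513.fixv.eq_1 -- L175
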