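import Crest.Agent.R281.Xi1_831
import Mathlib.LinearAlgebra.QuadraticForm.Basic
import Mathlib.LinearAlgebra.BilinearForm.Orthogonal
import Crest.Agent.R281.Ti5_846
import Crest.Agent.R281.Ti8_846
import Crest.Agent.R281.Fuj3_207
import Crest.Agent.R281.FujP_513
import Crest.Agent.R273.CLinE_933
import Crest.Agent.R281.Fuj7_207
import Crest.Agent.R281.RkE_902
import Crest.Agent.R281.Mem1_69
import Crest.Agent.R281.FujSig_358

-- ▼ part R281/Xi2_831
section

/-!
# Row 281, XI-L2, part 2 (helper831): pointwise hyperkaehler facts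

`g` symmetric positive definite, `J` an orthogonal complex structure, `om u v = g (J u) v`.

* `nin_om`     : `tr (WW om w) = ⟨om, w⟩_g`
* `tr_sq`      : `w` `J`-invariant: `tr ((WW om w)²) = |w|²_g`
* `TP_prim`    : `w` `J`-invariant with `⟨om, w⟩ = 0` : `2 N (N-1) TP(w, w, om^(N-2)) = - |w|² TP(om^N)`
* `nsq_om`     : `|om|² = dim V`
* `nin_om_om`  : `⟨om_j, om_k⟩ = 0` for anticommuting complex structures
* `nin_anti`   : `w` invariant under `J`, `J'` anticommuting with `J`: `⟨om', w⟩ = 0`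
* `abs_le`     : `w(u,v)² ≤ |w|²_g g(u,u) g(v,v)`
-/

set_option autoImplicit false
set_option linter.unusedSectionVars false
set_option maxSynthPendingDepth 3

open Set Filter Topology
open scoped ContDiff

namespace Crest.Agent.R281.Xi_831

open Crest.Agent.R281.HkR_835 Crest.Agent.R281.Ti_846

noncomputable section

variable {V : Type*} [NormedAddCommGroup V] [NormedSpace ℝ V] [FiniteDimensional ℝ V]

/-- a Euclidean metric -/
structure PD (g : Bil V) : Prop where
  symm : ∀ u v, g u v = g v u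
  pos : ∀ u, u ≠ 0 → 0 < g u u

namespace PD

variable {g : Bil V} (hg : PD g)

include hg

theorem nd : ND g := fun u hu => by
  by_contra h
  exact (hg.pos u h).ne' (hu u)

theorem nonneg (u : V) : 0 ≤ g u u := by
  by_cases h : u = 0
  · subst h; simp
  · exact (hg.pos u h).le

/-- the trace of a nonnegative operator -/
theorem tc_nonneg {S : V →L[ℝ] V} (hS : ∀ v, 0 ≤ g (S v) v) : 0 ≤ tc S := by
  classical
  let B : LinearMap.BilinForm ℝ V :=
    LinearMap.mk₂ ℝ (fun u v => g u v) (fun a b c => by simp) (fun a b c => by simp)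
      (fun a b c => by simp) (fun a b c => by simp)
  have hB : ∀ u v, B u v = g u v := fun _ _ => rfl
  have hs : LinearMap.IsSymm B := ⟨fun u v => by
    rw [hB, hB]; exact hg.symm u v⟩
  obtain ⟨e, he⟩ := LinearMap.BilinForm.exists_orthogonal_basis (B := B) hs
  have ho : ∀ i j, i ≠ j → g (e i) (e j) = 0 := fun i j hij => he hij
  have hp : ∀ i, 0 < g (e i) (e i) := fun i => hg.pos _ (e.ne_zero i)
  have hc : ∀ (v : V) i, e.repr v i = g v (e i) / g (e i) (e i) := by
    intro v i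
    rw [eq_div_iff (hp i).ne']
    conv_rhs => rw [← e.sum_repr v]
    rw [map_sum, sum_apply, Finset.sum_eq_single i]
    · simp
    · intro j _ hj
      simp [ho j i hj]
    · intro h
      exact absurd (Finset.mem_univ i) h
  unfold tc
  rw [LinearMap.trace_eq_matrix_trace ℝ e]
  unfold Matrix.trace
  refine Finset.sum_nonneg fun i _ => ?_
  rw [Matrix.diag_apply, LinearMap.toMatrix_apply, hc]
  exact div_nonneg (hS (e i)) (hp i).le

/-- Cauchy-Schwarz -/
theorem cs (u v : V) : g u v ^ 2 ≤ g u u * g v v := by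
  by_cases hv : v = 0
  · subst hv; simp
  · have h1 := hg.pos v hv
    have h2 := hg.nonneg (g v v • u - g u v • v)
    have h3 : g (g v v • u - g u v • v) (g v v • u - g u v • v) =
        g v v * (g u u * g v v - g u v ^ 2) := by
      simp only [map_sub, map_smul, sub_apply, smul_apply, smul_eq_mul]
      rw [hg.symm v u]
      ring
    rw [h3] at h2
    have h4 := nonneg_of_mul_nonneg_right h2 h1
    linarith

/-- the adjoint relation for an alternating form -/
theorem WW_skew {w : Bil V} (hw : ∀ u v, w u v = - w v u) (u v : V) :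
    g (WW g w u) v = - g u (WW g w v) := by
  rw [WW_spec hg.nd, hw, ← WW_spec hg.nd w v u, hg.symm]

theorem nsq_nonneg {w : Bil V} (hw : ∀ u v, w u v = - w v u) : 0 ≤ nsq g w := by
  have h1 : nsq g w = tc (-((WW g w).comp (WW g w))) := by
    rw [tc_neg]; rfl
  rw [h1]
  refine hg.tc_nonneg fun v => ?_
  have h2 := hg.WW_skew hw (WW g w v) v
  simp only [neg_apply, ContinuousLinearMap.comp_apply, map_neg]
  rw [h2, neg_neg]
  exact hg.nonneg _

/-- `|W u|² ≤ |w|² |u|²` -/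
theorem WW_le {w : Bil V} (hw : ∀ u v, w u v = - w v u) (u : V) :
    g (WW g w u) (WW g w u) ≤ nsq g w * g u u := by
  by_cases hu : u = 0
  · subst hu; simp
  · have hp := hg.pos u hu
    set W := WW g w with hW
    -- the projection to the orthogonal complement of `u`
    set P : V →L[ℝ] V := ContinuousLinearMap.id ℝ V -
      (1 / g u u) • ((g.flip u).smulRight u) with hP
    have hPa : ∀ v, P v = v - (g v u / g u u) • u := by
      intro v
      simp only [hP, sub_apply, ContinuousLinearMap.id_apply, smul_apply,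
        ContinuousLinearMap.smulRight_apply, ContinuousLinearMap.flip_apply, smul_smul]
      congr 2
      ring
    have hPs : ∀ a v, g (P a) v = g a (P v) := by
      intro a v
      rw [hPa, hPa]
      simp only [map_sub, map_smul, sub_apply, smul_apply, smul_eq_mul]
      rw [hg.symm u v]
      ring
    have hPP : ∀ v, P (P v) = P v := by
      intro v
      rw [hPa (P v), hPa v]
      have : g (v - (g v u / g u u) • u) u = 0 := by
        simp only [map_sub, map_smul, sub_apply, smul_apply, smul_eq_mul]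
        field_simp
        ring
      rw [this, zero_div, zero_smul, sub_zero]
    -- `S = - P W W P ≥ 0`
    have h1 : 0 ≤ tc (-(P.comp ((W.comp W).comp P))) := by
      refine hg.tc_nonneg fun v => ?_
      simp only [neg_apply, ContinuousLinearMap.comp_apply, map_neg]
      rw [hPs, hg.WW_skew hw (W (P v)) (P v), neg_neg]
      exact hg.nonneg _
    have h2 : tc (P.comp ((W.comp W).comp P)) = tc (W.comp W) - g (W (W u)) u / g u u := by
      rw [tc_comp_comm]
      have h3 : ((W.comp W).comp P).comp P = (W.comp W).comp P := by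
        ext v
        simp only [ContinuousLinearMap.comp_apply, hPP]
      rw [h3]
      have h4 : (W.comp W).comp P = W.comp W - (1 / g u u) • ((g.flip u).smulRight (W (W u))) := by
        ext v
        simp only [ContinuousLinearMap.comp_apply, hPa, map_sub, map_smul, sub_apply, smul_apply,
          ContinuousLinearMap.smulRight_apply, ContinuousLinearMap.flip_apply, smul_smul]
        congr 2
        ring
      rw [h4, tc_sub, tc_smul]
      have h5 : tc ((g.flip u).smulRight (W (W u))) = g (W (W u)) u := by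
        exact LinearMap.trace_smulRight ((g.flip u : V →L[ℝ] ℝ) : V →ₗ[ℝ] ℝ) (W (W u))
      rw [h5]
      ring
    rw [tc_neg, h2] at h1
    have h3 : nsq g w = - tc (W.comp W) := rfl
    have h4 : g (W (W u)) u = - g (W u) (W u) := hg.WW_skew hw (W u) u
    rw [h4] at h1
    have h5 : g (W u) (W u) / g u u ≤ nsq g w := by
      rw [h3]
      have : -g (W u) (W u) / g u u = - (g (W u) (W u) / g u u) := by ring
      rw [this] at h1
      linarith
    rwa [div_le_iff₀ hp] at h5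

/-- **the pointwise bound** -/
theorem abs_le {w : Bil V} (hw : ∀ u v, w u v = - w v u) (u v : V) :
    w u v ^ 2 ≤ nsq g w * g u u * g v v := by
  rw [← WW_spec hg.nd w u v]
  refine (hg.cs _ _).trans ?_
  exact mul_le_mul_of_nonneg_right (hg.WW_le hw u) (hg.nonneg v)

/-! ### one complex structure -/

theorem WW_om {J : V →L[ℝ] V} {om : Bil V} (hom : ∀ u v, om u v = g (J u) v) : WW g om = J :=
  (WW_unique hg.nd fun u v => (hom u v).symm).symm

theorem nd_om {J : V →L[ℝ] V} (hJ : ∀ u, J (J u) = -u) {om : Bil V}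
    (hom : ∀ u v, om u v = g (J u) v) : ND om := fun u hu => by
  have h1 : J u = 0 := hg.nd _ fun v => by rw [← hom]; exact hu v
  have h2 := hJ u
  rw [h1, map_zero] at h2
  simpa using h2.symm

theorem WW_om_w {J : V →L[ℝ] V} (hJ : ∀ u, J (J u) = -u) {om : Bil V}
    (hom : ∀ u v, om u v = g (J u) v) (w : Bil V) :
    WW om w = -(J.comp (WW g w)) := by
  symm
  refine WW_unique (hg.nd_om hJ hom) fun u v => ?_
  rw [hom]
  simp only [neg_apply, ContinuousLinearMap.comp_apply, map_neg, hJ, neg_neg]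
  exact WW_spec hg.nd w u v

theorem nin_om {J : V →L[ℝ] V} (hJ : ∀ u, J (J u) = -u) {om : Bil V}
    (hom : ∀ u v, om u v = g (J u) v) (w : Bil V) : tc (WW om w) = nin g om w := by
  rw [hg.WW_om_w hJ hom, tc_neg]
  unfold nin
  rw [hg.WW_om hom]

theorem WW_comm {J : V →L[ℝ] V} (hJ : ∀ u, J (J u) = -u) (hJs : ∀ u v, g (J u) v = - g u (J v))
    {w : Bil V} (hw : ∀ u v, w (J u) (J v) = w u v) (u : V) : WW g w (J u) = J (WW g w u) := by
  refine hg.nd.ext fun v => ?_
  rw [WW_spec hg.nd, hJs, WW_spec hg.nd]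
  have h1 := hw u (J v)
  rw [hJ, map_neg] at h1
  linarith

theorem tr_sq {J : V →L[ℝ] V} (hJ : ∀ u, J (J u) = -u) (hJs : ∀ u v, g (J u) v = - g u (J v))
    {om : Bil V} (hom : ∀ u v, om u v = g (J u) v)
    {w : Bil V} (hw : ∀ u v, w (J u) (J v) = w u v) :
    tc ((WW om w).comp (WW om w)) = nsq g w := by
  have h1 : (WW om w).comp (WW om w) = -((WW g w).comp (WW g w)) := by
    ext u
    rw [hg.WW_om_w hJ hom]
    simp only [neg_apply, ContinuousLinearMap.comp_apply, map_neg, neg_neg,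
      hg.WW_comm hJ hJs hw, hJ]
  rw [h1, tc_neg]
  rfl

theorem nsq_om {J : V →L[ℝ] V} (hJ : ∀ u, J (J u) = -u) {om : Bil V}
    (hom : ∀ u v, om u v = g (J u) v) : nsq g om = Module.finrank ℝ V := by
  unfold nsq nin
  rw [hg.WW_om hom]
  have h1 : J.comp J = - ContinuousLinearMap.id ℝ V := by
    ext u
    simp [hJ]
  rw [h1, tc_neg, tc_id, neg_neg]

omit hg in
/-- conjugating by a complex structure which anticommutes -/
theorem tc_anti {J J' A : V →L[ℝ] V} (hJ : ∀ u, J (J u) = -u)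
    (hJJ : ∀ u, J (J' u) = - J' (J u)) (hA : ∀ u, A (J u) = J (A u)) : tc (J'.comp A) = 0 := by
  have h1 : tc (J'.comp A) = - tc (J.comp ((J'.comp A).comp J)) := by
    rw [tc_comp_comm J]
    have : ((J'.comp A).comp J).comp J = -(J'.comp A) := by
      ext u
      simp [hJ]
    rw [this, tc_neg, neg_neg]
  have h2 : J.comp ((J'.comp A).comp J) = J'.comp A := by
    ext u
    simp only [ContinuousLinearMap.comp_apply, hA, hJJ, hJ, map_neg, neg_neg]
  rw [h2] at h1
  linarith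

theorem nin_anti {J J' : V →L[ℝ] V} (hJ : ∀ u, J (J u) = -u)
    (hJs : ∀ u v, g (J u) v = - g u (J v))
    (hJJ : ∀ u, J (J' u) = - J' (J u)) {om' : Bil V} (hom' : ∀ u v, om' u v = g (J' u) v)
    {w : Bil V} (hw : ∀ u v, w (J u) (J v) = w u v) : nin g om' w = 0 := by
  unfold nin
  rw [hg.WW_om hom', tc_anti hJ hJJ (hg.WW_comm hJ hJs hw), neg_zero]

theorem nin_om_om {J J' : V →L[ℝ] V} (hJ : ∀ u, J (J u) = -u)
    (hJJ : ∀ u, J (J' u) = - J' (J u)) {om om' : Bil V} (hom : ∀ u v, om u v = g (J u) v)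
    (hom' : ∀ u v, om' u v = g (J' u) v) : nin g om' om = 0 := by
  unfold nin
  rw [hg.WW_om hom, hg.WW_om hom', tc_anti hJ hJJ (fun u => rfl), neg_zero]

/-! ### primitive forms -/

section prim

variable {K : Type*} [Fintype K] [DecidableEq K]

theorem TP_nin (b : Module.Basis (K × Fin 2) ℝ V) {J : V →L[ℝ] V} (hJ : ∀ u, J (J u) = -u)
    {om : Bil V} (hom : ∀ u v, om u v = g (J u) v) (ha : ∀ u v, om u v = - om v u)
    {w : Bil V} (hw : ∀ u v, w u v = - w v u) (k0 : K) :
    2 * (Fintype.card K : ℝ) * TP b (Function.update (fun _ => om) k0 w) =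
      nin g om w * TP b (fun _ => om) := by
  have h := TP_one b (hg.nd_om hJ hom) ha hw k0
  rw [hg.nin_om hJ hom] at h
  linarith

theorem TP_prim (b : Module.Basis (K × Fin 2) ℝ V) {J : V →L[ℝ] V} (hJ : ∀ u, J (J u) = -u)
    (hJs : ∀ u v, g (J u) v = - g u (J v))
    {om : Bil V} (hom : ∀ u v, om u v = g (J u) v) (ha : ∀ u v, om u v = - om v u)
    {w : Bil V} (hw : ∀ u v, w u v = - w v u) (hi : ∀ u v, w (J u) (J v) = w u v)
    (hn : nin g om w = 0) {k0 k1 : K} (hk : k0 ≠ k1) :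
    2 * (Fintype.card K : ℝ) * ((Fintype.card K : ℝ) - 1) *
        TP b (Function.update (Function.update (fun _ => om) k0 w) k1 w) =
      - (nsq g w * TP b (fun _ => om)) := by
  have h := TP_two b (hg.nd_om hJ hom) ha hw hk
  rw [hg.tr_sq hJ hJs hom hi, hg.nin_om hJ hom, hn] at h
  linarith

end prim

end PD

end

end Crest.Agent.R281.Xi_831
end

-- ▼ part R281/Xi3_831
section

/-!
# Row 281, XI-L2, part 3 (helper831): the norm of a closed 2-form as a function on `X`

`H : HkT C` hyperkaehler triple, `w w' : F2 C`.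

* `fT F hF D`    : the top form `F D`, `F : X → ℝ` continuous
* `ninX H w w'`, `nsX H w` : the pointwise inner product and norm, functions on `X`;
  `ninX_eq` (value in a chart), `ninX_sm`, `ninX_cont`
* `nsX_bound`    : `w(u,v)² ≤ nsX H w · g(u,u) · g(v,v)`
* `int_prim`     : `ψ` of type (1,1) for `J 0`, pointwise primitive :
  `2 N (N-1) ∫ ψ² om₀^(N-2) = - ∫ nsX H ψ om₀^N`
-/

set_option autoImplicit false
set_option linter.unusedSectionVars false
set_option maxSynthPendingDepth 3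

open Set Filter Topology MeasureTheory
open scoped ContDiff

namespace Crest.Agent.R281.Xi_831

open Crest.Agent.R281.HkR_835 Crest.Agent.R281.Ti_846

noncomputable section

variable {V X : Type} [NormedAddCommGroup V] [NormedSpace ℝ V] [FiniteDimensional ℝ V]
  [TopologicalSpace X] {C : RCh V X}

/-- multiplication of a top form by a continuous function -/
def fT (F : X → ℝ) (hF : Continuous F) (D : TopF C) : TopF C where
  D i z := F ((C.e i).symm z) * D.D i z
  cont i := (hF.comp_continuousOn (C.e i).continuousOn_symm).mul (D.cont i)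
  tr i j z hz := by
    have h1 : (C.e j).symm (C.t i j z) = (C.e i).symm z := (C.e j).left_inv hz.2
    rw [h1, D.tr i j z hz]
    ring

theorem fT_D (F : X → ℝ) (hF : Continuous F) (D : TopF C) (i : C.ι) (z : V) :
    (fT F hF D).D i z = F ((C.e i).symm z) * D.D i z := rfl

/-- the differential of a change of charts -/
def dte (i j : C.ι) {z : V} (hz : z ∈ C.ov i j) : V ≃L[ℝ] V :=
  ContinuousLinearEquiv.equivOfInverse (fderiv ℝ (C.t i j) z) (fderiv ℝ (C.t j i) (C.t i j z))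
    (fun v => RCh.dt_dt hz v) (fun v => RCh.dt_dt' hz v)


/-- smoothness of the pointwise product -/
theorem contDiffOn_nin {U : Set V} {g w w' : V → Bil V} (hU : IsOpen U)
    (hg : ContDiffOn ℝ ∞ g U) (hw : ContDiffOn ℝ ∞ w U) (hw' : ContDiffOn ℝ ∞ w' U)
    (hnd : ∀ z ∈ U, ND (g z)) : ContDiffOn ℝ ∞ (fun z => nin (g z) (w z) (w' z)) U := by
  have h1 : ContDiffOn ℝ ∞ (fun z => ContinuousLinearMap.inverse (g z)) U := by
    intro z hz
    exact ((hnd z hz).inv.contDiffAt_map_inverse).comp_contDiffWithinAt z (hg z hz)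
  have h2 : ContDiffOn ℝ ∞ (fun z => WW (g z) (w z)) U := h1.clm_comp hw
  have h3 : ContDiffOn ℝ ∞ (fun z => WW (g z) (w' z)) U := h1.clm_comp hw'
  have h4 : ContDiffOn ℝ ∞ (fun z => tcL ((WW (g z) (w z)).comp (WW (g z) (w' z)))) U :=
    (tcL (V := V)).contDiff.comp_contDiffOn (h2.clm_comp h3)
  exact h4.neg

section hk

variable (H : HkT C)

theorem pdH {i : C.ι} {z : V} (hz : z ∈ (C.e i).target) : PD (H.g i z) :=
  ⟨H.g_symm i z hz, H.g_pos i z hz⟩

/-- the pointwise inner product of 2-forms -/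
def ninX (w w' : F2 C) (x : X) : ℝ :=
  nin (H.g (C.cover x).choose (C.e (C.cover x).choose x))
    (w.w (C.cover x).choose (C.e (C.cover x).choose x))
    (w'.w (C.cover x).choose (C.e (C.cover x).choose x))

theorem ninX_eq' (w w' : F2 C) {i : C.ι} {x : X} (hx : x ∈ (C.e i).source) :
    ninX H w w' x = nin (H.g i (C.e i x)) (w.w i (C.e i x)) (w'.w i (C.e i x)) := by
  set j := (C.cover x).choose with hj
  have hxj : x ∈ (C.e j).source := (C.cover x).choose_spec
  have hs : (C.e j).symm (C.e j x) = x := (C.e j).left_inv hxj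
  have hz : C.e j x ∈ C.ov j i := ⟨(C.e j).map_source hxj, by rw [hs]; exact hx⟩
  have ht : C.t j i (C.e j x) = C.e i x := by
    show C.e i ((C.e j).symm (C.e j x)) = C.e i x
    rw [hs]
  have hz' := (RCh.t_mem hz).1
  rw [ht] at hz'
  show nin (H.g j (C.e j x)) (w.w j (C.e j x)) (w'.w j (C.e j x)) = _
  refine nin_conj (pdH H hz').nd (dte j i hz) (fun u v => ?_) (fun u v => ?_) (fun u v => ?_)
  · rw [H.g_tr hz, ht]; rfl
  · rw [w.tr j i _ hz, ht]; rfl
  · rw [w'.tr j i _ hz, ht]; rfl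

theorem ninX_eq (w w' : F2 C) {i : C.ι} {z : V} (hz : z ∈ (C.e i).target) :
    ninX H w w' ((C.e i).symm z) = nin (H.g i z) (w.w i z) (w'.w i z) := by
  rw [ninX_eq' H w w' ((C.e i).map_target hz), (C.e i).right_inv hz]

theorem ninX_sm (w w' : F2 C) (i : C.ι) :
    ContDiffOn ℝ ∞ (fun z => ninX H w w' ((C.e i).symm z)) (C.e i).target := by
  refine (contDiffOn_nin (C.e i).open_target (H.g_sm i) (w.sm i) (w'.sm i)
    fun z hz => (pdH H hz).nd).congr fun z hz => ?_
  exact ninX_eq H w w' hz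

theorem ninX_cont (w w' : F2 C) : Continuous (ninX H w w') := by
  rw [continuous_iff_continuousAt]
  intro x
  obtain ⟨i, hi⟩ := C.cover x
  have h1 : ContinuousAt (fun z => ninX H w w' ((C.e i).symm z)) (C.e i x) :=
    ((ninX_sm H w w' i).continuousOn).continuousAt
      ((C.e i).open_target.mem_nhds ((C.e i).map_source hi))
  have h2 : ContinuousAt (fun y => ninX H w w' ((C.e i).symm (C.e i y))) x :=
    ContinuousAt.comp (f := C.e i) h1 ((C.e i).continuousAt hi)
  refine h2.congr ?_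
  filter_upwards [(C.e i).open_source.mem_nhds hi] with y hy
  rw [(C.e i).left_inv hy]

/-- the pointwise norm -/
def nsX (w : F2 C) : X → ℝ := ninX H w w

theorem nsX_eq (w : F2 C) {i : C.ι} {z : V} (hz : z ∈ (C.e i).target) :
    nsX H w ((C.e i).symm z) = nsq (H.g i z) (w.w i z) := ninX_eq H w w hz

theorem nsX_nonneg (w : F2 C) (x : X) : 0 ≤ nsX H w x := by
  obtain ⟨i, hi⟩ := C.cover x
  have hz := (C.e i).map_source hi
  have h1 := nsX_eq H w hz
  rw [(C.e i).left_inv hi] at h1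
  rw [h1]
  exact (pdH H hz).nsq_nonneg (w.alt i _ hz)

theorem nsX_cont (w : F2 C) : Continuous (nsX H w) := ninX_cont H w w

/-- **pointwise bound** -/
theorem nsX_bound (w : F2 C) {i : C.ι} {z : V} (hz : z ∈ (C.e i).target) (u v : V) :
    w.w i z u v ^ 2 ≤ nsX H w ((C.e i).symm z) * H.g i z u u * H.g i z v v := by
  rw [nsX_eq H w hz]
  exact (pdH H hz).abs_le (w.alt i z hz) u v

theorem ninX_comm (w w' : F2 C) (x : X) : ninX H w w' x = ninX H w' w x := nin_comm _ _ _

theorem ninX_add (w w' w'' : F2 C) (x : X) :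
    ninX H w (w' + w'') x = ninX H w w' x + ninX H w w'' x := nin_add _ _ _ _

theorem ninX_smul (w : F2 C) (c : ℝ) (w' : F2 C) (x : X) :
    ninX H w (c • w') x = c * ninX H w w' x := nin_smul _ _ _ _

theorem nsX_add (w w' : F2 C) (x : X) :
    nsX H (w + w') x = nsX H w x + 2 * ninX H w w' x + nsX H w' x := nsq_add _ _ _

theorem nsX_smul (c : ℝ) (w : F2 C) (x : X) : nsX H (c • w) x = c ^ 2 * nsX H w x :=
  nsq_smul _ _ _

theorem J_anti {k l : Fin 3} (hkl : k ≠ l) {i : C.ι} {z : V} (hz : z ∈ (C.e i).target) (u : V) :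
    H.J k i z (H.J l i z u) = - H.J l i z (H.J k i z u) := by
  fin_cases k <;> fin_cases l <;> simp only [ne_eq, not_true_eq_false] at hkl
  · show H.J 0 i z (H.J 1 i z u) = - H.J 1 i z (H.J 0 i z u)
    rw [H.J_10 hz, H.J_01 i z hz, neg_neg]
  · show H.J 0 i z (H.J 2 i z u) = - H.J 2 i z (H.J 0 i z u)
    rw [H.J_02 hz, H.J_20 hz]
  · show H.J 1 i z (H.J 0 i z u) = - H.J 0 i z (H.J 1 i z u)
    rw [H.J_10 hz, H.J_01 i z hz]
  · show H.J 1 i z (H.J 2 i z u) = - H.J 2 i z (H.J 1 i z u)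
    rw [H.J_12 hz, H.J_21 hz, neg_neg]
  · show H.J 2 i z (H.J 0 i z u) = - H.J 0 i z (H.J 2 i z u)
    rw [H.J_02 hz, H.J_20 hz, neg_neg]
  · show H.J 2 i z (H.J 1 i z u) = - H.J 1 i z (H.J 2 i z u)
    rw [H.J_12 hz, H.J_21 hz]

theorem nsX_om (k : Fin 3) (x : X) : nsX H (H.om k) x = Module.finrank ℝ V := by
  obtain ⟨i, hi⟩ := C.cover x
  have hz := (C.e i).map_source hi
  have h1 := nsX_eq H (H.om k) hz
  rw [(C.e i).left_inv hi] at h1
  rw [h1]
  exact (pdH H hz).nsq_om (H.J_sq k i _ hz) (H.om_eq k i _ hz)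

theorem ninX_om_om {k l : Fin 3} (hkl : k ≠ l) (x : X) : ninX H (H.om k) (H.om l) x = 0 := by
  obtain ⟨i, hi⟩ := C.cover x
  have hz := (C.e i).map_source hi
  rw [ninX_eq' H _ _ hi]
  exact (pdH H hz).nin_om_om (J := H.J l i _) (J' := H.J k i _) (H.J_sq l i _ hz)
    (fun u => J_anti H (Ne.symm hkl) hz u) (H.om_eq l i _ hz) (H.om_eq k i _ hz)

/-- type (1,1) for `J 0` -/
def Inv0 (w : F2 C) : Prop := ∀ i, ∀ z ∈ (C.e i).target, ∀ u v,
  w.w i z (H.J 0 i z u) (H.J 0 i z v) = w.w i z u v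

theorem ninX_om_inv {k : Fin 3} (hk : k ≠ 0) {w : F2 C} (hw : Inv0 H w) (x : X) :
    ninX H (H.om k) w x = 0 := by
  obtain ⟨i, hi⟩ := C.cover x
  have hz := (C.e i).map_source hi
  rw [ninX_eq' H _ _ hi]
  exact (pdH H hz).nin_anti (J := H.J 0 i _) (J' := H.J k i _) (H.J_sq 0 i _ hz)
    (H.g_J' 0 hz) (fun u => J_anti H (Ne.symm hk) hz u) (H.om_eq k i _ hz) (hw i _ hz)

/-- the norm of the canonical representative -/
theorem nsX_rep {w : F2 C} (hw : Inv0 H w) (h0 : ∀ x, ninX H (H.om 0) w x = 0) (a b c : ℝ)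
    (x : X) : nsX H (a • H.om 0 + b • H.om 1 + c • H.om 2 + w) x =
      (a ^ 2 + b ^ 2 + c ^ 2) * Module.finrank ℝ V + nsX H w x := by
  have e1 : ninX H (a • H.om 0 + b • H.om 1 + c • H.om 2) w x = 0 := by
    rw [ninX_comm, ninX_add, ninX_add, ninX_smul, ninX_smul, ninX_smul, ninX_comm H w, h0,
      ninX_comm H w, ninX_om_inv H (by decide) hw, ninX_comm H w, ninX_om_inv H (by decide) hw]
    ring
  rw [nsX_add, e1, nsX_add, nsX_add, nsX_smul, nsX_smul, nsX_smul, nsX_om, nsX_om, nsX_om]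
  have e2 : ninX H (a • H.om 0 + b • H.om 1) (c • H.om 2) x = 0 := by
    rw [ninX_smul, ninX_comm, ninX_add, ninX_smul, ninX_smul, ninX_om_om H (by decide),
      ninX_om_om H (by decide)]
    ring
  have e3 : ninX H (a • H.om 0) (b • H.om 1) x = 0 := by
    rw [ninX_smul, ninX_comm, ninX_smul, ninX_om_om H (by decide)]
    ring
  rw [e2, e3]
  ring

section int

variable [MeasurableSpace V] [BorelSpace V] (μ : Measure V) [μ.IsAddHaarMeasure] [CompactSpace X]
  {K : Type} [Fintype K] [DecidableEq K] (b : Module.Basis (K × Fin 2) ℝ V) (P : RPart C)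

/-- **(1,1), primitive** -/
theorem int_prim {w : F2 C} (hw : Inv0 H w) (h0 : ∀ x, ninX H (H.om 0) w x = 0) {k0 k1 : K}
    (hk : k0 ≠ k1) :
    2 * (Fintype.card K : ℝ) * ((Fintype.card K : ℝ) - 1) *
      II μ b P (Function.update (Function.update (fun _ => H.om 0) k0 w) k1 w) =
    - intT μ P (fT (nsX H w) (nsX_cont H w) (TopF.of b fun _ => H.om 0)) := by
  have h1 := intT_sum μ P (Finset.univ : Finset (Fin 1))
    (fun _ => - (2 * (Fintype.card K : ℝ) * ((Fintype.card K : ℝ) - 1)))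
    (fun _ => TopF.of b (Function.update (Function.update (fun _ => H.om 0) k0 w) k1 w))
    (fT (nsX H w) (nsX_cont H w) (TopF.of b fun _ => H.om 0)) (fun i z hz => by
      rw [Fin.sum_univ_one, fT_D, TopF.of_D, TopF.of_D, nsX_eq H w hz]
      have h2 := (pdH H hz).TP_prim b (J := H.J 0 i z) (om := (H.om 0).w i z) (w := w.w i z)
        (H.J_sq 0 i z hz) (H.g_J' 0 hz) (H.om_eq 0 i z hz) ((H.om 0).alt i z hz)
        (w.alt i z hz) (hw i z hz) (by rw [← ninX_eq H _ _ hz]; exact h0 _) hk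
      have h3 : (fun k => (Function.update (Function.update (fun _ => H.om 0) k0 w) k1 w k).w i z) =
          Function.update (Function.update (fun _ => (H.om 0).w i z) k0 (w.w i z)) k1
            (w.w i z) := by
        rw [upd_w]
        congr 1
        exact upd_w (fun _ => H.om 0) k0 w i z
      rw [h3]
      linarith)
  rw [Fin.sum_univ_one] at h1
  rw [h1]
  show _ = - (- (2 * (Fintype.card K : ℝ) * ((Fintype.card K : ℝ) - 1)) *
    II μ b P (Function.update (Function.update (fun _ => H.om 0) k0 w) k1 w))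
  ring

end int

end hk

end

end Crest.Agent.R281.Xi_831
end

-- ▼ part R281/Xi4_831
section

/-!
# Row 281, XI-L2, part 4 (helper831): primitive representatives on `(M, A : Atl n M)`

`K : Kah A`, `H : HkT (ofAtl A)` with `om 0` the form of `K` and `J 0` multiplication by `i`.

* `ninX_dc`     : `⟨om₀, dd^c v⟩ = 2 tr_K (i ∂∂̄ v)`
* `exists_prim` : every closed real (1,1)-form is `a om₀ + ψ + exact`, `ψ` pointwise primitive
* `intT_fT`     : `∫ F om₀^n = 2^n n! ∫ F dvol`
* `prim_int`    : `2 n (n-1) ∫ ψ ψ om₀^(n-2) = - 2^n n! ∫ |ψ|²`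
* `hodge`       : Hodge index (850 (h3), input of 207 `Fuj6_207.sig`)
-/

set_option autoImplicit false
set_option linter.unusedSectionVars false
set_option maxSynthPendingDepth 3

open Set Filter Topology MeasureTheory Complex
open scoped ContDiff Matrix ComplexConjugate ComplexOrder

namespace Crest.Agent.R281.Xi_831

open Crest.Agent.R281.HkR_835 Crest.Agent.R281.Ti_846 Crest.Agent.R281.Fuj3_207
open Crest.Agent.R275.Geo Crest.Agent.R275.Core144
open Crest.Agent.R273.Defs_333 Crest.Agent.R273.Kah_333 Crest.Agent.R273.HM_333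
open Crest.Agent.R273.Vol_333 Crest.Agent.R273.Vm_333
open Crest.Agent.R273.GreenM_5 (lapK lapK_ofReal trK_eq hsf_tn hsf_herm)
open Crest.Agent.R281.FujP_513 (mixv)

noncomputable section

variable {n : ℕ} {M : Type} [TopologicalSpace M] {A : Atl n M}

theorem finrank_Cn : (Module.finrank ℝ (Cn n) : ℝ) = 2 * n := by
  rw [Module.finrank_eq_card_basis (bc n)]
  simp [mul_comm]

/-- compatibility of the triple with the complex manifold -/
structure Ad (K : Kah A) (H : HkT (ofAtl A)) : Prop where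
  om0 : ∀ i, ∀ z ∈ (A.e i).target, (H.om 0).w i z = (ofKah K).f2.w i z
  J0 : ∀ i, ∀ z ∈ (A.e i).target, ∀ v, H.J 0 i z v = I • v

variable {K : Kah A} {H : HkT (ofAtl A)} (hA : Ad K H)

include hA

theorem Ad.inv0 {w : F2 (ofAtl A)}
    (hw : ∀ i, ∀ z ∈ (A.e i).target, ∀ u v, w.w i z (I • u) (I • v) = w.w i z u v) :
    Inv0 H w := fun i z hz u v => by
  rw [hA.J0 i z hz, hA.J0 i z hz]
  exact hw i z hz u v

/-- pointwise inner product with `dd^c v` -/
theorem ninX_dc (hn : 2 ≤ n) {v : M → ℝ} (hv : A.Sm v) (x : M) :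
    ninX H (H.om 0) (dcF1 v hv).d x = 2 * lapK K v x := by
  obtain ⟨i, hi⟩ := A.cover x
  have hz : A.e i x ∈ (A.e i).target := (A.e i).map_source hi
  have hx : (A.e i).symm (A.e i x) = x := (A.e i).left_inv hi
  set k0 : Fin n := ⟨0, by omega⟩ with hk0
  set l0 : Fin n := ⟨1, by omega⟩ with hl0
  have hkl : k0 ≠ l0 := by simp [hk0, hl0, Fin.ext_iff]
  have h1 := (pdH H hz).TP_nin (bc n) (J := H.J 0 i (A.e i x)) (om := (H.om 0).w i (A.e i x))
    (w := ((dcF1 v hv).d).w i (A.e i x)) (H.J_sq 0 i _ hz) (H.om_eq 0 i _ hz)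
    ((H.om 0).alt i _ hz) (((dcF1 v hv).d).alt i _ hz) k0
  have h0' : ninX H (H.om 0) (dcF1 v hv).d x = nin (H.g i (A.e i x)) ((H.om 0).w i (A.e i x))
    (((dcF1 v hv).d).w i (A.e i x)) := ninX_eq' H _ _ hi
  rw [← h0'] at h1
  -- the left side
  have h0 : (K.g i x).det ≠ 0 := (K.pos i x hi).det_pos.ne'
  have h2 : ((TP (bc n) (Function.update (fun _ => (H.om 0).w i (A.e i x)) k0
      (((dcF1 v hv).d).w i (A.e i x))) : ℝ) : ℂ) =
      2 ^ n * Ti_846.MD (Function.update (fun _ => K.g i x) k0 (hsf A v i x)) := by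
    refine TP_herm (fun k => ?_) (fun k u w => ?_)
    · by_cases hk : k = k0
      · subst hk
        rw [Function.update_self]
        exact hsf_herm hv hi
      · rw [Function.update_of_ne hk]
        exact (K.pos i x hi).isHermitian
    · by_cases hk : k = k0
      · subst hk
        rw [Function.update_self, Function.update_self]
        have := dcF1_d v hv hz u w
        rw [hx] at this
        exact this
      · rw [Function.update_of_ne hk, Function.update_of_ne hk, hA.om0 i _ hz,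
          (ofKah K).f2_w hz, hx]
        rfl
  rw [MD_two hkl (isUnit_iff_ne_zero.2 h0) (fun j h3 _ => Function.update_of_ne h3 _ _),
    Function.update_self, Function.update_of_ne (Ne.symm hkl), Matrix.nonsing_inv_mul _
    (isUnit_iff_ne_zero.2 h0), Matrix.mul_one, Matrix.trace_one, Fintype.card_fin] at h2
  have h3 : (((K.g i x)⁻¹ * hsf A v i x).trace : ℂ) = ((lapK K v x : ℝ) : ℂ) := by
    rw [lapK_ofReal K hv, trK_eq K (hsf_tn hv) hi]
  rw [h3, ← volK_w K i hi] at h2
  have h4 : TP (bc n) (Function.update (fun _ => (H.om 0).w i (A.e i x)) k0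
      (((dcF1 v hv).d).w i (A.e i x))) =
      2 ^ n * ((n - 2).factorial * (volK K).w i x * (lapK K v x * n - lapK K v x)) := by
    exact_mod_cast h2
  have h5 : TP (bc n) (fun _ => (H.om 0).w i (A.e i x)) =
      2 ^ n * n.factorial * (volK K).w i x := by
    rw [hA.om0 i _ hz]
    exact TP_kah K hi
  rw [h4, h5, Fintype.card_fin] at h1
  have h6 : (n.factorial : ℝ) = n * (n - 1) * (n - 2).factorial := by
    obtain ⟨m, rfl⟩ : ∃ m, n = m + 2 := ⟨n - 2, by omega⟩
    rw [Nat.factorial_succ, Nat.factorial_succ]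
    push_cast
    ring
  have h7 : (0 : ℝ) < (volK K).w i x := (volK K).pos i x hi
  have h8 : (0 : ℝ) < (n - 2).factorial := by exact_mod_cast Nat.factorial_pos _
  have h9 : (2 : ℝ) ≤ n := by exact_mod_cast hn
  rw [h6] at h1
  have h10 : (0 : ℝ) < 2 ^ n * (n * (n - 1) * (n - 2).factorial) * (volK K).w i x := by
    have : (0 : ℝ) < n - 1 := by linarith
    positivity
  have h11 : (2 ^ n * (n * (n - 1) * (n - 2).factorial) * (volK K).w i x) *
      (2 * lapK K v x) = (2 ^ n * (n * (n - 1) * (n - 2).factorial) * (volK K).w i x) *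
      ninX H (H.om 0) (dcF1 v hv).d x := by
    linear_combination h1
  exact (mul_left_cancel₀ h10.ne' h11).symm

theorem ninX_sub (w w' w'' : F2 (ofAtl A)) (x : M) :
    ninX H w (w' - w'') x = ninX H w w' x - ninX H w w'' x := by
  have h := ninX_add H w (w' - w'') w'' x
  rw [sub_add_cancel] at h
  linarith

/-- **primitive representatives** -/
theorem exists_prim [T2Space M] [CompactSpace M] [ConnectedSpace M] [Finite A.ι] (P : Part A)
    (hn : 2 ≤ n) (y : F2 (ofAtl A))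
    (hy : ∀ i, ∀ z ∈ (A.e i).target, ∀ u v, y.w i z (I • u) (I • v) = y.w i z u v) :
    ∃ (a : ℝ) (ψ : F2 (ofAtl A)), (∀ i, ∀ z ∈ (A.e i).target, ∀ u v,
      ψ.w i z (I • u) (I • v) = ψ.w i z u v) ∧ (∀ x, ninX H (H.om 0) ψ x = 0) ∧
      y - (a • H.om 0 + ψ) ∈ exS (ofAtl A) := by
  have hf : A.Sm (fun x => (1 / 2 : ℝ) * ninX H (H.om 0) y x) := fun i =>
    contDiffOn_const.mul (ninX_sm H (H.om 0) y i)
  obtain ⟨v, m, hv, he⟩ := Crest.Agent.R273.CLin_933.lin_kah K P hf
  have hn0 : (0 : ℝ) < n := by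
    have : (2 : ℝ) ≤ n := by exact_mod_cast hn
    linarith
  refine ⟨m / n, y - (dcF1 v hv).d - (m / n) • H.om 0, ?_, ?_, ?_⟩
  · intro i z hz u w
    have h1 := hy i z hz u w
    have h2 : ∀ a b, ((dcF1 v hv).d).w i z a b = (I * hb (hsf A v i ((A.e i).symm z)) a b).re :=
      fun a b => dcF1_d v hv hz a b
    have h3 := (ofKah K).f2_inv hz u w
    rw [← hA.om0 i z hz] at h3
    have h4 : ∀ a b, (y - (dcF1 v hv).d - (m / n) • H.om 0).w i z a b =
        y.w i z a b - ((dcF1 v hv).d).w i z a b - (m / n) * (H.om 0).w i z a b :=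
      fun a b => rfl
    rw [h4, h4, h1, h2, h2, h3, hb_I_left, hb_I_right]
    congr 3
    linear_combination (-hb (hsf A v i ((A.e i).symm z)) u w) * I * I_mul_I
  · intro x
    rw [ninX_sub hA, ninX_sub hA, ninX_dc hA hn hv, he, ninX_smul]
    have h4 : ninX H (H.om 0) (H.om 0) x = 2 * n := by
      rw [← finrank_Cn (n := n)]
      exact nsX_om H 0 x
    rw [h4]
    field_simp
    ring
  · have h5 : y - ((m / n) • H.om 0 + (y - (dcF1 v hv).d - (m / n) • H.om 0)) =
        (dcF1 v hv).d := by abel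
    rw [h5]
    exact ⟨dcF1 v hv, F1.isD _⟩

section int

variable [CompactSpace M] [MeasurableSpace M] [BorelSpace M] [Countable A.ι] (P : RPart (ofAtl A))

theorem intT_fT (F : M → ℝ) (hF : Continuous F) :
    intT (lc n) P (fT F hF (TopF.of (bc n) fun _ => H.om 0)) =
      2 ^ n * n.factorial * ∫ x, F x ∂(vm (volK K)) := by
  rw [intT_eq (volK K), ← integral_const_mul]
  congr 1
  funext x
  obtain ⟨i, hi⟩ := A.cover x
  have h1 := (fT F hF (TopF.of (bc n) fun _ => H.om 0)).fn_eq (volK K) hi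
  have h2 : (fT F hF (TopF.of (bc n) fun _ => H.om 0)).D i (A.e i x) =
      F x * (2 ^ n * n.factorial * (volK K).w i x) := by
    have h3 : ((ofAtl A).e i).symm (A.e i x) = x := (A.e i).left_inv hi
    show F (((ofAtl A).e i).symm (A.e i x)) * TP (bc n) (fun _ => (H.om 0).w i (A.e i x)) = _
    rw [h3, hA.om0 i _ ((A.e i).map_source hi), TP_kah K hi]
  rw [h2] at h1
  have h7 : (0 : ℝ) < (volK K).w i x := (volK K).pos i x hi
  have h3 : (volK K).w i x * (2 ^ n * n.factorial * F x) = (volK K).w i x *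
      (fT F hF (TopF.of (bc n) fun _ => H.om 0)).fn (volK K) x := by
    linear_combination h1
  exact (mul_left_cancel₀ h7.ne' h3).symm

theorem prim_int {ψ : F2 (ofAtl A)} (h11 : ∀ i, ∀ z ∈ (A.e i).target, ∀ u v,
      ψ.w i z (I • u) (I • v) = ψ.w i z u v) (h0 : ∀ x, ninX H (H.om 0) ψ x = 0) {k0 k1 : Fin n}
    (hk : k0 ≠ k1) :
    2 * (n : ℝ) * ((n : ℝ) - 1) * II (lc n) (bc n) P (Function.update (Function.update
      (fun _ => H.om 0) k0 ψ) k1 ψ) =
    - (2 ^ n * n.factorial * ∫ x, nsX H ψ x ∂(vm (volK K))) := by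
  have h1 := int_prim H (lc n) (bc n) P (hA.inv0 h11) h0 hk
  rw [Fintype.card_fin, intT_fT hA P _ (nsX_cont H ψ)] at h1
  exact h1

end int

end

end Crest.Agent.R281.Xi_831
end

-- ▼ part R281/Xi5_831
section

/-!
# Row 281, XI-L2, part 5 (helper831): intersection numbers of primitive forms

`A : Atl d M`, `d = n + n`, `K`, `H`, `Ad K H`, `T := IM (lc d) (bn hd) P`.

* `T_prim1` : `T (mixv 1 om₀ ψ) = 0`
* `T_om`    : `T (om₀, .., om₀) = 2^d d! vol(K)`
* `T_prim2` : `2 d (d-1) T (mixv 2 om₀ ψ) = - 2^d d! ∫ |ψ|²`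
-/

set_option autoImplicit false
set_option linter.unusedSectionVars false
set_option maxSynthPendingDepth 3

open Set Filter Topology MeasureTheory Complex
open scoped ContDiff Matrix ComplexConjugate ComplexOrder

namespace Crest.Agent.R281.Xi_831

open Crest.Agent.R281.HkR_835 Crest.Agent.R281.Ti_846
open Crest.Agent.R275.Geo Crest.Agent.R275.Core144
open Crest.Agent.R273.Defs_333 Crest.Agent.R273.Kah_333 Crest.Agent.R273.HM_333
open Crest.Agent.R273.Vol_333 Crest.Agent.R273.Vm_333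
open Crest.Agent.R281.FujP_513 (mixv)
open Crest.Agent.R281.Fuj7_207 (bn bn_rfl)

noncomputable section

section zero

variable {V X : Type} [NormedAddCommGroup V] [NormedSpace ℝ V] [FiniteDimensional ℝ V]
  [TopologicalSpace X] {C : RCh V X} (H : HkT C) [MeasurableSpace V] [BorelSpace V]
  (μ : Measure V) [μ.IsAddHaarMeasure] [CompactSpace X]
  {κ : Type} [Fintype κ] [DecidableEq κ] (b : Module.Basis (κ × Fin 2) ℝ V) (P : RPart C)

theorem int_prim1 {w : F2 C} (h0 : ∀ x, ninX H (H.om 0) w x = 0) (k0 : κ) :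
    II μ b P (Function.update (fun _ => H.om 0) k0 w) = 0 := by
  have hc : (0 : ℝ) < Fintype.card κ := by exact_mod_cast Fintype.card_pos_iff.2 ⟨k0⟩
  unfold II intT
  refine Finset.sum_eq_zero fun k _ => ?_
  refine setIntegral_eq_zero_of_forall_eq_zero fun z hz => ?_
  have h2 := (pdH H hz).TP_nin b (J := H.J 0 (P.c k) z) (om := (H.om 0).w (P.c k) z)
    (w := w.w (P.c k) z) (H.J_sq 0 _ z hz) (H.om_eq 0 _ z hz) ((H.om 0).alt _ z hz)
    (w.alt _ z hz) k0
  rw [← ninX_eq H _ _ hz, h0, zero_mul] at h2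
  have h3 : TP b (Function.update (fun _ => (H.om 0).w (P.c k) z) k0 (w.w (P.c k) z)) = 0 := by
    rcases mul_eq_zero.1 h2 with h | h
    · linarith
    · exact h
  have h4 : (TopF.of b (Function.update (fun _ => H.om 0) k0 w)).D (P.c k) z =
      TP b (Function.update (fun _ => (H.om 0).w (P.c k) z) k0 (w.w (P.c k) z)) := by
    rw [TopF.of_D, upd_w]
  rw [h4, h3, mul_zero]

end zero

theorem mixv_one_upd {E : Type*} {n : ℕ} (hn : 1 ≤ n) (x y : E) :
    mixv (n + n) 1 x y = Function.update (fun _ => x) (⟨0, by omega⟩ : Fin (n + n)) y := by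
  funext i
  unfold mixv
  by_cases h : i = ⟨0, by omega⟩
  · subst h
    simp
  · rw [Function.update_of_ne h, if_neg]
    intro h1
    apply h
    ext
    simp only
    omega

theorem mixv_two_upd {E : Type*} {n : ℕ} (hn : 1 ≤ n) (x y : E) :
    mixv (n + n) 2 x y = Function.update (Function.update (fun _ => x)
      (⟨0, by omega⟩ : Fin (n + n)) y) (⟨1, by omega⟩ : Fin (n + n)) y := by
  funext i
  unfold mixv
  by_cases h : i = ⟨1, by omega⟩
  · subst h
    simp
  · rw [Function.update_of_ne h]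
    by_cases h2 : i = ⟨0, by omega⟩
    · subst h2
      simp
    · rw [Function.update_of_ne h2, if_neg]
      intro h1
      have h3 : (i : ℕ) = 0 ∨ (i : ℕ) = 1 := by omega
      rcases h3 with h3 | h3
      · exact h2 (Fin.ext h3)
      · exact h (Fin.ext h3)

variable {d n : ℕ} {M : Type} [TopologicalSpace M] {A : Atl d M} {K : Kah A}
  {H : HkT (ofAtl A)} (hA : Ad K H) (hd : d = n + n) (hn : 1 ≤ n) (P : RPart (ofAtl A))
  [CompactSpace M]

include hn in
theorem T_prim1 {ψ : F2 (ofAtl A)} (h0 : ∀ x, ninX H (H.om 0) ψ x = 0) :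
    IM (lc d) (bn hd) P (mixv (n + n) 1 (H.om 0) ψ) = 0 := by
  rw [mixv_one_upd hn]
  exact int_prim1 H (lc d) (bn hd) P h0 _

variable [MeasurableSpace M] [BorelSpace M] [Countable A.ι]

include hA in
theorem T_om : IM (lc d) (bn hd) P (fun _ => H.om 0) =
    2 ^ d * d.factorial * (vm (volK K)).real univ := by
  subst hd
  rw [bn_rfl]
  have h1 := intT_fT hA P (fun _ => 1) continuous_const
  rw [integral_const, smul_eq_mul, mul_one] at h1
  rw [← h1]
  show intT _ _ _ = intT _ _ _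
  unfold intT
  refine Finset.sum_congr rfl fun k _ => setIntegral_congr_fun
    ((ofAtl A).e (P.c k)).open_target.measurableSet fun z hz => ?_
  show _ = P.ψ k (((ofAtl A).e (P.c k)).symm z) *
    (1 * (TopF.of (bc (n + n)) fun _ => H.om 0).D (P.c k) z)
  rw [one_mul]

include hA hn in
theorem T_prim2 {ψ : F2 (ofAtl A)} (h11 : ∀ i, ∀ z ∈ (A.e i).target, ∀ u v,
      ψ.w i z (I • u) (I • v) = ψ.w i z u v) (h0 : ∀ x, ninX H (H.om 0) ψ x = 0) :
    2 * (d : ℝ) * ((d : ℝ) - 1) * IM (lc d) (bn hd) P (mixv (n + n) 2 (H.om 0) ψ) =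
      - (2 ^ d * d.factorial * ∫ x, nsX H ψ x ∂(vm (volK K))) := by
  subst hd
  rw [bn_rfl, mixv_two_upd hn]
  exact prim_int hA P h11 h0 (by simp [Fin.ext_iff])

end

end Crest.Agent.R281.Xi_831
end

-- ▼ part R281/Xi6_831
section

/-!
# Row 281, XI-L2 (helper831), the theorem

`Ctx n C Q`, `H : HkT C`, `MemK H A K σ h` : for every closed form `w` on `C` there is a closed form
`w'` on `ofAtl A` cohomologous to `h.F w` and a continuous function `F = |w'|² ≥ 0` with
`w'(u,v)² ≤ F |u|² |v|²` and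

  `∫ F dvol = 4 n (2 ∑ a_k² - Q(w,w)/Q(om₀,om₀)) vol(K)`, `a_k = Q(w,om_k)/Q(om₀,om₀)`.
-/

set_option autoImplicit false
set_option linter.unusedSectionVars false
set_option maxSynthPendingDepth 3

open Set Filter Topology MeasureTheory Complex
open scoped ContDiff Matrix ComplexConjugate ComplexOrder

namespace Crest.Agent.R281.Xi_831

open Crest.Agent.R281.HkR_835 Crest.Agent.R281.Ti_846
open Crest.Agent.R275.Geo Crest.Agent.R275.Core144
open Crest.Agent.R273.Defs_333 Crest.Agent.R273.Kah_333 Crest.Agent.R273.HM_333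
open Crest.Agent.R273.Vol_333 Crest.Agent.R273.Vm_333
open Crest.Agent.R281.FujP_513 (mixv Symm)
open Crest.Agent.R281.Fuj7_207 (bn bn_rfl)
open Crest.Agent.R281.FujSig_358 (first_polar' second_polar)
open Crest.Agent.R281.RkD_902 (Ctx)
open Crest.Agent.R281.Alg_998 (Cl)
open Crest.Agent.R281.Mem_69 (MemK)
open Crest.Agent.R281.Defs_273 (HSymp)
open Crest.Agent.R281.Nef_252 (T11)
open Crest.Agent.R281.Al_830 (TopI IsI)
open Crest.Agent.R281.Dif_268 (Eqv)

noncomputable section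

section gen

variable {X : Type} [TopologicalSpace X]

theorem eqv_exS {V : Type} [NormedAddCommGroup V] [NormedSpace ℝ V] [FiniteDimensional ℝ V]
    [MeasurableSpace V] [BorelSpace V] {C : RCh V X} {w w' : F2 C} (h : Eqv w w') : w - w' ∈ exS C :=
  Alg_998.Cl.of_eq_on fun i z hz =>
    ContinuousLinearMap.ext fun u => ContinuousLinearMap.ext fun v => h i z hz u v

theorem II_bn [CompactSpace X] {d n : ℕ} (hd : d = n + n) {C : RCh (Cn d) X} (P : RPart C)
    (w : F2 C) : II (lc d) (bn hd) P (fun _ => w) = II (lc d) (bc d) P (fun _ => w) := by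
  subst hd
  rw [bn_rfl]

variable {d : ℕ} {A : Atl d X} {K : Kah A} {C : RCh (Cn d) X} {H : HkT C} {σ : HSymp A}
  {h : Cmp C (ofAtl A)}

theorem MemK_isI (m : MemK H A K σ h) : IsI (NefO_476.ofHk H 0) A := fun i j _ hz v =>
  ((m.cp j).lin' (i := i) hz v).symm

theorem MemK_ad (m : MemK H A K σ h) : Ad K (h.hk H) :=
  ⟨fun i z hz => ContinuousLinearMap.ext fun u => ContinuousLinearMap.ext fun v =>
    m.om0 i z hz u v, fun i _ hz v => hk_J_I m.cp i hz v⟩

/-- the metric of the triple is the Kaehler metric -/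
theorem Ad.g_eq {H' : HkT (ofAtl A)} (hA : Ad K H') {i : A.ι} {x : X} (hx : x ∈ (A.e i).source)
    (u : Cn d) : H'.g i (A.e i x) u u = (hb (K.g i x) u u).re := by
  have hz : A.e i x ∈ (A.e i).target := (A.e i).map_source hx
  have h1 := H'.om_eq 0 i (A.e i x) hz (I • u) u
  rw [hA.J0 i _ hz, smul_smul, I_mul_I, hA.om0 i _ hz, (ofKah K).f2_w hz, (A.e i).left_inv hx,
    hb_I_left] at h1
  have h2 : H'.g i (A.e i x) ((-1 : ℂ) • u) u = - H'.g i (A.e i x) u u := by
    have : (-1 : ℂ) • u = -u := by simp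
    rw [this, map_neg, neg_apply]
  rw [h2, ← mul_assoc, I_mul_I] at h1
  have h3 : (ofKah K).g i x = K.g i x := rfl
  rw [h3, neg_one_mul, neg_re] at h1
  linarith

end gen

section main

variable {n : ℕ} {X : Type} [TopologicalSpace X] [CompactSpace X] [T2Space X] [ConnectedSpace X]
  [MeasurableSpace X] [BorelSpace X]
  {C : RCh (Cn (2 * n)) X} {Q : F2 C →ₗ[ℝ] F2 C →ₗ[ℝ] ℝ} (hX : Ctx n C Q) {H : HkT C}
  (hp : 0 < Q (H.om 0) (H.om 0)) {A : Atl (2 * n) X} [Finite A.ι] (PA : Part A) {K : Kah A}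
  {σ : HSymp A} {h : Cmp C (ofAtl A)} (m : MemK H A K σ h)

include hX hp PA m in
/-- **XI-L2** -/
theorem xi (w : F2 C) : ∃ w' : F2 (ofAtl A), w' - h.F w ∈ exS (ofAtl A) ∧
    (∀ x, 0 ≤ nsX (h.hk H) w' x) ∧ Continuous (nsX (h.hk H) w') ∧
    (∀ i, ∀ x ∈ (A.e i).source, ∀ u v, w'.w i (A.e i x) u v ^ 2 ≤
      nsX (h.hk H) w' x * (hb (K.g i x) u u).re * (hb (K.g i x) v v).re) ∧
    ∫ x, nsX (h.hk H) w' x ∂(vm (volK K)) =
      4 * n * (2 * ∑ k : Fin 3, (Q w (H.om k) / Q (H.om 0) (H.om 0)) ^ 2 -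
        Q w w / Q (H.om 0) (H.om 0)) * (vm (volK K)).real univ := by
  obtain ⟨P, q, κ, hκ, hT, hQ⟩ := hX.top
  obtain ⟨P'⟩ := nonempty_RPart (ofAtl A)
  have hn : 1 ≤ n := hX.n1
  have hd2 : 2 ≤ 2 * n := by omega
  have hA := MemK_ad m
  set H' := h.hk H with hH'
  set q0 := Q (H.om 0) (H.om 0) with hq0
  have hq00 : q0 ≠ 0 := hp.ne'
  -- the form `q`
  have hqq : ∀ x, Q x x = 2 * κ * q x := fun x => by
    rw [hQ, QuadraticMap.polar_self, nsmul_eq_mul]
    push_cast
    ring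
  have hqp : 0 < q (H.om 0) := by
    have h1 : 0 < 2 * κ * q (H.om 0) := by rw [← hqq]; exact hp
    exact pos_of_mul_pos_right h1 (by positivity)
  -- orientation
  have hII : 0 < II (lc (2 * n)) (bc (2 * n)) P (fun _ => H.om 0) := by
    rw [← II_bn (two_mul n)]
    have := hT.fuj (H.om 0)
    rw [IM_apply] at this
    rw [this]
    exact pow_pos hqp n
  have ho := m.oriM hT.ori P hII
  have hTC : ∀ (v : Fin (n + n) → F2 C), IM (lc (2 * n)) (bn (two_mul n)) P' (fun k => h.F (v k)) =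
      IM (lc (2 * n)) (bn (two_mul n)) P v := fun v =>
    II_cmp (lc (2 * n)) (bn (two_mul n)) h ho P P' v
  have hS : Symm (IM (lc (2 * n)) (bn (two_mul n)) P) := fun s v => IM_perm _ _ _ s v
  -- coefficients
  set a : Fin 3 → ℝ := fun k => Q w (H.om k) / q0 with ha
  set w1 : F2 C := w - (a 0 • H.om 0 + a 1 • H.om 1 + a 2 • H.om 2) with hw1
  have hQe : ∀ k, Q (H.om k) (H.om k) = q0 := fun k => hX.eq H k
  have hQo : ∀ k l, k ≠ l → Q (H.om k) (H.om l) = 0 := fun k l hkl => hX.ort H k l hkl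
  have hak : ∀ k, Q w (H.om k) = a k * q0 := fun k => by rw [ha]; field_simp
  have hw1k : ∀ k, Q w1 (H.om k) = 0 := by
    intro k
    rw [hw1]
    simp only [map_sub, map_add, map_smul, LinearMap.sub_apply, LinearMap.add_apply,
      LinearMap.smul_apply, smul_eq_mul]
    rw [hak]
    fin_cases k
    · show a 0 * q0 - (a 0 * Q (H.om 0) (H.om 0) + a 1 * Q (H.om 1) (H.om 0) +
        a 2 * Q (H.om 2) (H.om 0)) = 0
      rw [hQe, hQo 1 0 (by decide), hQo 2 0 (by decide)]; ring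
    · show a 1 * q0 - (a 0 * Q (H.om 0) (H.om 1) + a 1 * Q (H.om 1) (H.om 1) +
        a 2 * Q (H.om 2) (H.om 1)) = 0
      rw [hQe, hQo 0 1 (by decide), hQo 2 1 (by decide)]; ring
    · show a 2 * q0 - (a 0 * Q (H.om 0) (H.om 2) + a 1 * Q (H.om 1) (H.om 2) +
        a 2 * Q (H.om 2) (H.om 2)) = 0
      rw [hQe, hQo 0 2 (by decide), hQo 1 2 (by decide)]; ring
  obtain ⟨y, hy, hy11⟩ := hX.t11 H hp w1 (hw1k 1) (hw1k 2)
  obtain ⟨a', ψ, hψ11, hψ0, hψe⟩ := exists_prim hA PA hd2 (h.F y)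
    ((MemK_isI m).t11 h hy11)
  -- back on `C`
  set ψ0 : F2 C := h.symm.F ψ with hψ0'
  have hψψ : Eqv (h.F ψ0) ψ := F_F h.symm ψ
  have hyC : Cl y (a' • H.om 0 + ψ0) := by
    have h1 : Ex (h.symm.F (h.F y - (a' • H'.om 0 + ψ))) := ex_F h.symm hψe
    have e1 : Eqv (h.symm.F (h.F y - (a' • H'.om 0 + ψ)))
        (h.symm.F (h.F y) - h.symm.F (a' • H'.om 0 + ψ)) := F_sub h.symm _ _
    have e2 : Eqv (h.symm.F (a' • H'.om 0 + ψ)) (a' • H.om 0 + ψ0) := by
      intro i z hz u v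
      obtain ⟨j, hj⟩ := Cmp.exists_mov (C' := C) (ofAtl A) (j := i) hz
      have e3 := F_F h (H.om 0) i z hz u v
      rw [h.symm.F_w _ hj] at e3 ⊢
      have e4 : (a' • H.om 0 + ψ0).w i z u v = a' * (H.om 0).w i z u v + ψ0.w i z u v := rfl
      rw [e4, hψ0', h.symm.F_w ψ hj, ← e3]
      rfl
    have e3 : Cl (h.symm.F (h.F y)) y := eqv_exS (F_F h y)
    have e4 : Cl (h.symm.F (a' • H'.om 0 + ψ)) (a' • H.om 0 + ψ0) := eqv_exS e2
    have e5 : Cl (h.symm.F (h.F y)) (h.symm.F (a' • H'.om 0 + ψ)) := by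
      have e6 : Cl (h.symm.F (h.F y - (a' • H'.om 0 + ψ)))
        (h.symm.F (h.F y) - h.symm.F (a' • H'.om 0 + ψ)) := eqv_exS e1
      have e7 := (exS C).sub_mem h1 e6
      have e8 : h.symm.F (h.F y - (a' • H'.om 0 + ψ)) - (h.symm.F (h.F y - (a' • H'.om 0 + ψ)) -
        (h.symm.F (h.F y) - h.symm.F (a' • H'.om 0 + ψ))) =
        h.symm.F (h.F y) - h.symm.F (a' • H'.om 0 + ψ) := by abel
      rw [e8] at e7
      exact e7
    exact (e3.symm.trans e5).trans e4
  -- intersection numbers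
  have hmix : ∀ c : ℕ, IM (lc (2 * n)) (bn (two_mul n)) P (mixv (n + n) c (H.om 0) ψ0) =
      IM (lc (2 * n)) (bn (two_mul n)) P' (mixv (n + n) c (H'.om 0) ψ) := by
    intro c
    rw [← hTC]
    refine IM_coh _ _ _ (ori_ofAtl A) fun k => ?_
    unfold mixv
    split_ifs
    · exact eqv_exS hψψ
    · exact eqv_exS (Eqv.refl (h.F (H.om 0)))
  have hpol : QuadraticMap.polar q (H.om 0) ψ0 = 0 := by
    have h1 := first_polar' (by omega) hS hT.fuj (H.om 0) ψ0
    rw [hmix, T_prim1 (two_mul n) hn P' hψ0, mul_zero] at h1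
    exact (mul_eq_zero.1 h1.symm).resolve_left (pow_pos hqp _).ne'
  have hQ0 : Q (H.om 0) ψ0 = 0 := by rw [hQ, hpol, mul_zero]
  have hQy : ∀ k, Q y (H.om k) = 0 := fun k => by rw [hX.cl_left hy]; exact hw1k k
  have ha' : a' = 0 := by
    have h1 := hQy 0
    rw [hX.cl_left hyC] at h1
    simp only [map_add, map_smul, LinearMap.add_apply, LinearMap.smul_apply, smul_eq_mul] at h1
    rw [hX.symm ψ0 (H.om 0), hQ0, add_zero] at h1
    exact (mul_eq_zero.1 h1).resolve_right hq00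
  subst ha'
  have hyC' : Cl y ψ0 := by rw [zero_smul, zero_add] at hyC; exact hyC
  have hψe' : h.F y - ψ ∈ exS (ofAtl A) := by rw [zero_smul, zero_add] at hψe; exact hψe
  have hψk : ∀ k, Q ψ0 (H.om k) = 0 := fun k => by rw [← hX.cl_left hyC']; exact hQy k
  have hwC : Cl w (a 0 • H.om 0 + a 1 • H.om 1 + a 2 • H.om 2 + ψ0) := by
    have h1 : Cl w1 ψ0 := hy.symm.trans hyC'
    have h2 := (Alg_998.Cl.refl (a 0 • H.om 0 + a 1 • H.om 1 + a 2 • H.om 2)).add h1
    have h3 : a 0 • H.om 0 + a 1 • H.om 1 + a 2 • H.om 2 + w1 = w := by rw [hw1]; abel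
    rw [h3] at h2
    exact h2
  have hww : Q w w = (∑ k : Fin 3, a k ^ 2) * q0 + Q ψ0 ψ0 := by
    rw [hX.cl_cl hwC hwC, Fin.sum_univ_three]
    simp only [map_add, map_smul, LinearMap.add_apply, LinearMap.smul_apply, smul_eq_mul]
    rw [hψk, hψk, hψk, hX.symm (H.om 0) ψ0, hX.symm (H.om 1) ψ0, hX.symm (H.om 2) ψ0, hψk, hψk,
      hψk, hQe 0, hQe 1, hQe 2, hQo 0 1 (by decide), hQo 0 2 (by decide), hQo 1 0 (by decide),
      hQo 1 2 (by decide), hQo 2 0 (by decide), hQo 2 1 (by decide)]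
    ring
  -- the representative
  set w' : F2 (ofAtl A) := a 0 • H'.om 0 + a 1 • H'.om 1 + a 2 • H'.om 2 + ψ with hw'
  have hns : ∀ x, nsX H' w' x = (a 0 ^ 2 + a 1 ^ 2 + a 2 ^ 2) * (2 * ((2 * n : ℕ) : ℝ)) +
      nsX H' ψ x := fun x => by
    rw [hw', nsX_rep H' (hA.inv0 hψ11) hψ0, finrank_Cn]
  refine ⟨w', ?_, nsX_nonneg H' w', nsX_cont H' w', ?_, ?_⟩
  · -- cohomology
    have e1 : Eqv (h.F w) (a 0 • H'.om 0 + a 1 • H'.om 1 + a 2 • H'.om 2 + h.F w1) := by
      intro j z hz u v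
      obtain ⟨i, hi⟩ := Cmp.exists_mov (C' := ofAtl A) C (j := j) hz
      have e2 : (a 0 • H'.om 0 + a 1 • H'.om 1 + a 2 • H'.om 2 + h.F w1).w j z u v =
        a 0 * (h.F (H.om 0)).w j z u v + a 1 * (h.F (H.om 1)).w j z u v +
          a 2 * (h.F (H.om 2)).w j z u v + (h.F w1).w j z u v := rfl
      rw [e2, h.F_w _ hi, h.F_w _ hi, h.F_w _ hi, h.F_w _ hi, h.F_w _ hi]
      have e3 : ∀ u v, w1.w i (mt C (ofAtl A) i j z) u v = w.w i (mt C (ofAtl A) i j z) u v -
        (a 0 * (H.om 0).w i (mt C (ofAtl A) i j z) u v +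
        a 1 * (H.om 1).w i (mt C (ofAtl A) i j z) u v +
        a 2 * (H.om 2).w i (mt C (ofAtl A) i j z) u v) := fun _ _ => rfl
      rw [e3]
      ring
    have e4 : h.F w1 - h.F y ∈ exS (ofAtl A) := by
      have h1 : Ex (w1 - y) := hy.symm
      have h2 := ex_F h h1
      have h3 := (exS (ofAtl A)).sub_mem h2 (eqv_exS (F_sub h w1 y))
      rw [sub_sub_cancel] at h3
      exact h3
    have e5 := (exS (ofAtl A)).add_mem (eqv_exS e1) ((exS (ofAtl A)).add_mem e4 hψe')
    have e6 : w' - h.F w = -(h.F w - (a 0 • H'.om 0 + a 1 • H'.om 1 + a 2 • H'.om 2 + h.F w1) +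
        (h.F w1 - h.F y + (h.F y - ψ))) := by
      rw [hw']; abel
    rw [e6]
    exact (exS (ofAtl A)).neg_mem e5
  · intro i x hx u v
    have hz : A.e i x ∈ (A.e i).target := (A.e i).map_source hx
    have h1 := nsX_bound H' w' (i := i) (z := A.e i x) hz u v
    have h2 : ((ofAtl A).e i).symm (A.e i x) = x := (A.e i).left_inv hx
    rw [h2, hA.g_eq hx, hA.g_eq hx] at h1
    exact h1
  · have hc : Countable A.ι := inferInstance
    have hfin := isFinite_vm (volK K)
    have hint : Integrable (nsX H' ψ) (vm (volK K)) :=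
      (nsX_cont H' ψ).integrable_of_hasCompactSupport (HasCompactSupport.of_compactSpace _)
    have h1 : ∫ x, nsX H' w' x ∂(vm (volK K)) = (a 0 ^ 2 + a 1 ^ 2 + a 2 ^ 2) *
        (2 * ((2 * n : ℕ) : ℝ)) * (vm (volK K)).real univ + ∫ x, nsX H' ψ x ∂(vm (volK K)) := by
      simp only [hns]
      rw [integral_add (integrable_const _) hint, integral_const, smul_eq_mul]
      ring
    have h2 := T_prim2 hA (two_mul n) hn P' hψ11 hψ0
    rw [← hmix] at h2
    have h3 := second_polar (by omega) hS hT.fuj (H.om 0) ψ0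
    rw [hpol] at h3
    have h4 := T_om hA (two_mul n) P'
    have h5 : IM (lc (2 * n)) (bn (two_mul n)) P' (fun _ => H'.om 0) = q (H.om 0) ^ n := by
      rw [← hT.fuj, ← hTC]
      rfl
    rw [h5] at h4
    set Vv := (vm (volK K)).real univ with hV
    set S := ∫ x, nsX H' ψ x ∂(vm (volK K)) with hSS
    set T2 := IM (lc (2 * n)) (bn (two_mul n)) P (mixv (n + n) 2 (H.om 0) ψ0) with hT2
    have hnr : (1 : ℝ) ≤ n := by exact_mod_cast hn
    have h6 : 2 * (2 * (n : ℝ) - 1) * T2 = 2 * q (H.om 0) ^ (n - 1) * q ψ0 := by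
      rw [h3]; ring
    have h7 : q (H.om 0) ^ n = q (H.om 0) ^ (n - 1) * q (H.om 0) := by
      rw [← pow_succ]
      congr 1
      omega
    have hf : (0 : ℝ) < 2 ^ (2 * n) * (2 * n).factorial := by
      have : (0 : ℝ) < (2 * n).factorial := by exact_mod_cast Nat.factorial_pos _
      positivity
    have h8 : (2 ^ (2 * n) * ((2 * n).factorial : ℝ)) * (q (H.om 0) * S) =
        (2 ^ (2 * n) * ((2 * n).factorial : ℝ)) * (- (4 * n * Vv * q ψ0)) := by
      push_cast at h2
      have h9 : (2 ^ (2 * n) * ((2 * n).factorial : ℝ)) * S =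
        - (2 * (n : ℝ) * (2 * q (H.om 0) ^ (n - 1) * q ψ0)) := by
        rw [← h6]
        linear_combination h2
      calc (2 ^ (2 * n) * ((2 * n).factorial : ℝ)) * (q (H.om 0) * S)
          = q (H.om 0) * ((2 ^ (2 * n) * ((2 * n).factorial : ℝ)) * S) := by ring
        _ = - (4 * n * (q (H.om 0) ^ (n - 1) * q (H.om 0)) * q ψ0) := by rw [h9]; ring
        _ = _ := by rw [← h7, h4]; ring
    have h10 := mul_left_cancel₀ hf.ne' h8
    have h11 : S = - (4 * n * Vv * (Q ψ0 ψ0 / q0)) := by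
      have e1 : Q ψ0 ψ0 / q0 = q ψ0 / q (H.om 0) := by
        rw [hq0, hqq, hqq, mul_div_mul_left _ _ (by positivity)]
      rw [e1]
      field_simp
      linarith
    rw [h1, h11, Fin.sum_univ_three]
    have h12 : Q w w / q0 = (a 0 ^ 2 + a 1 ^ 2 + a 2 ^ 2) + Q ψ0 ψ0 / q0 := by
      rw [hww, Fin.sum_univ_three]
      field_simp
    have h13 : ∀ k, Q w (H.om k) / q0 = a k := fun k => rfl
    rw [h12, h13, h13, h13]
    push_cast
    ring

end main

end

end Crest.Agent.R281.Xi_831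
end

-- ▼ part R281/Xi7_831

/-!
# Row 281, XI-L2 (helper831), part 7: uniform bounds along the end

* `xi_ray` : for finitely many classes `b k` orthogonal to `e` and members over `τ`, `|Re τ| ≤ B`,
  `1 ≤ Im τ`, the representatives satisfy `∑ |b' k|² ≤ C0 vol` with `C0` independent of `τ`
-/

set_option autoImplicit false
set_option linter.unusedSectionVars false
set_option maxSynthPendingDepth 3

open Set Filter Topology MeasureTheory Complex
open scoped ContDiff Matrix ComplexConjugate ComplexOrder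

namespace Crest.Agent.R281.Xi_831

open Crest.Agent.R281.HkR_835 Crest.Agent.R281.Ti_846
open Crest.Agent.R275.Geo Crest.Agent.R275.Core144
open Crest.Agent.R273.Defs_333 Crest.Agent.R273.Kah_333 Crest.Agent.R273.HM_333
open Crest.Agent.R273.Vol_333 Crest.Agent.R273.Vm_333
open Crest.Agent.R281.RkD_902 (Ctx)
open Crest.Agent.R281.Alg_998 (Cl Frm AtTau)
open Crest.Agent.R281.Mem_69 (MemK)
open Crest.Agent.R281.Defs_273 (HSymp)

noncomputable section

variable {n : ℕ} {X : Type} [TopologicalSpace X] [CompactSpace X]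
  {C : RCh (Cn (2 * n)) X} {Q : F2 C →ₗ[ℝ] F2 C →ₗ[ℝ] ℝ} (hX : Ctx n C Q) (F : Frm C Q)

section alg

include hX

theorem Q_S (w : F2 C) (τ : ℂ) : Q w (F.sre τ) = Q w F.es + τ.re * Q w F.v -
    (F.N / 2 * (τ.re ^ 2 - τ.im ^ 2)) * Q w F.e := by
  unfold Alg_998.Frm.sre
  simp only [map_sub, map_add, map_smul, smul_eq_mul]

theorem Q_T (w : F2 C) (τ : ℂ) : Q w (F.sim τ) = τ.im * Q w F.v -
    (F.N * (τ.re * τ.im)) * Q w F.e := by
  unfold Alg_998.Frm.sim
  simp only [map_sub, map_smul, smul_eq_mul]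

theorem Q_SS (τ : ℂ) : Q (F.sre τ) (F.sre τ) = F.N * τ.im ^ 2 := by
  rw [Q_S hX, hX.symm (F.sre τ) F.es, hX.symm (F.sre τ) F.v, hX.symm (F.sre τ) F.e, Q_S hX, Q_S hX,
    Q_S hX, F.es_es, F.es_v, F.es_e, F.v_v, F.e_e, F.e_v, hX.symm F.v F.es, F.es_v,
    hX.symm F.v F.e, F.e_v, hX.symm F.e F.es, F.es_e]
  ring

theorem Q_TT (τ : ℂ) : Q (F.sim τ) (F.sim τ) = F.N * τ.im ^ 2 := by
  rw [Q_T hX, hX.symm (F.sim τ) F.v, hX.symm (F.sim τ) F.e, Q_T hX, Q_T hX, F.v_v, F.e_e, F.e_v,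
    hX.symm F.v F.e, F.e_v]
  ring

theorem Q_ST (τ : ℂ) : Q (F.sre τ) (F.sim τ) = 0 := by
  rw [Q_T hX, hX.symm (F.sre τ) F.v, hX.symm (F.sre τ) F.e, Q_S hX, Q_S hX, F.v_v, F.e_e, F.e_v,
    hX.symm F.v F.e, F.e_v, hX.symm F.v F.es, F.es_v, hX.symm F.e F.es, F.es_e]
  ring

/-- the normalisation `|z|² N y² = Q(A,A)` -/
theorem at_norm {A : F2 C} {H : HkT C} {τ : ℂ} (h : AtTau F A H τ) :
    Q (H.om 0) (H.om 0) = Q A A ∧ ∃ z : ℂ, normSq z * (F.N * τ.im ^ 2) = Q A A ∧
      (∀ w, Q w F.e = 0 → Q w (H.om 1) = z.re * (Q w F.es + τ.re * Q w F.v) -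
        z.im * (τ.im * Q w F.v)) ∧
      (∀ w, Q w F.e = 0 → Q w (H.om 2) = z.im * (Q w F.es + τ.re * Q w F.v) +
        z.re * (τ.im * Q w F.v)) := by
  obtain ⟨z, hz, h1, h2⟩ := h.om12
  have h0 : Q (H.om 0) (H.om 0) = Q A A := hX.cl_cl h.om0 h.om0
  have hST := Q_ST hX F τ
  have hTS : Q (F.sim τ) (F.sre τ) = 0 := by rw [hX.symm]; exact hST
  refine ⟨h0, z, ?_, fun w hw => ?_, fun w hw => ?_⟩
  · have h3 := hX.eq H 1
    rw [h0, hX.cl_cl h1 h1] at h3
    simp only [map_sub, map_smul, LinearMap.sub_apply, LinearMap.smul_apply, smul_eq_mul] at h3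
    rw [hST, hTS, Q_SS hX, Q_TT hX] at h3
    rw [normSq_apply]
    linarith
  · rw [hX.cl_right h1]
    simp only [map_sub, map_smul, smul_eq_mul]
    rw [Q_S hX, Q_T hX, hw]
    ring
  · rw [hX.cl_right h2]
    simp only [map_add, map_smul, smul_eq_mul]
    rw [Q_S hX, Q_T hX, hw]
    ring

/-- the constant for one class -/
def Cw (F : Frm C Q) (A w : F2 C) (B : ℝ) : ℝ :=
  4 * n * (2 * ((Q w A / Q A A) ^ 2 + (2 * Q w F.es ^ 2 + (2 * B ^ 2 + 1) * Q w F.v ^ 2) /
    (F.N * Q A A)) + |Q w w| / Q A A)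

theorem coef_le {A : F2 C} (hAA : 0 < Q A A) {B : ℝ} {w : F2 C} (hw : Q w F.e = 0) {H : HkT C}
    {τ : ℂ} (h : AtTau F A H τ) (hre : |τ.re| ≤ B) (him : 1 ≤ τ.im) :
    4 * n * (2 * ∑ k : Fin 3, (Q w (H.om k) / Q (H.om 0) (H.om 0)) ^ 2 -
        Q w w / Q (H.om 0) (H.om 0)) ≤ Cw F A w B := by
  obtain ⟨h0, z, hz, h1, h2⟩ := at_norm hX F h
  rw [h0, Fin.sum_univ_three, h1 w hw, h2 w hw, hX.cl_right h.om0]
  unfold Cw
  have hN := F.hN
  set a := Q w F.es
  set b := Q w F.v
  set q := Q A A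
  have hy : 0 < τ.im := by linarith
  have hx2 : τ.re ^ 2 ≤ B ^ 2 := sq_le_sq' (by linarith [abs_le.1 hre]) (abs_le.1 hre).2
  have hy2 : (1 : ℝ) ≤ τ.im ^ 2 := by nlinarith
  have e1 : ((z.re * (a + τ.re * b) - z.im * (τ.im * b)) / q) ^ 2 +
      ((z.im * (a + τ.re * b) + z.re * (τ.im * b)) / q) ^ 2 =
      normSq z * ((a + τ.re * b) ^ 2 + (τ.im * b) ^ 2) / q ^ 2 := by
    rw [normSq_apply]
    field_simp
    ring
  have hz' : normSq z = q / (F.N * τ.im ^ 2) := by
    rw [eq_div_iff (by positivity)]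
    exact hz
  have e2 : (a + τ.re * b) ^ 2 + (τ.im * b) ^ 2 ≤
      τ.im ^ 2 * (2 * a ^ 2 + (2 * B ^ 2 + 1) * b ^ 2) := by
    have h3 : (a + τ.re * b) ^ 2 ≤ 2 * a ^ 2 + 2 * (τ.re ^ 2 * b ^ 2) := by
      nlinarith [sq_nonneg (a - τ.re * b)]
    have h4 : τ.re ^ 2 * b ^ 2 ≤ B ^ 2 * b ^ 2 := mul_le_mul_of_nonneg_right hx2 (sq_nonneg b)
    have h5 : 2 * a ^ 2 + 2 * (B ^ 2 * b ^ 2) ≤ τ.im ^ 2 * (2 * a ^ 2 + 2 * (B ^ 2 * b ^ 2)) := by
      have h6 : 0 ≤ 2 * a ^ 2 + 2 * (B ^ 2 * b ^ 2) := by positivity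
      nlinarith
    nlinarith
  have e3 : normSq z * ((a + τ.re * b) ^ 2 + (τ.im * b) ^ 2) / q ^ 2 ≤
      (2 * a ^ 2 + (2 * B ^ 2 + 1) * b ^ 2) / (F.N * q) := by
    rw [hz', div_mul_eq_mul_div, div_div, div_le_div_iff₀ (by positivity) (by positivity)]
    have h7 : 0 < q * (F.N * q) := by positivity
    nlinarith [mul_le_mul_of_nonneg_left e2 h7.le]
  have e4 : -(Q w w / q) ≤ |Q w w| / q := by
    rw [← neg_div]
    exact div_le_div_of_nonneg_right (neg_le_abs _) hAA.le
  have hn0 : (0 : ℝ) ≤ 4 * n := by positivity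
  refine mul_le_mul_of_nonneg_left ?_ hn0
  linarith

theorem Cw_nonneg {A : F2 C} (hAA : 0 < Q A A) (w : F2 C) (B : ℝ) : 0 ≤ Cw F A w B := by
  unfold Cw
  have hN := F.hN
  positivity

end alg

variable [T2Space X] [ConnectedSpace X] [MeasurableSpace X] [BorelSpace X]

include hX in
/-- **uniform bounds along the end** -/
theorem xi_ray {A : F2 C} (hAA : 0 < Q A A) {κ : Type} [Fintype κ] (b : κ → F2 C)
    (hbe : ∀ k, Q (b k) F.e = 0) (B : ℝ) : ∃ C0 : ℝ, 0 < C0 ∧ ∀ (τ : ℂ), |τ.re| ≤ B → 1 ≤ τ.im →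
    ∀ H : HkT C, AtTau F A H τ → ∀ (A' : Atl (2 * n) X) [Finite A'.ι], Part A' →
    ∀ (K : Kah A') (σ : HSymp A') (h : Cmp C (ofAtl A')), MemK H A' K σ h →
    ∃ b' : κ → F2 (ofAtl A'), (∀ k, b' k - h.F (b k) ∈ exS (ofAtl A')) ∧
      ∃ Fn : X → ℝ, Continuous Fn ∧ (∀ x, 0 ≤ Fn x) ∧
        (∀ k i, ∀ x ∈ (A'.e i).source, ∀ u v, (b' k).w i (A'.e i x) u v ^ 2 ≤
          Fn x * ((hb (K.g i x) u u).re * (hb (K.g i x) v v).re)) ∧
        ∫ x, Fn x ∂(vm (volK K)) ≤ C0 * (vm (volK K)).real univ := by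
  classical
  refine ⟨1 + ∑ k, Cw F A (b k) B, ?_, ?_⟩
  · have : 0 ≤ ∑ k, Cw F A (b k) B := Finset.sum_nonneg fun k _ => Cw_nonneg hX F hAA _ _
    linarith
  intro τ hre him H hH A' hfin PA K σ h m
  have hp : 0 < Q (H.om 0) (H.om 0) := by rw [(at_norm hX F hH).1]; exact hAA
  choose b' h1 h2 h3 h4 h5 using fun k => xi hX hp PA m (b k)
  refine ⟨b', h1, fun x => ∑ k, nsX (h.hk H) (b' k) x, continuous_finsetSum _ fun k _ => h3 k,
    fun x => Finset.sum_nonneg fun k _ => h2 k x, fun k i x hx u v => ?_, ?_⟩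
  · have hA := MemK_ad m
    have hz : A'.e i x ∈ (A'.e i).target := (A'.e i).map_source hx
    have hg : ∀ u, 0 ≤ (hb (K.g i x) u u).re := fun u => by
      rw [← hA.g_eq hx]
      exact (pdH (h.hk H) (i := i) (z := A'.e i x) hz).nonneg u
    refine (h4 k i x hx u v).trans ?_
    rw [mul_assoc]
    refine mul_le_mul_of_nonneg_right ?_ (mul_nonneg (hg u) (hg v))
    exact Finset.single_le_sum (f := fun k => nsX (h.hk H) (b' k) x) (fun k _ => h2 k x)
      (Finset.mem_univ k)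
  · have hc : Countable A'.ι := inferInstance
    have hfm := isFinite_vm (volK K)
    have hint : ∀ k, Integrable (nsX (h.hk H) (b' k)) (vm (volK K)) := fun k =>
      (h3 k).integrable_of_hasCompactSupport (HasCompactSupport.of_compactSpace _)
    rw [integral_finsetSum _ fun k _ => hint k]
    have hV : 0 ≤ (vm (volK K)).real univ := measureReal_nonneg
    have e1 : ∑ k, ∫ x, nsX (h.hk H) (b' k) x ∂(vm (volK K)) ≤
        ∑ k, Cw F A (b k) B * (vm (volK K)).real univ := by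
      refine Finset.sum_le_sum fun k _ => ?_
      rw [h5 k]
      exact mul_le_mul_of_nonneg_right (coef_le hX F hAA (hbe k) hH hre him) hV
    rw [← Finset.sum_mul] at e1
    nlinarith

end

end Crest.Agent.R281.Xi_831
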