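import Crest.Agent.R281.Nef4_252
import Crest.Agent.R281.Cdr6_234

/-!
# Row 281, MEM-LB (helper252): line bundles of integral classes at the members

* `cp_of_hol`   : an atlas holomorphically equivalent to a holomorphic atlas of `J` is one
* `lef_class`   : Lefschetz (1,1) at `(X, J)`: an integral class with a (1,1)-representative is
  the Chern class of a line bundle on a good finite holomorphic atlas of `J`
* `mem_lb`      : if moreover the class is nef (`NefC`) the bundle is `NefW`, and `NonFlat` if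
  the class is not exact
* `mem_lb_hk`   : the same for `H : HkT C`
-/

set_option autoImplicit false
set_option maxSynthPendingDepth 3
set_option linter.unusedSectionVars false

open Set Filter Topology Complex
open scoped ContDiff Matrix ComplexConjugate ComplexOrder

namespace Crest.Agent.R281.Nef_252

open Crest.Agent.R275.Geo Crest.Agent.R275.Core144 Crest.Agent.R275.EDR890
open Crest.Agent.R275.GC293
open Crest.Agent.R273.Kah_333 Crest.Agent.R273.Hess_333 Crest.Agent.R273.HessB_333
open Crest.Agent.R273.Defs_333 Crest.Agent.R273.HM_333 Crest.Agent.R273.Vol_333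
open Crest.Agent.R273.Map_835 (HolMap dm Jp mem_dm rd)
open Crest.Agent.R281.Defs_273
open Crest.Agent.R260.ACM_580 Crest.Agent.R260.NNB_580
open Crest.Agent.R281.HkR_835 Crest.Agent.R281.Ti_846
open Crest.Agent.R281.NefO_476 Crest.Agent.R281.Dif_268
open Crest.Agent.R281.Cdr_234 (Cls IntF RatF c1F cmp_of_hol pull_f2 lefschetz Cls.cmp_F)

noncomputable section

variable {V X : Type} [NormedAddCommGroup V] [NormedSpace ℝ V] [TopologicalSpace X]
  {d : ℕ}

theorem cp_of_hol {B : ACM V X} {A A' : Atl d X} (hA : Cp B A) (h : HolMap A' A id)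
    (h' : HolMap A A' id) : Cp B A' := by
  have hc := cmp_of_hol h h'
  intro k
  -- the chart `k` of `A'` through the chart `a` of `A`, in the real chart `i`
  have key : ∀ (i : B.ι) (z : V), z ∈ ovr B i (A'.e k) → ∃ a : A.ι, z ∈ ovr B i (A.e a) ∧
      A.e a ((B.e i).symm z) ∈ dm A A' id a k ∧
      (fun y => A'.e k ((B.e i).symm y)) =ᶠ[𝓝 z]
        fun y => rd A A' id a k (A.e a ((B.e i).symm y)) := by
    intro i z hz
    obtain ⟨a, ha⟩ := A.cover ((B.e i).symm z)
    refine ⟨a, ⟨hz.1, ha⟩, mem_dm ha hz.2, ?_⟩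
    filter_upwards [(isOpen_ovr i (A.e a)).mem_nhds ⟨hz.1, ha⟩] with y hy
    show _ = A'.e k ((A.e a).symm (A.e a ((B.e i).symm y)))
    rw [(A.e a).left_inv hy.2]
  refine ⟨fun i z hz => ?_, fun i z hz => ?_, fun i z hz v => ?_⟩
  · obtain ⟨a, h1, h2, h3⟩ := key i z hz
    have e1 : ContDiffAt ℝ ∞ (fun y => A.e a ((B.e i).symm y)) z :=
      ((hA a).sm i).contDiffAt ((isOpen_ovr i (A.e a)).mem_nhds h1)
    have e2 : ContDiffAt ℝ ∞ (rd A A' id a k) (A.e a ((B.e i).symm z)) :=
      (hc.s' a k).contDiffAt ((h'.isOpen_dm a k).mem_nhds h2)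
    exact ((e2.comp z e1).congr_of_eventuallyEq h3).contDiffWithinAt
  · -- `B.e i ∘ (A'.e k).symm`
    obtain ⟨a, ha⟩ := A.cover ((A'.e k).symm z)
    have h2 : z ∈ dm A' A id k a := ⟨hz.1, ha⟩
    have e2 : ContDiffAt ℝ ∞ (rd A' A id k a) z :=
      (hc.s a k).contDiffAt ((h.isOpen_dm k a).mem_nhds h2)
    have hv : (A.e a).symm (rd A' A id k a z) = (A'.e k).symm z := (A.e a).left_inv ha
    have h4 : rd A' A id k a z ∈ ovc B i (A.e a) :=
      ⟨(A.e a).map_source ha, by rw [hv]; exact hz.2⟩
    have e1 : ContDiffAt ℝ ∞ (fun y => B.e i ((A.e a).symm y)) (rd A' A id k a z) :=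
      ((hA a).sm' i).contDiffAt ((isOpen_ovc i (A.e a)).mem_nhds h4)
    have h3 : (fun y => B.e i ((A'.e k).symm y)) =ᶠ[𝓝 z]
        fun y => B.e i ((A.e a).symm (rd A' A id k a y)) := by
      filter_upwards [(h.isOpen_dm k a).mem_nhds h2] with y hy
      have : (A.e a).symm (rd A' A id k a y) = (A'.e k).symm y := (A.e a).left_inv hy.2
      rw [this]
    exact ((e1.comp z e2).congr_of_eventuallyEq h3).contDiffWithinAt
  · obtain ⟨a, h1, h2, h3⟩ := key i z hz
    have e2 : HasFDerivAt (rd A A' id a k) ((fderiv ℂ (rd A A' id a k)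
        (A.e a ((B.e i).symm z))).restrictScalars ℝ) (A.e a ((B.e i).symm z)) :=
      (h'.diffAt h2).hasFDerivAt.restrictScalars ℝ
    have e3 := e2.comp z ((hA a).diffAt h1).hasFDerivAt
    have e4 := (e3.congr_of_eventuallyEq h3).fderiv
    rw [e4]
    simp only [ContinuousLinearMap.comp_apply, ContinuousLinearMap.coe_restrictScalars']
    rw [(hA a).lin i z h1, map_smul]

variable {C : RCh V X}


/-- exactness in the atlas and in the real charts -/
theorem ex_cmp_F {V' : Type} [NormedAddCommGroup V'] [NormedSpace ℝ V'] {C' : RCh V' X}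
    (h : Cmp C C') (w : F2 C) : Ex (h.F w) ↔ Ex w := by
  have hb := bi_cmp h
  constructor
  · intro he
    have h1 := (SMap.ofCmp h.symm).ex_pull ((cmp_F h w).symm.ex he)
    exact (hb.pull_pull w).ex h1
  · intro he
    exact (cmp_F h w).symm.ex ((SMap.ofCmp h).ex_pull he)




end

end Crest.Agent.R281.Nef_252
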