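import Crest.Agent.R281.Aga1_581
import Crest.Agent.R281.Blk6_592
import Crest.Agent.R281.Pt3_313
import Crest.Agent.R281.Ehr13_268
import Crest.Agent.R281.Lf3_830
import Crest.Agent.R281.NefM_252
import Crest.Agent.R281.HkM1_835

-- ▼ part R281/Aga2_581
section

/-!
# R281 (S0424), DIV 2 (helper581): the classes of the algebraic form along a ray

* `re_im_of_cv` : `a + i b = β σ_τ` in the frame gives the classes of real and imaginary part
* `MemMk T F A κ` : the markings with the prescribed classes carry `MemA` (literal target)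
* `memF_of`     : **`MemMk → MemF`** for every ray
* `algAll_of_mk` : `AlgAll` from `MemMk`
-/

set_option autoImplicit false
set_option linter.unusedSectionVars false
set_option maxSynthPendingDepth 3

open Set Filter Topology UpperHalfPlane
open scoped ContDiff

namespace Crest.Agent.R281.Aga_581

open Crest.Agent.R275.Geo Crest.Agent.R275.Core144
open Crest.Agent.R281.HkR_835 Crest.Agent.R281.Ehr2_268 Crest.Agent.R281.Dif_268
  Crest.Agent.R281.Ehr4_268 Crest.Agent.R281.Ehr6_268 Crest.Agent.R281.Ehr7_268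
  Crest.Agent.R281.Ehr8_268 Crest.Agent.R281.Cdr_234 Crest.Agent.R281.Sl_957
  Crest.Agent.R281.Am_957 Crest.Agent.R281.CA_867 Crest.Agent.R281.QF_871
  Crest.Agent.R281.Alg_998 Crest.Agent.R281.CL_473 Crest.Agent.R281.LI_473
  Crest.Agent.R281.As_957 Crest.Agent.R281.Nc_957 Crest.Agent.R281.Cus_581
  Crest.Agent.R281.Pe_313 Crest.Agent.R281.Dv_957 Crest.Agent.R281.Ra_989
  Crest.Agent.R281.Alg_867
open Crest.Agent.R281.Esc1_989 Crest.Agent.R281.Ends2_989 Crest.Agent.R281.Ends3_989
open Crest.Agent.R281.Sta2_684 (QS)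
open Crest.Agent.R281.Sta3_684 (Bq)

noncomputable section

variable {n : ℕ} {X : Type} [TopologicalSpace X] [CompactSpace X] [T2Space X]
  {C : RCh (Cn (2 * n)) X} {Q : F2 C →ₗ[ℝ] F2 C →ₗ[ℝ] ℝ} {T : Ty (2 * n) C} {F : Frm C Q}
  {hQ : QS Q}

/-- **classes from the coordinates in the frame** -/
theorem re_im_of_cv {a b : HdR C} (ha : a ∈ (frF F hQ).M) (hb : b ∈ (frF F hQ).M) {β τ : ℂ}
    (h : (frF F hQ).cv a b = β • sig F.N τ) :
    a = cl (β.re • F.sre τ - β.im • F.sim τ) ∧ b = cl (β.im • F.sre τ + β.re • F.sim τ) := by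
  have e1 : (frF F hQ).co a = fun k => ((β • sig F.N τ) k).re := by
    rw [← h, Fr.cv_re]
  have e2 : (frF F hQ).co b = fun k => ((β • sig F.N τ) k).im := by
    rw [← h, Fr.cv_im]
  have f0 : (frF F hQ).f = cl F.es := rfl
  have f1 : (frF F hQ).v = cl F.v := rfl
  have f2 : (frF F hQ).e = cl F.e := rfl
  have hsq : ((F.N : ℂ) / 2 * τ ^ 2).re = F.N / 2 * (τ.re ^ 2 - τ.im ^ 2) := by
    have : (F.N : ℂ) / 2 = ((F.N / 2 : ℝ) : ℂ) := by push_cast; ring
    rw [this, Complex.re_ofReal_mul, pow_two, Complex.mul_re]; ring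
  have hsq' : ((F.N : ℂ) / 2 * τ ^ 2).im = F.N * (τ.re * τ.im) := by
    have : (F.N : ℂ) / 2 = ((F.N / 2 : ℝ) : ℂ) := by push_cast; ring
    rw [this, Complex.im_ofReal_mul, pow_two, Complex.mul_im]; ring
  constructor
  · have h1 := (frF F hQ).κ_co ha
    rw [← h1, e1, Fr.κ_apply, f0, f1, f2]
    have g0 : ((β • sig F.N τ) 0).re = β.re := by simp [sig]
    have g1 : ((β • sig F.N τ) 1).re = β.re * τ.re - β.im * τ.im := by
      simp [sig, Complex.mul_re]
    have g2 : ((β • sig F.N τ) 2).re =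
        -(β.re * (F.N / 2 * (τ.re ^ 2 - τ.im ^ 2)) - β.im * (F.N * (τ.re * τ.im))) := by
      have : (β • sig F.N τ) 2 = -(β * ((F.N : ℂ) / 2 * τ ^ 2)) := by
        simp [sig]
      rw [this, Complex.neg_re, Complex.mul_re, hsq, hsq']
    rw [g0, g1, g2]
    simp only [Frm.sre, Frm.sim, ← cl_add, ← cl_smul]
    congr 1
    module
  · have h1 := (frF F hQ).κ_co hb
    rw [← h1, e2, Fr.κ_apply, f0, f1, f2]
    have g0 : ((β • sig F.N τ) 0).im = β.im := by simp [sig]
    have g1 : ((β • sig F.N τ) 1).im = β.re * τ.im + β.im * τ.re := by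
      simp [sig, Complex.mul_im]
    have g2 : ((β • sig F.N τ) 2).im =
        -(β.re * (F.N * (τ.re * τ.im)) + β.im * (F.N / 2 * (τ.re ^ 2 - τ.im ^ 2))) := by
      have : (β • sig F.N τ) 2 = -(β * ((F.N : ℂ) / 2 * τ ^ 2)) := by
        simp [sig]
      rw [this, Complex.neg_im, Complex.mul_im, hsq, hsq']
    rw [g0, g1, g2]
    simp only [Frm.sre, Frm.sim, ← cl_add, ← cl_smul]
    congr 1
    module

/-- **the markings with the prescribed classes carry the algebraic data** (helper867) -/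
def MemMk (T : Ty (2 * n) C) (F : Frm C Q) (A : F2 C) (κ : ℝ) : Prop :=
  ∀ (m : Mark T.F C) (β τ : ℂ) (H : HkT C), CxOf m.P H →
    (∀ i, T.cls i (MQ.mk m) = T.pcl i) →
    cl (T.qc.re.form m) = cl (β.re • F.sre τ - β.im • F.sim τ) →
    cl (T.qc.im.form m) = cl (β.im • F.sre τ + β.re • F.sim τ) →
    Nonempty (MemA F A (T.K.mem (T.M.pt m.q.1.1 m.q.1.2)) κ β τ H)

section one

variable {O : HmOut T F hQ} {A : F2 C} {x₁ : O.G.T} {a d : Fin T.M.m → ℂ} {u : ℂ}
  {hx : O.G.z x₁ = fun j => a j + u * d j} (ρ : Ray (O.G.line a d) (O.G.onLine a d x₁ u hx))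

theorem hΨ {τ : ℂ} (h : ρ.Y₂ < τ.im) :
    ((O.G.line a d).Ψ (ρ.g • ρ.e.F (ρ.k τ)) : ℂ) = τ :=
  (ρ.nf _ (ρ.k_im τ h)).trans (ρ.k_inv τ h)

theorem hcv {τ : ℂ} (h : ρ.Y₂ < τ.im) :
    (frF F hQ).cv (O.D.re (mkE ρ.e ρ.g (ρ.k τ)).1) (O.D.im (mkE ρ.e ρ.g (ρ.k τ)).1) =
      bE ρ.e ρ.g (ρ.k τ) • sig F.N τ :=
  (cv_bE ρ.e ρ.g (ρ.k τ)).trans (congrArg (fun t => bE ρ.e ρ.g (ρ.k τ) • sig F.N t) (hΨ ρ h))

theorem h_pt {τ : ℂ} (h : ρ.Y₂ < τ.im) {m : Mark T.F C}
    (hmk : (MQ.mk m : MQ T.F C) = (mkE ρ.e ρ.g (ρ.k τ)).1) :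
    T.M.pt m.q.1.1 m.q.1.2 = fun i => ev (hp (ρ.k τ) (ρ.k_im τ h)) (cE ρ.e.En i) := by
  have h1 : m.q = T.L.p (MQ.mk m) := rfl
  have h2 : m.q = qE ρ.e.En ⟨ρ.k τ, mem_Hp (ρ.k_im τ h).le⟩ :=
    h1.trans ((congrArg T.L.p hmk).trans (mkE_pr ρ.e ρ.g (ρ.k_im τ h).le))
  exact (congrArg (fun q : QM T.M => T.M.pt q.1.1 q.1.2) h2).trans
      (ev_cE' ρ.e.En (hp (ρ.k τ) (ρ.k_im τ h))).symm

theorem h_cl {x : O.D.Mk} {m : Mark T.F C} (hmk : (MQ.mk m : MQ T.F C) = x.1) :
    (∀ i, T.cls i (MQ.mk m) = T.pcl i) ∧ cl (T.qc.re.form m) = O.D.re x.1 ∧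
      cl (T.qc.im.form m) = O.D.im x.1 := by
  refine ⟨fun i => ?_, ?_, ?_⟩
  · have h3 := x.2.1 i
    rw [O.cls, O.cl, ← hmk] at h3
    exact h3
  · rw [O.re, ← hmk]; rfl
  · rw [O.im, ← hmk]; rfl

/-- **the members over the end** -/
theorem memF_of {κ : ℝ} (hm : MemMk T F A κ) {Y : ℝ} (hY : ρ.Y₂ ≤ Y) : MemF O A ρ κ hY := by
  rintro τ H h ⟨-, m, hmk, hcx⟩
  have hY2 : ρ.Y₂ < τ.im := hY.trans_lt h
  obtain ⟨h1, h2, h3⟩ := h_cl (x := mkE ρ.e ρ.g (ρ.k τ)) hmk
  have hper := O.D.isPer (mkE ρ.e ρ.g (ρ.k τ)).2.1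
  obtain ⟨h4, h5⟩ := re_im_of_cv hper.a_mem hper.b_mem (hcv ρ hY2)
  have h6 := hm m _ τ H hcx h1 (h2.trans h4) (h3.trans h5)
  rwa [h_pt ρ hY2 hmk] at h6

end one

/-- **`AlgAll` of helper957 from the markings** -/
theorem algAll_of_mk (O : ∀ T : Ty (2 * n) C, T.Ok F hQ → HmOut T F hQ) (hl : LiftAll F hQ O)
    (hm : ∀ (T : Ty (2 * n) C), T.Ok F hQ → ∀ A : F2 C, AOk F A → T.Rel A →
      ∃ κ : ℝ, 0 < κ ∧ MemMk T F A κ) :
    AlgAll F hQ O hl fun A K => Nonempty (AlgE F A K) :=
  algAll_of O hl fun T ok A hA rel x₁ a d u hx ρ Y hY _ => by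
    obtain ⟨κ, hκ, h⟩ := hm T ok A hA rel
    exact ⟨κ, hκ, memF_of ρ h hY⟩

end

end Crest.Agent.R281.Aga_581
end

-- ▼ part R281/Blk7_592
section

/-!
# R281 (S0424), blocks of members (helper592), part 7: the total form is the sum of the block forms

* `hp_seg`      : `hp (seg Y) (seg Z) = ∏ hp (Y k) (Z k)`
* `fsh_dseg`    : `fsh (seg X) (dseg X U) (dseg X V) = ∑ fsh (X k) (U k) (V k)`
* `dRel_dec`    : a velocity of the Segre cone is `c • dseg X U + b • x`
* `fsv_seg`     : `fsv x u v = ∑ k, fsv (ext k a x) (ext k a u) (ext k a v)` on the Segre cone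
* `FS_eq_sum`   : `FS.sg = ∑ k, (segB k).sg` on velocities
* `pull_FS_sum` : `(FS.pull P).w = ∑ k, ((segB k).pull P).w`
-/

set_option autoImplicit false
set_option linter.unusedSectionVars false
set_option synthInstance.maxHeartbeats 100000

open Set Filter Topology Complex Function
open scoped ContDiff Matrix ComplexConjugate Manifold ComplexOrder

namespace Crest.Agent.R281.Blk_592

open Crest.Agent.R275.Geo Crest.Agent.R275.Core144
open Crest.Agent.R273.Defs_333 Crest.Agent.R273.Hess_333 Crest.Agent.R273.HessB_333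
open Crest.Agent.R273.HM_333 Crest.Agent.R273.Kah_333
open Crest.Agent.R281.HkR_835 Crest.Agent.R281.Ehr2_268 Crest.Agent.R281.Pe_313
open Crest.Agent.R281.Phl_655

noncomputable section

section hp

variable {T : Type} [Fintype T]

theorem hp_sum_left {κ : Type} (s : Finset κ) (f : κ → T → ℂ) (w : T → ℂ) :
    hp (∑ i ∈ s, f i) w = ∑ i ∈ s, hp (f i) w := by
  classical
  induction s using Finset.induction_on with
  | empty => simp [hp]
  | insert i s hi ih => rw [Finset.sum_insert hi, Finset.sum_insert hi, hp_add_left, ih]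

theorem hp_sum_right {κ : Type} (s : Finset κ) (f : κ → T → ℂ) (w : T → ℂ) :
    hp w (∑ i ∈ s, f i) = ∑ i ∈ s, hp w (f i) := by
  classical
  induction s using Finset.induction_on with
  | empty => simp [hp]
  | insert i s hi ih => rw [Finset.sum_insert hi, Finset.sum_insert hi, hp_add_right, ih]

theorem fsh_sum {κ κ' : Type} (s : Finset κ) (s' : Finset κ') (f : κ → T → ℂ) (g : κ' → T → ℂ)
    (x : T → ℂ) : fsh x (∑ i ∈ s, f i) (∑ j ∈ s', g j) = ∑ i ∈ s, ∑ j ∈ s', fsh x (f i) (g j) := by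
  unfold fsh
  simp only [Finset.sum_sub_distrib, ← Finset.sum_div]
  congr 1
  · rw [hp_sum_left]
    congr 1
    exact Finset.sum_congr rfl fun i _ => hp_sum_right _ _ _
  · rw [hp_sum_left, hp_sum_right, Finset.sum_mul_sum]

theorem hp_reindex {S : Type} [Fintype S] (e : S ≃ T) (v w : T → ℂ) :
    hp (fun s => v (e s)) (fun s => w (e s)) = hp v w :=
  Equiv.sum_comp e fun t => v t * conj (w t)

theorem fsh_reindex {S : Type} [Fintype S] (e : S ≃ T) (x v w : T → ℂ) :
    fsh (fun s => x (e s)) (fun s => v (e s)) (fun s => w (e s)) = fsh x v w := by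
  unfold fsh
  rw [hp_reindex, hp_reindex, hp_reindex, hp_reindex]

/-- the Fubini-Study form does not see the numbering of the coordinates -/
theorem fsv_reindex {S : Type} [Fintype S] (e : S ≃ T) (x v w : T → ℂ) :
    fsv (fun s => x (e s)) (fun s => v (e s)) (fun s => w (e s)) = fsv x v w := by
  unfold fsv
  rw [fsh_reindex]


end hp

section seg

variable {ι : Type} [Fintype ι] [DecidableEq ι] {J : ι → Type} [∀ k, Fintype (J k)]

theorem hp_seg (Y Z : ∀ k, J k → ℂ) : hp (seg Y) (seg Z) = ∏ k, hp (Y k) (Z k) := by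
  unfold hp
  rw [Finset.prod_univ_sum, Fintype.piFinset_univ]
  refine Finset.sum_congr rfl fun a _ => ?_
  rw [seg, seg, map_prod, Finset.prod_mul_distrib]

theorem dseg_eq (X U : ∀ k, J k → ℂ) : dseg X U = ∑ k, seg (update X k (U k)) := by
  funext a
  rw [Finset.sum_apply]
  refine Finset.sum_congr rfl fun k _ => ?_
  rw [seg_eq (update X k (U k)) k a, update_self]
  congr 1
  refine Finset.prod_congr rfl fun l hl => ?_
  rw [update_of_ne (Finset.ne_of_mem_erase hl)]

/-- product over the blocks different from `k` -/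
theorem prod_upd_left (X : ∀ k, J k → ℂ) (k : ι) (y : J k → ℂ) (Z : ∀ k, J k → ℂ) :
    ∏ m, hp (update X k y m) (Z m) = hp y (Z k) * ∏ m ∈ Finset.univ.erase k, hp (X m) (Z m) := by
  rw [← Finset.mul_prod_erase Finset.univ _ (Finset.mem_univ k), update_self]
  congr 1
  refine Finset.prod_congr rfl fun l hl => ?_
  rw [update_of_ne (Finset.ne_of_mem_erase hl)]

theorem prod_upd_right (X : ∀ k, J k → ℂ) (k : ι) (y : J k → ℂ) (Z : ∀ k, J k → ℂ) :
    ∏ m, hp (Z m) (update X k y m) = hp (Z k) y * ∏ m ∈ Finset.univ.erase k, hp (Z m) (X m) := by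
  rw [← Finset.mul_prod_erase Finset.univ _ (Finset.mem_univ k), update_self]
  congr 1
  refine Finset.prod_congr rfl fun l hl => ?_
  rw [update_of_ne (Finset.ne_of_mem_erase hl)]

/-- the form of a product on product velocities -/
theorem fsh_dseg {X : ∀ k, J k → ℂ} (hX : ∀ k, X k ≠ 0) (U V : ∀ k, J k → ℂ) :
    fsh (seg X) (dseg X U) (dseg X V) = ∑ k, fsh (X k) (U k) (V k) := by
  have hR : ∀ m, hp (X m) (X m) ≠ 0 := fun m => hp_self_ne (hX m)
  rw [dseg_eq, dseg_eq, fsh_sum]
  refine Finset.sum_congr rfl fun k _ => ?_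
  have hk : ∏ m ∈ Finset.univ.erase k, hp (X m) (X m) ≠ 0 :=
    Finset.prod_ne_zero_iff.2 fun m _ => hR m
  have eX : hp (seg X) (seg X) = hp (X k) (X k) * ∏ m ∈ Finset.univ.erase k, hp (X m) (X m) := by
    rw [hp_seg, ← Finset.mul_prod_erase Finset.univ _ (Finset.mem_univ k)]
  have eU : hp (seg (update X k (U k))) (seg X) =
      hp (U k) (X k) * ∏ m ∈ Finset.univ.erase k, hp (X m) (X m) := by
    rw [hp_seg, prod_upd_left]
  rw [Finset.sum_eq_single k]
  · have eV : hp (seg X) (seg (update X k (V k))) =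
        hp (X k) (V k) * ∏ m ∈ Finset.univ.erase k, hp (X m) (X m) := by
      rw [hp_seg, prod_upd_right]
    have eUV : hp (seg (update X k (U k))) (seg (update X k (V k))) =
        hp (U k) (V k) * ∏ m ∈ Finset.univ.erase k, hp (X m) (X m) := by
      rw [hp_seg, prod_upd_left, update_self]
      congr 1
      refine Finset.prod_congr rfl fun m hm => ?_
      rw [update_of_ne (Finset.ne_of_mem_erase hm)]
    unfold fsh
    rw [eX, eU, eV, eUV]
    have := hR k
    field_simp
  · intro l _ hlk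
    have hm : l ∈ Finset.univ.erase k := Finset.mem_erase.2 ⟨hlk, Finset.mem_univ l⟩
    have hq : ∏ m ∈ (Finset.univ.erase k).erase l, hp (X m) (X m) ≠ 0 :=
      Finset.prod_ne_zero_iff.2 fun m _ => hR m
    have eK : ∏ m ∈ Finset.univ.erase k, hp (X m) (X m) =
        hp (X l) (X l) * ∏ m ∈ (Finset.univ.erase k).erase l, hp (X m) (X m) :=
      (Finset.mul_prod_erase (Finset.univ.erase k) (fun m => hp (X m) (X m)) hm).symm
    have hm' : k ∈ Finset.univ.erase l := Finset.mem_erase.2 ⟨hlk.symm, Finset.mem_univ k⟩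
    have eV : hp (seg X) (seg (update X l (V l))) =
        hp (X l) (V l) * (hp (X k) (X k) *
          ∏ m ∈ (Finset.univ.erase k).erase l, hp (X m) (X m)) := by
      rw [hp_seg, prod_upd_right, ← Finset.mul_prod_erase (Finset.univ.erase l) _ hm',
        Finset.erase_right_comm]
    have eUV : hp (seg (update X k (U k))) (seg (update X l (V l))) =
        hp (U k) (X k) * (hp (X l) (V l) *
          ∏ m ∈ (Finset.univ.erase k).erase l, hp (X m) (X m)) := by
      rw [hp_seg, prod_upd_left, update_of_ne hlk.symm,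
        ← Finset.mul_prod_erase (Finset.univ.erase k) _ hm, update_self]
      congr 2
      refine Finset.prod_congr rfl fun m hm => ?_
      rw [update_of_ne (Finset.ne_of_mem_erase hm)]
    unfold fsh
    rw [eX, eU, eV, eUV, eK]
    have := hR k
    have := hR l
    field_simp
    ring
  · intro h
    exact absurd (Finset.mem_univ k) h

/-! ### velocities of the Segre cone -/

theorem DRel.add {x u v : (∀ k, J k) → ℂ} (hu : DRel x u) (hv : DRel x v) : DRel x (u + v) := by
  intro k a a'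
  simp only [Pi.add_apply]
  linear_combination hu k a a' + hv k a a'

theorem DRel.smul {x u : (∀ k, J k) → ℂ} (hu : DRel x u) (c : ℂ) : DRel x (c • u) := by
  intro k a a'
  simp only [Pi.smul_apply, smul_eq_mul]
  linear_combination c * hu k a a'

/-- a velocity with vanishing blocks vanishes -/
theorem DRel.zero_of {x w : (∀ k, J k) → ℂ} (hw : DRel x w) {a : ∀ k, J k} (ha : x a ≠ 0)
    (h0 : ∀ k, ext k a w = 0) (hwa : w a = 0) : w = 0 := by
  suffices H : ∀ (s : Finset ι) (b : ∀ k, J k), (∀ k, k ∉ s → b k = a k) → w b = 0 from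
    funext fun b => H Finset.univ b (by simp)
  intro s
  induction s using Finset.induction_on with
  | empty =>
    intro b hb
    have : b = a := funext fun k => hb k (by simp)
    rw [this]
    exact hwa
  | insert k s hk ih =>
    intro b hb
    have h1 := hw k b a
    have h2 : w (update b k (a k)) = 0 := ih _ fun l hl => by
      by_cases hlk : l = k
      · subst hlk
        simp
      · rw [update_of_ne hlk]
        exact hb l (by simp [hlk, hl])
    have h3 : w (update a k (b k)) = 0 := congrFun (h0 k) (b k)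
    rw [hwa, h2, h3] at h1
    simpa [ha] using h1

/-- a velocity with radial blocks is radial -/
theorem DRel.euler {x u : (∀ k, J k) → ℂ} (hx : SegRel x) (hu : DRel x u) {a : ∀ k, J k}
    (ha : x a ≠ 0) (h : ∀ k, ∃ c : ℂ, ext k a u = c • ext k a x) : u = (u a / x a) • x := by
  have h1 := hu.smul_add hx 1 (-(u a / x a))
  have h2 : (1 : ℂ) • u + (-(u a / x a)) • x = 0 := by
    refine h1.zero_of ha (fun k => ?_) ?_
    · obtain ⟨c, hc⟩ := h k
      have h3 : u a = c * x a := by
        have h4 := congrFun hc (a k)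
        rw [ext_self] at h4
        rw [h4]
        show c • ext k a x (a k) = _
        rw [ext_self, smul_eq_mul]
      rw [ext_add, ext_smul, ext_smul, hc, h3, mul_div_cancel_right₀ _ ha, one_smul, neg_smul,
        add_neg_cancel]
    · simp only [Pi.add_apply, Pi.smul_apply, smul_eq_mul]
      field_simp
      ring
  rw [one_smul, neg_smul, add_neg_eq_zero] at h2
  exact h2

/-- **decomposition of a velocity of the Segre cone** -/
theorem dRel_dec {x u : (∀ k, J k) → ℂ} (hx : SegRel x) (hu : DRel x u) {a : ∀ k, J k}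
    (ha : x a ≠ 0) : ∃ b : ℂ, u = (x a * ((x a)⁻¹) ^ Fintype.card ι) •
      dseg (fun k => ext k a x) (fun k => ext k a u) + b • x := by
  set c : ℂ := x a * ((x a)⁻¹) ^ Fintype.card ι with hc
  set X : ∀ k, J k → ℂ := fun k => ext k a x with hX
  set U : ∀ k, J k → ℂ := fun k => ext k a u with hU
  have hxc : x = c • seg X := segRel_eq hx ha
  have h1 : DRel x (dseg X U) := by
    have h2 := (dRel_dseg X U).smul_left c
    rwa [← hxc] at h2
  have h3 : DRel x (u + (-c) • dseg X U) := hu.add (h1.smul (-c))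
  have h4 := h3.euler hx ha (fun k => by
    refine ⟨(-c) * (∑ m ∈ Finset.univ.erase k, U m (a m) *
      ∏ l ∈ (Finset.univ.erase k).erase m, X l (a l)), ?_⟩
    rw [ext_add, ext_smul, ext_dseg, smul_add, smul_smul, smul_smul, ← add_assoc]
    have h5 : ∏ l ∈ Finset.univ.erase k, X l (a l) = x a ^ (Fintype.card ι - 1) := by
      rw [Finset.prod_congr rfl (fun l _ => ext_self l a x), Finset.prod_const,
        Finset.card_erase_of_mem (Finset.mem_univ k), Finset.card_univ]
    have h6 : c * x a ^ (Fintype.card ι - 1) = 1 := by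
      have h7 : Fintype.card ι = Fintype.card ι - 1 + 1 :=
        (Nat.sub_add_cancel (Fintype.card_pos_iff.2 ⟨k⟩)).symm
      have h8 : c = x a * ((x a)⁻¹) ^ (Fintype.card ι - 1 + 1) := by rw [hc, ← h7]
      rw [h8, pow_succ, inv_pow]
      have := pow_ne_zero (Fintype.card ι - 1) ha
      field_simp
    rw [h5, neg_mul, h6, neg_one_smul, add_neg_cancel, zero_add])
  refine ⟨(u + (-c) • dseg X U) a / x a, ?_⟩
  rw [← h4, neg_smul]
  abel

theorem fsh_seg {x u v : (∀ k, J k) → ℂ} (hx : SegRel x) (hu : DRel x u) (hv : DRel x v)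
    {a : ∀ k, J k} (ha : x a ≠ 0) :
    fsh x u v = ∑ k, fsh (ext k a x) (ext k a u) (ext k a v) := by
  obtain ⟨b, hb⟩ := dRel_dec hx hu ha
  obtain ⟨b', hb'⟩ := dRel_dec hx hv ha
  have hX : ∀ k, ext k a x ≠ 0 := fun k => ext_ne ha k
  have hc : x a * ((x a)⁻¹) ^ Fintype.card ι ≠ 0 :=
    mul_ne_zero ha (pow_ne_zero _ (inv_ne_zero ha))
  have hxc := segRel_eq hx ha
  set c : ℂ := x a * ((x a)⁻¹) ^ Fintype.card ι
  have h1 : fsh x u v = fsh (c • seg fun k => ext k a x)
      (c • dseg (fun k => ext k a x) (fun k => ext k a u) +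
        (b * c) • seg fun k => ext k a x)
      (c • dseg (fun k => ext k a x) (fun k => ext k a v) +
        (b' * c) • seg fun k => ext k a x) := by
    rw [mul_smul b c, mul_smul b' c, ← hxc, ← hb, ← hb']
  rw [h1, fsh_bas (seg_ne hX) _ _ hc, fsh_dseg hX]

/-- **the total form is the sum of the block forms** -/
theorem fsv_seg {x u v : (∀ k, J k) → ℂ} (hx : SegRel x) (hu : DRel x u) (hv : DRel x v)
    {a : ∀ k, J k} (ha : x a ≠ 0) :
    fsv x u v = ∑ k, fsv (ext k a x) (ext k a u) (ext k a v) := by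
  unfold fsv
  rw [fsh_seg hx hu hv ha, Finset.mul_sum, re_sum]

/-- the same with the values of `segB` -/
theorem fsv_sgv {x u v : (∀ k, J k) → ℂ} (h0 : x ≠ 0) (hx : SegRel x) (hu : DRel x u)
    (hv : DRel x v) : fsv x u v = ∑ k, sgv k x u v := by
  obtain ⟨a, ha⟩ := exists_nz h0
  rw [fsv_seg hx hu hv ha]
  exact Finset.sum_congr rfl fun k _ => (sgv_eq k hx hu hv ha).symm

theorem FS_eq_sum {x u v : (∀ k, J k) → ℂ} (hx : x ∈ segK J) (hu : V1 (segK J) x u)
    (hv : V1 (segK J) x v) :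
    (FS (∀ k, J k)).sg x u v = ∑ k, (segB k : B1 (segK J)).sg x u v :=
  fsv_sgv hx.1 hx.2 (dRel_of_V1 hu) (dRel_of_V1 hv)

end seg

/-! ### members -/

section mem

variable {M : Type} [TopologicalSpace M]
variable {V : Type} [NormedAddCommGroup V] [NormedSpace ℝ V] {C : RCh V M}
variable {ι : Type} [Fintype ι] [DecidableEq ι] {J : ι → Type} [∀ k, Fintype (J k)]
variable {P : HEmb C ((∀ k, J k) → ℂ)}



end mem

end

end Crest.Agent.R281.Blk_592
end

-- ▼ part R281/Blk8_592
section

/-!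
# R281 (S0424), blocks of members (helper592), part 8: the class of the total form

* `totB_sum`      : `(totB e).sg x u v = ∑ k, (blkB e k).sg x u v` on velocities
* `form'_tot_sum`, `form_tot_sum` : the same for the forms of a marking
* `cls_tot_sum`   : the same for the classes of the marked cover
* `Ty.cls_tot`, `Ty.cls_tot_rel`  : `[total form] = (π c) • [A]` at the markings with prescribed
                    classes of the blocks
-/

set_option autoImplicit false
set_option linter.unusedSectionVars false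
set_option maxSynthPendingDepth 3

open Set Filter Topology Complex
open scoped ContDiff ComplexConjugate

namespace Crest.Agent.R281.Blk_592

open Crest.Agent.R281.HkR_835 Crest.Agent.R281.Ehr2_268 Crest.Agent.R281.Dif_268
open Crest.Agent.R281.Ehr4_268 Crest.Agent.R281.Ehr6_268 Crest.Agent.R281.Ehr7_268
open Crest.Agent.R281.Ehr8_268 Crest.Agent.R281.Cdr_234
open Crest.Agent.R281.Pe_313 (CxOf)
open Crest.Agent.R281.Phl_655
open Crest.Agent.R281.Pt_313 (inK_mark pl_form)
open Crest.Agent.R281.Dv_957 (Ty segS blkB totB rx rx_mem v1_map)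

noncomputable section

universe uq

section forms

variable {ι : Type} [Fintype ι] [DecidableEq ι] {J : ι → Type} [∀ k, Fintype (J k)] {N : ℕ}
  (e : (∀ k, J k) ≃ Fin (N + 1))

theorem totB_sum {x u v : EuclideanSpace ℂ (Fin (N + 1))} (hx : x ∈ segS e)
    (hu : V1 (segS e) x u) (hv : V1 (segS e) x v) :
    (totB e).sg x u v = ∑ k, (blkB e k).sg x u v :=
  FS_eq_sum (rx_mem e x hx) (v1_map (rx e) (rx_mem e) hu) (v1_map (rx e) (rx_mem e) hv)

variable {Q : Type uq} [TopologicalSpace Q] {E : Type} [NormedAddCommGroup E]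
    [NormedSpace ℂ E] {V X : Type}
    [NormedAddCommGroup V] [NormedSpace ℝ V] [TopologicalSpace X]
    {F : QFam Q E (EuclideanSpace ℂ (Fin (N + 1)))} {C : RCh V X}

theorem vel_mark {K : Set (EuclideanSpace ℂ (Fin (N + 1)))} {C' : RCh V X}
    {P : HEmb C' (EuclideanSpace ℂ (Fin (N + 1)))} (hP : InK P K) {i : C'.ι} {y : V}
    (hy : y ∈ (C'.e i).target) (v : V) : V1 K (P.u i y) (fderiv ℝ (P.u i) y v) := by
  have hm : ∀ᶠ y' in 𝓝 y, P.u i y' ∈ K := by
    filter_upwards [(C'.e i).open_target.mem_nhds hy] with y' hy'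
    exact hP i y' hy'
  have hd : DifferentiableAt ℝ (P.u i) y :=
    ((P.sm i).contDiffAt ((C'.e i).open_target.mem_nhds hy)).differentiableAt (by simp)
  exact vel_of (S := {p : ℂ × EuclideanSpace ℂ (Fin (N + 1)) | p.2 ∈ K}) (c := 0) hd hm v

/-- **the total form of a marking is the sum of the block forms** -/
theorem form'_tot_sum (hK : ∀ q0, F.R q0 ⊆ {p | p.2 ∈ segS e}) (m : Mark F C) :
    Eqv ((qbf (totB e) hK).form' m) (∑ k, (qbf (blkB e k) hK).form' m) := by
  intro i z hz u v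
  have hP := inK_mark hK m
  rw [F2.sum_w, Pt_313.qbf_form' (totB e) hK m hz, totB_sum e (hP i z hz) (vel_mark hP hz u)
    (vel_mark hP hz v)]
  simp only [_root_.sum_apply]
  exact Finset.sum_congr rfl fun k _ => (Pt_313.qbf_form' (blkB e k) hK m hz u v).symm

theorem eqv_pull_sum {V' X' : Type} [NormedAddCommGroup V'] [NormedSpace ℝ V']
    [TopologicalSpace X'] {C' : RCh V' X'} (g : SMap C' C) {κ : Type} [Fintype κ]
    (w : κ → F2 C) : Eqv (g.pull (∑ k, w k)) (∑ k, g.pull (w k)) := by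
  intro j z hz u v
  obtain ⟨i, hi⟩ := g.exists_dom hz
  rw [F2.sum_w, g.pull_w _ hi, F2.sum_w]
  simp only [_root_.sum_apply]
  exact Finset.sum_congr rfl fun k _ => (g.pull_w (w k) hi u v).symm

theorem form_tot_sum (hK : ∀ q0, F.R q0 ⊆ {p | p.2 ∈ segS e}) (m : Mark F C) :
    Eqv ((qbf (totB e) hK).form m) (∑ k, (qbf (blkB e k) hK).form m) :=
  ((form'_tot_sum e hK m).pull (SMap.ofCmp m.cmp.symm)).trans (eqv_pull_sum _ _)

variable [FiniteDimensional ℝ V] [CompactSpace X] [T2Space X]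

/-- **the class of the total form** -/
theorem cls_tot_sum (hK : ∀ q0, F.R q0 ⊆ {p | p.2 ∈ segS e}) (x : MQ F C) :
    ((qbf (totB e) hK).natF C).cls x = ∑ k, ((qbf (blkB e k) hK).natF C).cls x := by
  obtain ⟨m, rfl⟩ := MQ.exists_rep x
  have h1 : cl ((qbf (totB e) hK).form m) = cl (∑ k, (qbf (blkB e k) hK).form m) :=
    cl_eq_iff.mpr (form_tot_sum e hK m).coh
  have h2 : ∀ s : Finset ι, cl (∑ k ∈ s, (qbf (blkB e k) hK).form m) =
      ∑ k ∈ s, cl ((qbf (blkB e k) hK).form m) := by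
    intro s
    induction s using Finset.induction_on with
    | empty => rfl
    | insert k s hk ih => rw [Finset.sum_insert hk, Finset.sum_insert hk, cl_add, ih]
  exact h1.trans (h2 Finset.univ)

end forms

section ty

variable {V X : Type} [NormedAddCommGroup V] [NormedSpace ℝ V] [TopologicalSpace X]
  {C : RCh V X} {n : ℕ} (T : Ty n C) [FiniteDimensional ℝ V] [CompactSpace X] [T2Space X]

theorem _root_.Crest.Agent.R281.Dv_957.Ty.cls_tot (x : MQ T.F C) :
    (T.qt.natF C).cls x = ∑ k, T.cls k x := cls_tot_sum T.e T.R_seg x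

/-- **the class of the total form at a marking with the prescribed classes of the blocks** -/
theorem _root_.Crest.Agent.R281.Dv_957.Ty.cls_tot_rel {x : MQ T.F C}
    (hx : ∀ k, T.cls k x = T.pcl k) {A : F2 C} {c : ℝ} (h : ∑ k, T.B k = c • cl A) :
    (T.qt.natF C).cls x = (Real.pi * c) • cl A := by
  rw [T.cls_tot x, Finset.sum_congr rfl fun k _ => hx k, mul_smul, ← h, Finset.smul_sum]
  rfl

/-- the same for the form of the marking -/
theorem _root_.Crest.Agent.R281.Dv_957.Ty.ex_tot {m : Mark T.F C}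
    (hx : ∀ k, T.cls k (MQ.mk m) = T.pcl k) {A : F2 C} {c : ℝ} (h : ∑ k, T.B k = c • cl A) :
    Coh (T.qt.form m) ((Real.pi * c) • A) := by
  rw [← cl_eq_iff, cl_smul]
  exact T.cls_tot_rel hx h

end ty

end

end Crest.Agent.R281.Blk_592
end

-- ▼ part R281/AgM1_313

/-!
# R281 (S0424), DIV 2 (helper313): `MemA` of a marking

* `cone_mem`   : the cone of a marking in terms of the certificate of the member
* `tot_w`      : the value of the Fubini-Study form on the charts of the marking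
* `s_eq`       : the value of the algebraic form, in every coordinate
* `ex_form'`   : a class on `C` read on the charts of the marking
* `memA_of_mark`: **`MemA` from a marking with prescribed classes**
-/

set_option autoImplicit false
set_option linter.unusedSectionVars false
set_option maxSynthPendingDepth 3

open Set Filter Topology Complex
open scoped ContDiff

namespace Crest.Agent.R281.AgM_313

open Crest.Agent.R275.Geo Crest.Agent.R275.Core144
open Crest.Agent.R281.HkR_835 Crest.Agent.R281.Ehr2_268 Crest.Agent.R281.Dif_268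
  Crest.Agent.R281.Ehr4_268 Crest.Agent.R281.Ehr6_268 Crest.Agent.R281.Ehr7_268
  Crest.Agent.R281.Ehr8_268 Crest.Agent.R281.Cdr_234 Crest.Agent.R281.Sl_957
  Crest.Agent.R281.Am_957 Crest.Agent.R281.CA_867 Crest.Agent.R281.QF_871
  Crest.Agent.R281.Alg_998 Crest.Agent.R281.CL_473 Crest.Agent.R281.LI_473
  Crest.Agent.R281.Pe_313 Crest.Agent.R281.Dv_957 Crest.Agent.R281.Alg_867
  Crest.Agent.R281.Phl_655 Crest.Agent.R281.Blk_592
open Crest.Agent.R281.AF_867 (OnE FDat)
open Crest.Agent.R281.Ti_846 (Ex)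
open Crest.Agent.R281.Sta2_684 (QS)
open Crest.Agent.R281.Sta3_684 (Bq)
open Crest.Agent.R281.Qc_377 (sgC sgC_mul re_form' im_form')
open Crest.Agent.R281.Ehr13_268 (polC)

noncomputable section

universe uq

section gen

variable {Q : Type uq} [TopologicalSpace Q] {E H : Type} [NormedAddCommGroup E]
    [NormedSpace ℂ E] [NormedAddCommGroup H] [NormedSpace ℂ H] {V X : Type}
    [NormedAddCommGroup V] [NormedSpace ℝ V] [TopologicalSpace X]
    {F : QFam Q E H} {C : RCh V X}

/-- the form of a marking, read on the charts of the marking -/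
theorem eqv_form' (b : QBF F) (m : Mark F C) : Eqv (m.cmp.F (b.form m)) (b.form' m) := by
  have h1 : Eqv ((SMap.ofCmp m.cmp).pull (b.form m)) (m.cmp.F (b.form m)) := Nef_252.cmp_F _ _
  have h2 : Eqv ((SMap.ofCmp m.cmp).pull ((SMap.ofCmp m.cmp.symm).pull (b.form' m)))
      (b.form' m) := (Nef_252.bi_cmp m.cmp.symm).pull_pull (b.form' m)
  exact h1.symm.trans h2

/-- a class on `C` read on the charts of the marking -/
theorem ex_form' (b : QBF F) (m : Mark F C) {w : F2 C} (h : Cl (b.form m) w) :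
    Ex (b.form' m - m.cmp.F w) := by
  have h1 : Ex (m.cmp.F (b.form m - w)) := (Nef_252.ex_cmp_F m.cmp _).2 h
  have h2 := (HkR_835.F_sub m.cmp (b.form m) w).ex h1
  refine Eqv.ex ?_ h2
  intro i z hz u v
  have h3 := eqv_form' b m i z hz u v
  show (m.cmp.F (b.form m)).w i z u v - (m.cmp.F w).w i z u v =
    (b.form' m).w i z u v - (m.cmp.F w).w i z u v
  rw [h3]

end gen

section ty

variable {V X : Type} [NormedAddCommGroup V] [NormedSpace ℝ V] [TopologicalSpace X]
  {C : RCh V X} {n : ℕ} (T : Ty n C)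

/-- the certificate of the member -/
abbrev YM (q : QM T.M) : CDat n T.N ℂ := T.K.mem (T.M.pt q.1.1 q.1.2)

theorem cone_mem (m : Mark T.F C) (w : EuclideanSpace ℂ (Fin (T.N + 1))) :
    w ∈ m.P.cone ↔ w ≠ 0 ∧ OnE (range (YM T m.q).G) fun k => w k := by
  rw [m.cone w]
  exact Iff.rfl

theorem tot_w (m : Mark T.F C) (i : m.C'.ι) (z : V) (hz : z ∈ (m.C'.e i).target) (v v' : V) :
    (T.qt.form' m).w i z v v' = fsv (fun k => m.P.u i z k)
      (fun k => fderiv ℝ (m.P.u i) z v k) (fun k => fderiv ℝ (m.P.u i) z v' k) := by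
  have h1 : (T.qt.form' m).w i z v v' = (totB T.e).sg (m.P.u i z) (fderiv ℝ (m.P.u i) z v)
      (fderiv ℝ (m.P.u i) z v') := Pt_313.qbf_form' (totB T.e) T.R_seg m hz v v'
  rw [h1]
  exact fsv_reindex T.e (fun k => m.P.u i z k) (fun k => fderiv ℝ (m.P.u i) z v k)
    (fun k => fderiv ℝ (m.P.u i) z v' k)

variable [FiniteDimensional ℝ V]

/-- the value of the algebraic form -/
theorem sgC_eq (m : Mark T.F C) {i : m.C'.ι} {z : V} (hz : z ∈ (m.C'.e i).target)
    (v w : V) : sgC T.nice T.good m i z v w = (polC T.nice T.good).val m i z v w := by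
  obtain ⟨j, hj⟩ : ∃ j, m.P.u i z j ≠ 0 := by
    by_contra hcon
    push Not at hcon
    exact m.P.ne i z hz (by ext j; exact hcon j)
  have h1 := sgC_mul T.nice T.good m hz j v w hj
  have h2 := (polC T.nice T.good).val_eq m hz j v w
  have h3 : m.P.u i z j ^ T.K.Y.D.m ≠ 0 := pow_ne_zero _ hj
  exact mul_right_cancel₀ h3 (h1.trans h2.symm)

/-- **the algebraic form in every coordinate** -/
theorem s_eq (m : Mark T.F C) (i : m.C'.ι) (z : V) (hz : z ∈ (m.C'.e i).target)
    (j : Fin (T.N + 1)) (v v' : V) :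
    (((T.qc.re.form' m).w i z v v' : ℂ) + ((T.qc.im.form' m).w i z v v' : ℂ) * I) *
        m.P.u i z j ^ (YM T m.q).D.m =
      (YM T m.q).D.b j (fun k => m.P.u i z k) (fun k => fderiv ℝ (m.P.u i) z v k)
        (fun k => fderiv ℝ (m.P.u i) z v' k) := by
  have e1 : (T.qc.re.form' m).w i z v v' = (sgC T.nice T.good m i z v v').re :=
    re_form' T.nice T.good m i z v v'
  have e2 : (T.qc.im.form' m).w i z v v' = (sgC T.nice T.good m i z v v').im :=
    im_form' T.nice T.good m i z v v'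
  rw [e1, e2, re_add_im, sgC_eq T m hz]
  exact (polC T.nice T.good).val_eq m hz j v v'

end ty

section mem

variable {n : ℕ} {X : Type} [TopologicalSpace X] {C : RCh (Cn (2 * n)) X}
  {Q : F2 C →ₗ[ℝ] F2 C →ₗ[ℝ] ℝ} (T : Ty (2 * n) C) {F : Frm C Q} {A : F2 C}

/-- **`MemA` of a marking** from the classes on `C` -/
def memA_of_mark (m : Mark T.F C) {H : HkT C} (hcx : CxOf m.P H) {κ : ℝ} {β τ : ℂ}
    (hW : Cl (T.qt.form m) (κ • A))
    (h1 : Cl (T.qc.re.form m) (β.re • F.sre τ - β.im • F.sim τ))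
    (h2 : Cl (T.qc.im.form m) (β.im • F.sre τ + β.re • F.sim τ)) :
    MemA F A (YM T m.q) κ β τ H where
  C' := m.C'
  cmp := m.cmp
  P := m.P
  cx := hcx
  cone := cone_mem T m
  W := T.qt.form' m
  W_eq := tot_w T m
  W_cl := by
    have h3 := ex_form' T.qt m hW
    refine Eqv.ex ?_ h3
    intro i z hz u v
    have h4 := HkR_835.F_smul m.cmp κ A i z hz u v
    show (T.qt.form' m).w i z u v - (m.cmp.F (κ • A)).w i z u v =
      (T.qt.form' m).w i z u v - (κ • m.cmp.F A).w i z u v
    rw [h4]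
  s1 := T.qc.re.form' m
  s2 := T.qc.im.form' m
  s_eq := s_eq T m
  s1_cl := ex_form' T.qc.re m h1
  s2_cl := ex_form' T.qc.im m h2

end mem

end

end Crest.Agent.R281.AgM_313
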