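import Crest.Agent.R281.HKA1_799
import Crest.Agent.R281.FujP_513
import Crest.Agent.R281.Fuj4_207
import Crest.Agent.R281.Nef1_252
import Crest.Agent.R281.Ti7_846
import Crest.Agent.R281.FujSig_358
import Crest.Agent.R281.HkR9_835

-- ▼ part R281/HKA2_799
section

/-!
# Row 281, HK-ALG (helper799): pointwise hyperkaehler algebra, part 2

* `mix_even`, `mix_odd` : `T` symmetric `2 ν`-linear, `T (x + b y, …) = (1 + b²) ^ ν * P` for all `b`
  ⟹ `(2ν choose 2j) T (x^(2ν-2j), y^(2j)) = (ν choose j) P`, odd ones vanish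
* `mix_two` : `(2ν - 1) T (x, x, y, …, y) = P`, `mix_top` : `T (y, …, y) = P`
* `Trip.mixed` : the mixed products of the three forms of a quaternionic triple
* `Trip.scaled`: `I (K + b Re σ + c Im σ, …) = (1 + lam (b² + c²)) ^ ν I (K, …)`
-/

set_option autoImplicit false
set_option linter.unusedSectionVars false

open Polynomial

namespace Crest.Agent.R281.HKA_799

open Crest.Agent.R281.FujP_513

noncomputable section

section Mix

variable {H : Type*} [AddCommGroup H] [Module ℝ H]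







end Mix

section Trip

variable {V : Type*} [NormedAddCommGroup V] [NormedSpace ℝ V]

/-- naturality for a multilinear functional -/
def NatM {N : ℕ} (I : MultilinearMap ℝ (fun _ : Fin N => Bil V) ℝ) : Prop :=
  Nat (fun w => I w)






end Trip

end

end Crest.Agent.R281.HKA_799
end

-- ▼ part R281/Al1_830
section

/-!
# Row 281, HK-ALONG, part 1 (helper830): infinitesimal naturality of the top form

`I` a natural multilinear functional of `N` bilinear forms (`T`-pull back multiplies by `det T`).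

* `inf_nat` : `∑ k, I (w 1, .., E·w k, .., w N) = tr E * I w`, `(E·w)(u, v) = w (E u, v) + w (u, E v)`
* `HR`      : pointwise data: `g` inner product, `J` orthogonal complex structure, `om = g (J ·, ·)`,
              `rho = g (R ·, ·)`, `R` skew, `R J = - J R`
* `HR.one`  : `I (rho, om, .., om) = 0`
* `HR.two`  : `2 N (N - 1) I (rho, rho, om, .., om) = - tr (R²) I (om, .., om)`
-/

set_option autoImplicit false
set_option linter.unusedSectionVars false
set_option maxSynthPendingDepth 3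

open Set Filter Topology Function

namespace Crest.Agent.R281.Al_830

open Crest.Agent.R281.HKA_799 (Bil NatM)
open Crest.Agent.R281.FujP_513 (Symm mixv)

noncomputable section

variable {V : Type*} [NormedAddCommGroup V] [NormedSpace ℝ V]

/-- the pull back of a form by `E` -/
def pbE (E : V →L[ℝ] V) (w : Bil V) : Bil V := (w.comp E).flip.comp E |>.flip

@[simp] theorem pbE_apply (E : V →L[ℝ] V) (w : Bil V) (u v : V) :
    pbE E w u v = w (E u) (E v) := rfl

/-- the action of an endomorphism as a derivation -/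
def act (E : V →L[ℝ] V) (w : Bil V) : Bil V := w.comp E + (w.flip.comp E).flip

@[simp] theorem act_apply (E : V →L[ℝ] V) (w : Bil V) (u v : V) :
    act E w u v = w (E u) v + w u (E v) := rfl

variable {N : ℕ}

/-- multilinear functionals on a finite dimensional space are continuous -/
theorem cont_ml [FiniteDimensional ℝ V] (I : MultilinearMap ℝ (fun _ : Fin N => Bil V) ℝ) :
    Continuous fun w => I w := by
  classical
  let b := Module.finBasis ℝ (Bil V)
  have h : ∀ w : Fin N → Bil V, I w = ∑ r : Fin N → Fin (Module.finrank ℝ (Bil V)),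
      (∏ k, b.coord (r k) (w k)) * I (fun k => b (r k)) := by
    intro w
    have h1 : w = fun k => ∑ j, b.coord j (w k) • b j := by
      funext k
      exact (b.sum_repr (w k)).symm
    conv_lhs => rw [h1]
    rw [I.map_sum]
    refine Finset.sum_congr rfl fun r _ => ?_
    rw [I.map_smul_univ, smul_eq_mul]
  have h2 : (fun w : Fin N → Bil V => I w) = fun w => ∑ r : Fin N → Fin (Module.finrank ℝ (Bil V)),
      (∏ k, b.coord (r k) (w k)) * I (fun k => b (r k)) := funext h
  rw [h2]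
  refine continuous_finsetSum _ fun r _ => Continuous.mul ?_ continuous_const
  refine continuous_finsetProd _ fun k _ => ?_
  exact (LinearMap.continuous_of_finiteDimensional (b.coord (r k))).comp (continuous_apply k)

/-- the derivative of `det (1 + s E)` at `s = 0` -/
theorem hasDerivAt_det [FiniteDimensional ℝ V] (E : V →L[ℝ] V) :
    HasDerivAt (fun s : ℝ => LinearMap.det ((1 + s • E : V →L[ℝ] V) : V →ₗ[ℝ] V))
      (LinearMap.trace ℝ V (E : V →ₗ[ℝ] V)) 0 := by
  classical
  let b := Module.finBasis ℝ V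
  set M := LinearMap.toMatrix b b (E : V →ₗ[ℝ] V) with hM
  set q : Polynomial ℝ := (Matrix.det (1 + (Polynomial.X : Polynomial ℝ) • M.map Polynomial.C)).divX.divX
    with hq
  have h1 : ∀ s : ℝ, LinearMap.det ((1 + s • E : V →L[ℝ] V) : V →ₗ[ℝ] V) =
      1 + M.trace * s + q.eval s * s ^ 2 := by
    intro s
    rw [← Matrix.det_one_add_smul, ← LinearMap.det_toMatrix b]
    congr 1
    have : ((1 + s • E : V →L[ℝ] V) : V →ₗ[ℝ] V) = 1 + s • (E : V →ₗ[ℝ] V) := by
      ext u; simp
    rw [this, map_add, map_smul, LinearMap.toMatrix_one]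
  have h2 : LinearMap.trace ℝ V (E : V →ₗ[ℝ] V) = M.trace :=
    LinearMap.trace_eq_matrix_trace ℝ b _
  rw [h2]
  have h3 : HasDerivAt (fun s : ℝ => 1 + M.trace * s + q.eval s * s ^ 2)
      (0 + M.trace * 1 + (q.derivative.eval 0 * 0 ^ 2 + q.eval 0 * (2 * 0 ^ 1 * 1))) 0 := by
    refine ((hasDerivAt_const _ _).add ((hasDerivAt_id' (0 : ℝ)).const_mul _)).add ?_
    refine (q.hasDerivAt 0).mul ?_
    simpa using hasDerivAt_pow 2 (0 : ℝ)
  have h4 : (fun s : ℝ => LinearMap.det ((1 + s • E : V →L[ℝ] V) : V →ₗ[ℝ] V)) =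
      fun s : ℝ => 1 + M.trace * s + q.eval s * s ^ 2 := funext h1
  rw [h4]
  simpa using h3

/-- **infinitesimal naturality** -/
theorem inf_nat [FiniteDimensional ℝ V] {I : MultilinearMap ℝ (fun _ : Fin N => Bil V) ℝ}
    (hI : NatM I) (E : V →L[ℝ] V) (w : Fin N → Bil V) :
    ∑ k, I (update w k (act E (w k))) = LinearMap.trace ℝ V (E : V →ₗ[ℝ] V) * I w := by
  let F : ContinuousMultilinearMap ℝ (fun _ : Fin N => Bil V) ℝ := { I with cont := cont_ml I }
  let γ : ℝ → Fin N → Bil V := fun s k => w k + s • act E (w k) + s ^ 2 • pbE E (w k)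
  have h0 : γ 0 = w := by funext k; simp [γ]
  have hγ : HasDerivAt γ (fun k => act E (w k)) 0 := by
    rw [hasDerivAt_pi]
    intro k
    have h1 : HasDerivAt (fun s : ℝ => w k + s • act E (w k) + s ^ 2 • pbE E (w k))
        (0 + (1 : ℝ) • act E (w k) + (2 * 0 ^ 1 * 1 : ℝ) • pbE E (w k)) 0 := by
      refine ((hasDerivAt_const _ _).add ((hasDerivAt_id' (0 : ℝ)).smul_const _)).add ?_
      refine HasDerivAt.smul_const ?_ _
      simpa using hasDerivAt_pow 2 (0 : ℝ)
    simpa [γ] using h1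
  have h1 : HasDerivAt (fun s => F (γ s)) (F.linearDeriv w fun k => act E (w k)) 0 := by
    have h2 : HasFDerivAt F (F.linearDeriv (γ 0)) (γ 0) := F.hasFDerivAt (γ 0)
    have h3 := h2.comp_hasDerivAt (0 : ℝ) hγ
    rw [h0] at h3
    exact h3
  have h2 : ∀ s, F (γ s) = LinearMap.det ((1 + s • E : V →L[ℝ] V) : V →ₗ[ℝ] V) * I w := by
    intro s
    refine hI (1 + s • E) w (γ s) fun k u v => ?_
    simp only [γ, add_apply, smul_apply, act_apply,
      pbE_apply, one_apply_eq_self, map_add, map_smul, smul_eq_mul]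
    ring
  have h3 : HasDerivAt (fun s => F (γ s)) (LinearMap.trace ℝ V (E : V →ₗ[ℝ] V) * I w) 0 := by
    have h4 : (fun s => F (γ s)) = fun s =>
        LinearMap.det ((1 + s • E : V →L[ℝ] V) : V →ₗ[ℝ] V) * I w := funext h2
    rw [h4]
    exact (hasDerivAt_det E).mul_const _
  have h4 := h1.unique h3
  rw [← h4, ContinuousMultilinearMap.linearDeriv_apply]
  rfl

/-! ### symmetric functionals -/

theorem mixv_one_eq (hN : 1 ≤ N) (x y : Bil V) :
    mixv N 1 x y = update (fun _ => x) (⟨0, hN⟩ : Fin N) y := by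
  funext i
  by_cases hi : i = ⟨0, hN⟩
  · subst hi
    simp [mixv]
  · have : ¬ ((i : ℕ) < 1) := fun h => hi (Fin.ext (by simp; omega))
    rw [update_of_ne hi]
    simp [mixv, this]

theorem sym1 {I : MultilinearMap ℝ (fun _ : Fin N => Bil V) ℝ} (hs : Symm I) (k : Fin N)
    (x y : Bil V) : I (update (fun _ => x) k y) = I (mixv N 1 x y) := by
  have hN : 1 ≤ N := Nat.succ_le_of_lt (Nat.pos_of_ne_zero (by rintro rfl; exact k.elim0))
  rw [mixv_one_eq hN, ← hs (Equiv.swap k ⟨0, hN⟩) (update (fun _ => x) (⟨0, hN⟩ : Fin N) y)]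
  congr 1
  funext i
  by_cases hi : i = k
  · subst hi
    simp
  · rw [update_of_ne hi]
    have : Equiv.swap k (⟨0, hN⟩ : Fin N) i ≠ ⟨0, hN⟩ := by
      intro h
      apply hi
      have := congrArg (Equiv.swap k (⟨0, hN⟩ : Fin N)) h
      rw [Equiv.swap_apply_self, Equiv.swap_apply_right] at this
      exact this
    rw [update_of_ne this]

theorem sym2 {I : MultilinearMap ℝ (fun _ : Fin N => Bil V) ℝ} (hs : Symm I) {k l : Fin N}
    (hkl : k ≠ l) (x y : Bil V) :
    I (update (update (fun _ => x) k y) l y) = I (mixv N 2 x y) := by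
  have h := hs.eq_mixv (Finset.univ \ {k, l} : Finset (Fin N)) x y
  have h1 : (Finset.univ \ {k, l} : Finset (Fin N)).card = N - 2 := by
    rw [Finset.card_sdiff_of_subset (Finset.subset_univ _), Finset.card_univ, Fintype.card_fin,
      Finset.card_pair hkl]
  have h2 : 2 ≤ N := by
    have := Finset.card_le_univ ({k, l} : Finset (Fin N))
    rwa [Finset.card_pair hkl, Fintype.card_fin] at this
  rw [h1, show N - (N - 2) = 2 by omega] at h
  rw [← h]
  congr 1
  funext i
  by_cases hl : i = l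
  · subst hl
    simp
  · by_cases hk : i = k
    · subst hk
      rw [update_of_ne hl]
      simp
    · rw [update_of_ne hl, update_of_ne hk]
      simp [hl, hk]

/-- `E` acting on `(om, .., om)` -/
theorem inf_one [FiniteDimensional ℝ V] {I : MultilinearMap ℝ (fun _ : Fin N => Bil V) ℝ}
    (hI : NatM I) (hs : Symm I) (E : V →L[ℝ] V) (x : Bil V) :
    N * I (mixv N 1 x (act E x)) =
      LinearMap.trace ℝ V (E : V →ₗ[ℝ] V) * I (fun _ => x) := by
  rw [← inf_nat hI E]
  simp only [sym1 hs]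
  simp

/-- `E` acting on `(rho, om, .., om)` -/
theorem inf_two [FiniteDimensional ℝ V] (hN : 2 ≤ N)
    {I : MultilinearMap ℝ (fun _ : Fin N => Bil V) ℝ}
    (hI : NatM I) (hs : Symm I) (E : V →L[ℝ] V) (x y : Bil V) (hxy : act E x = y) :
    I (mixv N 1 x (act E y)) + (N - 1) * I (mixv N 2 x y) =
      LinearMap.trace ℝ V (E : V →ₗ[ℝ] V) * I (mixv N 1 x y) := by
  set k0 : Fin N := ⟨0, by omega⟩ with hk0
  rw [mixv_one_eq (by omega : 1 ≤ N) x y, ← hk0, ← inf_nat hI E, ← sym1 hs k0 x (act E y),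
    ← Finset.add_sum_erase _ _ (Finset.mem_univ k0)]
  congr 1
  · rw [update_self, update_idem]
  · have h1 : ∀ k ∈ Finset.univ.erase k0, I (update (update (fun _ => x) k0 y) k
        (act E (update (fun _ => x) k0 y k))) = I (mixv N 2 x y) := by
      intro k hk
      have hk' : k ≠ k0 := Finset.ne_of_mem_erase hk
      rw [update_of_ne hk', hxy]
      exact sym2 hs (Ne.symm hk') x y
    rw [Finset.sum_congr rfl h1, Finset.sum_const, Finset.card_erase_of_mem (Finset.mem_univ _),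
      Finset.card_univ, Fintype.card_fin, nsmul_eq_mul, Nat.cast_sub (by omega)]
    simp

/-! ### forms of type (2,0) + (0,2) -/

/-- a complex structure `J` with invariant inner product `g` and a skew `R`, `R J = - J R` -/
structure HR (V : Type*) [NormedAddCommGroup V] [NormedSpace ℝ V] where
  g : Bil V
  J : V →L[ℝ] V
  R : V →L[ℝ] V
  symm : ∀ u v, g u v = g v u
  sq : ∀ u, J (J u) = -u
  inv : ∀ u v, g (J u) (J v) = g u v
  skew : ∀ u v, g (R u) v = -g u (R v)
  anti : ∀ u, R (J u) = -J (R u)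

namespace HR

variable (H : HR V)

/-- `om = g (J ·, ·)` -/
def om : Bil V := H.g.comp H.J
/-- `rho = g (R ·, ·)` -/
def rho : Bil V := H.g.comp H.R

@[simp] theorem om_apply (u v : V) : H.om u v = H.g (H.J u) v := rfl
@[simp] theorem rho_apply (u v : V) : H.rho u v = H.g (H.R u) v := rfl

theorem Jskew (u v : V) : H.g (H.J u) v = -H.g u (H.J v) := by
  have h := H.inv u (H.J v)
  rw [H.sq] at h
  rw [← h]
  simp

/-- `- J R / 2` -/
def E : V →L[ℝ] V := (-(1 / 2 : ℝ)) • H.J.comp H.R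

@[simp] theorem E_apply (u : V) : H.E u = (-(1 / 2 : ℝ)) • H.J (H.R u) := rfl

theorem act_om : act H.E H.om = H.rho := by
  ext u v
  simp only [act_apply, om_apply, rho_apply, E_apply, map_smul, smul_apply, smul_eq_mul, H.sq,
    H.inv]
  rw [H.skew]
  simp only [map_neg, neg_apply]
  rw [H.skew]
  ring

/-- `g (J R² ·, ·)` -/
def tau : Bil V := H.g.comp (H.J.comp (H.R.comp H.R))

@[simp] theorem tau_apply (u v : V) : H.tau u v = H.g (H.J (H.R (H.R u))) v := rfl

theorem act_rho : act H.E H.rho = H.tau := by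
  ext u v
  simp only [act_apply, rho_apply, tau_apply, E_apply, map_smul, smul_apply, smul_eq_mul, H.anti]
  have h1 : H.g (H.R u) (H.J (H.R v)) = -H.g (H.J (H.R u)) (H.R v) := by
    rw [H.Jskew]; ring
  have h2 : H.g (H.J (H.R u)) (H.R v) = -H.g (H.R (H.J (H.R u))) v := by
    rw [H.skew]; ring
  rw [h1, h2, H.anti]
  simp only [map_neg, neg_apply]
  ring

/-- `R² / 2` -/
def B : V →L[ℝ] V := ((1 / 2 : ℝ)) • H.R.comp H.R

@[simp] theorem B_apply (u : V) : H.B u = ((1 / 2 : ℝ)) • H.R (H.R u) := rfl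

theorem act_B : act H.B H.om = H.tau := by
  ext u v
  simp only [act_apply, om_apply, tau_apply, B_apply, map_smul, smul_apply, smul_eq_mul]
  have h1 : H.g (H.J u) (H.R (H.R v)) = H.g (H.R (H.R (H.J u))) v := by
    rw [H.skew, H.skew]; ring
  rw [h1, H.anti, map_neg, H.anti, neg_neg]
  ring

theorem tr_E [FiniteDimensional ℝ V] : LinearMap.trace ℝ V (H.E : V →ₗ[ℝ] V) = 0 := by
  have h1 : (H.E : V →ₗ[ℝ] V) = (-(1 / 2 : ℝ)) • ((H.J : V →ₗ[ℝ] V) * (H.R : V →ₗ[ℝ] V)) := by
    ext u; simp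
  have h2 : (H.R : V →ₗ[ℝ] V) * (H.J : V →ₗ[ℝ] V) =
      -((H.J : V →ₗ[ℝ] V) * (H.R : V →ₗ[ℝ] V)) := by
    ext u; simp [H.anti]
  have h3 := LinearMap.trace_mul_comm ℝ (H.R : V →ₗ[ℝ] V) (H.J : V →ₗ[ℝ] V)
  rw [h2, map_neg] at h3
  have h4 : LinearMap.trace ℝ V ((H.J : V →ₗ[ℝ] V) * (H.R : V →ₗ[ℝ] V)) = 0 := by linarith
  rw [h1, map_smul, h4, smul_zero]

variable [FiniteDimensional ℝ V] {I : MultilinearMap ℝ (fun _ : Fin N => Bil V) ℝ}

/-- **first order term** -/
theorem one (hN : 1 ≤ N) (hI : NatM I) (hs : Symm I) : I (mixv N 1 H.om H.rho) = 0 := by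
  have h := inf_one hI hs H.E H.om
  rw [H.act_om, H.tr_E, zero_mul] at h
  have : (N : ℝ) ≠ 0 := by positivity
  exact (mul_eq_zero.1 h).resolve_left this

/-- **second order term** -/
theorem two (hN : 2 ≤ N) (hI : NatM I) (hs : Symm I) :
    2 * N * (N - 1) * I (mixv N 2 H.om H.rho) =
      -LinearMap.trace ℝ V ((H.R.comp H.R : V →L[ℝ] V) : V →ₗ[ℝ] V) * I (fun _ => H.om) := by
  have h1 := inf_two hN hI hs H.E H.om H.rho H.act_om
  rw [H.tr_E, zero_mul, H.act_rho] at h1
  have h2 := inf_one hI hs H.B H.om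
  rw [H.act_B] at h2
  have h3 : LinearMap.trace ℝ V (H.B : V →ₗ[ℝ] V) =
      (1 / 2) * LinearMap.trace ℝ V ((H.R.comp H.R : V →L[ℝ] V) : V →ₗ[ℝ] V) := by
    rw [← smul_eq_mul, ← map_smul]
    rfl
  rw [h3] at h2
  linear_combination (2 * N : ℝ) * h1 - 2 * h2

end HR

end

end Crest.Agent.R281.Al_830
end

-- ▼ part R281/Al2_830
section

/-!
# Row 281, HK-ALONG, part 2 (helper830): `∫ om^(N-2) ∧ ρ ∧ ρ` for `ρ` of type (2,0) + (0,2)

* `TPM b`      : the top form as a natural symmetric multilinear map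
* `exists_HR`  : pointwise: `om` positive (1,1), `ρ` anti-invariant ==> `HR` data
* `trace_sq`   : `- tr (R²) ≥ 0`, `> 0` if `R ≠ 0`
* `pw_one`, `pw_two` : the pointwise statements
* `A20 J ρ`    : `ρ` is of type (2,0) + (0,2)
* `int_one`, `int_two` : `∫ om^(N-1) ρ = 0`, `∫ om^(N-2) ρ² ≥ 0`, `= 0` only for `ρ = 0`
-/

set_option autoImplicit false
set_option linter.unusedSectionVars false
set_option maxSynthPendingDepth 3

open Set Filter Topology Function MeasureTheory
open scoped ContDiff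

namespace Crest.Agent.R281.Al_830

open Crest.Agent.R281.HKA_799 (Bil NatM)
open Crest.Agent.R281.FujP_513 (Symm mixv)
open Crest.Agent.R281.HkR_835 (RCh F2 HkT Cmp)
open Crest.Agent.R281.Ti_846
open Crest.Agent.R281.NefO_476
open Crest.Agent.R281.Nef_252

noncomputable section

section pw

variable {V : Type} [NormedAddCommGroup V] [NormedSpace ℝ V] {N : ℕ}

/-- the top form of `N` bilinear forms -/
def TPM (b : Module.Basis (Fin N × Fin 2) ℝ V) : MultilinearMap ℝ (fun _ : Fin N => Bil V) ℝ where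
  toFun w := TP b w
  map_update_add' := by
    intro D w k x y
    convert TP_update_add b w k x y
  map_update_smul' := by
    intro D w k c x
    rw [smul_eq_mul]
    convert TP_update_smul b w k c x

variable (b : Module.Basis (Fin N × Fin 2) ℝ V)

@[simp] theorem TPM_apply (w : Fin N → Bil V) : TPM b w = TP b w := rfl

theorem natM_TPM : NatM (TPM b) := fun T _ _ h => TP_comp' b T h

theorem symm_TPM : Symm (TPM b) := fun σ w => TP_perm b w σ

/-- a form `om`, positive and invariant under `J`; `ρ` anti-invariant -/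
theorem exists_HR [FiniteDimensional ℝ V] {J : V →L[ℝ] V} (hJ : ∀ u, J (J u) = -u)
    {om ρ : Bil V} (oa : ∀ u v, om u v = -om v u) (oi : ∀ u v, om (J u) (J v) = om u v)
    (op : ∀ u, u ≠ 0 → 0 < om u (J u)) (ra : ∀ u v, ρ u v = -ρ v u)
    (ri : ∀ u v, ρ (J u) (J v) = -ρ u v) :
    ∃ H : HR V, H.om = om ∧ H.rho = ρ ∧ H.J = J ∧ ∀ u, u ≠ 0 → 0 < H.g u u := by
  set g : Bil V := (om.flip.comp J).flip with hg
  have hga : ∀ u v, g u v = om u (J v) := fun u v => rfl
  have hpos : ∀ u, u ≠ 0 → 0 < g u u := fun u hu => op u hu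
  have hsymm : ∀ u v, g u v = g v u := by
    intro u v
    rw [hga, hga, ← oi u (J v), hJ, map_neg, oa v (J u)]
  have hinv : ∀ u v, g (J u) (J v) = g u v := by
    intro u v
    rw [hga, hga, oi]
  -- the map `V → V*` is bijective
  set G : V →ₗ[ℝ] (V →L[ℝ] ℝ) := (g : V →ₗ[ℝ] (V →L[ℝ] ℝ)) with hG
  have hinj : Function.Injective G := by
    rw [← LinearMap.ker_eq_bot, LinearMap.ker_eq_bot']
    intro u hu
    by_contra hne
    have := hpos u hne
    have h0 : g u u = 0 := congrArg (fun L : V →L[ℝ] ℝ => L u) hu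
    linarith
  have hdim : Module.finrank ℝ V = Module.finrank ℝ (V →L[ℝ] ℝ) := by
    rw [← (LinearMap.toContinuousLinearMap (𝕜 := ℝ) (E := V) (F' := ℝ)).finrank_eq]
    exact (Subspace.dual_finrank_eq (K := ℝ) (V := V)).symm
  let e : V ≃ₗ[ℝ] (V →L[ℝ] ℝ) := LinearEquiv.ofInjectiveOfFinrankEq G hinj hdim
  let R : V →L[ℝ] V := LinearMap.toContinuousLinearMap
    ((e.symm : (V →L[ℝ] ℝ) →ₗ[ℝ] V).comp (ρ : V →ₗ[ℝ] (V →L[ℝ] ℝ)))
  have hR : ∀ u v, g (R u) v = ρ u v := by
    intro u v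
    have h1 : e (e.symm (ρ u)) = ρ u := e.apply_symm_apply _
    have h2 : G (R u) = ρ u := h1
    exact congrArg (fun L : V →L[ℝ] ℝ => L v) h2
  have hri : ∀ u v, ρ (J u) v = ρ u (J v) := by
    intro u v
    have := ri u (J v)
    rw [hJ, map_neg] at this
    linarith
  refine ⟨⟨g, J, R, hsymm, hJ, hinv, fun u v => ?_, fun u => ?_⟩, ?_, ?_, rfl, hpos⟩
  · rw [hR, ra, ← hR v u, hsymm]
  · apply hinj
    ext v
    show g (R (J u)) v = g (-J (R u)) v
    have h3 : g (J (R u)) v = -g (R u) (J v) := by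
      have := hinv (R u) (J v)
      rw [hJ, map_neg] at this
      linarith
    rw [hR, map_neg, neg_apply, h3, neg_neg, hR, hri]
  · ext u v
    show g (J u) v = om u v
    rw [hga, oi]
  · ext u v
    exact hR u v

/-- the trace of the square of a skew map -/
theorem trace_sq [FiniteDimensional ℝ V] (H : HR V) (hp : ∀ u, u ≠ 0 → 0 < H.g u u) :
    0 ≤ -LinearMap.trace ℝ V ((H.R.comp H.R : V →L[ℝ] V) : V →ₗ[ℝ] V) ∧
      (-LinearMap.trace ℝ V ((H.R.comp H.R : V →L[ℝ] V) : V →ₗ[ℝ] V) = 0 → ∀ u, H.R u = 0) := by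
  classical
  let B : LinearMap.BilinForm ℝ V :=
    { toFun := fun u => (H.g u : V →ₗ[ℝ] ℝ)
      map_add' := fun u v => by ext w; simp
      map_smul' := fun c v => by ext w; simp }
  have hB : ∀ u v, B u v = H.g u v := fun u v => rfl
  have hs : LinearMap.IsSymm B := ⟨fun u v => by
    rw [RingHom.id_apply]; exact H.symm u v⟩
  obtain ⟨v, hv⟩ := LinearMap.BilinForm.exists_orthogonal_basis (B := B) hs
  have hvv : ∀ i j, i ≠ j → H.g (v i) (v j) = 0 := fun i j hij => hv hij
  have hd : ∀ i, 0 < H.g (v i) (v i) := fun i => hp _ (v.ne_zero i)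
  have hrep : ∀ x i, v.repr x i = H.g (v i) x / H.g (v i) (v i) := by
    intro x i
    have h1 : H.g (v i) x = v.repr x i * H.g (v i) (v i) := by
      conv_lhs => rw [← v.sum_repr x]
      rw [map_sum, Finset.sum_eq_single i]
      · rw [map_smul, smul_eq_mul]
      · intro j _ hj
        rw [map_smul, hvv i j (Ne.symm hj), smul_zero]
      · intro h; exact absurd (Finset.mem_univ i) h
    rw [h1, mul_div_assoc, div_self (hd i).ne', mul_one]
  have htr : LinearMap.trace ℝ V ((H.R.comp H.R : V →L[ℝ] V) : V →ₗ[ℝ] V) =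
      -∑ i, H.g (H.R (v i)) (H.R (v i)) / H.g (v i) (v i) := by
    rw [LinearMap.trace_eq_matrix_trace ℝ v, Matrix.trace, ← Finset.sum_neg_distrib]
    refine Finset.sum_congr rfl fun i _ => ?_
    rw [Matrix.diag_apply, LinearMap.toMatrix_apply, hrep]
    show H.g (v i) (H.R (H.R (v i))) / _ = _
    have : H.g (v i) (H.R (H.R (v i))) = -H.g (H.R (v i)) (H.R (v i)) := by
      have := H.skew (v i) (H.R (v i))
      linarith
    rw [this, neg_div]
  have hnn : ∀ u, 0 ≤ H.g u u := fun u => by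
    by_cases hu : u = 0
    · subst hu; simp
    · exact (hp u hu).le
  have hterm : ∀ i ∈ Finset.univ, 0 ≤ H.g (H.R (v i)) (H.R (v i)) / H.g (v i) (v i) :=
    fun i _ => div_nonneg (hnn _) (hd i).le
  rw [htr, neg_neg]
  refine ⟨Finset.sum_nonneg hterm, fun h0 => ?_⟩
  have h1 := (Finset.sum_eq_zero_iff_of_nonneg hterm).1 h0
  have h2 : ∀ i, H.R (v i) = 0 := by
    intro i
    by_contra hne
    have h3 := div_pos (hp _ hne) (hd i)
    rw [h1 i (Finset.mem_univ i)] at h3
    exact lt_irrefl _ h3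
  have h3 : (H.R : V →ₗ[ℝ] V) = 0 := v.ext fun i => by simpa using h2 i
  intro u
  exact congrArg (fun L : V →ₗ[ℝ] V => L u) h3

variable [FiniteDimensional ℝ V]

/-- pointwise: `om^(N-1) ∧ ρ = 0` -/
theorem pw_one (hN : 1 ≤ N) {J : V →L[ℝ] V} (hJ : ∀ u, J (J u) = -u)
    {om ρ : Bil V} (oa : ∀ u v, om u v = -om v u) (oi : ∀ u v, om (J u) (J v) = om u v)
    (op : ∀ u, u ≠ 0 → 0 < om u (J u)) (ra : ∀ u v, ρ u v = -ρ v u)
    (ri : ∀ u v, ρ (J u) (J v) = -ρ u v) : TP b (mixv N 1 om ρ) = 0 := by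
  obtain ⟨H, rfl, rfl, -, -⟩ := exists_HR hJ oa oi op ra ri
  exact H.one hN (natM_TPM b) (symm_TPM b)

/-- pointwise: `om^(N-2) ∧ ρ ∧ ρ ≥ 0` -/
theorem pw_two (hN : 2 ≤ N) {J : V →L[ℝ] V} (hJ : ∀ u, J (J u) = -u)
    {om ρ : Bil V} (oa : ∀ u v, om u v = -om v u) (oi : ∀ u v, om (J u) (J v) = om u v)
    (op : ∀ u, u ≠ 0 → 0 < om u (J u)) (ra : ∀ u v, ρ u v = -ρ v u)
    (ri : ∀ u v, ρ (J u) (J v) = -ρ u v) (ho : 0 < TP b (fun _ : Fin N => om)) :
    0 ≤ TP b (mixv N 2 om ρ) ∧ (TP b (mixv N 2 om ρ) = 0 → ρ = 0) := by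
  obtain ⟨H, rfl, rfl, -, hp⟩ := exists_HR hJ oa oi op ra ri
  have h := H.two hN (natM_TPM b) (symm_TPM b)
  simp only [TPM_apply] at h
  obtain ⟨h1, h2⟩ := trace_sq H hp
  have hN' : (2 : ℝ) ≤ N := by exact_mod_cast hN
  have hc : (0 : ℝ) < 2 * N * (N - 1) := by nlinarith
  constructor
  · have h3 : 0 ≤ 2 * N * (N - 1) * TP b (mixv N 2 H.om H.rho) := by
      rw [h]; exact mul_nonneg h1 ho.le
    exact nonneg_of_mul_nonneg_right h3 hc
  · intro h0
    rw [h0, mul_zero] at h
    have h3 := (mul_eq_zero.1 h.symm).resolve_right ho.ne'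
    have h4 := h2 h3
    ext u v
    rw [H.rho_apply, h4]
    simp

end pw

/-! ### integrals -/

variable {V X : Type} [NormedAddCommGroup V] [NormedSpace ℝ V] [FiniteDimensional ℝ V]
  [MeasurableSpace V] [BorelSpace V] (μ : Measure V) [μ.IsAddHaarMeasure] [TopologicalSpace X]
  [CompactSpace X] {C : RCh V X} {N : ℕ} (b : Module.Basis (Fin N × Fin 2) ℝ V) (P : RPart C)

/-- real forms of type (2,0) + (0,2) -/
def A20 (J : AJ C) (ρ : F2 C) : Prop :=
  ∀ i, ∀ z ∈ (C.e i).target, ∀ u v, ρ.w i z (J.J i z u) (J.J i z v) = -ρ.w i z u v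

/-- the value at a point -/
theorem mix_w (a : ℕ) (x y : F2 C) (i : C.ι) (z : V) :
    (fun k => (mixv N a x y k).w i z) = mixv N a (x.w i z) (y.w i z) := by
  funext k
  unfold mixv
  split_ifs <;> rfl

/-- a nonnegative top form with integral zero vanishes -/
theorem intT_eq_zero (hP : ∀ k x, 0 ≤ P.ψ k x) {D : TopF C}
    (h : ∀ i, ∀ z ∈ (C.e i).target, 0 ≤ D.D i z) (h0 : intT μ P D = 0) :
    ∀ i, ∀ z ∈ (C.e i).target, D.D i z = 0 := by
  have hnn : ∀ k ∈ (Finset.univ : Finset P.σ), 0 ≤ ∫ z in (C.e (P.c k)).target,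
      P.ψ k ((C.e (P.c k)).symm z) * D.D (P.c k) z ∂μ := fun k _ =>
    setIntegral_nonneg (C.e _).open_target.measurableSet fun z hz =>
      mul_nonneg (hP _ _) (h _ z hz)
  have h1 := (Finset.sum_eq_zero_iff_of_nonneg hnn).1 h0
  -- each integrand vanishes
  have h2 : ∀ k, ∀ z ∈ (C.e (P.c k)).target,
      P.ψ k ((C.e (P.c k)).symm z) * D.D (P.c k) z = 0 := by
    intro k
    have hint := integrableOn_psi μ P D k
    have hc : ContinuousOn (fun z => P.ψ k ((C.e (P.c k)).symm z) * D.D (P.c k) z)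
        (C.e (P.c k)).target := (cont_psi_symm P k _).mul (D.cont _)
    have h3 : ∀ᵐ z ∂(μ.restrict (C.e (P.c k)).target),
        P.ψ k ((C.e (P.c k)).symm z) * D.D (P.c k) z = 0 := by
      have h4 := (setIntegral_eq_zero_iff_of_nonneg_ae ?_ hint).1 (h1 k (Finset.mem_univ k))
      · exact h4
      · exact (ae_restrict_iff' (C.e _).open_target.measurableSet).2
          (Eventually.of_forall fun z hz => mul_nonneg (hP _ _) (h _ z hz))
    intro z hz
    by_contra hne
    -- nonzero on a neighbourhood, positive measure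
    have ho : (C.e (P.c k)).target ∈ 𝓝 z := (C.e _).open_target.mem_nhds hz
    have hcz : ContinuousAt (fun z => P.ψ k ((C.e (P.c k)).symm z) * D.D (P.c k) z) z :=
      hc.continuousAt ho
    have h5 := (hcz.eventually_ne hne).and ho
    obtain ⟨U, hU, hUo, hUz⟩ := mem_nhds_iff.1 h5
    have h6 : μ U = 0 := by
      have h7 := (ae_restrict_iff' (C.e (P.c k)).open_target.measurableSet).1 h3
      rw [ae_iff] at h7
      refine measure_mono_null (fun y hy => ?_) h7
      intro h8
      exact (hU hy).1 (h8 (hU hy).2)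
    exact (hUo.measure_pos μ ⟨z, hUz⟩).ne' h6
  intro i z hz
  -- some partition function is nonzero
  have hs := P.sum_one ((C.e i).symm z)
  obtain ⟨k, -, hk⟩ : ∃ k ∈ (Finset.univ : Finset P.σ), P.ψ k ((C.e i).symm z) ≠ 0 := by
    by_contra hcon
    push Not at hcon
    rw [Finset.sum_eq_zero hcon] at hs
    exact zero_ne_one hs
  have hsrc : (C.e i).symm z ∈ (C.e (P.c k)).source :=
    P.sub k (subset_tsupport _ hk)
  have hov : z ∈ C.ov i (P.c k) := ⟨hz, hsrc⟩
  have h3 := h2 k (C.t i (P.c k) z) (RCh.t_mem hov).1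
  have h4 : (C.e (P.c k)).symm (C.t i (P.c k) z) = (C.e i).symm z :=
    (C.e (P.c k)).left_inv hsrc
  rw [h4] at h3
  rw [D.tr i (P.c k) z hov, (mul_eq_zero.1 h3).resolve_left hk, mul_zero]

variable {J : AJ C} (hJ : ∀ i, ∀ z ∈ (C.e i).target, ∀ v, J.J i z (J.J i z v) = -v)
  {om ρ : F2 C} (h11 : T11 J om) (hpos : Pos J om) (hρ : A20 J ρ)

include hJ h11 hpos hρ

/-- **`∫ om^(N-1) ∧ ρ = 0`** -/
theorem int_one (hN : 1 ≤ N) : IM μ b P (mixv N 1 om ρ) = 0 := by
  rw [IM_apply]
  have h := intT_sum μ P (∅ : Finset (Fin 1)) (fun _ => 0) (fun _ => TopF.of b (mixv N 1 om ρ))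
    (TopF.of b (mixv N 1 om ρ)) fun i z hz => by
      rw [Finset.sum_empty, TopF.of_D, mix_w]
      exact pw_one b hN (hJ i z hz) (om.alt i z hz) (h11 i z hz) (hpos i z hz) (ρ.alt i z hz)
        (hρ i z hz)
  rw [Finset.sum_empty] at h
  exact h

/-- **`∫ om^(N-2) ∧ ρ ∧ ρ ≥ 0`, with equality only for `ρ = 0`** -/
theorem int_two (hN : 2 ≤ N) (hP : ∀ k x, 0 ≤ P.ψ k x)
    (ho : ∀ i, ∀ z ∈ (C.e i).target, 0 < TP b (fun _ : Fin N => om.w i z)) :
    0 ≤ IM μ b P (mixv N 2 om ρ) ∧
      (IM μ b P (mixv N 2 om ρ) = 0 → ∀ i, ∀ z ∈ (C.e i).target, ρ.w i z = 0) := by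
  have hpw : ∀ i, ∀ z ∈ (C.e i).target, 0 ≤ (TopF.of b (mixv N 2 om ρ)).D i z ∧
      ((TopF.of b (mixv N 2 om ρ)).D i z = 0 → ρ.w i z = 0) := by
    intro i z hz
    rw [TopF.of_D, mix_w]
    exact pw_two b hN (hJ i z hz) (om.alt i z hz) (h11 i z hz) (hpos i z hz) (ρ.alt i z hz)
      (hρ i z hz) (ho i z hz)
  refine ⟨intT_nonneg μ P hP fun i z hz => (hpw i z hz).1, fun h0 i z hz => ?_⟩
  exact (hpw i z hz).2 (intT_eq_zero μ P hP (fun i z hz => (hpw i z hz).1) h0 i z hz)

end

end Crest.Agent.R281.Al_830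
end

-- ▼ part R281/Al3_830

/-!
# Row 281, HK-ALONG, part 3 (helper830): every member has `h^{2,0} = 1`

* `IsI J A`   : in the charts of the holomorphic atlas `A` the field `J` is multiplication by `i`
* `TP_om_ne`  : the top power of a positive (1,1)-form does not vanish
* `sign_pos`  : on a connected space it is everywhere positive if its integral is
* `TopI`      : the topological input: Fujiki relation and signature (at most 3 positive squares)
* `dep3`      : three forms of type (2,0) + (0,2) are linearly dependent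
* `uniq_mem`  : `σ.Uniq` for every holomorphic symplectic form on `(X, J)`
-/

set_option autoImplicit false
set_option linter.unusedSectionVars false
set_option maxSynthPendingDepth 3

open Set Filter Topology Function MeasureTheory Complex
open scoped ContDiff Matrix ComplexConjugate ComplexOrder

namespace Crest.Agent.R281.Al_830

open Crest.Agent.R275.Geo Crest.Agent.R275.Core144 Crest.Agent.R275.EDR890
open Crest.Agent.R273.Kah_333 Crest.Agent.R281.Defs_273
open Crest.Agent.R273.NoHVF_376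
open Crest.Agent.R281.HkP1_508 Crest.Agent.R281.HkP2_508
open Crest.Agent.R281.HKA_799 (NatM)
open Crest.Agent.R281.FujP_513 (Symm mixv)
open Crest.Agent.R281.HkR_835 hiding pb pb_apply
open Crest.Agent.R281.HkR_835.Cmp
open Crest.Agent.R281.Ti_846 hiding pb pb_apply
open Crest.Agent.R281.NefO_476
open Crest.Agent.R281.Nef_252
open Crest.Agent.R281.Fuj4_207 (IM_symm kills)

noncomputable section

/-! ### pointwise -/

section pw

variable {d : ℕ}

theorem GB_pos {B : Bil (Cn d)} (hB : ∀ u v, B (I • u) (I • v) = B u v)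
    (hA : ∀ u v, B u v = -B v u) (hp : ∀ u, u ≠ 0 → 0 < B u (I • u)) : (GB B).PosDef := by
  refine Matrix.PosDef.of_dotProduct_mulVec_pos (GB_herm hB hA) fun y hy => ?_
  set v : Cn d := WithLp.toLp 2 (fun b => conj (y b)) with hv
  have h1 : star y ⬝ᵥ (GB B *ᵥ y) = hb (GB B) v v := by
    rw [hb_self]
    congr 2
    · funext b
      simp [hv]
    · funext b
      simp [hv]
  have hv0 : v ≠ 0 := by
    intro h0
    apply hy
    funext b
    have : v b = 0 := by rw [h0]; rfl
    simpa [hv] using this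
  have h3 : B v v = 0 := by
    have := hA v v
    linarith
  rw [h1, ← hw_eq hB, hw, h3]
  have h4 := hp v hv0
  simp only [ofReal_zero, mul_zero, sub_zero]
  exact_mod_cast h4

/-- the top power of a positive (1,1)-form does not vanish -/
theorem TP_ne {N : ℕ} (b : Module.Basis (Fin N × Fin 2) ℝ (Cn d)) {B : Bil (Cn d)}
    (hB : ∀ u v, B (I • u) (I • v) = B u v) (hA : ∀ u v, B u v = -B v u)
    (hp : ∀ u, u ≠ 0 → 0 < B u (I • u)) : TP b (fun _ : Fin N => B) ≠ 0 := by
  have hN : N = d := by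
    have h1 := Module.finrank_eq_card_basis b
    have h2 := Module.finrank_eq_card_basis (bc d)
    rw [h1] at h2
    simp at h2
    omega
  subst hN
  have h1 : TP (bc N) (fun _ : Fin N => B) ≠ 0 := by
    have h2 := TP_herm (w := fun _ : Fin N => B) (G := fun _ => GB B) (fun _ => GB_herm hB hA)
      (fun _ u v => eq_hb hB u v)
    intro h0
    rw [h0, MD_same] at h2
    have h3 := (GB_pos hB hA hp).det_pos.ne'
    have h4 : (2 : ℂ) ^ N * ((N.factorial : ℂ) * (GB B).det) ≠ 0 := by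
      refine mul_ne_zero (by positivity) (mul_ne_zero ?_ h3)
      exact_mod_cast N.factorial_ne_zero
    exact h4 (by simpa using h2.symm)
  rw [← wed_apply] at h1 ⊢
  have h2 := AlternatingMap.eq_smul_basis_det (bc N) (wed fun _ : Fin N => B)
  have h3 : wed (fun _ : Fin N => B) b = wed (fun _ : Fin N => B) (bc N) * (bc N).det b := by
    conv_lhs => rw [h2]
    rfl
  rw [h3]
  exact mul_ne_zero h1 ((bc N).isUnit_det b).ne_zero

end pw

variable {V X : Type} [NormedAddCommGroup V] [NormedSpace ℝ V] [TopologicalSpace X]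
  {C : RCh V X} {d : ℕ} {A : Atl d X}

/-- in the charts of `A`, `J` is the multiplication by `i` -/
def IsI (J : AJ C) (A : Atl d X) : Prop := ∀ (i : C.ι) (j : A.ι), ∀ z ∈ mov C (ofAtl A) i j, ∀ v,
  J.J i (mt C (ofAtl A) i j z) (fderiv ℝ (mt C (ofAtl A) i j) z v) =
    fderiv ℝ (mt C (ofAtl A) i j) z (I • v)

theorem mov_swap {V' : Type} [NormedAddCommGroup V'] [NormedSpace ℝ V'] {C' : RCh V' X}
    {i : C.ι} {j : C'.ι} {z : V} (hz : z ∈ mov C' C j i) :
    mt C' C j i z ∈ mov C C' i j ∧ mt C C' i j (mt C' C j i z) = z :=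
  ⟨mt_mem hz, mt_mt hz⟩

theorem IsI.back {J : AJ C} (hI : IsI J A) (h : Cmp C (ofAtl A)) {i : C.ι} {j : A.ι} {z : V}
    (hz : z ∈ mov (ofAtl A) C j i) (v : V) :
    fderiv ℝ (mt (ofAtl A) C j i) z (J.J i z v) = I • fderiv ℝ (mt (ofAtl A) C j i) z v := by
  obtain ⟨h1, h2⟩ := mov_swap (C := C) (C' := ofAtl A) hz
  have h3 := hI i j _ h1 (fderiv ℝ (mt (ofAtl A) C j i) z v)
  rw [h2] at h3
  have h4 := h.symm.d_d hz v
  rw [h4] at h3
  rw [h3]
  exact h.symm.d_d' hz _

/-- forms of type (1,1) in the charts of `A` -/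
theorem IsI.t11 {J : AJ C} (hI : IsI J A) (h : Cmp C (ofAtl A)) {w : F2 C} (hw : T11 J w)
    (j : A.ι) (z : Cn d) (hz : z ∈ (A.e j).target) (u v : Cn d) :
    (h.F w).w j z (I • u) (I • v) = (h.F w).w j z u v := by
  obtain ⟨i, hi⟩ := exists_mov (C' := ofAtl A) C (j := j) hz
  rw [h.F_w w hi, h.F_w w hi, ← hI i j z hi, ← hI i j z hi, hw i _ (mt_mem hi).1]

theorem IsI.pos {J : AJ C} (hI : IsI J A) (h : Cmp C (ofAtl A)) {w : F2 C} (hw : Pos J w)
    (j : A.ι) (z : Cn d) (hz : z ∈ (A.e j).target) (u : Cn d) (hu : u ≠ 0) :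
    0 < (h.F w).w j z u (I • u) := by
  obtain ⟨i, hi⟩ := exists_mov (C' := ofAtl A) C (j := j) hz
  rw [h.F_w w hi, ← hI i j z hi]
  refine hw i _ (mt_mem hi).1 _ fun h0 => hu ?_
  exact h.inj hi (by rw [h0, map_zero])

/-- **nonvanishing** -/
theorem TP_om_ne [FiniteDimensional ℝ V] {N : ℕ} (b : Module.Basis (Fin N × Fin 2) ℝ V) {J : AJ C}
    (hI : IsI J A) (h : Cmp C (ofAtl A)) {om : F2 C} (h11 : T11 J om) (hp : Pos J om)
    (i : C.ι) (z : V) (hz : z ∈ (C.e i).target) : TP b (fun _ : Fin N => om.w i z) ≠ 0 := by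
  obtain ⟨j, hj⟩ := exists_mov (C' := C) (ofAtl A) (j := i) hz
  obtain ⟨h1, h2⟩ := mov_swap (C := C) (C' := ofAtl A) hj
  set L := fderiv ℝ (mt (ofAtl A) C j i) z with hL
  set L' := fderiv ℝ (mt C (ofAtl A) i j) (mt (ofAtl A) C j i z) with hL'
  have hLL : ∀ v, L' (L v) = v := fun v => h.symm.d_d hj v
  have hLL' : ∀ v, L (L' v) = v := fun v => h.symm.d_d' hj v
  let E : V ≃ₗ[ℝ] Cn d :=
    { toFun := L, map_add' := fun u v => map_add L u v, map_smul' := fun c v => map_smul L c v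
      invFun := L', left_inv := hLL, right_inv := hLL' }
  set B := (h.F om).w j (mt (ofAtl A) C j i z) with hB
  have e1 : ∀ u v, om.w i z u v = B (L u) (L v) := by
    intro u v
    rw [hB, h.F_w om h1, hLL, hLL, h2]
  have e2 : TP b (fun _ : Fin N => om.w i z) = TP (b.map E) (fun _ : Fin N => B) := by
    unfold TP
    refine Finset.sum_congr rfl fun s _ => ?_
    congr 1
    refine Finset.prod_congr rfl fun k _ => ?_
    rw [e1, Module.Basis.map_apply, Module.Basis.map_apply]
    rfl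
  rw [e2]
  have hz' : mt (ofAtl A) C j i z ∈ (A.e j).target := (mt_mem hj).1
  exact TP_ne (b.map E) (fun u v => hI.t11 h h11 j _ hz' u v) ((h.F om).alt j _ hz')
    (fun u hu => hI.pos h hp j _ hz' u hu)

section int

variable [FiniteDimensional ℝ V] [MeasurableSpace V] [BorelSpace V] (μ : Measure V)
  [μ.IsAddHaarMeasure] [CompactSpace X] {N : ℕ} (b : Module.Basis (Fin N × Fin 2) ℝ V)
  (P : RPart C)

/-- **the sign of the top power** -/
theorem sign_pos [PreconnectedSpace X] (ho : Ori C) (hP : ∀ k x, 0 ≤ P.ψ k x) {om : F2 C}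
    (hne : ∀ i, ∀ z ∈ (C.e i).target, TP b (fun _ : Fin N => om.w i z) ≠ 0)
    (hpos : 0 < IM μ b P (fun _ => om)) :
    ∀ i, ∀ z ∈ (C.e i).target, 0 < TP b (fun _ : Fin N => om.w i z) := by
  set D := TopF.of b (fun _ : Fin N => om) with hD
  have hD' : ∀ i z, D.D i z = TP b (fun _ : Fin N => om.w i z) := fun i z => rfl
  -- sets of points with positive / negative value
  let U : ℝ → Set X := fun s => {x | ∃ i, x ∈ (C.e i).source ∧ 0 < s * D.D i (C.e i x)}
  have hop : ∀ s, IsOpen (U s) := by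
    intro s
    have : U s = ⋃ i, (C.e i).source ∩ C.e i ⁻¹' ((C.e i).target ∩ (D.D i) ⁻¹' {r | 0 < s * r}) := by
      ext x
      simp only [mem_iUnion, mem_inter_iff, mem_preimage, mem_ofPred_eq, U]
      constructor
      · rintro ⟨i, h1, h2⟩
        exact ⟨i, h1, (C.e i).map_source h1, h2⟩
      · rintro ⟨i, h1, -, h2⟩
        exact ⟨i, h1, h2⟩
    rw [this]
    refine isOpen_iUnion fun i => (C.e i).isOpen_inter_preimage ?_
    exact (D.cont i).isOpen_inter_preimage (C.e i).open_target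
      (isOpen_lt continuous_const (continuous_const.mul continuous_id))
  -- change of charts
  have htr : ∀ (i j : C.ι) (x : X), x ∈ (C.e i).source → x ∈ (C.e j).source → ∀ s : ℝ,
      0 < s * D.D i (C.e i x) → 0 < s * D.D j (C.e j x) := by
    intro i j x hi hj s h
    have hov : C.e i x ∈ C.ov i j := by
      refine ⟨(C.e i).map_source hi, ?_⟩
      rw [(C.e i).left_inv hi]; exact hj
    have h1 := D.tr i j _ hov
    have h2 : C.t i j (C.e i x) = C.e j x := by
      show C.e j ((C.e i).symm (C.e i x)) = _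
      rw [(C.e i).left_inv hi]
    rw [h2] at h1
    have h3 := ho i j _ hov
    rw [h1] at h
    have h4 : 0 < (fderiv ℝ (C.t i j) (C.e i x)).det * (s * D.D j (C.e j x)) := by
      calc 0 < _ := h
        _ = _ := by ring
    exact (mul_pos_iff_of_pos_left h3).1 h4
  have hcov : (univ : Set X) ⊆ U 1 ∪ U (-1) := by
    intro x _
    obtain ⟨i, hi⟩ := C.cover x
    have h1 := hne i _ ((C.e i).map_source hi)
    rcases lt_or_gt_of_ne h1 with h | h
    · right
      refine ⟨i, hi, ?_⟩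
      rw [hD']
      linarith
    · left
      refine ⟨i, hi, ?_⟩
      rw [hD', one_mul]
      exact h
  have hdis : Disjoint (U 1) (U (-1)) := by
    rw [Set.disjoint_left]
    rintro x ⟨i, hi, h1⟩ ⟨j, hj, h2⟩
    have h3 := htr j i x hj hi _ h2
    linarith
  rcases isPreconnected_univ.subset_or_subset (hop 1) (hop (-1)) hdis hcov with h | h
  · intro i z hz
    obtain ⟨j, hj, h1⟩ := h (mem_univ ((C.e i).symm z))
    have h2 := htr j i _ hj ((C.e i).map_target hz) 1 h1
    rwa [(C.e i).right_inv hz, one_mul] at h2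
  · exfalso
    have hle : ∀ i, ∀ z ∈ (C.e i).target, D.D i z ≤ 0 := by
      intro i z hz
      obtain ⟨j, hj, h1⟩ := h (mem_univ ((C.e i).symm z))
      have h2 := htr j i _ hj ((C.e i).map_target hz) (-1) h1
      rw [(C.e i).right_inv hz] at h2
      linarith
    have h3 : IM μ b P (fun _ => om) ≤ 0 := by
      rw [IM_apply]
      refine Finset.sum_nonpos fun k _ => ?_
      refine setIntegral_nonpos (C.e _).open_target.measurableSet fun z hz => ?_
      exact mul_nonpos_of_nonneg_of_nonpos (hP _ _) (hle _ z hz)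
    linarith

end int

/-! ### the topological input -/

variable [FiniteDimensional ℝ V] [MeasurableSpace V] [BorelSpace V] (μ : Measure V)
  [μ.IsAddHaarMeasure] [CompactSpace X] {n : ℕ} (b : Module.Basis (Fin (n + n) × Fin 2) ℝ V)
  (P : RPart C)

/-- Fujiki relation, at most three positive squares -/
structure TopI (q : QuadraticForm ℝ (F2 C)) : Prop where
  npos : 0 < n
  ori : Ori C
  nn : ∀ k x, 0 ≤ P.ψ k x
  fuj : ∀ x, IM μ b P (fun _ => x) = q x ^ n
  sig : ∃ r s K : F2 C, ∀ x, QuadraticMap.polar q x r = 0 → QuadraticMap.polar q x s = 0 →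
    QuadraticMap.polar q x K = 0 → q x ≤ 0

variable {μ b P} {q : QuadraticForm ℝ (F2 C)}

theorem A20.sum {J : AJ C} {κ : Type} (s : Finset κ) (c : κ → ℝ) {ρ : κ → F2 C}
    (h : ∀ k ∈ s, A20 J (ρ k)) : A20 J (∑ k ∈ s, c k • ρ k) := by
  classical
  induction s using Finset.induction_on with
  | empty =>
    intro i z hz u v
    simp
  | insert k s hk ih =>
    intro i z hz u v
    rw [Finset.sum_insert hk]
    have h1 := ih (fun l hl => h l (Finset.mem_insert_of_mem hl)) i z hz u v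
    have h2 := h k (Finset.mem_insert_self k s) i z hz u v
    simp only [F2.add_w, F2.smul_w, add_apply, smul_apply, smul_eq_mul] at h1 ⊢
    rw [h1, h2]
    ring

/-- the values of `q` on (2,0) + (0,2)-forms -/
theorem TopI.q20 [PreconnectedSpace X] (T : TopI μ b P q) {J : AJ C} (hI : IsI J A)
    (h : Cmp C (ofAtl A)) (hJ : ∀ i, ∀ z ∈ (C.e i).target, ∀ v, J.J i z (J.J i z v) = -v)
    {om ρ : F2 C} (h11 : T11 J om) (hpos : Pos J om) (hq : 0 < q om) (hρ : A20 J ρ) :
    QuadraticMap.polar q om ρ = 0 ∧ 0 ≤ q ρ ∧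
      (q ρ = 0 → ∀ i, ∀ z ∈ (C.e i).target, ρ.w i z = 0) := by
  have hn := T.npos
  have hN : 2 ≤ n + n := by omega
  have ho := sign_pos μ b P T.ori T.nn (TP_om_ne b hI h h11 hpos)
    (by rw [T.fuj]; exact pow_pos hq n)
  have h1 := int_one μ b P hJ h11 hpos hρ (by omega)
  have h2 := int_two μ b P hJ h11 hpos hρ hN T.nn ho
  have h3 := FujSig_358.first_polar' hn (IM_symm μ b P) T.fuj om ρ
  rw [h1, mul_zero] at h3
  have hp0 : QuadraticMap.polar q om ρ = 0 :=
    (mul_eq_zero.1 h3.symm).resolve_left (pow_pos hq _).ne'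
  have h4 := FujSig_358.second_polar hn (IM_symm μ b P) T.fuj om ρ
  rw [hp0] at h4
  have hn1 : (1 : ℝ) ≤ n := by exact_mod_cast hn
  have h5 : (2 * n - 1) * IM μ b P (mixv (n + n) 2 om ρ) = q om ^ (n - 1) * q ρ := by
    have : 2 * ((2 * n - 1 : ℝ) * IM μ b P (mixv (n + n) 2 om ρ)) = 2 * (q om ^ (n - 1) * q ρ) := by
      linear_combination h4
    linarith
  have hc : (0 : ℝ) < 2 * n - 1 := by linarith
  have hqp := pow_pos hq (n - 1)
  refine ⟨hp0, ?_, fun h0 => ?_⟩
  · have h6 : 0 ≤ q om ^ (n - 1) * q ρ := by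
      rw [← h5]; exact mul_nonneg hc.le h2.1
    exact nonneg_of_mul_nonneg_right h6 hqp
  · rw [h0, mul_zero] at h5
    exact h2.2 ((mul_eq_zero.1 h5).resolve_left hc.ne')

/-- **three forms of type (2,0) + (0,2) are linearly dependent** -/
theorem TopI.dep3 [PreconnectedSpace X] (T : TopI μ b P q) {J : AJ C} (hI : IsI J A)
    (h : Cmp C (ofAtl A)) (hJ : ∀ i, ∀ z ∈ (C.e i).target, ∀ v, J.J i z (J.J i z v) = -v)
    {om : F2 C} (h11 : T11 J om) (hpos : Pos J om) (hq : 0 < q om) (ρ : Fin 3 → F2 C)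
    (hρ : ∀ k, A20 J (ρ k)) : ∃ c : Fin 3 → ℝ, c ≠ 0 ∧ ∀ i, ∀ z ∈ (C.e i).target,
      ∑ k, c k • (ρ k).w i z = 0 := by
  obtain ⟨r, s, K, hsig⟩ := T.sig
  let v : Fin 4 → F2 C := Fin.cons om ρ
  let x : (Fin 4 → ℝ) →ₗ[ℝ] F2 C := Fintype.linearCombination ℝ v
  let f : (Fin 4 → ℝ) →ₗ[ℝ] (Fin 3 → ℝ) := LinearMap.pi fun k =>
    ((QuadraticMap.polarBilin q).flip (![r, s, K] k)).comp x
  have hker : LinearMap.ker f ≠ ⊥ := LinearMap.ker_ne_bot_of_finrank_lt (by simp)
  obtain ⟨a, ha, ha0⟩ := Submodule.exists_mem_ne_zero_of_ne_bot hker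
  have hf : ∀ k, QuadraticMap.polar q (x a) (![r, s, K] k) = 0 := by
    intro k
    have := congrFun (LinearMap.mem_ker.1 ha) k
    simpa [f] using this
  have hle : q (x a) ≤ 0 := hsig _ (by simpa using hf 0) (by simpa using hf 1) (by simpa using hf 2)
  set y : F2 C := ∑ k : Fin 3, a k.succ • ρ k with hy
  have hx : x a = a 0 • om + y := by
    simp only [x, Fintype.linearCombination_apply, v]
    rw [Fin.sum_univ_succ]
    rfl
  have hyA : A20 J y := A20.sum Finset.univ (fun k : Fin 3 => a k.succ) (fun k _ => hρ k)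
  obtain ⟨hp, hnn, hz⟩ := T.q20 hI h hJ h11 hpos hq hyA
  have hval : q (x a) = a 0 ^ 2 * q om + q y := by
    rw [hx, add_comm, FujSig_358.q_line q y om (a 0), QuadraticMap.polar_comm, hp]
    ring
  rw [hval] at hle
  have h0 : a 0 ^ 2 * q om = 0 := le_antisymm (by linarith) (by positivity)
  have ha00 : a 0 = 0 := by
    have := (mul_eq_zero.1 h0).resolve_right hq.ne'
    exact pow_eq_zero_iff (two_ne_zero) |>.1 this
  have hy0 : q y = 0 := le_antisymm (by linarith) hnn
  refine ⟨fun k => a k.succ, fun hc => ha0 ?_, fun i z hz' => ?_⟩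
  · funext k
    refine Fin.cases ?_ (fun k => ?_) k
    · exact ha00
    · exact congrFun hc k
  · have h6 := hz hy0 i z hz'
    rw [← h6, hy]
    have h7 : ∀ s : Finset (Fin 3), ∑ k ∈ s, a k.succ • (ρ k).w i z =
        (∑ k ∈ s, a k.succ • ρ k : F2 C).w i z := by
      intro s
      classical
      induction s using Finset.induction_on with
      | empty => rfl
      | insert k s hk ih =>
        rw [Finset.sum_insert hk, Finset.sum_insert hk, ih]
        rfl
    exact h7 Finset.univ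

/-- forms of type (2,0) + (0,2) from the atlas -/
theorem a20_of {J : AJ C} (hI : IsI J A) (h : Cmp C (ofAtl A)) (τ : H2 A) (hτ : ClH τ) :
    A20 J (h.symm.F (f2H τ hτ)) := by
  intro i z hz u v
  obtain ⟨j, hj⟩ : ∃ j : A.ι, z ∈ mov (ofAtl A) C j i := exists_mov (C' := C) (ofAtl A) hz
  rw [h.symm.F_w _ hj, h.symm.F_w _ hj, hI.back h hj, hI.back h hj]
  erw [f2H_w, f2H_w]
  rw [sb_I_left]
  have h1 : ∀ S : Matrix (Fin d) (Fin d) ℂ, ∀ u v : Cn d, sb S u (I • v) = I * sb S u v := by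
    intro S u v
    simp only [sb, PiLp.smul_apply, smul_eq_mul, Finset.mul_sum]
    exact Finset.sum_congr rfl fun a _ => Finset.sum_congr rfl fun c _ => by ring
  rw [h1, ← mul_assoc, I_mul_I]
  simp

/-- **`h^{2,0} = 1` at every member** -/
theorem TopI.uniq_mem [ConnectedSpace X] (T : TopI μ b P q) {J : AJ C} (hI : IsI J A)
    (h : Cmp C (ofAtl A)) (hJ : ∀ i, ∀ z ∈ (C.e i).target, ∀ v, J.J i z (J.J i z v) = -v)
    {om : F2 C} (h11 : T11 J om) (hpos : Pos J om) (hq : 0 < q om) (σ : HSymp A)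
    (hcl : ∀ τ : H2 A, ClH τ) : σ.Uniq := by
  intro τ
  have hd : 0 < d := by
    have h1 := Module.finrank_eq_card_basis b
    obtain ⟨x⟩ := (inferInstance : Nonempty X)
    obtain ⟨i, hi⟩ := C.cover x
    obtain ⟨j, hj⟩ := exists_mov (C' := C) (ofAtl A) (j := i) ((C.e i).map_source hi)
    by_contra hd0
    have hd1 : d = 0 := by omega
    have h2 : Subsingleton (Cn d) := by subst hd1; infer_instance
    have h3 : Subsingleton V := ⟨fun u v => h.symm.inj hj (Subsingleton.elim _ _)⟩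
    have h4 : Module.finrank ℝ V = 0 := Module.finrank_zero_of_subsingleton
    rw [h4] at h1
    simp at h1
    have := T.npos
    omega
  set ρ : Fin 3 → F2 C := ![h.symm.F (f2H σ.toH2 (hcl _)),
    h.symm.F (f2H (csm (-I) σ.toH2) (hcl _)), h.symm.F (f2H τ (hcl _))] with hρd
  obtain ⟨c, hc0, hc⟩ := T.dep3 hI h hJ h11 hpos hq ρ (by
    intro k
    fin_cases k
    · exact a20_of hI h _ _
    · exact a20_of hI h _ _
    · exact a20_of hI h _ _)
  -- the relation in the charts of `A`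
  have key : ∀ j, ∀ x ∈ (A.e j).source,
      ((c 0 : ℂ) - I * (c 1 : ℂ)) • σ.s j x + (c 2 : ℂ) • τ.s j x = 0 := by
    intro j x hx
    set z := A.e j x with hzd
    have hz : z ∈ (A.e j).target := (A.e j).map_source hx
    obtain ⟨i, hi⟩ := exists_mov (C' := ofAtl A) C (j := j) hz
    obtain ⟨h1, h2⟩ := mov_swap (C := ofAtl A) (C' := C) hi
    have e1 : ∀ u v : Cn d, c 0 * (sb (σ.s j x) u v).re + c 1 * (sb (σ.s j x) u v).im +
        c 2 * (sb (τ.s j x) u v).re = 0 := by
      intro u v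
      have h3 := hc i _ (mt_mem hi).1
      have h4 := congrArg (fun B : Bil V => B (fderiv ℝ (mt C (ofAtl A) i j) z u)
        (fderiv ℝ (mt C (ofAtl A) i j) z v)) h3
      simp only [Fin.sum_univ_three, hρd, Matrix.cons_val_zero, Matrix.cons_val_one,
        Matrix.cons_val, add_apply, smul_apply, smul_eq_mul] at h4
      have h5 : ∀ w : F2 (ofAtl A), (h.symm.F w).w i (mt C (ofAtl A) i j z)
          (fderiv ℝ (mt C (ofAtl A) i j) z u) (fderiv ℝ (mt C (ofAtl A) i j) z v) =
          w.w j z u v := by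
        intro w
        rw [h.symm.F_w w h1, h.d_d hi, h.d_d hi, h2]
      rw [h5, h5, h5, f2H_w, f2H_I_w, f2H_w] at h4
      have e : ∀ t : H2 A, sl t j z = t.s j x := by
        intro t
        show t.s j ((A.e j).symm (A.e j x)) = _
        rw [(A.e j).left_inv hx]
      rw [e, e] at h4
      simpa using h4
    refine sb_ext fun u v => ?_
    have e2 : ∀ u v : Cn d, sb (((c 0 : ℂ) - I * (c 1 : ℂ)) • σ.s j x + (c 2 : ℂ) • τ.s j x) u v =
        ((c 0 : ℂ) - I * (c 1 : ℂ)) * sb (σ.s j x) u v + (c 2 : ℂ) * sb (τ.s j x) u v := by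
      intro u v
      rw [← sb_smul, ← sb_smul]
      simp only [sb, Matrix.add_apply, add_mul, Finset.sum_add_distrib]
    have e3 : ∀ u v : Cn d,
        (sb (((c 0 : ℂ) - I * (c 1 : ℂ)) • σ.s j x + (c 2 : ℂ) • τ.s j x) u v).re = 0 := by
      intro u v
      rw [e2]
      have := e1 u v
      simp only [add_re, mul_re, sub_re, sub_im, ofReal_re, ofReal_im, I_re, I_im, mul_im]
      linarith
    have e4 : sb (0 : Matrix (Fin d) (Fin d) ℂ) u v = 0 := by
      simp [sb]
    rw [e4]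
    apply Complex.ext
    · exact e3 u v
    · have h6 := e3 (I • u) v
      rw [sb_I_left] at h6
      simp only [mul_re, I_re, I_im, zero_mul, one_mul, zero_sub, neg_eq_zero] at h6
      exact h6
  -- `c 2 ≠ 0`
  have hc2 : c 2 ≠ 0 := by
    intro h2
    obtain ⟨x⟩ := (inferInstance : Nonempty X)
    obtain ⟨j, hj⟩ := A.cover x
    have h3 := key j x hj
    rw [h2, ofReal_zero, zero_smul, add_zero] at h3
    have h4 : σ.s j x ≠ 0 := by
      intro h5
      have h6 := σ.nd j x hj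
      rw [h5] at h6
      have : Nonempty (Fin d) := ⟨⟨0, hd⟩⟩
      exact h6 Matrix.det_zero
    have h5 := (smul_eq_zero.1 h3).resolve_right h4
    have h6 := congrArg Complex.re h5
    have h7 := congrArg Complex.im h5
    simp at h6 h7
    apply hc0
    funext k
    fin_cases k
    · exact h6
    · exact h7
    · exact h2
  refine ⟨-(((c 0 : ℂ) - I * (c 1 : ℂ)) / (c 2 : ℂ)), fun j x hx => ?_⟩
  have h3 := key j x hx
  have hc2' : (c 2 : ℂ) ≠ 0 := by exact_mod_cast hc2
  have h4 : (c 2 : ℂ) • τ.s j x = -(((c 0 : ℂ) - I * (c 1 : ℂ)) • σ.s j x) :=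
    eq_neg_of_add_eq_zero_right h3
  calc τ.s j x = (c 2 : ℂ)⁻¹ • ((c 2 : ℂ) • τ.s j x) := by
        rw [smul_smul, inv_mul_cancel₀ hc2', one_smul]
    _ = _ := by
        rw [h4, smul_neg, smul_smul, neg_smul]
        congr 2
        rw [div_eq_inv_mul]

end

end Crest.Agent.R281.Al_830
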