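import Crest.Agent.R281.Nef1_252
import Crest.Agent.R281.Dif1_268
import Mathlib.Analysis.Calculus.BumpFunction.FiniteDimension
import Mathlib.LinearAlgebra.Matrix.SesquilinearForm

-- ▼ part R281/Tt1_476
section

/-!
# Row 281, YAU-VAR/TRICK, part 1 (helper476): small translations of a manifold with real charts

* `LD C' C`        : smooth maps with invertible differentials
* `FamLD S Φ`      : `Φ : W → LD C' C` jointly smooth for the parameter in `S`
* `exists_trans`   : `x0 ≠ x1`: jointly smooth family `Φ s`, `|s| < ε`, `Φ s x1 = x1`,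
                     `Φ s x0 = e_i⁻¹ (e_i x0 + s)`
-/

set_option autoImplicit false
set_option maxSynthPendingDepth 3
set_option linter.unusedSectionVars false

open Set Filter Topology Metric
open scoped ContDiff

namespace Crest.Agent.R281.Tt_476

open Crest.Agent.R260.ACM_580 Crest.Agent.R281.HkR_835
open Crest.Agent.R281.Dif_268

noncomputable section

section loc

variable {V : Type} [NormedAddCommGroup V] [NormedSpace ℝ V] [FiniteDimensional ℝ V]

theorem isInv (T : V →L[ℝ] V) (h : ∀ v, T v = 0 → v = 0) : T.IsInvertible := by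
  have hk : Function.Injective (T : V →ₗ[ℝ] V) :=
    (injective_iff_map_eq_zero _).2 fun v hv => h v hv
  refine ⟨(LinearEquiv.ofInjectiveEndo (T : V →ₗ[ℝ] V) hk).toContinuousLinearEquiv, ?_⟩
  ext v
  simp

/-- cut-off function with bounded differential -/
theorem exists_chi (z0 : V) {r : ℝ} (hr : 0 < r) : ∃ (χ : V → ℝ) (L : ℝ), 0 < L ∧
    ContDiff ℝ ∞ χ ∧ χ z0 = 1 ∧ (∀ z, 0 ≤ χ z ∧ χ z ≤ 1) ∧ (∀ z, r ≤ dist z z0 → χ z = 0) ∧
    ∀ z, ‖fderiv ℝ χ z‖ ≤ L := by
  let f : ContDiffBump z0 := ⟨r / 2, r, by positivity, by linarith⟩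
  have hf : ContDiff ℝ ∞ f := f.contDiff
  have hc : Continuous (fderiv ℝ f) := hf.continuous_fderiv (by simp)
  obtain ⟨L, hL⟩ := (f.hasCompactSupport.fderiv (𝕜 := ℝ)).exists_bound_of_continuous hc
  refine ⟨f, max L 1, by positivity, hf, ?_, fun z => ⟨f.nonneg, f.le_one⟩,
    fun z hz => f.zero_of_le_dist hz, fun z => (hL z).trans (le_max_left _ _)⟩
  exact f.one_of_mem_closedBall (mem_closedBall_self (by positivity))

/-- the differential of `z ↦ z + χ z • s` -/
theorem hasFDerivAt_tr {χ : V → ℝ} (hχ : ContDiff ℝ ∞ χ) (s z : V) :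
    HasFDerivAt (fun z => z + χ z • s)
      (ContinuousLinearMap.id ℝ V + (fderiv ℝ χ z).smulRight s) z :=
  (hasFDerivAt_id z).add
    (((hχ.differentiable (by simp)) z).hasFDerivAt.smul_const s)

theorem inj_tr {χ : V → ℝ} {L : ℝ} (hL : 0 < L) (hb : ∀ z, ‖fderiv ℝ χ z‖ ≤ L) {s : V}
    (hs : ‖s‖ < 1 / L) (z v : V)
    (h : (ContinuousLinearMap.id ℝ V + (fderiv ℝ χ z).smulRight s) v = 0) : v = 0 := by
  have h1 : v = -(fderiv ℝ χ z v • s) := by
    have : v + fderiv ℝ χ z v • s = 0 := by simpa using h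
    exact eq_neg_of_add_eq_zero_left this
  by_contra hv
  have hv' : 0 < ‖v‖ := norm_pos_iff.2 hv
  have h2 : ‖v‖ ≤ L * ‖v‖ * ‖s‖ := by
    calc ‖v‖ = ‖fderiv ℝ χ z v • s‖ := by rw [← norm_neg (fderiv ℝ χ z v • s), ← h1]
      _ = ‖fderiv ℝ χ z v‖ * ‖s‖ := norm_smul _ _
      _ ≤ (L * ‖v‖) * ‖s‖ := by
        refine mul_le_mul_of_nonneg_right ?_ (norm_nonneg _)
        exact ((fderiv ℝ χ z).le_opNorm v).trans (mul_le_mul_of_nonneg_right (hb z) hv'.le)
  have h3 : L * ‖s‖ < 1 := by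
    rw [lt_div_iff₀ hL] at hs
    linarith
  nlinarith

end loc

variable {V V' X X' : Type} [NormedAddCommGroup V] [NormedSpace ℝ V]
  [NormedAddCommGroup V'] [NormedSpace ℝ V'] [TopologicalSpace X] [TopologicalSpace X']

/-- smooth maps with invertible differentials -/
structure LD (C' : RCh V' X') (C : RCh V X) extends SMap C' C where
  inv : ∀ i j, ∀ z ∈ dom C C' f i j, (fderiv ℝ (loc C C' f i j) z).IsInvertible

/-- the identity -/
def LD.id (C : RCh V X) : LD C C where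
  toSMap := SMap.id C
  inv i j z hz := by
    have hz' : z ∈ C.ov j i := hz
    refine ⟨ContinuousLinearEquiv.equivOfInverse (fderiv ℝ (C.t j i) z)
      (fderiv ℝ (C.t i j) (C.t j i z)) (fun v => RCh.dt_dt hz' v) (fun v => RCh.dt_dt' hz' v), ?_⟩
    ext v
    rfl

/-- families of local diffeomorphisms, jointly smooth for the parameter in `S` -/
structure FamLD {W : Type*} [NormedAddCommGroup W] [NormedSpace ℝ W] {C' : RCh V' X'}
    {C : RCh V X} (S : Set W) (Φ : W → LD C' C) : Prop where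
  op : ∀ i j, IsOpen {q : W × V' | q.1 ∈ S ∧ q.2 ∈ dom C C' (Φ q.1).f i j}
  js : ∀ i j, ContDiffOn ℝ ∞ (fun q : W × V' => loc C C' (Φ q.1).f i j q.2)
    {q : W × V' | q.1 ∈ S ∧ q.2 ∈ dom C C' (Φ q.1).f i j}

/-! ### the translations -/

/-- small translations in the chart `i` -/
def mv (C : RCh V X) (i : C.ι) (χ : V → ℝ) (s : V) (x : X) : X :=
  open Classical in
  if x ∈ (C.e i).source then (C.e i).symm (C.e i x + χ (C.e i x) • s) else x

/-- the data of a cut-off translation -/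
structure CO (C : RCh V X) (i : C.ι) (χ : V → ℝ) (z0 : V) (r : ℝ) : Prop where
  rpos : 0 < r
  sub : closedBall z0 (2 * r) ⊆ (C.e i).target
  sm : ContDiff ℝ ∞ χ
  bd : ∀ z, 0 ≤ χ z ∧ χ z ≤ 1
  zero : ∀ z, r ≤ dist z z0 → χ z = 0

namespace CO

variable {C : RCh V X} {i : C.ι} {χ : V → ℝ} {z0 : V} {r : ℝ} (h : CO C i χ z0 r)
include h

theorem F_mem {s z : V} (hs : ‖s‖ < r) (hz : z ∈ (C.e i).target) :
    z + χ z • s ∈ (C.e i).target := by
  by_cases hd : r ≤ dist z z0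
  · rwa [h.zero z hd, zero_smul, add_zero]
  · refine h.sub ?_
    rw [mem_closedBall]
    push Not at hd
    have h1 : dist (z + χ z • s) z0 ≤ dist z z0 + ‖χ z • s‖ := by
      calc dist (z + χ z • s) z0 ≤ dist (z + χ z • s) z + dist z z0 := dist_triangle _ _ _
        _ = dist z z0 + ‖χ z • s‖ := by rw [dist_eq_norm, add_sub_cancel_left, add_comm]
    have h2 : ‖χ z • s‖ ≤ ‖s‖ := by
      rw [norm_smul, Real.norm_of_nonneg (h.bd z).1]
      exact mul_le_of_le_one_left (norm_nonneg _) (h.bd z).2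
    linarith

/-- the support of the translations -/
def K (_h : CO C i χ z0 r) : Set X := (C.e i).symm '' closedBall z0 r

theorem ball_sub : closedBall z0 r ⊆ (C.e i).target :=
  (closedBall_subset_closedBall (by linarith [h.rpos])).trans h.sub

theorem K_sub : h.K ⊆ (C.e i).source := by
  rintro x ⟨z, hz, rfl⟩
  exact (C.e i).map_target (h.ball_sub hz)

theorem mv_of_not {s : V} {x : X} (hx : x ∉ h.K) : mv C i χ s x = x := by
  unfold mv
  split_ifs with h1
  · have h2 : C.e i x ∉ closedBall z0 r := fun h3 => hx ⟨_, h3, (C.e i).left_inv h1⟩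
    rw [mem_closedBall, not_le] at h2
    rw [h.zero _ h2.le, zero_smul, add_zero, (C.e i).left_inv h1]
  · rfl

theorem closedK [FiniteDimensional ℝ V] [T2Space X] : IsClosed h.K := by
  have h1 : IsCompact (closedBall z0 r) := by
    have := FiniteDimensional.proper_real V
    exact isCompact_closedBall z0 r
  exact (h1.image_of_continuousOn ((C.e i).symm.continuousOn.mono h.ball_sub)).isClosed



theorem continuousAt [FiniteDimensional ℝ V] [T2Space X] {s : V} {x : X} (hs : ‖s‖ < r) :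
    ContinuousAt (fun q : V × X => mv C i χ q.1 q.2) (s, x) := by
  by_cases hx : x ∈ (C.e i).source
  · have h1 : (fun q : V × X => mv C i χ q.1 q.2) =ᶠ[𝓝 (s, x)]
        fun q => (C.e i).symm (C.e i q.2 + χ (C.e i q.2) • q.1) := by
      have : ∀ᶠ q : V × X in 𝓝 (s, x), q.2 ∈ (C.e i).source :=
        continuous_snd.continuousAt.eventually ((C.e i).open_source.mem_nhds hx)
      filter_upwards [this] with q hq
      unfold mv
      rw [if_pos hq]
    refine ContinuousAt.congr ?_ h1.symm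
    have h2 : ContinuousAt (fun q : V × X => C.e i q.2) (s, x) :=
      ContinuousAt.comp (g := C.e i) ((C.e i).continuousAt hx) continuous_snd.continuousAt
    have h3 : ContinuousAt (fun q : V × X => C.e i q.2 + χ (C.e i q.2) • q.1) (s, x) :=
      h2.add ((ContinuousAt.comp (g := χ) h.sm.continuous.continuousAt h2).smul
        continuous_fst.continuousAt)
    exact ContinuousAt.comp (g := (C.e i).symm)
      ((C.e i).symm.continuousAt (h.F_mem hs ((C.e i).map_source hx))) h3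
  · have h0 : x ∉ h.K := fun h' => hx (h.K_sub h')
    have h1 : (fun q : V × X => mv C i χ q.1 q.2) =ᶠ[𝓝 (s, x)] fun q => q.2 := by
      have : ∀ᶠ q : V × X in 𝓝 (s, x), q.2 ∈ (h.K)ᶜ :=
        continuous_snd.continuousAt.eventually (h.closedK.isOpen_compl.mem_nhds h0)
      filter_upwards [this] with q hq using h.mv_of_not hq
    exact ContinuousAt.congr continuous_snd.continuousAt h1.symm

/-- the two local forms: inside the chart `i` -/
theorem loc_in {s : V} {k j : C.ι} {z : V} (_hs : ‖s‖ < r) (hz : z ∈ C.ov j i) :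
    loc C C (mv C i χ s) k j z = C.t i k (C.t j i z + χ (C.t j i z) • s) := by
  have hx : (C.e j).symm z ∈ (C.e i).source := hz.2
  show C.e k (mv C i χ s ((C.e j).symm z)) = C.e k ((C.e i).symm _)
  congr 1
  unfold mv
  rw [if_pos hx]
  rfl

theorem in_ov {s : V} {k j : C.ι} {z : V} (hs : ‖s‖ < r) (hz : z ∈ C.ov j i)
    (hz' : z ∈ dom C C (mv C i χ s) k j) : C.t j i z + χ (C.t j i z) • s ∈ C.ov i k := by
  have hx : (C.e j).symm z ∈ (C.e i).source := hz.2
  have h1 : mv C i χ s ((C.e j).symm z) ∈ (C.e k).source := hz'.2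
  unfold mv at h1
  rw [if_pos hx] at h1
  exact ⟨h.F_mem hs ((C.e i).map_source hx), h1⟩

/-- ... and outside of the support -/
theorem loc_out {s : V} {k j : C.ι} {z : V} (hx : (C.e j).symm z ∉ h.K) :
    loc C C (mv C i χ s) k j z = C.t j k z := by
  show C.e k (mv C i χ s ((C.e j).symm z)) = C.e k ((C.e j).symm z)
  rw [h.mv_of_not hx]

variable [FiniteDimensional ℝ V] [T2Space X]

theorem isOpen_dom (k j : C.ι) :
    IsOpen {q : V × V | q.1 ∈ ball (0 : V) r ∧ q.2 ∈ dom C C (mv C i χ q.1) k j} := by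
  rw [isOpen_iff_mem_nhds]
  rintro ⟨s, z⟩ ⟨h1, h2, h3⟩
  have hs : ‖s‖ < r := by simpa using h1
  have e1 : ∀ᶠ q : V × V in 𝓝 (s, z), q.1 ∈ ball (0 : V) r :=
    continuous_fst.continuousAt.eventually (isOpen_ball.mem_nhds h1)
  have e2 : ∀ᶠ q : V × V in 𝓝 (s, z), q.2 ∈ (C.e j).target :=
    continuous_snd.continuousAt.eventually ((C.e j).open_target.mem_nhds h2)
  have c1 : ContinuousAt (fun q : V × V => (q.1, (C.e j).symm q.2)) (s, z) :=
    continuous_fst.continuousAt.prodMk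
      (ContinuousAt.comp (g := (C.e j).symm) ((C.e j).symm.continuousAt h2)
        continuous_snd.continuousAt)
  have c2 : ContinuousAt (fun q : V × V => mv C i χ q.1 ((C.e j).symm q.2)) (s, z) :=
    ContinuousAt.comp (g := fun q : V × X => mv C i χ q.1 q.2)
      (f := fun q : V × V => (q.1, (C.e j).symm q.2)) (x := ((s, z) : V × V))
      (h.continuousAt hs) c1
  have e3 : ∀ᶠ q : V × V in 𝓝 (s, z), mv C i χ q.1 ((C.e j).symm q.2) ∈ (C.e k).source :=
    c2.eventually ((C.e k).open_source.mem_nhds h3)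
  filter_upwards [e1, e2, e3] with q q1 q2 q3 using ⟨q1, q2, q3⟩

theorem smooth (k j : C.ι) : ContDiffOn ℝ ∞ (fun q : V × V => loc C C (mv C i χ q.1) k j q.2)
    {q : V × V | q.1 ∈ ball (0 : V) r ∧ q.2 ∈ dom C C (mv C i χ q.1) k j} := by
  rintro ⟨s, z⟩ ⟨h1, h2, h3⟩
  have hs : ‖s‖ < r := by simpa using h1
  refine ContDiffAt.contDiffWithinAt ?_
  by_cases hx : (C.e j).symm z ∈ (C.e i).source
  · have hz : z ∈ C.ov j i := ⟨h2, hx⟩
    have e1 : (fun q : V × V => loc C C (mv C i χ q.1) k j q.2) =ᶠ[𝓝 (s, z)]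
        fun q => C.t i k (C.t j i q.2 + χ (C.t j i q.2) • q.1) := by
      have a1 : ∀ᶠ q : V × V in 𝓝 (s, z), q.1 ∈ ball (0 : V) r :=
        continuous_fst.continuousAt.eventually (isOpen_ball.mem_nhds h1)
      have a2 : ∀ᶠ q : V × V in 𝓝 (s, z), q.2 ∈ C.ov j i :=
        continuous_snd.continuousAt.eventually ((RCh.isOpen_ov j i).mem_nhds hz)
      filter_upwards [a1, a2] with q q1 q2
      exact h.loc_in (by simpa using q1) q2
    refine ContDiffAt.congr_of_eventuallyEq ?_ e1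
    have d1 : ContDiffAt ℝ ∞ (fun q : V × V => C.t j i q.2) (s, z) :=
      ContDiffAt.comp (g := C.t j i) (s, z)
        ((C.sm j i).contDiffAt ((RCh.isOpen_ov j i).mem_nhds hz)) contDiffAt_snd
    have d2 : ContDiffAt ℝ ∞ (fun q : V × V => C.t j i q.2 + χ (C.t j i q.2) • q.1) (s, z) :=
      d1.add ((ContDiffAt.comp (g := χ) (s, z) h.sm.contDiffAt d1).smul contDiffAt_fst)
    exact ContDiffAt.comp (g := C.t i k) (s, z)
      ((C.sm i k).contDiffAt ((RCh.isOpen_ov i k).mem_nhds (h.in_ov hs hz ⟨h2, h3⟩))) d2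
  · have h0 : (C.e j).symm z ∉ h.K := fun h' => hx (h.K_sub h')
    have e1 : (fun q : V × V => loc C C (mv C i χ q.1) k j q.2) =ᶠ[𝓝 (s, z)]
        fun q => C.t j k q.2 := by
      have c1 : ContinuousAt (fun q : V × V => (C.e j).symm q.2) (s, z) :=
        ContinuousAt.comp (g := (C.e j).symm) ((C.e j).symm.continuousAt h2)
          continuous_snd.continuousAt
      have : ∀ᶠ q : V × V in 𝓝 (s, z), (C.e j).symm q.2 ∈ (h.K)ᶜ :=
        c1.eventually (h.closedK.isOpen_compl.mem_nhds h0)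
      filter_upwards [this] with q hq using h.loc_out hq
    refine ContDiffAt.congr_of_eventuallyEq ?_ e1
    have hz : z ∈ C.ov j k := by
      refine ⟨h2, ?_⟩
      have := h3
      rwa [h.mv_of_not h0] at this
    exact ContDiffAt.comp (g := C.t j k) (s, z)
      ((C.sm j k).contDiffAt ((RCh.isOpen_ov j k).mem_nhds hz)) contDiffAt_snd

/-- the differentials are invertible -/
theorem inv {L : ℝ} (hL : 0 < L) (hb : ∀ z, ‖fderiv ℝ χ z‖ ≤ L) {s : V} (hs : ‖s‖ < r)
    (hs' : ‖s‖ < 1 / L) {k j : C.ι} {z : V} (hz : z ∈ dom C C (mv C i χ s) k j) :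
    (fderiv ℝ (loc C C (mv C i χ s) k j) z).IsInvertible := by
  refine isInv _ fun v hv => ?_
  by_cases hx : (C.e j).symm z ∈ (C.e i).source
  · have hz1 : z ∈ C.ov j i := ⟨hz.1, hx⟩
    have e1 : loc C C (mv C i χ s) k j =ᶠ[𝓝 z]
        fun y => C.t i k (C.t j i y + χ (C.t j i y) • s) := by
      filter_upwards [(RCh.isOpen_ov j i).mem_nhds hz1] with y hy using h.loc_in hs hy
    have d1 : HasFDerivAt (C.t j i) (fderiv ℝ (C.t j i) z) z := (RCh.t_diff hz1).hasFDerivAt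
    have d2 : HasFDerivAt (fun y => C.t j i y + χ (C.t j i y) • s)
        ((ContinuousLinearMap.id ℝ V + (fderiv ℝ χ (C.t j i z)).smulRight s).comp
          (fderiv ℝ (C.t j i) z)) z :=
      HasFDerivAt.comp (g := fun y => y + χ y • s) z (hasFDerivAt_tr h.sm s _) d1
    have hz2 := h.in_ov hs hz1 hz
    have d3 : HasFDerivAt (fun y => C.t i k (C.t j i y + χ (C.t j i y) • s))
        ((fderiv ℝ (C.t i k) (C.t j i z + χ (C.t j i z) • s)).comp
          ((ContinuousLinearMap.id ℝ V + (fderiv ℝ χ (C.t j i z)).smulRight s).comp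
          (fderiv ℝ (C.t j i) z))) z :=
      HasFDerivAt.comp (g := C.t i k) z (RCh.t_diff hz2).hasFDerivAt d2
    rw [e1.fderiv_eq, d3.fderiv] at hv
    simp only [ContinuousLinearMap.comp_apply] at hv
    have h1 := RCh.dt_dt hz2 ((ContinuousLinearMap.id ℝ V +
      (fderiv ℝ χ (C.t j i z)).smulRight s) (fderiv ℝ (C.t j i) z v))
    rw [hv, map_zero] at h1
    have h2 := inj_tr hL hb hs' _ _ h1.symm
    have h3 := RCh.dt_dt hz1 v
    rw [h2, map_zero] at h3
    exact h3.symm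
  · have h0 : (C.e j).symm z ∉ h.K := fun h' => hx (h.K_sub h')
    have e1 : loc C C (mv C i χ s) k j =ᶠ[𝓝 z] C.t j k := by
      have : ∀ᶠ y in 𝓝 z, (C.e j).symm y ∈ (h.K)ᶜ :=
        ((C.e j).symm.continuousAt hz.1).eventually (h.closedK.isOpen_compl.mem_nhds h0)
      filter_upwards [this] with y hy using h.loc_out hy
    have hz1 : z ∈ C.ov j k := by
      refine ⟨hz.1, ?_⟩
      have := hz.2
      rwa [h.mv_of_not h0] at this
    rw [e1.fderiv_eq] at hv
    have h3 := RCh.dt_dt hz1 v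
    rw [hv, map_zero] at h3
    exact h3.symm

end CO

/-- the cut-off translations as local diffeomorphisms -/
theorem exists_trans [FiniteDimensional ℝ V] [T2Space X] (C : RCh V X) {x0 x1 : X}
    (hne : x0 ≠ x1) {i : C.ι} (hi : x0 ∈ (C.e i).source) :
    ∃ ε : ℝ, 0 < ε ∧ ball (C.e i x0) ε ⊆ (C.e i).target ∧ ∃ Φ : V → LD C C,
      FamLD (ball (0 : V) ε) Φ ∧ (∀ s ∈ ball (0 : V) ε, (Φ s).f x1 = x1) ∧
      (∀ s ∈ ball (0 : V) ε, (Φ s).f x0 = (C.e i).symm (C.e i x0 + s)) ∧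
      ∀ x, (Φ 0).f x = x := by
  -- a ball in the target, away from `x1`
  have hU : IsOpen ((C.e i).target ∩ (C.e i).symm ⁻¹' {x1}ᶜ) :=
    (C.e i).isOpen_inter_preimage_symm isOpen_compl_singleton
  have hm : C.e i x0 ∈ (C.e i).target ∩ (C.e i).symm ⁻¹' {x1}ᶜ := by
    refine ⟨(C.e i).map_source hi, ?_⟩
    show (C.e i).symm (C.e i x0) ∈ ({x1}ᶜ : Set X)
    rw [(C.e i).left_inv hi]
    exact hne
  obtain ⟨ρ, hρ, hsub⟩ := Metric.isOpen_iff.1 hU _ hm
  set r : ℝ := ρ / 4 with hr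
  have hr0 : 0 < r := by positivity
  obtain ⟨χ, L, hL, hχ, h1, hbd, hz, hb⟩ := exists_chi (C.e i x0) hr0
  have hco : CO C i χ (C.e i x0) r :=
    ⟨hr0, fun z hz => (hsub (closedBall_subset_ball (by linarith) hz)).1, hχ, hbd, hz⟩
  have hK1 : x1 ∉ hco.K := by
    rintro ⟨z, hz, h2⟩
    exact (hsub (closedBall_subset_ball (by linarith) hz)).2 h2
  set ε : ℝ := min r (1 / L) with hε
  have hε0 : 0 < ε := by positivity
  have hεr : ε ≤ r := min_le_left _ _
  have hεL : ε ≤ 1 / L := min_le_right _ _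
  classical
  let Φ : V → LD C C := fun s =>
    if hs : ‖s‖ < ε then
      { f := mv C i χ s
        cont := by
          rw [continuous_iff_continuousAt]
          intro x
          have h2 := hco.continuousAt (s := s) (x := x) (lt_of_lt_of_le hs hεr)
          exact ContinuousAt.comp (g := fun q : V × X => mv C i χ q.1 q.2) h2
            (continuous_const.prodMk continuous_id).continuousAt
        sm := by
          intro k j z hz
          have h2 := hco.smooth k j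
          have h3 : ((s, z) : V × V) ∈
              {q : V × V | q.1 ∈ ball (0 : V) r ∧ q.2 ∈ dom C C (mv C i χ q.1) k j} :=
            ⟨by simpa using lt_of_lt_of_le hs hεr, hz⟩
          have h4 := h2.contDiffAt ((hco.isOpen_dom k j).mem_nhds h3)
          exact (ContDiffAt.comp (g := fun q : V × V => loc C C (mv C i χ q.1) k j q.2) z h4
            (contDiffAt_const.prodMk contDiffAt_id)).contDiffWithinAt
        inv := fun k j z hz =>
          hco.inv hL hb (lt_of_lt_of_le hs hεr) (lt_of_lt_of_le hs hεL) hz }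
    else LD.id C
  have hΦ : ∀ s, ‖s‖ < ε → (Φ s).f = mv C i χ s := by
    intro s hs
    simp only [Φ, dif_pos hs]
  have hset : ∀ k j, {q : V × V | q.1 ∈ ball (0 : V) ε ∧ q.2 ∈ dom C C (Φ q.1).f k j} =
      {q : V × V | q.1 ∈ ball (0 : V) ε} ∩
      {q : V × V | q.1 ∈ ball (0 : V) r ∧ q.2 ∈ dom C C (mv C i χ q.1) k j} := by
    intro k j
    ext q
    constructor
    · rintro ⟨a, b⟩
      have a' : ‖q.1‖ < ε := by simpa using a
      rw [hΦ q.1 a'] at b
      exact ⟨a, by simpa using lt_of_lt_of_le a' hεr, b⟩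
    · rintro ⟨a, _, b⟩
      have a' : ‖q.1‖ < ε := by simpa using a
      refine ⟨a, ?_⟩
      rw [hΦ q.1 a']
      exact b
  refine ⟨ε, hε0, fun z hz => (hsub (ball_subset_ball (by linarith) hz)).1, Φ, ⟨?_, ?_⟩, ?_, ?_, ?_⟩
  · intro k j
    rw [hset]
    exact (isOpen_ball.preimage continuous_fst).inter (hco.isOpen_dom k j)
  · intro k j
    rw [hset]
    refine ((hco.smooth k j).mono inter_subset_right).congr ?_
    rintro q ⟨a, _⟩
    have a' : ‖q.1‖ < ε := by simpa using a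
    simp only [hΦ q.1 a']
  · intro s hs
    have a' : ‖s‖ < ε := by simpa using hs
    rw [hΦ s a']
    exact hco.mv_of_not hK1
  · intro s hs
    have a' : ‖s‖ < ε := by simpa using hs
    rw [hΦ s a']
    unfold mv
    rw [if_pos hi, h1, one_smul]
  · intro x
    rw [hΦ 0 (by simpa using hε0)]
    unfold mv
    split_ifs with h2
    · rw [smul_zero, add_zero, (C.e i).left_inv h2]
    · rfl

end

end Crest.Agent.R281.Tt_476
end

-- ▼ part R281/Tt2_476
section

/-!
# Row 281, YAU-VAR/TRICK, part 2 (helper476): pull back under local diffeomorphisms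

* `LD.pJ g J`     : pull back of a field of endomorphisms; `pJ_spec : D (J' v) = J (D v)`
* `nij_pJ`, `LD.pJ_cx`, `LD.pJ_t11`, `LD.pJ_pos`, `LD.ddc_pull`
* `Dens C`        : squared densities, `LD.pD`
* `Dat C`         : `(J, om, r, f)`, `Dat.pull`
-/

set_option autoImplicit false
set_option maxSynthPendingDepth 3
set_option linter.unusedSectionVars false

open Set Filter Topology Metric
open scoped ContDiff

namespace Crest.Agent.R281.Tt_476

open Crest.Agent.R260.ACM_580 Crest.Agent.R281.HkR_835 Crest.Agent.R281.NefO_476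
open Crest.Agent.R281.Nef_252
open Crest.Agent.R281.Dif_268
open Crest.Agent.R281.Ti_846 hiding pb pb_apply symm2

noncomputable section

/-! ### the Nijenhuis tensor under a local diffeomorphism -/

section nij

variable {V V' : Type} [NormedAddCommGroup V] [NormedSpace ℝ V]
  [NormedAddCommGroup V'] [NormedSpace ℝ V']

/-- derivative of `D(J' v) = J(φ)(D v)` -/
theorem fderiv_rel {φ : V' → V} {J : V → V →L[ℝ] V} {J' : V' → V' →L[ℝ] V'} {z : V'}
    (hφ : ContDiffAt ℝ ∞ φ z) (hJ : DifferentiableAt ℝ J (φ z)) (hJ' : DifferentiableAt ℝ J' z)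
    (hr : ∀ᶠ y in 𝓝 z, ∀ v, fderiv ℝ φ y (J' y v) = J (φ y) (fderiv ℝ φ y v)) (a v : V') :
    fderiv ℝ (fderiv ℝ φ) z a (J' z v) + fderiv ℝ φ z (fderiv ℝ J' z a v) =
      fderiv ℝ J (φ z) (fderiv ℝ φ z a) (fderiv ℝ φ z v) +
        J (φ z) (fderiv ℝ (fderiv ℝ φ) z a v) := by
  have hD : HasFDerivAt (fderiv ℝ φ) (fderiv ℝ (fderiv ℝ φ) z) z :=
    ((hφ.fderiv_right (m := ∞) (by simp)).differentiableAt (by simp)).hasFDerivAt
  have hφ1 : HasFDerivAt φ (fderiv ℝ φ z) z := (hφ.differentiableAt (by simp)).hasFDerivAt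
  have hJc : HasFDerivAt (fun y => J (φ y)) ((fderiv ℝ J (φ z)).comp (fderiv ℝ φ z)) z :=
    HasFDerivAt.comp (g := J) z hJ.hasFDerivAt hφ1
  have h0 : HasFDerivAt (fun _ : V' => v) (0 : V' →L[ℝ] V') z := hasFDerivAt_const v z
  have h1 : HasFDerivAt (fun y => J' y v) _ z := hJ'.hasFDerivAt.clm_apply h0
  have h2 : HasFDerivAt (fun y => fderiv ℝ φ y (J' y v)) _ z := hD.clm_apply h1
  have h3 : HasFDerivAt (fun y => fderiv ℝ φ y v) _ z := hD.clm_apply h0
  have h4 : HasFDerivAt (fun y => J (φ y) (fderiv ℝ φ y v)) _ z := hJc.clm_apply h3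
  have h5 : (fun y => fderiv ℝ φ y (J' y v)) =ᶠ[𝓝 z] fun y => J (φ y) (fderiv ℝ φ y v) := by
    filter_upwards [hr] with y hy using hy v
  have h6 := h2.unique (h4.congr_of_eventuallyEq h5)
  have h7 := congrArg (fun T : V' →L[ℝ] V => T a) h6
  simp at h7
  rw [add_comm] at h7
  rw [h7]
  abel

/-- naturality of the Nijenhuis tensor -/
theorem nij_rel {φ : V' → V} {J : V → V →L[ℝ] V} {J' : V' → V' →L[ℝ] V'} {z : V'}
    (hφ : ContDiffAt ℝ ∞ φ z) (hJ : DifferentiableAt ℝ J (φ z)) (hJ' : DifferentiableAt ℝ J' z)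
    (hr : ∀ᶠ y in 𝓝 z, ∀ v, fderiv ℝ φ y (J' y v) = J (φ y) (fderiv ℝ φ y v)) (v w : V') :
    fderiv ℝ φ z (Nij J' z v w) = Nij J (φ z) (fderiv ℝ φ z v) (fderiv ℝ φ z w) := by
  have hr0 := hr.self_of_nhds
  have e := fderiv_rel hφ hJ hJ' hr
  have s : ∀ a b, fderiv ℝ (fderiv ℝ φ) z a b = fderiv ℝ (fderiv ℝ φ) z b a := fun a b =>
    Crest.Agent.R281.Dif_268.symm2 hφ a b
  have e' : ∀ a v, fderiv ℝ φ z (fderiv ℝ J' z a v) =
      fderiv ℝ J (φ z) (fderiv ℝ φ z a) (fderiv ℝ φ z v) +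
        J (φ z) (fderiv ℝ (fderiv ℝ φ) z a v) - fderiv ℝ (fderiv ℝ φ) z a (J' z v) := fun a v =>
    eq_sub_of_add_eq' (e a v)
  unfold Nij
  simp only [map_add, map_sub]
  rw [hr0, hr0, e', e', e', e', hr0, hr0]
  simp only [map_add, map_sub]
  rw [s (J' z w) v, s (J' z v) w, s v w, s (J' z w) (J' z v)]
  abel

end nij

variable {V V' X X' : Type} [NormedAddCommGroup V] [NormedSpace ℝ V]
  [NormedAddCommGroup V'] [NormedSpace ℝ V'] [TopologicalSpace X] [TopologicalSpace X']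
  {C : RCh V X} {C' : RCh V' X'}

namespace LD

variable (g : LD C' C)

theorem injD {i : C.ι} {j : C'.ι} {z : V'} (hz : z ∈ dom C C' g.f i j) {v w : V'}
    (h : fderiv ℝ (Dif_268.loc C C' g.f i j) z v = fderiv ℝ (Dif_268.loc C C' g.f i j) z w) :
    v = w := (g.inv i j z hz).injective h

/-- pull back of a field of endomorphisms, raw -/
def j' (J : AJ C) (j : C'.ι) (z : V') : V' →L[ℝ] V' :=
  (fderiv ℝ (Dif_268.loc C C' g.f (g.idx j z) j) z).inverse ∘L
    (J.J (g.idx j z) (Dif_268.loc C C' g.f (g.idx j z) j z)) ∘L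
    (fderiv ℝ (Dif_268.loc C C' g.f (g.idx j z) j) z)

theorem j'_spec (J : AJ C) {i : C.ι} {j : C'.ι} {z : V'} (hz : z ∈ dom C C' g.f i j) (v : V') :
    fderiv ℝ (Dif_268.loc C C' g.f i j) z (g.j' J j z v) =
      J.J i (Dif_268.loc C C' g.f i j z) (fderiv ℝ (Dif_268.loc C C' g.f i j) z v) := by
  have h1 := g.idx_mem hz.1
  rw [← g.dt_loc h1 hz]
  show fderiv ℝ (C.t (g.idx j z) i) _ (fderiv ℝ (Dif_268.loc C C' g.f (g.idx j z) j) z
    ((fderiv ℝ (Dif_268.loc C C' g.f (g.idx j z) j) z).inverse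
      (J.J (g.idx j z) (Dif_268.loc C C' g.f (g.idx j z) j z)
        (fderiv ℝ (Dif_268.loc C C' g.f (g.idx j z) j) z v)))) = _
  rw [(g.inv _ j z h1).self_apply_inverse, J.tr _ i _ (g.loc_ov h1 hz), g.t_loc h1,
    g.dt_loc h1 hz]

theorem j'_eq (J : AJ C) {i : C.ι} {j : C'.ι} {z : V'} (hz : z ∈ dom C C' g.f i j) :
    g.j' J j z = (fderiv ℝ (Dif_268.loc C C' g.f i j) z).inverse ∘L
      (J.J i (Dif_268.loc C C' g.f i j z)) ∘L (fderiv ℝ (Dif_268.loc C C' g.f i j) z) := by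
  ext v
  refine g.injD hz ?_
  rw [g.j'_spec J hz]
  simp only [ContinuousLinearMap.comp_apply]
  rw [(g.inv i j z hz).self_apply_inverse]

/-- **pull back of a field of endomorphisms** -/
def pJ [CompleteSpace V'] (J : AJ C) : AJ C' where
  J := g.j' J
  sm j := by
    intro z hz
    obtain ⟨i, hi⟩ := g.exists_dom hz
    have ho := (g.isOpen_dom i j).mem_nhds hi
    have hD : ContDiffAt ℝ ∞ (fderiv ℝ (Dif_268.loc C C' g.f i j)) z :=
      (g.contDiffAt_loc hi).fderiv_right (m := ∞) (by simp)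
    have h1 : ContDiffAt ℝ ∞ (fun y => (fderiv ℝ (Dif_268.loc C C' g.f i j) y).inverse) z :=
      ContDiffAt.comp (g := ContinuousLinearMap.inverse) z
        ((g.inv i j z hi).contDiffAt_map_inverse) hD
    have h2 : ContDiffAt ℝ ∞ (fun y => J.J i (Dif_268.loc C C' g.f i j y)) z :=
      ContDiffAt.comp (g := J.J i) z
        ((J.sm i).contDiffAt ((C.e i).open_target.mem_nhds (g.loc_mem hi))) (g.contDiffAt_loc hi)
    refine ContDiffAt.contDiffWithinAt ((h1.clm_comp (h2.clm_comp hD)).congr_of_eventuallyEq ?_)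
    filter_upwards [ho] with y hy using g.j'_eq J hy
  tr j j' z hz v := by
    obtain ⟨i, hi⟩ := g.exists_dom hz.1
    refine g.injD (g.dom_t hz hi) ?_
    rw [g.dloc_t hz hi, g.j'_spec J hi, g.j'_spec J (g.dom_t hz hi), g.dloc_t hz hi, g.loc_t hz]

variable [CompleteSpace V']

theorem pJ_spec (J : AJ C) {i : C.ι} {j : C'.ι} {z : V'} (hz : z ∈ dom C C' g.f i j) (v : V') :
    fderiv ℝ (Dif_268.loc C C' g.f i j) z ((g.pJ J).J j z v) =
      J.J i (Dif_268.loc C C' g.f i j z) (fderiv ℝ (Dif_268.loc C C' g.f i j) z v) :=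
  g.j'_spec J hz v

theorem AJ.diffAt {V X : Type} [NormedAddCommGroup V] [NormedSpace ℝ V] [TopologicalSpace X]
    {C : RCh V X} (J : AJ C) {i : C.ι} {z : V} (hz : z ∈ (C.e i).target) :
    DifferentiableAt ℝ (J.J i) z :=
  ((J.sm i).contDiffAt ((C.e i).open_target.mem_nhds hz)).differentiableAt (by simp)

theorem pJ_cx {J : AJ C} (h : Cx J) : Cx (g.pJ J) := by
  refine ⟨fun j z hz v => ?_, fun j z hz v w => ?_⟩
  · obtain ⟨i, hi⟩ := g.exists_dom hz
    refine g.injD hi ?_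
    rw [g.pJ_spec J hi, g.pJ_spec J hi, h.sq i _ (g.loc_mem hi), map_neg]
  · obtain ⟨i, hi⟩ := g.exists_dom hz
    refine g.injD hi ?_
    rw [nij_rel (g.contDiffAt_loc hi) (AJ.diffAt J (g.loc_mem hi)) (AJ.diffAt (g.pJ J) hz),
      h.int i _ (g.loc_mem hi), map_zero]
    filter_upwards [(g.isOpen_dom i j).mem_nhds hi] with y hy v using g.pJ_spec J hy v

theorem pJ_t11 {J : AJ C} {w : F2 C} (h : T11 J w) : T11 (g.pJ J) (g.pull w) := by
  intro j z hz u v
  obtain ⟨i, hi⟩ := g.exists_dom hz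
  rw [g.pull_w w hi, g.pull_w w hi, g.pJ_spec J hi, g.pJ_spec J hi, h i _ (g.loc_mem hi)]

theorem pJ_pos {J : AJ C} {w : F2 C} (h : Pos J w) : Pos (g.pJ J) (g.pull w) := by
  intro j z hz v hv
  obtain ⟨i, hi⟩ := g.exists_dom hz
  rw [g.pull_w w hi, g.pJ_spec J hi]
  refine h i _ (g.loc_mem hi) _ fun h0 => hv (g.injD hi ?_)
  rw [h0, map_zero]

end LD

/-! ### functions -/

/-- smooth functions pull back -/
theorem Sm.comp {u : X → ℝ} (hu : Sm C u) (g : SMap C' C) : Sm C' (u ∘ g.f) := by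
  intro j z hz
  obtain ⟨i, hi⟩ := g.exists_dom hz
  have h1 : ContDiffAt ℝ ∞ (fun y => uc C u i (Dif_268.loc C C' g.f i j y)) z :=
    ContDiffAt.comp (g := uc C u i) z (hu.at (g.loc_mem hi)) (g.contDiffAt_loc hi)
  refine (h1.congr_of_eventuallyEq ?_).contDiffWithinAt
  filter_upwards [(g.isOpen_dom i j).mem_nhds hi] with y hy
  show u (g.f ((C'.e j).symm y)) = u ((C.e i).symm (Dif_268.loc C C' g.f i j y))
  rw [g.symm_loc hy]

theorem uc_comp (u : X → ℝ) (g : SMap C' C) {i : C.ι} {j : C'.ι} {z : V'}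
    (hz : z ∈ dom C C' g.f i j) :
    uc C' (u ∘ g.f) j z = uc C u i (Dif_268.loc C C' g.f i j z) := by
  show u (g.f ((C'.e j).symm z)) = u ((C.e i).symm (Dif_268.loc C C' g.f i j z))
  rw [g.symm_loc hz]

theorem fd_comp {u : X → ℝ} (hu : Sm C u) (g : SMap C' C) {i : C.ι} {j : C'.ι} {z : V'}
    (hz : z ∈ dom C C' g.f i j) (v : V') :
    fderiv ℝ (uc C' (u ∘ g.f) j) z v = fderiv ℝ (uc C u i) (Dif_268.loc C C' g.f i j z)
      (fderiv ℝ (Dif_268.loc C C' g.f i j) z v) := by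
  have h1 : uc C' (u ∘ g.f) j =ᶠ[𝓝 z] fun y => uc C u i (Dif_268.loc C C' g.f i j y) := by
    filter_upwards [(g.isOpen_dom i j).mem_nhds hz] with y hy using uc_comp u g hy
  have h2 : HasFDerivAt (fun y => uc C u i (Dif_268.loc C C' g.f i j y)) _ z :=
    HasFDerivAt.comp (g := uc C u i) (f := Dif_268.loc C C' g.f i j) z
      (((hu.at (g.loc_mem hz)).differentiableAt (by simp)).hasFDerivAt)
      (g.diff_loc hz).hasFDerivAt
  rw [h1.fderiv_eq, h2.fderiv]
  rfl

variable [FiniteDimensional ℝ V] [MeasurableSpace V] [BorelSpace V]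
  [FiniteDimensional ℝ V'] [MeasurableSpace V'] [BorelSpace V'] [CompleteSpace V']

/-- `d^c` commutes with pull back -/
theorem dc_pull (g : LD C' C) (J : AJ C) {u : X → ℝ} (hu : Sm C u) {j : C'.ι} {z : V'}
    (hz : z ∈ (C'.e j).target) :
    (dc (g.pJ J) (u ∘ g.f) (Sm.comp hu g.toSMap)).η j z = (g.pull1 (dc J u hu)).η j z := by
  obtain ⟨i, hi⟩ := g.exists_dom hz
  ext v
  rw [g.pull1_η _ hi]
  show -(fderiv ℝ (uc C' (u ∘ g.f) j) z ((g.pJ J).J j z v)) =
    -(fderiv ℝ (uc C u i) (Dif_268.loc C C' g.f i j z) (J.J i (Dif_268.loc C C' g.f i j z)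
      (fderiv ℝ (Dif_268.loc C C' g.f i j) z v)))
  rw [fd_comp hu g.toSMap hi, g.pJ_spec J hi]

/-- `dd^c` commutes with pull back -/
theorem ddc_pull (g : LD C' C) (J : AJ C) {u : X → ℝ} (hu : Sm C u) {j : C'.ι} {z : V'}
    (hz : z ∈ (C'.e j).target) (a b : V') :
    (ddc (g.pJ J) (u ∘ g.f) (Sm.comp hu g.toSMap)).w j z a b =
      (g.pull (ddc J u hu)).w j z a b := by
  have h1 : IsD (g.pull (ddc J u hu)) (g.pull1 (dc J u hu)) :=
    g.isD_pull fun i z hz u v => rfl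
  have h2 : (dc (g.pJ J) (u ∘ g.f) (Sm.comp hu g.toSMap)).η j =ᶠ[𝓝 z]
      (g.pull1 (dc J u hu)).η j := by
    filter_upwards [(C'.e j).open_target.mem_nhds hz] with y hy using dc_pull g J hu hy
  rw [h1 j z hz]
  show fderiv ℝ ((dc (g.pJ J) (u ∘ g.f) (Sm.comp hu g.toSMap)).η j) z a b -
    fderiv ℝ ((dc (g.pJ J) (u ∘ g.f) (Sm.comp hu g.toSMap)).η j) z b a = _
  rw [h2.fderiv_eq]

end

end Crest.Agent.R281.Tt_476
end

-- ▼ part R281/Tt3_476

/-!
# Row 281, YAU-VAR/TRICK, part 3 (helper476): data, pull back of families, the translation trick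

* `Dens C`, `Dat C = (J, om, r, f)`, `Dat.pull`
* `JS0`, `JS2`, `JSJ`, `JSD`, `JSDat` : jointly smooth families
* `JSDat.pull` : `(p, s) ↦ Φ_s^* D_p` is jointly smooth
* `trick`      : smoothness in the parameters for all families ==> joint smoothness
* `SolMA`      : Monge-Ampere equation (real `2N x 2N` determinant), `SolMA.pull`, `SolMA.cst`
-/

set_option autoImplicit false
set_option maxSynthPendingDepth 3
set_option linter.unusedSectionVars false

open Set Filter Topology Metric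
open scoped ContDiff

namespace Crest.Agent.R281.Tt_476

open Crest.Agent.R260.ACM_580 Crest.Agent.R281.HkR_835 Crest.Agent.R281.NefO_476
open Crest.Agent.R281.Nef_252
open Crest.Agent.R281.Dif_268
open Crest.Agent.R281.Ti_846 hiding pb pb_apply symm2

noncomputable section

variable {V X : Type} [NormedAddCommGroup V] [NormedSpace ℝ V] [TopologicalSpace X]

/-- squared densities -/
structure Dens (C : RCh V X) where
  r : C.ι → V → ℝ
  sm : ∀ i, ContDiffOn ℝ ∞ (r i) (C.e i).target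
  tr : ∀ i j, ∀ z ∈ C.ov i j, r i z = r j (C.t i j z) * (fderiv ℝ (C.t i j) z).det ^ 2

variable {C : RCh V X}

theorem det_comp' (T S : V →L[ℝ] V) : (T ∘L S).det = T.det * S.det := by
  show LinearMap.det ((T : V →ₗ[ℝ] V) ∘ₗ (S : V →ₗ[ℝ] V)) = _
  exact LinearMap.det_comp _ _

theorem contDiff_det [FiniteDimensional ℝ V] :
    ContDiff ℝ ∞ (fun T : V →L[ℝ] V => T.det) := by
  have h : (fun T : V →L[ℝ] V => T.det) = fun T => ∑ σ : Equiv.Perm (Fin (Module.finrank ℝ V)),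
      ((Equiv.Perm.sign σ : ℤ) : ℝ) * ∏ k, (Module.finBasis ℝ V).coord (σ k)
        (T (Module.finBasis ℝ V k)) := by
    funext T
    show LinearMap.det (T : V →ₗ[ℝ] V) = _
    rw [← LinearMap.det_toMatrix (Module.finBasis ℝ V), Matrix.det_apply']
    simp [LinearMap.toMatrix_apply]
  rw [h]
  refine ContDiff.sum fun σ _ => contDiff_const.mul (contDiff_prod fun k _ => ?_)
  have hl : IsBoundedLinearMap ℝ (fun T : V →L[ℝ] V =>
      (Module.finBasis ℝ V).coord (σ k) (T (Module.finBasis ℝ V k))) :=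
    ((LinearMap.toContinuousLinearMap ((Module.finBasis ℝ V).coord (σ k))).comp
      (ContinuousLinearMap.apply ℝ V (Module.finBasis ℝ V k))).isBoundedLinearMap
  exact hl.contDiff

namespace LD

variable (g : LD C C)

theorem dloc_i {i i' : C.ι} {j : C.ι} {z : V} (hz : z ∈ dom C C g.f i j)
    (hz' : z ∈ dom C C g.f i' j) :
    (fderiv ℝ (C.t i i') (Dif_268.loc C C g.f i j z)) ∘L (fderiv ℝ (Dif_268.loc C C g.f i j) z) =
      fderiv ℝ (Dif_268.loc C C g.f i' j) z := by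
  ext v
  exact g.dt_loc hz hz' v

theorem dloc_j {i : C.ι} {j j' : C.ι} {z : V} (hz : z ∈ C.ov j j')
    (hz' : z ∈ dom C C g.f i j) :
    (fderiv ℝ (Dif_268.loc C C g.f i j') (C.t j j' z)) ∘L (fderiv ℝ (C.t j j') z) =
      fderiv ℝ (Dif_268.loc C C g.f i j) z := by
  ext v
  exact g.dloc_t hz hz' v

/-- pull back of a squared density, raw -/
def r' (r : Dens C) (j : C.ι) (z : V) : ℝ :=
  r.r (g.idx j z) (Dif_268.loc C C g.f (g.idx j z) j z) *
    (fderiv ℝ (Dif_268.loc C C g.f (g.idx j z) j) z).det ^ 2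

theorem r'_eq (r : Dens C) {i j : C.ι} {z : V} (hz : z ∈ dom C C g.f i j) :
    g.r' r j z = r.r i (Dif_268.loc C C g.f i j z) *
      (fderiv ℝ (Dif_268.loc C C g.f i j) z).det ^ 2 := by
  have h1 := g.idx_mem hz.1
  rw [r', r.tr _ i _ (g.loc_ov h1 hz), g.t_loc h1, ← g.dloc_i h1 hz, det_comp']
  ring

/-- pull back of a squared density -/
def pD [FiniteDimensional ℝ V] (r : Dens C) : Dens C where
  r := g.r' r
  sm j := by
    intro z hz
    obtain ⟨i, hi⟩ := g.exists_dom hz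
    have ho := (g.isOpen_dom i j).mem_nhds hi
    have hD : ContDiffAt ℝ ∞ (fderiv ℝ (Dif_268.loc C C g.f i j)) z :=
      (g.contDiffAt_loc hi).fderiv_right (m := ∞) (by simp)
    have h1 : ContDiffAt ℝ ∞ (fun y => r.r i (Dif_268.loc C C g.f i j y)) z :=
      ContDiffAt.comp (g := r.r i) z
        ((r.sm i).contDiffAt ((C.e i).open_target.mem_nhds (g.loc_mem hi))) (g.contDiffAt_loc hi)
    have h2 : ContDiffAt ℝ ∞ (fun y => (fderiv ℝ (Dif_268.loc C C g.f i j) y).det) z :=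
      ContDiffAt.comp (g := fun T : V →L[ℝ] V => T.det) z contDiff_det.contDiffAt hD
    refine ContDiffAt.contDiffWithinAt ((h1.mul (h2.pow 2)).congr_of_eventuallyEq ?_)
    filter_upwards [ho] with y hy using g.r'_eq r hy
  tr j j' z hz := by
    obtain ⟨i, hi⟩ := g.exists_dom hz.1
    rw [g.r'_eq r hi, g.r'_eq r (g.dom_t hz hi), g.loc_t hz, ← g.dloc_j hz hi, det_comp']
    ring

end LD

/-- data of an equation on `(X, C)` -/
structure Dat (C : RCh V X) where
  J : AJ C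
  om : F2 C
  r : Dens C
  f : X → ℝ
  fs : Sm C f

/-- pull back of the data -/
def Dat.pull [FiniteDimensional ℝ V] [CompleteSpace V] (D : Dat C) (g : LD C C) : Dat C where
  J := g.pJ D.J
  om := g.pull D.om
  r := g.pD D.r
  f := D.f ∘ g.f
  fs := Sm.comp D.fs g.toSMap

/-! ### jointly smooth families -/

section families

variable {E : Type} [NormedAddCommGroup E] [NormedSpace ℝ E]

/-- jointly smooth families of functions -/
def JS0 (C : RCh V X) (T : Set E) (u : E → X → ℝ) : Prop :=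
  ∀ i, ContDiffOn ℝ ∞ (fun q : E × V => u q.1 ((C.e i).symm q.2)) (T ×ˢ (C.e i).target)

/-- jointly smooth families of closed 2-forms -/
def JS2 (T : Set E) (w : E → F2 C) : Prop :=
  ∀ i, ContDiffOn ℝ ∞ (fun q : E × V => (w q.1).w i q.2) (T ×ˢ (C.e i).target)

/-- jointly smooth families of fields of endomorphisms -/
def JSJ (T : Set E) (J : E → AJ C) : Prop :=
  ∀ i, ContDiffOn ℝ ∞ (fun q : E × V => (J q.1).J i q.2) (T ×ˢ (C.e i).target)

/-- jointly smooth families of squared densities -/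
def JSD (T : Set E) (r : E → Dens C) : Prop :=
  ∀ i, ContDiffOn ℝ ∞ (fun q : E × V => (r q.1).r i q.2) (T ×ˢ (C.e i).target)

/-- jointly smooth families of data -/
structure JSDat (T : Set E) (D : E → Dat C) : Prop where
  J : JSJ T fun p => (D p).J
  om : JS2 T fun p => (D p).om
  r : JSD T fun p => (D p).r
  f : JS0 C T fun p => (D p).f

end families

section pull

variable [FiniteDimensional ℝ V] [CompleteSpace V] {E W : Type} [NormedAddCommGroup E]
  [NormedSpace ℝ E] [NormedAddCommGroup W] [NormedSpace ℝ W] {T : Set E} {S : Set W}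
  {Φ : W → LD C C}

/-- the domain of a family in charts -/
def Om (S : Set W) (Φ : W → LD C C) (i j : C.ι) : Set (W × V) :=
  {q : W × V | q.1 ∈ S ∧ q.2 ∈ dom C C (Φ q.1).f i j}

theorem FamLD.jsD (hΦ : FamLD S Φ) {i j : C.ι} {q : W × V} (hq : q ∈ Om S Φ i j) :
    ContDiffAt ℝ ∞ (fun q : W × V => fderiv ℝ (Dif_268.loc C C (Φ q.1).f i j) q.2) q := by
  have h1 : ContDiffAt ℝ ∞ (fun q : W × V => Dif_268.loc C C (Φ q.1).f i j q.2) q :=
    (hΦ.js i j).contDiffAt ((hΦ.op i j).mem_nhds hq)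
  refine ContDiffAt.fderiv (f := fun (q : W × V) (y : V) => Dif_268.loc C C (Φ q.1).f i j y)
    (g := fun q => q.2) (n := ∞) (m := ∞) ?_ contDiffAt_snd (by simp)
  have h2 : ContDiffAt ℝ ∞ (fun q : (W × V) × V => (q.1.1, q.2)) (q, q.2) :=
    (contDiffAt_fst.fst).prodMk contDiffAt_snd
  exact ContDiffAt.comp (g := fun q : W × V => Dif_268.loc C C (Φ q.1).f i j q.2)
    (f := fun q : (W × V) × V => (q.1.1, q.2)) (q, q.2) h1 h2

/-- the map `((p, s), z) ↦ (s, z)` -/
theorem nhds_dom (hΦ : FamLD S Φ) {i j : C.ι} {q : (E × W) × V}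
    (hq : (q.1.2, q.2) ∈ Om S Φ i j) : ∀ᶠ y : (E × W) × V in 𝓝 q, (y.1.2, y.2) ∈ Om S Φ i j := by
  have h1 : Continuous (fun y : (E × W) × V => (y.1.2, y.2)) := by fun_prop
  exact h1.continuousAt.eventually ((hΦ.op i j).mem_nhds hq)

theorem cdL (hΦ : FamLD S Φ) {i j : C.ι} {q : (E × W) × V} (hq : (q.1.2, q.2) ∈ Om S Φ i j) :
    ContDiffAt ℝ ∞ (fun y : (E × W) × V => Dif_268.loc C C (Φ y.1.2).f i j y.2) q :=
  ContDiffAt.comp (g := fun q : W × V => Dif_268.loc C C (Φ q.1).f i j q.2)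
    (f := fun y : (E × W) × V => (y.1.2, y.2)) q
    ((hΦ.js i j).contDiffAt ((hΦ.op i j).mem_nhds hq))
    ((contDiffAt_fst.snd).prodMk contDiffAt_snd)

theorem cdD (hΦ : FamLD S Φ) {i j : C.ι} {q : (E × W) × V} (hq : (q.1.2, q.2) ∈ Om S Φ i j) :
    ContDiffAt ℝ ∞ (fun y : (E × W) × V => fderiv ℝ (Dif_268.loc C C (Φ y.1.2).f i j) y.2) q :=
  ContDiffAt.comp (g := fun q : W × V => fderiv ℝ (Dif_268.loc C C (Φ q.1).f i j) q.2)
    (f := fun y : (E × W) × V => (y.1.2, y.2)) q (hΦ.jsD hq)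
    ((contDiffAt_fst.snd).prodMk contDiffAt_snd)

/-- a jointly smooth family composed with the map in charts -/
theorem cdC {F : Type*} [NormedAddCommGroup F] [NormedSpace ℝ F] (hT : IsOpen T)
    (hΦ : FamLD S Φ) {i j : C.ι} {a : E → V → F}
    (ha : ContDiffOn ℝ ∞ (fun q : E × V => a q.1 q.2) (T ×ˢ (C.e i).target))
    {q : (E × W) × V} (hp : q.1.1 ∈ T) (hq : (q.1.2, q.2) ∈ Om S Φ i j) :
    ContDiffAt ℝ ∞ (fun y : (E × W) × V =>
      a y.1.1 (Dif_268.loc C C (Φ y.1.2).f i j y.2)) q := by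
  have h1 : ContDiffAt ℝ ∞ (fun q : E × V => a q.1 q.2)
      (q.1.1, Dif_268.loc C C (Φ q.1.2).f i j q.2) :=
    ha.contDiffAt ((hT.prod (C.e i).open_target).mem_nhds ⟨hp, (Φ q.1.2).loc_mem hq.2⟩)
  exact ContDiffAt.comp (g := fun q : E × V => a q.1 q.2)
    (f := fun y : (E × W) × V => (y.1.1, Dif_268.loc C C (Φ y.1.2).f i j y.2)) q h1
    ((contDiffAt_fst.fst).prodMk (cdL hΦ hq))

theorem JSJ.pull (hT : IsOpen T) (hΦ : FamLD S Φ) {J : E → AJ C} (hJ : JSJ T J) :
    JSJ (T ×ˢ S) fun q : E × W => (Φ q.2).pJ (J q.1) := by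
  intro j
  rintro ⟨⟨p, s⟩, z⟩ ⟨⟨hp, hs⟩, hz⟩
  obtain ⟨i, hi⟩ := (Φ s).exists_dom hz
  have hq : (((p, s), z).1.2, ((p, s), z).2) ∈ Om S Φ i j := ⟨hs, hi⟩
  refine ContDiffAt.contDiffWithinAt ?_
  have h1 : (fun y : (E × W) × V => ((Φ y.1.2).pJ (J y.1.1)).J j y.2) =ᶠ[𝓝 ((p, s), z)]
      fun y => (fderiv ℝ (Dif_268.loc C C (Φ y.1.2).f i j) y.2).inverse ∘L
        ((J y.1.1).J i (Dif_268.loc C C (Φ y.1.2).f i j y.2)) ∘L
        (fderiv ℝ (Dif_268.loc C C (Φ y.1.2).f i j) y.2) := by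
    filter_upwards [nhds_dom hΦ hq] with y hy using (Φ y.1.2).j'_eq (J y.1.1) hy.2
  refine ContDiffAt.congr_of_eventuallyEq ?_ h1
  have h2 : ContDiffAt ℝ ∞ (fun y : (E × W) × V =>
      (fderiv ℝ (Dif_268.loc C C (Φ y.1.2).f i j) y.2).inverse) ((p, s), z) :=
    ContDiffAt.comp (g := ContinuousLinearMap.inverse) ((p, s), z)
      (((Φ s).inv i j z hi).contDiffAt_map_inverse) (cdD hΦ hq)
  exact h2.clm_comp ((cdC (a := fun p z => (J p).J i z) hT hΦ (hJ i) hp hq).clm_comp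
    (cdD hΦ hq))

theorem JS2.pull (hT : IsOpen T) (hΦ : FamLD S Φ) {w : E → F2 C} (hw : JS2 T w) :
    JS2 (T ×ˢ S) fun q : E × W => (Φ q.2).pull (w q.1) := by
  intro j
  refine contDiffOn_clm_apply.2 fun u => contDiffOn_clm_apply.2 fun v => ?_
  rintro ⟨⟨p, s⟩, z⟩ ⟨⟨hp, hs⟩, hz⟩
  obtain ⟨i, hi⟩ := (Φ s).exists_dom hz
  have hq : (((p, s), z).1.2, ((p, s), z).2) ∈ Om S Φ i j := ⟨hs, hi⟩
  refine ContDiffAt.contDiffWithinAt ?_
  have h1 : (fun y : (E × W) × V => ((Φ y.1.2).pull (w y.1.1)).w j y.2 u v) =ᶠ[𝓝 ((p, s), z)]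
      fun y => (w y.1.1).w i (Dif_268.loc C C (Φ y.1.2).f i j y.2)
        (fderiv ℝ (Dif_268.loc C C (Φ y.1.2).f i j) y.2 u)
        (fderiv ℝ (Dif_268.loc C C (Φ y.1.2).f i j) y.2 v) := by
    filter_upwards [nhds_dom hΦ hq] with y hy using (Φ y.1.2).pull_w (w y.1.1) hy.2 u v
  refine ContDiffAt.congr_of_eventuallyEq ?_ h1
  exact ((cdC (a := fun p z => (w p).w i z) hT hΦ (hw i) hp hq).clm_apply
    ((cdD hΦ hq).clm_apply contDiffAt_const)).clm_apply
    ((cdD hΦ hq).clm_apply contDiffAt_const)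

theorem JSD.pull (hT : IsOpen T) (hΦ : FamLD S Φ) {r : E → Dens C} (hr : JSD T r) :
    JSD (T ×ˢ S) fun q : E × W => (Φ q.2).pD (r q.1) := by
  intro j
  rintro ⟨⟨p, s⟩, z⟩ ⟨⟨hp, hs⟩, hz⟩
  obtain ⟨i, hi⟩ := (Φ s).exists_dom hz
  have hq : (((p, s), z).1.2, ((p, s), z).2) ∈ Om S Φ i j := ⟨hs, hi⟩
  refine ContDiffAt.contDiffWithinAt ?_
  have h1 : (fun y : (E × W) × V => ((Φ y.1.2).pD (r y.1.1)).r j y.2) =ᶠ[𝓝 ((p, s), z)]
      fun y => (r y.1.1).r i (Dif_268.loc C C (Φ y.1.2).f i j y.2) *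
        (fderiv ℝ (Dif_268.loc C C (Φ y.1.2).f i j) y.2).det ^ 2 := by
    filter_upwards [nhds_dom hΦ hq] with y hy using (Φ y.1.2).r'_eq (r y.1.1) hy.2
  refine ContDiffAt.congr_of_eventuallyEq ?_ h1
  have h2 : ContDiffAt ℝ ∞ (fun y : (E × W) × V =>
      (fderiv ℝ (Dif_268.loc C C (Φ y.1.2).f i j) y.2).det) ((p, s), z) :=
    ContDiffAt.comp (g := fun T : V →L[ℝ] V => T.det) ((p, s), z) contDiff_det.contDiffAt
      (cdD hΦ hq)
  exact (cdC (a := fun p z => (r p).r i z) hT hΦ (hr i) hp hq).mul (h2.pow 2)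

theorem JS0.pull (hT : IsOpen T) (hΦ : FamLD S Φ) {u : E → X → ℝ} (hu : JS0 C T u) :
    JS0 C (T ×ˢ S) fun (q : E × W) x => u q.1 ((Φ q.2).f x) := by
  intro j
  rintro ⟨⟨p, s⟩, z⟩ ⟨⟨hp, hs⟩, hz⟩
  obtain ⟨i, hi⟩ := (Φ s).exists_dom hz
  have hq : (((p, s), z).1.2, ((p, s), z).2) ∈ Om S Φ i j := ⟨hs, hi⟩
  refine ContDiffAt.contDiffWithinAt ?_
  have h1 : (fun y : (E × W) × V => u y.1.1 ((Φ y.1.2).f ((C.e j).symm y.2))) =ᶠ[𝓝 ((p, s), z)]
      fun y => u y.1.1 ((C.e i).symm (Dif_268.loc C C (Φ y.1.2).f i j y.2)) := by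
    filter_upwards [nhds_dom hΦ hq] with y hy
    rw [(Φ y.1.2).symm_loc hy.2]
  refine ContDiffAt.congr_of_eventuallyEq ?_ h1
  exact cdC (a := fun p z => u p ((C.e i).symm z)) hT hΦ (hu i) hp hq

/-- **the pulled back family is jointly smooth** -/
theorem JSDat.pull (hT : IsOpen T) (hΦ : FamLD S Φ) {D : E → Dat C}
    (hD : JSDat T D) : JSDat (T ×ˢ S) fun q : E × W => (D q.1).pull (Φ q.2) :=
  ⟨hD.J.pull hT hΦ, hD.om.pull hT hΦ, hD.r.pull hT hΦ, hD.f.pull hT hΦ⟩

end pull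

/-! ### the trick -/

section trick

variable [FiniteDimensional ℝ V] [CompleteSpace V] [T2Space X]

/-- smoothness in the parameters, for all families of data of the class `Sol` -/
def V0 (C : RCh V X) (Sol : Dat C → (X → ℝ) → Prop) : Prop :=
  ∀ (E : Type) [NormedAddCommGroup E] [NormedSpace ℝ E] [FiniteDimensional ℝ E] (T : Set E)
    (x1 : X) (D : E → Dat C) (u : E → X → ℝ), IsOpen T → JSDat T D →
    (∀ p ∈ T, Sol (D p) (u p)) → (∀ p ∈ T, u p x1 = 0) → ∀ x, ContDiffOn ℝ ∞ (fun p => u p x) T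

variable {Sol : Dat C → (X → ℝ) → Prop}
  (nat : ∀ (D : Dat C) (u : X → ℝ) (g : LD C C), Sol D u → Sol (D.pull g) (u ∘ g.f))
  (hV : V0 C Sol) {E : Type} [NormedAddCommGroup E] [NormedSpace ℝ E] [FiniteDimensional ℝ E]
  {T : Set E} (hT : IsOpen T) {x1 : X} {D : E → Dat C} {u : E → X → ℝ}
  (hD : JSDat T D) (hu : ∀ p ∈ T, Sol (D p) (u p)) (h1 : ∀ p ∈ T, u p x1 = 0)
include nat hV hT hD hu h1

theorem trick_at {p : E} (hp : p ∈ T) {i : C.ι} {z : V} (hz : z ∈ (C.e i).target)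
    (hne : (C.e i).symm z ≠ x1) :
    ContDiffAt ℝ ∞ (fun q : E × V => u q.1 ((C.e i).symm q.2)) (p, z) := by
  have hx : (C.e i).symm z ∈ (C.e i).source := (C.e i).map_target hz
  have hez : C.e i ((C.e i).symm z) = z := (C.e i).right_inv hz
  obtain ⟨ε, hε, -, Φ, hΦ, hfix, hmv, -⟩ := exists_trans C hne hx
  rw [hez] at hmv
  have h2 := hV (E × V) (T ×ˢ ball (0 : V) ε) x1 (fun q => (D q.1).pull (Φ q.2))
    (fun q => u q.1 ∘ (Φ q.2).f) (hT.prod isOpen_ball) (hD.pull hT hΦ)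
    (fun q hq => nat _ _ _ (hu q.1 hq.1))
    (fun q hq => by
      show u q.1 ((Φ q.2).f x1) = 0
      rw [hfix q.2 hq.2, h1 q.1 hq.1]) ((C.e i).symm z)
  have h3 : ContDiffAt ℝ ∞ (fun q : E × V => (u q.1 ∘ (Φ q.2).f) ((C.e i).symm z)) (p, z - z) :=
    h2.contDiffAt ((hT.prod isOpen_ball).mem_nhds ⟨hp, by simpa using hε⟩)
  have h4 : ContDiffAt ℝ ∞ (fun q : E × V =>
      (u q.1 ∘ (Φ (q.2 - z)).f) ((C.e i).symm z)) (p, z) :=
    ContDiffAt.comp (g := fun q : E × V => (u q.1 ∘ (Φ q.2).f) ((C.e i).symm z))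
      (f := fun q : E × V => (q.1, q.2 - z)) (p, z) h3
      (contDiffAt_fst.prodMk (contDiffAt_snd.sub contDiffAt_const))
  refine h4.congr_of_eventuallyEq ?_
  have h5 : ∀ᶠ q : E × V in 𝓝 (p, z), q.2 - z ∈ ball (0 : V) ε := by
    have : Continuous (fun q : E × V => q.2 - z) := by fun_prop
    refine this.continuousAt.eventually (isOpen_ball.mem_nhds ?_)
    simpa using hε
  filter_upwards [h5] with q hq
  show _ = u q.1 ((Φ (q.2 - z)).f ((C.e i).symm z))
  rw [hmv _ hq]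
  congr 2
  abel

/-- **THE TRANSLATION TRICK** -/
theorem trick (cst : ∀ (D : Dat C) (u : X → ℝ) (c : ℝ), Sol D u → Sol D fun x => u x - c) :
    JS0 C T u := by
  intro i
  rintro ⟨p, z⟩ ⟨hp, hz⟩
  refine ContDiffAt.contDiffWithinAt ?_
  by_cases hne : (C.e i).symm z = x1
  · by_cases hx2 : ∃ x2, x2 ≠ x1
    · obtain ⟨x2, hx2⟩ := hx2
      have h2 : ContDiffAt ℝ ∞ (fun q : E × V => u q.1 ((C.e i).symm q.2) - u q.1 x2) (p, z) :=
        trick_at (u := fun p x => u p x - u p x2) nat hV hT hD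
          (fun p hp => cst _ _ _ (hu p hp)) (fun p _ => sub_self _) hp hz
          (by rw [hne]; exact hx2.symm)
      have h3 : ContDiffAt ℝ ∞ (fun p => u p x2) p :=
        (hV E T x1 D u hT hD hu h1 x2).contDiffAt (hT.mem_nhds hp)
      have h4 : ContDiffAt ℝ ∞ (fun q : E × V => u q.1 x2) (p, z) :=
        ContDiffAt.comp (g := fun p => u p x2) (f := fun q : E × V => q.1) (p, z) h3
          contDiffAt_fst
      refine (h2.add h4).congr_of_eventuallyEq (Eventually.of_forall fun q => ?_)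
      simp
    · push Not at hx2
      have h2 : (fun q : E × V => u q.1 ((C.e i).symm q.2)) =ᶠ[𝓝 (p, z)] fun _ => (0 : ℝ) := by
        have : ∀ᶠ q : E × V in 𝓝 (p, z), q.1 ∈ T :=
          continuous_fst.continuousAt.eventually (hT.mem_nhds hp)
        filter_upwards [this] with q hq
        rw [hx2 ((C.e i).symm q.2), h1 q.1 hq]
      exact contDiffAt_const.congr_of_eventuallyEq h2
  · exact trick_at nat hV hT hD hu h1 hp hz hne

end trick

/-! ### the Monge-Ampere equation -/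

section MA

variable [FiniteDimensional ℝ V] [MeasurableSpace V] [BorelSpace V]

/-- determinant of a bilinear form -/
def detB {κ : Type} [Fintype κ] [DecidableEq κ] (b : Module.Basis κ ℝ V) (B : V → V → ℝ) : ℝ :=
  (Matrix.of fun k l => B (b k) (b l)).det

theorem detB_pull {κ : Type} [Fintype κ] [DecidableEq κ] (b : Module.Basis κ ℝ V)
    (B : Bil V) (L : V →L[ℝ] V) :
    detB b (fun x y => B (L x) (L y)) = detB b (fun x y => B x y) * L.det ^ 2 := by
  let B' : LinearMap.BilinForm ℝ V :=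
    LinearMap.mk₂ ℝ (fun x y => B x y) (by simp) (by simp) (by simp) (by simp)
  have h1 : LinearMap.BilinForm.toMatrix b B' = Matrix.of fun k l => B (b k) (b l) := by
    ext k l
    simp [LinearMap.BilinForm.toMatrix_apply, B']
  have h2 : LinearMap.BilinForm.toMatrix b (B'.comp (L : V →ₗ[ℝ] V) (L : V →ₗ[ℝ] V)) =
      Matrix.of fun k l => B (L (b k)) (L (b l)) := by
    ext k l
    simp [LinearMap.BilinForm.toMatrix_apply, B']
  have h3 := LinearMap.BilinForm.toMatrix_comp b b B' (L : V →ₗ[ℝ] V) (L : V →ₗ[ℝ] V)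
  rw [h1, h2] at h3
  unfold detB
  rw [h3, Matrix.det_mul, Matrix.det_mul, Matrix.det_transpose, LinearMap.det_toMatrix]
  show LinearMap.det (L : V →ₗ[ℝ] V) * _ * LinearMap.det (L : V →ₗ[ℝ] V) =
    _ * (LinearMap.det (L : V →ₗ[ℝ] V)) ^ 2
  ring

/-- solutions of the Monge-Ampere equation of the data `D` (the function `D.f` is not used) -/
structure SolMA {κ : Type} [Fintype κ] [DecidableEq κ] (b : Module.Basis κ ℝ V)
    (D : Dat C) (u : X → ℝ) : Prop where
  cx : Cx D.J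
  t11 : T11 D.J D.om
  pos0 : Pos D.J D.om
  sm : Sm C u
  pos : Pos D.J (D.om + ddc D.J u sm)
  eq : ∃ k : ℝ, ∀ i, ∀ z ∈ (C.e i).target,
    detB b (fun x y => (D.om + ddc D.J u sm).w i z x (D.J.J i z y)) = k * D.r.r i z

theorem ddc_congr (J : AJ C) {u v : X → ℝ} (hu : Sm C u) (hv : Sm C v) {c : ℝ}
    (h : ∀ x, u x = v x + c) {i : C.ι} {z : V} (hz : z ∈ (C.e i).target) (a b : V) :
    (ddc J u hu).w i z a b = (ddc J v hv).w i z a b := by
  have h1 : fderiv ℝ (uc C u i) = fderiv ℝ (uc C v i) := by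
    have : uc C u i = fun y => uc C v i y + c := funext fun y => h _
    funext y
    rw [this, fderiv_add_const]
  rw [ddc_w J u hu hz, ddc_w J v hv hz]
  unfold ddcF
  rw [h1]

variable {κ : Type} [Fintype κ] [DecidableEq κ] {b : Module.Basis κ ℝ V}

theorem SolMA.cst (D : Dat C) (u : X → ℝ) (c : ℝ) (h : SolMA b D u) :
    SolMA b D fun x => u x - c := by
  have hs : Sm C fun x => u x - c := fun i => (h.sm i).sub contDiffOn_const
  have he : ∀ i, ∀ z ∈ (C.e i).target, ∀ x y, (D.om + ddc D.J (fun x => u x - c) hs).w i z x y =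
      (D.om + ddc D.J u h.sm).w i z x y := by
    intro i z hz x y
    simp only [F2.add_w, add_apply]
    rw [ddc_congr D.J hs h.sm (c := -c) (fun x => by ring) hz]
  refine ⟨h.cx, h.t11, h.pos0, hs, fun i z hz v hv => ?_, ?_⟩
  · rw [he i z hz]
    exact h.pos i z hz v hv
  · obtain ⟨k, hk⟩ := h.eq
    refine ⟨k, fun i z hz => ?_⟩
    rw [← hk i z hz]
    unfold detB
    congr 1
    ext x y
    exact he i z hz _ _

variable [CompleteSpace V]

theorem SolMA.pull (D : Dat C) (u : X → ℝ) (g : LD C C) (h : SolMA b D u) :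
    SolMA b (D.pull g) (u ∘ g.f) := by
  have he : ∀ j, ∀ z ∈ (C.e j).target, ∀ x y,
      ((D.pull g).om + ddc (D.pull g).J (u ∘ g.f) (Sm.comp h.sm g.toSMap)).w j z x y =
      (g.pull (D.om + ddc D.J u h.sm)).w j z x y := by
    intro j z hz x y
    obtain ⟨i, hi⟩ := g.exists_dom hz
    show ((g.pull D.om) + ddc (g.pJ D.J) (u ∘ g.f) (Sm.comp h.sm g.toSMap)).w j z x y = _
    rw [g.pull_w _ hi]
    simp only [F2.add_w, add_apply]
    rw [ddc_pull g D.J h.sm hz, g.pull_w _ hi, g.pull_w _ hi]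
  refine ⟨g.pJ_cx h.cx, g.pJ_t11 h.t11, g.pJ_pos h.pos0, Sm.comp h.sm g.toSMap,
    fun j z hz v hv => ?_, ?_⟩
  · rw [he j z hz]
    exact g.pJ_pos h.pos j z hz v hv
  · obtain ⟨k, hk⟩ := h.eq
    refine ⟨k, fun j z hz => ?_⟩
    obtain ⟨i, hi⟩ := g.exists_dom hz
    have h1 : ∀ x y, ((D.pull g).om + ddc (D.pull g).J (u ∘ g.f)
        (Sm.comp h.sm g.toSMap)).w j z x ((D.pull g).J.J j z y) =
        (((D.om + ddc D.J u h.sm).w i (Dif_268.loc C C g.f i j z)).bilinearComp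
          (ContinuousLinearMap.id ℝ V) (D.J.J i (Dif_268.loc C C g.f i j z)))
          (fderiv ℝ (Dif_268.loc C C g.f i j) z x) (fderiv ℝ (Dif_268.loc C C g.f i j) z y) := by
      intro x y
      rw [he j z hz, g.pull_w _ hi]
      show (D.om + ddc D.J u h.sm).w i (Dif_268.loc C C g.f i j z)
        (fderiv ℝ (Dif_268.loc C C g.f i j) z x)
        (fderiv ℝ (Dif_268.loc C C g.f i j) z ((g.pJ D.J).J j z y)) = _
      rw [g.pJ_spec D.J hi]
      rfl
    have h2 : detB b (fun x y => ((D.pull g).om + ddc (D.pull g).J (u ∘ g.f)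
        (Sm.comp h.sm g.toSMap)).w j z x ((D.pull g).J.J j z y)) =
        detB b (fun x y => (((D.om + ddc D.J u h.sm).w i
          (Dif_268.loc C C g.f i j z)).bilinearComp
          (ContinuousLinearMap.id ℝ V) (D.J.J i (Dif_268.loc C C g.f i j z)))
          (fderiv ℝ (Dif_268.loc C C g.f i j) z x)
          (fderiv ℝ (Dif_268.loc C C g.f i j) z y)) := by
      unfold detB
      congr 1
      ext x y
      exact h1 _ _
    have h3 := hk i _ (g.loc_mem hi)
    have h4 : (D.pull g).r.r j z = D.r.r i (Dif_268.loc C C g.f i j z) *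
        (fderiv ℝ (Dif_268.loc C C g.f i j) z).det ^ 2 := g.r'_eq D.r hi
    rw [h2, detB_pull, h4]
    have h5 : detB b (fun x y => (((D.om + ddc D.J u h.sm).w i
          (Dif_268.loc C C g.f i j z)).bilinearComp
          (ContinuousLinearMap.id ℝ V) (D.J.J i (Dif_268.loc C C g.f i j z))) x y) =
        k * D.r.r i (Dif_268.loc C C g.f i j z) := h3
    rw [h5]
    ring

/-- **the trick for the Monge-Ampere equation** -/
theorem joint_MA [T2Space X] (hV : V0 C (SolMA (C := C) b)) {E : Type} [NormedAddCommGroup E]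
    [NormedSpace ℝ E] [FiniteDimensional ℝ E] {T : Set E} (hT : IsOpen T) {x1 : X}
    {D : E → Dat C} {u : E → X → ℝ} (hD : JSDat T D) (hu : ∀ p ∈ T, SolMA b (D p) (u p))
    (h1 : ∀ p ∈ T, u p x1 = 0) : JS0 C T u :=
  trick SolMA.pull hV hT hD hu h1 SolMA.cst

end MA

end

end Crest.Agent.R281.Tt_476
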