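import Crest.Agent.R281.Nef2_252
import Crest.Agent.R281.Tt3_476
import Crest.Agent.R281.Nef4_252
import Crest.Agent.R281.KpK_487
import Crest.Agent.R260.NN6_900

-- ▼ part R281/YVMa1_449
section

/-!
# Row 281 (S0424), YAU-VAR, leaf PTEX in the language of `Dat` / `SolMA` (helper449), part 1

* `detB_ne`   : nondegenerate forms have non-zero determinant
* `detB_hb`   : (P2) `det (Re h_G (b_k, b_l)) = (det G)² det (Re h_1 (b_k, b_l))`, `G` Hermitian
* `Rt b D`    : the function `r / det (ω(·, J ·))` on `X`: smooth, nowhere 0, of constant sign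
-/

set_option autoImplicit false
set_option maxSynthPendingDepth 3
set_option linter.unusedSectionVars false

open Set Filter Topology Complex
open scoped ContDiff Matrix ComplexConjugate ComplexOrder InnerProductSpace

namespace Crest.Agent.R281.YVMa_449

open Crest.Agent.R260.ACM_580 Crest.Agent.R281.HkR_835
open Crest.Agent.R275.Geo Crest.Agent.R275.Core144 Crest.Agent.R275.EDR890
open Crest.Agent.R281.NefO_476 Crest.Agent.R281.Nef_252 Crest.Agent.R281.Tt_476
open Crest.Agent.R281.Dif_268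

noncomputable section

section alg

variable {V : Type} [NormedAddCommGroup V] [NormedSpace ℝ V] {κ : Type} [Fintype κ]
  [DecidableEq κ]

/-- nondegenerate forms have non-zero determinant -/
theorem detB_ne (b : Module.Basis κ ℝ V) {B : Bil V}
    (h : ∀ u, (∀ v, B u v = 0) → u = 0) : detB b (fun x y => B x y) ≠ 0 := by
  intro h0
  obtain ⟨w, hw, hw0⟩ := Matrix.exists_vecMul_eq_zero_iff.2 h0
  apply hw
  have h1 : ∑ x, w x • b x = 0 := by
    refine h _ fun v => ?_
    have h2 : ∀ y, B (∑ x, w x • b x) (b y) = 0 := by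
      intro y
      have h3 := congrFun hw0 y
      simpa [Matrix.vecMul, dotProduct, map_sum, sum_apply, smul_apply] using h3
    rw [← b.sum_repr v, map_sum]
    refine Finset.sum_eq_zero fun y _ => ?_
    rw [map_smul, h2, smul_zero]
  have h4 := Fintype.linearIndependent_iff.1 b.linearIndependent w h1
  exact funext h4

theorem detB_smooth (b : Module.Basis κ ℝ V) {E : Type} [NormedAddCommGroup E] [NormedSpace ℝ E]
    {U : Set E} {f : E → V → V → ℝ} (hf : ∀ x y, ContDiffOn ℝ ∞ (fun z => f z x y) U) :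
    ContDiffOn ℝ ∞ (fun z => detB b (f z)) U := by
  unfold detB
  simp_rw [Matrix.det_apply]
  refine ContDiffOn.sum fun σ _ => ContDiffOn.const_smul _ ?_
  exact contDiffOn_prod fun k _ => hf _ _

end alg

section hermitian

variable {n : ℕ} {κ : Type} [Fintype κ] [DecidableEq κ]

/-- the real determinant of a complex matrix -/
theorem det_mL (G : Matrix (Fin n) (Fin n) ℂ) :
    LinearMap.det (mL G : Cn n →ₗ[ℝ] Cn n) = Complex.normSq G.det := by
  have h1 : (mL G : Cn n →ₗ[ℝ] Cn n) = (Matrix.toEuclideanLin G).restrictScalars ℝ := rfl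
  rw [h1, LinearMap.det_restrictScalars, Algebra.norm_complex_apply]
  congr 1
  have h2 : Matrix.toEuclideanLin G =
      Matrix.toLin (EuclideanSpace.basisFun (Fin n) ℂ).toBasis
        (EuclideanSpace.basisFun (Fin n) ℂ).toBasis G := by
    rw [Matrix.toEuclideanLin_eq_toLin_orthonormal]
  rw [h2, LinearMap.det_toLin]

theorem detB_bM (b : Module.Basis κ ℝ (Cn n)) (T : Cn n →L[ℝ] Cn n) :
    detB b (fun x y => bM T x y) = LinearMap.det (T : Cn n →ₗ[ℝ] Cn n) *
      detB b (fun x y => (⟪x, y⟫_ℝ : ℝ)) := by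
  have h1 : (Matrix.of fun k l => bM T (b k) (b l)) =
      (LinearMap.toMatrix b b (T : Cn n →ₗ[ℝ] Cn n))ᵀ *
        (Matrix.of fun k l => (⟪b k, b l⟫_ℝ : ℝ)) := by
    ext k l
    rw [Matrix.mul_apply]
    show (⟪T (b k), b l⟫_ℝ : ℝ) = _
    conv_lhs => rw [← b.sum_repr (T (b k)), sum_inner]
    refine Finset.sum_congr rfl fun m _ => ?_
    rw [real_inner_smul_left, Matrix.transpose_apply, LinearMap.toMatrix_apply]
    rfl
  unfold detB
  rw [h1, Matrix.det_mul, Matrix.det_transpose, LinearMap.det_toMatrix]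

/-- (P2) the real determinant of a Hermitian form -/
theorem detB_hb (b : Module.Basis κ ℝ (Cn n)) {G : Matrix (Fin n) (Fin n) ℂ}
    (hG : G.IsHermitian) : detB b (fun x y => (hb G x y).re) =
      G.det.re ^ 2 * detB b (fun x y => (⟪x, y⟫_ℝ : ℝ)) := by
  have h1 : (fun x y => (hb G x y).re) = fun x y => bM (mL Gᵀ) x y := by
    funext x y
    rw [bM_mL G hG]
  have h2 : G.det.im = 0 := by
    have h3 : conj G.det = G.det := by
      have h4 := congrArg Matrix.det hG.eq
      rwa [Matrix.det_conjTranspose] at h4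
    exact Complex.conj_eq_iff_im.1 h3
  rw [h1, detB_bM, det_mL, Matrix.det_transpose, Complex.normSq_apply, h2]
  ring

end hermitian

/-! ### the ratio -/

section ratio

variable {V X : Type} [NormedAddCommGroup V] [NormedSpace ℝ V] [TopologicalSpace X]
  {C : RCh V X} {κ : Type} [Fintype κ] [DecidableEq κ] (b : Module.Basis κ ℝ V) (D : Dat C)

/-- the form `w (x, J y)` -/
def wJ (J : AJ C) (w : F2 C) (i : C.ι) (z : V) : Bil V :=
  ((w.w i z).flip.comp (J.J i z)).flip

@[simp] theorem wJ_apply (J : AJ C) (w : F2 C) (i : C.ι) (z x y : V) :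
    wJ J w i z x y = w.w i z x (J.J i z y) := rfl

/-- `det (w(·, J ·))` in the chart `i` -/
def dJ (J : AJ C) (w : F2 C) (i : C.ι) (z : V) : ℝ := detB b (fun x y => w.w i z x (J.J i z y))

theorem dJ_ne {J : AJ C} {w : F2 C} (hw : Pos J w) {i : C.ι} {z : V} (hz : z ∈ (C.e i).target) :
    dJ b J w i z ≠ 0 := by
  refine detB_ne b (B := wJ J w i z) fun u hu => ?_
  by_contra h0
  have h1 := hw i z hz u h0
  have h2 := hu u
  rw [wJ_apply] at h2
  linarith

theorem dJ_smooth (J : AJ C) (w : F2 C) (i : C.ι) :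
    ContDiffOn ℝ ∞ (dJ b J w i) (C.e i).target := by
  refine detB_smooth b (f := fun z x y => w.w i z x (J.J i z y)) fun x y => ?_
  exact ((w.sm i).clm_apply contDiffOn_const).clm_apply ((J.sm i).clm_apply contDiffOn_const)

theorem dJ_tr [FiniteDimensional ℝ V] [MeasurableSpace V] [BorelSpace V] (J : AJ C) (w : F2 C)
    {i j : C.ι} {z : V} (hz : z ∈ C.ov i j) :
    dJ b J w i z = dJ b J w j (C.t i j z) * (fderiv ℝ (C.t i j) z).det ^ 2 := by
  have h1 := detB_pull b (wJ J w j (C.t i j z)) (fderiv ℝ (C.t i j) z)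
  have h2 : dJ b J w i z = detB b (fun x y => wJ J w j (C.t i j z)
      (fderiv ℝ (C.t i j) z x) (fderiv ℝ (C.t i j) z y)) := by
    unfold dJ
    congr 1
    funext x y
    rw [wJ_apply, w.tr i j z hz, J.tr i j z hz]
  rw [h2, h1]
  rfl

/-- a chart at the point `x` -/
def ix (C : RCh V X) (x : X) : C.ι := Classical.choose (C.cover x)

theorem ix_mem (C : RCh V X) (x : X) : x ∈ (C.e (ix C x)).source :=
  Classical.choose_spec (C.cover x)

/-- `r / det (ω(·, J ·))` -/
def Rt (x : X) : ℝ :=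
  D.r.r (ix C x) (C.e (ix C x) x) / dJ b D.J D.om (ix C x) (C.e (ix C x) x)

variable [FiniteDimensional ℝ V] [MeasurableSpace V] [BorelSpace V]

theorem det_t_ne {i j : C.ι} {z : V} (hz : z ∈ C.ov i j) : (fderiv ℝ (C.t i j) z).det ≠ 0 := by
  intro h0
  have h1 : (fderiv ℝ (C.t j i) (C.t i j z)) ∘L (fderiv ℝ (C.t i j) z) =
      ContinuousLinearMap.id ℝ V := by
    ext v
    exact RCh.dt_dt hz v
  have h2 := congrArg ContinuousLinearMap.det h1
  rw [det_comp', h0, mul_zero] at h2
  have h3 : (ContinuousLinearMap.id ℝ V).det = 1 := LinearMap.det_id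
  rw [h3] at h2
  exact zero_ne_one h2

theorem Rt_eq {i : C.ι} {x : X} (hx : x ∈ (C.e i).source) :
    Rt b D x = D.r.r i (C.e i x) / dJ b D.J D.om i (C.e i x) := by
  have h0 := ix_mem C x
  have hz : C.e (ix C x) x ∈ C.ov (ix C x) i := by
    refine ⟨(C.e _).map_source h0, ?_⟩
    rw [(C.e _).left_inv h0]
    exact hx
  have ht : C.t (ix C x) i (C.e (ix C x) x) = C.e i x := by
    show C.e i ((C.e _).symm (C.e _ x)) = _
    rw [(C.e _).left_inv h0]
  rw [Rt, D.r.tr _ i _ hz, dJ_tr b D.J D.om hz, ht,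
    mul_div_mul_right _ _ (pow_ne_zero 2 (det_t_ne hz))]

variable (hp : Pos D.J D.om) (hr : ∀ i, ∀ z ∈ (C.e i).target, D.r.r i z ≠ 0)
include hp hr

theorem Rt_ne (x : X) : Rt b D x ≠ 0 := by
  have h0 := (C.e _).map_source (ix_mem C x)
  exact div_ne_zero (hr _ _ h0) (dJ_ne b hp h0)

theorem Rt_sm : Sm C (Rt b D) := by
  intro i z hz
  have h1 : ContDiffOn ℝ ∞ (fun y => D.r.r i y / dJ b D.J D.om i y) (C.e i).target :=
    (D.r.sm i).div (dJ_smooth b D.J D.om i) fun y hy => dJ_ne b hp hy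
  refine (h1.congr fun y hy => ?_) z hz
  show Rt b D ((C.e i).symm y) = _
  rw [Rt_eq b D ((C.e i).map_target hy), (C.e i).right_inv hy]

theorem Rt_cont : Continuous (Rt b D) := by
  rw [continuous_iff_continuousAt]
  intro x
  obtain ⟨j, hj⟩ := C.cover x
  have h1 := (Rt_sm b D hp hr j).continuousOn.continuousAt
    ((C.e j).open_target.mem_nhds ((C.e j).map_source hj))
  have h2 : ContinuousAt (fun y => Rt b D ((C.e j).symm (C.e j y))) x :=
    ContinuousAt.comp (g := fun y => Rt b D ((C.e j).symm y)) (f := C.e j) h1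
      ((C.e j).continuousAt hj)
  refine h2.congr ?_
  filter_upwards [(C.e j).open_source.mem_nhds hj] with y hy
  rw [(C.e j).left_inv hy]

/-- the sign of the ratio is constant -/
theorem Rt_sign [PreconnectedSpace X] : ∃ s : ℝ, ∀ x, |Rt b D x| = s * Rt b D x := by
  by_cases h : ∃ a, Rt b D a ≤ 0
  · refine ⟨-1, fun x => ?_⟩
    have h1 : Rt b D x < 0 := by
      by_contra h2
      push Not at h2
      obtain ⟨y, hy⟩ := mem_range_of_exists_le_of_exists_ge (Rt_cont b D hp hr) h ⟨x, h2⟩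
      exact Rt_ne b D hp hr y hy
    rw [abs_of_neg h1]
    ring
  · push Not at h
    exact ⟨1, fun x => by rw [abs_of_pos (h x), one_mul]⟩

end ratio

end

end Crest.Agent.R281.YVMa_449
end

-- ▼ part R281/YVMa2_449

/-!
# Row 281 (S0424), YAU-VAR, leaf PTEX in the language of `Dat` / `SolMA` (helper449), part 2

* `exists_solMA` : `X` compact, Hausdorff, connected, `J` integrable, `ω` positive of type (1,1),
  `r` nowhere 0 ==> the Monge-Ampere equation `det ((ω + dd^c u)(·, J ·)) = k r` has a solution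
  (Newlander-Nirenberg `NN6_900.nnat`, Yau `KpK_487.yau_kah'`)
* `exists_solMA_norm` : the same with `u x₁ = 0`
-/

set_option autoImplicit false
set_option maxSynthPendingDepth 3
set_option linter.unusedSectionVars false

open Set Filter Topology Complex
open scoped ContDiff Matrix ComplexConjugate ComplexOrder InnerProductSpace

namespace Crest.Agent.R281.YVMa_449

open Crest.Agent.R260.ACM_580 Crest.Agent.R260.NNB_580 Crest.Agent.R281.HkR_835
open Crest.Agent.R275.Geo Crest.Agent.R275.Core144 Crest.Agent.R275.EDR890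
open Crest.Agent.R273.Kah_333 Crest.Agent.R273.Hess_333 Crest.Agent.R273.HessB_333
open Crest.Agent.R281.NefO_476 Crest.Agent.R281.Nef_252 Crest.Agent.R281.Tt_476
open Crest.Agent.R281.Dif_268

noncomputable section

section atl

variable {n : ℕ} {X : Type} [TopologicalSpace X] {A : Atl n X}
  [MeasurableSpace (Cn n)] [BorelSpace (Cn n)]

/-- `ω + dd^c (u/4)` is the form of `K + ∂∂̄ u` -/
theorem add_ddc_w {W : F2 (ofAtl A)} (hW : T11 (jA A) W) {u : X → ℝ} (hu : A.Sm u)
    (h4 : Sm (ofAtl A) (fun x => (1 / 4 : ℝ) * u x)) {j : A.ι} {z : Cn n}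
    (hz : z ∈ (A.e j).target) (a c : Cn n) :
    (W + ddc (jA A) (fun x => (1 / 4 : ℝ) * u x) h4).w j z a c =
      (I * hb ((W.k11 hW).g j ((A.e j).symm z) + hsf A u j ((A.e j).symm z)) a c).re := by
  have e1 : (4 : ℂ) • hess (uc (ofAtl A) (fun x => (1 / 4 : ℝ) * u x) j) z =
      hsf A u j ((A.e j).symm z) := by
    have e2 : uc (ofAtl A) (fun x => (1 / 4 : ℝ) * u x) j =
      fun y => (1 / 4 : ℝ) * u ((A.e j).symm y) := rfl
    have hz' : A.e j ((A.e j).symm z) = z := (A.e j).right_inv hz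
    rw [e2, hess_const_mul _ (sm_contDiffAt hu j hz), smul_smul]
    unfold hsf
    rw [hz']
    norm_num
  have e3 := K11.f2_w (W.k11 hW) (i := j) hz a c
  rw [F2.k11_f2 W hW hz] at e3
  have e4 := ddc_hess h4 (i := j) hz a c
  rw [e1] at e4
  show W.w j z a c + (ddc (jA A) (fun x => (1 / 4 : ℝ) * u x) h4).w j z a c = _
  rw [e3, e4, Nef_252.hb_add, mul_add, Complex.add_re]

theorem re_I_hb' (G : Matrix (Fin n) (Fin n) ℂ) (u v : Cn n) :
    (I * hb G u (I • v)).re = (hb G u v).re := by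
  rw [hb_I_right]
  have : I * (-I * hb G u v) = hb G u v := by linear_combination (-hb G u v) * I_mul_I
  rw [this]

end atl

variable {V X : Type} [NormedAddCommGroup V] [NormedSpace ℝ V] [TopologicalSpace X]
  {C : RCh V X} {κ : Type} [Fintype κ] [DecidableEq κ] [FiniteDimensional ℝ V]
  [MeasurableSpace V] [BorelSpace V] [CompactSpace X] [T2Space X] [ConnectedSpace X]

/-- **existence of a solution of the Monge-Ampere equation for one member** -/
theorem exists_solMA' {n : ℕ} (hNN : NNat V n) (b : Module.Basis κ ℝ V) (D : Dat C)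
    (hJ : Cx D.J) (ht : T11 D.J D.om) (hp : Pos D.J D.om)
    (hr : ∀ i, ∀ z ∈ (C.e i).target, D.r.r i z ≠ 0) : ∃ u, SolMA b D u := by
  obtain ⟨A, hf, -, ⟨P⟩, hA⟩ := exists_atlJ hNN D.J hJ
  let _ : MeasurableSpace (Cn n) := borel _
  have : BorelSpace (Cn n) := ⟨rfl⟩
  have hc : Cmp C (ofAtl A) := cmp_acmJ hA
  set g : SMap (ofAtl A) C := SMap.ofCmp hc with hg0
  set k : SMap C (ofAtl A) := SMap.ofCmp hc.symm with hk0
  have hg : HolM g (jA A) D.J := holM_acmJ hA
  have hgk : Bi g k := bi_cmp hc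
  have hk : HolM k D.J (jA A) := hgk.holM hg
  -- the Kaehler metric
  have hW : T11 (jA A) (g.pull D.om) := pull_T11 hg ht
  have hWp : Pos (jA A) (g.pull D.om) := pull_Pos hg hgk.imm hp
  set W : F2 (ofAtl A) := g.pull D.om with hW0
  have hK1p : Pos (jA A) (W.k11 hW).f2 := fun i z hz v hv => by
    rw [F2.k11_f2 W hW hz]
    exact hWp i z hz v hv
  set K : Kah A := (W.k11 hW).kah ((pos_f2 _).1 hK1p) with hK
  obtain ⟨s, hs⟩ := Rt_sign b D hp hr
  have hRs : Sm (ofAtl A) (Rt b D) := Sm.pull g (Rt_sm b D hp hr)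
  have hF0 : A.Sm fun x => (1 / 2 : ℝ) * Real.log (Rt b D x) := by
    intro j z hz
    refine ContDiffAt.contDiffWithinAt ?_
    have h1 : ContDiffAt ℝ ∞ (fun y => Rt b D ((A.e j).symm y)) z :=
      (hRs j).contDiffAt ((A.e j).open_target.mem_nhds hz)
    exact contDiffAt_const.mul (h1.log (Rt_ne b D hp hr _))
  obtain ⟨K', u, c, hu, hK', hd⟩ := KpK_487.yau_kah' K hF0
  -- the potential
  have h4 : Sm (ofAtl A) (fun x => (1 / 4 : ℝ) * u x) := fun i => contDiffOn_const.mul (hu i)
  have h4' : Sm C (fun x => (1 / 4 : ℝ) * u x) := Sm.pull k h4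
  set φ : X → ℝ := fun x => (1 / 4 : ℝ) * u x with hφ
  have hval : ∀ (j : A.ι) (z : Cn n), z ∈ (A.e j).target → ∀ a c,
      (W + ddc (jA A) φ h4).w j z a c = (I * hb (K'.g j ((A.e j).symm z)) a c).re := by
    intro j z hz a c
    rw [add_ddc_w hW hu h4 hz, hK']
    rfl
  have hpull : Eqv (g.pull (D.om + ddc D.J φ h4')) (W + ddc (jA A) φ h4) :=
    (pull_add g _ _).trans (eqv_add (Eqv.refl _) (pull_ddc hg h4'))
  have hpos' : Pos (jA A) (W + ddc (jA A) φ h4) := by
    intro j z hz v hv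
    have h1 := hval j z hz v (I • v)
    rw [re_I_hb] at h1
    exact lt_of_lt_of_eq (hb_pos (K'.pos j _ ((A.e j).map_target hz)) hv) h1.symm
  have hpos : Pos D.J (D.om + ddc D.J φ h4') :=
    eqv_Pos (hgk.pull_pull _) (pull_Pos hk hgk.symm.imm (eqv_Pos hpull.symm hpos'))
  refine ⟨φ, hJ, ht, hp, h4', hpos, s * Real.exp (2 * c), ?_⟩
  -- the equation
  intro i z hz
  obtain ⟨j, hj⟩ := Cmp.exists_mov (ofAtl A) (C' := C) (j := i) hz
  have hy : mt (ofAtl A) C j i z ∈ mov C (ofAtl A) i j := Cmp.mt_mem hj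
  have hyz : mt C (ofAtl A) i j (mt (ofAtl A) C j i z) = z := Cmp.mt_mt hj
  have hxz : (C.e i).symm z = (A.e j).symm (mt (ofAtl A) C j i z) :=
    ((A.e j).left_inv hj.2).symm
  set y := mt (ofAtl A) C j i z with hy0
  have hx : (A.e j).symm y ∈ (A.e j).source := (A.e j).map_target hy.1
  have hyd : y ∈ dom C (ofAtl A) g.f i j := hy
  have hJy : ∀ v, fderiv ℝ (mt C (ofAtl A) i j) y (I • v) =
      D.J.J i z (fderiv ℝ (mt C (ofAtl A) i j) y v) := by
    intro v
    have h1 := hg.h i j y hyd v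
    have h2 : Dif_268.loc C (ofAtl A) g.f i j y = z := hyz
    rw [h2] at h1
    exact h1
  -- the basis of `Cn n`
  let L : Cn n ≃ₗ[ℝ] V :=
    { (fderiv ℝ (mt C (ofAtl A) i j) y : Cn n →ₗ[ℝ] V) with
      invFun := fderiv ℝ (mt (ofAtl A) C j i) (mt C (ofAtl A) i j y)
      left_inv := fun v => hc.d_d hy v
      right_inv := fun v => hc.d_d' hy v }
  have hL : ∀ v, L v = fderiv ℝ (mt C (ofAtl A) i j) y v := fun v => rfl
  set b' : Module.Basis κ ℝ (Cn n) := b.map L.symm with hb'
  have hbL : ∀ m, b m = L (b' m) := fun m => by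
    rw [hb', Module.Basis.map_apply, LinearEquiv.apply_symm_apply]
  -- determinants of forms which are read as Hermitian forms
  have key : ∀ (w : F2 C) (G : Matrix (Fin n) (Fin n) ℂ), G.IsHermitian →
      (∀ a c, (g.pull w).w j y a c = (I * hb G a c).re) →
      detB b (fun x x' => w.w i z x (D.J.J i z x')) =
        G.det.re ^ 2 * detB b' (fun x y => (⟪x, y⟫_ℝ : ℝ)) := by
    intro w G hG hw
    rw [← detB_hb b' hG]
    unfold detB
    congr 1
    ext m l
    show w.w i z (b m) (D.J.J i z (b l)) = (hb G (b' m) (b' l)).re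
    rw [hbL m, hbL l, hL, hL, ← hJy, ← re_I_hb' G, ← hw, g.pull_w w hyd]
    have h2 : Dif_268.loc C (ofAtl A) g.f i j y = z := hyz
    rw [h2]
    rfl
  have hH0 : (K.g j ((A.e j).symm y)).IsHermitian := (K.pos j _ hx).isHermitian
  have hH' : (K'.g j ((A.e j).symm y)).IsHermitian := (K'.pos j _ hx).isHermitian
  have e0 := key D.om _ hH0 fun a c => by
    have e3 := K11.f2_w (W.k11 hW) (i := j) hy.1 a c
    rw [F2.k11_f2 W hW hy.1] at e3
    exact e3
  have e1 := key (D.om + ddc D.J φ h4') _ hH' fun a c => by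
    rw [hpull j y hy.1, hval j y hy.1]
  have h4d := hd j _ hx
  have h5 : (K'.g j ((A.e j).symm y)).det.re =
      Real.exp ((1 / 2 : ℝ) * Real.log (Rt b D ((A.e j).symm y)) + c) *
        (K.g j ((A.e j).symm y)).det.re := by
    rw [h4d, Complex.re_ofReal_mul]
  have h6 : Real.exp ((1 / 2 : ℝ) * Real.log (Rt b D ((A.e j).symm y)) + c) ^ 2 =
      s * Rt b D ((A.e j).symm y) * Real.exp (2 * c) := by
    rw [← hs, ← Real.exp_log_eq_abs (Rt_ne b D hp hr _), ← Real.exp_nat_mul, ← Real.exp_add]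
    congr 1
    push_cast
    ring
  have h7 : Rt b D ((A.e j).symm y) = D.r.r i z / dJ b D.J D.om i z := by
    rw [← hxz, Rt_eq b D ((C.e i).map_target hz), (C.e i).right_inv hz]
  have hw0 : dJ b D.J D.om i z ≠ 0 := dJ_ne b hp hz
  have e0' : dJ b D.J D.om i z = _ := e0
  rw [e1, h5, mul_pow, h6, h7, mul_assoc, ← e0']
  field_simp

omit [MeasurableSpace V] [BorelSpace V] [CompactSpace X] [T2Space X] in
/-- the dimension of a space with an almost complex structure is even -/
theorem finrank_even {J : AJ C} (hJ : Cx J) : ∃ n, Module.finrank ℝ V = 2 * n := by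
  obtain ⟨x⟩ := (inferInstance : Nonempty X)
  obtain ⟨i, hi⟩ := C.cover x
  have hz := (C.e i).map_source hi
  set T : V →ₗ[ℝ] V := (J.J i (C.e i x) : V →ₗ[ℝ] V) with hT
  have h1 : T ∘ₗ T = (-1 : ℝ) • LinearMap.id := by
    ext v
    show J.J i _ (J.J i _ v) = _
    rw [hJ.sq i _ hz]
    simp
  have h2 := congrArg LinearMap.det h1
  rw [LinearMap.det_comp, LinearMap.det_smul, LinearMap.det_id, mul_one] at h2
  have h3 : Even (Module.finrank ℝ V) := by
    by_contra h
    rw [Nat.not_even_iff_odd] at h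
    rw [h.neg_one_pow] at h2
    nlinarith [mul_self_nonneg (LinearMap.det T)]
  obtain ⟨n, hn⟩ := h3
  exact ⟨n, by rw [hn]; ring⟩

/-- **existence of a solution of the Monge-Ampere equation for one member** -/
theorem exists_solMA (b : Module.Basis κ ℝ V) (D : Dat C)
    (hJ : Cx D.J) (ht : T11 D.J D.om) (hp : Pos D.J D.om)
    (hr : ∀ i, ∀ z ∈ (C.e i).target, D.r.r i z ≠ 0) : ∃ u, SolMA b D u := by
  obtain ⟨n, hn⟩ := finrank_even (C := C) hJ
  exact exists_solMA' (Crest.Agent.R260.NN6_900.nnat n V hn) b D hJ ht hp hr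

/-- a solution with `u x₁ = 0` -/
theorem exists_solMA_norm (b : Module.Basis κ ℝ V) (D : Dat C)
    (hJ : Cx D.J) (ht : T11 D.J D.om) (hp : Pos D.J D.om)
    (hr : ∀ i, ∀ z ∈ (C.e i).target, D.r.r i z ≠ 0) (x₁ : X) : ∃ u, SolMA b D u ∧ u x₁ = 0 := by
  obtain ⟨u, hu⟩ := exists_solMA b D hJ ht hp hr
  exact ⟨fun x => u x - u x₁, SolMA.cst D u (u x₁) hu, sub_self _⟩

end

end Crest.Agent.R281.YVMa_449
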