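import Crest.Agent.R281.Al6_830
import Crest.Agent.R281.Xi1_831
import Crest.Agent.R281.Tt5_476
import Crest.Agent.R281.Uq2_250
import Crest.Agent.R281.Nef4_252
import Crest.Agent.R281.AlgDefs_998

-- ▼ part R281/Al7_830
section

/-!
# Row 281, HK-ALONG, part 7 (helper830): the family theorem

* `js_fderiv`, `js_ddc` : derivatives of jointly smooth families
* `JSH.of_om`           : a family of triples with jointly smooth `om k` is jointly smooth
* `TopI.exists_hk`      : the jointly smooth family of hyperkaehler triples of a `CFam`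
-/

set_option autoImplicit false
set_option linter.unusedSectionVars false
set_option maxSynthPendingDepth 3

open Set Filter Topology Function MeasureTheory
open scoped ContDiff

namespace Crest.Agent.R281.Al_830

open Crest.Agent.R275.Core144 Crest.Agent.R275.EDR890
open Crest.Agent.R281.HkR_835 hiding pb pb_apply
open Crest.Agent.R281.HkR_835.Cmp
open Crest.Agent.R281.Ti_846 hiding pb pb_apply
open Crest.Agent.R281.NefO_476
open Crest.Agent.R281.Nef_252
open Crest.Agent.R281.Tt_476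
open Crest.Agent.R281.Xi_831 (ND WW WW_spec WW_unique)

noncomputable section

/-! ### derivatives of jointly smooth families -/

section js

variable {V E : Type} [NormedAddCommGroup V] [NormedSpace ℝ V] [NormedAddCommGroup E]
  [NormedSpace ℝ E]

theorem js_fderiv {W : Type*} [NormedAddCommGroup W] [NormedSpace ℝ W] {T : Set E} {U : Set V}
    (hT : IsOpen T) (hU : IsOpen U) {f : E → V → W}
    (hf : ContDiffOn ℝ ∞ (fun q : E × V => f q.1 q.2) (T ×ˢ U)) :
    ContDiffOn ℝ ∞ (fun q : E × V => fderiv ℝ (f q.1) q.2) (T ×ˢ U) := by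
  intro q hq
  refine ContDiffAt.contDiffWithinAt ?_
  refine ContDiffAt.fderiv (f := fun (q : E × V) (y : V) => f q.1 y)
    (g := fun q => q.2) (n := ∞) (m := ∞) ?_ contDiffAt_snd (by simp)
  have h2 : ContDiffAt ℝ ∞ (fun q : (E × V) × V => (q.1.1, q.2)) (q, q.2) :=
    (contDiffAt_fst.fst).prodMk contDiffAt_snd
  exact ContDiffAt.comp (g := fun q : E × V => f q.1 q.2)
    (f := fun q : (E × V) × V => (q.1.1, q.2)) (q, q.2)
    (hf.contDiffAt ((hT.prod hU).mem_nhds hq)) h2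

variable {X : Type} [TopologicalSpace X] {C : RCh V X} [FiniteDimensional ℝ V]

theorem js_ddcF {T : Set E} (hT : IsOpen T) {u : E → X → ℝ} (hu : JS0 C T u) {J : E → AJ C}
    (hJ : JSJ T J) (i : C.ι) (a b : V) : ContDiffOn ℝ ∞ (fun q : E × V =>
      ddcF (uc C (u q.1) i) ((J q.1).J i) q.2 a b) (T ×ˢ (C.e i).target) := by
  have ho := (C.e i).open_target
  have h0 : ContDiffOn ℝ ∞ (fun q : E × V => uc C (u q.1) i q.2) (T ×ˢ (C.e i).target) := hu i
  have h1 := js_fderiv (f := fun p z => uc C (u p) i z) hT ho h0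
  have h2 := js_fderiv (f := fun p z => fderiv ℝ (uc C (u p) i) z) hT ho h1
  have h3 := js_fderiv (f := fun p z => (J p).J i z) hT ho (hJ i)
  have h4 : ∀ c : V, ContDiffOn ℝ ∞ (fun q : E × V => (J q.1).J i q.2 c) (T ×ˢ (C.e i).target) :=
    fun c => (hJ i).clm_apply contDiffOn_const
  have h5 : ∀ c d : V, ContDiffOn ℝ ∞ (fun q : E × V => fderiv ℝ ((J q.1).J i) q.2 c d)
      (T ×ˢ (C.e i).target) :=
    fun c d => (h3.clm_apply contDiffOn_const).clm_apply contDiffOn_const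
  have h6 : ∀ c d : V, ContDiffOn ℝ ∞ (fun q : E × V =>
      fderiv ℝ (fderiv ℝ (uc C (u q.1) i)) q.2 c ((J q.1).J i q.2 d)) (T ×ˢ (C.e i).target) :=
    fun c d => (h2.clm_apply contDiffOn_const).clm_apply (h4 d)
  have h7 : ∀ c d : V, ContDiffOn ℝ ∞ (fun q : E × V =>
      fderiv ℝ (uc C (u q.1) i) q.2 (fderiv ℝ ((J q.1).J i) q.2 c d)) (T ×ˢ (C.e i).target) :=
    fun c d => h1.clm_apply (h5 c d)
  exact ((h6 a b).add (h7 a b)).neg.add ((h6 b a).add (h7 b a))

/-- joint smoothness of `om + dd^c u` -/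
theorem js_add_ddc [MeasurableSpace V] [BorelSpace V] {T : Set E} (hT : IsOpen T)
    {u : E → X → ℝ} (hu : JS0 C T u)
    {J : E → AJ C} (hJ : JSJ T J) {om om' : E → F2 C} (hom : JS2 T om)
    (h : ∀ p ∈ T, ∃ hs : Sm C (u p), om' p = om p + ddc (J p) (u p) hs) : JS2 T om' := by
  intro i
  refine contDiffOn_clm_apply.2 fun a => contDiffOn_clm_apply.2 fun b => ?_
  have h1 : ContDiffOn ℝ ∞ (fun q : E × V => (om q.1).w i q.2 a b) (T ×ˢ (C.e i).target) :=
    ((hom i).clm_apply contDiffOn_const).clm_apply contDiffOn_const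
  refine (h1.add (js_ddcF hT hu hJ i a b)).congr ?_
  rintro ⟨p, z⟩ ⟨hp, hz⟩
  obtain ⟨hs, he⟩ := h p hp
  show (om' p).w i z a b = (om p).w i z a b + _
  rw [he, F2.add_w, add_apply, add_apply, ddc_w (J p) (u p) hs hz]

end js

/-! ### triples -/

section triples

variable {V E X : Type} [NormedAddCommGroup V] [NormedSpace ℝ V] [NormedAddCommGroup E]
  [NormedSpace ℝ E] [TopologicalSpace X] {C : RCh V X} [FiniteDimensional ℝ V]

theorem hk_nd (H : HkT C) (k : Fin 3) {i : C.ι} {z : V} (hz : z ∈ (C.e i).target) :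
    ND ((H.om k).w i z) := fun v hv => H.nondeg k hz v hv

theorem js_WW {T : Set E} {U : Set V} {f g : E × V → Bil V}
    (hf : ContDiffOn ℝ ∞ f (T ×ˢ U)) (hg : ContDiffOn ℝ ∞ g (T ×ˢ U))
    (hn : ∀ q ∈ T ×ˢ U, ND (f q)) : ContDiffOn ℝ ∞ (fun q => WW (f q) (g q)) (T ×ˢ U) := by
  have h1 : ContDiffOn ℝ ∞ (fun q => ContinuousLinearMap.inverse (f q)) (T ×ˢ U) := fun q hq =>
    ((hn q hq).inv.contDiffAt_map_inverse (n := ∞)).comp_contDiffWithinAt q (hf q hq)
  exact h1.clm_comp hg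

/-- the complex structures in terms of the forms -/
theorem J_eq_WW (H : HkT C) {k l m : Fin 3} (h : (k, l, m) = (0, 1, 2) ∨ (k, l, m) = (1, 2, 0) ∨
    (k, l, m) = (2, 0, 1)) {i : C.ι} {z : V} (hz : z ∈ (C.e i).target) :
    H.J k i z = WW ((H.om l).w i z) (-(H.om m).w i z) := by
  refine WW_unique (hk_nd H l hz) fun u v => ?_
  rw [neg_apply, neg_apply]
  exact (H.om_J h hz u v).1

theorem g_eq_om (H : HkT C) {i : C.ι} {z : V} (hz : z ∈ (C.e i).target) :
    H.g i z = -(((H.om 0).w i z).comp (H.J 0 i z)) := by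
  ext u v
  show H.g i z u v = -((H.om 0).w i z (H.J 0 i z u) v)
  rw [H.om_eq 0 i z hz, H.J_sq 0 i z hz, map_neg, neg_apply, neg_neg]

/-- **a family of triples with jointly smooth forms is jointly smooth** -/
theorem JSH.of_om {T : Set E} {H : E → HkT C} (h : ∀ k, JS2 T fun p => (H p).om k) :
    JSH T H := by
  have hJ : ∀ k i, ContDiffOn ℝ ∞ (fun p : E × V => (H p.1).J k i p.2) (T ×ˢ (C.e i).target) := by
    intro k i
    obtain ⟨l, m, hlm⟩ : ∃ l m : Fin 3, (k, l, m) = (0, 1, 2) ∨ (k, l, m) = (1, 2, 0) ∨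
        (k, l, m) = (2, 0, 1) := by
      fin_cases k
      · exact ⟨1, 2, Or.inl rfl⟩
      · exact ⟨2, 0, Or.inr (Or.inl rfl)⟩
      · exact ⟨0, 1, Or.inr (Or.inr rfl)⟩
    refine (js_WW (h l i) (h m i).neg fun q hq => hk_nd (H q.1) l hq.2).congr ?_
    rintro ⟨p, z⟩ ⟨-, hz⟩
    exact J_eq_WW (H p) hlm hz
  refine ⟨fun k i => h k i, hJ, fun i => ?_⟩
  refine ((h 0 i).clm_comp (hJ 0 i)).neg.congr ?_
  rintro ⟨p, z⟩ ⟨-, hz⟩
  exact g_eq_om (H p) hz

/-- the scaling factor is smooth -/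
theorem js_scale [Nontrivial V] {T : Set E} {om s1 : E → F2 C} {J : E → AJ C}
    (hom : JS2 T om) (hs1 : JS2 T s1) (hJ : JSJ T J) {H : E → HkT C} {r : E → ℝ}
    (x0 : X) (hr : ∀ t ∈ T, 0 < r t) (h0 : ∀ t ∈ T, (H t).om 0 = om t)
    (h1 : ∀ t ∈ T, (H t).om 1 = r t • s1 t) (hj : ∀ t ∈ T, ofHk (H t) 0 = J t) :
    ContDiffOn ℝ ∞ r T := by
  obtain ⟨i, hi⟩ := C.cover x0
  set z0 := C.e i x0 with hz0
  have hz : z0 ∈ (C.e i).target := (C.e i).map_source hi
  obtain ⟨v0, hv0⟩ := exists_ne (0 : V)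
  obtain ⟨φ, -, hφ⟩ := exists_dual_vector ℝ v0 (norm_ne_zero_iff.2 hv0)
  -- the endomorphism `g⁻¹ s1`
  let g : E → Bil V := fun t => -(((om t).w i z0).comp ((J t).J i z0))
  have hgt : ∀ t ∈ T, g t = (H t).g i z0 := by
    intro t ht
    have h2 : (J t).J i z0 = (H t).J 0 i z0 := by
      rw [← hj t ht]
      rfl
    rw [g_eq_om (H t) hz, h0 t ht, ← h2]
  have hnd : ∀ t ∈ T, ND (g t) := by
    intro t ht u hu
    rw [hgt t ht] at hu
    by_contra hne
    exact ((H t).g_pos i z0 hz u hne).ne' (hu u)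
  have hslice : ContDiffOn ℝ ∞ (fun t : E => (t, z0)) T :=
    contDiffOn_id.prodMk contDiffOn_const
  have hmaps : MapsTo (fun t : E => (t, z0)) T (T ×ˢ (C.e i).target) := fun t ht => ⟨ht, hz⟩
  have sg : ContDiffOn ℝ ∞ g T := by
    have e1 : ContDiffOn ℝ ∞ (fun t => (om t).w i z0) T := (hom i).comp hslice hmaps
    have e2 : ContDiffOn ℝ ∞ (fun t => (J t).J i z0) T := (hJ i).comp hslice hmaps
    exact (e1.clm_comp e2).neg
  have ss : ContDiffOn ℝ ∞ (fun t => (s1 t).w i z0) T := (hs1 i).comp hslice hmaps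
  have sA : ContDiffOn ℝ ∞ (fun t => WW (g t) ((s1 t).w i z0)) T := by
    have h3 : ContDiffOn ℝ ∞ (fun t => ContinuousLinearMap.inverse (g t)) T := fun t ht =>
      ((hnd t ht).inv.contDiffAt_map_inverse (n := ∞)).comp_contDiffWithinAt t (sg t ht)
    exact h3.clm_comp ss
  have key : ∀ t ∈ T, ∀ v, r t • WW (g t) ((s1 t).w i z0) v = (H t).J 1 i z0 v := by
    intro t ht v
    refine (hnd t ht).ext fun w => ?_
    rw [map_smul, smul_apply, WW_spec (hnd t ht), hgt t ht, ← (H t).om_eq 1 i z0 hz, h1 t ht]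
    rfl
  have key2 : ∀ t ∈ T, -(φ (WW (g t) ((s1 t).w i z0) (WW (g t) ((s1 t).w i z0) v0))) =
      ((r t) ^ 2)⁻¹ * ‖v0‖ := by
    intro t ht
    have h3 := (H t).J_sq 1 i z0 hz v0
    rw [← key t ht, ← key t ht, map_smul, smul_smul] at h3
    have h4 := congrArg φ h3
    rw [map_smul, map_neg, smul_eq_mul] at h4
    have h5 : φ v0 = ‖v0‖ := hφ
    rw [h5] at h4
    have hr' := (hr t ht).ne'
    field_simp
    linarith
  have hf : ContDiffOn ℝ ∞ (fun t => -(φ (WW (g t) ((s1 t).w i z0)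
      (WW (g t) ((s1 t).w i z0) v0))) / ‖v0‖) T := by
    refine ContDiffOn.div_const (ContDiffOn.neg ?_) _
    exact φ.contDiff.comp_contDiffOn (sA.clm_apply (sA.clm_apply contDiffOn_const))
  have hv0' : ‖v0‖ ≠ 0 := norm_ne_zero_iff.2 hv0
  have hf2 : ∀ t ∈ T, -(φ (WW (g t) ((s1 t).w i z0) (WW (g t) ((s1 t).w i z0) v0))) / ‖v0‖ =
      ((r t) ^ 2)⁻¹ := by
    intro t ht
    rw [key2 t ht, mul_div_assoc, div_self hv0', mul_one]
  have hf3 : ContDiffOn ℝ ∞ (fun t => ((r t) ^ 2)⁻¹) T := hf.congr fun t ht => (hf2 t ht).symm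
  have hf4 : ContDiffOn ℝ ∞ (fun t => (Real.sqrt (((r t) ^ 2)⁻¹))⁻¹) T := by
    refine ContDiffOn.inv (ContDiffOn.sqrt hf3 fun t ht => ?_) fun t ht => ?_
    · have := hr t ht
      positivity
    · have := hr t ht
      positivity
  refine hf4.congr fun t ht => ?_
  rw [Real.sqrt_inv, inv_inv, Real.sqrt_sq (hr t ht).le]

end triples

/-! ### the family theorem -/

section main

variable {V E X : Type} [NormedAddCommGroup V] [NormedSpace ℝ V] [NormedAddCommGroup E]
  [NormedSpace ℝ E] [TopologicalSpace X] {C : RCh V X} [FiniteDimensional ℝ V]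
  [MeasurableSpace V] [BorelSpace V] {μ : Measure V}
  [μ.IsAddHaarMeasure] [CompactSpace X] [T2Space X] [ConnectedSpace X] {n : ℕ}
  {b : Module.Basis (Fin (n + n) × Fin 2) ℝ V} {P : RPart C} {q : QuadraticForm ℝ (F2 C)}
  {κ : Type} [Fintype κ] [DecidableEq κ] {b' : Module.Basis κ ℝ V}

/-- a solution of the Monge-Ampere equation gives a triple -/
theorem TopI.hk_of_sol (TI : TopI μ b P q) {J : AJ C} {om s1 s2 : F2 C} (D : HD J om s1 s2)
    (hq : 0 < q om) {f : X → ℝ} {fs : Sm C f} {u : X → ℝ}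
    (hu : SolMA b' ⟨J, om, densF2 b' s1, f, fs⟩ u) :
    ∃ (H : HkT C) (r : ℝ), 0 < r ∧ ofHk H 0 = J ∧ H.om 0 = om + ddc J u hu.sm ∧
      H.om 1 = r • s1 ∧ H.om 2 = r • s2 := by
  have D' : HD J (om + ddc J u hu.sm) s1 s2 := ⟨D.sq, fun i z hz v w => by
    simp only [F2.add_w, add_apply]
    rw [D.t11 i z hz, ddc_T11 D.cx u hu.sm i z hz], hu.pos, D.typ, D.nd⟩
  have hex : Ex ((om + ddc J u hu.sm) - om) := by
    rw [add_sub_cancel_left]
    exact ddc_Ex J u hu.sm
  have hq' : 0 < q (om + ddc J u hu.sm) := by rw [TI.q_coh hex]; exact hq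
  obtain ⟨A, hfin, -, ⟨PA⟩, h, hI⟩ := exists_atlas (fin_V b) D.cx
  obtain ⟨k, hk⟩ := hu.eq
  exact TI.hk_of_ric PA hI h D' hq' (D'.ric_of_vol hI h b' (k := k) hk)

theorem dens_ne {J : AJ C} {om s1 s2 : F2 C} (D : HD J om s1 s2) :
    ∀ i, ∀ z ∈ (C.e i).target, (densF2 b' s1).r i z ≠ 0 := fun i z hz =>
  YVMa_449.detB_ne b' (D.nd i z hz)

/-- **HK-ALONG**: the jointly smooth family of hyperkaehler triples of a family of complex
structures, Kaehler forms and holomorphic symplectic forms -/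
theorem TopI.exists_hk [FiniteDimensional ℝ E] (TI : TopI μ b P q) (hY : YauVar C b')
    {T : Set E} (hT : IsOpen T) (hne : T.Nonempty) (D : CFam C T)
    (hq : ∀ t ∈ T, 0 < q (D.om t)) :
    ∃ (H : E → HkT C) (r : E → ℝ) (u : E → X → ℝ), JSH T H ∧ ContDiffOn ℝ ∞ r T ∧ JS0 C T u ∧
      ∀ t ∈ T, 0 < r t ∧ ofHk (H t) 0 = D.J t ∧
        (∃ hu : Sm C (u t), (H t).om 0 = D.om t + ddc (D.J t) (u t) hu) ∧
        (H t).om 1 = r t • D.s1 t ∧ (H t).om 2 = r t • D.s2 t := by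
  classical
  have hf0 : Sm C (fun _ : X => (0 : ℝ)) := fun i => contDiffOn_const
  let DD : E → Dat C := fun t => ⟨D.J t, D.om t, densF2 b' (D.s1 t), fun _ => 0, hf0⟩
  have hDD : JSDat T DD := ⟨D.jsJ, D.jsom, js_densF2 b' D.js1, fun i => contDiffOn_const⟩
  obtain ⟨u, hju, hsol⟩ := hY E T DD hT hDD fun t ht =>
    ⟨(D.hd t ht).cx, (D.hd t ht).t11, (D.hd t ht).pos, dens_ne (D.hd t ht)⟩
  have h1 : ∀ t ∈ T, ∃ (H : HkT C) (r : ℝ), 0 < r ∧ ofHk H 0 = D.J t ∧
      (∃ hu : Sm C (u t), H.om 0 = D.om t + ddc (D.J t) (u t) hu) ∧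
      H.om 1 = r • D.s1 t ∧ H.om 2 = r • D.s2 t := by
    intro t ht
    obtain ⟨H, r, h2, h3, h4, h5, h6⟩ := TI.hk_of_sol (D.hd t ht) (hq t ht) (hsol t ht)
    exact ⟨H, r, h2, h3, ⟨(hsol t ht).sm, h4⟩, h5, h6⟩
  obtain ⟨t0, ht0⟩ := hne
  obtain ⟨Hd, -⟩ := h1 t0 ht0
  have h2 : ∀ t : E, ∃ (H : HkT C) (r : ℝ), t ∈ T → 0 < r ∧ ofHk H 0 = D.J t ∧
      (∃ hu : Sm C (u t), H.om 0 = D.om t + ddc (D.J t) (u t) hu) ∧
      H.om 1 = r • D.s1 t ∧ H.om 2 = r • D.s2 t := by
    intro t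
    by_cases ht : t ∈ T
    · obtain ⟨H, r, h⟩ := h1 t ht
      exact ⟨H, r, fun _ => h⟩
    · exact ⟨Hd, 0, fun h => absurd h ht⟩
  choose H r hH using h2
  have hom0 : JS2 T fun t => (H t).om 0 :=
    js_add_ddc hT hju D.jsJ D.jsom fun t ht => (hH t ht).2.2.1
  have hV : Nontrivial V := by
    have hn := TI.npos
    refine Module.nontrivial_of_finrank_pos (R := ℝ) ?_
    rw [fin_V b]
    omega
  obtain ⟨x0⟩ := (inferInstance : Nonempty X)
  have hr : ContDiffOn ℝ ∞ r T := js_scale (om := fun t => (H t).om 0) hom0 D.js1 D.jsJ x0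
    (fun t ht => (hH t ht).1) (fun t ht => rfl) (fun t ht => (hH t ht).2.2.2.1)
    (fun t ht => (hH t ht).2.1)
  have hsm : ∀ s : E → F2 C, JS2 T s → JS2 T fun t => r t • s t := by
    intro s hs i
    have h3 : ContDiffOn ℝ ∞ (fun p : E × V => r p.1) (T ×ˢ (C.e i).target) :=
      hr.comp contDiffOn_fst fun p hp => hp.1
    exact h3.smul (hs i)
  have hom : ∀ k, JS2 T fun t => (H t).om k := by
    intro k
    fin_cases k
    · exact hom0
    · intro i
      refine (hsm _ D.js1 i).congr ?_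
      rintro ⟨t, z⟩ ⟨ht, hz⟩
      show ((H t).om 1).w i z = _
      rw [(hH t ht).2.2.2.1]
    · intro i
      refine (hsm _ D.js2 i).congr ?_
      rintro ⟨t, z⟩ ⟨ht, hz⟩
      show ((H t).om 2).w i z = _
      rw [(hH t ht).2.2.2.2]
  exact ⟨H, r, u, JSH.of_om hom, hr, hju, hH⟩

end main

end

end Crest.Agent.R281.Al_830
end

-- ▼ part R281/Al8_830

/-!
# Row 281, HK-ALONG, part 8 (helper830): uniqueness and paths

* `hk_unique`      : two triples with the same `J 0`, cohomologous `om 0` and `om 1 = r om' 1`,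
                     `r > 0`, are equal (Calabi)
* `TopI.uniqR2`    : (2,0)-forms are unique up to a complex factor, in real language
* `TopI.exists_path` : the family of triples of a `CFam` through a given triple
* `TopI.exists_leg`  : the output in the language of `AlgDefs_998`
-/

set_option autoImplicit false
set_option linter.unusedSectionVars false
set_option maxSynthPendingDepth 3

open Set Filter Topology Function MeasureTheory
open scoped ContDiff

namespace Crest.Agent.R281.Al_830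

open Crest.Agent.R275.Geo Crest.Agent.R275.Core144 Crest.Agent.R275.EDR890
open Crest.Agent.R273.Kah_333
open Crest.Agent.R281.Defs_273 (H2 HSymp)
open Crest.Agent.R281.HkP1_508 Crest.Agent.R281.HkP2_508
open Crest.Agent.R281.HkR_835 hiding pb pb_apply
open Crest.Agent.R281.HkR_835.Cmp
open Crest.Agent.R281.Ti_846 hiding pb pb_apply
open Crest.Agent.R281.NefO_476
open Crest.Agent.R281.Nef_252
open Crest.Agent.R281.Tt_476
open Crest.Agent.R281.Xi_831 (ND WW WW_spec WW_unique)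
open Crest.Agent.R281.Alg_998 (HEqv SmH Cl AtTau Frm Leg)

noncomputable section

variable {V X : Type} [NormedAddCommGroup V] [NormedSpace ℝ V] [TopologicalSpace X]
  {C : RCh V X} [FiniteDimensional ℝ V]

section unique

variable {κ : Type} [Fintype κ] [DecidableEq κ] (b : Module.Basis κ ℝ V)

/-- `det (om_0 (x, J_0 y)) = det (om_1 (x, y))` for a triple -/
theorem detB_hk (H : HkT C) {i : C.ι} {z : V} (hz : z ∈ (C.e i).target) :
    detB b (fun x y => (H.om 0).w i z x (H.J 0 i z y)) =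
      detB b (fun x y => (H.om 1).w i z x y) := by
  have h1 : (fun x y => (H.om 0).w i z x (H.J 0 i z y)) = fun x y => H.g i z x y := by
    funext x y
    rw [H.om_eq 0 i z hz, H.g_J 0 hz]
  have h2 : detB b (fun x y => (H.om 1).w i z x y) =
      detB b (fun x y => H.g i z x (H.J 1 i z y)) := by
    unfold detB
    rw [← Matrix.det_transpose]
    congr 1
    ext k l
    show (H.om 1).w i z (b l) (b k) = _
    rw [H.om_eq 1 i z hz, H.g_symm i z hz]
    rfl
  rw [h1, h2, detB_comp b (H.g i z) (H.J 1 i z), det_sq_neg (H.J_sq 1 i z hz), mul_one]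

theorem detB_smul' (c : ℝ) (B : V → V → ℝ) :
    detB b (fun x y => c * B x y) = c ^ Fintype.card κ * detB b B := by
  unfold detB
  rw [← Matrix.det_smul]
  congr 1

/-- **uniqueness** (Calabi): same `J 0`, cohomologous `om 0`, `om 1 = r om' 1` -/
theorem om_unique [MeasurableSpace V] [BorelSpace V] [CompactSpace X] [T2Space X]
    [ConnectedSpace X] {d : ℕ} (hfin : Module.finrank ℝ V = 2 * d) (hd : 2 ≤ d)
    (H H' : HkT C) (hJ : ∀ i, ∀ z ∈ (C.e i).target, ∀ v, H.J 0 i z v = H'.J 0 i z v)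
    (hex : Ex (H.om 0 - H'.om 0)) {r : ℝ}
    (h1 : ∀ i, ∀ z ∈ (C.e i).target, ∀ u v, (H.om 1).w i z u v = r * (H'.om 1).w i z u v) :
    ∀ i, ∀ z ∈ (C.e i).target, (H.om 0).w i z = (H'.om 0).w i z := by
  set J : AJ C := ofHk H' 0 with hJd
  have hcx : Cx J := cx_ofHk H' 0
  have ht : T11 J (H.om 0) := by
    intro i z hz u v
    show (H.om 0).w i z (H'.J 0 i z u) (H'.J 0 i z v) = _
    rw [← hJ i z hz, ← hJ i z hz]
    exact T11_hk H 0 i z hz u v
  have ht' : T11 J (H'.om 0) := T11_hk H' 0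
  have hw : T11 J (H.om 0 - H'.om 0) := by
    intro i z hz u v
    simp only [F2.sub_w, sub_apply]
    rw [ht i z hz, ht' i z hz]
  have hdd : DDb J := ddb_of (Crest.Agent.R260.NN6_900.nnat d V hfin) hd hcx
    (KCls.of ht' (Pos_hk H' 0))
  obtain ⟨u, hu, hU⟩ := hdd _ hex hw
  have key : ∀ i, ∀ z ∈ (C.e i).target, ∀ x y, (H'.om 0).w i z x y +
      ddcF (uc C u i) (J.J i) z x y = (H.om 0).w i z x y := by
    intro i z hz x y
    have h2 := hU i z hz x y
    rw [F2.sub_w, sub_apply, sub_apply, ddc_w J u hu hz] at h2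
    linarith
  have hz0 : ∀ i, ∀ z : V, ∀ x y, ddcF (uc C (fun _ : X => (0 : ℝ)) i) (J.J i) z x y = 0 := by
    intro i z x y
    have e1 : uc C (fun _ : X => (0 : ℝ)) i = fun _ => (0 : ℝ) := rfl
    have e2 : fderiv ℝ (fun _ : V => (0 : ℝ)) = fun _ => 0 := by
      funext y
      exact fderiv_const_apply (0 : ℝ)
    have e3 : fderiv ℝ (fun _ : V => (0 : V →L[ℝ] ℝ)) = fun _ => 0 := by
      funext y
      exact fderiv_const_apply (0 : V →L[ℝ] ℝ)
    rw [ddcF, e1, e2, e3]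
    simp
  have hr0 : ∀ i, ∀ z ∈ (C.e i).target, detB (Module.finBasis ℝ V)
      (fun x y => (H'.om 1).w i z x y) ≠ 0 := fun i z hz =>
    YVMa_449.detB_ne _ fun v hv => H'.nondeg 1 hz v hv
  have hun := Uq_250.uniqR hfin J hcx (H'.om 0) ht' (Module.finBasis ℝ V)
    (fun i z => detB (Module.finBasis ℝ V) (fun x y => (H'.om 1).w i z x y)) hr0
    (U := u) (u := fun _ => 0) (fun i => (hu i).of_le (WithTop.coe_le_coe.2 le_top))
    (fun i => contDiffOn_const)
    (fun i z hz v hv => by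
      rw [key i z hz]
      show 0 < (H.om 0).w i z v (H'.J 0 i z v)
      rw [← hJ i z hz]
      exact Pos_hk H 0 i z hz v hv)
    (fun i z hz v hv => by
      rw [hz0, add_zero]
      exact Pos_hk H' 0 i z hz v hv)
    (k₁ := r ^ Fintype.card (Fin (Module.finrank ℝ V))) (k₂ := 1)
    (fun i z hz => by
      have h3 := detB_hk (Module.finBasis ℝ V) H hz
      have h4 : (fun x y => (H.om 1).w i z x y) = fun x y => r * (H'.om 1).w i z x y := by
        funext x y
        exact h1 i z hz x y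
      rw [h4, detB_smul' (Module.finBasis ℝ V) r (fun x y => (H'.om 1).w i z x y)] at h3
      rw [← h3]
      unfold detB
      congr 1
      ext k l
      rw [Matrix.of_apply, Matrix.of_apply, key i z hz]
      show (H.om 0).w i z _ (H'.J 0 i z _) = _
      rw [← hJ i z hz])
    (fun i z hz => by
      have h3 := detB_hk (Module.finBasis ℝ V) H' hz
      rw [one_mul, ← h3]
      unfold detB
      congr 1
      ext k l
      rw [Matrix.of_apply, Matrix.of_apply, hz0, add_zero]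
      rfl)
  obtain ⟨-, c, hc⟩ := hun
  intro i z hz
  ext x y
  rw [← key i z hz, ← ddc_w J u hu hz,
    ddc_congr J hu (show Sm C (fun _ : X => (0 : ℝ)) from fun i => contDiffOn_const)
      (c := c) (fun x => by have := hc x; linarith) hz,
    ddc_w J (fun _ : X => (0 : ℝ)) (fun i => contDiffOn_const) hz, hz0, add_zero]

/-- equality of triples from the forms `om 0` and `om 1` up to a positive factor -/
theorem hk_unique [Nonempty X] [Nontrivial V] (H H' : HkT C)
    (hJ : ∀ i, ∀ z ∈ (C.e i).target, ∀ v, H.J 0 i z v = H'.J 0 i z v)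
    (h0 : ∀ i, ∀ z ∈ (C.e i).target, (H.om 0).w i z = (H'.om 0).w i z) {r : ℝ} (hr : 0 < r)
    (h1 : ∀ i, ∀ z ∈ (C.e i).target, ∀ u v, (H.om 1).w i z u v = r * (H'.om 1).w i z u v) :
    r = 1 ∧ HEqv H H' := by
  have hJ' : ∀ i, ∀ z ∈ (C.e i).target, H.J 0 i z = H'.J 0 i z := fun i z hz => by
    ext v
    exact hJ i z hz v
  have hg : ∀ i, ∀ z ∈ (C.e i).target, H.g i z = H'.g i z := by
    intro i z hz
    rw [g_eq_om H hz, g_eq_om H' hz, h0 i z hz, hJ' i z hz]
  have hJ1 : ∀ i, ∀ z ∈ (C.e i).target, ∀ v, H.J 1 i z v = r • H'.J 1 i z v := by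
    intro i z hz v
    rw [← sub_eq_zero]
    by_contra hne
    refine (H.g_pos i z hz _ hne).ne' ?_
    have h2 : ∀ w, H.g i z (H.J 1 i z v - r • H'.J 1 i z v) w = 0 := by
      intro w
      rw [map_sub, sub_apply, map_smul, smul_apply, ← H.om_eq 1 i z hz, h1 i z hz, hg i z hz,
        ← H'.om_eq 1 i z hz, smul_eq_mul, sub_self]
    exact h2 _
  have hr1 : r = 1 := by
    obtain ⟨x⟩ := (inferInstance : Nonempty X)
    obtain ⟨i, hi⟩ := C.cover x
    obtain ⟨v, hv⟩ := exists_ne (0 : V)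
    have hz := (C.e i).map_source hi
    have h3 := H.J_sq 1 i _ hz v
    rw [hJ1 i _ hz, hJ1 i _ hz, map_smul, H'.J_sq 1 i _ hz, smul_smul] at h3
    have h4 : (r * r - 1) • v = 0 := by
      rw [sub_smul, one_smul]
      have h5 : (r * r) • v = v := by
        have := congrArg Neg.neg h3
        simpa using this
      rw [h5, sub_self]
    have h5 := (smul_eq_zero.1 h4).resolve_right hv
    nlinarith
  subst hr1
  have hJ1' : ∀ i, ∀ z ∈ (C.e i).target, H.J 1 i z = H'.J 1 i z := fun i z hz => by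
    ext v
    rw [hJ1 i z hz, one_smul]
  have hJ2' : ∀ i, ∀ z ∈ (C.e i).target, H.J 2 i z = H'.J 2 i z := fun i z hz => by
    ext v
    rw [← H.J_01 i z hz, ← H'.J_01 i z hz, hJ1' i z hz, hJ' i z hz]
  have hJa : ∀ k i, ∀ z ∈ (C.e i).target, H.J k i z = H'.J k i z := by
    intro k i z hz
    fin_cases k
    · exact hJ' i z hz
    · exact hJ1' i z hz
    · exact hJ2' i z hz
  refine ⟨rfl, ⟨fun k i z hz => ?_, hJa, hg⟩⟩
  ext u v
  rw [H.om_eq k i z hz, H'.om_eq k i z hz, hg i z hz, hJa k i z hz]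

end unique

/-! ### uniqueness of the (2,0)-form -/

section uniq20

variable [MeasurableSpace V] [BorelSpace V] {μ : Measure V}
  [μ.IsAddHaarMeasure] [CompactSpace X] [T2Space X] [ConnectedSpace X] {n : ℕ}
  {b : Module.Basis (Fin (n + n) × Fin 2) ℝ V} {P : RPart C} {q : QuadraticForm ℝ (F2 C)}

/-- **(2,0)-forms are unique up to a complex factor** -/
theorem TopI.uniqR2 (TI : TopI μ b P q) {J : AJ C} {om s1 s2 : F2 C} (D : HD J om s1 s2)
    (hq : 0 < q om) {t1 t2 : F2 C}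
    (ht : ∀ i, ∀ z ∈ (C.e i).target, ∀ u v, t1.w i z (J.J i z u) v = -t2.w i z u v) :
    ∃ α β : ℝ, (∀ i, ∀ z ∈ (C.e i).target, t1.w i z = (α • s1 - β • s2).w i z) ∧
      ∀ i, ∀ z ∈ (C.e i).target, t2.w i z = (β • s1 + α • s2).w i z := by
  obtain ⟨A, hfin, -, ⟨PA⟩, h, hI⟩ := exists_atlas (fin_V b) D.cx
  have hu : (D.S hI h).Uniq := TI.uniq_hd PA hI h D hq _
  have htyp : ∀ j, ∀ z ∈ (A.e j).target, ∀ u v : Cn (n + n),
      (h.F t1).w j z (Complex.I • u) v = -(h.F t2).w j z u v := by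
    intro j z hz u v
    obtain ⟨i, hi⟩ := exists_mov (C' := ofAtl A) C (j := j) hz
    rw [h.F_w t1 hi, h.F_w t2 hi, ← hI i j z hi, ht i _ (mt_mem hi).1]
  set τ : H2 A := h20 (h.F t1) (h.F t2) htyp with hτ
  obtain ⟨c, hc⟩ := hu τ
  have hsb : ∀ j, ∀ z ∈ (A.e j).target, ∀ u v : Cn (n + n),
      ((h.F t1).w j z u v : ℂ) + Complex.I * ((h.F t2).w j z u v : ℂ) =
        c * (((h.F s1).w j z u v : ℂ) + Complex.I * ((h.F s2).w j z u v : ℂ)) := by
    intro j z hz u v
    rw [← sb_h20 (h.F t1) (h.F t2) htyp hz u v, ← D.S0_sb hI h hz u v, ← sb_smul]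
    congr 1
    have h1 := hc j _ ((A.e j).map_target hz)
    show τ.s j ((A.e j).symm z) = _
    rw [h1]
    rfl
  have hF : ∀ j, ∀ z ∈ (A.e j).target, ∀ u v : Cn (n + n),
      (h.F t1).w j z u v = c.re * (h.F s1).w j z u v - c.im * (h.F s2).w j z u v ∧
      (h.F t2).w j z u v = c.im * (h.F s1).w j z u v + c.re * (h.F s2).w j z u v := by
    intro j z hz u v
    have h1 := hsb j z hz u v
    have h2 := congrArg Complex.re h1
    have h3 := congrArg Complex.im h1
    simp at h2 h3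
    constructor
    · linarith
    · linarith
  have back : ∀ w : F2 C, ∀ i, ∀ z ∈ (C.e i).target, ∀ u v, ∀ j (hj : z ∈ mov (ofAtl A) C j i),
      w.w i z u v = (h.F w).w j (mt (ofAtl A) C j i z) (fderiv ℝ (mt (ofAtl A) C j i) z u)
        (fderiv ℝ (mt (ofAtl A) C j i) z v) := by
    intro w i z hz u v j hj
    obtain ⟨h1, h2⟩ := mov_swap (C := C) (C' := ofAtl A) hj
    rw [h.F_w w h1, h.symm.d_d hj, h.symm.d_d hj, h2]
  refine ⟨c.re, c.im, fun i z hz => ?_, fun i z hz => ?_⟩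
  · obtain ⟨j, hj⟩ : ∃ j : A.ι, z ∈ mov (ofAtl A) C j i := exists_mov (C' := C) (ofAtl A) hz
    ext u v
    simp only [F2.sub_w, F2.smul_w, sub_apply, smul_apply, smul_eq_mul]
    rw [back t1 i z hz u v j hj, back s1 i z hz u v j hj, back s2 i z hz u v j hj]
    exact (hF j _ (mt_mem hj).1 _ _).1
  · obtain ⟨j, hj⟩ : ∃ j : A.ι, z ∈ mov (ofAtl A) C j i := exists_mov (C' := C) (ofAtl A) hz
    ext u v
    simp only [F2.add_w, F2.smul_w, add_apply, smul_apply, smul_eq_mul]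
    rw [back t2 i z hz u v j hj, back s1 i z hz u v j hj, back s2 i z hz u v j hj]
    exact (hF j _ (mt_mem hj).1 _ _).2

end uniq20

/-! ### families through a given triple -/

section path

variable [MeasurableSpace V] [BorelSpace V] {μ : Measure V}
  [μ.IsAddHaarMeasure] [CompactSpace X] [T2Space X] [ConnectedSpace X] {n : ℕ}
  {b : Module.Basis (Fin (n + n) × Fin 2) ℝ V} {P : RPart C} {q : QuadraticForm ℝ (F2 C)}
  {κ : Type} [Fintype κ] [DecidableEq κ] {b' : Module.Basis κ ℝ V}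
  {E : Type} [NormedAddCommGroup E] [NormedSpace ℝ E] [FiniteDimensional ℝ E]

/-- **the family of triples of a `CFam` through a given triple** -/
theorem TopI.exists_path (TI : TopI μ b P q) (hY : YauVar C b') {T : Set E} (hT : IsOpen T)
    (D : CFam C T) (hq : ∀ t ∈ T, 0 < q (D.om t)) {t0 : E} (ht0 : t0 ∈ T) (H0 : HkT C)
    (hJ : ∀ i, ∀ z ∈ (C.e i).target, ∀ v, H0.J 0 i z v = (D.J t0).J i z v)
    (hcl : Ex (H0.om 0 - D.om t0)) :
    ∃ (H : E → HkT C) (c : E → ℂ), JSH T H ∧ ContDiffOn ℝ ∞ c T ∧ HEqv (H t0) H0 ∧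
      ∀ t ∈ T, c t ≠ 0 ∧ ofHk (H t) 0 = D.J t ∧ Ex ((H t).om 0 - D.om t) ∧
        (H t).om 1 = (c t).re • D.s1 t - (c t).im • D.s2 t ∧
        (H t).om 2 = (c t).im • D.s1 t + (c t).re • D.s2 t := by
  have hn := TI.npos
  obtain ⟨α, β, hα, hβ⟩ := TI.uniqR2 (D.hd t0 ht0) (hq t0 ht0) (t1 := H0.om 1) (t2 := H0.om 2)
    fun i z hz u v => by
      rw [← hJ i z hz]
      exact (H0.om_J (k := 0) (l := 1) (m := 2) (Or.inl rfl) (i := i) hz u v).1
  have hV : Nontrivial V := by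
    refine Module.nontrivial_of_finrank_pos (R := ℝ) ?_
    rw [fin_V b]
    omega
  have hne : α ≠ 0 ∨ β ≠ 0 := by
    by_contra hc
    push Not at hc
    obtain ⟨x⟩ := (inferInstance : Nonempty X)
    obtain ⟨i, hi⟩ := C.cover x
    obtain ⟨v, hv⟩ := exists_ne (0 : V)
    refine hv (H0.nondeg 1 ((C.e i).map_source hi) v fun w => ?_)
    rw [hα i _ ((C.e i).map_source hi), hc.1, hc.2]
    simp
  set D' : CFam C T := D.phase hne with hD'
  obtain ⟨H, r, u, hH, hr, hu, hmain⟩ := TI.exists_hk hY hT ⟨t0, ht0⟩ D' hq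
  have hex : ∀ t ∈ T, Ex ((H t).om 0 - D.om t) := by
    intro t ht
    obtain ⟨-, -, ⟨hu, h3⟩, -, -⟩ := hmain t ht
    have h4 : (H t).om 0 - D.om t = ddc (D.J t) (u t) hu := by
      rw [h3]
      exact add_sub_cancel_left _ _
    rw [h4]
    exact ddc_Ex _ _ _
  refine ⟨H, fun t => (r t : ℂ) * ⟨α, β⟩, hH, ?_, ?_, fun t ht => ?_⟩
  · exact (Complex.ofRealCLM.contDiff.comp_contDiffOn hr).mul contDiffOn_const
  · obtain ⟨h1, h2, h3, h4, h5⟩ := hmain t0 ht0
    have hJ' : ∀ i, ∀ z ∈ (C.e i).target, ∀ v, (H t0).J 0 i z v = H0.J 0 i z v := by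
      intro i z hz v
      rw [hJ i z hz]
      have h6 : (D'.J t0) = D.J t0 := rfl
      rw [← h6, ← h2]
      rfl
    have hex0 : Ex ((H t0).om 0 - H0.om 0) := by
      have h6 : (H t0).om 0 - H0.om 0 = ((H t0).om 0 - D.om t0) - (H0.om 0 - D.om t0) := by abel
      rw [h6]
      exact Nef_252.ex_sub (hex t0 ht0) hcl
    have h1' : ∀ i, ∀ z ∈ (C.e i).target, ∀ u v,
        ((H t0).om 1).w i z u v = r t0 * (H0.om 1).w i z u v := by
      intro i z hz u v
      rw [h4, hα i z hz]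
      rfl
    exact (hk_unique (H t0) H0 hJ' (om_unique (fin_V b) (by omega) (H t0) H0 hJ' hex0 h1')
      h1 h1').2
  · obtain ⟨h1, h2, h3, h4, h5⟩ := hmain t ht
    refine ⟨?_, h2, hex t ht, ?_, ?_⟩
    · refine mul_ne_zero (by exact_mod_cast h1.ne') fun h => ?_
      have h6 := congrArg Complex.re h
      have h7 := congrArg Complex.im h
      simp at h6 h7
      rcases hne with h8 | h8
      · exact h8 h6
      · exact h8 h7
    · rw [h4]
      show r t • (α • D.s1 t - β • D.s2 t) = _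
      rw [Complex.re_ofReal_mul, Complex.im_ofReal_mul, smul_sub, smul_smul, smul_smul]
    · rw [h5]
      show r t • (β • D.s1 t + α • D.s2 t) = _
      rw [Complex.re_ofReal_mul, Complex.im_ofReal_mul, smul_add, smul_smul, smul_smul]

end path

/-! ### the language of `AlgDefs_998` -/

section leg

variable [MeasurableSpace V] [BorelSpace V] {μ : Measure V}
  [μ.IsAddHaarMeasure] [CompactSpace X] [T2Space X] [ConnectedSpace X] {n : ℕ}
  {b : Module.Basis (Fin (n + n) × Fin 2) ℝ V} {P : RPart C} {q : QuadraticForm ℝ (F2 C)}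
  {κ : Type} [Fintype κ] [DecidableEq κ] {b' : Module.Basis κ ℝ V}
  {Q : F2 C →ₗ[ℝ] F2 C →ₗ[ℝ] ℝ}

theorem JSH.smH {K : ℝ → HkT C} (h : JSH univ K) : SmH K := ⟨h.om, h.J, h.g⟩



/-- `s1 + i s2` has the class `z σ_τ`, `z ≠ 0` -/
def PerAt (F : Frm C Q) (s1 s2 : F2 C) (τ : ℂ) : Prop :=
  ∃ z : ℂ, z ≠ 0 ∧ Cl s1 (z.re • F.sre τ - z.im • F.sim τ) ∧
    Cl s2 (z.im • F.sre τ + z.re • F.sim τ)

theorem PerAt.smul {F : Frm C Q} {s1 s2 : F2 C} {τ : ℂ} (h : PerAt F s1 s2 τ) {c : ℂ}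
    (hc : c ≠ 0) : PerAt F (c.re • s1 - c.im • s2) (c.im • s1 + c.re • s2) τ := by
  obtain ⟨z, hz, h1, h2⟩ := h
  refine ⟨c * z, mul_ne_zero hc hz, ?_, ?_⟩
  · have h3 := (h1.smul c.re).add (h2.smul (-c.im))
    have e1 : c.re • s1 + -c.im • s2 = c.re • s1 - c.im • s2 := by module
    have e2 : c.re • (z.re • F.sre τ - z.im • F.sim τ) +
        -c.im • (z.im • F.sre τ + z.re • F.sim τ) =
        (c * z).re • F.sre τ - (c * z).im • F.sim τ := by
      rw [Complex.mul_re, Complex.mul_im]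
      module
    rwa [e1, e2] at h3
  · have h3 := (h1.smul c.im).add (h2.smul c.re)
    have e2 : c.im • (z.re • F.sre τ - z.im • F.sim τ) +
        c.re • (z.im • F.sre τ + z.re • F.sim τ) =
        (c * z).im • F.sre τ + (c * z).re • F.sim τ := by
      rw [Complex.mul_re, Complex.mul_im]
      module
    rwa [e2] at h3

/-- **HK-ALONG, path form**: a `CFam` over the real line with `[om t] = A`,
`[s1 t + i s2 t] = z σ_(τ t)` carries a jointly smooth family of hyperkaehler triples through the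
given triple `H0` at time `t0` -/
theorem TopI.exists_lift (TI : TopI μ b P q) (hY : YauVar C b') {F : Frm C Q} {A : F2 C}
    (hA : 0 < q A) (D : CFam C (univ : Set ℝ)) (hom : ∀ t, Cl (D.om t) A) {τ : ℝ → ℂ}
    (him : ∀ t, 0 < (τ t).im) (hs : ∀ t, PerAt F (D.s1 t) (D.s2 t) (τ t)) (t0 : ℝ)
    (H0 : HkT C) (hJ : ∀ i, ∀ z ∈ (C.e i).target, ∀ v, H0.J 0 i z v = (D.J t0).J i z v)
    (hcl : Cl (H0.om 0) A) :
    ∃ K : ℝ → HkT C, SmH K ∧ HEqv (K t0) H0 ∧
      ∀ t, ofHk (K t) 0 = D.J t ∧ AtTau F A (K t) (τ t) := by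
  have hq : ∀ t ∈ (univ : Set ℝ), 0 < q (D.om t) := by
    intro t _
    rw [TI.q_coh (hom t)]
    exact hA
  obtain ⟨K, c, h1, -, h3, h4⟩ := TI.exists_path hY isOpen_univ D hq (mem_univ t0) H0 hJ
    (hcl.trans (hom t0).symm)
  refine ⟨K, JSH.smH h1, h3, fun t => ?_⟩
  obtain ⟨h5, h6, h7, h8, h9⟩ := h4 t (mem_univ t)
  refine ⟨h6, him t, Cl.trans h7 (hom t), ?_⟩
  have h10 := (hs t).smul h5
  rw [← h8, ← h9] at h10
  exact h10


end leg

end

end Crest.Agent.R281.Al_830
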