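import Crest.Agent.R281.Cdr2_234
import Crest.Agent.R281.Dsc1_340
import Crest.Agent.R281.Poi_234
import Crest.Agent.R275.ASNv_293
import Mathlib
import Crest.Agent.R281.Cdr6_234

-- ▼ part R281/Dsc2_340
section

/-!
# R281 (S0424), CDR part (3) (helper340), part 2: descent of classes to a fixed cover

`descend` : if `Cls G w` (Cech-de Rham data over an arbitrary cover with cocycle in the subgroup `G`
of `ℝ`), and `E : CD w β` is data over a cover `E.U b` such that each `E.U b` lies in the domain of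
one chart in which it is convex, and the intersections `E.U b ∩ E.U b'` are preconnected, then the
cocycle of `E` lies in `G` after a change of the functions `E.f b b'` by constants.
-/

set_option autoImplicit false
set_option linter.unusedSectionVars false
set_option maxSynthPendingDepth 3

open Set Filter Topology
open scoped ContDiff

namespace Crest.Agent.R281.Dsc_340

open Crest.Agent.R281.HkR_835 Crest.Agent.R281.Cdr_234

noncomputable section

/-- a function which is locally constant on a preconnected set is constant on it -/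
theorem const_of_locconst {X Γ : Type*} [TopologicalSpace X] {S : Set X} (hS : IsPreconnected S)
    {f : X → Γ} (hf : ∀ x ∈ S, ∀ᶠ y in 𝓝 x, f y = f x) {x y : X} (hx : x ∈ S) (hy : y ∈ S) :
    f x = f y := by
  let _ : TopologicalSpace Γ := ⊥
  have _ : DiscreteTopology Γ := ⟨rfl⟩
  refine hS.constant (f := f) (fun z hz => ?_) hx hy
  apply ContinuousAt.continuousWithinAt
  exact (continuousAt_const (y := f z)).congr ((hf z hz).mono fun y h => h.symm)

/-- a function with derivative zero near a point is constant near this point -/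
theorem locconst_of_hasFDerivAt {V : Type*} [NormedAddCommGroup V] [NormedSpace ℝ V] {f : V → ℝ}
    {z : V} (h : ∀ᶠ y in 𝓝 z, HasFDerivAt f (0 : V →L[ℝ] ℝ) y) : ∀ᶠ y in 𝓝 z, f y = f z := by
  obtain ⟨r, hr, hb⟩ := Metric.eventually_nhds_iff_ball.1 h
  filter_upwards [Metric.ball_mem_nhds z hr] with y hy
  exact (convex_ball z r).is_const_of_fderivWithin_eq_zero (𝕜 := ℝ)
    (fun x hx => (hb x hx).differentiableAt.differentiableWithinAt)
    (fun x hx => by
      rw [fderivWithin_of_isOpen Metric.isOpen_ball hx, (hb x hx).fderiv])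
    hy (Metric.mem_ball_self hr)

variable {V X : Type} [NormedAddCommGroup V] [NormedSpace ℝ V] [TopologicalSpace X]
  {C : RCh V X} {G : AddSubgroup ℝ} {w : F2 C} {α β : Type}

/-- **Step A**: over a convex chart domain the torsor of `D` is trivial -/
theorem stepA (D : CD w α)
    (hD : ∀ a b c, ∀ x ∈ D.U a ∩ D.U b ∩ D.U c, D.f a b x + D.f b c x - D.f a c x ∈ G)
    (ρ : X → α) (hρ : ∀ x, x ∈ D.U (ρ x)) (E : CD w β) (b : β) (i : C.ι)
    (hi : E.U b ⊆ (C.e i).source) (hcv : Convex ℝ (sh C i (E.U b))) :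
    ∃ h : X → ℝ ⧸ G, ∀ x0 ∈ E.U b, ∃ g : V → ℝ,
      (∀ᶠ z in 𝓝 (C.e i x0), HasFDerivAt g (D.th (ρ x0) i z - E.th b i z) z) ∧
      ∀ᶠ x in 𝓝 x0, h x = QuotientAddGroup.mk (g (C.e i x) + D.f (ρ x0) (ρ x) x) := by
  classical
  set O : Set V := sh C i (E.U b) with hO
  have hOo : IsOpen O := isOpen_sh i (E.op b)
  have hmem : ∀ x ∈ E.U b, C.e i x ∈ O := fun x hx =>
    ⟨(C.e i).map_source (hi hx), by rw [(C.e i).left_inv (hi hx)]; exact hx⟩
  -- balls
  have h1 : ∀ s : {x : X // x ∈ E.U b}, ∃ r > 0, Metric.ball (C.e i s.1) r ⊆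
      O ∩ sh C i (D.U (ρ s.1)) := by
    intro s
    refine Metric.isOpen_iff.1 (hOo.inter (isOpen_sh i (D.op _))) _ ⟨hmem s.1 s.2, ?_⟩
    exact ⟨(C.e i).map_source (hi s.2), by
      show (C.e i).symm (C.e i s.1) ∈ D.U (ρ s.1)
      rw [(C.e i).left_inv (hi s.2)]; exact hρ s.1⟩
  choose r hr hB using h1
  set B : {x : X // x ∈ E.U b} → Set V := fun s => Metric.ball (C.e i s.1) (r s) with hBdef
  have hBo : ∀ s, IsOpen (B s) := fun s => Metric.isOpen_ball
  -- primitives
  have h2 : ∀ s, ∃ g : V → ℝ, ∀ z ∈ B s, HasFDerivAt g (D.th (ρ s.1) i z - E.th b i z) z := by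
    intro s
    have hθ : ContDiffOn ℝ ∞ (fun z => D.th (ρ s.1) i z - E.th b i z) (B s) :=
      ((D.th_sm _ i).mono fun z hz => (hB s hz).2).sub
        ((E.th_sm b i).mono fun z hz => (hB s hz).1)
    have hdo : DifferentiableOn ℝ (fun z => D.th (ρ s.1) i z - E.th b i z) (B s) :=
      fun z hz => ((hθ.contDiffAt ((hBo s).mem_nhds hz)).differentiableAt
        (by simp)).differentiableWithinAt
    refine (convex_ball (C.e i s.1) (r s)).exists_forall_hasFDerivAt_of_fderiv_symmetric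
      (𝕜 := ℝ) (hBo s) hdo ?_
    · intro z hz u v
      have e1 := D.th_d (ρ s.1) i z (hB s hz).2 u v
      have e2 := E.th_d b i z (hB s hz).1 u v
      have e3 : fderiv ℝ (fun z => D.th (ρ s.1) i z - E.th b i z) z = _ :=
        ((D.th_diffAt (hB s hz).2).hasFDerivAt.sub (E.th_diffAt (hB s hz).1).hasFDerivAt).fderiv
      rw [e3]
      simp only [sub_apply]
      linarith
  choose g hg using h2
  -- the cocycle
  set cr : {x : X // x ∈ E.U b} → {x : X // x ∈ E.U b} → V → ℝ := fun s t z =>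
    D.f (ρ s.1) (ρ t.1) ((C.e i).symm z) - (g t z - g s z) with hcr
  have hcr0 : ∀ s t, ∀ z ∈ B s ∩ B t, HasFDerivAt (cr s t) (0 : V →L[ℝ] ℝ) z := by
    intro s t z hz
    have e1 := D.f_d (ρ s.1) (ρ t.1) i z ⟨(hB s hz.1).2.1, (hB s hz.1).2.2, (hB t hz.2).2.2⟩
    refine (e1.sub ((hg t z hz.2).sub (hg s z hz.1))).congr_fderiv ?_
    abel
  have hloc : ∀ s t, ∀ z ∈ O ∩ (B s ∩ B t), ∀ᶠ y in 𝓝 z,
      (QuotientAddGroup.mk (cr s t y) : ℝ ⧸ G) = QuotientAddGroup.mk (cr s t z) := by
    intro s t z hz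
    have e1 := locconst_of_hasFDerivAt (f := cr s t) (z := z) (by
      filter_upwards [((hBo s).inter (hBo t)).mem_nhds hz.2] with y hy using hcr0 s t y hy)
    filter_upwards [e1] with y hy
    rw [hy]
  have hcoc : ∀ s t u, ∀ z ∈ O ∩ (B s ∩ B t ∩ B u),
      (QuotientAddGroup.mk (cr s t z) : ℝ ⧸ G) + QuotientAddGroup.mk (cr t u z) =
        QuotientAddGroup.mk (cr s u z) := by
    intro s t u z hz
    rw [← QuotientAddGroup.mk_add, QuotientAddGroup.eq]
    have e1 := hD (ρ s.1) (ρ t.1) (ρ u.1) ((C.e i).symm z)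
      ⟨⟨(hB s hz.2.1.1).2.2, (hB t hz.2.1.2).2.2⟩, (hB u hz.2.2).2.2⟩
    have e2 := G.neg_mem e1
    convert e2 using 1
    simp only [hcr]
    ring
  obtain ⟨a, ha, ha2⟩ := coboundary_convex hOo hcv B hBo
    (fun z hz => ⟨⟨(C.e i).symm z, hz.2⟩, by
      show z ∈ Metric.ball (C.e i ((C.e i).symm z)) _
      rw [(C.e i).right_inv hz.1]
      exact Metric.mem_ball_self (hr _)⟩)
    (fun s t z => (QuotientAddGroup.mk (cr s t z) : ℝ ⧸ G)) hloc hcoc
  -- the section
  refine ⟨fun x => if hx : x ∈ E.U b then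
    (QuotientAddGroup.mk (g ⟨x, hx⟩ (C.e i x)) : ℝ ⧸ G) + a ⟨x, hx⟩ (C.e i x) else 0, ?_⟩
  intro x0 hx0
  have hself : ∀ (x : X) (hx : x ∈ E.U b), C.e i x ∈ B ⟨x, hx⟩ := fun x hx =>
    Metric.mem_ball_self (hr _)
  obtain ⟨c0, hc0⟩ := QuotientAddGroup.mk_surjective (s := G) (a ⟨x0, hx0⟩ (C.e i x0))
  refine ⟨fun z => g ⟨x0, hx0⟩ z + c0, ?_, ?_⟩
  · filter_upwards [(hBo ⟨x0, hx0⟩).mem_nhds (hself x0 hx0)] with z hz
    exact (hg ⟨x0, hx0⟩ z hz).add_const c0
  · have hcont : ContinuousAt (C.e i) x0 := (C.e i).continuousAt (hi hx0)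
    have e1 := hcont.eventually (ha ⟨x0, hx0⟩ (C.e i x0) ⟨hmem x0 hx0, hself x0 hx0⟩)
    have e2 := hcont.eventually ((hBo ⟨x0, hx0⟩).mem_nhds (hself x0 hx0))
    filter_upwards [e1, e2, (E.op b).mem_nhds hx0] with x h3 h4 h5
    simp only [h5, dif_pos]
    have h6 := ha2 ⟨x0, hx0⟩ ⟨x, h5⟩ (C.e i x) ⟨hmem x h5, h4, hself x h5⟩
    have h7 : a ⟨x, h5⟩ (C.e i x) = QuotientAddGroup.mk (cr ⟨x0, hx0⟩ ⟨x, h5⟩ (C.e i x)) +
        QuotientAddGroup.mk c0 := by
      rw [hc0, ← h3, h6]
      abel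
    rw [h7, ← QuotientAddGroup.mk_add, ← QuotientAddGroup.mk_add]
    congr 1
    simp only [hcr]
    rw [(C.e i).left_inv (hi h5)]
    ring

/-- **Descent**: the class on an arbitrary cover is computed on a fixed good cover -/
theorem descend (hw : Cls G w) (E : CD w β) (ic : β → C.ι)
    (hi : ∀ b, E.U b ⊆ (C.e (ic b)).source) (hcv : ∀ b, Convex ℝ (sh C (ic b) (E.U b)))
    (hpc : ∀ b b', IsPreconnected (E.U b ∩ E.U b')) :
    ∃ k : β → β → ℝ, ∀ a b c, ∀ x ∈ E.U a ∩ E.U b ∩ E.U c,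
      (E.f a b x - k a b) + (E.f b c x - k b c) - (E.f a c x - k a c) ∈ G := by
  classical
  obtain ⟨α, D, hD⟩ := hw
  choose ρ hρ using D.cov
  have h1 := fun b => stepA D hD ρ hρ E b (ic b) (hi b) (hcv b)
  choose h hh using h1
  set H : β → β → X → ℝ ⧸ G := fun b b' x => QuotientAddGroup.mk (E.f b b' x) - (h b x - h b' x)
    with hH
  have hloc : ∀ b b', ∀ x0 ∈ E.U b ∩ E.U b', ∀ᶠ x in 𝓝 x0, H b b' x = H b b' x0 := by
    intro b b' x0 hx0
    obtain ⟨g, hg, hg2⟩ := hh b x0 hx0.1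
    obtain ⟨g', hg', hg2'⟩ := hh b' x0 hx0.2
    set i := ic b with hib
    set j := ic b' with hjb
    set φ : X → ℝ := fun x => E.f b b' x - g (C.e i x) + g' (C.e j x) with hφ
    have e1 : ∀ᶠ x in 𝓝 x0, H b b' x = QuotientAddGroup.mk (φ x) := by
      filter_upwards [hg2, hg2'] with x h2 h3
      simp only [hH]
      rw [h2, h3, ← QuotientAddGroup.mk_sub, ← QuotientAddGroup.mk_sub]
      congr 1
      simp only [hφ]
      ring
    have hzov : C.e i x0 ∈ C.ov i j := by
      refine ⟨(C.e i).map_source (hi b hx0.1), ?_⟩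
      rw [(C.e i).left_inv (hi b hx0.1)]
      exact hi b' hx0.2
    have htc : C.t i j (C.e i x0) = C.e j x0 := by
      show C.e j ((C.e i).symm (C.e i x0)) = _
      rw [(C.e i).left_inv (hi b hx0.1)]
    have e2 : ∀ᶠ z in 𝓝 (C.e i x0), HasFDerivAt (fun y => φ ((C.e i).symm y))
        (0 : V →L[ℝ] ℝ) z := by
      have hcont : ContinuousAt (C.t i j) (C.e i x0) := (RCh.t_diff hzov).continuousAt
      have e3 : ∀ᶠ z in 𝓝 (C.e i x0), HasFDerivAt g'
          (D.th (ρ x0) j (C.t i j z) - E.th b' j (C.t i j z)) (C.t i j z) := by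
        have := hcont.tendsto
        rw [htc] at this
        exact this.eventually hg'
      have e4 : sh C i (E.U b ∩ E.U b' ∩ D.U (ρ x0)) ∈ 𝓝 (C.e i x0) := by
        refine sh_nhds (((E.op b).inter (E.op b')).inter (D.op _)) ⟨hzov.1, ?_⟩
        rw [(C.e i).left_inv (hi b hx0.1)]
        exact ⟨hx0, hρ x0⟩
      filter_upwards [hg, e3, e4, (RCh.isOpen_ov i j).mem_nhds hzov] with z h2 h3 h4 h5
      have f1 := E.f_d b b' i z ⟨h4.1, h4.2.1⟩
      have f2 : HasFDerivAt (fun y => g (C.e i ((C.e i).symm y)))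
          (D.th (ρ x0) i z - E.th b i z) z := by
        refine h2.congr_of_eventuallyEq ?_
        filter_upwards [(C.e i).open_target.mem_nhds h5.1] with y hy
        rw [(C.e i).right_inv hy]
      have f3 : HasFDerivAt (fun y => g' (C.e j ((C.e i).symm y)))
          ((D.th (ρ x0) j (C.t i j z) - E.th b' j (C.t i j z)).comp (fderiv ℝ (C.t i j) z)) z :=
        HasFDerivAt.comp (g := g') (f := C.t i j) z h3 (RCh.t_diff h5).hasFDerivAt
      refine ((f1.sub f2).add f3).congr_fderiv ?_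
      ext u
      have t1 := D.th_tr (ρ x0) i j z h5 h4.2.2 u
      have t2 := E.th_tr b' i j z h5 h4.2.1.2 u
      simp only [add_apply, sub_apply, ContinuousLinearMap.comp_apply, ← t1, ← t2,
        zero_apply]
      ring
    have e3 := locconst_of_hasFDerivAt e2
    have e4 : ∀ᶠ x in 𝓝 x0, φ x = φ x0 := by
      have hcont : ContinuousAt (C.e i) x0 := (C.e i).continuousAt (hi b hx0.1)
      have e5 := hcont.eventually e3
      filter_upwards [e5, (E.op b).mem_nhds hx0.1] with x h2 h3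
      rwa [(C.e i).left_inv (hi b h3), (C.e i).left_inv (hi b hx0.1)] at h2
    have e5 := e1.self_of_nhds
    filter_upwards [e1, e4] with x h2 h3
    rw [h2, h3, e5]
  have hk : ∀ b b', ∃ k : ℝ, ∀ x ∈ E.U b ∩ E.U b', H b b' x = QuotientAddGroup.mk k := by
    intro b b'
    rcases (E.U b ∩ E.U b').eq_empty_or_nonempty with h0 | ⟨y, hy⟩
    · exact ⟨0, fun x hx => by rw [h0] at hx; exact absurd hx (notMem_empty x)⟩
    · obtain ⟨k, hk⟩ := QuotientAddGroup.mk_surjective (s := G) (H b b' y)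
      exact ⟨k, fun x hx => by
        rw [hk]; exact const_of_locconst (hpc b b') (hloc b b') hx hy⟩
  choose k hk using hk
  refine ⟨k, fun a b c x hx => ?_⟩
  have k1 := hk a b x hx.1
  have k2 := hk b c x ⟨hx.1.2, hx.2⟩
  have k3 := hk a c x ⟨hx.1.1, hx.2⟩
  simp only [hH] at k1 k2 k3
  rw [← QuotientAddGroup.eq_zero_iff]
  rw [QuotientAddGroup.mk_sub, QuotientAddGroup.mk_add, QuotientAddGroup.mk_sub,
    QuotientAddGroup.mk_sub, QuotientAddGroup.mk_sub, ← k1, ← k2, ← k3]
  abel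

end

end Crest.Agent.R281.Dsc_340
end

-- ▼ part R281/Cdr7_234
section

/-!
# R281 (S0424), CDR (helper234), part 7: Cech-de Rham data over the charts of a good system

`C : RCh V X` with convex overlaps (`GoodR C`):

* `locConst`, `const3`, `const2` : functions with vanishing derivative
* `exists_cd`  : every closed 2-form has data over the cover by the chart domains
* `Rel w c`    : data over the chart domains with constant cocycle `c`
* `Rel.exists`, `Rel.coc`, `Rel.add`, `Rel.smul`, `Rel.uniq`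
-/

set_option autoImplicit false
set_option linter.unusedSectionVars false
set_option maxSynthPendingDepth 3

open Set Filter Topology
open scoped ContDiff

namespace Crest.Agent.R281.Cdr_234

open Crest.Agent.R281.HkR_835
open Crest.Agent.R281.Ti_846 (F1 IsD Ex d1 d1_apply)
open Crest.Agent.R281.Dif_268

noncomputable section

variable {V X : Type} [NormedAddCommGroup V] [NormedSpace ℝ V] [TopologicalSpace X]
  {C : RCh V X} {G : AddSubgroup ℝ}

/-- a function with vanishing derivative is locally constant -/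
theorem locConst {U : Set X} (hU : IsOpen U) {g : X → ℝ}
    (hg : ∀ i, ∀ z ∈ sh C i U, HasFDerivAt (fun y => g ((C.e i).symm y)) (0 : V →L[ℝ] ℝ) z) :
    ∀ x ∈ U, ∀ᶠ y in 𝓝 x, g y = g x := by
  intro x hx
  obtain ⟨i, hi⟩ := C.cover x
  have hz : C.e i x ∈ sh C i U := by
    refine ⟨(C.e i).map_source hi, ?_⟩
    show (C.e i).symm (C.e i x) ∈ U
    rwa [(C.e i).left_inv hi]
  obtain ⟨r, hr, hb⟩ := Metric.isOpen_iff.1 (isOpen_sh (C := C) i hU) _ hz
  have h1 : ∀ y ∈ Metric.ball (C.e i x) r, g ((C.e i).symm y) = g ((C.e i).symm (C.e i x)) := by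
    intro y hy
    refine (convex_ball (C.e i x) r).is_const_of_fderivWithin_eq_zero (𝕜 := ℝ)
      (f := fun y => g ((C.e i).symm y)) (fun y hy =>
      (hg i y (hb hy)).differentiableAt.differentiableWithinAt) (fun y hy => ?_) hy
      (Metric.mem_ball_self hr)
    rw [fderivWithin_of_isOpen Metric.isOpen_ball hy, (hg i y (hb hy)).fderiv]
  have h2 : ∀ᶠ y in 𝓝 x, y ∈ (C.e i).source := (C.e i).open_source.mem_nhds hi
  have h3 : ∀ᶠ y in 𝓝 x, C.e i y ∈ Metric.ball (C.e i x) r :=
    ((C.e i).continuousAt hi).eventually (Metric.isOpen_ball.mem_nhds (Metric.mem_ball_self hr))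
  filter_upwards [h2, h3] with y hy hy'
  have h4 := h1 _ hy'
  rwa [(C.e i).left_inv hy, (C.e i).left_inv hi] at h4

/-- convex overlaps -/
def GoodR (C : RCh V X) : Prop := ∀ i j, Convex ℝ (C.ov i j)

theorem ov_self (i : C.ι) : C.ov i i = (C.e i).target := by
  ext z
  exact ⟨fun h => h.1, fun h => ⟨h, (C.e i).map_target h⟩⟩

theorem GoodR.convex_target (hC : GoodR C) (i : C.ι) : Convex ℝ (C.e i).target := by
  have := hC i i
  rwa [ov_self] at this

theorem GoodR.preconnected3 (hC : GoodR C) (i j k : C.ι) :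
    IsPreconnected ((C.e i).source ∩ (C.e j).source ∩ (C.e k).source) := by
  have h1 : (C.e i).source ∩ (C.e j).source ∩ (C.e k).source =
      (C.e i).symm '' (C.ov i j ∩ C.ov i k) := by
    ext x
    constructor
    · intro hx
      refine ⟨C.e i x, ⟨⟨(C.e i).map_source hx.1.1, ?_⟩, ⟨(C.e i).map_source hx.1.1, ?_⟩⟩,
        (C.e i).left_inv hx.1.1⟩
      · rw [(C.e i).left_inv hx.1.1]; exact hx.1.2
      · rw [(C.e i).left_inv hx.1.1]; exact hx.2
    · rintro ⟨z, hz, rfl⟩
      exact ⟨⟨(C.e i).map_target hz.1.1, hz.1.2⟩, hz.2.2⟩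
  rw [h1]
  refine ((hC i j).inter (hC i k)).isPreconnected.image _ ?_
  exact (C.e i).continuousOn_symm.mono fun z hz => hz.1.1

theorem GoodR.preconnected2 (hC : GoodR C) (i j : C.ι) :
    IsPreconnected ((C.e i).source ∩ (C.e j).source) := by
  have h := hC.preconnected3 i j j
  have h1 : (C.e i).source ∩ (C.e j).source ∩ (C.e j).source =
      (C.e i).source ∩ (C.e j).source := by
    rw [inter_assoc, inter_self]
  rwa [h1] at h

/-- the differential of a composition of transition maps -/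
theorem dt_comp {i j a : C.ι} {z : V} (hz : z ∈ C.ov i j) (ha : (C.e i).symm z ∈ (C.e a).source)
    (v : V) : fderiv ℝ (C.t i a) z v = fderiv ℝ (C.t j a) (C.t i j z) (fderiv ℝ (C.t i j) z v) := by
  have hja : C.t i j z ∈ C.ov j a := by
    refine ⟨(RCh.t_mem hz).1, ?_⟩
    show (C.e j).symm (C.e j ((C.e i).symm z)) ∈ _
    rwa [(C.e j).left_inv hz.2]
  have h1 : C.t i a =ᶠ[𝓝 z] C.t j a ∘ C.t i j := by
    filter_upwards [(RCh.isOpen_ov i j).mem_nhds hz] with y hy
    show C.e a ((C.e i).symm y) = C.e a ((C.e j).symm (C.e j ((C.e i).symm y)))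
    rw [(C.e j).left_inv hy.2]
  rw [h1.fderiv_eq, fderiv_comp z (RCh.t_diff hja) (RCh.t_diff hz)]
  rfl

theorem t_t' {i j a : C.ι} {z : V} (hz : z ∈ C.ov i j) : C.t j a (C.t i j z) = C.t i a z := by
  show C.e a ((C.e j).symm (C.e j ((C.e i).symm z))) = C.e a ((C.e i).symm z)
  rw [(C.e j).left_inv hz.2]

theorem sh_source (i a : C.ι) : sh C i (C.e a).source = C.ov i a := rfl

/-- **existence of Cech-de Rham data over the chart domains** -/
theorem exists_cd [FiniteDimensional ℝ V] (hC : GoodR C) (w : F2 C) :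
    ∃ D : CD w C.ι, ∀ i, D.U i = (C.e i).source := by
  -- primitives
  have h1 : ∀ a, ∃ θ : V → V →L[ℝ] ℝ, ContDiffOn ℝ ∞ θ (C.e a).target ∧
      ∀ z ∈ (C.e a).target, ∀ v u, fderiv ℝ θ z v u - fderiv ℝ θ z u v = w.w a z v u := by
    intro a
    refine Poi_234.poincare2 (C.e a).open_target (hC.convex_target a) (w.sm a) ?_ (w.closed a)
    intro z hz v
    have := w.alt a z hz v v
    linarith
  choose θ hθs hθ using h1
  have hθd : ∀ a, ∀ z ∈ (C.e a).target, DifferentiableAt ℝ (θ a) z := fun a z hz =>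
    ((hθs a).contDiffAt ((C.e a).open_target.mem_nhds hz)).differentiableAt (by simp)
  set th : C.ι → C.ι → V → V →L[ℝ] ℝ := fun a i => pb1 (θ a) (C.t i a) with hth
  have hths : ∀ a i, ContDiffOn ℝ ∞ (th a i) (C.ov i a) := fun a i =>
    contDiffOn_pb1 (RCh.isOpen_ov i a) (hθs a) (RCh.t_smooth i a) fun z hz => (RCh.t_mem hz).1
  have htr : ∀ a i j, ∀ z ∈ C.ov i j, (C.e i).symm z ∈ (C.e a).source → ∀ u,
      th a i z u = th a j (C.t i j z) (fderiv ℝ (C.t i j) z u) := by
    intro a i j z hz ha u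
    rw [hth]
    simp only [pb1_apply]
    rw [t_t' hz, dt_comp hz ha]
  have hd : ∀ a i, ∀ z ∈ C.ov i a, ∀ u v,
      fderiv ℝ (th a i) z u v - fderiv ℝ (th a i) z v u = w.w i z u v := by
    intro a i z hz u v
    have ht := (RCh.t_mem hz).1
    rw [hth]
    rw [d_pb1 (hθd a _ ht) ((RCh.t_smooth i a).contDiffAt ((RCh.isOpen_ov i a).mem_nhds hz)),
      hθ a _ ht, ← w.tr i a z hz]
  -- primitives of the differences
  have h2 : ∀ a b, ∃ F : V → ℝ, ∀ z ∈ C.ov a b, HasFDerivAt F (th b a z - th a a z) z := by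
    intro a b
    have hs : ContDiffOn ℝ ∞ (fun z => th b a z - th a a z) (C.ov a b) := by
      have h3 := hths a a
      rw [ov_self] at h3
      exact (hths b a).sub (h3.mono fun z hz => hz.1)
    refine Poi_234.poincare1 (RCh.isOpen_ov a b) (hC a b) hs fun z hz v u => ?_
    have hza : z ∈ C.ov a a := by rw [ov_self]; exact hz.1
    have e1 := hd b a z hz v u
    have e2 := hd a a z hza v u
    have d1 : DifferentiableAt ℝ (th b a) z :=
      ((hths b a).contDiffAt ((RCh.isOpen_ov a b).mem_nhds hz)).differentiableAt (by simp)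
    have d2 : DifferentiableAt ℝ (th a a) z :=
      ((hths a a).contDiffAt ((RCh.isOpen_ov a a).mem_nhds hza)).differentiableAt (by simp)
    have e3 : fderiv ℝ (fun z => th b a z - th a a z) z = _ :=
      (d1.hasFDerivAt.sub d2.hasFDerivAt).fderiv
    rw [e3]
    simp only [sub_apply]
    linarith
  choose F hF using h2
  refine ⟨{
    U := fun a => (C.e a).source
    op := fun a => (C.e a).open_source
    cov := C.cover
    th := th
    th_sm := hths
    th_tr := htr
    th_d := hd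
    f := fun a b x => F a b (C.e a x)
    f_d := ?_ }, fun i => rfl⟩
  intro a b i z hz
  have hia : z ∈ C.ov i a := ⟨hz.1, hz.2.1⟩
  have hab : C.t i a z ∈ C.ov a b := by
    refine ⟨(RCh.t_mem hia).1, ?_⟩
    show (C.e a).symm (C.e a ((C.e i).symm z)) ∈ _
    rw [(C.e a).left_inv hz.2.1]
    exact hz.2.2
  have e1 := (hF a b _ hab).comp z (RCh.t_diff hia).hasFDerivAt
  have e2 : (fun y => F a b (C.e a ((C.e i).symm y))) = F a b ∘ C.t i a := rfl
  rw [e2]
  refine e1.congr_fderiv ?_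
  ext v
  have h3 : (C.e i).symm z ∈ (C.e b).source := hz.2.2
  have h4 : (C.e i).symm z ∈ (C.e a).source := hz.2.1
  simp only [ContinuousLinearMap.comp_apply, sub_apply]
  rw [htr b i a z hia h3, htr a i a z hia h4]

/-- data over the chart domains with constant cocycle `c` -/
def Rel (w : F2 C) (c : C.ι → C.ι → C.ι → ℝ) : Prop :=
  ∃ D : CD w C.ι, (∀ i, D.U i = (C.e i).source) ∧
    ∀ i j k, ∀ x ∈ (C.e i).source ∩ (C.e j).source ∩ (C.e k).source,
      D.f i j x + D.f j k x - D.f i k x = c i j k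

/-- the cocycle of data is locally constant -/
theorem CD.cocycle_deriv {w : F2 C} {α : Type} (D : CD w α) (a b c : α) (i : C.ι) {z : V}
    (hz : z ∈ sh C i (D.U a ∩ D.U b ∩ D.U c)) :
    HasFDerivAt (fun y => D.f a b ((C.e i).symm y) + D.f b c ((C.e i).symm y) -
      D.f a c ((C.e i).symm y)) (0 : V →L[ℝ] ℝ) z := by
  have h1 := D.f_d a b i z ⟨hz.1, hz.2.1⟩
  have h2 := D.f_d b c i z ⟨hz.1, hz.2.1.2, hz.2.2⟩
  have h3 := D.f_d a c i z ⟨hz.1, hz.2.1.1, hz.2.2⟩
  refine ((h1.add h2).sub h3).congr_fderiv ?_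
  abel

theorem CD.cocycle_loc {w : F2 C} {α : Type} (D : CD w α) (a b c : α) :
    ∀ x ∈ D.U a ∩ D.U b ∩ D.U c, ∀ᶠ y in 𝓝 x,
      D.f a b y + D.f b c y - D.f a c y = D.f a b x + D.f b c x - D.f a c x :=
  locConst (C := C) (U := D.U a ∩ D.U b ∩ D.U c)
    (g := fun x => D.f a b x + D.f b c x - D.f a c x) (((D.op a).inter (D.op b)).inter (D.op c))
    fun i z hz => D.cocycle_deriv a b c i hz

/-- data over the chart domains of a good system have a constant cocycle -/
theorem CD.exists_rel (hC : GoodR C) {w : F2 C} (D : CD w C.ι)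
    (hU : ∀ i, D.U i = (C.e i).source) :
    ∃ c : C.ι → C.ι → C.ι → ℝ,
      ∀ i j k, ∀ x ∈ (C.e i).source ∩ (C.e j).source ∩ (C.e k).source,
      D.f i j x + D.f j k x - D.f i k x = c i j k := by
  classical
  have h1 : ∀ i j k, ∃ c : ℝ, ∀ x ∈ (C.e i).source ∩ (C.e j).source ∩ (C.e k).source,
      D.f i j x + D.f j k x - D.f i k x = c := by
    intro i j k
    rcases ((C.e i).source ∩ (C.e j).source ∩ (C.e k).source).eq_empty_or_nonempty with h | ⟨y, hy⟩
    · exact ⟨0, fun x hx => absurd hx (by rw [h]; exact notMem_empty x)⟩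
    · refine ⟨D.f i j y + D.f j k y - D.f i k y, fun x hx => ?_⟩
      refine R275.ASConv293.const_of_preconnected (hC.preconnected3 i j k)
        (f := fun x => D.f i j x + D.f j k x - D.f i k x) (fun p hp => ?_) hx hy
      have hp' : p ∈ D.U i ∩ D.U j ∩ D.U k := by
        rw [hU, hU, hU]
        exact hp
      exact D.cocycle_loc i j k p hp'
  choose c hc using h1
  exact ⟨c, hc⟩

theorem Rel.exists [FiniteDimensional ℝ V] (hC : GoodR C) (w : F2 C) : ∃ c, Rel w c := by
  obtain ⟨D, hD⟩ := exists_cd hC w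
  obtain ⟨c, hc⟩ := D.exists_rel hC hD
  exact ⟨c, D, hD, hc⟩

/-- the cocycle relation -/
theorem Rel.coc {w : F2 C} {c : C.ι → C.ι → C.ι → ℝ} (h : Rel w c) (i j k l : C.ι)
    (hx : ((C.e i).source ∩ (C.e j).source ∩ (C.e k).source ∩ (C.e l).source).Nonempty) :
    c j k l - c i k l + c i j l - c i j k = 0 := by
  obtain ⟨D, -, hc⟩ := h
  obtain ⟨x, hx⟩ := hx
  rw [← hc j k l x ⟨⟨hx.1.1.2, hx.1.2⟩, hx.2⟩, ← hc i k l x ⟨⟨hx.1.1.1, hx.1.2⟩, hx.2⟩,
    ← hc i j l x ⟨hx.1.1, hx.2⟩, ← hc i j k x hx.1]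
  ring

theorem Rel.add {w w' : F2 C} {c c' : C.ι → C.ι → C.ι → ℝ} (h : Rel w c) (h' : Rel w' c') :
    Rel (w + w') (fun i j k => c i j k + c' i j k) := by
  obtain ⟨D, hU, hc⟩ := h
  obtain ⟨D', hU', hc'⟩ := h'
  refine ⟨(D.add D').refine (fun i => (C.e i).source) (fun i => (C.e i).open_source) C.cover
    (fun i => (i, i)) (fun i x hx => ⟨by rw [hU]; exact hx, by rw [hU']; exact hx⟩),
    fun i => rfl, fun i j k x hx => ?_⟩
  have e1 := hc i j k x hx
  have e2 := hc' i j k x hx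
  show D.f i j x + D'.f i j x + (D.f j k x + D'.f j k x) - (D.f i k x + D'.f i k x) =
    c i j k + c' i j k
  rw [← e1, ← e2]
  ring

theorem Rel.smul {w : F2 C} {c : C.ι → C.ι → C.ι → ℝ} (h : Rel w c) (t : ℝ) :
    Rel (t • w) (fun i j k => t * c i j k) := by
  obtain ⟨D, hU, hc⟩ := h
  refine ⟨D.smul t, hU, fun i j k x hx => ?_⟩
  have e1 := hc i j k x hx
  show t * D.f i j x + t * D.f j k x - t * D.f i k x = t * c i j k
  rw [← e1]
  ring

theorem Rel.sub {w w' : F2 C} {c c' : C.ι → C.ι → C.ι → ℝ} (h : Rel w c) (h' : Rel w' c') :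
    Rel (w - w') (fun i j k => c i j k - c' i j k) := by
  have h1 := h.add (h'.smul (-1))
  have h2 : w + (-1 : ℝ) • w' = w - w' := by rw [neg_one_smul, sub_eq_add_neg]
  rw [h2] at h1
  convert h1 using 4
  ring

/-- **uniqueness**: cohomologous forms have cohomologous cocycles -/
theorem Rel.uniq [FiniteDimensional ℝ V] (hC : GoodR C) {w w' : F2 C} {c c' : C.ι → C.ι → C.ι → ℝ} (h : Rel w c)
    (h' : Rel w' c') (he : Ex (w - w')) :
    ∃ b : C.ι → C.ι → ℝ, ∀ i j k,
      ((C.e i).source ∩ (C.e j).source ∩ (C.e k).source).Nonempty →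
      c i j k - c' i j k = b j k - b i k + b i j := by
  obtain ⟨D, hU, hc⟩ := h
  obtain ⟨D', hU', hc'⟩ := h'
  obtain ⟨η, hη⟩ := he
  have hsh : ∀ i a, ∀ z ∈ C.ov i a, z ∈ sh C i (D.U a) := fun i a z hz => by
    rw [hU]; exact hz
  have hsh' : ∀ i a, ∀ z ∈ C.ov i a, z ∈ sh C i (D'.U a) := fun i a z hz => by
    rw [hU']; exact hz
  have h1 : ∀ a, ∃ ρ : V → ℝ, ∀ z ∈ (C.e a).target,
      HasFDerivAt ρ (D.th a a z - D'.th a a z - η.η a z) z := by
    intro a
    have hs : ContDiffOn ℝ ∞ (fun z => D.th a a z - D'.th a a z - η.η a z) (C.e a).target := by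
      have e1 := D.th_sm a a
      have e2 := D'.th_sm a a
      rw [hU, sh_source, ov_self] at e1
      rw [hU', sh_source, ov_self] at e2
      exact (e1.sub e2).sub (η.sm a)
    refine Poi_234.poincare1 (C.e a).open_target (hC.convex_target a) hs fun z hz v u => ?_
    have hz0 : z ∈ C.ov a a := by rw [ov_self]; exact hz
    have hz1 := hsh a a z hz0
    have hz2 := hsh' a a z hz0
    have e1 := D.th_d a a z hz1 v u
    have e2 := D'.th_d a a z hz2 v u
    have e3 := hη a z hz v u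
    simp only [F2.sub_w, sub_apply] at e3
    have e4 : fderiv ℝ (fun z => D.th a a z - D'.th a a z - η.η a z) z = _ :=
      (((D.th_diffAt hz1).hasFDerivAt.sub (D'.th_diffAt hz2).hasFDerivAt).sub
        (F1dAt η hz).hasFDerivAt).fderiv
    rw [e4]
    simp only [sub_apply]
    linarith
  choose ρ hρ using h1
  -- the differences are locally constant
  set m : C.ι → C.ι → X → ℝ := fun a b x =>
    D.f a b x - D'.f a b x - ρ b (C.e b x) + ρ a (C.e a x) with hm
  have hρi : ∀ a i, ∀ z ∈ C.ov i a, HasFDerivAt (fun y => ρ a (C.e a ((C.e i).symm y)))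
      (D.th a i z - D'.th a i z - η.η i z) z := by
    intro a i z hz
    have e1 := (hρ a _ (RCh.t_mem hz).1).comp z (RCh.t_diff hz).hasFDerivAt
    refine e1.congr_fderiv ?_
    ext v
    have e2 := D.th_tr a i a z hz (hsh i a z hz).2 v
    have e3 := D'.th_tr a i a z hz (hsh' i a z hz).2 v
    have e4 := η.tr i a z hz v
    simp only [ContinuousLinearMap.comp_apply, sub_apply]
    rw [e2, e3, e4]
  have hmd : ∀ a b i, ∀ z ∈ sh C i ((C.e a).source ∩ (C.e b).source),
      HasFDerivAt (fun y => m a b ((C.e i).symm y)) (0 : V →L[ℝ] ℝ) z := by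
    intro a b i z hz
    have hza : z ∈ C.ov i a := ⟨hz.1, hz.2.1⟩
    have hzb : z ∈ C.ov i b := ⟨hz.1, hz.2.2⟩
    have e1 := D.f_d a b i z ⟨hz.1, (hsh i a z hza).2, (hsh i b z hzb).2⟩
    have e2 := D'.f_d a b i z ⟨hz.1, (hsh' i a z hza).2, (hsh' i b z hzb).2⟩
    refine (((e1.sub e2).sub (hρi b i z hzb)).add (hρi a i z hza)).congr_fderiv ?_
    abel
  have h2 : ∀ a b, ∃ t : ℝ, ∀ x ∈ (C.e a).source ∩ (C.e b).source, m a b x = t := by
    intro a b
    rcases ((C.e a).source ∩ (C.e b).source).eq_empty_or_nonempty with h | ⟨y, hy⟩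
    · exact ⟨0, fun x hx => absurd hx (by rw [h]; exact notMem_empty x)⟩
    · refine ⟨m a b y, fun x hx => ?_⟩
      exact R275.ASConv293.const_of_preconnected (hC.preconnected2 a b) (f := m a b)
        (locConst (C := C) ((C.e a).open_source.inter (C.e b).open_source) (hmd a b)) hx hy
  choose b hb using h2
  refine ⟨b, fun i j k hx => ?_⟩
  obtain ⟨x, hx⟩ := hx
  have e1 := hb i j x hx.1
  have e2 := hb j k x ⟨hx.1.2, hx.2⟩
  have e3 := hb i k x ⟨hx.1.1, hx.2⟩
  rw [← hc i j k x hx, ← hc' i j k x hx, ← e1, ← e2, ← e3]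
  simp only [hm]
  ring

end

end Crest.Agent.R281.Cdr_234
end

-- ▼ part R281/Cdr8_234
section

/-!
# R281 (S0424), CDR (helper234), part 8: partitions of unity

`PU C` : smooth partition of unity subordinate to the (finitely many) charts.

* `Rel.ex_of_cob`   : a form whose cocycle is a coboundary is exact
* `exists_of_coc`   : every real 2-cocycle is the cocycle of a closed 2-form
-/

set_option autoImplicit false
set_option linter.unusedSectionVars false
set_option maxSynthPendingDepth 3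

open Set Filter Topology
open scoped ContDiff

namespace Crest.Agent.R281.Cdr_234

open Crest.Agent.R281.HkR_835
open Crest.Agent.R281.Ti_846 (F1 IsD Ex d1)
open Crest.Agent.R281.Dif_268

noncomputable section

variable {V X : Type} [NormedAddCommGroup V] [NormedSpace ℝ V] [TopologicalSpace X]
  {C : RCh V X}

/-- smooth partition of unity subordinate to the charts -/
structure PU (C : RCh V X) [Fintype C.ι] where
  ψ : C.ι → X → ℝ
  sm : ∀ a i, ContDiffOn ℝ ∞ (fun z => ψ a ((C.e i).symm z)) (C.e i).target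
  sub : ∀ a, tsupport (ψ a) ⊆ (C.e a).source
  one : ∀ x, ∑ a, ψ a x = 1

/-- smooth functions -/
def SmF (C : RCh V X) (f : X → ℝ) : Prop :=
  ∀ i, ContDiffOn ℝ ∞ (fun z => f ((C.e i).symm z)) (C.e i).target

/-- the differential of a smooth function -/
def dF {f : X → ℝ} (hf : SmF C f) : F1 C where
  η i z := fderiv ℝ (fun y => f ((C.e i).symm y)) z
  sm i := (hf i).fderiv_of_isOpen (C.e i).open_target (by simp)
  tr i j z hz v := by
    have h1 : (fun y => f ((C.e i).symm y)) =ᶠ[𝓝 z]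
        (fun y => f ((C.e j).symm y)) ∘ C.t i j := by
      filter_upwards [(RCh.isOpen_ov i j).mem_nhds hz] with y hy
      show _ = f ((C.e j).symm (C.e j ((C.e i).symm y)))
      rw [(C.e j).left_inv hy.2]
    have ht := (RCh.t_mem hz).1
    have h2 : DifferentiableAt ℝ (fun y => f ((C.e j).symm y)) (C.t i j z) :=
      ((hf j).contDiffAt ((C.e j).open_target.mem_nhds ht)).differentiableAt (by simp)
    rw [h1.fderiv_eq, fderiv_comp z h2 (RCh.t_diff hz)]
    rfl

theorem SmF.at {f : X → ℝ} (hf : SmF C f) {i : C.ι} {z : V} (hz : z ∈ (C.e i).target) :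
    ContDiffAt ℝ ∞ (fun y => f ((C.e i).symm y)) z :=
  (hf i).contDiffAt ((C.e i).open_target.mem_nhds hz)

theorem SmF.hasF {f : X → ℝ} (hf : SmF C f) {i : C.ι} {z : V} (hz : z ∈ (C.e i).target) :
    HasFDerivAt (fun y => f ((C.e i).symm y)) (fderiv ℝ (fun y => f ((C.e i).symm y)) z) z :=
  ((hf.at hz).differentiableAt (by simp)).hasFDerivAt

/-- second derivatives are symmetric -/
theorem symm_dd {f : V → ℝ} {z : V} (hf : ContDiffAt ℝ ∞ f z) (u v : V) :
    fderiv ℝ (fderiv ℝ f) z u v - fderiv ℝ (fderiv ℝ f) z v u = 0 := by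
  rw [Dif_268.symm2 hf u v, sub_self]

/-- smoothness of the exterior derivative -/
theorem contDiffOn_d1 {θ : V → V →L[ℝ] ℝ} {U : Set V} (hU : IsOpen U)
    (hθ : ContDiffOn ℝ ∞ θ U) : ContDiffOn ℝ ∞ (d1 θ) U := by
  have h1 : ContDiffOn ℝ ∞ (fderiv ℝ θ) U := hθ.fderiv_of_isOpen hU (by simp)
  have h2 : ContDiff ℝ ∞ (fun T : V →L[ℝ] V →L[ℝ] ℝ => T - T.flip) := by
    have : (fun T : V →L[ℝ] V →L[ℝ] ℝ => T - T.flip) =
      fun T => T - ContinuousLinearMap.flipₗᵢ ℝ V V ℝ T := rfl
    rw [this]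
    fun_prop
  exact h2.comp_contDiffOn h1

/-- `d d = 0` -/
theorem closed_d1 {θ : V → V →L[ℝ] ℝ} {U : Set V} (hU : IsOpen U)
    (hθ : ContDiffOn ℝ ∞ θ U) {z : V} (hz : z ∈ U) (a b c : V) :
    fderiv ℝ (d1 θ) z a b c + fderiv ℝ (d1 θ) z b c a + fderiv ℝ (d1 θ) z c a b = 0 := by
  have h0 : ContDiffAt ℝ ∞ θ z := hθ.contDiffAt (hU.mem_nhds hz)
  have h1 : DifferentiableAt ℝ (fderiv ℝ θ) z :=
    (h0.fderiv_right (m := ∞) (by simp)).differentiableAt (by simp)
  have h2 : ∀ p q r, fderiv ℝ (d1 θ) z p q r =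
      fderiv ℝ (fderiv ℝ θ) z p q r - fderiv ℝ (fderiv ℝ θ) z p r q := by
    intro p q r
    have g1 : HasFDerivAt (fun y => fderiv ℝ θ y q) _ z :=
      h1.hasFDerivAt.clm_apply (hasFDerivAt_const q z)
    have g2 : HasFDerivAt (fun y => fderiv ℝ θ y r) _ z :=
      h1.hasFDerivAt.clm_apply (hasFDerivAt_const r z)
    have g3 := (g1.clm_apply (hasFDerivAt_const r z)).sub (g2.clm_apply (hasFDerivAt_const q z))
    have g4 : DifferentiableAt ℝ (d1 θ) z :=
      ((contDiffOn_d1 hU hθ).contDiffAt (hU.mem_nhds hz)).differentiableAt (by simp)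
    rw [← fderiv_app g4]
    have g5 : (fun y => d1 θ y q r) =
      (fun y => fderiv ℝ θ y q r) - fun y => fderiv ℝ θ y r q := rfl
    rw [g5, g3.fderiv]
    simp
  rw [h2, h2, h2, Dif_268.symm2 h0 a b, Dif_268.symm2 h0 b c, Dif_268.symm2 h0 a c]
  ring

/-- exterior derivative of a global 1-form -/
def dO (η : F1 C) : F2 C where
  w i := d1 (η.η i)
  sm i := contDiffOn_d1 (C.e i).open_target (η.sm i)
  alt i z _ u v := by
    show fderiv ℝ (η.η i) z u v - fderiv ℝ (η.η i) z v u =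
      -(fderiv ℝ (η.η i) z v u - fderiv ℝ (η.η i) z u v)
    ring
  tr i j z hz u v := by
    have hz' := (RCh.t_mem hz).1
    have h1 : η.η i =ᶠ[𝓝 z] pb1 (η.η j) (C.t i j) := by
      filter_upwards [(RCh.isOpen_ov i j).mem_nhds hz] with y hy
      ext v
      exact η.tr i j y hy v
    have h2 := d_pb1 (θ := η.η j) (φ := C.t i j) (z := z) (F1dAt η hz')
      ((RCh.t_smooth i j).contDiffAt ((RCh.isOpen_ov i j).mem_nhds hz)) u v
    show fderiv ℝ (η.η i) z u v - fderiv ℝ (η.η i) z v u = _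
    rw [h1.fderiv_eq]
    exact h2
  closed i _ hz a b c := closed_d1 (C.e i).open_target (η.sm i) hz a b c

theorem dO_w (η : F1 C) (i : C.ι) (z u v : V) :
    (dO η).w i z u v = fderiv ℝ (η.η i) z u v - fderiv ℝ (η.η i) z v u := rfl


variable [Fintype C.ι] (P : PU C)

include P

theorem PU.zero_of_not_mem {a : C.ι} {x : X} (h : x ∉ (C.e a).source) : P.ψ a x = 0 := by
  by_contra h1
  exact h (P.sub a (subset_tsupport _ h1))

/-- **a form with trivial cocycle is exact** -/
theorem Rel.ex_of_cob {w : F2 C} {c : C.ι → C.ι → C.ι → ℝ} (h : Rel w c) (b : C.ι → C.ι → ℝ)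
    (hb : ∀ i j k, ((C.e i).source ∩ (C.e j).source ∩ (C.e k).source).Nonempty →
      c i j k = b j k - b i k + b i j) : Ex w := by
  classical
  obtain ⟨D, hU, hc⟩ := h
  have hsh : ∀ i a, ∀ z ∈ C.ov i a, z ∈ sh C i (D.U a) := fun i a z hz => by
    rw [hU]; exact hz
  set f' : C.ι → C.ι → X → ℝ := fun a d x => D.f a d x - b a d with hf'
  have hcoc : ∀ i j k, ∀ x ∈ (C.e i).source ∩ (C.e j).source ∩ (C.e k).source,
      f' i j x + f' j k x - f' i k x = 0 := by
    intro i j k x hx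
    have e1 := hc i j k x hx
    rw [hb i j k ⟨x, hx⟩] at e1
    simp only [hf']
    linarith
  -- the derivative of `f'` in the chart `i`
  have hfd : ∀ a d i, ∀ z ∈ C.ov i a, z ∈ C.ov i d →
      HasFDerivAt (fun y => f' a d ((C.e i).symm y)) (D.th d i z - D.th a i z) z := by
    intro a d i z hza hzd
    exact (D.f_d a d i z ⟨hza.1, (hsh i a z hza).2, (hsh i d z hzd).2⟩).sub_const _
  have hfs : ∀ a d i, ContDiffOn ℝ ∞ (fun y => f' a d ((C.e i).symm y)) (C.ov i a ∩ C.ov i d) := by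
    intro a d i
    have e1 : ContDiffOn ℝ ∞ (fun z => D.th d i z - D.th a i z) (C.ov i a ∩ C.ov i d) := by
      refine ((D.th_sm d i).mono fun z hz => hsh i d z hz.2).sub
        ((D.th_sm a i).mono fun z hz => hsh i a z hz.1)
    rw [contDiffOn_infty_iff_fderiv_of_isOpen ((RCh.isOpen_ov i a).inter (RCh.isOpen_ov i d))]
    refine ⟨fun z hz => (hfd a d i z hz.1 hz.2).differentiableAt.differentiableWithinAt, ?_⟩
    exact e1.congr fun z hz => (hfd a d i z hz.1 hz.2).fderiv
  -- the functions `g_a`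
  set g : C.ι → X → ℝ := fun a x => -∑ d, P.ψ d x * f' a d x with hg
  have hgs : ∀ a i, ContDiffOn ℝ ∞ (fun y => g a ((C.e i).symm y)) (C.ov i a) := by
    intro a i
    have e1 : ∀ d, ContDiffOn ℝ ∞
        (fun y => P.ψ d ((C.e i).symm y) * f' a d ((C.e i).symm y)) (C.ov i a) := by
      intro d z hz
      by_cases hd : (C.e i).symm z ∈ (C.e d).source
      · have hzd : z ∈ C.ov i d := ⟨hz.1, hd⟩
        have e2 := (hfs a d i).contDiffAt
          (((RCh.isOpen_ov i a).inter (RCh.isOpen_ov i d)).mem_nhds ⟨hz, hzd⟩)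
        have e3 := (P.sm d i).contDiffAt ((C.e i).open_target.mem_nhds hz.1)
        exact (e3.mul e2).contDiffWithinAt
      · have hd' : (C.e i).symm z ∉ tsupport (P.ψ d) := fun h => hd (P.sub d h)
        have e2 : ∀ᶠ y in 𝓝 ((C.e i).symm z), P.ψ d y = 0 :=
          notMem_tsupport_iff_eventuallyEq.1 hd'
        have e3 : ∀ᶠ y in 𝓝 z, P.ψ d ((C.e i).symm y) = 0 :=
          ((C.e i).continuousAt_symm hz.1).eventually e2
        have e4 : ContDiffAt ℝ ∞
            (fun y => P.ψ d ((C.e i).symm y) * f' a d ((C.e i).symm y)) z := by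
          refine (contDiffAt_const (c := (0 : ℝ))).congr_of_eventuallyEq ?_
          filter_upwards [e3] with y hy
          rw [hy, zero_mul]
        exact e4.contDiffWithinAt
    exact (ContDiffOn.sum fun d _ => e1 d).neg
  have hgab : ∀ a a', ∀ x ∈ (C.e a).source ∩ (C.e a').source, g a' x - g a x = f' a a' x := by
    intro a a' x hx
    have e1 : ∀ d, P.ψ d x * f' a d x - P.ψ d x * f' a' d x = P.ψ d x * f' a a' x := by
      intro d
      by_cases hd : x ∈ (C.e d).source
      · have := hcoc a a' d x ⟨hx, hd⟩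
        rw [← mul_sub]
        congr 1
        linarith
      · rw [P.zero_of_not_mem hd]
        ring
    have e2 : g a' x - g a x = ∑ d, (P.ψ d x * f' a d x - P.ψ d x * f' a' d x) := by
      rw [Finset.sum_sub_distrib]
      simp only [hg]
      ring
    rw [e2, Finset.sum_congr rfl fun d _ => e1 d, ← Finset.sum_mul, P.one, one_mul]
  have hgat : ∀ a i, ∀ z ∈ C.ov i a, ContDiffAt ℝ ∞ (fun y => g a ((C.e i).symm y)) z :=
    fun a i z hz => (hgs a i).contDiffAt ((RCh.isOpen_ov i a).mem_nhds hz)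
  have hself : ∀ i, ∀ z ∈ (C.e i).target, z ∈ C.ov i i := fun i z hz => by
    rw [ov_self]; exact hz
  -- the global 1-form
  refine ⟨{
    η := fun i z => D.th i i z - fderiv ℝ (fun y => g i ((C.e i).symm y)) z
    sm := fun i => ?_
    tr := fun i j z hz v => ?_ }, fun i z hz u v => ?_⟩
  · have e1 : ContDiffOn ℝ ∞ (D.th i i) (C.e i).target :=
      (D.th_sm i i).mono fun z hz => hsh i i z (hself i z hz)
    have e2 : ContDiffOn ℝ ∞ (fun y => g i ((C.e i).symm y)) (C.e i).target := by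
      have := hgs i i
      rwa [ov_self] at this
    exact e1.sub (e2.fderiv_of_isOpen (C.e i).open_target (by simp))
  · have hzi : z ∈ C.ov i i := hself i z hz.1
    have ht : C.t i j z ∈ C.ov j j := by rw [ov_self]; exact (RCh.t_mem hz).1
    -- `g_j` in the chart `i`
    have e1 : (fun y => g j ((C.e i).symm y)) =ᶠ[𝓝 z]
        (fun y => g j ((C.e j).symm y)) ∘ C.t i j := by
      filter_upwards [(RCh.isOpen_ov i j).mem_nhds hz] with y hy
      show _ = g j ((C.e j).symm (C.e j ((C.e i).symm y)))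
      rw [(C.e j).left_inv hy.2]
    have e2 : fderiv ℝ (fun y => g j ((C.e i).symm y)) z v =
        fderiv ℝ (fun y => g j ((C.e j).symm y)) (C.t i j z) (fderiv ℝ (C.t i j) z v) := by
      rw [e1.fderiv_eq, fderiv_comp z ((hgat j j _ ht).differentiableAt (by simp))
        (RCh.t_diff hz)]
      rfl
    have e3 := D.th_tr j i j z hz (hsh i j z hz).2 v
    have e4 : HasFDerivAt (fun y => f' i j ((C.e i).symm y)) _ z :=
      (((hgat j i z hz).differentiableAt (by simp)).hasFDerivAt.sub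
        ((hgat i i z hzi).differentiableAt (by simp)).hasFDerivAt).congr_of_eventuallyEq (by
          filter_upwards [(RCh.isOpen_ov i j).mem_nhds hz] with y hy
          exact (hgab i j _ ⟨(C.e i).map_target hy.1, hy.2⟩).symm)
    have e5 := congrArg (fun T : V →L[ℝ] ℝ => T v) (e4.unique (hfd i j i z hzi hz))
    simp only [sub_apply] at e5 ⊢
    rw [← e2, ← e3]
    linarith
  · have hzi : z ∈ C.ov i i := hself i z hz
    have e1 := D.th_diffAt (hsh i i z hzi)
    have e2 : DifferentiableAt ℝ (fderiv ℝ (fun y => g i ((C.e i).symm y))) z :=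
      ((hgat i i z hzi).fderiv_right (m := ∞) (by simp)).differentiableAt (by simp)
    have e3 : fderiv ℝ (fun z => D.th i i z - fderiv ℝ (fun y => g i ((C.e i).symm y)) z) z = _ :=
      (e1.hasFDerivAt.sub e2.hasFDerivAt).fderiv
    have e4 := D.th_d i i z (hsh i i z hzi) u v
    have e5 := symm_dd (hgat i i z hzi) u v
    rw [e3]
    simp only [sub_apply]
    linarith

/-- **every real cocycle comes from a closed 2-form** -/
theorem exists_of_coc (c : C.ι → C.ι → C.ι → ℝ)
    (hc : ∀ i j k l, ((C.e i).source ∩ (C.e j).source ∩ (C.e k).source ∩ (C.e l).source).Nonempty →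
      c j k l - c i k l + c i j l - c i j k = 0) : ∃ w : F2 C, Rel w c := by
  classical
  -- the functions
  set f : C.ι → C.ι → X → ℝ := fun a b x => ∑ d, P.ψ d x * c a b d with hf
  have hfs : ∀ a b, SmF C (f a b) := fun a b i =>
    ContDiffOn.sum fun d _ => (P.sm d i).mul contDiffOn_const
  have hcoc : ∀ i j k, ∀ x ∈ (C.e i).source ∩ (C.e j).source ∩ (C.e k).source,
      f i j x + f j k x - f i k x = c i j k := by
    intro i j k x hx
    have e1 : ∀ d, P.ψ d x * c i j d + P.ψ d x * c j k d - P.ψ d x * c i k d =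
        P.ψ d x * c i j k := by
      intro d
      by_cases hd : x ∈ (C.e d).source
      · have := hc i j k d ⟨x, hx, hd⟩
        linear_combination P.ψ d x * this
      · rw [P.zero_of_not_mem hd]
        ring
    have e2 : f i j x + f j k x - f i k x =
        ∑ d, (P.ψ d x * c i j d + P.ψ d x * c j k d - P.ψ d x * c i k d) := by
      rw [Finset.sum_sub_distrib, Finset.sum_add_distrib]
    rw [e2, Finset.sum_congr rfl fun d _ => e1 d, ← Finset.sum_mul, P.one, one_mul]
  -- the 1-forms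
  set θ : C.ι → F1 C := fun a =>
    { η := fun i z => -∑ d, P.ψ d ((C.e i).symm z) • (dF (hfs a d)).η i z
      sm := fun i => (ContDiffOn.sum fun d _ => (P.sm d i).smul ((dF (hfs a d)).sm i)).neg
      tr := fun i j z hz v => by
        simp only [neg_apply, sum_apply, smul_apply]
        congr 1
        refine Finset.sum_congr rfl fun d _ => ?_
        have e1 : (C.e j).symm (C.t i j z) = (C.e i).symm z := (C.e j).left_inv hz.2
        rw [(dF (hfs a d)).tr i j z hz, e1] } with hθ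
  have hdf : ∀ a b i, ∀ z ∈ C.ov i a, z ∈ C.ov i b →
      (θ b).η i z - (θ a).η i z = fderiv ℝ (fun y => f a b ((C.e i).symm y)) z := by
    intro a b i z hza hzb
    have hzt : z ∈ (C.e i).target := hza.1
    have e1 : ∀ d, P.ψ d ((C.e i).symm z) • (dF (hfs a d)).η i z -
        P.ψ d ((C.e i).symm z) • (dF (hfs b d)).η i z =
        P.ψ d ((C.e i).symm z) • fderiv ℝ (fun y => f a b ((C.e i).symm y)) z := by
      intro d
      by_cases hd : (C.e i).symm z ∈ (C.e d).source
      · have hzd : z ∈ C.ov i d := ⟨hzt, hd⟩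
        rw [← smul_sub]
        congr 1
        have e2 : (fun y => f a b ((C.e i).symm y)) =ᶠ[𝓝 z] fun y =>
            f a d ((C.e i).symm y) - f b d ((C.e i).symm y) + c a b d := by
          filter_upwards [(RCh.isOpen_ov i a).mem_nhds hza, (RCh.isOpen_ov i b).mem_nhds hzb,
            (RCh.isOpen_ov i d).mem_nhds hzd] with y h1 h2 h3
          have := hcoc a b d _ ⟨⟨h1.2, h2.2⟩, h3.2⟩
          linarith
        have e3 : HasFDerivAt (fun y =>
            f a d ((C.e i).symm y) - f b d ((C.e i).symm y) + c a b d) _ z :=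
          (((hfs a d).hasF hzt).sub ((hfs b d).hasF hzt)).add_const (c a b d)
        rw [e2.fderiv_eq, e3.fderiv]
        rfl
      · rw [P.zero_of_not_mem hd]
        simp
    have e2 : (θ b).η i z - (θ a).η i z = ∑ d, (P.ψ d ((C.e i).symm z) • (dF (hfs a d)).η i z -
        P.ψ d ((C.e i).symm z) • (dF (hfs b d)).η i z) := by
      rw [Finset.sum_sub_distrib]
      simp only [hθ]
      abel
    rw [e2, Finset.sum_congr rfl fun d _ => e1 d, ← Finset.sum_smul, P.one, one_smul]
  -- the exterior derivatives agree on overlaps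
  have hdd : ∀ a b i, ∀ z ∈ C.ov i a, z ∈ C.ov i b → ∀ u v,
      (dO (θ b)).w i z u v = (dO (θ a)).w i z u v := by
    intro a b i z hza hzb u v
    have hzt : z ∈ (C.e i).target := hza.1
    have e1 : (θ b).η i =ᶠ[𝓝 z] fun y => (θ a).η i y +
        fderiv ℝ (fun y => f a b ((C.e i).symm y)) y := by
      filter_upwards [(RCh.isOpen_ov i a).mem_nhds hza, (RCh.isOpen_ov i b).mem_nhds hzb]
        with y h1 h2
      rw [← hdf a b i y h1 h2]
      abel
    have e2 : DifferentiableAt ℝ (fderiv ℝ (fun y => f a b ((C.e i).symm y))) z :=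
      (((hfs a b).at hzt).fderiv_right (m := ∞) (by simp)).differentiableAt (by simp)
    have e3 : HasFDerivAt (fun y => (θ a).η i y +
        fderiv ℝ (fun y => f a b ((C.e i).symm y)) y) _ z :=
      (F1dAt (θ a) hzt).hasFDerivAt.add e2.hasFDerivAt
    have e5 := symm_dd ((hfs a b).at hzt) u v
    rw [dO_w, dO_w, e1.fderiv_eq, e3.fderiv]
    simp only [add_apply]
    linarith
  have hself : ∀ i, ∀ z ∈ (C.e i).target, z ∈ C.ov i i := fun i z hz => by
    rw [ov_self]; exact hz
  let w : F2 C :=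
    { w := fun i => (dO (θ i)).w i
      sm := fun i => (dO (θ i)).sm i
      alt := fun i => (dO (θ i)).alt i
      tr := fun i j z hz u v => by
        rw [← (dO (θ j)).tr i j z hz u v]
        exact (hdd i j i z (hself i z hz.1) hz u v).symm
      closed := fun i => (dO (θ i)).closed i }
  refine ⟨w, ⟨{
    U := fun a => (C.e a).source
    op := fun a => (C.e a).open_source
    cov := C.cover
    th := fun a i => (θ a).η i
    th_sm := fun a i => ((θ a).sm i).mono fun z hz => hz.1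
    th_tr := fun a i j z hz _ u => (θ a).tr i j z hz u
    th_d := fun a i z hz u v => ?_
    f := f
    f_d := fun a b i z hz => ?_ }, fun i => rfl, hcoc⟩⟩
  · have hza : z ∈ C.ov i a := hz
    show (dO (θ a)).w i z u v = (dO (θ i)).w i z u v
    exact hdd i a i z (hself i z hz.1) hza u v
  · have hza : z ∈ C.ov i a := ⟨hz.1, hz.2.1⟩
    have hzb : z ∈ C.ov i b := ⟨hz.1, hz.2.2⟩
    rw [hdf a b i z hza hzb]
    exact (hfs a b).hasF hz.1

end

end Crest.Agent.R281.Cdr_234
end

-- ▼ part R281/Dsc4_340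
section

/-!
# R281 (S0424), CDR part (3) (helper340), part 4: `Cls G` in terms of the nerve cocycle (`Rel`)

* `cls_iff_rel` : for `Rel w c` on a good system of charts, `Cls G w` iff the cocycle `c` differs
  from a `G`-valued one by a real coboundary
* `ex_iff_rel`  : `Ex w` iff the cocycle `c` is a real coboundary
-/

set_option autoImplicit false
set_option linter.unusedSectionVars false
set_option maxSynthPendingDepth 3

open Set Filter Topology
open scoped ContDiff

namespace Crest.Agent.R281.Dsc_340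

open Crest.Agent.R281.HkR_835 Crest.Agent.R281.Cdr_234
open Crest.Agent.R281.Ti_846 (F1 IsD Ex d1)

noncomputable section

variable {V X : Type} [NormedAddCommGroup V] [NormedSpace ℝ V] [TopologicalSpace X]
  {C : RCh V X} {G : AddSubgroup ℝ} {w : F2 C} {c : C.ι → C.ι → C.ι → ℝ}

/-- **the class of a form in terms of its nerve cocycle** -/
theorem cls_iff_rel (hC : GoodR C) (h : Rel w c) :
    Cls G w ↔ ∃ m : C.ι → C.ι → ℝ, ∀ i j k,
      ((C.e i).source ∩ (C.e j).source ∩ (C.e k).source).Nonempty →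
      c i j k - (m j k - m i k + m i j) ∈ G := by
  obtain ⟨D, hU, hc⟩ := h
  constructor
  · intro hw
    obtain ⟨k, hk⟩ := descend hw D (fun b => b) (fun b => (hU b).le)
      (fun b => by rw [hU, sh_source]; exact hC b b)
      (fun b b' => by rw [hU, hU]; exact hC.preconnected2 b b')
    refine ⟨k, fun a b d hne => ?_⟩
    obtain ⟨x, hx⟩ := hne
    have h1 := hk a b d x (by rw [hU, hU, hU]; exact hx)
    rw [← hc a b d x hx]
    convert h1 using 1
    ring
  · rintro ⟨m, hm⟩
    refine ⟨C.ι, ⟨D.U, D.op, D.cov, D.th, D.th_sm, D.th_tr, D.th_d,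
      fun a b x => D.f a b x - m a b, fun a b i z hz => (D.f_d a b i z hz).sub_const (m a b)⟩,
      fun a b d x hx => ?_⟩
    have hx' : x ∈ (C.e a).source ∩ (C.e b).source ∩ (C.e d).source := by
      have hx2 : x ∈ D.U a ∩ D.U b ∩ D.U d := hx
      rwa [hU, hU, hU] at hx2
    have h1 := hm a b d ⟨x, hx'⟩
    rw [← hc a b d x hx'] at h1
    convert h1 using 1
    ring

/-- **exactness in terms of the nerve cocycle** -/
theorem ex_iff_rel (hC : GoodR C) [Fintype C.ι] (P : PU C) (h : Rel w c) :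
    Ex w ↔ ∃ m : C.ι → C.ι → ℝ, ∀ i j k,
      ((C.e i).source ∩ (C.e j).source ∩ (C.e k).source).Nonempty →
      c i j k = m j k - m i k + m i j := by
  constructor
  · intro hw
    obtain ⟨m, hm⟩ := (cls_iff_rel (G := ⊥) hC h).1 (Cls.of_ex hw)
    refine ⟨m, fun i j k hne => ?_⟩
    have := AddSubgroup.mem_bot.1 (hm i j k hne)
    linarith
  · rintro ⟨m, hm⟩
    exact h.ex_of_cob P m hm

end

end Crest.Agent.R281.Dsc_340
end

-- ▼ part R281/Cdr9_234
section

/-!
# R281 (S0424), CDR (helper234), part 9: integral structure of a finite Cech complex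

`Zc P4 R`, `Bc P3 R` : 2-cocycles and 2-coboundaries; `alg_basis` : integral cocycles `z k` which
form a basis of the real cocycles modulo coboundaries, and of the integral ones modulo real
coboundaries.
-/

set_option autoImplicit false

namespace Crest.Agent.R281.Cdr_234

noncomputable section

variable {ι : Type}

/-- 2-cocycles -/
def Zc (P4 : ι → ι → ι → ι → Prop) {R : Type} [AddCommGroup R] (c : ι → ι → ι → R) : Prop :=
  ∀ i j k l, P4 i j k l → c j k l - c i k l + c i j l - c i j k = 0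

/-- 2-coboundaries -/
def Bc (P3 : ι → ι → ι → Prop) {R : Type} [AddCommGroup R] (c : ι → ι → ι → R) : Prop :=
  ∃ b : ι → ι → R, ∀ i j k, P3 i j k → c i j k = b j k - b i k + b i j

theorem exists_denom {κ : Type} [Finite κ] (q : κ → ℚ) :
    ∃ (m : ℤ) (a : κ → ℤ), m ≠ 0 ∧ ∀ k, (m : ℚ) * q k = a k := by
  classical
  have _ : Fintype κ := Fintype.ofFinite κ
  refine ⟨∏ k, ((q k).den : ℤ), fun k => (∏ l ∈ Finset.univ.erase k, ((q l).den : ℤ)) * (q k).num,
    Finset.prod_ne_zero_iff.2 fun k _ => by exact_mod_cast (q k).den_ne_zero, fun k => ?_⟩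
  rw [← Finset.mul_prod_erase Finset.univ (fun l => ((q l).den : ℤ)) (Finset.mem_univ k)]
  push_cast
  have h : ((q k).den : ℚ) * q k = (q k).num := Rat.den_mul_eq_num (q k)
  linear_combination (∏ l ∈ Finset.univ.erase k, ((q l).den : ℚ)) * h

/-- integral cocycles -/
def ZcZ (P4 : ι → ι → ι → ι → Prop) : Submodule ℤ (ι → ι → ι → ℤ) where
  carrier := {c | Zc P4 c}
  add_mem' := by
    intro a b ha hb i j k l h
    have h1 := ha i j k l h
    have h2 := hb i j k l h
    simp only [Pi.add_apply]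
    linarith
  zero_mem' := by
    intro i j k l _
    simp
  smul_mem' := by
    intro m a ha i j k l h
    have h1 := ha i j k l h
    simp only [Pi.smul_apply, smul_eq_mul]
    linear_combination m * h1

/-- integral cocycles which are real coboundaries -/
def TcZ (P3 : ι → ι → ι → Prop) (P4 : ι → ι → ι → ι → Prop) : Submodule ℤ (ZcZ P4) where
  carrier := {c | Bc P3 (fun i j k => ((c.1 i j k : ℤ) : ℝ))}
  add_mem' := by
    rintro a b ⟨u, hu⟩ ⟨v, hv⟩
    refine ⟨fun i j => u i j + v i j, fun i j k h => ?_⟩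
    have h1 := hu i j k h
    have h2 := hv i j k h
    show (((a.1 i j k + b.1 i j k : ℤ)) : ℝ) = _
    push_cast
    linarith
  zero_mem' := ⟨fun _ _ => 0, fun i j k _ => by
    show (((0 : ℤ)) : ℝ) = _
    simp⟩
  smul_mem' := by
    rintro m a ⟨u, hu⟩
    refine ⟨fun i j => m * u i j, fun i j k h => ?_⟩
    have h1 := hu i j k h
    show (((m * a.1 i j k : ℤ)) : ℝ) = _
    push_cast
    linear_combination (m : ℝ) * h1

theorem mem_TcZ {P3 : ι → ι → ι → Prop} {P4 : ι → ι → ι → ι → Prop} {c : ZcZ P4} :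
    c ∈ TcZ P3 P4 ↔ Bc P3 (fun i j k => ((c.1 i j k : ℤ) : ℝ)) := Iff.rfl

instance torsionfree (P3 : ι → ι → ι → Prop) (P4 : ι → ι → ι → ι → Prop) :
    Module.IsTorsionFree ℤ (ZcZ P4 ⧸ TcZ P3 P4) := by
  refine Module.IsTorsionFree.of_smul_eq_zero fun m x h => ?_
  obtain ⟨x, rfl⟩ := Submodule.mkQ_surjective _ x
  by_cases hm : m = 0
  · exact Or.inl hm
  right
  rw [← map_smul, Submodule.mkQ_apply, Submodule.Quotient.mk_eq_zero, mem_TcZ] at h
  rw [Submodule.mkQ_apply, Submodule.Quotient.mk_eq_zero, mem_TcZ]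
  obtain ⟨u, hu⟩ := h
  refine ⟨fun i j => (m : ℝ)⁻¹ * u i j, fun i j k h => ?_⟩
  have h1 : (((m • x : ZcZ P4).1 i j k : ℤ) : ℝ) = u j k - u i k + u i j := hu i j k h
  have hm' : (m : ℝ) ≠ 0 := by exact_mod_cast hm
  have h2 : (((m • x : ZcZ P4).1 i j k : ℤ) : ℝ) = m * ((x.1 i j k : ℤ) : ℝ) := by
    show (((m * x.1 i j k : ℤ)) : ℝ) = _
    push_cast
    ring
  rw [h2] at h1
  have h3 : ((x.1 i j k : ℤ) : ℝ) = (m : ℝ)⁻¹ * (m * ((x.1 i j k : ℤ) : ℝ)) := by
    rw [← mul_assoc, inv_mul_cancel₀ hm', one_mul]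
  show ((x.1 i j k : ℤ) : ℝ) = (m : ℝ)⁻¹ * u j k - (m : ℝ)⁻¹ * u i k + (m : ℝ)⁻¹ * u i j
  rw [h3, h1]
  ring

/-- **the integral structure of the second cohomology of a finite Cech complex** -/
theorem alg_basis [Finite ι] (P3 : ι → ι → ι → Prop) (P4 : ι → ι → ι → ι → Prop) :
    ∃ (N : ℕ) (z : Fin N → ι → ι → ι → ℤ), (∀ k, Zc P4 (z k)) ∧
      (∀ t : Fin N → ℝ, Bc P3 (fun i j k => ∑ s, t s * ((z s i j k : ℤ) : ℝ)) → t = 0) ∧
      (∀ c : ι → ι → ι → ℤ, Zc P4 c → ∃ m : Fin N → ℤ,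
        Bc P3 (fun i j k => ((c i j k : ℤ) : ℝ) - ∑ s, (m s : ℝ) * ((z s i j k : ℤ) : ℝ))) ∧
      ∀ c : ι → ι → ι → ℝ, Zc P4 c → ∃ t : Fin N → ℝ,
        (∀ s, t s ∈ Submodule.span ℤ (Set.range fun p : ι × ι × ι => c p.1 p.2.1 p.2.2)) ∧
        Bc P3 (fun i j k => c i j k - ∑ s, t s * ((z s i j k : ℤ) : ℝ)) := by
  classical
  have hfin : Module.Finite ℤ (ZcZ P4 ⧸ TcZ P3 P4) := inferInstance
  have hfree : Module.Free ℤ (ZcZ P4 ⧸ TcZ P3 P4) := inferInstance
  set B := Module.finBasis ℤ (ZcZ P4 ⧸ TcZ P3 P4) with hB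
  set N := Module.finrank ℤ (ZcZ P4 ⧸ TcZ P3 P4) with hN
  have hz : ∀ s, ∃ z : ZcZ P4, (TcZ P3 P4).mkQ z = B s := fun s =>
    Submodule.mkQ_surjective _ (B s)
  choose z hzB using hz
  -- integral cocycles
  have h3 : ∀ c : ι → ι → ι → ℤ, Zc P4 c → ∃ m : Fin N → ℤ,
      Bc P3 (fun i j k => ((c i j k : ℤ) : ℝ) - ∑ s, (m s : ℝ) * (((z s).1 i j k : ℤ) : ℝ)) := by
    intro c hc
    set x : ZcZ P4 := ⟨c, hc⟩ with hx
    refine ⟨fun s => B.repr ((TcZ P3 P4).mkQ x) s, ?_⟩
    have e1 : (TcZ P3 P4).mkQ (x - ∑ s, B.repr ((TcZ P3 P4).mkQ x) s • z s) = 0 := by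
      rw [map_sub, map_sum, sub_eq_zero]
      conv_lhs => rw [← B.sum_repr ((TcZ P3 P4).mkQ x)]
      exact Finset.sum_congr rfl fun s _ => by rw [map_smul, hzB]
    rw [Submodule.mkQ_apply, Submodule.Quotient.mk_eq_zero, mem_TcZ] at e1
    obtain ⟨b, hb⟩ := e1
    refine ⟨b, fun i j k h => ?_⟩
    have e3 : (((x - ∑ s, B.repr ((TcZ P3 P4).mkQ x) s • z s : ZcZ P4).1 i j k : ℤ) : ℝ) =
        b j k - b i k + b i j := hb i j k h
    rw [← e3]
    have e2 : (x - ∑ s, B.repr ((TcZ P3 P4).mkQ x) s • z s : ZcZ P4).1 i j k =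
        c i j k - ∑ s, B.repr ((TcZ P3 P4).mkQ x) s * (z s).1 i j k := by
      rw [AddSubgroupClass.coe_sub, AddSubmonoidClass.coe_finsetSum]
      simp only [Pi.sub_apply, Finset.sum_apply]
      rfl
    rw [e2]
    push_cast
    rfl
  refine ⟨N, fun s => (z s).1, fun s => (z s).2, ?_, h3, ?_⟩
  · -- independence
    rintro t ⟨b, hb⟩
    by_contra ht
    obtain ⟨s0, hs0⟩ : ∃ s, t s ≠ 0 := by
      by_contra h
      push Not at h
      exact ht (funext h)
    obtain ⟨lam, hlam⟩ : ∃ lam : ℝ →ₗ[ℚ] ℚ, lam (t s0) ≠ 0 := by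
      by_contra h
      push Not at h
      exact hs0 ((Module.forall_dual_apply_eq_zero_iff ℚ (t s0)).1 h)
    obtain ⟨m, a, hm, ha⟩ := exists_denom fun s => lam (t s)
    have hint : ∀ (x : ℝ) (n : ℤ), lam (x * n) = lam x * n := by
      intro x n
      have : x * (n : ℝ) = (n : ℚ) • x := by
        rw [Rat.smul_def]
        push_cast
        ring
      rw [this, map_smul, smul_eq_mul, mul_comm]
    have e1 : (∑ s, a s • z s : ZcZ P4) ∈ TcZ P3 P4 := by
      rw [mem_TcZ]
      refine ⟨fun i j => (((m : ℚ) * lam (b i j) : ℚ) : ℝ), fun i j k h => ?_⟩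
      have e2 := congrArg lam (hb i j k h)
      simp only [map_sum, map_add, map_sub, hint] at e2
      have e3 : (∑ s, (a s : ℚ) * ((z s).1 i j k : ℤ)) =
          (m : ℚ) * lam (b j k) - (m : ℚ) * lam (b i k) + (m : ℚ) * lam (b i j) := by
        have e4 : (∑ s, (a s : ℚ) * ((z s).1 i j k : ℤ)) =
            (m : ℚ) * ∑ s, lam (t s) * ((z s).1 i j k : ℤ) := by
          rw [Finset.mul_sum]
          refine Finset.sum_congr rfl fun s _ => ?_
          rw [← ha s]
          ring
        rw [e4, e2]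
        ring
      have e5 : ((∑ s, a s • z s : ZcZ P4).1 i j k : ℤ) = ∑ s, a s * (z s).1 i j k := by
        rw [AddSubmonoidClass.coe_finsetSum]
        simp only [Finset.sum_apply]
        rfl
      show (((∑ s, a s • z s : ZcZ P4).1 i j k : ℤ) : ℝ) = (((m : ℚ) * lam (b j k) : ℚ) : ℝ) -
        (((m : ℚ) * lam (b i k) : ℚ) : ℝ) + (((m : ℚ) * lam (b i j) : ℚ) : ℝ)
      rw [e5]
      have e6 := congrArg (fun q : ℚ => (q : ℝ)) e3
      push_cast at e6 ⊢
      exact e6
    have e2 : ∑ s, a s • B s = 0 := by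
      have e3 : (TcZ P3 P4).mkQ (∑ s, a s • z s) = 0 := by
        rw [Submodule.mkQ_apply, Submodule.Quotient.mk_eq_zero]
        exact e1
      rw [map_sum] at e3
      rw [← e3]
      exact Finset.sum_congr rfl fun s _ => by rw [map_smul, hzB]
    have e3 := Fintype.linearIndependent_iff.1 B.linearIndependent a e2 s0
    have e4 := ha s0
    simp only [e3, Int.cast_zero, mul_eq_zero, Int.cast_eq_zero, hm, false_or] at e4
    exact hlam e4
  · -- spanning
    intro c hc
    set W : Submodule ℤ ℝ := Submodule.span ℤ (Set.range fun p : ι × ι × ι => c p.1 p.2.1 p.2.2)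
      with hW
    have hWfin : Module.Finite ℤ W := Module.Finite.span_of_finite ℤ (Set.finite_range _)
    have hWfree : Module.Free ℤ W := inferInstance
    have hmem : ∀ i j k, c i j k ∈ W := fun i j k => Submodule.subset_span ⟨(i, j, k), rfl⟩
    set w := Module.finBasis ℤ W with hw
    set q : Fin (Module.finrank ℤ W) → ι → ι → ι → ℤ := fun l i j k =>
      w.repr ⟨c i j k, hmem i j k⟩ l with hq
    have hcq : ∀ i j k, c i j k = ∑ l, (q l i j k : ℝ) * (w l : ℝ) := by
      intro i j k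
      have e1 := congrArg (Submodule.subtype W) (w.sum_repr ⟨c i j k, hmem i j k⟩)
      rw [map_sum] at e1
      have e2 : c i j k = Submodule.subtype W ⟨c i j k, hmem i j k⟩ := rfl
      rw [e2, ← e1]
      refine Finset.sum_congr rfl fun l _ => ?_
      rw [map_smul, Submodule.subtype_apply, zsmul_eq_mul]
    have hqZ : ∀ l, Zc P4 (q l) := by
      intro l i j k s h
      have e1 := hc i j k s h
      have e2 : (⟨c j k s, hmem j k s⟩ - ⟨c i k s, hmem i k s⟩ + ⟨c i j s, hmem i j s⟩ -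
          ⟨c i j k, hmem i j k⟩ : W) = 0 := Subtype.ext e1
      have e3 := congrArg (fun x => w.repr x l) e2
      simpa [hq] using e3
    have hm3 : ∀ l, ∃ mm : Fin N → ℤ, Bc P3 (fun i j k => ((q l i j k : ℤ) : ℝ) -
        ∑ s, (mm s : ℝ) * (((z s).1 i j k : ℤ) : ℝ)) := fun l => h3 (q l) (hqZ l)
    choose mm hmm using hm3
    choose b hb using hmm
    refine ⟨fun s => ∑ l, (mm l s) • (w l : ℝ), fun s => W.sum_mem fun l _ =>
      W.smul_mem _ (w l).2, fun i j => ∑ l, (w l : ℝ) * b l i j, fun i j k h => ?_⟩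
    have e1 : ∀ l, (q l i j k : ℝ) * (w l : ℝ) - (w l : ℝ) *
        ∑ s, (mm l s : ℝ) * (((z s).1 i j k : ℤ) : ℝ) =
        (w l : ℝ) * (b l j k - b l i k + b l i j) := by
      intro l
      have e2 : ((q l i j k : ℤ) : ℝ) - ∑ s, (mm l s : ℝ) * (((z s).1 i j k : ℤ) : ℝ) =
          b l j k - b l i k + b l i j := hb l i j k h
      rw [← e2]
      ring
    have e2 : c i j k - ∑ s, (∑ l, (mm l s) • (w l : ℝ)) *
        (((z s).1 i j k : ℤ) : ℝ) = ∑ l, ((q l i j k : ℝ) * (w l : ℝ) - (w l : ℝ) *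
        ∑ s, (mm l s : ℝ) * (((z s).1 i j k : ℤ) : ℝ)) := by
      rw [Finset.sum_sub_distrib, ← hcq]
      congr 1
      simp only [Finset.sum_mul, Finset.mul_sum, zsmul_eq_mul]
      rw [Finset.sum_comm]
      refine Finset.sum_congr rfl fun l _ => Finset.sum_congr rfl fun s _ => ?_
      ring
    show c i j k - ∑ s, (∑ l, (mm l s) • (w l : ℝ)) *
        (((z s).1 i j k : ℤ) : ℝ) = (∑ l, (w l : ℝ) * b l j k) -
        (∑ l, (w l : ℝ) * b l i k) + ∑ l, (w l : ℝ) * b l i j
    rw [e2, Finset.sum_congr rfl fun l _ => e1 l, ← Finset.sum_sub_distrib,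
      ← Finset.sum_add_distrib]
    refine Finset.sum_congr rfl fun l _ => ?_
    ring

end

end Crest.Agent.R281.Cdr_234
end

-- ▼ part R281/Cdr10_234

/-!
# R281 (S0424), CDR (helper234), part 10: the basis theorem

* `PU.ofPart`   : partition of unity of an atlas
* `HBas C`      : integral basis of the second de Rham cohomology of `C : RCh V X`
* `HBas.cls_iff`: `Cls G (∑ t k • b k) ↔ ∀ k, t k ∈ G`, any subgroup `G` of `ℝ`
* `exists_hbas` : existence on a compact Hausdorff manifold with a holomorphic atlas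
-/

set_option autoImplicit false
set_option linter.unusedSectionVars false
set_option maxSynthPendingDepth 3

open Set Filter Topology
open scoped ContDiff

namespace Crest.Agent.R281.Cdr_234

open Crest.Agent.R281.HkR_835 Crest.Agent.R281.Dif_268
open Crest.Agent.R281.Ti_846 (F1 IsD Ex d1)
open Crest.Agent.R281.Dsc_340 (cls_iff_rel ex_iff_rel)
open Crest.Agent.R275.Geo Crest.Agent.R275.GC293

noncomputable section

section gen

variable {V X : Type} [NormedAddCommGroup V] [NormedSpace ℝ V] [TopologicalSpace X]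
  {C : RCh V X} {G : AddSubgroup ℝ}

/-- evaluation -/
def evL (i : C.ι) (z u v : V) : F2 C →ₗ[ℝ] ℝ where
  toFun w := w.w i z u v
  map_add' a b := by simp
  map_smul' c a := by simp

theorem evL_apply (i : C.ι) (z u v : V) (w : F2 C) : evL i z u v w = w.w i z u v := rfl

theorem sum_w {N : ℕ} (t : Fin N → ℝ) (b : Fin N → F2 C) (i : C.ι) (z u v : V) :
    (∑ k, t k • b k).w i z u v = ∑ k, t k * (b k).w i z u v := by
  rw [← evL_apply, map_sum]
  exact Finset.sum_congr rfl fun k _ => by rw [map_smul, smul_eq_mul, evL_apply]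

theorem Ex.sum {N : ℕ} {b : Fin N → F2 C} (hb : ∀ k, Ex (b k)) : Ex (∑ k, b k) :=
  (exS C).sum_mem fun k _ => hb k

theorem Cls.sum {N : ℕ} {b : Fin N → F2 C} (hb : ∀ k, Cls G (b k)) : Cls G (∑ k, b k) :=
  (clsS C G).sum_mem fun k _ => hb k

theorem Rel.zero [FiniteDimensional ℝ V] (hC : GoodR C) : Rel (0 : F2 C) (fun _ _ _ => 0) := by
  obtain ⟨c, hc⟩ := Rel.exists hC (0 : F2 C)
  have h1 := hc.smul 0
  simp only [zero_smul, zero_mul] at h1
  exact h1

theorem Rel.sum [FiniteDimensional ℝ V] (hC : GoodR C) {N : ℕ} {b : Fin N → F2 C}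
    {c : Fin N → C.ι → C.ι → C.ι → ℝ} (h : ∀ k, Rel (b k) (c k)) (t : Fin N → ℝ)
    (s : Finset (Fin N)) :
    Rel (∑ k ∈ s, t k • b k) (fun i j k => ∑ r ∈ s, t r * c r i j k) := by
  classical
  induction s using Finset.induction_on with
  | empty => simpa using Rel.zero hC
  | insert a s ha ih =>
    have h1 := ((h a).smul (t a)).add ih
    rw [Finset.sum_insert ha]
    convert h1 using 4
    rw [Finset.sum_insert ha]

/-- integral basis of the second de Rham cohomology -/
structure HBas (C : RCh V X) where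
  N : ℕ
  b : Fin N → F2 C
  int : ∀ k, IntF (b k)
  ind : ∀ t : Fin N → ℝ, Ex (∑ k, t k • b k) → t = 0
  span : ∀ w : F2 C, ∃ t : Fin N → ℝ, Ex (w - ∑ k, t k • b k)
  mem : ∀ (G : AddSubgroup ℝ) (t : Fin N → ℝ), Cls G (∑ k, t k • b k) → ∀ k, t k ∈ G

/-- **the basis theorem**, good system of charts -/
theorem exists_hbas_good [FiniteDimensional ℝ V] (hC : GoodR C) [Fintype C.ι] (P : PU C) :
    Nonempty (HBas C) := by
  classical
  set P3 : C.ι → C.ι → C.ι → Prop := fun i j k =>
    ((C.e i).source ∩ (C.e j).source ∩ (C.e k).source).Nonempty with hP3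
  set P4 : C.ι → C.ι → C.ι → C.ι → Prop := fun i j k l =>
    ((C.e i).source ∩ (C.e j).source ∩ (C.e k).source ∩ (C.e l).source).Nonempty with hP4
  obtain ⟨N, z, hz, hind, -, hspan⟩ := alg_basis P3 P4
  have hzR : ∀ s, ∃ w : F2 C, Rel w (fun i j k => ((z s i j k : ℤ) : ℝ)) := fun s =>
    exists_of_coc P _ fun i j k l h => by
      have h1 := hz s i j k l h
      exact_mod_cast h1
  choose b hb using hzR
  have hrel : ∀ t : Fin N → ℝ, Rel (∑ k, t k • b k)
      (fun i j k => ∑ r, t r * ((z r i j k : ℤ) : ℝ)) := fun t => Rel.sum hC hb t _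
  have hind' : ∀ t : Fin N → ℝ, Ex (∑ k, t k • b k) → t = 0 := by
    intro t ht
    obtain ⟨m, hm⟩ := (ex_iff_rel hC P (hrel t)).1 ht
    exact hind t ⟨m, hm⟩
  refine ⟨⟨N, b, fun k => ?_, hind', fun w => ?_, fun G t ht => ?_⟩⟩
  · refine (cls_iff_rel hC (hb k)).2 ⟨fun _ _ => 0, fun i j l _ => ?_⟩
    simp
  · obtain ⟨c, hc⟩ := Rel.exists hC w
    obtain ⟨t, -, m, hm⟩ := hspan c fun i j k l h => hc.coc i j k l h
    exact ⟨t, (hc.sub (hrel t)).ex_of_cob P m hm⟩
  · obtain ⟨m, hm⟩ := (cls_iff_rel hC (hrel t)).1 ht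
    set c : C.ι → C.ι → C.ι → ℝ := fun i j k => if P3 i j k then
      (∑ r, t r * ((z r i j k : ℤ) : ℝ)) - (m j k - m i k + m i j) else 0 with hc
    have hcG : ∀ i j k, c i j k ∈ G := by
      intro i j k
      by_cases h : P3 i j k
      · rw [hc]
        simp only [h, if_true]
        exact hm i j k h
      · rw [hc]
        simp only [h, if_false]
        exact G.zero_mem
    have hcoc : Zc P4 c := by
      intro i j k l h
      obtain ⟨x, ⟨⟨h1, h2⟩, h3⟩, h4⟩ := h
      have p1 : P3 j k l := ⟨x, ⟨h2, h3⟩, h4⟩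
      have p2 : P3 i k l := ⟨x, ⟨h1, h3⟩, h4⟩
      have p3 : P3 i j l := ⟨x, ⟨h1, h2⟩, h4⟩
      have p4 : P3 i j k := ⟨x, ⟨h1, h2⟩, h3⟩
      have e1 := (hrel t).coc i j k l ⟨x, ⟨⟨h1, h2⟩, h3⟩, h4⟩
      rw [hc]
      simp only [p1, p2, p3, p4, if_true]
      linear_combination e1
    obtain ⟨t', ht', m', hm'⟩ := hspan c hcoc
    have hG : Submodule.span ℤ (Set.range fun p : C.ι × C.ι × C.ι => c p.1 p.2.1 p.2.2) ≤
        AddSubgroup.toIntSubmodule G := by
      rw [Submodule.span_le]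
      rintro _ ⟨p, rfl⟩
      exact hcG _ _ _
    have e1 : (fun k => t k - t' k) = 0 := by
      refine hind _ ⟨fun i j => m i j + m' i j, fun i j k h => ?_⟩
      have e2 : c i j k - ∑ s, t' s * ((z s i j k : ℤ) : ℝ) = m' j k - m' i k + m' i j :=
        hm' i j k h
      rw [hc] at e2
      simp only [h, if_true] at e2
      simp only [sub_mul, Finset.sum_sub_distrib]
      linear_combination e2
    intro k
    have e2 : t k = t' k := by
      have := congrFun e1 k
      simp only [Pi.zero_apply] at this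
      linarith
    rw [e2]
    exact hG (ht' k)

namespace HBas

variable (B : HBas C)

theorem cls_iff (t : Fin B.N → ℝ) : Cls G (∑ k, t k • B.b k) ↔ ∀ k, t k ∈ G := by
  refine ⟨B.mem G t, fun h => Cls.sum fun k => ?_⟩
  refine (B.int k).smul (t k) ?_
  rintro _ ⟨m, rfl⟩
  have := G.zsmul_mem (h k) m
  rw [zsmul_eq_mul, mul_comm] at this
  exact this

theorem intF_iff (t : Fin B.N → ℝ) :
    IntF (∑ k, t k • B.b k) ↔ ∀ k, ∃ m : ℤ, t k = m := by
  rw [IntF, B.cls_iff]
  exact forall_congr' fun k => ⟨fun ⟨m, hm⟩ => ⟨m, hm.symm⟩, fun ⟨m, hm⟩ => ⟨m, hm.symm⟩⟩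

theorem ratF_iff (t : Fin B.N → ℝ) :
    RatF (∑ k, t k • B.b k) ↔ ∀ k, ∃ q : ℚ, t k = q := by
  rw [RatF, B.cls_iff]
  exact forall_congr' fun k => ⟨fun ⟨m, hm⟩ => ⟨m, hm.symm⟩, fun ⟨m, hm⟩ => ⟨m, hm.symm⟩⟩

theorem uniq {w : F2 C} {t t' : Fin B.N → ℝ} (h : Ex (w - ∑ k, t k • B.b k))
    (h' : Ex (w - ∑ k, t' k • B.b k)) : t = t' := by
  have h1 := Ex.sub h' h
  have h2 : w - ∑ k, t' k • B.b k - (w - ∑ k, t k • B.b k) = ∑ k, (t k - t' k) • B.b k := by
    simp only [sub_smul, Finset.sum_sub_distrib]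
    abel
  rw [h2] at h1
  have h3 := B.ind _ h1
  funext k
  have := congrFun h3 k
  simp only [Pi.zero_apply] at this
  linarith

/-- the basis of the cohomology space -/
def basis : Module.Basis (Fin B.N) ℝ (HdR C) :=
  Module.Basis.mk (v := fun k => (exS C).mkQ (B.b k))
    (by
      rw [Fintype.linearIndependent_iff]
      intro t ht k
      have h1 : (exS C).mkQ (∑ k, t k • B.b k) = 0 := by
        rw [map_sum, ← ht]
        exact Finset.sum_congr rfl fun k _ => by rw [map_smul]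
      rw [Submodule.mkQ_apply, Submodule.Quotient.mk_eq_zero, mem_exS] at h1
      exact congrFun (B.ind t h1) k)
    (by
      rintro x -
      obtain ⟨w, rfl⟩ := Submodule.mkQ_surjective _ x
      obtain ⟨t, ht⟩ := B.span w
      have h1 : (exS C).mkQ (w - ∑ k, t k • B.b k) = 0 := by
        rw [Submodule.mkQ_apply, Submodule.Quotient.mk_eq_zero]
        exact ht
      rw [map_sub, sub_eq_zero] at h1
      rw [h1, map_sum]
      refine Submodule.sum_mem _ fun k _ => ?_
      rw [map_smul]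
      exact Submodule.smul_mem _ _ (Submodule.subset_span ⟨k, rfl⟩))

@[simp] theorem basis_apply (k : Fin B.N) : B.basis k = (exS C).mkQ (B.b k) := by
  simp [basis]

theorem finite (B : HBas C) : FiniteDimensional ℝ (HdR C) := Module.Finite.of_basis B.basis

/-- coordinates of a closed form -/
def co (w : F2 C) : Fin B.N → ℝ := fun k => B.basis.repr ((exS C).mkQ w) k

theorem ex_co (w : F2 C) : Ex (w - ∑ k, B.co w k • B.b k) := by
  have h1 : (exS C).mkQ (w - ∑ k, B.co w k • B.b k) = 0 := by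
    rw [map_sub, map_sum, sub_eq_zero]
    conv_lhs => rw [← B.basis.sum_repr ((exS C).mkQ w)]
    exact Finset.sum_congr rfl fun k _ => by rw [map_smul, B.basis_apply]; rfl
  rw [Submodule.mkQ_apply, Submodule.Quotient.mk_eq_zero] at h1
  exact h1


theorem intF_iff_co {w : F2 C} : IntF w ↔ ∀ k, ∃ m : ℤ, B.co w k = m := by
  rw [IntF, Cls.iff_of_sub_ex (B.ex_co w)]
  exact B.intF_iff _

theorem ratF_iff_co {w : F2 C} : RatF w ↔ ∀ k, ∃ q : ℚ, B.co w k = q := by
  rw [RatF, Cls.iff_of_sub_ex (B.ex_co w)]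
  exact B.ratF_iff _

/-- rational forms have integral multiples -/
theorem rat_int (B : HBas C) {w : F2 C} (hw : RatF w) :
    ∃ m : ℕ, 0 < m ∧ IntF ((m : ℝ) • w) := by
  have h1 := B.ratF_iff_co.1 hw
  choose q hq using h1
  obtain ⟨m, a, hm, ha⟩ := exists_denom q
  refine ⟨m.natAbs, Int.natAbs_pos.2 hm, ?_⟩
  have h2 : ∀ m : ℤ, B.co ((m : ℝ) • w) = fun k => (m : ℝ) * B.co w k := by
    intro m
    funext k
    simp [co]
  have h3 : IntF ((m : ℝ) • w) := by
    rw [B.intF_iff_co]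
    intro k
    refine ⟨a k, ?_⟩
    rw [h2]
    show (m : ℝ) * B.co w k = _
    rw [hq, ← Rat.cast_intCast (a k), ← ha k]
    push_cast
    rfl
  rcases Int.natAbs_eq m with h | h
  · have : ((m.natAbs : ℕ) : ℝ) = (m : ℝ) := by
      rw [← Int.cast_natCast, ← h]
    rw [this]
    exact h3
  · have : ((m.natAbs : ℕ) : ℝ) = -(m : ℝ) := by
      rw [← Int.cast_natCast, ← Int.cast_neg]
      congr 1
      omega
    rw [this, neg_smul]
    exact Cls.neg h3


end HBas

end gen

/-! ### change of charts -/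

section cmp

variable {V V' X : Type} [NormedAddCommGroup V] [NormedSpace ℝ V] [NormedAddCommGroup V']
  [NormedSpace ℝ V'] [TopologicalSpace X] {C : RCh V X} {C' : RCh V' X} {G : AddSubgroup ℝ}

theorem eqv_pull_sum {X' : Type} [TopologicalSpace X'] {C' : RCh V' X'} (g : SMap C' C) {N : ℕ}
    (t : Fin N → ℝ) (b : Fin N → F2 C) :
    Eqv (g.pull (∑ k, t k • b k)) (∑ k, t k • g.pull (b k)) := by
  intro j z hz u v
  obtain ⟨i, hi⟩ := g.exists_dom hz
  rw [g.pull_w _ hi, sum_w, sum_w]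
  exact Finset.sum_congr rfl fun k _ => by rw [g.pull_w _ hi]

theorem eqv_pull_sub {X' : Type} [TopologicalSpace X'] {C' : RCh V' X'} (g : SMap C' C)
    (w w' : F2 C) : Eqv (g.pull (w - w')) (g.pull w - g.pull w') := by
  intro j z hz u v
  obtain ⟨i, hi⟩ := g.exists_dom hz
  rw [g.pull_w _ hi]
  show _ = (g.pull w).w j z u v - (g.pull w').w j z u v
  rw [g.pull_w _ hi, g.pull_w _ hi]
  rfl

theorem ex_pull_iff (h : Cmp C C') {w : F2 C} : Ex ((SMap.ofCmp h).pull w) ↔ Ex w :=
  ⟨fun hw => (pull_pull_cmp h w).ex ((SMap.ofCmp h.symm).ex_pull hw),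
    fun hw => (SMap.ofCmp h).ex_pull hw⟩

/-- change of the system of charts -/
def HBas.cmp (B : HBas C) (h : Cmp C C') : HBas C' where
  N := B.N
  b k := (SMap.ofCmp h).pull (B.b k)
  int k := (B.int k).pull _
  ind t ht := B.ind t ((ex_pull_iff h).1 ((eqv_pull_sum _ t B.b).symm.ex ht))
  span w := by
    obtain ⟨t, ht⟩ := B.span ((SMap.ofCmp h.symm).pull w)
    refine ⟨t, ?_⟩
    have h1 := (SMap.ofCmp h).ex_pull ht
    have h2 := (eqv_pull_sub (SMap.ofCmp h) _ _).ex h1
    refine Eqv.ex ?_ h2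
    intro j z hz u v
    have e1 := pull_pull_cmp h.symm w j z hz u v
    have e2 := eqv_pull_sum (SMap.ofCmp h) t B.b j z hz u v
    show ((SMap.ofCmp h).pull ((SMap.ofCmp h.symm).pull w)).w j z u v -
      ((SMap.ofCmp h).pull (∑ k, t k • B.b k)).w j z u v = w.w j z u v -
      (∑ k, t k • (SMap.ofCmp h).pull (B.b k)).w j z u v
    rw [e2, ← e1]
  mem G t ht := B.mem G t ((Cls.of_cmp h).1 (Cls.eqv ht (eqv_pull_sum _ t B.b).symm))

end cmp

section atl

variable {n : ℕ} {M : Type} [TopologicalSpace M] {A : Atl n M}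

/-- the partition of unity of an atlas -/
def PU.ofPart [hf : Fintype (ofAtl A).ι] (P : Part A) : PU (ofAtl A) where
  ψ := P.ψ
  sm a i := P.ψ_sm a i
  sub a x hx := by
    have h1 := (P.χ_one a x hx).self_of_nhds
    refine P.χ_sub a (subset_tsupport _ ?_)
    rw [Function.mem_support, h1]
    exact one_ne_zero
  one x := by
    have h := P.sum_one x
    have hf' : Fintype A.ι := hf
    have h' : ∑ᶠ a : (ofAtl A).ι, P.ψ a x = 1 := h
    rw [finsum_eq_sum_of_fintype] at h'
    exact h'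

/-- **the basis theorem on a compact complex manifold** -/
theorem exists_hbas [CompactSpace M] [T2Space M] (A : Atl n M) : Nonempty (HBas (ofAtl A)) := by
  classical
  obtain ⟨A', h1, h2, ⟨P⟩, h4, ⟨R⟩, h6, h7⟩ :=
    R273.Fam_835.exists_refine A (fun _ : Unit => univ)
    (fun _ => isOpen_univ) (fun x => ⟨(), mem_univ x⟩)
  have hc := cmp_of_hol h6.toHolMap h7.toHolMap
  have hfin : Finite (ofAtl A').ι := h1
  have hft : Fintype (ofAtl A').ι := Fintype.ofFinite _
  have hG : GoodR (ofAtl A') := h2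
  obtain ⟨B⟩ := exists_hbas_good hG (PU.ofPart P)
  exact ⟨B.cmp hc.symm⟩

/-- the basis theorem in any compatible system of real charts -/
theorem exists_hbas_cmp [CompactSpace M] [T2Space M] {V : Type} [NormedAddCommGroup V]
    [NormedSpace ℝ V] {C : RCh V M} (A : Atl n M) (h : Cmp C (ofAtl A)) : Nonempty (HBas C) := by
  obtain ⟨B⟩ := exists_hbas A
  exact ⟨B.cmp h.symm⟩

end atl

end

end Crest.Agent.R281.Cdr_234
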