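import Crest.Agent.R281.Cdr2_234
import Crest.Agent.R281.HkR6_835
import Crest.Agent.R281.KpK_487
import Crest.Agent.R281.Poi_234
import Crest.Agent.R273.FlatSec_534

-- ▼ part R281/Cdr3_234
section

/-!
# R281 (S0424), CDR (helper234), part 3: the Lefschetz (1,1)-theorem, local part

* `lam u z`    : the real 1-form `-(1/4π) du(z) ∘ I`; `lam_d` : its exterior derivative is
                 `π⁻¹` times the real form of `hess u`
* `lam_comp`   : compatible with holomorphic maps
* `exists_log` : the holomorphic logarithm of the transition function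
-/

set_option autoImplicit false
set_option linter.unusedSectionVars false
set_option maxSynthPendingDepth 3

open Set Filter Topology Complex
open scoped ContDiff Matrix ComplexConjugate ComplexOrder

namespace Crest.Agent.R281.Cdr_234

open Crest.Agent.R281.HkR_835
open Crest.Agent.R275.Geo Crest.Agent.R275.Core144
open Crest.Agent.R273.Defs_333 Crest.Agent.R273.Hess_333

noncomputable section

variable {n : ℕ}

/-- the form `-(1/4π) du ∘ I` -/
def lam (u : Cn n → ℝ) (z : Cn n) : Cn n →L[ℝ] ℝ := (-(4 * Real.pi)⁻¹) • (fderiv ℝ u z).comp iL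

theorem lam_apply (u : Cn n → ℝ) (z v : Cn n) :
    lam u z v = -(4 * Real.pi)⁻¹ * fderiv ℝ u z (I • v) := rfl

theorem contDiffOn_lam {u : Cn n → ℝ} {U : Set (Cn n)} (hU : IsOpen U)
    (hu : ContDiffOn ℝ ∞ u U) : ContDiffOn ℝ ∞ (lam u) U := by
  have h1 : ContDiffOn ℝ ∞ (fderiv ℝ u) U := hu.fderiv_of_isOpen hU (by simp)
  exact (h1.clm_comp contDiffOn_const).const_smul _


theorem hb_add_left (G : Matrix (Fin n) (Fin n) ℂ) (u v w : Cn n) :
    hb G (u + v) w = hb G u w + hb G v w := by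
  simp only [hb, PiLp.add_apply, ← Finset.sum_add_distrib]
  exact Finset.sum_congr rfl fun a _ => Finset.sum_congr rfl fun b _ => by ring

theorem hb_add_right (G : Matrix (Fin n) (Fin n) ℂ) (u v w : Cn n) :
    hb G u (v + w) = hb G u v + hb G u w := by
  simp only [hb, PiLp.add_apply, ← Finset.sum_add_distrib, map_add]
  exact Finset.sum_congr rfl fun a _ => Finset.sum_congr rfl fun b _ => by ring

/-- the `(1,1)`-part of the second derivative -/
theorem d2_I {u : Cn n → ℝ} {z : Cn n} (hu : ContDiffAt ℝ ∞ u z) (v w : Cn n) :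
    fderiv ℝ (fderiv ℝ u) z v (I • w) - fderiv ℝ (fderiv ℝ u) z w (I • v) =
      -4 * (I * hb (hess u z) v w).re := by
  have hs : ∀ p q, fderiv ℝ (fderiv ℝ u) z p q = fderiv ℝ (fderiv ℝ u) z q p := fun p q =>
    (hu.isSymmSndFDerivAt (by
      rw [minSmoothness_of_isRCLikeNormedField]; exact WithTop.coe_le_coe.2 le_top)) p q
  have h0 : ∀ v, fderiv ℝ (fderiv ℝ u) z v v + fderiv ℝ (fderiv ℝ u) z (I • v) (I • v) =
      4 * (hb (hess u z) v v).re := by
    intro v
    have h1 := congrArg Complex.re (lev_eq hu v)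
    rw [Complex.ofReal_re] at h1
    have h2 : hq u z v = hb (hess u z) v v := rfl
    rw [h2] at h1
    have h3 : lev u z v = fderiv ℝ (fderiv ℝ u) z v v + fderiv ℝ (fderiv ℝ u) z (I • v) (I • v) := by
      unfold lev
      rw [iteratedFDeriv_two_apply, iteratedFDeriv_two_apply]
      rfl
    rw [← h3, h1]
    simp
  have hh := hess_herm hu
  have hc : ∀ a b : Cn n, (hb (hess u z) a b).re = (hb (hess u z) b a).re := by
    intro a b
    rw [← hb_conj hh b a, Complex.conj_re]
  -- polarisation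
  have h1 : ∀ a b : Cn n, fderiv ℝ (fderiv ℝ u) z a b + fderiv ℝ (fderiv ℝ u) z (I • a) (I • b) =
      4 * (hb (hess u z) a b).re := by
    intro a b
    have e := h0 (a + b)
    have ea := h0 a
    have eb := h0 b
    simp only [smul_add, map_add, add_apply, hb_add_left, hb_add_right, Complex.add_re] at e
    have e1 := hs a b
    have e2 := hs (I • a) (I • b)
    have e3 := hc a b
    linarith
  have h2 := h1 v (I • w)
  have h3 : I • I • w = -w := by rw [smul_smul, I_mul_I, neg_one_smul]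
  rw [h3, map_neg, hb_I_right] at h2
  have h4 := hs (I • v) w
  have h5 : (-I * hb (hess u z) v w).re = -(I * hb (hess u z) v w).re := by
    rw [neg_mul, Complex.neg_re]
  rw [h5] at h2
  rw [← h4]
  linarith

/-- `d (lam u) = π⁻¹ ω(hess u)` -/
theorem lam_d {u : Cn n → ℝ} {z : Cn n} (hu : ContDiffAt ℝ ∞ u z) (v w : Cn n) :
    fderiv ℝ (lam u) z v w - fderiv ℝ (lam u) z w v =
      Real.pi⁻¹ * (I * hb (hess u z) v w).re := by
  have h1 : DifferentiableAt ℝ (fderiv ℝ u) z :=
    (hu.fderiv_right (m := ∞) (by simp)).differentiableAt (by simp)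
  have h2 : ∀ a b, fderiv ℝ (lam u) z a b =
      -(4 * Real.pi)⁻¹ * fderiv ℝ (fderiv ℝ u) z a (I • b) := by
    intro a b
    have h3 : HasFDerivAt (fderiv ℝ u) (fderiv ℝ (fderiv ℝ u) z) z := h1.hasFDerivAt
    have h4 := (h3.clm_comp (hasFDerivAt_const (iL : Cn n →L[ℝ] Cn n) z)).const_smul
      (-(4 * Real.pi)⁻¹)
    have h5 : fderiv ℝ (lam u) z = _ := h4.fderiv
    rw [h5]
    simp
  rw [h2, h2, ← mul_sub, d2_I hu]
  have : Real.pi ≠ 0 := Real.pi_ne_zero
  field_simp

/-- `lam` commutes with holomorphic maps -/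
theorem lam_comp {u : Cn n → ℝ} {T : Cn n → Cn n} {z : Cn n} (hu : DifferentiableAt ℝ u (T z))
    (hT : DifferentiableAt ℂ T z) :
    lam (fun y => u (T y)) z = (lam u (T z)).comp (fderiv ℝ T z) := by
  have h1 : fderiv ℝ T z = (fderiv ℂ T z).restrictScalars ℝ := hT.fderiv_restrictScalars ℝ
  have h2 : fderiv ℝ (fun y => u (T y)) z = (fderiv ℝ u (T z)).comp (fderiv ℝ T z) :=
    (hu.hasFDerivAt.comp z (hT.restrictScalars ℝ).hasFDerivAt).fderiv
  ext v
  rw [lam_apply, h2, ContinuousLinearMap.comp_apply, ContinuousLinearMap.comp_apply, lam_apply, h1]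
  simp

theorem lam_sub {u v : Cn n → ℝ} {z : Cn n} (hu : DifferentiableAt ℝ u z)
    (hv : DifferentiableAt ℝ v z) : lam (fun y => u y - v y) z = lam u z - lam v z := by
  ext w
  rw [lam_apply, fderiv_fun_sub hu hv]
  simp only [sub_apply, lam_apply]
  ring

/-- the derivative of the imaginary part of a holomorphic function -/
theorem lam_re {F : Cn n → ℂ} {z : Cn n} (hF : DifferentiableAt ℂ F z) :
    HasFDerivAt (fun y => (F y).im) ((4 * Real.pi) • lam (fun y => (F y).re) z) z := by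
  have h1 : HasFDerivAt F ((fderiv ℂ F z).restrictScalars ℝ) z := hF.hasFDerivAt.restrictScalars ℝ
  have h2 := Complex.imCLM.hasFDerivAt.comp z h1
  have h3 := (Complex.reCLM.hasFDerivAt.comp z h1).fderiv
  have h4 : (fun y => (F y).re) = Complex.reCLM ∘ F := rfl
  refine h2.congr_fderiv ?_
  ext v
  simp only [smul_apply, lam_apply, smul_eq_mul]
  rw [h4, h3]
  have hp : Real.pi ≠ 0 := Real.pi_ne_zero
  simp
  field_simp

/-- **the logarithm of the transition function** -/
theorem exists_log {O : Set (Cn n)} (hO : IsOpen O) (hc : Convex ℝ O) {u₁ u₂ f : Cn n → ℝ}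
    (h1 : ContDiffOn ℝ ∞ u₁ O) (h2 : ContDiffOn ℝ ∞ u₂ O)
    (hh : ∀ z ∈ O, hess (fun y => u₁ y - u₂ y) z = 0)
    (hf : ∀ z ∈ O, HasFDerivAt f (lam u₂ z - lam u₁ z) z) :
    ∃ F : Cn n → ℂ, DifferentiableOn ℂ F O ∧ (∀ z ∈ O, (F z).re = (u₁ z - u₂ z) / 2) ∧
      ∀ z ∈ O, (F z).im = -(2 * Real.pi) * f z := by
  have hs : ContDiffOn ℝ ∞ (fun y => u₁ y - u₂ y) O := h1.sub h2
  obtain ⟨F0, hF0, hre⟩ := Crest.Agent.R273.FlatSec_534.exists_re hO hc hs fun z hz v =>
    Crest.Agent.R281.Kp_487.lev_of_hess_zero (hs.contDiffAt (hO.mem_nhds hz)) (hh z hz) v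
  -- the function `f + (1/4π) Im F0` is constant
  set g : Cn n → ℝ := fun z => f z + (4 * Real.pi)⁻¹ * (F0 z).im with hg
  have hp : Real.pi ≠ 0 := Real.pi_ne_zero
  have hg' : ∀ z ∈ O, HasFDerivAt g (0 : Cn n →L[ℝ] ℝ) z := by
    intro z hz
    have hFz : DifferentiableAt ℂ F0 z := hF0.differentiableAt (hO.mem_nhds hz)
    have e1 := (hf z hz).add ((lam_re hFz).const_mul ((4 * Real.pi)⁻¹))
    refine e1.congr_fderiv ?_
    have e2 : lam (fun y => (F0 y).re) z = lam u₁ z - lam u₂ z := by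
      have e3 : (fun y => (F0 y).re) =ᶠ[𝓝 z] fun y => u₁ y - u₂ y := by
        filter_upwards [hO.mem_nhds hz] with y hy using hre y hy
      have e4 : lam (fun y => (F0 y).re) z = lam (fun y => u₁ y - u₂ y) z := by
        unfold lam
        rw [e3.fderiv_eq]
      rw [e4, lam_sub ((h1.contDiffAt (hO.mem_nhds hz)).differentiableAt (by simp))
        ((h2.contDiffAt (hO.mem_nhds hz)).differentiableAt (by simp))]
    rw [e2, smul_smul]
    have e5 : (4 * Real.pi)⁻¹ * (4 * Real.pi) = 1 := by field_simp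
    rw [e5, one_smul]
    abel
  rcases O.eq_empty_or_nonempty with rfl | ⟨z0, hz0⟩
  · exact ⟨fun _ => 0, differentiableOn_empty, fun z hz => absurd hz (notMem_empty z),
      fun z hz => absurd hz (notMem_empty z)⟩
  have hconst : ∀ z ∈ O, g z = g z0 := by
    intro z hz
    refine hc.is_const_of_fderivWithin_eq_zero (𝕜 := ℝ) (fun y hy =>
      (hg' y hy).differentiableAt.differentiableWithinAt) (fun y hy => ?_) hz hz0
    rw [fderivWithin_of_isOpen hO hy, (hg' y hy).fderiv]
  have hre2 : ∀ w : ℂ, (((1 / 2 : ℝ) : ℂ) * w).re = w.re / 2 := by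
    intro w
    rw [Complex.re_ofReal_mul]
    ring
  have him2 : ∀ w : ℂ, (((1 / 2 : ℝ) : ℂ) * w).im = w.im / 2 := by
    intro w
    rw [Complex.im_ofReal_mul]
    ring
  refine ⟨fun z => ((1 / 2 : ℝ) : ℂ) * F0 z - ((2 * Real.pi * g z0 : ℝ) : ℂ) * I, ?_,
    fun z hz => ?_, fun z hz => ?_⟩
  · exact (hF0.const_mul _).sub (differentiableOn_const _)
  · have := hre z hz
    rw [Complex.sub_re, hre2, this, Complex.re_ofReal_mul, Complex.I_re, mul_zero, sub_zero]
  · have e1 := hconst z hz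
    rw [Complex.sub_im, him2, Complex.im_ofReal_mul, Complex.I_im, mul_one, ← e1]
    simp only [hg]
    field_simp
    ring

end

end Crest.Agent.R281.Cdr_234
end

-- ▼ part R281/Cdr4_234
section

/-!
# R281 (S0424), CDR (helper234), part 4: the Lefschetz (1,1)-theorem on an atlas with potentials

`kp_lb` : local potentials `H : KP A` on a good atlas, Cech-de Rham data over the cover by the charts
with integral cocycle for the form `π⁻¹ ω(hess u)` ==> line bundle `L : LB A` with metric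
`h.w i = exp (- u i)`.
-/

set_option autoImplicit false
set_option linter.unusedSectionVars false
set_option maxSynthPendingDepth 3

open Set Filter Topology Complex
open scoped ContDiff Matrix ComplexConjugate ComplexOrder

namespace Crest.Agent.R281.Cdr_234

open Crest.Agent.R281.HkR_835
open Crest.Agent.R275.Geo Crest.Agent.R275.Core144 Crest.Agent.R275.GC293
open Crest.Agent.R273.Defs_333 Crest.Agent.R273.Hess_333
open Crest.Agent.R281.Kp_487 (KP KP.wt)

noncomputable section

variable {n : ℕ} {M : Type} [TopologicalSpace M] {A : Atl n M}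

theorem hasFDerivAt_tr {i j : A.ι} {z : Cn n} (hz : z ∈ A.ov i j) :
    HasFDerivAt ((ofAtl A).t i j) (fderiv ℝ ((ofAtl A).t i j) z) z :=
  (RCh.t_diff (C := ofAtl A) hz).hasFDerivAt

/-- **line bundle from local potentials and an integral cocycle** -/
theorem kp_lb (hA : GoodA A) (H : KP A) {w : F2 (ofAtl A)}
    (hw : ∀ i, ∀ z ∈ (A.e i).target, ∀ u v,
      w.w i z u v = Real.pi⁻¹ * (I * hb (hess (H.wt i) z) u v).re)
    (D : CD w A.ι) (hU : ∀ i, D.U i = (A.e i).source)
    (hZ : ∀ i j k, ∀ x ∈ (A.e i).source ∩ (A.e j).source ∩ (A.e k).source,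
      ∃ m : ℤ, (m : ℝ) = D.f i j x + D.f j k x - D.f i k x) :
    ∃ (L : LB A) (h : HM L), ∀ i x, h.w i x = Real.exp (-H.u i x) := by
  classical
  have hconv : ∀ i, Convex ℝ (A.e i).target := fun i => by
    have := hA i i
    have h2 : A.ov i i = (A.e i).target := by
      ext z
      exact ⟨fun h => h.1, fun h => ⟨h, (A.e i).map_target h⟩⟩
    rwa [h2] at this
  have hsh : ∀ (i : A.ι) (z : Cn n), z ∈ (A.e i).target → z ∈ sh (ofAtl A) i (D.U i) := by
    intro i z hz
    have h2 : (A.e i).symm z ∈ (A.e i).source := (A.e i).map_target hz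
    rw [← hU] at h2
    exact ⟨hz, h2⟩
  have hwt : ∀ i, ContDiffOn ℝ ∞ (H.wt i) (A.e i).target := fun i => H.sm i
  have hwta : ∀ i, ∀ z ∈ (A.e i).target, ContDiffAt ℝ ∞ (H.wt i) z := fun i z hz =>
    (hwt i).contDiffAt ((A.e i).open_target.mem_nhds hz)
  -- Step 1
  have h1 : ∀ i, ∃ ρ : Cn n → ℝ, ∀ z ∈ (A.e i).target,
      HasFDerivAt ρ (D.th i i z - lam (H.wt i) z) z := by
    intro i
    have hs : ContDiffOn ℝ ∞ (fun z => D.th i i z - lam (H.wt i) z) (A.e i).target :=
      ((D.th_sm i i).mono (hsh i)).sub (contDiffOn_lam (A.e i).open_target (hwt i))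
    refine Poi_234.poincare1 (A.e i).open_target (hconv i) hs fun z hz v u => ?_
    have hz' : z ∈ sh (ofAtl A) i (D.U i) := hsh i z hz
    have e1 := D.th_d i i z hz' v u
    have e2 := lam_d (hwta i z hz) v u
    have e3 := hw i z hz v u
    have hd1 : DifferentiableAt ℝ (D.th i i) z := D.th_diffAt hz'
    have hd2 : DifferentiableAt ℝ (lam (H.wt i)) z :=
      ((contDiffOn_lam (A.e i).open_target (hwt i)).contDiffAt
        ((A.e i).open_target.mem_nhds hz)).differentiableAt (by simp)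
    have e4 : fderiv ℝ (fun z => D.th i i z - lam (H.wt i) z) z = _ :=
      (hd1.hasFDerivAt.sub hd2.hasFDerivAt).fderiv
    rw [e4]
    simp only [sub_apply]
    linarith
  choose ρ hρ using h1
  -- Step 2
  set u2 : A.ι → A.ι → Cn n → ℝ := fun i j z => H.u j ((A.e i).symm z) with hu2
  set f' : A.ι → A.ι → Cn n → ℝ := fun i j z =>
    D.f i j ((A.e i).symm z) - ρ j ((ofAtl A).t i j z) + ρ i z with hf'
  have hu2s : ∀ i j, ContDiffOn ℝ ∞ (u2 i j) (A.ov i j) := by
    intro i j
    have e1 : ContDiffOn ℝ ∞ (fun z => H.wt j ((ofAtl A).t i j z)) (A.ov i j) :=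
      (hwt j).comp (RCh.t_smooth (C := ofAtl A) i j) fun z hz => (RCh.t_mem (C := ofAtl A) hz).1
    refine e1.congr fun z hz => ?_
    have hz2 : (A.e i).symm z ∈ (A.e j).source := hz.2
    show H.u j ((A.e i).symm z) = H.u j ((A.e j).symm (A.e j ((A.e i).symm z)))
    rw [(A.e j).left_inv hz2]
  have h2 : ∀ i j, ∀ z ∈ A.ov i j, HasFDerivAt (f' i j) (lam (u2 i j) z - lam (H.wt i) z) z := by
    intro i j z hz
    have hzi : (A.e i).symm z ∈ D.U i := by rw [hU]; exact (A.e i).map_target hz.1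
    have hzj : (A.e i).symm z ∈ D.U j := by rw [hU]; exact hz.2
    have hzU : z ∈ sh (ofAtl A) i (D.U i ∩ D.U j) := ⟨hz.1, hzi, hzj⟩
    have ht : (ofAtl A).t i j z ∈ (A.e j).target := (RCh.t_mem (C := ofAtl A) hz).1
    have e1 := D.f_d i j i z hzU
    have e2 := (hρ j _ ht).comp z (hasFDerivAt_tr hz)
    have e3 := (e1.sub e2).add (hρ i z hz.1)
    refine e3.congr_fderiv ?_
    ext v
    have e4 := D.th_tr j i j z hz hzj v
    have e5 : lam (u2 i j) z v = lam (H.wt j) ((ofAtl A).t i j z)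
        (fderiv ℝ ((ofAtl A).t i j) z v) := by
      have e6 : u2 i j =ᶠ[𝓝 z] fun y => H.wt j ((ofAtl A).t i j y) := by
        filter_upwards [(RCh.isOpen_ov (C := ofAtl A) i j).mem_nhds hz] with y hy
        have hy2 : (A.e i).symm y ∈ (A.e j).source := hy.2
        show H.u j ((A.e i).symm y) = H.u j ((A.e j).symm (A.e j ((A.e i).symm y)))
        rw [(A.e j).left_inv hy2]
      have e7 := lam_comp (u := H.wt j) (T := (ofAtl A).t i j) (z := z)
        ((hwta j _ ht).differentiableAt (by simp)) (ofAtl_t_diff A hz)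
      have e8 : lam (u2 i j) z = lam (fun y => H.wt j ((ofAtl A).t i j y)) z := by
        unfold lam
        rw [e6.fderiv_eq]
      rw [e8, e7]
      rfl
    simp only [add_apply, sub_apply, ContinuousLinearMap.comp_apply]
    rw [e4, e5]
    ring
  -- Step 3
  have h3 : ∀ i j, ∃ F : Cn n → ℂ, DifferentiableOn ℂ F (A.ov i j) ∧
      (∀ z ∈ A.ov i j, (F z).re = (H.wt i z - u2 i j z) / 2) ∧
      ∀ z ∈ A.ov i j, (F z).im = -(2 * Real.pi) * f' i j z := fun i j =>
    exists_log (RCh.isOpen_ov (C := ofAtl A) i j) (hA i j)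
      ((hwt i).mono fun z hz => hz.1) (hu2s i j) (fun z hz => H.tr i j z hz) (h2 i j)
  choose F hF hFre hFim using h3
  have hmem : ∀ {i j x}, x ∈ (A.e i).source ∩ (A.e j).source → A.e i x ∈ A.ov i j := by
    intro i j x hx
    refine ⟨(A.e i).map_source hx.1, ?_⟩
    rw [(A.e i).left_inv hx.1]
    exact hx.2
  -- the cocycle relation
  have hcoc : ∀ i j k, ∀ x ∈ (A.e i).source ∩ (A.e j).source ∩ (A.e k).source,
      Complex.exp (F i j (A.e i x)) * Complex.exp (F j k (A.e j x)) =
        Complex.exp (F i k (A.e i x)) := by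
    intro i j k x hx
    have hij := hmem (i := i) (j := j) hx.1
    have hjk := hmem (i := j) (j := k) ⟨hx.1.2, hx.2⟩
    have hik := hmem (i := i) (j := k) ⟨hx.1.1, hx.2⟩
    obtain ⟨m, hm⟩ := hZ i j k x hx
    have e1 : F i j (A.e i x) + F j k (A.e j x) = F i k (A.e i x) + ((-m : ℤ) : ℂ) * (2 * Real.pi * I) := by
      apply Complex.ext
      · simp only [Complex.add_re]
        rw [hFre i j _ hij, hFre j k _ hjk, hFre i k _ hik]
        have c1 : (((-m : ℤ) : ℂ) * (2 * Real.pi * I)).re = 0 := by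
          have : ((-m : ℤ) : ℂ) * (2 * Real.pi * I) = ((((-m : ℤ) : ℝ) * (2 * Real.pi) : ℝ) : ℂ) * I := by
            push_cast
            ring
          rw [this, Complex.re_ofReal_mul, Complex.I_re, mul_zero]
        rw [c1]
        simp only [hu2, KP.wt]
        rw [(A.e i).left_inv hx.1.1, (A.e j).left_inv hx.1.2]
        ring
      · simp only [Complex.add_im]
        rw [hFim i j _ hij, hFim j k _ hjk, hFim i k _ hik]
        have c1 : (((-m : ℤ) : ℂ) * (2 * Real.pi * I)).im = -(m : ℝ) * (2 * Real.pi) := by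
          have : ((-m : ℤ) : ℂ) * (2 * Real.pi * I) = ((((-m : ℤ) : ℝ) * (2 * Real.pi) : ℝ) : ℂ) * I := by
            push_cast
            ring
          rw [this, Complex.im_ofReal_mul, Complex.I_im, mul_one]
          push_cast
          ring
        rw [c1, hm]
        have c2 : (ofAtl A).t i j (A.e i x) = A.e j x := by
          show A.e j ((A.e i).symm (A.e i x)) = _
          rw [(A.e i).left_inv hx.1.1]
        have c3 : (ofAtl A).t j k (A.e j x) = A.e k x := by
          show A.e k ((A.e j).symm (A.e j x)) = _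
          rw [(A.e j).left_inv hx.1.2]
        have c4 : (ofAtl A).t i k (A.e i x) = A.e k x := by
          show A.e k ((A.e i).symm (A.e i x)) = _
          rw [(A.e i).left_inv hx.1.1]
        simp only [hf']
        rw [c2, c3, c4, (A.e i).left_inv hx.1.1, (A.e j).left_inv hx.1.2]
        ring
    rw [← Complex.exp_add, e1, Complex.exp_add, Complex.exp_int_mul_two_pi_mul_I, mul_one]
  -- Step 4
  set G : A.ι → A.ι → M → ℂ := fun i j x =>
    if x ∈ (A.e i).source ∩ (A.e j).source then Complex.exp (F i j (A.e i x)) else 1 with hG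
  have hGin : ∀ {i j x}, x ∈ (A.e i).source ∩ (A.e j).source →
      G i j x = Complex.exp (F i j (A.e i x)) := fun hx => if_pos hx
  have hGout : ∀ {i j x}, x ∉ (A.e i).source ∩ (A.e j).source → G i j x = 1 := fun hx => if_neg hx
  have hGne : ∀ i j x, G i j x ≠ 0 := by
    intro i j x
    by_cases hx : x ∈ (A.e i).source ∩ (A.e j).source
    · rw [hGin hx]; exact Complex.exp_ne_zero _
    · rw [hGout hx]; exact one_ne_zero
  have hGmul : ∀ i j k, ∀ x ∈ (A.e i).source ∩ (A.e j).source ∩ (A.e k).source,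
      G i j x * G j k x = G i k x := by
    intro i j k x hx
    rw [hGin hx.1, hGin ⟨hx.1.2, hx.2⟩, hGin ⟨hx.1.1, hx.2⟩]
    exact hcoc i j k x hx
  let L : LB A :=
    { g := G
      hol := fun i j => by
        have e1 : DifferentiableOn ℂ (fun z => Complex.exp (F i j z)) (A.ov i j) :=
          (hF i j).cexp
        refine DifferentiableOn.congr e1 fun z hz => ?_
        have e2 : (A.e i).symm z ∈ (A.e i).source ∩ (A.e j).source :=
          ⟨(A.e i).map_target hz.1, hz.2⟩
        rw [hGin e2, (A.e i).right_inv hz.1]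
      off := fun i j x hx => hGout hx
      self := fun i x => by
        by_cases hx : x ∈ (A.e i).source
        · have e1 := hGmul i i i x ⟨⟨hx, hx⟩, hx⟩
          exact mul_left_cancel₀ (hGne i i x) (by rw [e1, mul_one])
        · exact hGout fun h => hx h.1
      mul := hGmul }
  refine ⟨L, ⟨fun i x => Real.exp (-H.u i x), fun i x _ => Real.exp_pos _, fun i => ?_, ?_⟩,
    fun i x => rfl⟩
  · exact Real.contDiff_exp.comp_contDiffOn (H.sm i).neg
  · intro i j x hx
    show Real.exp (-H.u j x) = ‖G i j x‖ ^ 2 * Real.exp (-H.u i x)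
    have hij := hmem (i := i) (j := j) hx
    rw [hGin hx, Complex.norm_exp, hFre i j _ hij, ← Real.exp_nat_mul, ← Real.exp_add]
    congr 1
    simp only [hu2, KP.wt]
    rw [(A.e i).left_inv hx.1]
    push_cast
    ring

end

end Crest.Agent.R281.Cdr_234
end

-- ▼ part R281/Cdr5_234

/-!
# R281 (S0424), CDR (helper234), part 5: the Lefschetz (1,1)-theorem

* `cmp_of_hol` : the real charts of two atlases of the same complex manifold are compatible
* `pull_f2`    : the real form of a (1,1)-form under a change of atlas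
* `curK h : K11 A`, `c1F h := π⁻¹ • (curK h).f2` : the first Chern form of a metric
* `lefschetz`  : `IntF (π⁻¹ • K.f2)` ==> line bundle with curvature `K`, on a refined atlas
-/

set_option autoImplicit false
set_option linter.unusedSectionVars false
set_option maxSynthPendingDepth 3

open Set Filter Topology Complex
open scoped ContDiff Matrix ComplexConjugate ComplexOrder

namespace Crest.Agent.R281.Cdr_234

open Crest.Agent.R281.HkR_835 Crest.Agent.R281.Dif_268
open Crest.Agent.R281.Ti_846 (Ex)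
open Crest.Agent.R275.Geo Crest.Agent.R275.Core144 Crest.Agent.R275.GC293 Crest.Agent.R275.EDR890
open Crest.Agent.R273
open Crest.Agent.R273.Defs_333 Crest.Agent.R273.Hess_333 Crest.Agent.R273.HessB_333
open Crest.Agent.R273.Map_835 (HolMap dm Jp mem_dm holMap_id Jp_comp)
open Crest.Agent.R273.PB_835 (LBih Ref)
open Crest.Agent.R281.Kp_487 (KP KP.wt)
open Crest.Agent.R281.KpD_487 (PD isOpen_PD mem_PD_self PD_mono exists_PD_subset)

noncomputable section

variable {n : ℕ} {M : Type} [TopologicalSpace M] {A A' : Atl n M}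

/-! ### change of atlas -/

theorem cmp_of_hol (h : HolMap A' A id) (h' : HolMap A A' id) : Cmp (ofAtl A) (ofAtl A') where
  s i j := ((Crest.Agent.R266.SCV.contDiffOn_omega_of_differentiableOn (h.isOpen_dm j i)
    (h.hol j i)).restrict_scalars ℝ).of_le le_top
  s' i j := ((Crest.Agent.R266.SCV.contDiffOn_omega_of_differentiableOn (h'.isOpen_dm i j)
    (h'.hol i j)).restrict_scalars ℝ).of_le le_top

/-- the differential of the change of charts -/
theorem fderiv_rd (h : HolMap A' A id) {k : A'.ι} {i : A.ι} {z : Cn n}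
    (hz : z ∈ dm A' A id k i) (v : Cn n) :
    (fderiv ℝ (Map_835.rd A' A id k i) z v).ofLp =
      (Jp A' A id k i ((A'.e k).symm z)) *ᵥ v.ofLp := by
  have h1 := (h.diffAt hz).fderiv_restrictScalars ℝ
  have h2 : A'.e k ((A'.e k).symm z) = z := (A'.e k).right_inv hz.1
  funext b
  rw [h1]
  show (fderiv ℂ (Map_835.rd A' A id k i) z v) b = _
  rw [Map_835.mt_apply, Map_835.Jp_eq, h2]
  rfl

/-- pull back of the real form of a (1,1)-form -/
theorem pull_f2 (h : HolMap A' A id) (h' : HolMap A A' id) (K : K11 A) {k : A'.ι} {i : A.ι}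
    {z : Cn n} (hz : z ∈ dm A' A id k i) (u v : Cn n) :
    ((SMap.ofCmp (cmp_of_hol h h')).pull K.f2).w k z u v =
      (I * hb ((Jp A' A id k i ((A'.e k).symm z))ᵀ * K.g i ((A'.e k).symm z) *
        (Jp A' A id k i ((A'.e k).symm z)).map conj) u v).re := by
  have hz' : z ∈ dom (ofAtl A) (ofAtl A') (SMap.ofCmp (cmp_of_hol h h')).f i k := hz
  have hi : (A'.e k).symm z ∈ (A.e i).source := hz.2
  rw [(SMap.ofCmp (cmp_of_hol h h')).pull_w K.f2 hz']
  have e1 : loc (ofAtl A) (ofAtl A') (SMap.ofCmp (cmp_of_hol h h')).f i k =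
      Map_835.rd A' A id k i := rfl
  rw [e1]
  have e2 : Map_835.rd A' A id k i z ∈ (A.e i).target := (A.e i).map_source hi
  have e3 : (A.e i).symm (Map_835.rd A' A id k i z) = (A'.e k).symm z := (A.e i).left_inv hi
  rw [K.f2_w e2, e3, hb_mulVec (K.g i ((A'.e k).symm z)) (Jp A' A id k i ((A'.e k).symm z))
    (fderiv_rd h hz u) (fderiv_rd h hz v)]

/-- independence of the chart of the old atlas -/
theorem tr_indep11 (h : HolMap A' A id) (K : K11 A) {k : A'.ι} {i j : A.ι} {y : M}
    (hk : y ∈ (A'.e k).source) (hi : y ∈ (A.e i).source) (hj : y ∈ (A.e j).source) :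
    (Jp A' A id k i y)ᵀ * K.g i y * (Jp A' A id k i y).map conj =
      (Jp A' A id k j y)ᵀ * K.g j y * (Jp A' A id k j y).map conj := by
  have h1 : Jp A A id i j y * Jp A' A id k i y = Jp A' A id k j y :=
    Jp_comp (holMap_id A) h (i := k) (j := i) (l := j) (x := y) hk hi hj
  have h2 : Jm A i j y = Jp A A id i j y := rfl
  rw [K.tr i j y ⟨hi, hj⟩, h2, ← h1, Matrix.transpose_mul]
  have h3 : (Jp A A id i j y * Jp A' A id k i y).map conj =
      (Jp A A id i j y).map conj * (Jp A' A id k i y).map conj :=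
    Matrix.map_mul (f := (starRingEnd ℂ))
  rw [h3]
  simp only [Matrix.mul_assoc]

/-- the second closedness relation -/
theorem K11_closed' (K : K11 A) (i : A.ι) {z : Cn n} (hz : z ∈ (A.e i).target) (a b c : Fin n) :
    wd (true, c) (fun w => K.g i ((A.e i).symm w) a b) z =
      wd (true, b) (fun w => K.g i ((A.e i).symm w) a c) z := by
  have hd : ∀ a b, DifferentiableAt ℝ (fun w => K.g i ((A.e i).symm w) a b) z := fun a b =>
    ((K.sm i a b).contDiffAt ((A.e i).open_target.mem_nhds hz)).differentiableAt (by simp)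
  have h1 : ∀ p q c, wd (true, c) (fun w => K.g i ((A.e i).symm w) p q) z =
      conj (wd (false, c) (fun w => K.g i ((A.e i).symm w) q p) z) := by
    intro p q c
    rw [conj_wd _ (hd q p)]
    apply wd_congr
    filter_upwards [(A.e i).open_target.mem_nhds hz] with w hw
    have := congrFun (congrFun (K.herm i _ ((A.e i).map_target hw)).eq p) q
    simpa [Matrix.conjTranspose_apply] using this.symm
  rw [h1, h1, K.closed i z hz b a c]

/-- local potentials -/
theorem exists_pot11 (K : K11 A) (x : M) : ∃ (i : A.ι) (s : ℝ) (u : Cn n → ℝ), 0 < s ∧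
    x ∈ (A.e i).source ∧ PD (A.e i x) s ⊆ (A.e i).target ∧ ContDiff ℝ ∞ u ∧
    ∀ z ∈ PD (A.e i x) s, hess u z = K.g i ((A.e i).symm z) := by
  obtain ⟨i, hi⟩ := A.cover x
  obtain ⟨r, hr, hrs⟩ := exists_PD_subset ((A.e i).open_target.mem_nhds ((A.e i).map_source hi))
  obtain ⟨s, hs, hsr, u, hu1, hu2⟩ := KpE_487.ddbar_local (p := A.e i x) hr
    (g := fun z => K.g i ((A.e i).symm z))
    (fun a b => (K.sm i a b).mono hrs)
    (fun z hz => K.herm i _ ((A.e i).map_target (hrs hz)))
    (fun z hz a b c => K.closed i z (hrs hz) a b c)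
    (fun z hz a b c => K11_closed' K i (hrs hz) a b c)
  exact ⟨i, s, u, hs, hi, (PD_mono hsr).trans hrs, hu1, hu2⟩

/-- a finite good atlas with potentials of the closed real (1,1)-form `K`, subordinate to an open
cover -/
theorem exists_kp11 [CompactSpace M] [T2Space M] (K : K11 A) {κ : Type*} (O : κ → Set M)
    (hO : ∀ k, IsOpen (O k)) (hOc : ∀ x, ∃ k, x ∈ O k) :
    ∃ (A' : Atl n M) (H : KP A'), Finite A'.ι ∧ GoodA A' ∧ Nonempty (Part A') ∧
      (∀ i, ∃ k, (A'.e i).source ⊆ O k) ∧ Nonempty (Ref A' A id) ∧ LBih A' A id ∧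
      LBih A A' id ∧ ∀ (k : A'.ι) (i : A.ι) (y : M), y ∈ (A'.e k).source → y ∈ (A.e i).source →
        hess (H.wt k) (A'.e k y) =
          (Jp A' A id k i y)ᵀ * K.g i y * (Jp A' A id k i y).map conj := by
  choose ix s u hs hix hst hu1 hu2 using exists_pot11 K
  set O' : M × κ → Set M :=
    fun q => ((A.e (ix q.1)).source ∩ A.e (ix q.1) ⁻¹' PD (A.e (ix q.1) q.1) (s q.1)) ∩ O q.2
    with hO'
  obtain ⟨A', hfin, hG, hP, hsub, hR, hL1, hL2⟩ := Fam_835.exists_refine A O'
    (fun q => ((A.e (ix q.1)).isOpen_inter_preimage (isOpen_PD _ _)).inter (hO q.2))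
    (fun x => by
      obtain ⟨k, hk⟩ := hOc x
      exact ⟨(x, k), ⟨hix x, mem_PD_self (hs x)⟩, hk⟩)
  choose q' hq' using hsub
  set q : A'.ι → M := fun k => (q' k).1 with hqdef
  have hq : ∀ k, (A'.e k).source ⊆
      (A.e (ix (q k))).source ∩ A.e (ix (q k)) ⁻¹' PD (A.e (ix (q k)) (q k)) (s (q k)) :=
    fun k y hy => (hq' k hy).1
  have hh := hL1.toHolMap
  -- the potentials
  set U : A'.ι → M → ℝ := fun k y => u (q k) (A.e (ix (q k)) y) with hU
  have hUh : ∀ (k l : A'.ι) (y : M), y ∈ (A'.e k).source → y ∈ (A'.e l).source →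
      ∀ i : A.ι, y ∈ (A.e i).source → hess (fun w => U l ((A'.e k).symm w)) (A'.e k y) =
        (Jp A' A id k i y)ᵀ * K.g i y * (Jp A' A id k i y).map conj := by
    intro k l y hk hl i hi
    have hl' := hq l hl
    have h1 := KpK_487.hess_rd hh (k := k) (i := ix (q l)) hk hl'.1 ((hu1 (q l)).contDiffAt)
    have h2 : hess (u (q l)) (A.e (ix (q l)) y) = K.g (ix (q l)) y := by
      rw [hu2 (q l) _ hl'.2, (A.e (ix (q l))).left_inv hl'.1]
    rw [h2] at h1
    rw [tr_indep11 hh K hk hi hl'.1, ← h1]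
    rfl
  have hUs : ∀ (k l : A'.ι) (y : M), y ∈ (A'.e k).source → y ∈ (A'.e l).source →
      ContDiffAt ℝ ∞ (fun w => U l ((A'.e k).symm w)) (A'.e k y) := by
    intro k l y hk hl
    have hl' := hq l hl
    have hd : A'.e k y ∈ dm A' A id k (ix (q l)) := mem_dm hk hl'.1
    exact ((hu1 (q l)).contDiffAt).comp (A'.e k y) (KpK_487.rd_smooth hh hd)
  refine ⟨A', ⟨U, fun k z hz => ?_, fun k l z hz => ?_⟩, hfin, hG, hP,
    fun k => ⟨(q' k).2, fun y hy => (hq' k hy).2⟩, hR, hL1, hL2, fun k i y hk hi => ?_⟩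
  · have := hUs k k _ ((A'.e k).map_target hz) ((A'.e k).map_target hz)
    rw [(A'.e k).right_inv hz] at this
    exact this.contDiffWithinAt
  · have hk := (A'.e k).map_target hz.1
    have hl := hz.2
    obtain ⟨i, hi⟩ := A.cover ((A'.e k).symm z)
    have e1 := hUs k k _ hk hk
    have e2 := hUs k l _ hk hl
    have e3 := hess_sub e1 e2
    rw [hUh k k _ hk hk i hi, hUh k l _ hk hl i hi, sub_self, (A'.e k).right_inv hz.1] at e3
    exact e3
  · exact hUh k k y hk hk i hi

/-! ### the Chern form of a metric -/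

/-- the curvature of a metric as a closed real (1,1)-form -/
def curK {L : LB A} (h : HM L) : K11 A where
  g := Kah_333.cur h
  sm := Kah_333.cur_smooth h
  herm i _ hx := Kah_333.cur_herm h i hx
  tr _ _ _ hx := Kah_333.cur_tr h hx
  closed i _ hz a b c := Kah_333.cur_closed h i hz a b c

/-- the first Chern form of a metric -/
def c1F {L : LB A} (h : HM L) : F2 (ofAtl A) := (Real.pi⁻¹ : ℝ) • (curK h).f2

theorem c1F_w {L : LB A} (h : HM L) {i : A.ι} {z : Cn n} (hz : z ∈ (A.e i).target) (u v : Cn n) :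
    (c1F h).w i z u v = Real.pi⁻¹ * (I * hb (hess (h.wt i) z) u v).re := by
  have e1 : (c1F h).w i z u v = Real.pi⁻¹ * (curK h).f2.w i z u v := rfl
  rw [e1, (curK h).f2_w hz]
  show Real.pi⁻¹ * (I * hb (Kah_333.cur h i ((A.e i).symm z)) u v).re = _
  rw [Kah_333.cur_read h i hz]

/-- **Lefschetz (1,1)**: a closed real (1,1)-form `K` with `π⁻¹ K` integral is the curvature of a
line bundle, on a refined atlas -/
theorem lefschetz [CompactSpace M] [T2Space M] (K : K11 A)
    (hK : IntF ((Real.pi⁻¹ : ℝ) • K.f2)) {κ : Type*} (O : κ → Set M)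
    (hO : ∀ k, IsOpen (O k)) (hOc : ∀ x, ∃ k, x ∈ O k) :
    ∃ (A' : Atl n M) (L : LB A') (h : HM L), Finite A'.ι ∧ GoodA A' ∧ Nonempty (Part A') ∧
      (∀ i, ∃ k, (A'.e i).source ⊆ O k) ∧ Nonempty (Ref A' A id) ∧ LBih A' A id ∧
      LBih A A' id ∧ ∀ (k : A'.ι) (i : A.ι) (y : M), y ∈ (A'.e k).source → y ∈ (A.e i).source →
        Kah_333.cur h k y =
          (Jp A' A id k i y)ᵀ * K.g i y * (Jp A' A id k i y).map conj := by
  obtain ⟨α, D, hD⟩ := hK
  obtain ⟨A', H, h1, h2, h3, h4, h5, h6, h7, h8⟩ := exists_kp11 K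
    (fun q : α × κ => D.U q.1 ∩ O q.2) (fun q => (D.op q.1).inter (hO q.2)) (fun x => by
      obtain ⟨a, ha⟩ := D.cov x
      obtain ⟨k, hk⟩ := hOc x
      exact ⟨(a, k), ha, hk⟩)
  choose q hq using h4
  set hc := cmp_of_hol h6.toHolMap h7.toHolMap with hhc
  set g := SMap.ofCmp hc with hg
  set w' := g.pull ((Real.pi⁻¹ : ℝ) • K.f2) with hw'
  have hcov : ∀ x, ∃ b : A'.ι, x ∈ (A'.e b).source := A'.cover
  set D' : CD w' A'.ι := (D.pull g).refine (fun k : A'.ι => (A'.e k).source)
    (fun k => (A'.e k).open_source) hcov (fun k => (q k).1) (fun k y hy => (hq k hy).1) with hD'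
  have hw : ∀ k, ∀ z ∈ (A'.e k).target, ∀ u v,
      w'.w k z u v = Real.pi⁻¹ * (I * hb (hess (H.wt k) z) u v).re := by
    intro k z hz u v
    obtain ⟨i, hi⟩ := A.cover ((A'.e k).symm z)
    have hzd : z ∈ dm A' A id k i := ⟨hz, hi⟩
    have hk := (A'.e k).map_target hz
    have e0 : w'.w k z u v = Real.pi⁻¹ * (g.pull K.f2).w k z u v := by
      have hz' : z ∈ dom (ofAtl A) (ofAtl A') g.f i k := hzd
      rw [hw', g.pull_w _ hz', g.pull_w _ hz']
      rfl
    have e1 := pull_f2 h6.toHolMap h7.toHolMap K hzd u v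
    have e2 := h8 k i _ hk hi
    rw [(A'.e k).right_inv hz] at e2
    rw [e0, e2]
    exact congrArg (fun t => Real.pi⁻¹ * t) e1
  obtain ⟨L, h, hh⟩ := kp_lb h2 H hw D' (fun i => rfl) (fun i j k x hx => by
    obtain ⟨m, hm⟩ := hD (q i).1 (q j).1 (q k).1 x
      ⟨⟨(hq i hx.1.1).1, (hq j hx.1.2).1⟩, (hq k hx.2).1⟩
    exact ⟨m, hm⟩)
  refine ⟨A', L, h, h1, h2, h3, fun k => ⟨(q k).2, fun y hy => (hq k hy).2⟩, h5, h6, h7,
    fun k i y hk hi => ?_⟩
  rw [← h8 k i y hk hi]
  show hess (h.wt k) (A'.e k y) = _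
  have e1 : h.wt k = H.wt k := by
    funext z
    show -Real.log (h.w k ((A'.e k).symm z)) = H.u k ((A'.e k).symm z)
    rw [hh, Real.log_exp, neg_neg]
  rw [e1]

end

end Crest.Agent.R281.Cdr_234
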