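import Crest.Agent.R281.Iso3_139
import Crest.Agent.R281.Nef3_252

/-!
# Row 281, HK-ISO, part 4 (helper139): intervals, hyperkaehler families

* `DifC.bi`, `Holo.holM`  : dictionary to 252's `Bi`, `HolM`
* `DDCV C`        : the `dd^c`-lemma with parameters, as a Prop on `C` (626 + 850)
* `HSF.comp`      : reparametrisation
* `HSF.exists_iso'` : HK-ISO with `DDCV`
* `JSH T H`       : jointly smooth family `t ↦ H t : HkT C` on `T`
* `exists_iso_hk` : **HK-ISO for hyperkaehler triples** on an interval, every cyclic `(k,l,m)`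
-/

set_option autoImplicit false
set_option linter.unusedSectionVars false

open Set Filter Topology
open scoped ContDiff

namespace Crest.Agent.R281.Iso_139

open Crest.Agent.R281.HkR_835 Crest.Agent.R260.ACM_580
open Crest.Agent.R281.Dif_268 Crest.Agent.R281.Flo_222
open Crest.Agent.R281.NefO_476 Crest.Agent.R281.Nef_252
open Crest.Agent.R281.Ti_846 hiding pb pb_apply symm2 sm'

noncomputable section

variable {V X : Type} [NormedAddCommGroup V] [NormedSpace ℝ V] [TopologicalSpace X]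
  {C : RCh V X}

theorem DifC.bi (D : DifC C) : Bi D.φ D.ψ := ⟨D.rl, D.lr⟩

theorem Holo.holM {D : DifC C} {J J' : AJ C} (h : Holo D J J') : HolM D.φ J J' := ⟨h⟩

/-- reparametrisation -/
def HSF.comp (H : HSF C) (θ : ℝ → ℝ) (hθ : ContDiff ℝ ∞ θ) : HSF C where
  w1 t := H.w1 (θ t)
  w2 t := H.w2 (θ t)
  J t := H.J (θ t)
  js1 i := (H.js1 i).comp (f := fun p : ℝ × V => (θ p.1, p.2))
    ((hθ.comp contDiff_fst).prodMk contDiff_snd).contDiffOn fun p hp => ⟨mem_univ _, hp.2⟩
  js2 i := (H.js2 i).comp (f := fun p : ℝ × V => (θ p.1, p.2))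
    ((hθ.comp contDiff_fst).prodMk contDiff_snd).contDiffOn fun p hp => ⟨mem_univ _, hp.2⟩
  jsJ i := (H.jsJ i).comp (f := fun p : ℝ × V => (θ p.1, p.2))
    ((hθ.comp contDiff_fst).prodMk contDiff_snd).contDiffOn fun p hp => ⟨mem_univ _, hp.2⟩
  r1 t := H.r1 (θ t)
  r2 t := H.r2 (θ t)
  nd t := H.nd (θ t)

/-- smooth path from `a` to `b` inside the segment -/
theorem exists_theta (a b : ℝ) : ∃ θ : ℝ → ℝ, ContDiff ℝ ∞ θ ∧ θ 0 = a ∧ θ 1 = b ∧
    ∀ t, θ t ∈ uIcc a b := by
  refine ⟨fun t => a + (b - a) * Real.smoothTransition t,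
    contDiff_const.add (contDiff_const.mul Real.smoothTransition.contDiff), ?_, ?_, fun t => ?_⟩
  · simp [Real.smoothTransition.zero_of_nonpos le_rfl]
  · simp [Real.smoothTransition.one_of_one_le le_rfl]
  · have h0 := Real.smoothTransition.nonneg t
    have h1 := Real.smoothTransition.le_one t
    have h2 : a + (b - a) * Real.smoothTransition t =
        (1 - Real.smoothTransition t) • a + Real.smoothTransition t • b := by
      simp only [smul_eq_mul]
      ring
    show a + (b - a) * Real.smoothTransition t ∈ uIcc a b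
    rw [h2]
    exact (convex_uIcc a b) left_mem_uIcc right_mem_uIcc (by linarith) h0 (by ring)

variable [FiniteDimensional ℝ V] [MeasurableSpace V] [BorelSpace V]

/-- **the `dd^c`-lemma with parameters**: input of HK-ISO -/
def DDCV (C : RCh V X) : Prop :=
  ∀ (H : HSF C) (om : ℝ → F2 C), JS2 om → (∀ t, T11 (H.aj t) (om t)) →
    (∀ t, Pos (H.aj t) (om t)) → (∀ t, DDb (H.aj t)) → H.DDCVar

/-- jointly smooth family of hyperkaehler triples -/
structure JSH (T : Set ℝ) (H : ℝ → HkT C) : Prop where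
  om : ∀ k i, ContDiffOn ℝ ∞ (fun p : ℝ × V => ((H p.1).om k).w i p.2) (T ×ˢ (C.e i).target)
  J : ∀ k i, ContDiffOn ℝ ∞ (fun p : ℝ × V => (H p.1).J k i p.2) (T ×ˢ (C.e i).target)

/-- the cyclic triples -/
def Cyc (k l m : Fin 3) : Prop :=
  (k, l, m) = (0, 1, 2) ∨ (k, l, m) = (1, 2, 0) ∨ (k, l, m) = (2, 0, 1)

/-- the holomorphic symplectic structures `om l + i om m` of a family of triples -/
def hsf {H : ℝ → HkT C} (hH : JSH univ H) {k l m : Fin 3} (hc : Cyc k l m) : HSF C where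
  w1 t := (H t).om l
  w2 t := (H t).om m
  J t := (H t).J k
  js1 := hH.om l
  js2 := hH.om m
  jsJ := hH.J k
  r1 t i z hz u v := ((H t).om_J hc hz u v).1
  r2 t i z hz u v := ((H t).om_J hc hz u v).2
  nd t i z hz v := (H t).nondeg l hz v


theorem JSH.comp {T : Set ℝ} {H : ℝ → HkT C} (hH : JSH T H) {θ : ℝ → ℝ} (hθ : ContDiff ℝ ∞ θ)
    (hT : ∀ t, θ t ∈ T) : JSH univ (fun t => H (θ t)) where
  om k i := (hH.om k i).comp (f := fun p : ℝ × V => (θ p.1, p.2))
    ((hθ.comp contDiff_fst).prodMk contDiff_snd).contDiffOn fun p hp => ⟨hT _, hp.2⟩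
  J k i := (hH.J k i).comp (f := fun p : ℝ × V => (θ p.1, p.2))
    ((hθ.comp contDiff_fst).prodMk contDiff_snd).contDiffOn fun p hp => ⟨hT _, hp.2⟩

variable [CompactSpace X] [T2Space X]

/-- **HK-ISO for hyperkaehler triples**: along a jointly smooth family on a set `T ⊇ [a, b]` with
the classes of `om l` and `om m` constant, the complex structures `J k` at `a` and `b` are
isotopic, by a diffeomorphism acting trivially on classes -/
theorem exists_iso_hk (hP : PRIMVar C) (hD : DDCV C) {T : Set ℝ} {H : ℝ → HkT C} (hH : JSH T H)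
    {a b : ℝ} (hT : uIcc a b ⊆ T) {k l m : Fin 3} (hc : Cyc k l m)
    (hdd : ∀ t ∈ uIcc a b, DDb (ofHk (H t) k))
    (h1 : ∀ t ∈ uIcc a b, Coh ((H t).om l) ((H a).om l))
    (h2 : ∀ t ∈ uIcc a b, Coh ((H t).om m) ((H a).om m)) :
    ∃ D : DifC C, Eqv (D.φ.pull ((H b).om l)) ((H a).om l) ∧
      Eqv (D.φ.pull ((H b).om m)) ((H a).om m) ∧
      HolM D.φ (ofHk (H a) k) (ofHk (H b) k) := by
  obtain ⟨θ, hθ, h0, h01, hθT⟩ := exists_theta a b
  have hG : JSH univ (fun t => H (θ t)) := hH.comp hθ fun t => hT (hθT t)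
  have hDD : (hsf hG hc).DDCVar := by
    refine hD (hsf hG hc) (fun t => (H (θ t)).om k) (hG.om k) (fun t => ?_) (fun t => ?_)
      (fun t => ?_)
    · exact T11_hk (H (θ t)) k
    · exact Pos_hk (H (θ t)) k
    · exact hdd _ (hθT t)
  obtain ⟨D, e1, e2, e3⟩ := (hsf hG hc).exists_iso hP hDD
    (fun t => by
      show Coh ((H (θ t)).om l) ((H (θ 0)).om l)
      rw [h0]
      exact h1 _ (hθT t))
    (fun t => by
      show Coh ((H (θ t)).om m) ((H (θ 0)).om m)
      rw [h0]
      exact h2 _ (hθT t)) 0 1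
  have e1' : Eqv (D.φ.pull ((H (θ 1)).om l)) ((H (θ 0)).om l) := e1
  have e2' : Eqv (D.φ.pull ((H (θ 1)).om m)) ((H (θ 0)).om m) := e2
  have e3' : Holo D (ofHk (H (θ 0)) k) (ofHk (H (θ 1)) k) := e3
  rw [h01, h0] at e1' e2' e3'
  exact ⟨D, e1', e2', e3'.holM⟩


end

end Crest.Agent.R281.Iso_139
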