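import Crest.Agent.R281.Ch1_151
import Crest.Agent.R281.Iso4_139
import Crest.Agent.R281.Nef4_252
import Crest.Agent.R281.NefRay3_326
import Crest.Agent.R281.RkD_902
import Crest.Agent.R281.Ce1_551
import Crest.Agent.R281.Tw1_327
import Crest.Agent.R281.RkE_902
import Crest.Agent.R281.NefRay7_326
import Crest.Agent.R281.Ce3_551
import Crest.Agent.R281.Bx2_557
import Crest.Agent.R281.Bx3_557

-- ▼ part R281/Ch2_151
section

/-!
# Row 281, CHART-END (second owner, helper151), part 2: the member over a class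

* `uniq_moveK`   : uniqueness of the move of `om k`
* `rt H c s`     : rotation about `om 0` : `(om 0, c om 1 + s om 2, -s om 1 + c om 2)`
* `QQ Q`         : what is used of the Fujiki form
* `MvN L b G`    : `G` is in normal form (`[om 2] = t b`, `t > 0`) and, rotated about `om 0`, it is
                   a move of `L` with fixed `J 2`
* `MvN.uniq`     : `G` is unique up to scaling
-/

set_option autoImplicit false
set_option maxSynthPendingDepth 3
set_option linter.unusedSectionVars false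

open Set Filter Topology Complex
open scoped ContDiff

namespace Crest.Agent.R281.Ch_151

open Crest.Agent.R260.ACM_580
open Crest.Agent.R281.Ti_846 Crest.Agent.R281.Dif_268 Crest.Agent.R281.Cdr_234
open Crest.Agent.R281.HkR_835 Crest.Agent.R281.Alg_998
open Crest.Agent.R281.NefO_476 (ofHk Pos AJ)
open Crest.Agent.R281.Nef_252 (T11 KCls)

noncomputable section

variable {d : ℕ} {X : Type} [TopologicalSpace X]
variable {V : Type} [NormedAddCommGroup V] [NormedSpace ℝ V] {C : RCh V X}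

theorem eqv_of_eq {w w' : F2 C} (h : w = w') : Eqv w w' := h ▸ Eqv.refl w

theorem eqv_smul {a a' : F2 C} (c : ℝ) (h : Eqv a a') : Eqv (c • a) (c • a') :=
  fun i z hz u v => by
    show c * a.w i z u v = c * a'.w i z u v
    rw [h i z hz]


theorem cl_of_eqv {w w' : F2 C} (h : Eqv w w') : Cl w w' :=
  Cl.of_eq_on fun i z hz => by ext u v; exact h i z hz u v

theorem heqv_cyc {H H' : HkT C} (k : Fin 3) (h : HEqv (H.cyc k) (H'.cyc k)) : HEqv H H' := by
  refine ⟨fun l i z hz => ?_, fun l i z hz => ?_, fun i z hz => h.g i z hz⟩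
  · ext u v
    have h1 := congrArg (fun T : Bil V => T u v) (h.om (l - k) i z hz)
    have h2 := cyc_om H k (l - k) i z hz u v
    have h3 := cyc_om H' k (l - k) i z hz u v
    rw [sub_add_cancel] at h2 h3
    rw [← h2, ← h3]
    exact h1
  · ext v
    have h1 := congrArg (fun T : V →L[ℝ] V => T v) (h.J (l - k) i z hz)
    have h2 := cyc_J H k (l - k) i z v
    have h3 := cyc_J H' k (l - k) i z v
    rw [sub_add_cancel] at h2 h3
    rw [← h2, ← h3]
    exact h1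

/-- **uniqueness of the move of `om 2`** -/
theorem uniq_move2 [FiniteDimensional ℝ V] [T2Space X] [CompactSpace X] [ConnectedSpace X]
    (hd : 2 ≤ d) (hNN : NNat V d) (H H' : HkT C)
    (hJ : ∀ i, ∀ z ∈ (C.e i).target, ∀ v, H'.J 2 i z v = H.J 2 i z v) {r : ℝ} (hr : 0 < r)
    (e0 : Eqv (H'.om 0) (r • H.om 0)) (e1 : Eqv (H'.om 1) (r • H.om 1))
    (h2 : Ex (H'.om 2 - H.om 2)) : r = 1 ∧ HEqv H H' := by
  have c0 : ∀ H : HkT C, Eqv ((H.cyc 2).om 0) (H.om 2) := fun H => cyc_om H 2 0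
  have c1 : ∀ H : HkT C, Eqv ((H.cyc 2).om 1) (H.om 0) := fun H => cyc_om H 2 1
  have c2 : ∀ H : HkT C, Eqv ((H.cyc 2).om 2) (H.om 1) := fun H => cyc_om H 2 2
  obtain ⟨h1, h3⟩ := uniq_move hd hNN (H.cyc 2) (H'.cyc 2) (fun i z hz v => by
      rw [cyc_J, cyc_J]
      exact hJ i z hz v) hr
    ((c1 H').trans (e0.trans (eqv_smul r (c1 H).symm)))
    ((c2 H').trans (e1.trans (eqv_smul r (c2 H).symm)))
    (by
      refine Eqv.ex ?_ h2
      intro i z hz u v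
      show (H'.om 2).w i z u v - (H.om 2).w i z u v =
        ((H'.cyc 2).om 0).w i z u v - ((H.cyc 2).om 0).w i z u v
      rw [c0 H' i z hz, c0 H i z hz])
  exact ⟨h1, heqv_cyc 2 h3⟩

/-! ### rotation about `om 0` -/

/-- the frame -/
def R0 (c s : ℝ) : Fin 3 → Fin 3 → ℝ := ![![1, 0, 0], ![0, c, s], ![0, -s, c]]

theorem fr_R0 {c s : ℝ} (h : c * c + s * s = 1) : HkT.Fr (R0 c s) where
  nrm k := by
    fin_cases k
    · simp [R0]
    · simpa [R0] using h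
    · simp [R0]; linarith
  ort := by simp [R0]
  crs := by
    funext k
    fin_cases k <;> simp [R0]

/-- the rotated triple -/
def rt (H : HkT C) (c s : ℝ) (h : c * c + s * s = 1) : HkT C := H.rot (R0 c s) (fr_R0 h)

section rt

variable (H : HkT C) {c s : ℝ} (h : c * c + s * s = 1)

theorem rt_om0 : (rt H c s h).om 0 = H.om 0 := by
  show F2.lin (R0 c s 0) H.om = _
  rw [F2.lin_eq, Fin.sum_univ_three]
  simp [R0]

theorem rt_om1 : (rt H c s h).om 1 = c • H.om 1 + s • H.om 2 := by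
  show F2.lin (R0 c s 1) H.om = _
  rw [F2.lin_eq, Fin.sum_univ_three]
  simp [R0]

theorem rt_om2 : (rt H c s h).om 2 = (-s) • H.om 1 + c • H.om 2 := by
  show F2.lin (R0 c s 2) H.om = _
  rw [F2.lin_eq, Fin.sum_univ_three]
  simp [R0]

theorem rt_J0 (i : C.ι) (z v : V) : (rt H c s h).J 0 i z v = H.J 0 i z v := by
  show H.Jv (R0 c s 0) i z v = _
  rw [HkT.Jv_apply]
  simp [R0]

theorem rt_J1 (i : C.ι) (z v : V) :
    (rt H c s h).J 1 i z v = c • H.J 1 i z v + s • H.J 2 i z v := by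
  show H.Jv (R0 c s 1) i z v = _
  rw [HkT.Jv_apply]
  simp [R0]

theorem rt_J2 (i : C.ι) (z v : V) :
    (rt H c s h).J 2 i z v = (-s) • H.J 1 i z v + c • H.J 2 i z v := by
  show H.Jv (R0 c s 2) i z v = _
  rw [HkT.Jv_apply]
  simp [R0]

include h in
/-- rotating back -/
theorem rt_back1 (i : C.ι) (z v : V) :
    H.J 1 i z v = c • (rt H c s h).J 1 i z v - s • (rt H c s h).J 2 i z v := by
  rw [rt_J1, rt_J2]
  have e : c • (c • H.J 1 i z v + s • H.J 2 i z v) - s • ((-s) • H.J 1 i z v + c • H.J 2 i z v) =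
      (c * c + s * s) • H.J 1 i z v := by module
  rw [e, h, one_smul]

include h in
theorem rt_back2 (i : C.ι) (z v : V) :
    H.J 2 i z v = s • (rt H c s h).J 1 i z v + c • (rt H c s h).J 2 i z v := by
  rw [rt_J1, rt_J2]
  have e : s • (c • H.J 1 i z v + s • H.J 2 i z v) + c • ((-s) • H.J 1 i z v + c • H.J 2 i z v) =
      (c * c + s * s) • H.J 2 i z v := by module
  rw [e, h, one_smul]

theorem rt_bom2 : H.om 2 = s • (rt H c s h).om 1 + c • (rt H c s h).om 2 := by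
  rw [rt_om1, rt_om2]
  have e : s • (c • H.om 1 + s • H.om 2) + c • ((-s) • H.om 1 + c • H.om 2) =
      (c * c + s * s) • H.om 2 := by module
  rw [e, h, one_smul]


end rt

/-- the same complex structures on the targets -/
def JEq (G G' : HkT C) : Prop := ∀ k i, ∀ z ∈ (C.e i).target, G.J k i z = G'.J k i z

theorem JEq.symm {G G' : HkT C} (h : JEq G G') : JEq G' G := fun k i z hz => (h k i z hz).symm

theorem JEq.trans {G G' G'' : HkT C} (h : JEq G G') (h' : JEq G' G'') : JEq G G'' :=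
  fun k i z hz => (h k i z hz).trans (h' k i z hz)

/-- what is used of the Fujiki form -/
structure QQ (Q : F2 C →ₗ[ℝ] F2 C →ₗ[ℝ] ℝ) : Prop where
  symm : ∀ x y, Q x y = Q y x
  ex : ∀ x y, Ex x → Q x y = 0
  eq : ∀ (H : HkT C) (k : Fin 3), Q (H.om k) (H.om k) = Q (H.om 0) (H.om 0)
  ort : ∀ (H : HkT C) (k l : Fin 3), k ≠ l → Q (H.om k) (H.om l) = 0

variable {Q : F2 C →ₗ[ℝ] F2 C →ₗ[ℝ] ℝ}

namespace QQ

variable (hQ : QQ Q)

include hQ

theorem cl1 {x x' : F2 C} (h : Cl x x') (y : F2 C) : Q x y = Q x' y := by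
  have h1 := hQ.ex _ y h
  rw [map_sub, LinearMap.sub_apply, sub_eq_zero] at h1
  exact h1


theorem eqv1 {x x' : F2 C} (h : Eqv x x') (y : F2 C) : Q x y = Q x' y := hQ.cl1 (cl_of_eqv h) y

end QQ

/-- `G` is in normal form with respect to `b` and, rotated about `om 0`, it is a move of `L` with
fixed `J 2` -/
def MvN (L : HkT C) (b : F2 C) (G : HkT C) : Prop :=
  ∃ (c s r t : ℝ) (h : c * c + s * s = 1), 0 < c ∧ 0 < r ∧ 0 < t ∧
    (∀ i, ∀ z ∈ (C.e i).target, ∀ v, (rt G c s h).J 2 i z v = L.J 2 i z v) ∧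
    Eqv ((rt G c s h).om 0) (r • L.om 0) ∧ Eqv ((rt G c s h).om 1) (r • L.om 1) ∧
    Cl (G.om 2) (t • b)

/-- **the member over the class `b` is unique** -/
theorem MvN.uniq [FiniteDimensional ℝ V] [T2Space X] [CompactSpace X] [ConnectedSpace X]
    (hd : 2 ≤ d) (hNN : NNat V d) (hQ : QQ Q) {L : HkT C} (hL : Q (L.om 0) (L.om 0) ≠ 0)
    {b : F2 C} {G₁ G₂ : HkT C} (h₁ : MvN L b G₁) (h₂ : MvN L b G₂) : JEq G₁ G₂ := by
  obtain ⟨c₁, s₁, r₁, t₁, k₁, hc₁, hr₁, ht₁, hJ₁, a₁, b₁, cl₁⟩ := h₁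
  obtain ⟨c₂, s₂, r₂, t₂, k₂, hc₂, hr₂, ht₂, hJ₂, a₂, b₂, cl₂⟩ := h₂
  set M₁ := rt G₁ c₁ s₁ k₁ with hM₁
  set M₂ := rt G₂ c₂ s₂ k₂ with hM₂
  have hL1 : Q (L.om 1) (L.om 1) ≠ 0 := by rw [hQ.eq L 1]; exact hL
  -- orthogonality
  have o₁ : Q (M₁.om 2) (L.om 1) = 0 := by
    have e := hQ.ort M₁ 1 2 (by decide)
    rw [hQ.eqv1 b₁, map_smul, LinearMap.smul_apply, smul_eq_mul, hQ.symm] at e
    exact (mul_eq_zero.1 e).resolve_left hr₁.ne'
  have o₂ : Q (M₂.om 2) (L.om 1) = 0 := by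
    have e := hQ.ort M₂ 1 2 (by decide)
    rw [hQ.eqv1 b₂, map_smul, LinearMap.smul_apply, smul_eq_mul, hQ.symm] at e
    exact (mul_eq_zero.1 e).resolve_left hr₂.ne'
  -- the class `b`
  have g₁ : Cl (G₁.om 2) ((s₁ * r₁) • L.om 1 + c₁ • M₁.om 2) := by
    rw [rt_bom2 G₁ k₁, ← hM₁]
    refine Cl.add ?_ (Cl.refl _)
    rw [mul_smul]
    exact Cl.smul _ (cl_of_eqv b₁)
  have g₂ : Cl (G₂.om 2) ((s₂ * r₂) • L.om 1 + c₂ • M₂.om 2) := by
    rw [rt_bom2 G₂ k₂, ← hM₂]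
    refine Cl.add ?_ (Cl.refl _)
    rw [mul_smul]
    exact Cl.smul _ (cl_of_eqv b₂)
  have f₁ : Cl (t₂ • ((s₁ * r₁) • L.om 1 + c₁ • M₁.om 2))
      (t₁ • ((s₂ * r₂) • L.om 1 + c₂ • M₂.om 2)) := by
    have q₁ := Cl.smul t₂ (g₁.symm.trans cl₁)
    have q₂ := Cl.smul t₁ (g₂.symm.trans cl₂)
    rw [smul_smul] at q₁
    rw [smul_smul, mul_comm t₁ t₂] at q₂
    exact q₁.trans q₂.symm
  have e1 : t₂ * (s₁ * r₁) = t₁ * (s₂ * r₂) := by
    have e := hQ.cl1 f₁ (L.om 1)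
    simp only [map_smul, map_add, LinearMap.smul_apply, LinearMap.add_apply, smul_eq_mul, o₁, o₂,
      mul_zero, add_zero] at e
    have e' : (t₂ * (s₁ * r₁)) * Q (L.om 1) (L.om 1) = (t₁ * (s₂ * r₂)) * Q (L.om 1) (L.om 1) := by
      linarith
    exact mul_right_cancel₀ hL1 e'
  set l : ℝ := t₂ * c₁ / (t₁ * c₂) with hl
  have hl0 : 0 < l := by positivity
  have e2 : Cl (M₂.om 2) (l • M₁.om 2) := by
    have q := Cl.add f₁ (Cl.refl (-(t₂ * (s₁ * r₁)) • L.om 1))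
    have q1 : t₂ • ((s₁ * r₁) • L.om 1 + c₁ • M₁.om 2) + -(t₂ * (s₁ * r₁)) • L.om 1 =
        (t₂ * c₁) • M₁.om 2 := by module
    have q2 : t₁ • ((s₂ * r₂) • L.om 1 + c₂ • M₂.om 2) + -(t₂ * (s₁ * r₁)) • L.om 1 =
        (t₁ * c₂) • M₂.om 2 := by rw [e1]; module
    rw [q1, q2] at q
    have q3 := Cl.smul (t₁ * c₂)⁻¹ q
    rw [smul_smul, smul_smul, inv_mul_cancel₀ (by positivity), one_smul] at q3
    have q4 : (t₁ * c₂)⁻¹ * (t₂ * c₁) = l := by rw [hl]; ring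
    rw [q4] at q3
    exact q3.symm
  obtain ⟨u1, u2⟩ := uniq_move2 hd hNN (scl M₁ l hl0) M₂ (fun i z hz v => by
      rw [hJ₂ i z hz, ← hJ₁ i z hz]
      rfl) (r := r₂ / (r₁ * l)) (by positivity)
    (a₂.trans fun i z hz u v => by
      have e := a₁ i z hz u v
      show r₂ * (L.om 0).w i z u v = r₂ / (r₁ * l) * (l * (M₁.om 0).w i z u v)
      rw [e]
      show r₂ * (L.om 0).w i z u v = r₂ / (r₁ * l) * (l * (r₁ * (L.om 0).w i z u v))
      field_simp)
    (b₂.trans fun i z hz u v => by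
      have e := b₁ i z hz u v
      show r₂ * (L.om 1).w i z u v = r₂ / (r₁ * l) * (l * (M₁.om 1).w i z u v)
      rw [e]
      show r₂ * (L.om 1).w i z u v = r₂ / (r₁ * l) * (l * (r₁ * (L.om 1).w i z u v))
      field_simp) e2
  -- the angles agree
  have hrl : r₂ = r₁ * l := by
    have h0 : r₁ * l ≠ 0 := by positivity
    field_simp at u1
    linarith
  have e3 : c₁ * r₁ * t₂ = c₂ * r₂ * t₁ := by
    rw [hrl, hl]
    field_simp
  have hcs : c₁ = c₂ ∧ s₁ = s₂ := by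
    set m : ℝ := r₂ * t₁ / (r₁ * t₂) with hm
    have hm0 : 0 < m := by positivity
    have q1 : c₁ = m * c₂ := by
      rw [hm]; field_simp; linarith
    have q2 : s₁ = m * s₂ := by
      rw [hm]; field_simp; linarith
    have q3 : m = 1 := by
      rw [q1, q2] at k₁
      have q4 : m ^ 2 * (c₂ * c₂ + s₂ * s₂) = 1 := by linarith
      rw [k₂, mul_one] at q4
      have q5 : (m - 1) * (m + 1) = 0 := by linarith
      rcases mul_eq_zero.1 q5 with h | h
      · linarith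
      · linarith
    rw [q3, one_mul] at q1 q2
    exact ⟨q1, q2⟩
  obtain ⟨rfl, rfl⟩ := hcs
  have hJ : ∀ k i, ∀ z ∈ (C.e i).target, M₁.J k i z = M₂.J k i z := fun k i z hz => u2.J k i z hz
  intro k i z hz
  ext v
  fin_cases k
  · show G₁.J 0 i z v = G₂.J 0 i z v
    rw [← rt_J0 G₁ k₁, ← rt_J0 G₂ k₂, ← hM₁, ← hM₂, hJ 0 i z hz]
  · show G₁.J 1 i z v = G₂.J 1 i z v
    rw [rt_back1 G₁ k₁, rt_back1 G₂ k₂, ← hM₁, ← hM₂, hJ 1 i z hz, hJ 2 i z hz]
  · show G₁.J 2 i z v = G₂.J 2 i z v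
    rw [rt_back2 G₁ k₁, rt_back2 G₂ k₂, ← hM₁, ← hM₂, hJ 1 i z hz, hJ 2 i z hz]

end

end Crest.Agent.R281.Ch_151
end

-- ▼ part R281/Ch3_151
section

/-!
# Row 281, CHART-END (second owner, helper151), part 3: pull back of a triple by a diffeomorphism

* `pH D H`       : the pull back `D^* H` (charts `C.e i ∘ D`, then `Cmp.hk` of 835)
* `pH_om`, `pH_J`, `pH_holo`, `pH_cl`
* `J_of_om`      : the third complex structure is determined by two forms, up to a common factor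
* `MvN.pull`     : naturality
-/

set_option autoImplicit false
set_option maxSynthPendingDepth 3
set_option linter.unusedSectionVars false

open Set Filter Topology Complex
open scoped ContDiff

namespace Crest.Agent.R281.Ch_151

open Crest.Agent.R260.ACM_580
open Crest.Agent.R281.Ti_846 hiding pb pb_apply symm2 sm'
open Crest.Agent.R281.Dif_268 Crest.Agent.R281.Cdr_234
open Crest.Agent.R281.HkR_835 Crest.Agent.R281.Alg_998 Crest.Agent.R281.Iso_139
open Crest.Agent.R281.NefO_476 (ofHk Pos AJ)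
open Crest.Agent.R281.Nef_252 (T11 KCls)

noncomputable section

variable {d : ℕ} {X : Type} [TopologicalSpace X]
variable {V : Type} [NormedAddCommGroup V] [NormedSpace ℝ V] {C : RCh V X}

section pull

variable (D : DifC C)

/-- the homeomorphism -/
def homeo : X ≃ₜ X where
  toFun := D.φ.f
  invFun := D.ψ.f
  left_inv := D.lr
  right_inv := D.rl
  continuous_toFun := D.φ.cont
  continuous_invFun := D.ψ.cont

theorem tt (i j : C.ι) (z : V) :
    C.e j (D.φ.f (D.ψ.f ((C.e i).symm z))) = C.t i j z := by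
  rw [D.rl]
  rfl

/-- the charts `C.e i ∘ D` -/
def pc : RCh V X where
  ι := C.ι
  e i := (homeo D).transOpenPartialHomeomorph (C.e i)
  cover x := by
    obtain ⟨i, hi⟩ := C.cover (D.φ.f x)
    exact ⟨i, hi⟩
  sm i j := by
    refine ((C.sm i j).mono ?_).congr ?_
    · rintro z ⟨h1, h2⟩
      refine ⟨h1, ?_⟩
      have h3 : D.φ.f (D.ψ.f ((C.e i).symm z)) ∈ (C.e j).source := h2
      rwa [D.rl] at h3
    · rintro z ⟨h1, h2⟩
      exact tt D i j z

theorem pc_ov {i j : C.ι} {z : V} (hz : z ∈ (pc D).ov i j) : z ∈ C.ov i j := by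
  refine ⟨hz.1, ?_⟩
  have h3 : D.φ.f (D.ψ.f ((C.e i).symm z)) ∈ (C.e j).source := hz.2
  rwa [D.rl] at h3

theorem pc_t (i j : C.ι) : (pc D).t i j = C.t i j := funext fun z => tt D i j z

/-- a triple of `C`, read on the charts `C.e i ∘ D` -/
def hpc (H : HkT C) : HkT (pc D) where
  om k :=
    { w := (H.om k).w
      sm := (H.om k).sm
      alt := (H.om k).alt
      tr := fun i j z hz u v => by
        have h := (H.om k).tr i j z (pc_ov D hz) u v
        rw [← pc_t D] at h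
        exact h
      closed := (H.om k).closed }
  J := H.J
  g := H.g
  J_sm := H.J_sm
  J_sq := H.J_sq
  J_01 := H.J_01
  g_symm := H.g_symm
  g_pos := H.g_pos
  om_eq := H.om_eq

theorem cmpD : Cmp (pc D) C := ⟨fun i j => D.φ.sm i j, fun i j => D.ψ.sm j i⟩

/-- **the pull back `D^* H`** -/
def pH (H : HkT C) : HkT C := (cmpD D).hk (hpc D H)

variable (H : HkT C)

theorem pH_om (k : Fin 3) : Eqv ((pH D H).om k) (D.φ.pull (H.om k)) := by
  intro j z hz u v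
  obtain ⟨i, hi⟩ := D.φ.exists_dom hz
  rw [D.φ.pull_w _ hi]
  have h := (cmpD D).F_w ((hpc D H).om k) (i := i) (j := j) (z := z) hi u v
  exact h

theorem pH_J (k : Fin 3) {i j : C.ι} {z : V} (hz : z ∈ dom C C D.φ.f i j) (v : V) :
    fderiv ℝ (loc C C D.φ.f i j) z ((pH D H).J k j z v) =
      H.J k i (loc C C D.φ.f i j z) (fderiv ℝ (loc C C D.φ.f i j) z v) :=
  Cmp.hk_J (hpc D H) (cmpD D) k (i := i) (j := j) (z := z) hz v

theorem pH_holo (k : Fin 3) : Holo D (ofHk (pH D H) k) (ofHk H k) :=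
  fun _ _ _ hz v => pH_J D H k hz v

theorem cl_of_coh {w w' : F2 C} (h : Dif_268.Coh w w') : Cl w w' := coh_sub.1 h

theorem pH_cl (k : Fin 3) : Cl ((pH D H).om k) (H.om k) :=
  (cl_of_eqv (pH_om D H k)).trans (cl_of_coh (D.cls (H.om k)))

end pull

/-- the complex structure `J k` is determined by `om l`, `om m`, up to a common factor -/
theorem J_of_om {H H' : HkT C} {k l m : Fin 3}
    (hk : (k, l, m) = (0, 1, 2) ∨ (k, l, m) = (1, 2, 0) ∨ (k, l, m) = (2, 0, 1)) {r : ℝ}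
    (hr : r ≠ 0) (el : Eqv (H'.om l) (r • H.om l)) (em : Eqv (H'.om m) (r • H.om m)) :
    ∀ i, ∀ z ∈ (C.e i).target, ∀ v, H'.J k i z v = H.J k i z v := by
  intro i z hz v
  rw [← sub_eq_zero]
  refine H.nondeg l hz _ fun u => ?_
  have h1 := (H.om_J hk hz v u).1
  have h2 := (H'.om_J hk hz v u).1
  have h3 : (H'.om l).w i z (H'.J k i z v) u = r * (H.om l).w i z (H'.J k i z v) u := el i z hz _ _
  have h4 : (H'.om m).w i z v u = r * (H.om m).w i z v u := em i z hz _ _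
  rw [h3, h4] at h2
  rw [map_sub, sub_apply, h1]
  have h5 : r * ((H.om l).w i z (H'.J k i z v) u - -(H.om m).w i z v u) = 0 := by linarith
  exact (mul_eq_zero.1 h5).resolve_left hr

theorem pull_smul' (g : SMap C C) (c : ℝ) (a : F2 C) : Eqv (g.pull (c • a)) (c • g.pull a) := by
  intro j z hz u v
  obtain ⟨i, hi⟩ := g.exists_dom hz
  show _ = c * (g.pull a).w j z u v
  rw [g.pull_w _ hi, g.pull_w _ hi]
  rfl

theorem rt_pH (D : DifC C) (G : HkT C) {c s : ℝ} (h : c * c + s * s = 1) (k : Fin 3) :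
    Eqv ((rt (pH D G) c s h).om k) (D.φ.pull ((rt G c s h).om k)) := by
  intro j z hz u v
  obtain ⟨i, hi⟩ := D.φ.exists_dom hz
  rw [D.φ.pull_w _ hi]
  have e : ∀ l : Fin 3, ((pH D G).om l).w j z u v = (G.om l).w i (loc C C D.φ.f i j z)
      (fderiv ℝ (loc C C D.φ.f i j) z u) (fderiv ℝ (loc C C D.φ.f i j) z v) := by
    intro l
    rw [pH_om D G l j z hz, D.φ.pull_w _ hi]
  have k1 : ((rt (pH D G) c s h).om k).w j z u v = ∑ l, R0 c s k l * ((pH D G).om l).w j z u v :=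
    F2.lin_w _ _ _ _ _ _
  have k2 : ((rt G c s h).om k).w i (loc C C D.φ.f i j z)
      (fderiv ℝ (loc C C D.φ.f i j) z u) (fderiv ℝ (loc C C D.φ.f i j) z v) =
      ∑ l, R0 c s k l * (G.om l).w i (loc C C D.φ.f i j z)
      (fderiv ℝ (loc C C D.φ.f i j) z u) (fderiv ℝ (loc C C D.φ.f i j) z v) :=
    F2.lin_w _ _ _ _ _ _
  rw [k1, k2]
  exact Finset.sum_congr rfl fun l _ => by rw [e l]

/-- **naturality of the member over `b`** -/
theorem MvN.pull (D : DifC C) {L : HkT C} {b : F2 C} {G : HkT C} (hG : MvN L b G) :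
    MvN (pH D L) b (pH D G) := by
  obtain ⟨c, s, r, t, h, hc, hr, ht, hJ, a0, a1, a2⟩ := hG
  refine ⟨c, s, r, t, h, hc, hr, ht, fun j z hz v => ?_, ?_, ?_, (pH_cl D G 2).trans a2⟩
  · obtain ⟨i, hi⟩ := D.φ.exists_dom hz
    rw [← sub_eq_zero]
    refine D.inj hi _ ?_
    rw [map_sub, pH_J D L 2 hi, rt_J2, map_add, map_smul, map_smul, pH_J D G 1 hi, pH_J D G 2 hi,
      ← rt_J2 G h, hJ i _ (D.φ.loc_mem hi), sub_self]
  · refine (rt_pH D G h 0).trans ((a0.pull D.φ).trans ((pull_smul' _ _ _).trans ?_))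
    exact eqv_smul r (pH_om D L 0).symm
  · refine (rt_pH D G h 1).trans ((a1.pull D.φ).trans ((pull_smul' _ _ _).trans ?_))
    exact eqv_smul r (pH_om D L 1).symm

end

end Crest.Agent.R281.Ch_151
end

-- ▼ part R281/Ch4_151
section

/-!
# Row 281, CHART-END (second owner, helper151), part 4: the end side

* `IsoId.of_difc`, `IsoId.difc`, `IsoId.trans`, `IsoId.congr`
* `IsoF C`       : HK-ISO in the form which is used here (139's `exists_iso_hk`)
* `nr H z hz`    : the member rotated about `om 0` : `om 1 + i om 2 = |z| σ`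
* `end_ray`      : the vertical ray through a member
* `end_move`     : the members over the circle `|τ - x₁| = y₁`: up to a diffeomorphism (trivial on
                   classes) they are moves of the first one (with fixed `J 2`)
-/

set_option autoImplicit false
set_option maxSynthPendingDepth 3
set_option linter.unusedSectionVars false

open Set Filter Topology
open scoped ContDiff

namespace Crest.Agent.R281.Ch_151

open Crest.Agent.R260.ACM_580
open Crest.Agent.R281.Ti_846 hiding pb pb_apply symm2 sm'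
open Crest.Agent.R281.Dif_268 Crest.Agent.R281.Cdr_234
open Crest.Agent.R281.HkR_835 Crest.Agent.R281.Alg_998 Crest.Agent.R281.Iso_139
open Crest.Agent.R281.NefO_476 (ofHk Pos AJ)
open Crest.Agent.R281.Nef_252 (T11 KCls Bi HolM)
open Crest.Agent.R281.RkD_902 (IsoId MemN)
open Crest.Agent.R281.NefRay_326 (rI rI_om0 rI_om1 nz2 Sc zS sc_of_at zS_sm smH_rot IsoHk QHk HEqv_rot
  Rz)

noncomputable section

variable {X : Type} [TopologicalSpace X]
variable {V : Type} [NormedAddCommGroup V] [NormedSpace ℝ V] {C : RCh V X}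

/-! ### isomorphisms which are trivial on classes -/

section isoid

variable {J J' J'' : AJ C}

theorem isoId_of {D : DifC C} (h : Holo D J J') : IsoId J J' :=
  ⟨D.φ, D.ψ, D.bi, h.holM, fun w => cl_of_coh (D.cls w)⟩

theorem isoId_dif (h : IsoId J J') : ∃ D : DifC C, Holo D J J' := by
  obtain ⟨g, k, hb, hg, hw⟩ := h
  exact ⟨⟨g, k, hb.2, hb.1, fun w => coh_sub.2 (hw w)⟩, hg.h⟩

theorem isoId_congr {J₁ J₁' : AJ C} (h : IsoId J J')
    (e : ∀ i, ∀ z ∈ (C.e i).target, ∀ v, J₁.J i z v = J.J i z v)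
    (e' : ∀ i, ∀ z ∈ (C.e i).target, ∀ v, J₁'.J i z v = J'.J i z v) : IsoId J₁ J₁' := by
  obtain ⟨g, k, hb, hg, hw⟩ := h
  refine ⟨g, k, hb, ⟨fun i j z hz v => ?_⟩, hw⟩
  rw [e j z hz.1 v, e' i _ (g.loc_mem hz) _]
  exact hg.h i j z hz v

end isoid

theorem isoId_trans {J J' J'' : AJ C} (h : IsoId J J') (h' : IsoId J' J'') : IsoId J J'' := by
  obtain ⟨D, hD⟩ := isoId_dif h
  obtain ⟨D', hD'⟩ := isoId_dif h'
  exact isoId_of (hD.trans hD')

/-- the pull back is isomorphic -/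
theorem isoId_pH (D : DifC C) (H : HkT C) (k : Fin 3) : IsoId (ofHk (pH D H) k) (ofHk H k) :=
  isoId_of (pH_holo D H k)

/-! ### HK-ISO -/

/-- HK-ISO in the form used here -/
def IsoF (C : RCh V X) : Prop :=
  ∀ K : ℝ → HkT C, SmH K → ∀ k l m : Fin 3, Cyc k l m → (∀ t, Cl ((K t).om l) ((K 0).om l)) →
    (∀ t, Cl ((K t).om m) ((K 0).om m)) →
    ∃ D : DifC C, Eqv (D.φ.pull ((K 1).om l)) ((K 0).om l) ∧
      Eqv (D.φ.pull ((K 1).om m)) ((K 0).om m) ∧ Holo D (ofHk (K 0) k) (ofHk (K 1) k)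

theorem isoF_of [FiniteDimensional ℝ V] [MeasurableSpace V] [BorelSpace V] [CompactSpace X]
    [T2Space X] [SimplyConnectedSpace X] {d : ℕ} (hNN : NNat V d) (hd : 2 ≤ d)
    (hP : PRIMVar C) (hD : DDCV C) : IsoF C := by
  intro K hK k l m hc h1 h2
  have hJ : JSH univ K := ⟨hK.om, hK.J⟩
  obtain ⟨D, e1, e2, e3⟩ := exists_iso_hk hP hD hJ (a := 0) (b := 1) (subset_univ _) hc
    (fun t _ => Crest.Agent.R281.Nef_252.ddb_hk hNN hd (K t) k)
    (fun t _ => coh_sub.2 (h1 t)) (fun t _ => coh_sub.2 (h2 t))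
  exact ⟨D, e1, e2, e3.h⟩

theorem isoHk_of (h : IsoF C) : IsoHk C := by
  intro K hK h1 h2 s t
  have hφ : ContDiff ℝ ∞ fun u : ℝ => s + u * (t - s) :=
    contDiff_const.add (contDiff_id.mul contDiff_const)
  obtain ⟨D, -, -, e3⟩ := h (fun u => K (s + u * (t - s))) (hK.reparam hφ) 0 1 2 (Or.inl rfl)
    (fun u => h1 _ _) (fun u => h2 _ _)
  have e3' : Holo D (ofHk (K (s + 0 * (t - s))) 0) (ofHk (K (s + 1 * (t - s))) 0) := e3
  rw [zero_mul, add_zero, one_mul, add_sub_cancel] at e3'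
  exact ⟨D.φ, D.ψ, D.bi, e3'.holM, fun w => cl_of_coh (D.cls w)⟩

/-! ### normalised members -/

/-- the member rotated about `om 0` by the angle of `z` -/
def nr (H : HkT C) (z : ℂ) (hz : z ≠ 0) : HkT C := rt H (z.re / ‖z‖) (z.im / ‖z‖) (nz2 hz)

section nr

variable (H : HkT C) {z : ℂ} (hz : z ≠ 0)

theorem nr_om0 : (nr H z hz).om 0 = H.om 0 := rt_om0 _ _

theorem nr_om1 : (nr H z hz).om 1 = (rI H z hz).om 0 := by
  rw [rI_om0]
  exact rt_om1 _ _

theorem nr_om2 : (nr H z hz).om 2 = (rI H z hz).om 1 := by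
  rw [rI_om1]
  exact rt_om2 _ _

theorem nr_J1 (i : C.ι) (y v : V) : (nr H z hz).J 1 i y v = (rI H z hz).J 0 i y v := by
  have e1 : (nr H z hz).J 1 i y v = (z.re / ‖z‖) • H.J 1 i y v + (z.im / ‖z‖) • H.J 2 i y v :=
    rt_J1 _ _ _ _ _
  have e2 : (rI H z hz).J 0 i y v =
      Rz z 0 0 • H.J 0 i y v + Rz z 0 1 • H.J 1 i y v + Rz z 0 2 • H.J 2 i y v := by
    show H.Jv (Rz z 0) i y v = _
    rw [HkT.Jv_apply]
  rw [e1, e2]
  simp [Rz]

end nr

variable {Q : F2 C →ₗ[ℝ] F2 C →ₗ[ℝ] ℝ} {F : Frm C Q} {A : F2 C}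

theorem heqv_rt {H H' : HkT C} (h : HEqv H H') {c s c' s' : ℝ} (k : c * c + s * s = 1)
    (k' : c' * c' + s' * s' = 1) (ec : c = c') (es : s = s') :
    HEqv (rt H c s k) (rt H' c' s' k') := by
  subst ec es
  exact HEqv_rot h _ _

theorem heqv_nr {H H' : HkT C} (h : HEqv H H') {z z' : ℂ} (hz : z ≠ 0) (hz' : z' ≠ 0)
    (e : z = z') : HEqv (nr H z hz) (nr H' z' hz') := by
  subst e
  exact heqv_rt h _ _ rfl rfl

/-- normalised members are `MemN` -/
theorem memN_nr {K : Cusp F A} {τ : ℂ} {H : HkT C} (hM : K.Mem τ H) {z : ℂ} (h : Sc F H τ z) :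
    MemN K τ (nr H z h.nz) := by
  refine ⟨⟨H, R0 (z.re / ‖z‖) (z.im / ‖z‖), fr_R0 (nz2 h.nz), hM, rfl, HEqv.refl _⟩, ‖z‖,
    norm_pos_iff.2 h.nz, ?_, ?_⟩
  · rw [nr_om1]
    exact h.cl0
  · rw [nr_om2]
    exact h.cl1

theorem smH_rt {K : ℝ → HkT C} (hK : SmH K) {c s : ℝ → ℝ} (h : ∀ t, c t * c t + s t * s t = 1)
    (hc : ContDiff ℝ ∞ c) (hs : ContDiff ℝ ∞ s) : SmH fun t => rt (K t) (c t) (s t) (h t) := by
  refine smH_rot hK (fun t => fr_R0 (h t)) fun k l => ?_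
  fin_cases k <;> fin_cases l
  · exact contDiff_const
  · exact contDiff_const
  · exact contDiff_const
  · exact contDiff_const
  · exact hc
  · exact hs
  · exact contDiff_const
  · exact hs.neg
  · exact hc

theorem smH_nr {K : ℝ → HkT C} (hK : SmH K) {a : ℝ → ℂ} (ha : ContDiff ℝ ∞ a)
    (h0 : ∀ t, a t ≠ 0) : SmH fun t => nr (K t) (a t) (h0 t) := by
  have hn : ContDiff ℝ ∞ fun t => ‖a t‖ := ha.norm ℝ h0
  exact smH_rt hK (fun t => nz2 (h0 t))
    ((Complex.reCLM.contDiff.comp ha).div hn fun t => norm_ne_zero_iff.2 (h0 t))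
    ((Complex.imCLM.contDiff.comp ha).div hn fun t => norm_ne_zero_iff.2 (h0 t))

/-! ### the vertical ray -/

/-- the vertical ray through a member, all heights `> Y` -/
theorem end_ray (hiso : IsoHk C) (hQ : QHk Q) (K : Cusp F A) {τ z : ℂ} {H : HkT C}
    (hM : K.Mem τ H) (h : Sc F H τ z) : ∃ N : ℝ → HkT C, SmH N ∧ ∀ t : ℝ,
      MemN K ⟨τ.re, K.Y + Real.exp t⟩ (N t) ∧ IsoId (ofHk (nr H z h.nz) 1) (ofHk (N t) 1) := by
  have hY := K.mem_im _ _ hM
  obtain ⟨M, L, hsm, -, hmem, hL, h0, hR⟩ := NefRay_326.exists_ray hQ K hM h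
  have hsc : ∀ t, Sc F (M t) ⟨τ.re, NefRay_326.hgt K.Y τ.im t⟩ (zS Q F (M t)) := fun t =>
    sc_of_at hQ (K.mem_at _ _ (hmem t))
  have hφ : ContDiff ℝ ∞ fun t : ℝ => t - Real.log (τ.im - K.Y) := contDiff_id.sub contDiff_const
  refine ⟨fun t => nr (M (t - Real.log (τ.im - K.Y))) (zS Q F (M (t - Real.log (τ.im - K.Y))))
    (hsc _).nz, (smH_nr hsm (zS_sm hQ hsm) fun t => (hsc t).nz).reparam hφ, fun t => ?_⟩
  set u : ℝ := t - Real.log (τ.im - K.Y) with hu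
  have hh : NefRay_326.hgt K.Y τ.im u = K.Y + Real.exp t := by
    unfold NefRay_326.hgt
    rw [hu, Real.exp_sub, Real.exp_log (by linarith)]
    field_simp [show τ.im - K.Y ≠ 0 by linarith]
  refine ⟨?_, ?_⟩
  · have h1 : ∀ hz, MemN K ⟨τ.re, NefRay_326.hgt K.Y τ.im u⟩ (nr (M u) (zS Q F (M u)) hz) :=
      fun hz => memN_nr (hmem u) (hsc u)
    rw [hh] at h1
    exact h1 _
  · obtain ⟨g, k, hb, hg, hw⟩ := hR.iso hiso 0 u
    obtain ⟨a, ha, haL⟩ := hL u
    have h1 : IsoId (ofHk (L 0) 0) (ofHk (L u) 0) := ⟨g, k, hb, hg, hw⟩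
    have hza : a = zS Q F (M u) := ha.eq_zS hQ
    refine isoId_congr h1 (fun i y hy v => ?_) (fun i y hy v => ?_)
    · show (nr H z h.nz).J 1 i y v = (L 0).J 0 i y v
      rw [nr_J1, h0.J 0 i y hy]
    · show (nr (M u) (zS Q F (M u)) (hsc u).nz).J 1 i y v = (L u).J 0 i y v
      subst hza
      rw [nr_J1, haL]

/-! ### the circle -/

section circle

variable (x1 y1 x : ℝ)

def cx (u : ℝ) : ℝ := x1 + stp u * (x - x1)

def cy (u : ℝ) : ℝ := Real.sqrt (y1 ^ 2 - (cx x1 x u - x1) ^ 2)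

theorem cx_sm : ContDiff ℝ ∞ (cx x1 x) := contDiff_const.add (stp_contDiff.mul contDiff_const)

theorem cx_sq (u : ℝ) : (cx x1 x u - x1) ^ 2 ≤ (x - x1) ^ 2 := by
  have h0 : 0 ≤ stp u := Real.smoothTransition.nonneg _
  have h1 : stp u ≤ 1 := Real.smoothTransition.le_one _
  have e : cx x1 x u - x1 = stp u * (x - x1) := by unfold cx; ring
  rw [e, mul_pow]
  have h2 : stp u ^ 2 ≤ 1 := by nlinarith
  nlinarith [sq_nonneg (x - x1)]

variable {x1 y1 x} {Y : ℝ} (h : (x - x1) ^ 2 < y1 ^ 2 - Y ^ 2)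

include h

theorem rad_gt (u : ℝ) : Y ^ 2 < y1 ^ 2 - (cx x1 x u - x1) ^ 2 := by
  have := cx_sq x1 x u
  linarith

theorem rad_pos (u : ℝ) : 0 < y1 ^ 2 - (cx x1 x u - x1) ^ 2 :=
  (sq_nonneg Y).trans_lt (rad_gt h u)

theorem cy_sm : ContDiff ℝ ∞ (cy x1 y1 x) :=
  (contDiff_const.sub (((cx_sm x1 x).sub contDiff_const).pow 2)).sqrt fun u => (rad_pos h u).ne'

theorem cy_sq (u : ℝ) : cy x1 y1 x u ^ 2 = y1 ^ 2 - (cx x1 x u - x1) ^ 2 :=
  Real.sq_sqrt (rad_pos h u).le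

theorem cy_pos (u : ℝ) : 0 < cy x1 y1 x u := Real.sqrt_pos.2 (rad_pos h u)

theorem cy_gt (u : ℝ) : Y < cy x1 y1 x u := by
  unfold cy
  exact Real.lt_sqrt_of_sq_lt (rad_gt h u)

end circle

/-- the path -/
def gam (x1 y1 x u : ℝ) : ℂ := ⟨cx x1 x u, cy x1 y1 x u⟩

theorem gam_sm {x1 y1 x Y : ℝ} (h : (x - x1) ^ 2 < y1 ^ 2 - Y ^ 2) :
    ContDiff ℝ ∞ (gam x1 y1 x) := by
  have h3 : (gam x1 y1 x) = fun t => ((cx x1 x t : ℝ) : ℂ) + ((cy x1 y1 x t : ℝ) : ℂ) * Complex.I := by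
    funext t
    exact (Complex.re_add_im (gam x1 y1 x t)).symm
  rw [h3]
  exact (Complex.ofRealCLM.contDiff.comp (cx_sm x1 x)).add
    ((Complex.ofRealCLM.contDiff.comp (cy_sm h)).mul contDiff_const)

/-- the geodesic: `Re σ_{τ'} + (x₁ - x') (v - N x' e) = Re σ_{τ₁}` for `|τ' - x₁| = y₁` -/
theorem sre_circle {x1 y1 x' y' : ℝ} (h : y' ^ 2 = y1 ^ 2 - (x' - x1) ^ 2) :
    y' • F.sre ⟨x', y'⟩ - (x' - x1) • F.sim ⟨x', y'⟩ = y' • F.sre ⟨x1, y1⟩ := by
  unfold Frm.sre Frm.sim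
  simp only [h]
  module

theorem circle_one {x1 y1 x' y' : ℝ} (h : y' ^ 2 = y1 ^ 2 - (x' - x1) ^ 2) (hy : 0 < y1) :
    y' / y1 * (y' / y1) + -(x' - x1) / y1 * (-(x' - x1) / y1) = 1 := by
  field_simp
  linarith

/-- **the members over the circle are moves of the first one**, up to a diffeomorphism -/
theorem end_move (hiso : IsoF C) (hQ : QHk Q) (K : Cusp F A) {τ1 z1 : ℂ} {H1 : HkT C}
    (hM : K.Mem τ1 H1) (h1 : Sc F H1 τ1 z1) {x : ℝ}
    (hx : (x - τ1.re) ^ 2 < τ1.im ^ 2 - K.Y ^ 2) :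
    ∃ (M : HkT C) (y : ℝ) (z : ℂ) (hz : Sc F M ⟨x, y⟩ z) (D : DifC C), K.Mem ⟨x, y⟩ M ∧
      MvN (nr H1 z1 h1.nz) (F.v - (F.N * x) • F.e) (pH D (nr M z hz.nz)) := by
  have hy1 : 0 < τ1.im := K.hY.trans (K.mem_im _ _ hM)
  have hg0 : gam τ1.re τ1.im x 0 = τ1 := by
    apply Complex.ext
    · show cx τ1.re x 0 = τ1.re
      unfold cx
      rw [stp_zero (by norm_num)]
      ring
    · show cy τ1.re τ1.im x 0 = τ1.im
      unfold cy cx
      rw [stp_zero (by norm_num), zero_mul, add_zero, sub_self]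
      simpa using Real.sqrt_sq hy1.le
  have hx1 : cx τ1.re x 1 = x := by
    unfold cx
    rw [stp_one (by norm_num)]
    ring
  obtain ⟨M, hsm, h0, hmem⟩ := K.lift τ1 H1 hM (gam τ1.re τ1.im x) (gam_sm hx)
    (fun u => cy_gt hx u) hg0
  have hsc : ∀ u, Sc F (M u) (gam τ1.re τ1.im x u) (zS Q F (M u)) := fun u =>
    sc_of_at hQ (K.mem_at _ _ (hmem u))
  have hat : ∀ u, AtTau F A (M u) (gam τ1.re τ1.im x u) := fun u => K.mem_at _ _ (hmem u)
  have hcs : ∀ u, cy τ1.re τ1.im x u / τ1.im * (cy τ1.re τ1.im x u / τ1.im) +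
      -(cx τ1.re x u - τ1.re) / τ1.im * (-(cx τ1.re x u - τ1.re) / τ1.im) = 1 := fun u =>
    circle_one (cy_sq hx u) hy1
  set N : ℝ → HkT C := fun u => nr (M u) (zS Q F (M u)) (hsc u).nz with hN
  have hNs : SmH N := smH_nr hsm (zS_sm hQ hsm) fun u => (hsc u).nz
  set P : ℝ → HkT C := fun u => rt (N u) (cy τ1.re τ1.im x u / τ1.im)
    (-(cx τ1.re x u - τ1.re) / τ1.im) (hcs u) with hP
  have hPs : SmH P := smH_rt hNs hcs ((cy_sm hx).div_const _)
    (((cx_sm _ _).sub contDiff_const).neg.div_const _)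
  have c0 : ∀ u, Cl ((P u).om 0) A := fun u => by
    have e : (P u).om 0 = (M u).om 0 := (rt_om0 _ _).trans (nr_om0 _ _)
    rw [e]
    exact (hat u).om0
  have n1 : ∀ u, Cl ((N u).om 1) (‖zS Q F (M u)‖ • F.sre (gam τ1.re τ1.im x u)) := fun u => by
    have e : (N u).om 1 = (rI (M u) _ (hsc u).nz).om 0 := nr_om1 _ _
    rw [e]
    exact (hsc u).cl0
  have n2 : ∀ u, Cl ((N u).om 2) (‖zS Q F (M u)‖ • F.sim (gam τ1.re τ1.im x u)) := fun u => by
    have e : (N u).om 2 = (rI (M u) _ (hsc u).nz).om 1 := nr_om2 _ _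
    rw [e]
    exact (hsc u).cl1
  have c1 : ∀ u, Cl ((P u).om 1) ((Real.sqrt (Q A A / F.N) / τ1.im) • F.sre ⟨τ1.re, τ1.im⟩) := by
    intro u
    have e : (P u).om 1 = (cy τ1.re τ1.im x u / τ1.im) • (N u).om 1 +
        (-(cx τ1.re x u - τ1.re) / τ1.im) • (N u).om 2 := rt_om1 _ _
    rw [e]
    refine (((n1 u).smul _).add ((n2 u).smul _)).trans (NefRay_326.cl_of_eq ?_)
    have e1 := sre_circle (F := F) (cy_sq hx u)
    have e2 : ‖zS Q F (M u)‖ * cy τ1.re τ1.im x u = Real.sqrt (Q A A / F.N) :=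
      (hsc u).norm_z hQ (hat u).om0 (cy_pos hx u)
    have e3 : (cy τ1.re τ1.im x u / τ1.im) • (‖zS Q F (M u)‖ • F.sre (gam τ1.re τ1.im x u)) +
        (-(cx τ1.re x u - τ1.re) / τ1.im) • (‖zS Q F (M u)‖ • F.sim (gam τ1.re τ1.im x u)) =
        (‖zS Q F (M u)‖ / τ1.im) • (cy τ1.re τ1.im x u • F.sre (gam τ1.re τ1.im x u) -
          (cx τ1.re x u - τ1.re) • F.sim (gam τ1.re τ1.im x u)) := by
      module
    rw [e3]
    show (‖zS Q F (M u)‖ / τ1.im) • (cy τ1.re τ1.im x u • F.sre ⟨cx τ1.re x u, cy τ1.re τ1.im x u⟩ -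
          (cx τ1.re x u - τ1.re) • F.sim ⟨cx τ1.re x u, cy τ1.re τ1.im x u⟩) = _
    rw [e1, smul_smul, ← e2]
    congr 1
    ring
  obtain ⟨D, d0, d1, -⟩ := hiso P hPs 2 0 1 (Or.inr (Or.inr rfl))
    (fun u => (c0 u).trans (c0 0).symm) (fun u => (c1 u).trans (c1 0).symm)
  -- the start
  have hP0 : HEqv (P 0) (nr H1 z1 h1.nz) := by
    have hz : zS Q F (M 0) = z1 := by
      have e2 := h1.eq_zS hQ
      rw [e2]
      have hc : ∀ k, Cl ((M 0).om k) (H1.om k) := fun k =>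
        Cl.of_eq_on fun i y hy => h0.om k i y hy
      apply Complex.ext
      · exact hQ.cl (hc 1) F.e
      · exact hQ.cl (hc 2) F.e
    have e1 : cy τ1.re τ1.im x 0 = τ1.im := congrArg Complex.im hg0
    have e2 : cx τ1.re x 0 = τ1.re := congrArg Complex.re hg0
    have h2 : HEqv (N 0) (nr H1 z1 h1.nz) := heqv_nr h0 _ _ hz
    refine (heqv_rt h2 (c' := 1) (s' := 0) _ (by norm_num) ?_ ?_).trans ?_
    · rw [e1, div_self hy1.ne']
    · rw [e2, sub_self, neg_zero, zero_div]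
    · refine ⟨fun k i y _ => ?_, fun k i y _ => ?_, fun i y _ => rfl⟩
      · have e : (rt (nr H1 z1 h1.nz) 1 0 (by norm_num)).om k = (nr H1 z1 h1.nz).om k := by
          fin_cases k
          · exact rt_om0 _ _
          · exact (rt_om1 _ _).trans (by rw [one_smul, zero_smul, add_zero]; rfl)
          · exact (rt_om2 _ _).trans (by rw [one_smul, neg_zero, zero_smul, zero_add]; rfl)
        rw [e]
      · ext v
        fin_cases k
        · exact rt_J0 _ _ _ _ _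
        · exact (rt_J1 _ _ _ _ _).trans (by rw [one_smul, zero_smul, add_zero]; rfl)
        · exact (rt_J2 _ _ _ _ _).trans (by rw [one_smul, neg_zero, zero_smul, zero_add]; rfl)
  have q0 : Eqv ((P 0).om 0) ((nr H1 z1 h1.nz).om 0) := fun i y hy u v => by
    rw [hP0.om 0 i y hy]
  have q1 : Eqv ((P 0).om 1) ((nr H1 z1 h1.nz).om 1) := fun i y hy u v => by
    rw [hP0.om 1 i y hy]
  -- the end
  have hg1 : gam τ1.re τ1.im x 1 = ⟨x, cy τ1.re τ1.im x 1⟩ := by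
    apply Complex.ext
    · exact hx1
    · rfl
  have hm1 := hmem 1
  have hs1 := hsc 1
  rw [hg1] at hm1 hs1
  have o1 : Eqv ((rt (pH D (N 1)) _ _ (hcs 1)).om 0) ((nr H1 z1 h1.nz).om 0) :=
    ((rt_pH D (N 1) (hcs 1) 0).trans d0).trans q0
  have o2 : Eqv ((rt (pH D (N 1)) _ _ (hcs 1)).om 1) ((nr H1 z1 h1.nz).om 1) :=
    ((rt_pH D (N 1) (hcs 1) 1).trans d1).trans q1
  refine ⟨M 1, cy τ1.re τ1.im x 1, zS Q F (M 1), hs1, D, hm1, cy τ1.re τ1.im x 1 / τ1.im,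
    -(cx τ1.re x 1 - τ1.re) / τ1.im, 1, Real.sqrt (Q A A / F.N), hcs 1,
    div_pos (cy_pos hx 1) hy1, one_pos, ?_, ?_, ?_, ?_, ?_⟩
  · rw [← (hsc 1).norm_z hQ (hat 1).om0 (cy_pos hx 1)]
    exact mul_pos (norm_pos_iff.2 (hsc 1).nz) (cy_pos hx 1)
  · exact J_of_om (k := 2) (l := 0) (m := 1) (Or.inr (Or.inr rfl)) (r := 1) one_ne_zero
      (o1.trans (eqv_of_eq (one_smul ℝ _).symm)) (o2.trans (eqv_of_eq (one_smul ℝ _).symm))
  · exact o1.trans (eqv_of_eq (one_smul ℝ _).symm)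
  · exact o2.trans (eqv_of_eq (one_smul ℝ _).symm)
  · refine (pH_cl D (N 1) 2).trans ?_
    have e : (N 1).om 2 = (rI (M 1) _ hs1.nz).om 1 := nr_om2 _ _
    rw [e]
    exact hs1.cl1' hQ (hat 1).om0 (cy_pos hx 1)

end

end Crest.Agent.R281.Ch_151
end

-- ▼ part R281/Ch5_151
section

/-!
# Row 281, CHART-END (second owner, helper151), part 5: `Iso2` (551) and rotations, moves, pull backs

* `iso2_rot`, `iso2_smulP`, `iso2_heqv`, `iso2_sameTw`, `iso2_pH`
* `Mv2 L K`        : `K` is a move of `L` with fixed `J 2`;  `Has K b` : `b ∼ s om 2 + q om 0`, `s > 0`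
* `Mv2.uniq`       : uniqueness up to scaling
* `isoId_of_iso2`  : chart frame `(κ, A, b)`, end frame `(A, κ, -b)`
-/

set_option autoImplicit false
set_option maxSynthPendingDepth 3
set_option linter.unusedSectionVars false

open Set Filter Topology
open scoped ContDiff

namespace Crest.Agent.R281.Ch_151

open Crest.Agent.R260.ACM_580
open Crest.Agent.R281.Ti_846 hiding pb pb_apply symm2 sm'
open Crest.Agent.R281.Dif_268 Crest.Agent.R281.Cdr_234
open Crest.Agent.R281.HkR_835 Crest.Agent.R281.Alg_998 Crest.Agent.R281.Iso_139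
open Crest.Agent.R281.NefO_476 (ofHk Pos AJ)
open Crest.Agent.R281.Nef_252 (T11 KCls Bi HolM)
open Crest.Agent.R281.RkD_902 (IsoId MemN SameTw)
open Crest.Agent.R281.Ce_551 (Rp Iso2 QHk lin_eqv lin3_w lin3_eq cl_eqv)
open Crest.Agent.R281.Sta2_684 (smulP)

noncomputable section

variable {X : Type} [TopologicalSpace X]
variable {V : Type} [NormedAddCommGroup V] [NormedSpace ℝ V] {C : RCh V X}
variable {a b : F2 C} {G H H' : HkT C} {x y : Fin 3 → ℝ}

/-! ### rotations -/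

/-- the rotated coordinates -/
def rc (R : Fin 3 → Fin 3 → ℝ) (x : Fin 3 → ℝ) : Fin 3 → ℝ := fun k => ∑ l, R k l * x l

theorem tr_mul {R : Fin 3 → Fin 3 → ℝ} (hR : HkT.Fr R) (m l : Fin 3) :
    ∑ k, R k m * R k l = if m = l then 1 else 0 := by
  have h := congrFun (congrFun (Crest.Agent.R281.Tw_327.mulR_tr hR) m) l
  exact h

theorem lin_rot (H : HkT C) {R : Fin 3 → Fin 3 → ℝ} (hR : HkT.Fr R) (x : Fin 3 → ℝ) :
    Eqv (F2.lin (rc R x) (H.rot R hR).om) (F2.lin x H.om) := by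
  intro i z hz u v
  rw [F2.lin_w, F2.lin_w]
  have e : ∀ k, ((H.rot R hR).om k).w i z u v = ∑ m, R k m * (H.om m).w i z u v := fun k =>
    F2.lin_w _ _ _ _ _ _
  calc ∑ k, rc R x k * ((H.rot R hR).om k).w i z u v
      = ∑ k, ∑ l, ∑ m, (R k m * R k l) * (x l * (H.om m).w i z u v) := by
        refine Finset.sum_congr rfl fun k _ => ?_
        rw [e, rc, Finset.sum_mul]
        refine Finset.sum_congr rfl fun l _ => ?_
        rw [Finset.mul_sum]
        exact Finset.sum_congr rfl fun m _ => by ring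
    _ = ∑ l, ∑ m, (∑ k, R k m * R k l) * (x l * (H.om m).w i z u v) := by
        rw [Finset.sum_comm]
        refine Finset.sum_congr rfl fun l _ => ?_
        rw [Finset.sum_comm]
        exact Finset.sum_congr rfl fun m _ => by rw [Finset.sum_mul]
    _ = ∑ l, x l * (H.om l).w i z u v := by
        refine Finset.sum_congr rfl fun l _ => ?_
        simp only [tr_mul hR]
        simp

theorem iso2_rot {R : Fin 3 → Fin 3 → ℝ} (hR : HkT.Fr R) (h1 : Rp H a x) (h2 : Rp H b y) :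
    Iso2 a b H (H.rot R hR) :=
  .of_eqv h1 (h1.trans (cl_eqv (lin_rot H hR x).symm)) h2
    (h2.trans (cl_eqv (lin_rot H hR y).symm)) (lin_rot H hR x) (lin_rot H hR y)

theorem lin_smulP (H : HkT C) {t : ℝ} (ht : 0 < t) (x : Fin 3 → ℝ) :
    Eqv (F2.lin (fun k => x k / t) (smulP t ht H).om) (F2.lin x H.om) := by
  intro i z hz u v
  rw [F2.lin_w, F2.lin_w]
  refine Finset.sum_congr rfl fun k _ => ?_
  show x k / t * (t * (H.om k).w i z u v) = _
  field_simp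

theorem iso2_smulP {t : ℝ} (ht : 0 < t) (h1 : Rp H a x) (h2 : Rp H b y) :
    Iso2 a b H (smulP t ht H) :=
  .of_eqv h1 (h1.trans (cl_eqv (lin_smulP H ht x).symm)) h2
    (h2.trans (cl_eqv (lin_smulP H ht y).symm)) (lin_smulP H ht x) (lin_smulP H ht y)

theorem lin_heqv (h : HEqv H H') (x : Fin 3 → ℝ) : Eqv (F2.lin x H'.om) (F2.lin x H.om) :=
  lin_eqv x fun k i z hz u v => by rw [h.om k i z hz]

theorem iso2_heqv (h : HEqv H H') (h1 : Rp H a x) (h2 : Rp H b y) : Iso2 a b H H' :=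
  .of_eqv h1 (h1.trans (cl_eqv (lin_heqv h x).symm)) h2
    (h2.trans (cl_eqv (lin_heqv h y).symm)) (lin_heqv h x) (lin_heqv h y)

/-- coordinates at the second structure -/
theorem iso2_rp (h : Iso2 a b H H') : ∃ x y, Rp H' a x ∧ Rp H' b y := by
  obtain ⟨φ, ψ, x, x', y, y', -, -, -, h2, -, h4, -, -⟩ := h
  exact ⟨x', y', h2, h4⟩

variable {Q : F2 C →ₗ[ℝ] F2 C →ₗ[ℝ] ℝ}

theorem iso2_sameTw (hQ : QHk C Q) (ha : 0 < Q a a) (h : SameTw G H) (h1 : Rp G a x)
    (h2 : Rp G b y) : Iso2 a b G H := by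
  obtain ⟨R, hR, t, ht, he⟩ := h
  have k1 := iso2_rot hR h1 h2
  obtain ⟨x', y', e1, e2⟩ := iso2_rp k1
  have k2 := iso2_smulP ht e1 e2
  obtain ⟨x'', y'', f1, f2⟩ := iso2_rp k2
  exact (k1.trans hQ ha k2).trans hQ ha (iso2_heqv he f1 f2)

theorem lin_pH (D : DifC C) (H : HkT C) (x : Fin 3 → ℝ) :
    Eqv (F2.lin x (pH D H).om) (D.φ.pull (F2.lin x H.om)) := by
  intro j z hz u v
  obtain ⟨i, hi⟩ := D.φ.exists_dom hz
  rw [D.φ.pull_w _ hi, F2.lin_w, F2.lin_w]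
  refine Finset.sum_congr rfl fun k _ => ?_
  rw [pH_om D H k j z hz, D.φ.pull_w _ hi]

theorem iso2_pH (D : DifC C) (h1 : Rp H a x) (h2 : Rp H b y) : Iso2 a b (pH D H) H := by
  refine ⟨D.φ, D.ψ, x, x, y, y, D.bi, fun w => cl_of_coh (D.cls w), ?_, h1, ?_, h2,
    (lin_pH D H x).symm, (lin_pH D H y).symm⟩
  · exact h1.trans ((cl_of_coh (D.cls _)).symm.trans (cl_eqv (lin_pH D H x)).symm)
  · exact h2.trans ((cl_of_coh (D.cls _)).symm.trans (cl_eqv (lin_pH D H y)).symm)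

/-! ### moves with fixed `J 2` -/

/-- `K` is a move of `L` with fixed `J 2` -/
def Mv2 (L K : HkT C) : Prop :=
  ∃ r : ℝ, 0 < r ∧ Eqv (K.om 0) (r • L.om 0) ∧ Eqv (K.om 1) (r • L.om 1)

/-- `b` is in the half plane of `om 2`, `om 0` -/
def Has (K : HkT C) (b : F2 C) : Prop :=
  ∃ s q : ℝ, 0 < s ∧ Cl b (s • K.om 2 + q • K.om 0)

theorem Mv2.trans {L K M : HkT C} (h : Mv2 L K) (h' : Mv2 K M) : Mv2 L M := by
  obtain ⟨r, hr, e0, e1⟩ := h
  obtain ⟨r', hr', e0', e1'⟩ := h'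
  refine ⟨r' * r, mul_pos hr' hr, ?_, ?_⟩
  · rw [mul_smul]
    exact e0'.trans (eqv_smul r' e0)
  · rw [mul_smul]
    exact e1'.trans (eqv_smul r' e1)

/-- **uniqueness of the move** -/
theorem Mv2.uniq [FiniteDimensional ℝ V] [T2Space X] [CompactSpace X] [ConnectedSpace X]
    {d : ℕ} (hd : 2 ≤ d) (hNN : NNat V d) (hQ : QHk C Q) {L K K' : HkT C}
    (hL : Q (L.om 0) (L.om 0) ≠ 0) (h : Mv2 L K) (h' : Mv2 L K') (hb : Has K b) (hb' : Has K' b) :
    ∃ (l : ℝ) (hl : 0 < l), HEqv (scl K l hl) K' := by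
  obtain ⟨r, hr, e0, e1⟩ := h
  obtain ⟨r', hr', e0', e1'⟩ := h'
  obtain ⟨s, q, hs, c⟩ := hb
  obtain ⟨s', q', hs', c'⟩ := hb'
  have o : Q (K.om 2) (L.om 0) = 0 := by
    have e := hQ.ort K 0 2 (by decide)
    rw [hQ.cl_left (cl_eqv e0), map_smul, LinearMap.smul_apply, smul_eq_mul, hQ.symm] at e
    exact (mul_eq_zero.1 e).resolve_left hr.ne'
  have o' : Q (K'.om 2) (L.om 0) = 0 := by
    have e := hQ.ort K' 0 2 (by decide)
    rw [hQ.cl_left (cl_eqv e0'), map_smul, LinearMap.smul_apply, smul_eq_mul, hQ.symm] at e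
    exact (mul_eq_zero.1 e).resolve_left hr'.ne'
  have d1 : Cl b (s • K.om 2 + (q * r) • L.om 0) := c.trans (Cl.add (Cl.refl _) (by
    rw [mul_smul]
    exact Cl.smul q (cl_eqv e0)))
  have d2 : Cl b (s' • K'.om 2 + (q' * r') • L.om 0) := c'.trans (Cl.add (Cl.refl _) (by
    rw [mul_smul]
    exact Cl.smul q' (cl_eqv e0')))
  have e : q * r = q' * r' := by
    have f1 := hQ.cl_left d1 (L.om 0)
    have f2 := hQ.cl_left d2 (L.om 0)
    simp only [map_add, map_smul, LinearMap.add_apply, LinearMap.smul_apply, smul_eq_mul, o, o',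
      mul_zero, zero_add] at f1 f2
    exact mul_right_cancel₀ hL (f1.symm.trans f2)
  have g1 : Cl (s • K.om 2) (s' • K'.om 2) := by
    have h1 := Cl.add (d1.symm.trans d2) (Cl.refl (-(q * r) • L.om 0))
    have h2 : s • K.om 2 + (q * r) • L.om 0 + -(q * r) • L.om 0 = s • K.om 2 := by module
    have h3 : s' • K'.om 2 + (q' * r') • L.om 0 + -(q * r) • L.om 0 = s' • K'.om 2 := by
      rw [e]
      module
    rwa [h2, h3] at h1
  set l : ℝ := s / s' with hl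
  have hl0 : 0 < l := div_pos hs hs'
  have g2 : Cl (K'.om 2) (l • K.om 2) := by
    have h1 := Cl.smul s'⁻¹ g1.symm
    rw [smul_smul, inv_mul_cancel₀ hs'.ne', one_smul, smul_smul] at h1
    rw [hl, div_eq_inv_mul]
    exact h1
  have hJ : ∀ i, ∀ z ∈ (C.e i).target, ∀ v, K'.J 2 i z v = K.J 2 i z v := by
    refine J_of_om (k := 2) (l := 0) (m := 1) (Or.inr (Or.inr rfl)) (r := r' / r)
      (div_pos hr' hr).ne' ?_ ?_
    · intro i z hz u v
      have h1 := e0 i z hz u v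
      have h2 := e0' i z hz u v
      show (K'.om 0).w i z u v = r' / r * (K.om 0).w i z u v
      rw [h1, h2]
      show r' * (L.om 0).w i z u v = r' / r * (r * (L.om 0).w i z u v)
      field_simp
    · intro i z hz u v
      have h1 := e1 i z hz u v
      have h2 := e1' i z hz u v
      show (K'.om 1).w i z u v = r' / r * (K.om 1).w i z u v
      rw [h1, h2]
      show r' * (L.om 1).w i z u v = r' / r * (r * (L.om 1).w i z u v)
      field_simp
  refine ⟨l, hl0, (uniq_move2 hd hNN (scl K l hl0) K' hJ (r := r' / (r * l))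
    (by positivity) ?_ ?_ g2).2⟩
  · intro i z hz u v
    have h1 := e0 i z hz u v
    have h2 := e0' i z hz u v
    show (K'.om 0).w i z u v = r' / (r * l) * (l * (K.om 0).w i z u v)
    rw [h1, h2]
    show r' * (L.om 0).w i z u v = r' / (r * l) * (l * (r * (L.om 0).w i z u v))
    field_simp
  · intro i z hz u v
    have h1 := e1 i z hz u v
    have h2 := e1' i z hz u v
    show (K'.om 1).w i z u v = r' / (r * l) * (l * (K.om 1).w i z u v)
    rw [h1, h2]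
    show r' * (L.om 1).w i z u v = r' / (r * l) * (l * (r * (L.om 1).w i z u v))
    field_simp

theorem heqv_smulP_scl (H : HkT C) {t : ℝ} (ht : 0 < t) : HEqv (smulP t ht H) (scl H t ht) :=
  ⟨fun _ _ _ _ => rfl, fun _ _ _ _ => rfl, fun _ _ _ => rfl⟩

theorem Mv2.iso2 [FiniteDimensional ℝ V] [T2Space X] [CompactSpace X] [ConnectedSpace X]
    {d : ℕ} (hd : 2 ≤ d) (hNN : NNat V d) (hQ : QHk C Q) (ha : 0 < Q a a) {c : F2 C}
    {L K K' : HkT C}
    (hL : Q (L.om 0) (L.om 0) ≠ 0) (h : Mv2 L K) (h' : Mv2 L K') (hb : Has K c) (hb' : Has K' c)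
    (h1 : Rp K a x) (h2 : Rp K b y) : Iso2 a b K K' := by
  obtain ⟨l, hl, he⟩ := Mv2.uniq hd hNN hQ hL h h' hb hb'
  have k2 := iso2_smulP hl h1 h2
  obtain ⟨x'', y'', f1, f2⟩ := iso2_rp k2
  exact k2.trans hQ ha (iso2_heqv ((heqv_smulP_scl K hl).trans he) f1 f2)

end

end Crest.Agent.R281.Ch_151
end

-- ▼ part R281/Ch6_151
section

/-!
# Row 281, CHART-END (second owner, helper151), part 6

* `isoId_of_iso2`  : `Iso2 A b` between a chart member `(κ, A, b)` and an end member `(A, κ, -b)`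
                     gives `IsoId` of `J 0` and `J 1`
* `sw H`           : the frame `(om 1, om 0, -om 2)`
* `leg_iso`        : a leg of constant real part is isotopic (fixed `om 0`, `om 2`)
* `end_half`       : the member over `x` is (Iso2) the move of `sw (D^* L¹)`
-/

set_option autoImplicit false
set_option maxSynthPendingDepth 3
set_option linter.unusedSectionVars false

open Set Filter Topology
open scoped ContDiff

namespace Crest.Agent.R281.Ch_151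

open Crest.Agent.R260.ACM_580
open Crest.Agent.R281.Ti_846 hiding pb pb_apply symm2 sm'
open Crest.Agent.R281.Dif_268 Crest.Agent.R281.Cdr_234
open Crest.Agent.R281.HkR_835 Crest.Agent.R281.Alg_998 Crest.Agent.R281.Iso_139
open Crest.Agent.R281.NefO_476 (ofHk Pos AJ)
open Crest.Agent.R281.Nef_252 (T11 KCls Bi HolM)
open Crest.Agent.R281.RkD_902 (IsoId MemN SameTw)
open Crest.Agent.R281.Ce_551 (Rp Iso2 lin_eqv lin3_w lin3_eq cl_eqv)
open Crest.Agent.R281.Sta2_684 (smulP)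
open Crest.Agent.R281.NefRay_326 (rI rI_om0 rI_om1 nz2 Sc zS sc_of_at zS_sm smH_rot IsoHk HEqv_rot)

noncomputable section

variable {X : Type} [TopologicalSpace X]
variable {V : Type} [NormedAddCommGroup V] [NormedSpace ℝ V] {C : RCh V X}
variable {a b : F2 C} {Q : F2 C →ₗ[ℝ] F2 C →ₗ[ℝ] ℝ}

theorem rp3 {H : HkT C} {c : F2 C} {x0 x1 x2 : ℝ}
    (h : Cl c (x0 • H.om 0 + x1 • H.om 1 + x2 • H.om 2)) : Rp H c ![x0, x1, x2] := by
  unfold Rp
  rw [lin3_eq]
  exact h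

/-- the class `s a` in one slot -/
theorem rp_one {H : HkT C} {c : F2 C} {k : Fin 3} {s : ℝ} (hs : s ≠ 0) (h : Cl (H.om k) (s • c)) :
    Rp H c (Pi.single k s⁻¹) := by
  unfold Rp
  have e : F2.lin (Pi.single k s⁻¹) H.om = s⁻¹ • H.om k := by
    rw [lin3_eq]
    fin_cases k <;> simp
  rw [e]
  have h1 := Cl.smul s⁻¹ h
  rw [smul_smul, inv_mul_cancel₀ hs, one_smul] at h1
  exact h1.symm

theorem lin_single_w {om : Fin 3 → F2 C} {k : Fin 3} {s : ℝ} (i : C.ι) (z u v : V) :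
    (F2.lin (Pi.single k s) om).w i z u v = s * (om k).w i z u v := by
  rw [lin3_w]
  fin_cases k <;> simp

/-- **`Iso2` of a chart member and an end member** -/
theorem isoId_of_iso2 (hQ : Ce_551.QHk C Q) (ha : 0 < Q a a) {HB N : HkT C} {s s' α t : ℝ}
    (hs : 0 < s) (hs' : 0 < s') (hα : 0 < α) (ht : 0 < t) (c1 : Cl (HB.om 1) (s • a))
    (c2 : Cl (HB.om 2) (s' • b)) (n0 : Cl (N.om 0) (α • a)) (n2 : Cl (N.om 2) ((-t) • b))
    (h : Iso2 a b HB N) : IsoId (ofHk HB 0) (ofHk N 1) := by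
  obtain ⟨φ, ψ, x, x', y, y', hbi, hc, h1, h2, h3, h4, e1, e2⟩ := h
  have q0 : 0 < Q (HB.om 0) (HB.om 0) := hQ.rp_pos h1 ha
  have q0' : 0 < Q (N.om 0) (N.om 0) := hQ.rp_pos h2 ha
  obtain rfl := hQ.rp_uniq q0 h1 (rp_one hs.ne' c1)
  obtain rfl := hQ.rp_uniq q0 h3 (rp_one hs'.ne' c2)
  obtain rfl := hQ.rp_uniq q0' h2 (rp_one hα.ne' n0)
  obtain rfl := hQ.rp_uniq q0' h4 (rp_one (neg_ne_zero.2 ht.ne') n2)
  set D : DifC C := ⟨φ, ψ, hbi.kg, hbi.gk, fun w => coh_sub.2 (hc w)⟩ with hD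
  set P := pH D N with hP
  have p0 : Eqv (P.om 0) ((α / s) • HB.om 1) := by
    intro i z hz u v
    have k1 := ((lin_pH D N _).trans e1) i z hz u v
    rw [lin_single_w, lin_single_w] at k1
    show (P.om 0).w i z u v = α / s * (HB.om 1).w i z u v
    field_simp at k1 ⊢
    linarith
  have p2 : Eqv (P.om 2) ((-(t / s')) • HB.om 2) := by
    intro i z hz u v
    have k1 := ((lin_pH D N _).trans e2) i z hz u v
    rw [lin_single_w, lin_single_w] at k1
    show (P.om 2).w i z u v = -(t / s') * (HB.om 2).w i z u v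
    field_simp at k1 ⊢
    linarith
  have hr : α / s = t / s' := by
    have k1 := hQ.nrm P 2
    rw [hQ.cl_left (cl_eqv p0), hQ.cl_right (cl_eqv p0), hQ.cl_left (cl_eqv p2),
      hQ.cl_right (cl_eqv p2)] at k1
    simp only [map_smul, LinearMap.smul_apply, smul_eq_mul, hQ.nrm HB 1, hQ.nrm HB 2] at k1
    have k2 : (t / s') ^ 2 * Q (HB.om 0) (HB.om 0) = (α / s) ^ 2 * Q (HB.om 0) (HB.om 0) := by
      nlinarith [k1]
    have k3 := mul_right_cancel₀ q0.ne' k2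
    exact ((pow_left_inj₀ (by positivity) (by positivity) two_ne_zero).1 k3).symm
  rw [← hr] at p2
  have hrp : 0 < α / s := div_pos hα hs
  have hJ : ∀ i, ∀ z ∈ (C.e i).target, ∀ v, HB.J 0 i z v = P.J 1 i z v := by
    intro i z hz v
    rw [← sub_eq_zero]
    refine HB.nondeg 1 hz _ fun u => ?_
    have k1 := (HB.om_J (Or.inl rfl) hz v u).1
    have k2 := (P.om_J (k := 1) (l := 2) (m := 0) (Or.inr (Or.inl rfl)) hz v u).2
    have k3 : (P.om 0).w i z (P.J 1 i z v) u = α / s * (HB.om 1).w i z (P.J 1 i z v) u :=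
      p0 i z hz _ _
    have k4 : (P.om 2).w i z v u = -(α / s) * (HB.om 2).w i z v u := p2 i z hz _ _
    rw [k3, k4] at k2
    rw [map_sub, sub_apply, k1]
    have k5 : α / s * (-(HB.om 2).w i z v u - (HB.om 1).w i z (P.J 1 i z v) u) = 0 := by linarith
    exact (mul_eq_zero.1 k5).resolve_left hrp.ne'
  exact isoId_congr (isoId_pH D N 1) hJ fun _ _ _ _ => rfl

/-! ### the frame `(om 1, om 0, -om 2)` -/

/-- the frame -/
def Sw : Fin 3 → Fin 3 → ℝ := ![![0, 1, 0], ![1, 0, 0], ![0, 0, -1]]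

theorem fr_Sw : HkT.Fr Sw where
  nrm k := by fin_cases k <;> simp [Sw]
  ort := by simp [Sw]
  crs := by
    funext k
    fin_cases k <;> simp [Sw]

/-- the frame `(om 1, om 0, -om 2)` -/
def sw (H : HkT C) : HkT C := H.rot Sw fr_Sw

theorem sw_om0 (H : HkT C) : (sw H).om 0 = H.om 1 := by
  show F2.lin (Sw 0) H.om = _
  rw [lin3_eq]
  simp [Sw]

theorem sw_om1 (H : HkT C) : (sw H).om 1 = H.om 0 := by
  show F2.lin (Sw 1) H.om = _
  rw [lin3_eq]
  simp [Sw]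

theorem sw_om2 (H : HkT C) : (sw H).om 2 = (-1 : ℝ) • H.om 2 := by
  show F2.lin (Sw 2) H.om = _
  rw [lin3_eq]
  simp [Sw]

/-! ### the leg -/

variable {F : Frm C Q} {A : F2 C}

theorem zS_congr (hQ : NefRay_326.QHk Q) {H H' : HkT C} (h : HEqv H H') :
    zS Q F H = zS Q F H' := by
  have hc : ∀ k, Cl (H.om k) (H'.om k) := fun k => Cl.of_eq_on fun i y hy => h.om k i y hy
  apply Complex.ext
  · exact hQ.cl (hc 1) F.e
  · exact hQ.cl (hc 2) F.e

/-- **a leg of constant real part**: isotopic, with fixed `om 0`, `om 2` -/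
theorem leg_iso (hiso : IsoF C) (hQ : NefRay_326.QHk Q) {S : Set ℂ} {H' H1 : HkT C} {x1 : ℝ}
    (hl : Leg F A S H' H1) (hre : ∀ τ ∈ S, τ.re = x1 ∧ 0 < τ.im) {z : ℝ} (hz : 0 < z) {τ0 : ℂ}
    (p1 : Cl (H'.om 1) (z • F.sre τ0)) (p2 : Cl (H'.om 2) (z • F.sim τ0)) {τ1 z1 : ℂ}
    (h1 : Sc F H1 τ1 z1) : ∃ D : DifC C, Eqv ((pH D (nr H1 z1 h1.nz)).om 0) (H'.om 0) ∧
      Eqv ((pH D (nr H1 z1 h1.nz)).om 2) (H'.om 2) := by
  obtain ⟨K, τ, hK, hτ, hS, hat, h0, h1'⟩ := hl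
  have hsc : ∀ t, Sc F (K t) (τ t) (zS Q F (K t)) := fun t => sc_of_at hQ (hat t)
  set N : ℝ → HkT C := fun t => nr (K t) (zS Q F (K t)) (hsc t).nz with hN
  have hNs : SmH N := smH_nr hK (zS_sm hQ hK) fun t => (hsc t).nz
  have c2 : ∀ t, Cl ((N t).om 2) (Real.sqrt (Q A A / F.N) • (F.v - (F.N * x1) • F.e)) := by
    intro t
    have e : (N t).om 2 = (rI (K t) _ (hsc t).nz).om 1 := nr_om2 _ _
    rw [e, ← (hre _ (hS t)).1]
    exact (hsc t).cl1' hQ (hat t).om0 (hat t).im_pos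
  have c0 : ∀ t, Cl ((N t).om 0) A := fun t => by
    have e : (N t).om 0 = (K t).om 0 := nr_om0 _ _
    rw [e]
    exact (hat t).om0
  obtain ⟨D, d2, d0, -⟩ := hiso N hNs 1 2 0 (Or.inr (Or.inl rfl))
    (fun t => (c2 t).trans (c2 0).symm) (fun t => (c0 t).trans (c0 0).symm)
  -- the end of the leg
  have e1 : HEqv (N 1) (nr H1 z1 h1.nz) :=
    heqv_nr h1' _ _ ((zS_congr hQ h1').trans (h1.eq_zS hQ).symm)
  -- the start
  have hz0 : zS Q F (K 0) = (z : ℂ) := by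
    rw [zS_congr hQ h0]
    apply Complex.ext
    · show Q (H'.om 1) F.e = _
      rw [hQ.cl p1]
      simp [NefRay_326.sre_e hQ]
    · show Q (H'.om 2) F.e = _
      rw [hQ.cl p2]
      simp [NefRay_326.sim_e hQ]
  have hzc : (z : ℂ) ≠ 0 := by exact_mod_cast hz.ne'
  have e0 : HEqv (N 0) (nr H' (z : ℂ) hzc) := heqv_nr h0 _ _ hz0
  have f0 : Eqv ((N 0).om 0) (H'.om 0) := by
    intro i y hy u v
    rw [e0.om 0 i y hy, nr_om0]
  have f2 : Eqv ((N 0).om 2) (H'.om 2) := by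
    intro i y hy u v
    rw [e0.om 2 i y hy, nr_om2, rI_om1]
    have k1 : (z : ℂ).re / ‖(z : ℂ)‖ = 1 := by
      rw [Complex.ofReal_re, Complex.norm_real, Real.norm_of_nonneg hz.le, div_self hz.ne']
    have k2 : (z : ℂ).im / ‖(z : ℂ)‖ = 0 := by
      rw [Complex.ofReal_im, zero_div]
    rw [k1, k2, neg_zero, zero_smul, one_smul, zero_add]
  have g : ∀ k, Eqv ((N 1).om k) ((nr H1 z1 h1.nz).om k) := fun k i y hy u v => by
    rw [e1.om k i y hy]
  refine ⟨D, ?_, ?_⟩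
  · exact (pH_om D _ 0).trans ((((g 0).symm).pull D.φ).trans (d0.trans f0))
  · exact (pH_om D _ 2).trans ((((g 2).symm).pull D.φ).trans (d2.trans f2))

/-! ### the end half -/

/-- a `MvN` is a move with fixed `J 2` of the other frame -/
theorem mvN_sw {L G : HkT C} {b' : F2 C} (h : MvN L b' G) :
    ∃ (c s : ℝ) (h : c * c + s * s = 1), Mv2 (sw L) (sw (rt G c s h)) ∧
      Has (sw (rt G c s h)) (-b') := by
  obtain ⟨c, s, r, t, k, hc, hr, ht, hJ, e0, e1, cl⟩ := h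
  refine ⟨c, s, k, ⟨r, hr, ?_, ?_⟩, t⁻¹ * c, -(t⁻¹ * s), by positivity, ?_⟩
  · rw [sw_om0, sw_om0]
    exact e1
  · rw [sw_om1, sw_om1]
    exact e0
  · rw [sw_om2, sw_om0]
    have h1 : Cl b' (t⁻¹ • G.om 2) := by
      have h2 := Cl.smul t⁻¹ cl
      rw [smul_smul, inv_mul_cancel₀ ht.ne', one_smul] at h2
      exact h2.symm
    rw [rt_bom2 G k] at h1
    have h2 := Cl.smul (-1 : ℝ) h1
    have h3 : (-1 : ℝ) • b' = -b' := by module
    rw [h3] at h2
    refine h2.trans (NefRay_326.cl_of_eq ?_)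
    module

/-- **the end half**: `K'` is the move of `sw (D1^* L¹)` over `b`, `M` the member of the end -/
theorem end_half [FiniteDimensional ℝ V] [T2Space X] [CompactSpace X] [ConnectedSpace X]
    {d : ℕ} (hd : 2 ≤ d) (hNN : NNat V d) (hQ : Ce_551.QHk C Q) (ha : 0 < Q A A) {L M K' : HkT C}
    (D D1 : DifC C) (hL : Q (L.om 0) (L.om 0) ≠ 0) (h : MvN L (-b) (pH D M))
    (hm : Mv2 (sw (pH D1 L)) K') (hb : Has K' b)
    {x y x' y' : Fin 3 → ℝ} (h1 : Rp K' A x) (h2 : Rp K' b y) (h3 : Rp M A x') (h4 : Rp M b y') :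
    Iso2 A b K' M := by
  have h5 := MvN.pull D1 h
  obtain ⟨c, s, k, m1, m2⟩ := mvN_sw h5
  rw [neg_neg] at m2
  have hL' : Q ((sw (pH D1 L)).om 0) ((sw (pH D1 L)).om 0) ≠ 0 := by
    rw [sw_om0, hQ.cl_left (pH_cl D1 L 1), hQ.cl_right (pH_cl D1 L 1), hQ.nrm L 1]
    exact hL
  have i1 := Mv2.iso2 hd hNN hQ ha hL' hm m1 hb m2 h1 h2
  -- from `M` to its pull backs and rotations
  have j1 : Iso2 A b (pH D M) M := iso2_pH D h3 h4
  obtain ⟨u1, v1, r1, r2⟩ := iso2_rp j1.symm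
  have j2 : Iso2 A b (pH D1 (pH D M)) (pH D M) := iso2_pH D1 r1 r2
  obtain ⟨u2, v2, r3, r4⟩ := iso2_rp j2.symm
  have j3 : Iso2 A b (pH D1 (pH D M)) (rt (pH D1 (pH D M)) c s k) := iso2_rot _ r3 r4
  obtain ⟨u3, v3, r5, r6⟩ := iso2_rp j3
  have j4 : Iso2 A b (rt (pH D1 (pH D M)) c s k) (sw (rt (pH D1 (pH D M)) c s k)) :=
    iso2_rot _ r5 r6
  exact (((i1.trans hQ ha j4.symm).trans hQ ha j3.symm).trans hQ ha j2).trans hQ ha j1

end

end Crest.Agent.R281.Ch_151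
end

-- ▼ part R281/Ch7_151
section

/-!
# Row 281, CHART-END (second owner, helper151), part 7: the box side

* `qN_of_ctx`, `qC_of_ctx` : the form `Q` in the shapes of 326 and 551
* `base_pos`, `box_mv`     : the base of the second moves, the member over `b_x` as a move of it
* `R1 c s`                 : rotation about `om 1`
* `angle`                  : the base is, up to scaling and `om 2`, the rotation of the box member at
                             `x₁` by an angle `θ₀ ∈ (-π/2, π/2)`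
* `end_cls`                : the classes of a normalised member
-/

set_option autoImplicit false
set_option maxSynthPendingDepth 3
set_option linter.unusedSectionVars false

open Set Filter Topology
open scoped ContDiff

namespace Crest.Agent.R281.Ch_151

open Crest.Agent.R275.Geo Crest.Agent.R275.Core144
open Crest.Agent.R260.ACM_580
open Crest.Agent.R281.Ti_846 hiding pb pb_apply symm2 sm'
open Crest.Agent.R281.Dif_268 Crest.Agent.R281.Cdr_234
open Crest.Agent.R281.HkR_835 Crest.Agent.R281.Alg_998 Crest.Agent.R281.Iso_139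
open Crest.Agent.R281.NefO_476 (ofHk Pos AJ)
open Crest.Agent.R281.Nef_252 (T11 KCls Bi HolM)
open Crest.Agent.R281.PL_713 (PL)
open Crest.Agent.R281.RkD_902 (IsoId MemN SameTw Ctx Given Box Road AlgT lco)
open Crest.Agent.R281.Ce_551 (Rp Iso2 lin_eqv lin3_w lin3_eq cl_eqv)
open Crest.Agent.R281.Sta2_684 (smulP)
open Crest.Agent.R281.NefRay_326 (rI rI_om0 rI_om1 nz2 Sc zS sc_of_at zS_sm smH_rot IsoHk HEqv_rot)

noncomputable section

/-! ### rotation about `om 1` -/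

section rot1

variable {X : Type} [TopologicalSpace X]
variable {V : Type} [NormedAddCommGroup V] [NormedSpace ℝ V] {C : RCh V X}

/-- rotation about `om 1` -/
def R1 (c s : ℝ) : Fin 3 → Fin 3 → ℝ := ![![c, 0, s], ![0, 1, 0], ![-s, 0, c]]

theorem fr_R1 {c s : ℝ} (h : c * c + s * s = 1) : HkT.Fr (R1 c s) where
  nrm k := by
    fin_cases k
    · simpa [R1] using h
    · simp [R1]
    · simp [R1]; linarith
  ort := by simp [R1]
  crs := by
    funext k
    fin_cases k <;> simp [R1]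

theorem cs_one (θ : ℝ) : Real.cos θ * Real.cos θ + Real.sin θ * Real.sin θ = 1 := by
  have := Real.cos_sq_add_sin_sq θ
  nlinarith

/-- the triple rotated about `om 1` by the angle `θ` -/
def ro1 (H : HkT C) (θ : ℝ) : HkT C := H.rot (R1 (Real.cos θ) (Real.sin θ)) (fr_R1 (cs_one θ))

variable (H : HkT C) (θ : ℝ)

theorem ro1_om0 : (ro1 H θ).om 0 = Real.cos θ • H.om 0 + Real.sin θ • H.om 2 := by
  show F2.lin (R1 (Real.cos θ) (Real.sin θ) 0) H.om = _
  rw [lin3_eq]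
  simp [R1]

theorem ro1_om1 : (ro1 H θ).om 1 = H.om 1 := by
  show F2.lin (R1 (Real.cos θ) (Real.sin θ) 1) H.om = _
  rw [lin3_eq]
  simp [R1]

end rot1

/-! ### the angle -/

section angle

variable {X : Type} [TopologicalSpace X]
variable {V : Type} [NormedAddCommGroup V] [NormedSpace ℝ V] {C : RCh V X}
variable {Q : F2 C →ₗ[ℝ] F2 C →ₗ[ℝ] ℝ} {A b : F2 C}

/-- two structures of one twistor sphere with the same axis `om 1` -/
theorem angle (hQ : Ce_551.QHk C Q) (hA : 0 < Q A A) {G HB : HkT C} (h : SameTw G HB) {ρ s s' : ℝ}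
    (hρ : 0 < ρ) (hs : 0 < s) (hs' : 0 < s') (g1 : Cl (G.om 1) (ρ • A)) (hb : Has G b)
    (c1 : Cl (HB.om 1) (s • A)) (c2 : Cl (HB.om 2) (s' • b)) :
    ∃ θ ∈ Ioo (-(Real.pi / 2)) (Real.pi / 2), Mv2 G (ro1 HB θ) := by
  obtain ⟨R, hR, t, ht, he⟩ := h
  obtain ⟨p, q, hp, cb⟩ := hb
  have q0 : 0 < Q (G.om 0) (G.om 0) := hQ.rp_pos (rp_one hρ.ne' g1) hA
  have hom : ∀ k, Eqv (HB.om k) (t • F2.lin (R k) G.om) := fun k i z hz u v => by
    rw [← he.om k i z hz]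
    rfl
  have homw : ∀ k i, ∀ z ∈ (C.e i).target, ∀ u v, (HB.om k).w i z u v =
      t * (R k 0 * (G.om 0).w i z u v + R k 1 * (G.om 1).w i z u v +
        R k 2 * (G.om 2).w i z u v) := fun k i z hz u v => by
    rw [hom k i z hz, F2.smul_w]
    show t * (F2.lin (R k) G.om).w i z u v = _
    rw [lin3_w]
  -- coordinates of `om 1`
  have r1 : Rp G (HB.om 1) ![t * R 1 0, t * R 1 1, t * R 1 2] := rp3 ((cl_eqv (hom 1)).trans
    (NefRay_326.cl_of_eq (by rw [lin3_eq]; module)))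
  have r1' : Rp G (HB.om 1) ![0, s / ρ, 0] := rp3 (c1.trans (by
    have h1 := Cl.smul (s / ρ) g1
    rw [smul_smul, div_mul_cancel₀ _ hρ.ne'] at h1
    refine h1.symm.trans (NefRay_326.cl_of_eq ?_)
    module))
  have e1 := hQ.rp_uniq q0 r1 r1'
  have e10 : t * R 1 0 = 0 := congrFun e1 0
  have e11 : t * R 1 1 = s / ρ := congrFun e1 1
  have e12 : t * R 1 2 = 0 := congrFun e1 2
  have z10 : R 1 0 = 0 := (mul_eq_zero.1 e10).resolve_left ht.ne'
  have z12 : R 1 2 = 0 := (mul_eq_zero.1 e12).resolve_left ht.ne'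
  have p11 : 0 < R 1 1 := by
    have h1 : 0 < t * R 1 1 := by rw [e11]; exact div_pos hs hρ
    exact (mul_pos_iff_of_pos_left ht).1 h1
  have n11 : R 1 1 = 1 := by
    have h1 := hR.nrm 1
    rw [z10, z12] at h1
    have h2 : (R 1 1 - 1) * (R 1 1 + 1) = 0 := by linarith
    rcases mul_eq_zero.1 h2 with h | h <;> linarith
  have z01 : R 0 1 = 0 := by
    have h1 := hR.ort
    rw [z10, z12, n11] at h1
    linarith
  have e20 : R 2 0 = -R 0 2 := by
    have h1 := congrFun hR.crs 0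
    simp only [Matrix.cons_val_zero] at h1
    rw [h1, z01, z12, n11]
    ring
  have e21 : R 2 1 = 0 := by
    have h1 := congrFun hR.crs 1
    simp only [Matrix.cons_val_one, Matrix.cons_val_zero] at h1
    rw [h1, z10, z12]
    ring
  have e22 : R 2 2 = R 0 0 := by
    have h1 := congrFun hR.crs 2
    simp only [Matrix.cons_val] at h1
    rw [h1, z01, z10, n11]
    ring
  set c0 : ℝ := R 0 0 with hc0
  set s0 : ℝ := R 2 0 with hs0
  have e02 : R 0 2 = -s0 := by linarith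
  have n0 : c0 * c0 + s0 * s0 = 1 := by
    have h1 := hR.nrm 0
    rw [z01, e02] at h1
    linarith
  -- the sign
  have r2 : Rp G (HB.om 2) ![t * R 2 0, t * R 2 1, t * R 2 2] := rp3 ((cl_eqv (hom 2)).trans
    (NefRay_326.cl_of_eq (by rw [lin3_eq]; module)))
  have r2' : Rp G (HB.om 2) ![s' * q, 0, s' * p] := rp3 (c2.trans ((Cl.smul s' cb).trans
    (NefRay_326.cl_of_eq (by module))))
  have e2 := hQ.rp_uniq q0 r2 r2'
  have e2' : t * R 2 2 = s' * p := congrFun e2 2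
  have hc : 0 < c0 := by
    rw [e22] at e2'
    have h1 : 0 < t * c0 := by rw [e2']; positivity
    exact (mul_pos_iff_of_pos_left ht).1 h1
  have s1 : s0 ^ 2 < 1 := by nlinarith
  have s2 : -1 < s0 ∧ s0 < 1 := abs_lt.1 ((sq_lt_one_iff_abs_lt_one s0).1 s1)
  have k1 : Real.sin (Real.arcsin s0) = s0 := Real.sin_arcsin s2.1.le s2.2.le
  have k2 : Real.cos (Real.arcsin s0) = c0 := by
    rw [Real.cos_arcsin]
    have h1 : 1 - s0 ^ 2 = c0 ^ 2 := by nlinarith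
    rw [h1, Real.sqrt_sq hc.le]
  refine ⟨Real.arcsin s0, ⟨Real.neg_pi_div_two_lt_arcsin.2 s2.1,
    Real.arcsin_lt_pi_div_two.2 s2.2⟩, t, ht, ?_, ?_⟩
  · intro i z hz u v
    rw [ro1_om0, k1, k2]
    have f0 := homw 0 i z hz u v
    have f2 := homw 2 i z hz u v
    show c0 * (HB.om 0).w i z u v + s0 * (HB.om 2).w i z u v = t * (G.om 0).w i z u v
    rw [f0, f2, z01, e02, e21, e22]
    linear_combination t * (G.om 0).w i z u v * n0
  · intro i z hz u v
    rw [ro1_om1]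
    have f1 := homw 1 i z hz u v
    show (HB.om 1).w i z u v = t * (G.om 1).w i z u v
    rw [f1, z10, z12, n11]
    ring

end angle

/-! ### classes of a normalised member -/

section cls

variable {X : Type} [TopologicalSpace X]
variable {V : Type} [NormedAddCommGroup V] [NormedSpace ℝ V] {C : RCh V X}
variable {Q : F2 C →ₗ[ℝ] F2 C →ₗ[ℝ] ℝ} {F : Frm C Q} {A : F2 C}

/-- classes of a normalised member: `(A, *, -μ b_x)` -/
theorem end_cls {H : HkT C} {τ z : ℂ} (hM : AtTau F A H τ) (h : Sc F H τ z) :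
    ∃ μ : ℝ, 0 < μ ∧ Cl ((nr H z h.nz).om 0) A ∧
      Cl ((nr H z h.nz).om 2) ((-μ) • (-F.v + (F.N * τ.re) • F.e)) := by
  refine ⟨‖z‖ * τ.im, mul_pos (norm_pos_iff.2 h.nz) hM.im_pos, ?_, ?_⟩
  · rw [nr_om0]
    exact hM.om0
  · rw [nr_om2]
    refine h.cl1.trans (NefRay_326.cl_of_eq ?_)
    rw [NefRay_326.sim_eq]
    module

end cls

/-! ### the form -/

section ctx

variable {n : ℕ} {X : Type} [TopologicalSpace X] [CompactSpace X] {C : RCh (Cn (2 * n)) X}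
  {Q : F2 C →ₗ[ℝ] F2 C →ₗ[ℝ] ℝ}

theorem qC_of_ctx (hc : Ctx n C Q) : Ce_551.QHk C Q := ⟨hc.symm, hc.ex, hc.ort, hc.eq⟩

theorem qN_of_ctx (hc : Ctx n C Q) {H : HkT C} (hp : 0 < Q (H.om 0) (H.om 0)) :
    NefRay_326.QHk Q := by
  obtain ⟨P, q, κ, hκ, hT, hQ⟩ := hc.top
  have hr : q (H.om 0) ≠ 0 := by
    intro h0
    have h1 := hQ (H.om 0) (H.om 0)
    rw [QuadraticMap.polar_self, h0] at h1
    simp only [smul_zero, mul_zero] at h1
    exact hp.ne' h1
  exact NefRay_326.qHk_of_polar _ _ P hT.npos hT.fuj hr hQ hc.ex fun H k l => by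
    rw [hc.eq H k, hc.eq H l]

variable {H0 : HkT C} {e : F2 C} {Alg : AlgT Q} {B : Box Q H0 e}

/-- `om 1` of the base is a positive multiple of `A` -/
theorem base_om1 (R : Road Alg B) : ∃ ρ : ℝ, 0 < ρ ∧ Cl ((B.base R.a).om 1) (ρ • R.A) := by
  obtain ⟨s, hs, h1⟩ := B.base1 _ R.aB
  obtain ⟨r, hr, h2⟩ := R.ha
  refine ⟨s * r, mul_pos hs hr, h1.trans ?_⟩
  have h3 := Cl.smul s h2
  rwa [smul_smul] at h3

/-- the base is positive -/
theorem base_pos (hc : Ctx n C Q) (R : Road Alg B) :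
    0 < Q ((B.base R.a).om 0) ((B.base R.a).om 0) := by
  obtain ⟨ρ, hρ, h⟩ := base_om1 R
  exact (qC_of_ctx hc).rp_pos (rp_one hρ.ne' h) R.AA

/-- **the member over `b_x`** is a move of the base -/
theorem box_mv (hc : Ctx n C Q) (R : Road Alg B) {x : ℝ} (hx : R.c x ∈ B.D) :
    ∃ (G : HkT C) (ρ : ℝ), 0 < ρ ∧ Mv2 (B.base R.a) G ∧ Has G (R.bx x) ∧
      Cl (G.om 1) (ρ • R.A) ∧ SameTw G (B.H R.a (R.c x)) := by
  obtain ⟨G, r, s, t, u, hr, hs, g0, g1, cb, hS⟩ := B.mvc _ R.aB _ hx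
  obtain ⟨ρ, hρ, h⟩ := base_om1 R
  have h1 : Cl (G.om 1) ((r * ρ) • R.A) := by
    rw [mul_smul]
    exact (cl_eqv g1).trans (Cl.smul r h)
  have hrρ : 0 < r * ρ := mul_pos hr hρ
  have q1 : 0 < Q (G.om 1) (G.om 1) := by
    rw [hc.eq G 1]
    exact (qC_of_ctx hc).rp_pos (rp_one hrρ.ne' h1) R.AA
  have ht : t = 0 := by
    have e1 := hc.cl_cl (R.hc x) h1
    have e2 : Q (-R.F.v + (R.F.N * x) • R.F.e) ((r * ρ) • R.A) = 0 := by
      rw [map_smul, hc.symm]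
      have := R.A_bx x
      unfold Road.bx at this
      rw [this, smul_zero]
    have e3 := (hc.cl_left cb (y := G.om 1)).symm
    rw [e1, e2] at e3
    simp only [map_add, map_smul, LinearMap.add_apply, LinearMap.smul_apply, smul_eq_mul,
      hc.ort G 2 1 (by decide), hc.ort G 0 1 (by decide), mul_zero, zero_add, add_zero] at e3
    exact (mul_eq_zero.1 e3).resolve_right q1.ne'
  subst ht
  refine ⟨G, r * ρ, hrρ, ⟨r, hr, g0, g1⟩, ⟨s, u, hs, ?_⟩, h1, hS⟩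
  refine (R.hc x).symm.trans (cb.trans (NefRay_326.cl_of_eq ?_))
  module

end ctx

end

end Crest.Agent.R281.Ch_151
end

-- ▼ part R281/Ce4_551
section

/-!
# Row 281, CHART-END, part 4 (helper551): the segment of Kaehler forms on one complex manifold

* `exists_seg` : `G`, `G'` with the same `J 0` and proportional `om 1`, `om 2`, `Ef` a closed form of
  type (1,1) for `J 0`. Then there is a jointly smooth path `h` of triples from `G` to `G'`, with the
  same `J 0`, and jointly smooth forms `ψ s`, of type (1,1) for ALL complex structures of `h s`,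
  with `Ef ~ ψ s + lam s • (h s).om 0`.
-/

set_option autoImplicit false
set_option maxSynthPendingDepth 3
set_option linter.unusedSectionVars false

open Set Filter Topology
open scoped ContDiff

namespace Crest.Agent.R281.Ce_551

open Crest.Agent.R281.HkR_835 Crest.Agent.R281.Ti_846 Crest.Agent.R281.Alg_998
open Crest.Agent.R281.Dif_268 Crest.Agent.R281.Nef_252 Crest.Agent.R281.NefO_476
open Crest.Agent.R281.Bx_557 Crest.Agent.R281.Ch_151

noncomputable section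

variable {V X : Type} [NormedAddCommGroup V] [NormedSpace ℝ V] [TopologicalSpace X]
  {C : RCh V X} {Q : F2 C →ₗ[ℝ] F2 C →ₗ[ℝ] ℝ}

/-- the direction of the segment -/
def yS (G G' : HkT C) (Ef : F2 C) : Fin 2 → F2 C := ![G'.om 0 - G.om 0, Ef]

/-- the coordinates -/
def cS : Fin 2 → (ℝ × ℝ →L[ℝ] ℝ) :=
  ![ContinuousLinearMap.fst ℝ ℝ ℝ, ContinuousLinearMap.snd ℝ ℝ ℝ]

/-- the Kaehler forms `(1 - s) om 0 + s om' 0 + ε Ef` -/
def wS (G G' : HkT C) (Ef : F2 C) (p : ℝ × ℝ) : F2 C :=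
  ∑ k, cS k p • yS G G' Ef k + G.om 0

theorem wS_eq (G G' : HkT C) (Ef : F2 C) (p : ℝ × ℝ) :
    wS G G' Ef p = (1 - p.1) • G.om 0 + p.1 • G'.om 0 + p.2 • Ef := by
  unfold wS
  rw [Fin.sum_univ_two]
  show p.1 • (G'.om 0 - G.om 0) + p.2 • Ef + G.om 0 = _
  module

theorem wS_sm (G G' : HkT C) (Ef : F2 C) (T : Set (ℝ × ℝ)) : SmF T (wS G G' Ef) := by
  have h1 : wS G G' Ef = fun p : ℝ × ℝ => (1 - p.1) • G.om 0 + p.1 • G'.om 0 + p.2 • Ef :=
    funext fun p => wS_eq G G' Ef p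
  rw [h1]
  have s1 : ContDiffOn ℝ ∞ (fun p : ℝ × ℝ => 1 - p.1) T :=
    (contDiff_const.sub contDiff_fst).contDiffOn
  exact (((SmF.const T (G.om 0)).smul s1).add ((SmF.const T (G'.om 0)).smul
    contDiff_fst.contDiffOn)).add ((SmF.const T Ef).smul contDiff_snd.contDiffOn)

theorem T11_congrJ {J J' : AJ C} (h : ∀ i, ∀ z ∈ (C.e i).target, ∀ v, J'.J i z v = J.J i z v)
    {w : F2 C} (hw : T11 J w) : T11 J' w := fun i z hz u v => by
  rw [h i z hz, h i z hz]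
  exact hw i z hz u v

theorem Pos_congrJ {J J' : AJ C} (h : ∀ i, ∀ z ∈ (C.e i).target, ∀ v, J'.J i z v = J.J i z v)
    {w : F2 C} (hw : Pos J w) : Pos J' w := fun i z hz v hv => by
  rw [h i z hz]
  exact hw i z hz v hv

variable [FiniteDimensional ℝ V] [CompactSpace X] [T2Space X]

/-- **the segment** -/
theorem exists_seg (hM : MoveFam Q) (hU : UniqMv C) {G G' : HkT C}
    (hG : 0 < Q (G.om 0) (G.om 0))
    (hJ : ∀ i, ∀ z ∈ (C.e i).target, ∀ v, G'.J 0 i z v = G.J 0 i z v) {r : ℝ} (hr : 0 < r)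
    (e1 : Eqv (G'.om 1) (r • G.om 1)) (e2 : Eqv (G'.om 2) (r • G.om 2)) {Ef : F2 C}
    (hE : T11 (ofHk G 0) Ef) :
    ∃ (h : ℝ → HkT C) (ρ lam : ℝ → ℝ) (ψ : ℝ → F2 C), SmHk univ h ∧ ContDiff ℝ ∞ ρ ∧
      ContDiff ℝ ∞ lam ∧ SmF univ ψ ∧ (∀ s, 0 < ρ s) ∧ (∀ s l, T11 (ofHk (h s) l) (ψ s)) ∧
      (∀ s, Eqv ((h s).om 1) (ρ s • G.om 1)) ∧ (∀ s, Eqv ((h s).om 2) (ρ s • G.om 2)) ∧
      (∀ s, Cl Ef (ψ s + lam s • (h s).om 0)) ∧ HEqv G (h 0) ∧ HEqv G' (h 1) ∧
      ∀ c : ℝ, 0 < c → ∃ δ : ℝ, 0 < δ ∧ ∀ t : ℝ, |t| < δ → ∀ s,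
        Pos (ofHk (h s) 2) ((c / ρ s) • (h s).om 2 + t • ψ s) := by
  set w := wS G G' Ef with hw
  have hwsm : ∀ T, SmF T w := fun T => wS_sm G G' Ef T
  set T : Set (ℝ × ℝ) := {p | p ∈ univ ∧ Pos (ofHk G 0) (w p)} with hTd
  have hT : IsOpen T :=
    SmHk.isOpen_pos (E := ℝ × ℝ) isOpen_univ (smHk_const univ G) 0 (hwsm univ)
  have hP' : Pos (ofHk G 0) (G'.om 0) :=
    Pos_congrJ (J := ofHk G' 0) (fun i z hz v => (hJ i z hz v).symm) (Pos_hk G' 0)
  have hT' : T11 (ofHk G 0) (G'.om 0) :=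
    T11_congrJ (J := ofHk G' 0) (fun i z hz v => (hJ i z hz v).symm) (T11_hk G' 0)
  have hseg : ∀ s ∈ Icc (0 : ℝ) 1, ((s, 0) : ℝ × ℝ) ∈ T := by
    intro s hs
    refine ⟨mem_univ _, ?_⟩
    rw [hw, wS_eq]
    show Pos (ofHk G 0) ((1 - s) • G.om 0 + s • G'.om 0 + (0 : ℝ) • Ef)
    rw [zero_smul, add_zero]
    rcases eq_or_lt_of_le hs.1 with rfl | h0
    · simpa using Pos_hk G 0
    · rcases eq_or_lt_of_le hs.2 with rfl | h1
      · simpa using hP'
      · exact Pos.add (Pos.smul (by linarith) (Pos_hk G 0)) (Pos.smul h0 hP')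
  have hT11 : ∀ p ∈ T, T11 (ofHk G 0) (w p) := by
    intro p _
    rw [hw, wS_eq]
    exact (((T11_hk G 0).smul _).add (hT'.smul _)).add (hE.smul _)
  obtain ⟨M, ρ, hMs, hρ, hMr⟩ := hM (ℝ × ℝ) T hT 0 (fun _ => G) w (smHk_const T G) (hwsm T)
    (fun _ _ => hG) hT11 fun p hp => hp.2
  have ρp : ∀ p ∈ T, 0 < ρ p := fun p hp => (hMr p hp).1
  have MJ : ∀ p ∈ T, ∀ i, ∀ z ∈ (C.e i).target, ∀ v, (M p).J 0 i z v = (ofHk G 0).J i z v :=
    fun p hp => (hMr p hp).2.1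
  have Mo : ∀ p ∈ T, ∀ l, l ≠ 0 → Eqv ((M p).om l) (ρ p • G.om l) :=
    fun p hp => (hMr p hp).2.2.1
  have Mc : ∀ p ∈ T, Cl ((M p).om 0) (w p) := fun p hp => (hMr p hp).2.2.2
  have hρi : ContDiffOn ℝ ∞ (fun p => (ρ p)⁻¹) T := hρ.inv fun p hp => (ρp p hp).ne'
  have hm : SmF T fun p => (ρ p)⁻¹ • (M p).om 0 := (hMs.om 0).smul hρi
  have hm' : SmF T fun p => (ρ p)⁻¹ • w p := (hwsm T).smul hρi
  have hmw : ∀ p ∈ T, Ex ((ρ p)⁻¹ • (M p).om 0 - (ρ p)⁻¹ • w p) := fun p hp =>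
    Cl.smul _ (Mc p hp)
  set ψ0 : ℝ × ℝ → F2 C := dF T hT (fun p => (ρ p)⁻¹ • (M p).om 0) hm ((0, 1) : ℝ × ℝ) with hψ0
  have hψs : SmF T ψ0 := dF_sm hT hm _
  have hψT : ∀ p ∈ T, ∀ l, T11 (ofHk (M p) l) (ψ0 p) := fun p hp l =>
    dF_inv hT hMs MJ ρp Mo hm _ hp l
  set κ : ℝ × ℝ → ℝ := fun p => fderiv ℝ (fun p => (ρ p)⁻¹) p ((0, 1) : ℝ × ℝ) with hκ
  have hκs : ContDiffOn ℝ ∞ κ T :=
    (hρi.fderiv_of_isOpen hT (by simp)).clm_apply contDiffOn_const
  have hψc : ∀ p ∈ T, Cl (ψ0 p) (κ p • w p + (ρ p)⁻¹ • Ef) := by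
    intro p hp
    have k1 : Cl (ψ0 p) (dF T hT (fun p => (ρ p)⁻¹ • w p) hm' ((0, 1) : ℝ × ℝ) p) :=
      ex_dF_sub hT hm hm' hmw _ hp
    have k2 : Cl (dF T hT (fun p => (ρ p)⁻¹ • w p) hm' ((0, 1) : ℝ × ℝ) p)
        (κ p • w p + (ρ p)⁻¹ • ∑ k, cS k ((0, 1) : ℝ × ℝ) • yS G G' Ef k) :=
      cl_eqv (dF_smul_lin hT hρi (c := cS) (y := yS G G' Ef) (y0 := G.om 0) hm' _ hp)
    have k3 : ∑ k, cS k ((0, 1) : ℝ × ℝ) • yS G G' Ef k = Ef := by
      rw [Fin.sum_univ_two]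
      show (0 : ℝ) • (G'.om 0 - G.om 0) + (1 : ℝ) • Ef = Ef
      rw [zero_smul, one_smul, zero_add]
    rw [k3] at k2
    exact k1.trans k2
  -- reparametrisation
  obtain ⟨θ, hθ, θ0, θ1, hθI⟩ := Iso_139.exists_theta (0 : ℝ) 1
  have hθI' : ∀ s, θ s ∈ Icc (0 : ℝ) 1 := fun s => by
    have := hθI s
    rwa [uIcc_of_le zero_le_one] at this
  have hg : ContDiff ℝ ∞ fun s : ℝ => ((θ s, 0) : ℝ × ℝ) := hθ.prodMk contDiff_const
  have hgT : ∀ s, ((θ s, 0) : ℝ × ℝ) ∈ T := fun s => hseg _ (hθI' s)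
  have hgm : MapsTo (fun s : ℝ => ((θ s, 0) : ℝ × ℝ)) univ T := fun s _ => hgT s
  have cps : ∀ {f : ℝ × ℝ → ℝ}, ContDiffOn ℝ ∞ f T → ContDiff ℝ ∞ fun s => f (θ s, 0) :=
    fun hf => contDiffOn_univ.1 (hf.comp hg.contDiffOn hgm)
  refine ⟨fun s => M (θ s, 0), fun s => ρ (θ s, 0), fun s => -(ρ (θ s, 0) * κ (θ s, 0)),
    fun s => ρ (θ s, 0) • ψ0 (θ s, 0), SmHk.comp' hMs hg.contDiffOn hgm, cps hρ,
    (cps (hρ.mul hκs)).neg, SmF.comp' (hψs.smul hρ) hg.contDiffOn hgm, fun s => ρp _ (hgT s),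
    fun s l => (hψT _ (hgT s) l).smul _, fun s => Mo _ (hgT s) 1 (by decide),
    fun s => Mo _ (hgT s) 2 (by decide), fun s => ?_, ?_, ?_, ?_⟩
  · -- the class of `Ef`
    have k0 := ρp _ (hgT s)
    have k1 := (hψc _ (hgT s)).smul (ρ (θ s, 0))
    rw [smul_add, smul_smul, smul_smul, mul_inv_cancel₀ k0.ne', one_smul] at k1
    have k2 := ((Mc _ (hgT s)).smul (-(ρ (θ s, 0) * κ (θ s, 0))))
    have k3 := k1.add k2
    have k4 : (ρ (θ s, 0) * κ (θ s, 0)) • w (θ s, 0) + Ef + -(ρ (θ s, 0) * κ (θ s, 0)) • w (θ s, 0)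
        = Ef := by module
    rw [k4] at k3
    exact k3.symm
  · -- the start
    show HEqv G (M (θ 0, 0))
    rw [θ0]
    have h0 := hseg 0 ⟨le_rfl, zero_le_one⟩
    refine hU 0 G (M (0, 0)) (ρ (0, 0)) (ρp _ h0) (MJ _ h0) (Mo _ h0) ?_
    have k1 := Mc _ h0
    have k2 : w (0, 0) = G.om 0 := by rw [hw, wS_eq]; simp
    rwa [k2] at k1
  · show HEqv G' (M (θ 1, 0))
    rw [θ1]
    have h0 := hseg 1 ⟨zero_le_one, le_rfl⟩
    refine hU 0 G' (M (1, 0)) (ρ (1, 0) / r) (div_pos (ρp _ h0) hr) (fun i z hz v => ?_)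
      (fun l hl => ?_) ?_
    · rw [hJ i z hz]
      exact MJ _ h0 i z hz v
    · have k1 := Mo _ h0 l hl
      have k2 : Eqv (G'.om l) (r • G.om l) := by
        fin_cases l
        · exact absurd rfl hl
        · exact e1
        · exact e2
      refine k1.trans ?_
      have k3 := eqv_smul' (ρ (1, 0) / r) k2
      rw [smul_smul, div_mul_cancel₀ _ hr.ne'] at k3
      exact k3.symm
    · have k1 := Mc _ h0
      have k2 : w (1, 0) = G'.om 0 := by rw [hw, wS_eq]; simp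
      rwa [k2] at k1
  · -- uniform positivity
    intro c hc
    have hS : IsOpen {s : ℝ | ((s, 0) : ℝ × ℝ) ∈ T} :=
      hT.preimage (continuous_id.prodMk continuous_const)
    have hg' : ContDiff ℝ ∞ fun s : ℝ => ((s, 0) : ℝ × ℝ) := contDiff_id.prodMk contDiff_const
    have hgm' : MapsTo (fun s : ℝ => ((s, 0) : ℝ × ℝ)) {s : ℝ | ((s, 0) : ℝ × ℝ) ∈ T} T :=
      fun s hs => hs
    have hMS : SmHk {s : ℝ | ((s, 0) : ℝ × ℝ) ∈ T} fun s => M (s, 0) :=
      SmHk.comp' hMs hg'.contDiffOn hgm'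
    have hg2 : ContDiff ℝ ∞ fun p : ℝ × ℝ => ((p.1, 0) : ℝ × ℝ) :=
      contDiff_fst.prodMk contDiff_const
    have hgm2 : MapsTo (fun p : ℝ × ℝ => ((p.1, 0) : ℝ × ℝ))
        ({s : ℝ | ((s, 0) : ℝ × ℝ) ∈ T} ×ˢ univ) T := fun p hp => hp.1
    have hW : SmF ({s : ℝ | ((s, 0) : ℝ × ℝ) ∈ T} ×ˢ univ) fun p : ℝ × ℝ =>
        (c / ρ (p.1, 0)) • (M (p.1, 0)).om 2 + p.2 • (ρ (p.1, 0) • ψ0 (p.1, 0)) := by
      have s1 : SmF T fun p => (c / ρ p) • (M p).om 2 :=
        (hMs.om 2).smul (contDiffOn_const.div hρ fun p hp => (ρp p hp).ne')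
      have s2 : SmF T fun p => ρ p • ψ0 p := hψs.smul hρ
      exact (SmF.comp' s1 hg2.contDiffOn hgm2).add
        ((SmF.comp' s2 hg2.contDiffOn hgm2).smul contDiff_snd.contDiffOn)
    obtain ⟨δ, hδ, hδ'⟩ := exists_unif hS hMS 2 hW (isCompact_Icc (a := (0 : ℝ)) (b := 1))
      (fun s hs => hseg s hs) (fun s hs => by
        show Pos (ofHk (M (s, 0)) 2) ((c / ρ (s, 0)) • (M (s, 0)).om 2 + (0 : ℝ) • _)
        rw [zero_smul, add_zero]
        exact Pos.smul (div_pos hc (ρp _ (hseg s hs))) (Pos_hk _ 2))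
    exact ⟨δ, hδ, fun t ht s => hδ' (θ s) (hθI' s) t ht⟩

end

end Crest.Agent.R281.Ce_551
end

-- ▼ part R281/Ce5_551

/-!
# Row 281, CHART-END, part 5 (helper551): the chart side

* `T11_rot`    : a form of type (1,1) for all complex structures of `H` is so for those of a rotation
* `Rt θ`       : rotation about `om 1`
* `rot_seg`    : the segment of the angles: moves of `G.rot (Rt θ)` towards `b`
* `chart_side` : moves of `G.rot (Rt θ₀)` and of `G'` towards `b₀ + t e` are isotopic, `t` small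
-/

set_option autoImplicit false
set_option maxSynthPendingDepth 3
set_option linter.unusedSectionVars false

open Set Filter Topology
open scoped ContDiff

namespace Crest.Agent.R281.Ce_551

open Crest.Agent.R281.HkR_835 Crest.Agent.R281.Ti_846 Crest.Agent.R281.Alg_998
open Crest.Agent.R281.Dif_268 Crest.Agent.R281.Nef_252 Crest.Agent.R281.NefO_476
open Crest.Agent.R281.Bx_557 Crest.Agent.R281.Ch_151

noncomputable section

variable {V X : Type} [NormedAddCommGroup V] [NormedSpace ℝ V] [TopologicalSpace X]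
  {C : RCh V X} {Q : F2 C →ₗ[ℝ] F2 C →ₗ[ℝ] ℝ}

/-! ### rotations -/

theorem T11_rot {H : HkT C} {w : F2 C} (h : ∀ l, T11 (ofHk H l) w) {R : Fin 3 → Fin 3 → ℝ}
    (hR : HkT.Fr R) (k : Fin 3) : T11 (ofHk (H.rot R hR) k) w := by
  intro i z hz u v
  have e : ∀ u, (ofHk (H.rot R hR) k).J i z u =
      R k 0 • H.J 0 i z u + R k 1 • H.J 1 i z u + R k 2 • H.J 2 i z u := fun u => by
    show (H.rot R hR).J k i z u = _
    rw [HkT.rot_J, Jv3]
    rfl
  have c0 : ∀ u v, w.w i z (H.J 0 i z u) (H.J 0 i z v) = w.w i z u v := h 0 i z hz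
  have c1 : ∀ u v, w.w i z (H.J 1 i z u) (H.J 1 i z v) = w.w i z u v := h 1 i z hz
  have c2 : ∀ u v, w.w i z (H.J 2 i z u) (H.J 2 i z v) = w.w i z u v := h 2 i z hz
  have c01 : w.w i z (H.J 0 i z u) (H.J 1 i z v) = -w.w i z u (H.J 2 i z v) := by
    rw [← c0, H.J_sq 0 i z hz, H.J_01 i z hz, map_neg, neg_apply]
  have c10 : w.w i z (H.J 1 i z u) (H.J 0 i z v) = w.w i z u (H.J 2 i z v) := by
    rw [← c1, H.J_sq 1 i z hz, H.J_10 hz, map_neg, map_neg, neg_apply, neg_neg]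
  have c02 : w.w i z (H.J 0 i z u) (H.J 2 i z v) = w.w i z u (H.J 1 i z v) := by
    rw [← c0, H.J_sq 0 i z hz, H.J_02 hz, map_neg, map_neg, neg_apply, neg_neg]
  have c20 : w.w i z (H.J 2 i z u) (H.J 0 i z v) = -w.w i z u (H.J 1 i z v) := by
    rw [← c2, H.J_sq 2 i z hz, H.J_20 hz, map_neg, neg_apply]
  have c12 : w.w i z (H.J 1 i z u) (H.J 2 i z v) = -w.w i z u (H.J 0 i z v) := by
    rw [← c1, H.J_sq 1 i z hz, H.J_12 hz, map_neg, neg_apply]
  have c21 : w.w i z (H.J 2 i z u) (H.J 1 i z v) = w.w i z u (H.J 0 i z v) := by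
    rw [← c2, H.J_sq 2 i z hz, H.J_21 hz, map_neg, map_neg, neg_apply, neg_neg]
  have n := hR.nrm k
  rw [e, e]
  simp only [map_add, map_smul, add_apply, smul_apply, smul_eq_mul, c0, c1, c2, c01, c10, c02,
    c20, c12, c21]
  linear_combination (w.w i z u v) * n

/-- rotation about `om 1` -/
def Rt (θ : ℝ) : Fin 3 → Fin 3 → ℝ :=
  ![![Real.cos θ, 0, Real.sin θ], ![0, 1, 0], ![-Real.sin θ, 0, Real.cos θ]]

theorem Rt_fr (θ : ℝ) : HkT.Fr (Rt θ) where
  nrm k := by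
    have h := Real.sin_sq_add_cos_sq θ
    fin_cases k
    · show Real.cos θ * Real.cos θ + 0 * 0 + Real.sin θ * Real.sin θ = 1
      linear_combination h
    · show (0 : ℝ) * 0 + 1 * 1 + 0 * 0 = 1
      norm_num
    · show -Real.sin θ * -Real.sin θ + 0 * 0 + Real.cos θ * Real.cos θ = 1
      linear_combination h
  ort := by
    show Real.cos θ * 0 + 0 * 1 + Real.sin θ * 0 = 0
    ring
  crs := by
    funext k
    fin_cases k
    · show -Real.sin θ = 0 * 0 - Real.sin θ * 1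
      ring
    · show (0 : ℝ) = Real.sin θ * 0 - Real.cos θ * 0
      ring
    · show Real.cos θ = Real.cos θ * 1 - 0 * 0
      ring

theorem Rt_sm {E : Type} [NormedAddCommGroup E] [NormedSpace ℝ E] {T : Set E} {θ : E → ℝ}
    (h : ContDiffOn ℝ ∞ θ T) (k l : Fin 3) : ContDiffOn ℝ ∞ (fun p => Rt (θ p) k l) T := by
  fin_cases k
  · fin_cases l
    · exact Real.contDiff_cos.comp_contDiffOn h
    · exact contDiffOn_const
    · exact Real.contDiff_sin.comp_contDiffOn h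
  · fin_cases l <;> exact contDiffOn_const
  · fin_cases l
    · exact (Real.contDiff_sin.comp_contDiffOn h).neg
    · exact contDiffOn_const
    · exact Real.contDiff_cos.comp_contDiffOn h

/-- `G` rotated about `om 1` -/
def Gt (G : HkT C) (θ : ℝ) : HkT C := G.rot (Rt θ) (Rt_fr θ)

theorem Gt_om0 (G : HkT C) (θ : ℝ) :
    (Gt G θ).om 0 = Real.cos θ • G.om 0 + Real.sin θ • G.om 2 := by
  show F2.lin (Rt θ 0) G.om = _
  rw [lin3_eq]
  show Real.cos θ • G.om 0 + (0 : ℝ) • G.om 1 + Real.sin θ • G.om 2 = _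
  rw [zero_smul, add_zero]

theorem Gt_om1 (G : HkT C) (θ : ℝ) : (Gt G θ).om 1 = G.om 1 := by
  show F2.lin (Rt θ 1) G.om = _
  rw [lin3_eq]
  show (0 : ℝ) • G.om 0 + (1 : ℝ) • G.om 1 + (0 : ℝ) • G.om 2 = _
  rw [zero_smul, zero_smul, add_zero, one_smul, zero_add]

theorem Gt_om2 (G : HkT C) (θ : ℝ) :
    (Gt G θ).om 2 = -Real.sin θ • G.om 0 + Real.cos θ • G.om 2 := by
  show F2.lin (Rt θ 2) G.om = _
  rw [lin3_eq]
  show -Real.sin θ • G.om 0 + (0 : ℝ) • G.om 1 + Real.cos θ • G.om 2 = _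
  rw [zero_smul, add_zero]

theorem om0_Gt (G : HkT C) (θ : ℝ) :
    Real.cos θ • (Gt G θ).om 0 + -Real.sin θ • (Gt G θ).om 2 = G.om 0 := by
  have h := Real.sin_sq_add_cos_sq θ
  rw [Gt_om0, Gt_om2]
  have e : Real.cos θ • (Real.cos θ • G.om 0 + Real.sin θ • G.om 2) +
      -Real.sin θ • (-Real.sin θ • G.om 0 + Real.cos θ • G.om 2) =
      (Real.sin θ ^ 2 + Real.cos θ ^ 2) • G.om 0 := by module
  rw [e, h, one_smul]

theorem om2_Gt (G : HkT C) (θ : ℝ) :
    Real.sin θ • (Gt G θ).om 0 + Real.cos θ • (Gt G θ).om 2 = G.om 2 := by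
  have h := Real.sin_sq_add_cos_sq θ
  rw [Gt_om0, Gt_om2]
  have e : Real.sin θ • (Real.cos θ • G.om 0 + Real.sin θ • G.om 2) +
      Real.cos θ • (-Real.sin θ • G.om 0 + Real.cos θ • G.om 2) =
      (Real.sin θ ^ 2 + Real.cos θ ^ 2) • G.om 2 := by module
  rw [e, h, one_smul]

theorem Gt_zero (G : HkT C) : HEqv (Gt G 0) G := by
  refine rot_one G _ fun k l => ?_
  fin_cases k <;> fin_cases l <;> simp [Rt]

theorem SmHk.gt {T : Set ℝ} (G : HkT C) {θ : ℝ → ℝ} (h : ContDiffOn ℝ ∞ θ T) :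
    SmHk T fun s => Gt G (θ s) :=
  SmHk.rot' (smHk_const T G) (fun s => Rt_fr (θ s)) fun k l => Rt_sm h k l

/-! ### equal triples -/

theorem Iso2.of_heqv {a b : F2 C} {H H' : HkT C} (h : HEqv H H') {x y : Fin 3 → ℝ}
    (h1 : Rp H a x) (h3 : Rp H b y) : Iso2 a b H H' := by
  have e : ∀ x : Fin 3 → ℝ, Eqv (F2.lin x H.om) (F2.lin x H'.om) := fun x =>
    lin_eqv x fun k => heqv_om h k
  exact .of_eqv h1 (h1.trans (cl_eqv (e x))) h3 (h3.trans (cl_eqv (e y))) (e x).symm (e y).symm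

theorem Iso2.heqv_right {a b : F2 C} {H K K' : HkT C} (hQ : QHk C Q) (ha : 0 < Q a a)
    (h : Iso2 a b H K) (e : HEqv K K') : Iso2 a b H K' := by
  have h' := h
  obtain ⟨φ, ψ, x, x', y, y', hb, hc, h1, h2, h3, h4, e1, e2⟩ := h'
  exact h.trans hQ ha (Iso2.of_heqv e h2 h4)

theorem MvTo.heqv_right {L K K' : HkT C} {b : F2 C} (h : MvTo L b K) (e : HEqv K K') :
    MvTo L b K' := by
  obtain ⟨r, hr, e0, e1⟩ := h.om
  obtain ⟨q, hq⟩ := h.cl
  exact ⟨fun i z hz v => by rw [← e.J 2 i z hz, h.J i z hz], ⟨r, hr,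
    (heqv_om e 0).symm.trans e0, (heqv_om e 1).symm.trans e1⟩, q,
    hq.trans ((heqv_cl e 2).add ((heqv_cl e 0).smul q))⟩

variable [FiniteDimensional ℝ V] [CompactSpace X] [T2Space X]

/-- **the segment of the angles** -/
theorem rot_seg (hQ : QHk C Q) (hI : IsoFam C) (hM : MoveFam Q) {G : HkT C} {ψ : F2 C}
    (hψ : ∀ l, T11 (ofHk G l) ψ) {lam : ℝ} {A b0 e : F2 C}
    (he : Cl e (ψ + lam • G.om 0)) {a c : ℝ} (hc : 0 < c) (cA : Cl A (a • G.om 1))
    (cb : Cl b0 (c • G.om 2)) (hA : 0 < Q A A)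
    (hb : ∀ t : ℝ, 0 < Q (b0 + t • e) (b0 + t • e)) (hAb : ∀ t : ℝ, Q A (b0 + t • e) = 0)
    {θ0 : ℝ} (hθ0 : |θ0| < Real.pi / 2) :
    ∃ δ : ℝ, 0 < δ ∧ ∀ t : ℝ, |t| < δ → ∃ K K' : HkT C, MvTo (Gt G θ0) (b0 + t • e) K ∧
      MvTo G (b0 + t • e) K' ∧ Iso2 A (b0 + t • e) K K' := by
  have hcos : ∀ θ ∈ uIcc θ0 0, 0 < Real.cos θ := by
    intro θ hθ
    rw [abs_lt] at hθ0
    have h1 : -(Real.pi / 2) < θ ∧ θ < Real.pi / 2 := by
      rcases le_total θ0 0 with h | h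
      · rw [uIcc_of_le h] at hθ
        exact ⟨by linarith [hθ.1], by linarith [hθ.2, Real.pi_pos]⟩
      · rw [uIcc_of_ge h] at hθ
        exact ⟨by linarith [hθ.1, Real.pi_pos], by linarith [hθ.2]⟩
    exact Real.cos_pos_of_mem_Ioo h1
  -- uniform positivity
  have hw : SmF ((univ : Set ℝ) ×ˢ (univ : Set ℝ)) fun p : ℝ × ℝ =>
      (c * Real.cos p.1 - p.2 * lam * Real.sin p.1) • (Gt G p.1).om 2 + p.2 • ψ := by
    have s1 : SmHk ((univ : Set ℝ) ×ˢ (univ : Set ℝ)) fun p : ℝ × ℝ => Gt G p.1 :=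
      SmHk.comp' (SmHk.gt (T := univ) G (θ := fun s => s) contDiffOn_id)
        contDiff_fst.contDiffOn fun _ _ => mem_univ _
    have s2 : ContDiff ℝ ∞ fun p : ℝ × ℝ => c * Real.cos p.1 - p.2 * lam * Real.sin p.1 :=
      (contDiff_const.mul (Real.contDiff_cos.comp contDiff_fst)).sub
        ((contDiff_snd.mul contDiff_const).mul (Real.contDiff_sin.comp contDiff_fst))
    exact ((s1.om 2).smul s2.contDiffOn).add ((SmF.const _ ψ).smul contDiff_snd.contDiffOn)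
  obtain ⟨δ, hδ, hδ'⟩ := exists_unif (T := (univ : Set ℝ)) isOpen_univ
    (SmHk.gt (T := univ) G (θ := fun s => s) contDiffOn_id) 2 hw (isCompact_uIcc (a := θ0) (b := 0))
    (subset_univ _) fun θ hθ => by
      show Pos (ofHk (Gt G θ) 2) ((c * Real.cos θ - 0 * lam * Real.sin θ) • (Gt G θ).om 2 +
        (0 : ℝ) • ψ)
      rw [zero_smul, add_zero, zero_mul, zero_mul, sub_zero]
      exact Pos.smul (mul_pos hc (hcos θ hθ)) (Pos_hk _ 2)
  refine ⟨δ, hδ, fun t ht => ?_⟩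
  obtain ⟨θ, hθ, hθa, hθb, hθI⟩ := Iso_139.exists_theta θ0 0
  obtain ⟨K, hK, hiso⟩ := mi hQ hI hM (h := fun s => Gt G (θ s))
    (SmHk.gt G hθ.contDiffOn) (ψ := fun _ => t • ψ) (SmF.const _ _)
    (fun s => (T11_rot hψ (Rt_fr _) 2).smul t) hA (hb t) (hAb t) (a := fun _ => a)
    (p := fun s => c * Real.cos (θ s) - t * lam * Real.sin (θ s))
    (q := fun s => c * Real.sin (θ s) + t * lam * Real.cos (θ s)) contDiff_const
    ((contDiff_const.mul (Real.contDiff_cos.comp hθ)).sub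
      (contDiff_const.mul (Real.contDiff_sin.comp hθ)))
    ((contDiff_const.mul (Real.contDiff_sin.comp hθ)).add
      (contDiff_const.mul (Real.contDiff_cos.comp hθ)))
    (fun s => hδ' (θ s) (hθI s) t ht)
    (fun s => by
      show Cl A (a • (Gt G (θ s)).om 1)
      rw [Gt_om1]
      exact cA)
    (fun s => by
      have k1 : (c * Real.cos (θ s) - t * lam * Real.sin (θ s)) • (Gt G (θ s)).om 2 + t • ψ +
          (c * Real.sin (θ s) + t * lam * Real.cos (θ s)) • (Gt G (θ s)).om 0 =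
          c • (Real.sin (θ s) • (Gt G (θ s)).om 0 + Real.cos (θ s) • (Gt G (θ s)).om 2) +
          t • (ψ + lam • (Real.cos (θ s) • (Gt G (θ s)).om 0 +
            -Real.sin (θ s) • (Gt G (θ s)).om 2)) := by module
      show Cl (b0 + t • e) ((c * Real.cos (θ s) - t * lam * Real.sin (θ s)) •
        (Gt G (θ s)).om 2 + t • ψ +
        (c * Real.sin (θ s) + t * lam * Real.cos (θ s)) • (Gt G (θ s)).om 0)
      rw [k1, om0_Gt, om2_Gt]
      exact cb.add (he.smul t))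
  refine ⟨K 0, K 1, ?_, ?_, hiso⟩
  · have := hK 0
    simp only [hθa] at this
    exact this
  · have := hK 1
    simp only [hθb] at this
    exact this.heqv_left (Gt_zero G)

/-- **the chart side** -/
theorem chart_side (hQ : QHk C Q) (hI : IsoFam C) (hM : MoveFam Q) (hU : UniqMv C)
    {G G' : HkT C}
    (hJ : ∀ i, ∀ z ∈ (C.e i).target, ∀ v, G'.J 0 i z v = G.J 0 i z v) {r : ℝ} (hr : 0 < r)
    (e1 : Eqv (G'.om 1) (r • G.om 1)) (e2 : Eqv (G'.om 2) (r • G.om 2)) {Ef : F2 C}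
    (hE : T11 (ofHk G 0) Ef) {A b0 e : F2 C} (he : Cl e Ef) {a c : ℝ} (hc : 0 < c)
    (cA : Cl A (a • G.om 1)) (cb : Cl b0 (c • G.om 2)) (hA : 0 < Q A A)
    (hb : ∀ t : ℝ, 0 < Q (b0 + t • e) (b0 + t • e)) (hAb : ∀ t : ℝ, Q A (b0 + t • e) = 0)
    {θ0 : ℝ} (hθ0 : |θ0| < Real.pi / 2) :
    ∃ δ : ℝ, 0 < δ ∧ ∀ t : ℝ, |t| < δ → ∃ K K' : HkT C, MvTo (Gt G θ0) (b0 + t • e) K ∧
      MvTo G' (b0 + t • e) K' ∧ Iso2 A (b0 + t • e) K K' := by
  have hG : 0 < Q (G.om 0) (G.om 0) := by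
    have rpA : Rp G A ![0, a, 0] := by
      unfold Rp
      rw [lin3_eq]
      simpa using cA
    exact hQ.rp_pos rpA hA
  obtain ⟨h, ρ, lam, ψ, hh, sρ, slam, sψ, ρp, hψ, o1, o2, hEl, hh0, hh1, hpos⟩ :=
    exists_seg hM hU hG hJ hr e1 e2 hE
  obtain ⟨δ1, hδ1, hd1⟩ := hpos c hc
  -- the angles
  have hψG : ∀ l, T11 (ofHk G l) (ψ 0) := fun l =>
    T11_congrJ (J := ofHk (h 0) l) (fun i z hz v => by
      show G.J l i z v = (h 0).J l i z v
      rw [hh0.J l i z hz]) (hψ 0 l)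
  have hEG : Cl e (ψ 0 + lam 0 • G.om 0) :=
    he.trans ((hEl 0).trans ((Cl.refl _).add ((heqv_cl hh0 0).symm.smul _)))
  obtain ⟨δ2, hδ2, hd2⟩ := rot_seg hQ hI hM hψG hEG hc cA cb hA hb hAb hθ0
  refine ⟨min δ1 δ2, lt_min hδ1 hδ2, fun t ht => ?_⟩
  obtain ⟨K, K1, hK, hK1, i1⟩ := hd2 t (lt_of_lt_of_le ht (min_le_right _ _))
  have inv : ∀ s k, Eqv ((h s).om k) (ρ s • G.om k) → ∀ c : ℝ,
      Cl (c • G.om k) ((c / ρ s) • (h s).om k) := by
    intro s k hk c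
    have k1 := Cl.smul (c / ρ s) (cl_eqv hk)
    rw [smul_smul, div_mul_cancel₀ _ (ρp s).ne'] at k1
    exact k1.symm
  obtain ⟨K2, hK2, i2⟩ := mi hQ hI hM hh (ψ := fun s => t • ψ s)
    (sψ.smul contDiffOn_const) (fun s => (hψ s 2).smul t) hA (hb t) (hAb t)
    (a := fun s => a / ρ s) (p := fun s => c / ρ s) (q := fun s => t * lam s)
    (contDiff_const.div sρ fun s => (ρp s).ne') (contDiff_const.div sρ fun s => (ρp s).ne')
    (contDiff_const.mul slam) (fun s => hd1 t (lt_of_lt_of_le ht (min_le_left _ _)) s)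
    (fun s => cA.trans (inv s 1 (o1 s) a))
    (fun s => by
      have k1 := (cb.trans (inv s 2 (o2 s) c)).add ((he.trans (hEl s)).smul t)
      rw [smul_add, smul_smul, ← add_assoc] at k1
      exact k1)
  have hK20 : MvTo G (b0 + t • e) (K2 0) := (hK2 0).heqv_left hh0.symm
  have hu : HEqv K1 (K2 0) := hK1.uniq hQ hU hG hK20
  exact ⟨K, K2 1, hK, (hK2 1).heqv_left hh1.symm, (i1.heqv_right hQ hA hu).trans hQ hA i2⟩

end

end Crest.Agent.R281.Ce_551
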