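import Crest.Agent.R273.StokesV_332

-- ▼ part R281/Fib1_425
section

/-!
# R281 (S0424), leaf S6-FIB, part 1 (helper425): integrals over the first coordinates

* `jr t w`   : joins fibre coordinates `t : RI d → ℝ` and base coordinates `w : RI m → ℝ`;
* `mp_jr`    : it preserves the volume; `integral_jr`: Fubini;
* `par g w := ∫ t, g (jr t w)`: smooth for `g` smooth with compact support (`contDiff_par`),
  derivative under the integral (`fderiv_par`), `par_fderiv_fi` : derivatives in the fibre
  directions integrate to zero.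
-/

set_option autoImplicit false
set_option linter.unusedSectionVars false

open Set Filter Topology Complex MeasureTheory
open scoped ContDiff ComplexConjugate

namespace Crest.Agent.R281.Fib1_425

open Crest.Agent.R275.Geo

noncomputable section

variable {d m : ℕ}

/-- fibre coordinate `p` as a coordinate of the total space -/
def fi (m : ℕ) (p : RI d) : RI (d + m) := (Fin.castAdd m p.1, p.2)

/-- base coordinate `p` as a coordinate of the total space -/
def bi (d : ℕ) (p : RI m) : RI (d + m) := (Fin.natAdd d p.1, p.2)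

/-- fibre coordinates + base coordinates = coordinates of the total space -/
def eR (d m : ℕ) : RI d ⊕ RI m ≃ RI (d + m) :=
  (Equiv.sumProdDistrib (Fin d) (Fin m) (Fin 2)).symm.trans
    (finSumFinEquiv.prodCongr (Equiv.refl (Fin 2)))

@[simp] theorem eR_inl (p : RI d) : eR d m (Sum.inl p) = fi m p := rfl

@[simp] theorem eR_inr (p : RI m) : eR d m (Sum.inr p) = bi d p := rfl

/-- join fibre and base real coordinates -/
def jr (t : RI d → ℝ) (w : RI m → ℝ) : RI (d + m) → ℝ := fun p => Sum.elim t w ((eR d m).symm p)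

@[simp] theorem jr_fi (t : RI d → ℝ) (w : RI m → ℝ) (p : RI d) : jr t w (fi m p) = t p := by
  unfold jr
  rw [← eR_inl, Equiv.symm_apply_apply, Sum.elim_inl]

@[simp] theorem jr_bi (t : RI d → ℝ) (w : RI m → ℝ) (p : RI m) : jr t w (bi d p) = w p := by
  unfold jr
  rw [← eR_inr, Equiv.symm_apply_apply, Sum.elim_inr]

theorem exists_fi_or_bi (p : RI (d + m)) : (∃ q : RI d, p = fi m q) ∨ ∃ q : RI m, p = bi d q := by
  obtain ⟨s, rfl⟩ := (eR d m).surjective p
  rcases s with q | q
  · exact Or.inl ⟨q, rfl⟩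
  · exact Or.inr ⟨q, rfl⟩

theorem jr_eq (x : RI (d + m) → ℝ) :
    jr (fun p => x (fi m p)) (fun p => x (bi d p)) = x := by
  funext p
  rcases exists_fi_or_bi p with ⟨q, rfl⟩ | ⟨q, rfl⟩
  · rw [jr_fi]
  · rw [jr_bi]

/-- `jr` as a continuous linear equivalence -/
def jrE (d m : ℕ) : ((RI d → ℝ) × (RI m → ℝ)) ≃L[ℝ] (RI (d + m) → ℝ) :=
  LinearEquiv.toContinuousLinearEquiv
    { toFun := fun q => jr q.1 q.2
      invFun := fun x => (fun p => x (fi m p), fun p => x (bi d p))
      left_inv := fun q => by simp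
      right_inv := fun x => jr_eq x
      map_add' := fun q q' => by
        funext p
        rcases exists_fi_or_bi p with ⟨s, rfl⟩ | ⟨s, rfl⟩ <;> simp
      map_smul' := fun c q => by
        funext p
        rcases exists_fi_or_bi p with ⟨s, rfl⟩ | ⟨s, rfl⟩ <;> simp }

@[simp] theorem jrE_apply (q : (RI d → ℝ) × (RI m → ℝ)) : jrE d m q = jr q.1 q.2 := rfl

theorem contDiff_jr : ContDiff ℝ ∞ fun q : (RI d → ℝ) × (RI m → ℝ) => jr q.1 q.2 :=
  (jrE d m).contDiff

theorem continuous_jr : Continuous fun q : (RI d → ℝ) × (RI m → ℝ) => jr q.1 q.2 :=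
  (jrE d m).continuous

/-- `jr` preserves the volume -/
theorem mp_jr : MeasurePreserving (fun q : (RI d → ℝ) × (RI m → ℝ) => jr q.1 q.2) volume volume := by
  have h1 := (volume_measurePreserving_sumPiEquivProdPi (fun _ : RI d ⊕ RI m => ℝ)).symm
    (MeasurableEquiv.sumPiEquivProdPi (fun _ : RI d ⊕ RI m => ℝ))
  have h2 := volume_measurePreserving_piCongrLeft (fun _ : RI (d + m) => ℝ) (eR d m)
  have h3 := h2.comp h1
  have h4 : (fun q : (RI d → ℝ) × (RI m → ℝ) => jr q.1 q.2) =
      (MeasurableEquiv.piCongrLeft (fun _ : RI (d + m) => ℝ) (eR d m)) ∘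
        (MeasurableEquiv.sumPiEquivProdPi (fun _ : RI d ⊕ RI m => ℝ)).symm := by
    funext q
    funext p
    obtain ⟨s, rfl⟩ := (eR d m).surjective p
    simp only [Function.comp_apply]
    rw [MeasurableEquiv.coe_piCongrLeft, Equiv.piCongrLeft_apply_apply]
    rcases s with s | s
    · rw [eR_inl, jr_fi]; rfl
    · rw [eR_inr, jr_bi]; rfl
  rw [h4]
  exact h3

/-- Fubini -/
theorem integral_jr {g : (RI (d + m) → ℝ) → ℂ} (hg : Integrable g) :
    ∫ x, g x = ∫ w : RI m → ℝ, ∫ t : RI d → ℝ, g (jr t w) := by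
  have hemb : MeasurableEmbedding (fun q : (RI d → ℝ) × (RI m → ℝ) => jr q.1 q.2) :=
    (jrE d m).toHomeomorph.measurableEmbedding
  have h1 : Integrable (fun q : (RI d → ℝ) × (RI m → ℝ) => g (jr q.1 q.2)) :=
    (mp_jr.integrable_comp_emb hemb).2 hg
  rw [← mp_jr.integral_comp hemb g]
  exact integral_prod_symm _ h1

theorem integrable_par_aux {g : (RI (d + m) → ℝ) → ℂ} (hg : Integrable g) :
    Integrable (fun w : RI m → ℝ => ∫ t : RI d → ℝ, g (jr t w)) := by
  have hemb : MeasurableEmbedding (fun q : (RI d → ℝ) × (RI m → ℝ) => jr q.1 q.2) :=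
    (jrE d m).toHomeomorph.measurableEmbedding
  have h1 : Integrable (fun q : (RI d → ℝ) × (RI m → ℝ) => g (jr q.1 q.2)) :=
    (mp_jr.integrable_comp_emb hemb).2 hg
  exact h1.integral_prod_right

/-! ### the integral over the fibre coordinates -/

/-- integral over the fibre coordinates -/
def par (g : (RI (d + m) → ℝ) → ℂ) (w : RI m → ℝ) : ℂ := ∫ t : RI d → ℝ, g (jr t w)

/-- the fibre part of the support -/
def ksupp (g : (RI (d + m) → ℝ) → ℂ) : Set (RI d → ℝ) :=
  (fun x p => x (fi m p)) '' tsupport g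

theorem ksupp_compact {g : (RI (d + m) → ℝ) → ℂ} (hg : HasCompactSupport g) :
    IsCompact (ksupp g) := by
  refine IsCompact.image hg ?_
  exact continuous_pi fun p => continuous_apply _

theorem eq_zero_of_notMem_ksupp {g : (RI (d + m) → ℝ) → ℂ} {t : RI d → ℝ} (ht : t ∉ ksupp g)
    (w : RI m → ℝ) : g (jr t w) = 0 := by
  refine image_eq_zero_of_notMem_tsupport fun h => ht ⟨jr t w, h, ?_⟩
  funext p
  exact jr_fi t w p

theorem par_eq_conv (g : (RI (d + m) → ℝ) → ℂ) (w : RI m → ℝ) :
    par g w = (MeasureTheory.convolution (fun _ : RI d → ℝ => (1 : ℝ))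
      (fun t => g (jr (-t) w)) (ContinuousLinearMap.lsmul ℝ ℝ) volume) 0 := by
  unfold par convolution
  simp

variable {g : (RI (d + m) → ℝ) → ℂ}

/-- the integral over the fibre coordinates is smooth -/
theorem contDiff_par (hg : ContDiff ℝ ∞ g) (hc : HasCompactSupport g) : ContDiff ℝ ∞ (par g) := by
  have h1 := contDiffOn_convolution_right_with_param_comp (𝕜 := ℝ) (n := ⊤) (μ := volume)
    (ContinuousLinearMap.lsmul ℝ ℝ : ℝ →L[ℝ] ℂ →L[ℝ] ℂ) (s := (univ : Set (RI m → ℝ)))
    (v := fun _ => (0 : RI d → ℝ)) contDiffOn_const (f := fun _ : RI d → ℝ => (1 : ℝ))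
    (g := fun w t => g (jr (-t) w)) (k := (fun t => -t) '' ksupp g) isOpen_univ
    ((ksupp_compact hc).image continuous_neg)
    (fun w t _ ht => eq_zero_of_notMem_ksupp (fun h => ht ⟨-t, h, neg_neg t⟩) w)
    (locallyIntegrable_const 1) ?_
  · rw [contDiffOn_univ] at h1
    have h2 : par g = _ := funext fun w => par_eq_conv g w
    rw [h2]
    exact h1
  · refine (hg.comp ?_).contDiffOn
    exact contDiff_jr.comp (contDiff_snd.neg.prodMk contDiff_fst)






end

end Crest.Agent.R281.Fib1_425
end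

-- ▼ part R281/Fib2_425
section

/-!
# R281 (S0424), leaf S6-FIB, part 2 (helper425): the push-forward `f_*`

`B : Atl (d + m) V`, `P : Part B`, `y : V → Cn m` the projection, adapted charts (the last `m`
coordinates are `y`), `y` proper over the open set `U` (structure `Prj`).

* `push P η w := ∑ᶠ i, ∫ t : RI d → ℝ, rd B i (ψ_i η_i) (jr t (rc w))` : integral of the density
  `η` over the fibre `y⁻¹(w)`;
* `push_eq_sum`, `push_congr`, `push_add`, `push_smul`, `push_mul_base`, `push_conj`;
* `contDiffOn_push` : `push P η` is smooth on `U`;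
* `intD_push` : `intD P (χ(y) η) = ∫ w, χ(w) push P η w` (Fubini);
* `push_eq_of_dual` : the duality principle, `push_indep` : independence of the partition.
-/

set_option autoImplicit false
set_option linter.unusedSectionVars false

open Set Filter Topology Complex MeasureTheory
open scoped ContDiff ComplexConjugate

namespace Crest.Agent.R281.Fib2_425

open Crest.Agent.R275.Geo Crest.Agent.R275.Tor812 Crest.Agent.R275.TorS666
open Crest.Agent.R275.C1d194 Crest.Agent.R275.Pai323 Crest.Agent.R275.OmT75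
open Crest.Agent.R275.SerG398 (lint dens DPair)
open Crest.Agent.R273.StokesV_332 Crest.Agent.R281.Fib1_425

noncomputable section

variable {d m : ℕ} {V : Type} [TopologicalSpace V] {B : Atl (d + m) V} {y : V → Cn m}
  {U : Set (Cn m)}

/-- the last `m` coordinates -/
def bs (d : ℕ) : Cn (d + m) →L[ℂ] Cn m :=
  LinearMap.toContinuousLinearMap
    { toFun := fun z => WithLp.toLp 2 (fun a => z (Fin.natAdd d a))
      map_add' := fun z z' => by ext a; rfl
      map_smul' := fun c z => by ext a; rfl }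

@[simp] theorem bs_apply (z : Cn (d + m)) (a : Fin m) : bs d z a = z (Fin.natAdd d a) := rfl

theorem bs_cc (t : RI d → ℝ) (w : RI m → ℝ) : bs d (cc (jr t w)) = cc w := by
  ext a
  have h0 := jr_bi t w (a, 0)
  have h1 := jr_bi t w (a, 1)
  rw [bs_apply, cc_apply, cc_apply, ← h0, ← h1]
  rfl

/-- `y` is the projection onto the last `m` coordinates, proper over the open set `U` -/
structure Prj (B : Atl (d + m) V) (y : V → Cn m) (U : Set (Cn m)) : Prop where
  last : ∀ k, ∀ v ∈ (B.e k).source, ∀ a, B.e k v (Fin.natAdd d a) = y v a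
  mem : ∀ v, y v ∈ U
  proper : ∀ C ⊆ U, IsCompact C → IsCompact (y ⁻¹' C)
  opn : IsOpen U

namespace Prj

variable (h : Prj B y U)

include h

theorem bs_e {k : B.ι} {v : V} (hv : v ∈ (B.e k).source) : bs d (B.e k v) = y v := by
  ext a
  exact h.last k v hv a

theorem y_symm {k : B.ι} {z : Cn (d + m)} (hz : z ∈ (B.e k).target) :
    y ((B.e k).symm z) = bs d z := by
  rw [← h.bs_e ((B.e k).map_target hz), (B.e k).right_inv hz]

theorem y_jr {k : B.ι} {t : RI d → ℝ} {w : RI m → ℝ} (hx : jr t w ∈ Ui B k) :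
    y ((B.e k).symm (cc (jr t w))) = cc w := by
  rw [h.y_symm hx, bs_cc]

theorem cont : Continuous y := by
  rw [continuous_iff_continuousAt]
  intro v
  obtain ⟨k, hk⟩ := B.cover v
  have h1 : ContinuousAt (fun v => bs d (B.e k v)) v :=
    (bs d (m := m)).continuous.continuousAt.comp ((B.e k).continuousAt hk)
  refine h1.congr ?_
  filter_upwards [(B.e k).open_source.mem_nhds hk] with v' hv'
  exact h.bs_e hv'

theorem sm {W : Type*} [NormedAddCommGroup W] [NormedSpace ℝ W] {φ : Cn m → W}
    (hφ : ContDiffOn ℝ ∞ φ U) : B.Sm (fun v => φ (y v)) := by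
  intro k
  have h1 : ContDiffOn ℝ ∞ (fun z => φ (bs d z)) (B.e k).target := by
    refine hφ.comp ((bs d (m := m)).restrictScalars ℝ).contDiff.contDiffOn fun z hz => ?_
    show bs d z ∈ U
    rw [← h.y_symm hz]
    exact h.mem _
  exact h1.congr fun z hz => congrArg φ (h.y_symm hz)

end Prj

/-! ### the push-forward -/

/-- one term of the push-forward -/
def tm (P : Part B) (η : B.ι → V → ℂ) (i : B.ι) (w : Cn m) : ℂ :=
  par (rd B i (fun x => (P.ψ i x : ℂ) * η i x)) (rc w)

/-- **the push-forward** `f_* η` : the integral of `η` over the fibre of `w` -/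
def push (P : Part B) (η : B.ι → V → ℂ) (w : Cn m) : ℂ := ∑ᶠ i, tm P η i w

variable {P P' : Part B} {η θ : B.ι → V → ℂ} {C : Set (Cn m)} {w : Cn m}

theorem tm_congr {i : B.ι} (h : Prj B y U)
    (hη : ∀ x ∈ (B.e i).source, y x = w → η i x = θ i x) : tm P η i w = tm P θ i w := by
  unfold tm par
  congr 1
  funext t
  by_cases hx : jr t (rc w) ∈ Ui B i
  · rw [rd_of_mem hx, rd_of_mem hx, hη _ ((B.e i).map_target hx)]
    rw [h.y_jr hx, cc_rc]
  · rw [rd_off hx, rd_off hx]

theorem tm_zero_of {i : B.ι} (h : Prj B y U)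
    (hη : ∀ x ∈ (B.e i).source, y x = w → (P.ψ i x : ℂ) * η i x = 0) : tm P η i w = 0 := by
  unfold tm par
  have : (fun t : RI d → ℝ => rd B i (fun x => (P.ψ i x : ℂ) * η i x) (jr t (rc w))) =
      fun _ => 0 := by
    funext t
    by_cases hx : jr t (rc w) ∈ Ui B i
    · rw [rd_of_mem hx]
      refine hη _ ((B.e i).map_target hx) ?_
      rw [h.y_jr hx, cc_rc]
    · rw [rd_off hx]
  rw [this, integral_zero]

theorem tm_off {i : B.ι} (h : Prj B y U) {K : Set V} (hK : IsCompact K) {F : Finset B.ι}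
    (hF : Fn P hK ⊆ F) (hw : ∀ x, y x = w → x ∈ K) (hi : i ∉ F) : tm P η i w = 0 :=
  tm_zero_of h fun x _ hx => by rw [psi_zero_of_notMem P hK hF hi (hw x hx)]; simp

/-- finite sum over compact subsets of the base -/
theorem push_eq_sum (h : Prj B y U) {K : Set V} (hK : IsCompact K) {F : Finset B.ι}
    (hF : Fn P hK ⊆ F) (hw : ∀ x, y x = w → x ∈ K) : push P η w = ∑ i ∈ F, tm P η i w := by
  refine finsum_eq_sum_of_support_subset _ ?_
  intro i hi
  by_contra hi'
  exact hi (tm_off h hK hF hw hi')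

/-- the charts meeting the fibres over `C` -/
def Fc (h : Prj B y U) (P : Part B) (hC : IsCompact C) (hCU : C ⊆ U) : Finset B.ι :=
  Fn P (h.proper C hCU hC)

theorem push_sum (h : Prj B y U) (P : Part B) (hC : IsCompact C) (hCU : C ⊆ U)
    (hw : w ∈ C) : push P η w = ∑ i ∈ Fc h P hC hCU, tm P η i w :=
  push_eq_sum h (h.proper C hCU hC) (Finset.Subset.refl _) fun x hx => by
    show y x ∈ C
    rw [hx]; exact hw

theorem push_pt (h : Prj B y U) (P : Part B) (hw : w ∈ U) :
    push P η w = ∑ i ∈ Fc h P (isCompact_singleton (x := w)) (singleton_subset_iff.2 hw),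
      tm P η i w := push_sum h P _ _ (mem_singleton w)

theorem push_congr (h : Prj B y U)
    (hη : ∀ i, ∀ x ∈ (B.e i).source, y x = w → η i x = θ i x) : push P η w = push P θ w :=
  finsum_congr fun i => tm_congr h (hη i)

theorem push_zero (h : Prj B y U) (hη : ∀ i, ∀ x ∈ (B.e i).source, y x = w → η i x = 0) :
    push P η w = 0 := by
  unfold push
  rw [finsum_congr fun i => tm_zero_of (w := w) h fun x hx hy => by rw [hη i x hx hy, mul_zero],
    finsum_zero]

theorem tm_smul (c : ℂ) (i : B.ι) : tm P (fun i x => c * η i x) i w = c * tm P η i w := by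
  unfold tm par
  rw [← integral_const_mul]
  congr 1
  funext t
  by_cases hx : jr t (rc w) ∈ Ui B i
  · rw [rd_of_mem hx, rd_of_mem hx]; ring
  · rw [rd_off hx, rd_off hx, mul_zero]

theorem push_smul (h : Prj B y U) (c : ℂ) (hw : w ∈ U) :
    push P (fun i x => c * η i x) w = c * push P η w := by
  rw [push_pt h P hw, push_pt h P hw, Finset.mul_sum]
  exact Finset.sum_congr rfl fun i _ => tm_smul c i

/-- functions of the base come out -/
theorem push_mul_base (h : Prj B y U) (φ : Cn m → ℂ) (hw : w ∈ U) :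
    push P (fun i x => φ (y x) * η i x) w = φ w * push P η w := by
  rw [← push_smul h (φ w) hw]
  exact push_congr h fun i x _ hx => by rw [hx]

theorem push_conj (h : Prj B y U) (hw : w ∈ U) :
    push P (fun i x => conj (η i x)) w = conj (push P η w) := by
  rw [push_pt h P hw, push_pt h P hw, map_sum]
  refine Finset.sum_congr rfl fun i _ => ?_
  unfold tm par
  rw [← integral_conj]
  congr 1
  funext t
  by_cases hx : jr t (rc w) ∈ Ui B i
  · rw [rd_of_mem hx, rd_of_mem hx, map_mul, Complex.conj_ofReal]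
  · rw [rd_off hx, rd_off hx, map_zero]

section t2

variable [T2Space V]

theorem cc_psi (P : Part B) {i : B.ι} {f : V → ℂ} (hf : B.SmAt i f) :
    CC B i (cut B i (fun x => (P.ψ i x : ℂ) * f x)) :=
  cc_cut (ContDiffOn.mul (smAt_ofReal (P.ψ_sm i i)) hf) (P.χ_cpt i) (P.χ_sub i)
    fun x _ hx => by rw [psi_zero_off P i hx]; simp

theorem rd_smooth (P : Part B) {i : B.ι} {f : V → ℂ} (hf : B.SmAt i f) :
    ContDiff ℝ ∞ (rd B i (fun x => (P.ψ i x : ℂ) * f x)) := by
  rw [← rd_cut]
  exact (cc_psi P hf).isCC.smooth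

theorem rd_cs (P : Part B) {i : B.ι} {f : V → ℂ} (hf : B.SmAt i f) :
    HasCompactSupport (rd B i (fun x => (P.ψ i x : ℂ) * f x)) := by
  rw [← rd_cut]
  exact (cc_psi P hf).isCC.hasCompactSupport

theorem rd_integrable (P : Part B) {i : B.ι} {f : V → ℂ} (hf : B.SmAt i f) :
    Integrable (rd B i (fun x => (P.ψ i x : ℂ) * f x)) :=
  (rd_smooth P hf).continuous.integrable_of_hasCompactSupport (rd_cs P hf)

theorem fib_integrable {g : (RI (d + m) → ℝ) → ℂ} (hg : ContDiff ℝ ∞ g)
    (hc : HasCompactSupport g) (w : RI m → ℝ) : Integrable (fun t : RI d → ℝ => g (jr t w)) := by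
  refine Continuous.integrable_of_hasCompactSupport ?_ ?_
  · exact hg.continuous.comp (continuous_jr.comp (continuous_id.prodMk continuous_const))
  · exact HasCompactSupport.intro (ksupp_compact hc) fun t ht => eq_zero_of_notMem_ksupp ht w

theorem tm_add {i : B.ι} (hη : B.SmAt i (η i)) (hθ : B.SmAt i (θ i)) :
    tm P (fun i x => η i x + θ i x) i w = tm P η i w + tm P θ i w := by
  unfold tm par
  rw [← integral_add (fib_integrable (rd_smooth P hη) (rd_cs P hη) _)
    (fib_integrable (rd_smooth P hθ) (rd_cs P hθ) _)]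
  congr 1
  funext t
  by_cases hx : jr t (rc w) ∈ Ui B i
  · rw [rd_of_mem hx, rd_of_mem hx, rd_of_mem hx]; ring
  · rw [rd_off hx, rd_off hx, rd_off hx, add_zero]

theorem push_add (h : Prj B y U) (hη : ∀ i, B.SmAt i (η i)) (hθ : ∀ i, B.SmAt i (θ i))
    (hw : w ∈ U) : push P (fun i x => η i x + θ i x) w = push P η w + push P θ w := by
  rw [push_pt h P hw, push_pt h P hw, push_pt h P hw, ← Finset.sum_add_distrib]
  exact Finset.sum_congr rfl fun i _ => tm_add (hη i) (hθ i)

theorem push_neg (h : Prj B y U) (hw : w ∈ U) :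
    push P (fun i x => - η i x) w = - push P η w := by
  rw [← neg_one_mul, ← push_smul h (-1) hw]
  exact push_congr h fun i x _ _ => by ring

theorem push_sub (h : Prj B y U) (hη : ∀ i, B.SmAt i (η i)) (hθ : ∀ i, B.SmAt i (θ i))
    (hw : w ∈ U) : push P (fun i x => η i x - θ i x) w = push P η w - push P θ w := by
  have h1 := push_add (P := P) h hη (θ := fun i x => - θ i x) (fun i => ContDiffOn.neg (hθ i)) hw
  rw [push_neg h hw] at h1
  rw [sub_eq_add_neg, ← h1]
  exact push_congr h fun i x _ _ => by ring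

theorem push_finsum {σ : Type*} (h : Prj B y U) (s : Finset σ) {F : σ → B.ι → V → ℂ}
    (hF : ∀ t ∈ s, ∀ i, B.SmAt i (F t i)) (hw : w ∈ U) :
    push P (fun i x => ∑ t ∈ s, F t i x) w = ∑ t ∈ s, push P (F t) w := by
  classical
  induction s using Finset.induction_on with
  | empty => simpa using push_zero (P := P) (η := fun _ _ => 0) h fun _ _ _ _ => rfl
  | insert t s ht ih =>
    have h1 : ∀ t' ∈ s, ∀ i, B.SmAt i (F t' i) := fun t' h => hF t' (Finset.mem_insert_of_mem h)
    have h3 := push_add (P := P) h (η := F t) (θ := fun i x => ∑ t ∈ s, F t i x)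
      (hF t (Finset.mem_insert_self t s)) (fun i => ContDiffOn.sum fun t' h => h1 t' h i) hw
    rw [Finset.sum_insert ht, ← ih h1, ← h3]
    exact push_congr h fun i x _ _ => Finset.sum_insert ht

theorem contDiff_tm {i : B.ι} (hη : B.SmAt i (η i)) : ContDiff ℝ ∞ (tm P η i) := by
  have h1 : ContDiff ℝ ∞ (rc : Cn m → RI m → ℝ) := by
    rw [rc_eq]
    exact (rcL m).contDiff
  exact (contDiff_par (rd_smooth P hη) (rd_cs P hη)).comp h1

/-- **`f_* η` is smooth on `U`** -/
theorem contDiffOn_push (h : Prj B y U) (hη : ∀ i, B.SmAt i (η i)) :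
    ContDiffOn ℝ ∞ (push P η) U := by
  intro w hw
  obtain ⟨C, hC, hwC, hCU⟩ := exists_compact_subset h.opn hw
  have h1 : ContDiffAt ℝ ∞ (fun w => ∑ i ∈ Fc h P hC hCU, tm P η i w) w :=
    (ContDiff.sum fun i _ => contDiff_tm (hη i)).contDiffAt
  refine (h1.congr_of_eventuallyEq ?_).contDiffWithinAt
  filter_upwards [isOpen_interior.mem_nhds hwC] with w' hw'
  exact push_sum h P hC hCU (interior_subset hw')

theorem continuousOn_push (h : Prj B y U) (hη : ∀ i, B.SmAt i (η i)) :
    ContinuousOn (push P η) U := (contDiffOn_push h hη).continuousOn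

/-- **Fubini** -/
theorem intD_push (h : Prj B y U) (hη : ∀ i, B.SmAt i (η i)) {χ : Cn m → ℂ}
    (hχ : ContDiff ℝ ∞ χ) (hC : IsCompact C) (hCU : C ⊆ U) (h0 : ∀ w, w ∉ C → χ w = 0) :
    intD P (fun i x => χ (y x) * η i x) = ∫ w : RI m → ℝ, χ (cc w) * push P η (cc w) := by
  have hK := h.proper C hCU hC
  have hoff : OffK B (fun i x => χ (y x) * η i x) (y ⁻¹' C) := fun i x _ hx => by
    show χ (y x) * η i x = 0
    rw [h0 _ hx, zero_mul]
  rw [intD_eq_sum P hK (Finset.Subset.refl _) hoff]
  have hsm : ∀ i, B.SmAt i (fun x => χ (y x) * η i x) := fun i =>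
    ContDiffOn.mul (h.sm hχ.contDiffOn i) (hη i)
  have h1 : ∀ i, lint B i (fun x => (P.ψ i x : ℂ) * (χ (y x) * η i x)) =
      ∫ w : RI m → ℝ, χ (cc w) * par (rd B i (fun x => (P.ψ i x : ℂ) * η i x)) w := by
    intro i
    show ∫ x, rd B i (fun x => (P.ψ i x : ℂ) * (χ (y x) * η i x)) x = _
    rw [integral_jr (rd_integrable P (hsm i))]
    refine integral_congr_ae (Eventually.of_forall fun w => ?_)
    show ∫ t, _ = _ * ∫ t, _
    rw [← integral_const_mul]
    refine integral_congr_ae (Eventually.of_forall fun t => ?_)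
    show rd B i (fun x => (P.ψ i x : ℂ) * (χ (y x) * η i x)) (jr t w) =
      χ (cc w) * rd B i (fun x => (P.ψ i x : ℂ) * η i x) (jr t w)
    by_cases hx : jr t w ∈ Ui B i
    · rw [rd_of_mem hx, rd_of_mem hx, h.y_jr hx]; ring
    · rw [rd_off hx, rd_off hx, mul_zero]
  have h2 : ∀ i, Integrable (fun w : RI m → ℝ =>
      χ (cc w) * par (rd B i (fun x => (P.ψ i x : ℂ) * η i x)) w) := by
    intro i
    have h3 := integrable_par_aux (rd_integrable P (hsm i))
    refine h3.congr (Eventually.of_forall fun w => ?_)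
    show ∫ t, _ = _ * ∫ t, _
    rw [← integral_const_mul]
    refine integral_congr_ae (Eventually.of_forall fun t => ?_)
    show rd B i (fun x => (P.ψ i x : ℂ) * (χ (y x) * η i x)) (jr t w) =
      χ (cc w) * rd B i (fun x => (P.ψ i x : ℂ) * η i x) (jr t w)
    by_cases hx : jr t w ∈ Ui B i
    · rw [rd_of_mem hx, rd_of_mem hx, h.y_jr hx]; ring
    · rw [rd_off hx, rd_off hx, mul_zero]
  rw [Finset.sum_congr rfl fun i _ => h1 i, ← integral_finsetSum _ fun i _ => h2 i]
  refine integral_congr_ae (Eventually.of_forall fun w => ?_)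
  show ∑ i ∈ Fn P hK, _ = χ (cc w) * push P η (cc w)
  rw [← Finset.mul_sum]
  by_cases hw : cc w ∈ C
  · rw [push_sum h P hC hCU hw]
    unfold tm
    rw [rc_cc]
    rfl
  · rw [h0 _ hw, zero_mul, zero_mul]

end t2

end

end Crest.Agent.R281.Fib2_425
end

-- ▼ part R281/Fib3_425
section

/-!
# R281 (S0424), leaf S6-FIB, part 3 (helper425): duality and transport

* `eq_of_int`        : two continuous functions on `U` with the same integrals against all
  test functions agree;
* `push_eq_of_dual`, `push_indep` : duality principle, independence of the partition;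
* `transport10`, `transport01` : `f_*(div Y) = ∑_k ∂_k f_*(Y(y_k))` for vector densities on `V`.
-/

set_option autoImplicit false
set_option linter.unusedSectionVars false

open Set Filter Topology Complex MeasureTheory
open scoped ContDiff ComplexConjugate

namespace Crest.Agent.R281.Fib3_425

open Crest.Agent.R275.Geo Crest.Agent.R275.Tor812 Crest.Agent.R275.TorS666
open Crest.Agent.R275.C1d194 Crest.Agent.R275.Pai323 Crest.Agent.R275.OmT75
open Crest.Agent.R275.SerG398 (lint dens DPair)
open Crest.Agent.R273.StokesV_332 Crest.Agent.R281.Fib1_425 Crest.Agent.R281.Fib2_425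

noncomputable section

/-! ### calculus on the base -/

section base

variable {m : ℕ} {U : Set (Cn m)}

theorem contDiff_rcB : ContDiff ℝ ∞ (rc : Cn m → RI m → ℝ) := by
  rw [rc_eq]
  exact (rcL m).contDiff

theorem contDiff_ccB : ContDiff ℝ ∞ (cc : (RI m → ℝ) → Cn m) := by
  rw [cc_eq]
  exact ((rcE m).symm.toContinuousLinearEquiv).contDiff


theorem hasCompactSupport_cc {E : Type*} [Zero E] {f : Cn m → E} (hf : HasCompactSupport f) :
    HasCompactSupport (fun w => f (cc w)) :=
  HasCompactSupport.intro (K := rc '' tsupport f) (hf.image continuous_rc) fun w hw =>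
    image_eq_zero_of_notMem_tsupport fun h => hw ⟨cc w, h, rc_cc w⟩

/-- two continuous functions with the same integrals against test functions -/
theorem eq_of_int (hU : IsOpen U) {F G : Cn m → ℂ} (hF : ContinuousOn F U) (hG : ContinuousOn G U)
    (h : ∀ χ : Cn m → ℝ, ContDiff ℝ ∞ χ → HasCompactSupport χ → tsupport χ ⊆ U →
      ∫ w : RI m → ℝ, (χ (cc w) : ℂ) * F (cc w) = ∫ w : RI m → ℝ, (χ (cc w) : ℂ) * G (cc w)) :
    EqOn F G U := by
  have hU' : IsOpen ((cc : (RI m → ℝ) → Cn m) ⁻¹' U) := hU.preimage continuous_cc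
  have hF' : ContinuousOn (fun w : RI m → ℝ => F (cc w)) (cc ⁻¹' U) :=
    hF.comp continuous_cc.continuousOn fun w hw => hw
  have hG' : ContinuousOn (fun w : RI m → ℝ => G (cc w)) (cc ⁻¹' U) :=
    hG.comp continuous_cc.continuousOn fun w hw => hw
  have hint : ∀ (χ : (RI m → ℝ) → ℝ), ContDiff ℝ ∞ χ → HasCompactSupport χ →
      tsupport χ ⊆ cc ⁻¹' U → ∀ {H : (RI m → ℝ) → ℂ}, ContinuousOn H (cc ⁻¹' U) →
      Integrable (fun w => (χ w : ℂ) * H w) := by
    intro χ hχ hc hs H hH
    refine Continuous.integrable_of_hasCompactSupport ?_ ?_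
    · rw [continuous_iff_continuousAt]
      intro w
      by_cases hw : w ∈ tsupport χ
      · exact ((Complex.continuous_ofReal.comp hχ.continuous).continuousAt).mul
          (hH.continuousAt (hU'.mem_nhds (hs hw)))
      · have : (fun w => (χ w : ℂ) * H w) =ᶠ[𝓝 w] fun _ => 0 := by
          filter_upwards [(isClosed_tsupport χ).isOpen_compl.mem_nhds hw] with w' hw'
          rw [image_eq_zero_of_notMem_tsupport hw']; simp
        exact continuousAt_const.congr this.symm
    · exact HasCompactSupport.intro hc fun w hw => by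
        rw [image_eq_zero_of_notMem_tsupport hw]; simp
  have h1 := IsOpen.ae_eq_zero_of_integral_contDiff_smul_eq_zero (μ := volume) hU'
    (f := fun w : RI m → ℝ => F (cc w) - G (cc w))
    ((hF'.sub hG').locallyIntegrableOn hU'.measurableSet) ?_
  · have h2 : (fun w : RI m → ℝ => F (cc w)) =ᵐ[volume.restrict (cc ⁻¹' U)]
        fun w => G (cc w) := by
      refine (ae_restrict_iff' hU'.measurableSet).2 ?_
      filter_upwards [h1] with w hw hwU
      exact sub_eq_zero.1 (hw hwU)
    have h3 := Measure.eqOn_open_of_ae_eq h2 hU' hF' hG'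
    intro z hz
    have h4 := h3 (x := rc z) (by show cc (rc z) ∈ U; rw [cc_rc]; exact hz)
    simpa only [cc_rc] using h4
  · intro χ hχ hc hs
    have h5 := h (fun z => χ (rc z)) (hχ.comp contDiff_rcB) ?_ ?_
    · simp only [rc_cc] at h5
      have h6 : ∫ w, χ w • (F (cc w) - G (cc w)) =
          (∫ w, (χ w : ℂ) * F (cc w)) - (∫ w, (χ w : ℂ) * G (cc w)) := by
        rw [← integral_sub (hint χ hχ hc hs hF') (hint χ hχ hc hs hG')]
        refine integral_congr_ae (Eventually.of_forall fun w => ?_)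
        show χ w • (F (cc w) - G (cc w)) = (χ w : ℂ) * F (cc w) - (χ w : ℂ) * G (cc w)
        rw [Complex.real_smul, mul_sub]
      rw [h6, h5, sub_self]
    · exact HasCompactSupport.intro (K := cc '' tsupport χ) (hc.image continuous_cc) fun z hz =>
        image_eq_zero_of_notMem_tsupport fun h => hz ⟨rc z, h, cc_rc z⟩
    · have h7 : tsupport (fun z : Cn m => χ (rc z)) ⊆ cc '' tsupport χ := by
        refine closure_minimal ?_ (hc.image continuous_cc).isClosed
        intro z hz
        exact ⟨rc z, subset_tsupport _ hz, cc_rc z⟩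
      refine h7.trans ?_
      rintro _ ⟨w, hw, rfl⟩
      exact hs hw

theorem fderiv_ccB {f : Cn m → ℂ} (hf : Differentiable ℝ f) (w v : RI m → ℝ) :
    fderiv ℝ (fun w => f (cc w)) w v = fderiv ℝ f (cc w) (cc v) := by
  have h3 : HasFDerivAt (cc : (RI m → ℝ) → Cn m)
      ((rcE m).symm.toContinuousLinearEquiv : (RI m → ℝ) →L[ℝ] Cn m) w := by
    rw [cc_eq]
    exact ((rcE m).symm.toContinuousLinearEquiv).hasFDerivAt
  have h4 : HasFDerivAt (fun w => f (cc w)) _ w := ((hf (cc w)).hasFDerivAt).comp w h3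
  rw [h4.fderiv]
  rfl

theorem integral_fderiv_zero {f : (RI m → ℝ) → ℂ} (hf : ContDiff ℝ ∞ f)
    (hc : HasCompactSupport f) (v : RI m → ℝ) : ∫ w, fderiv ℝ f w v = 0 := by
  have h7 : Integrable (fun t => fderiv ℝ f t v) := by
    refine Continuous.integrable_of_hasCompactSupport ?_ ?_
    · exact (hf.continuous_fderiv (by simp)).clm_apply continuous_const
    · have h := hc.fderiv (𝕜 := ℝ)
      exact h.comp_left (g := fun L : (RI m → ℝ) →L[ℝ] ℂ => L v) (by simp)
  have h8 : Integrable f := hf.continuous.integrable_of_hasCompactSupport hc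
  have h6 := integral_mul_fderiv_eq_neg_fderiv_mul_of_integrable
    (μ := (volume : Measure (RI m → ℝ))) (𝕜 := ℂ) (v := v) (f := fun _ => (1 : ℂ)) (g := f)
    (by simp) (by simpa using h7) (by simpa using h8)
    (fun _ _ => differentiableAt_const _) (fun t _ => hf.differentiable (by simp) t)
  simpa using h6

theorem integrable_fderiv {f : (RI m → ℝ) → ℂ} (hf : ContDiff ℝ ∞ f)
    (hc : HasCompactSupport f) (v : RI m → ℝ) : Integrable fun w => fderiv ℝ f w v := by
  refine Continuous.integrable_of_hasCompactSupport ?_ ?_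
  · exact (hf.continuous_fderiv (by simp)).clm_apply continuous_const
  · have h := hc.fderiv (𝕜 := ℝ)
    exact h.comp_left (g := fun L : (RI m → ℝ) →L[ℝ] ℂ => L v) (by simp)

/-- `∫ ∂_k f = 0` -/
theorem integral_dj_zero {f : Cn m → ℂ} (hf : ContDiff ℝ ∞ f) (hc : HasCompactSupport f)
    (k : Fin m) : ∫ w : RI m → ℝ, dj k f (cc w) = 0 := by
  have hd : Differentiable ℝ f := hf.differentiable (by simp)
  have h1 : ∀ w : RI m → ℝ, dj k f (cc w) =
      (1 / 2 : ℂ) * (fderiv ℝ (fun w => f (cc w)) w (ev (k, 0)) -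
        I * fderiv ℝ (fun w => f (cc w)) w (ev (k, 1))) := by
    intro w
    rw [fderiv_ccB hd, fderiv_ccB hd, cc_ev_zero, cc_ev_one]
    rfl
  simp_rw [h1]
  have h2 : ContDiff ℝ ∞ (fun w : RI m → ℝ => f (cc w)) := hf.comp contDiff_ccB
  have h3 := hasCompactSupport_cc hc
  rw [integral_const_mul, integral_sub (integrable_fderiv h2 h3 _)
    ((integrable_fderiv h2 h3 _).const_mul I), integral_const_mul,
    integral_fderiv_zero h2 h3, integral_fderiv_zero h2 h3]
  simp

/-- `χ F` is smooth on the whole space -/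
theorem contDiff_mul_of_support (hU : IsOpen U) {χ : Cn m → ℝ} (hχ : ContDiff ℝ ∞ χ)
    (hs : tsupport χ ⊆ U) {F : Cn m → ℂ} (hF : ContDiffOn ℝ ∞ F U) :
    ContDiff ℝ ∞ (fun z => (χ z : ℂ) * F z) := by
  rw [contDiff_iff_contDiffAt]
  intro z
  by_cases hz : z ∈ tsupport χ
  · exact ((Complex.ofRealCLM.contDiff.comp hχ).contDiffAt).mul
      (hF.contDiffAt (hU.mem_nhds (hs hz)))
  · have : (fun z => (χ z : ℂ) * F z) =ᶠ[𝓝 z] fun _ => 0 := by
      filter_upwards [(isClosed_tsupport χ).isOpen_compl.mem_nhds hz] with w' hw'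
      rw [image_eq_zero_of_notMem_tsupport hw']; simp
    exact contDiffAt_const.congr_of_eventuallyEq this

theorem dj_zero_of {χ : Cn m → ℂ} {z : Cn m} (hz : z ∉ tsupport χ) (k : Fin m) :
    dj k χ z = 0 := by
  have h1 : fderiv ℝ χ z = 0 := by
    refine image_eq_zero_of_notMem_tsupport (f := fderiv ℝ χ) fun h => hz ?_
    exact tsupport_fderiv_subset ℝ h
  unfold dj
  rw [h1]
  simp

theorem tsupport_ofReal (χ : Cn m → ℝ) : tsupport (fun z => (χ z : ℂ)) = tsupport χ := by
  unfold tsupport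
  congr 1
  ext z
  simp

/-- `∂_k F` is smooth -/
theorem contDiffOn_dj (hU : IsOpen U) {F : Cn m → ℂ} (hF : ContDiffOn ℝ ∞ F U) (k : Fin m) :
    ContDiffOn ℝ ∞ (dj k F) U := dj_contDiffOn (a := k) hU hF

/-- integration by parts on the base -/
theorem parts_base (hU : IsOpen U) {χ : Cn m → ℝ} (hχ : ContDiff ℝ ∞ χ)
    (hc : HasCompactSupport χ) (hs : tsupport χ ⊆ U) {F : Cn m → ℂ} (hF : ContDiffOn ℝ ∞ F U)
    (k : Fin m) : ∫ w : RI m → ℝ, dj k (fun z => (χ z : ℂ)) (cc w) * F (cc w) =
      - ∫ w : RI m → ℝ, (χ (cc w) : ℂ) * dj k F (cc w) := by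
  have hχ' : ContDiff ℝ ∞ (fun z => (χ z : ℂ)) := Complex.ofRealCLM.contDiff.comp hχ
  have hf := contDiff_mul_of_support hU hχ hs hF
  have hfc : HasCompactSupport (fun z => (χ z : ℂ) * F z) :=
    HasCompactSupport.intro hc fun z hz => by
      rw [image_eq_zero_of_notMem_tsupport hz]; simp
  have h0 := integral_dj_zero hf hfc k
  have h1 : ∀ z, dj k (fun z => (χ z : ℂ) * F z) z =
      dj k (fun z => (χ z : ℂ)) z * F z + (χ z : ℂ) * dj k F z := by
    intro z
    by_cases hz : z ∈ tsupport χ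
    · exact dj_mul (hχ'.differentiable (by simp) z)
        ((hF.contDiffAt (hU.mem_nhds (hs hz))).differentiableAt (by simp))
    · rw [dj_zero_of (χ := fun z => (χ z : ℂ)) (by rwa [tsupport_ofReal]),
        image_eq_zero_of_notMem_tsupport hz, dj_zero_of]
      · simp
      · intro h
        refine hz ?_
        refine closure_minimal ?_ (isClosed_tsupport χ) h
        intro z' hz'
        by_contra h'
        refine hz' ?_
        show (χ z' : ℂ) * F z' = 0
        rw [image_eq_zero_of_notMem_tsupport h']; simp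
  simp_rw [h1] at h0
  have hi1 : Integrable (fun w : RI m → ℝ => dj k (fun z => (χ z : ℂ)) (cc w) * F (cc w)) := by
    have h2 : Integrable (fun w : RI m → ℝ => dj k (fun z => (χ z : ℂ) * F z) (cc w) -
        (χ (cc w) : ℂ) * dj k F (cc w)) := by
      refine Integrable.sub ?_ ?_
      · refine Continuous.integrable_of_hasCompactSupport ?_ ?_
        · exact (contDiffOn_univ.1 (contDiffOn_dj isOpen_univ hf.contDiffOn k)).continuous.comp
            continuous_cc
        · exact HasCompactSupport.intro (K := rc '' tsupport (fun z => (χ z : ℂ) * F z))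
            (hfc.image continuous_rc) fun w hw => dj_zero_of
              (χ := fun z => (χ z : ℂ) * F z) (fun h => hw ⟨cc w, h, rc_cc w⟩) k
      · refine Continuous.integrable_of_hasCompactSupport ?_ ?_
        · exact (contDiff_mul_of_support hU hχ hs (contDiffOn_dj hU hF k)).continuous.comp
            continuous_cc
        · refine HasCompactSupport.intro (K := rc '' tsupport χ) (hc.image continuous_rc)
            fun w hw => ?_
          rw [image_eq_zero_of_notMem_tsupport fun h => hw ⟨cc w, h, rc_cc w⟩]; simp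
    refine h2.congr (Eventually.of_forall fun w => ?_)
    show dj k (fun z => (χ z : ℂ) * F z) (cc w) - (χ (cc w) : ℂ) * dj k F (cc w) = _
    rw [h1]; ring
  have hi2 : Integrable (fun w : RI m → ℝ => (χ (cc w) : ℂ) * dj k F (cc w)) := by
    refine Continuous.integrable_of_hasCompactSupport ?_ ?_
    · exact (contDiff_mul_of_support hU hχ hs (contDiffOn_dj hU hF k)).continuous.comp
        continuous_cc
    · refine HasCompactSupport.intro (K := rc '' tsupport χ) (hc.image continuous_rc)
        fun w hw => ?_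
      rw [image_eq_zero_of_notMem_tsupport fun h => hw ⟨cc w, h, rc_cc w⟩]; simp
  rw [integral_add hi1 hi2] at h0
  exact eq_neg_of_add_eq_zero_left h0

end base

/-! ### duality -/

variable {d m : ℕ} {V : Type} [TopologicalSpace V] {B : Atl (d + m) V} {y : V → Cn m}
  {U : Set (Cn m)} {P P' : Part B} {η θ : B.ι → V → ℂ} [T2Space V]

/-- **duality principle** -/
theorem push_eq_of_dual (h : Prj B y U) (hη : ∀ i, B.SmAt i (η i)) {F : Cn m → ℂ}
    (hF : ContinuousOn F U)
    (hd : ∀ χ : Cn m → ℝ, ContDiff ℝ ∞ χ → HasCompactSupport χ → tsupport χ ⊆ U →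
      intD P (fun i x => (χ (y x) : ℂ) * η i x) = ∫ w : RI m → ℝ, (χ (cc w) : ℂ) * F (cc w)) :
    ∀ w ∈ U, push P η w = F w := by
  refine eq_of_int h.opn (continuousOn_push h hη) hF fun χ hχ hc hs => ?_
  rw [← hd χ hχ hc hs]
  exact (intD_push (χ := fun z => (χ z : ℂ)) h hη (Complex.ofRealCLM.contDiff.comp hχ) hc hs
    fun w hw => by rw [image_eq_zero_of_notMem_tsupport hw]; simp).symm


/-! ### transport -/

theorem dl_base (h : Prj B y U) {χ : Cn m → ℂ} (hχ : ContDiff ℝ ∞ χ) {i : B.ι} {x : V}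
    (hx : x ∈ (B.e i).source) (a : Fin (d + m)) :
    dl B i a (fun v => χ (y v)) x =
      (1 / 2 : ℂ) * (fderiv ℝ χ (y x) (bs d (EuclideanSpace.single a 1)) -
        I * fderiv ℝ χ (y x) (bs d (EuclideanSpace.single a I))) := by
  have h1 : (fun z => χ (y ((B.e i).symm z))) =ᶠ[𝓝 (B.e i x)] fun z => χ (bs d z) := by
    filter_upwards [(B.e i).open_target.mem_nhds ((B.e i).map_source hx)] with z hz
    rw [h.y_symm hz]
  have h2 : HasFDerivAt (fun z => χ (bs d z))
      ((fderiv ℝ χ (bs d (B.e i x))).comp ((bs d (m := m)).restrictScalars ℝ)) (B.e i x) :=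
    (hχ.differentiable (by simp) _).hasFDerivAt.comp (B.e i x)
      ((bs d (m := m)).restrictScalars ℝ).hasFDerivAt
  unfold dl dj
  rw [h1.fderiv_eq, h2.fderiv, h.bs_e hx]
  rfl

theorem bs_single_fi (a : Fin d) (c : ℂ) :
    bs d (EuclideanSpace.single (Fin.castAdd m a) c : Cn (d + m)) = 0 := by
  ext k
  have : Fin.natAdd d k ≠ Fin.castAdd m a := fun h => by
    have := congrArg Fin.val h
    simp only [Fin.val_natAdd, Fin.val_castAdd] at this
    have := a.2
    omega
  simp [this]

theorem bs_single_bi (a : Fin m) (c : ℂ) :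
    bs d (EuclideanSpace.single (Fin.natAdd d a) c : Cn (d + m)) = EuclideanSpace.single a c := by
  ext k
  by_cases hk : k = a
  · subst hk; simp
  · have : Fin.natAdd d k ≠ Fin.natAdd d a := fun h => hk (by
      have := congrArg Fin.val h
      simp only [Fin.val_natAdd] at this
      exact Fin.ext (by omega))
    simp [this, hk]

theorem dl_base_fi (h : Prj B y U) {χ : Cn m → ℂ} (hχ : ContDiff ℝ ∞ χ) {i : B.ι} {x : V}
    (hx : x ∈ (B.e i).source) (a : Fin d) :
    dl B i (Fin.castAdd m a) (fun v => χ (y v)) x = 0 := by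
  rw [dl_base h hχ hx, bs_single_fi, bs_single_fi]
  simp

theorem dl_base_bi (h : Prj B y U) {χ : Cn m → ℂ} (hχ : ContDiff ℝ ∞ χ) {i : B.ι} {x : V}
    (hx : x ∈ (B.e i).source) (a : Fin m) :
    dl B i (Fin.natAdd d a) (fun v => χ (y v)) x = dj a χ (y x) := by
  rw [dl_base h hχ hx, bs_single_bi, bs_single_bi]
  rfl

/-- **transport**, type `(1,0)` -/
theorem transport10 (h : Prj B y U) {Y : B.ι → Fin (d + m) → V → ℂ} (hY : VD10 B Y) :
    ∀ w ∈ U, push P (fun i x => ∑ a, dl B i a (Y i a) x) w =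
      ∑ k, dj k (push P (fun i x => Y i (Fin.natAdd d k) x)) w := by
  have hsm : ∀ k : Fin m, ∀ i, B.SmAt i (Y i (Fin.natAdd d k)) := fun k i => hY.sm i _
  have hp : ∀ k : Fin m, ContDiffOn ℝ ∞ (push P (fun i x => Y i (Fin.natAdd d k) x)) U :=
    fun k => contDiffOn_push h (hsm k)
  refine push_eq_of_dual (η := fun i x => ∑ a, dl B i a (Y i a) x) h
    (fun i => ContDiffOn.sum fun a _ => smAt_dl (hY.sm i a) a) ?_ ?_
  · exact continuousOn_finsetSum _ fun k _ => (contDiffOn_dj h.opn (hp k) k).continuousOn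
  intro χ hχ hc hs
  have hχ' : ContDiff ℝ ∞ (fun z => (χ z : ℂ)) := Complex.ofRealCLM.contDiff.comp hχ
  have hK := h.proper _ hs hc
  have hφ : B.Sm (fun x => (χ (y x) : ℂ)) := h.sm hχ'.contDiffOn
  have hoff : ∀ a, OffK B (fun i x => (χ (y x) : ℂ) * Y i a x) (y ⁻¹' tsupport χ) :=
    fun a i x _ hx => by
      show (χ (y x) : ℂ) * Y i a x = 0
      rw [image_eq_zero_of_notMem_tsupport hx]; simp
  have h1 := stokes10 P (hY.mulF hφ) hK hoff
  have h2 : intD P (fun i x => ∑ a, dl B i a (fun y' => (χ (y y') : ℂ) * Y i a y') x) =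
      intD P (fun i x => ((χ (y x) : ℂ) * ∑ a, dl B i a (Y i a) x) +
        ∑ k, dj k (fun z => (χ z : ℂ)) (y x) * Y i (Fin.natAdd d k) x) := by
    refine intD_congr P fun i x hx => ?_
    have h3 : ∀ a, dl B i a (fun y' => (χ (y y') : ℂ) * Y i a y') x =
        dl B i a (fun y' => (χ (y y') : ℂ)) x * Y i a x + (χ (y x) : ℂ) * dl B i a (Y i a) x :=
      fun a => dl_mul (Atl.SmAt.diffAt (f := fun y' => (χ (y y') : ℂ)) (hφ i) hx)
        (Atl.SmAt.diffAt (hY.sm i a) hx) hx
    rw [Finset.sum_congr rfl fun a _ => h3 a, Finset.sum_add_distrib, ← Finset.mul_sum, add_comm,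
      Fin.sum_univ_add (fun a => dl B i a (fun y' => (χ (y y') : ℂ)) x * Y i a x)]
    congr 1
    rw [Finset.sum_eq_zero fun a _ => by rw [dl_base_fi h hχ' hx, zero_mul], zero_add]
    exact Finset.sum_congr rfl fun k _ => by rw [dl_base_bi h hχ' hx]
  have hsd : ∀ k : Fin m, ContDiff ℝ ∞ (dj k (fun z => (χ z : ℂ))) := fun k =>
    contDiffOn_univ.1 (contDiffOn_dj isOpen_univ hχ'.contDiffOn k)
  have h0k : ∀ k : Fin m, ∀ z, z ∉ tsupport χ → dj k (fun z => (χ z : ℂ)) z = 0 := fun k z hz =>
    dj_zero_of (by rwa [tsupport_ofReal]) k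
  have hoff2 : ∀ k : Fin m, OffK B
      (fun i x => dj k (fun z => (χ z : ℂ)) (y x) * Y i (Fin.natAdd d k) x)
      (y ⁻¹' tsupport χ) := fun k i x _ hx => by
    show dj k (fun z => (χ z : ℂ)) (y x) * Y i (Fin.natAdd d k) x = 0
    rw [h0k k _ hx, zero_mul]
  have hsm2 : ∀ k : Fin m, ∀ i, B.SmAt i
      (fun x => dj k (fun z => (χ z : ℂ)) (y x) * Y i (Fin.natAdd d k) x) := fun k i =>
    ContDiffOn.mul (h.sm (hsd k).contDiffOn i) (hY.sm i _)
  have hoff3 : OffK B (fun i x => (χ (y x) : ℂ) * ∑ a, dl B i a (Y i a) x)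
      (y ⁻¹' tsupport χ) := fun i x _ hx => by
    show (χ (y x) : ℂ) * _ = 0
    rw [image_eq_zero_of_notMem_tsupport hx]; simp
  rw [h2, intD_add P (f := fun i x => (χ (y x) : ℂ) * ∑ a, dl B i a (Y i a) x)
    (g := fun i x => ∑ k, dj k (fun z => (χ z : ℂ)) (y x) * Y i (Fin.natAdd d k) x)
    (fun i => (hφ i).mul (ContDiffOn.sum fun a _ => smAt_dl (hY.sm i a) a))
    (fun i => ContDiffOn.sum fun k _ => hsm2 k i) hK hoff3
    (OffK.sum fun k _ => hoff2 k)] at h1
  rw [eq_neg_of_add_eq_zero_left h1]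
  rw [intD_sum P Finset.univ
    (F := fun k i x => dj k (fun z => (χ z : ℂ)) (y x) * Y i (Fin.natAdd d k) x)
    (fun k _ i => hsm2 k i) hK fun k _ => hoff2 k]
  have h4 : ∀ k, intD P (fun i x => dj k (fun z => (χ z : ℂ)) (y x) * Y i (Fin.natAdd d k) x) =
      - ∫ w : RI m → ℝ, (χ (cc w) : ℂ) *
        dj k (push P (fun i x => Y i (Fin.natAdd d k) x)) (cc w) := by
    intro k
    rw [← parts_base h.opn hχ hc hs (hp k) k]
    exact intD_push (η := fun i x => Y i (Fin.natAdd d k) x) h (hsm k) (hsd k) hc hs (h0k k)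
  rw [Finset.sum_congr rfl fun k _ => h4 k, Finset.sum_neg_distrib, neg_neg]
  rw [← integral_finsetSum]
  · refine integral_congr_ae (Eventually.of_forall fun w => ?_)
    show _ = (χ (cc w) : ℂ) * ∑ k, _
    rw [Finset.mul_sum]
  · intro k _
    refine Continuous.integrable_of_hasCompactSupport ?_ ?_
    · exact (contDiff_mul_of_support h.opn hχ hs (contDiffOn_dj h.opn (hp k) k)).continuous.comp
        continuous_cc
    · refine HasCompactSupport.intro (K := rc '' tsupport χ) (hc.image continuous_rc)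
        fun w hw => ?_
      rw [image_eq_zero_of_notMem_tsupport fun h => hw ⟨cc w, h, rc_cc w⟩]; simp

theorem dj_conj {k : Fin m} {F : Cn m → ℂ} (z : Cn m) :
    dj k (fun z => conj (F z)) z = conj (dbj k F z) := by
  have h : fderiv ℝ (fun z => conj (F z)) z =
      (Complex.conjCLE : ℂ →L[ℝ] ℂ).comp (fderiv ℝ F z) :=
    (Complex.conjCLE).comp_fderiv (f := F) (x := z)
  unfold dj dbj
  rw [h]
  have h2 : (conj (1 / 2 : ℂ)) = 1 / 2 := by
    rw [map_div₀, map_one, map_ofNat]
  simp only [ContinuousLinearMap.comp_apply, smul_eq_mul, map_mul, map_add, h2, Complex.conj_I]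
  show (1 / 2 : ℂ) * (conj _ - I * conj _) = _
  ring


end

end Crest.Agent.R281.Fib3_425
end

-- ▼ part R281/Fib4_425

/-!
# R281 (S0424), leaf S6-FIB, part 4 (helper425): from weak to pointwise statements, positivity

* `parts_dj`, `parts_dbj` : integration by parts on the base for complex test functions;
* `push_eq_of_weak`, `push_dj_of_weak`, `push_dbj_of_weak`, `push_ddb_of_weak` :
  weak identities tested against `χ(y)` give pointwise identities for `push`;
* `push_real`, `push_nonneg`, `push_mono`, `norm_push_mul_le`.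
-/

set_option autoImplicit false
set_option linter.unusedSectionVars false

open Set Filter Topology Complex MeasureTheory
open scoped ContDiff ComplexConjugate

namespace Crest.Agent.R281.Fib4_425

open Crest.Agent.R275.Geo Crest.Agent.R275.Tor812 Crest.Agent.R275.TorS666
open Crest.Agent.R275.C1d194 Crest.Agent.R275.Pai323 Crest.Agent.R275.OmT75
open Crest.Agent.R275.SerG398 (lint dens DPair)
open Crest.Agent.R273.StokesV_332 Crest.Agent.R281.Fib1_425 Crest.Agent.R281.Fib2_425
open Crest.Agent.R281.Fib3_425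

noncomputable section

/-! ### integration by parts for complex test functions -/

section base

variable {m : ℕ} {U : Set (Cn m)}






theorem dbj_conj {k : Fin m} {F : Cn m → ℂ} (z : Cn m) :
    dbj k (fun z => conj (F z)) z = conj (dj k F z) := by
  have h := dj_conj (k := k) (F := fun z => conj (F z)) z
  simp only [Complex.conj_conj] at h
  rw [h, Complex.conj_conj]

theorem dbj_eq_conj {k : Fin m} (F : Cn m → ℂ) (z : Cn m) :
    dbj k F z = conj (dj k (fun z => conj (F z)) z) := by
  rw [dj_conj, Complex.conj_conj]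


theorem contDiffOn_conj {χ : Cn m → ℂ} (hχ : ContDiffOn ℝ ∞ χ U) :
    ContDiffOn ℝ ∞ (fun z => conj (χ z)) U := Complex.conjCLE.contDiff.comp_contDiffOn hχ



theorem contDiffOn_dbj (hU : IsOpen U) {F : Cn m → ℂ} (hF : ContDiffOn ℝ ∞ F U) (k : Fin m) :
    ContDiffOn ℝ ∞ (dbj k F) U := by
  have h := contDiffOn_conj (contDiffOn_dj hU (contDiffOn_conj hF) k)
  exact h.congr fun z _ => dbj_eq_conj F z





end base

/-! ### from weak to pointwise -/

variable {d m : ℕ} {V : Type} [TopologicalSpace V] {B : Atl (d + m) V} {y : V → Cn m}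
  {U : Set (Cn m)} {P P' : Part B} {η θ E Θ : B.ι → V → ℂ} [T2Space V]

/-- test functions on `U` -/
structure Tst (U : Set (Cn m)) (χ : Cn m → ℝ) : Prop where
  sm : ContDiff ℝ ∞ χ
  cpt : HasCompactSupport χ
  sub : tsupport χ ⊆ U

theorem Tst.smC {χ : Cn m → ℝ} (h : Tst U χ) : ContDiff ℝ ∞ (fun z => (χ z : ℂ)) :=
  Complex.ofRealCLM.contDiff.comp h.sm

theorem Tst.subC {χ : Cn m → ℝ} (h : Tst U χ) : tsupport (fun z => (χ z : ℂ)) ⊆ U := by
  rw [tsupport_ofReal]; exact h.sub

theorem Tst.cptC {χ : Cn m → ℝ} (h : Tst U χ) : HasCompactSupport (fun z => (χ z : ℂ)) := by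
  unfold HasCompactSupport
  rw [tsupport_ofReal]; exact h.cpt

/-- Fubini for a complex test function -/
theorem intD_pushC (h : Prj B y U) (hη : ∀ i, B.SmAt i (η i)) {χ : Cn m → ℂ}
    (hχ : ContDiff ℝ ∞ χ) (hc : HasCompactSupport χ) (hs : tsupport χ ⊆ U) :
    intD P (fun i x => χ (y x) * η i x) = ∫ w : RI m → ℝ, χ (cc w) * push P η (cc w) :=
  intD_push h hη hχ hc hs fun _ hw => image_eq_zero_of_notMem_tsupport hw

theorem push_eq_of_weak (h : Prj B y U) (hE : ∀ i, B.SmAt i (E i)) (hΘ : ∀ i, B.SmAt i (Θ i))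
    (hw : ∀ χ : Cn m → ℝ, Tst U χ → intD P (fun i x => (χ (y x) : ℂ) * E i x) =
      intD P' (fun i x => (χ (y x) : ℂ) * Θ i x)) :
    ∀ w ∈ U, push P E w = push P' Θ w := by
  refine push_eq_of_dual h hE (continuousOn_push h hΘ) fun χ h1 h2 h3 => ?_
  have ht : Tst U χ := ⟨h1, h2, h3⟩
  rw [hw χ ht]
  exact intD_pushC h hΘ ht.smC ht.cptC ht.subC





/-! ### positivity -/

/-- a real density has a real push-forward -/
theorem push_real (h : Prj B y U) {w : Cn m} (hw : w ∈ U)
    (hr : ∀ i, ∀ x ∈ (B.e i).source, y x = w → (η i x).im = 0) : (push P η w).im = 0 := by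
  have h1 : push P (fun i x => conj (η i x)) w = push P η w :=
    push_congr h fun i x hx hy => Complex.conj_eq_iff_im.2 (hr i x hx hy)
  rw [push_conj h hw] at h1
  exact Complex.conj_eq_iff_im.1 h1

/-- **positivity** -/
theorem push_nonneg (h : Prj B y U) (hη : Den B η) (hp : NonnegD B η) :
    ∀ w ∈ U, 0 ≤ (push P η w).re ∧ (push P η w).im = 0 := by
  intro w hw
  have him : ∀ w ∈ U, (push P η w).im = 0 := fun w hw =>
    push_real h hw fun i x hx _ => (hp i x hx).2
  refine ⟨?_, him w hw⟩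
  by_contra hneg
  push Not at hneg
  have hcont := continuousOn_push (P := P) h hη.sm
  have h1 : ∀ᶠ z in 𝓝 w, (push P η z).re < 0 ∧ z ∈ U := by
    have h2 : ContinuousAt (fun z => (push P η z).re) w :=
      Complex.continuous_re.continuousAt.comp (hcont.continuousAt (h.opn.mem_nhds hw))
    exact (h2.eventually_lt continuousAt_const hneg).and (h.opn.mem_nhds hw)
  obtain ⟨ε, hε, hball⟩ := Metric.eventually_nhds_iff_ball.1 h1
  let χ : ContDiffBump w := ⟨ε / 4, ε / 2, by linarith, by linarith⟩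
  have hsupp : tsupport χ ⊆ Metric.ball w ε := by
    rw [χ.tsupport_eq]
    exact Metric.closedBall_subset_ball (by show ε / 2 < ε; linarith)
  have hcs : HasCompactSupport (χ : Cn m → ℝ) := χ.hasCompactSupport
  have hT : Tst U (χ : Cn m → ℝ) := ⟨χ.contDiff, hcs, fun z hz => (hball z (hsupp hz)).2⟩
  have h3 := intD_pushC (P := P) h hη.sm hT.smC hT.cptC hT.subC
  have h4 := intD_nonneg P (f := fun i x => ((χ (y x) : ℝ) : ℂ) * η i x)
    (hη.mulF (h.sm hT.smC.contDiffOn)) (fun i x hx => by
      rw [Complex.re_ofReal_mul, Complex.im_ofReal_mul, (hp i x hx).2, mul_zero]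
      exact ⟨mul_nonneg χ.nonneg (hp i x hx).1, rfl⟩) (h.proper _ hT.sub hcs)
      (fun i x _ hx => by
        show ((χ (y x) : ℝ) : ℂ) * η i x = 0
        rw [image_eq_zero_of_notMem_tsupport hx]; simp)
  rw [h3] at h4
  -- the integrand
  have h5 : Continuous (fun z : Cn m => (χ z : ℝ) * (push P η z).re) := by
    rw [continuous_iff_continuousAt]
    intro z
    by_cases hz : z ∈ tsupport χ
    · exact χ.continuous.continuousAt.mul (Complex.continuous_re.continuousAt.comp
        (hcont.continuousAt (h.opn.mem_nhds (hT.sub hz))))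
    · have : (fun z : Cn m => (χ z : ℝ) * (push P η z).re) =ᶠ[𝓝 z] fun _ => 0 := by
        filter_upwards [(isClosed_tsupport χ).isOpen_compl.mem_nhds hz] with w' hw'
        rw [image_eq_zero_of_notMem_tsupport hw', zero_mul]
      exact continuousAt_const.congr this.symm
  have h6 : ∀ z : Cn m, (χ z : ℝ) * (push P η z).re ≤ 0 := by
    intro z
    by_cases hz : z ∈ tsupport χ
    · exact mul_nonpos_of_nonneg_of_nonpos χ.nonneg (hball z (hsupp hz)).1.le
    · rw [image_eq_zero_of_notMem_tsupport hz, zero_mul]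
  have h7 : (∫ v : RI m → ℝ, ((χ (cc v) : ℝ) : ℂ) * push P η (cc v)).re =
      ∫ v : RI m → ℝ, (χ (cc v) : ℝ) * (push P η (cc v)).re := by
    have hint : Integrable (fun v : RI m → ℝ => ((χ (cc v) : ℝ) : ℂ) * push P η (cc v)) := by
      refine Continuous.integrable_of_hasCompactSupport ?_ ?_
      · exact (contDiff_mul_of_support h.opn hT.sm hT.sub
          (contDiffOn_push h hη.sm)).continuous.comp continuous_cc
      · refine HasCompactSupport.intro (K := rc '' tsupport χ) (hcs.image continuous_rc)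
          fun v hv => ?_
        rw [image_eq_zero_of_notMem_tsupport fun h => hv ⟨cc v, h, rc_cc v⟩]; simp
    have h8 : (∫ v : RI m → ℝ, ((χ (cc v) : ℝ) : ℂ) * push P η (cc v)).re =
        ∫ v : RI m → ℝ, (((χ (cc v) : ℝ) : ℂ) * push P η (cc v)).re :=
      (integral_re hint).symm
    rw [h8]
    refine integral_congr_ae (Eventually.of_forall fun v => ?_)
    exact Complex.re_ofReal_mul _ _
  rw [h7] at h4
  have h9 : Integrable (fun v : RI m → ℝ => -((χ (cc v) : ℝ) * (push P η (cc v)).re)) := by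
    refine Continuous.integrable_of_hasCompactSupport (h5.comp continuous_cc).neg ?_
    refine HasCompactSupport.intro (K := rc '' tsupport χ) (hcs.image continuous_rc)
      fun v hv => ?_
    rw [image_eq_zero_of_notMem_tsupport fun h => hv ⟨cc v, h, rc_cc v⟩]; simp
  have h10 : ∫ v : RI m → ℝ, -((χ (cc v) : ℝ) * (push P η (cc v)).re) = 0 := by
    have h11 : 0 ≤ ∫ v : RI m → ℝ, -((χ (cc v) : ℝ) * (push P η (cc v)).re) :=
      integral_nonneg fun v => neg_nonneg.2 (h6 (cc v))
    rw [integral_neg] at h11 ⊢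
    linarith [h4.1]
  have h12 : (fun v : RI m → ℝ => -((χ (cc v) : ℝ) * (push P η (cc v)).re)) = fun _ => (0 : ℝ) :=
    (Continuous.ae_eq_iff_eq volume (h5.comp continuous_cc).neg continuous_const).1
      ((integral_eq_zero_iff_of_nonneg (fun v => neg_nonneg.2 (h6 (cc v))) h9).1 h10)
  have h13 := congrFun h12 (rc w)
  simp only [cc_rc] at h13
  have h14 : (χ w : ℝ) = 1 := χ.one_of_mem_closedBall (Metric.mem_closedBall_self (by
    show 0 ≤ ε / 4; linarith))
  rw [h14, one_mul, neg_eq_zero] at h13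
  linarith

/-- monotonicity -/
theorem push_mono (h : Prj B y U) (hη : Den B η) (hθ : Den B θ)
    (hr : ∀ i, ∀ x ∈ (B.e i).source, (η i x).im = 0 ∧ (θ i x).im = 0)
    (hle : ∀ i, ∀ x ∈ (B.e i).source, (η i x).re ≤ (θ i x).re) :
    ∀ w ∈ U, (push P η w).re ≤ (push P θ w).re := by
  intro w hw
  have h1 := push_nonneg (P := P) h (η := fun i x => θ i x + (-1) * η i x)
    (hθ.add (hη.smul (-1))) (fun i x hx => by
      have h2 := hle i x hx
      have h3 := hr i x hx
      constructor
      · simp only [Complex.add_re, Complex.mul_re, Complex.neg_re, Complex.one_re, Complex.neg_im,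
          Complex.one_im]
        linarith
      · simp only [Complex.add_im, Complex.mul_im, Complex.neg_re, Complex.one_re, Complex.neg_im,
          Complex.one_im, h3.1, h3.2]
        ring) w hw
  rw [push_add h hθ.sm (hη.smul (-1)).sm hw, push_smul h (-1) hw] at h1
  have h4 := h1.1
  simp only [Complex.add_re, Complex.mul_re, Complex.neg_re, Complex.one_re, Complex.neg_im,
    Complex.one_im] at h4
  linarith


end

end Crest.Agent.R281.Fib4_425
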