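import Crest.Agent.R281.Har1_331
import Crest.Agent.R281.Glob1_484
import Crest.Agent.R273.GreenG_5
import Crest.Agent.R281.S6D_664
import Crest.Agent.R273.Levi_145

-- ▼ part R281/Har2_331
section

/-!
# R281 (S0424), leaf S6-HARN (helper331), part 2: the calculus fields on a compact Kaehler manifold

* `Gb K u v` : `<du, dv>` as a function on `M`; `Gb_self : Gb K u u = Dg K u`,
  `Gb_sq_le : Gb² ≤ Dg u · Dg v`, `Gb_comp : Gb (ψ u) v = ψ'(u) Gb u v`
* `int_Gb` : `∫ <du, dv> = - ∫ u Lap v`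
* `har_compact` : the structure `Har` of part 1 on a compact Kaehler manifold.
-/

set_option autoImplicit false
set_option linter.unusedSectionVars false

open Set Filter Topology Complex MeasureTheory
open scoped ContDiff Matrix ComplexConjugate ComplexOrder

namespace Crest.Agent.R281.Har_331

open Crest.Agent.R275 Crest.Agent.R275.Geo Crest.Agent.R275.Core144 Crest.Agent.R275.EDR890
open Crest.Agent.R275.Pai323 Crest.Agent.R275.C1d194
open Crest.Agent.R275.SerG398 (lint dens OffZ)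
open Crest.Agent.R275.OmT75 (dj dl dl_chain dl_mul db_chain dj_sum dj_congr)
open Crest.Agent.R273.Defs_333 Crest.Agent.R273.Hess_333 Crest.Agent.R273.HessB_333
open Crest.Agent.R273.HM_333 Crest.Agent.R273.Kah_333 Crest.Agent.R273.Vol_333
open Crest.Agent.R273.Vm_333
open Crest.Agent.R273.Green_5 Crest.Agent.R273.FIa0_597 Crest.Agent.R273.FIb0_597
open Crest.Agent.R273.FIc0_597 Crest.Agent.R273
open Crest.Agent.R273.SchI_152 (Dg sm_sq Dg_nonneg continuous_Dg)
open Crest.Agent.R273.StV_37 (totc)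
open Crest.Agent.R273.GreenM_5 (Dn Tn fnD fnD_div sm_fnD integral_fnD_re sm_re CF.tn adj_dn)
open Crest.Agent.R273.GreenG_5 (grd grd_qa grd_dn qa qa_eq adjugate_eq db_ofReal totc_grd smAt_trA
  trA_dn)
open Crest.Agent.R281.Glob1_484

noncomputable section

variable {n : ℕ}

/-! ### Cauchy-Schwarz -/

theorem cs_aux {H : Matrix (Fin n) (Fin n) ℂ} (hH : H.PosSemidef) (p q : Fin n → ℂ) :
    ((star q ⬝ᵥ (H *ᵥ p)).re) ^ 2 ≤
      (star p ⬝ᵥ (H *ᵥ p)).re * (star q ⬝ᵥ (H *ᵥ q)).re := by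
  have hsym : (star p ⬝ᵥ (H *ᵥ q)).re = (star q ⬝ᵥ (H *ᵥ p)).re := by
    have h1 : star (star p ⬝ᵥ (H *ᵥ q)) = star q ⬝ᵥ (H *ᵥ p) := by
      rw [Matrix.star_dotProduct, star_star, Matrix.star_mulVec, hH.1.eq,
        ← Matrix.dotProduct_mulVec]
    rw [← h1]; simp
  have h : ∀ t : ℝ, 0 ≤ (star q ⬝ᵥ (H *ᵥ q)).re * (t * t) + (2 * (star q ⬝ᵥ (H *ᵥ p)).re) * t +
      (star p ⬝ᵥ (H *ᵥ p)).re := by
    intro t
    have h1 := hH.re_dotProduct_nonneg (p + (t : ℂ) • q)
    have h2 : star (p + (t : ℂ) • q) ⬝ᵥ (H *ᵥ (p + (t : ℂ) • q)) =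
        star p ⬝ᵥ (H *ᵥ p) + (t : ℂ) * (star p ⬝ᵥ (H *ᵥ q)) + (t : ℂ) * (star q ⬝ᵥ (H *ᵥ p)) +
          ((t * t : ℝ) : ℂ) * (star q ⬝ᵥ (H *ᵥ q)) := by
      rw [star_add, star_smul, Matrix.mulVec_add, Matrix.mulVec_smul]
      simp only [dotProduct_add, add_dotProduct, dotProduct_smul, smul_dotProduct, smul_eq_mul]
      have : star (t : ℂ) = t := Complex.conj_ofReal t
      rw [this]; push_cast; ring
    rw [h2] at h1
    simp only [RCLike.re_to_complex, Complex.add_re, Complex.re_ofReal_mul] at h1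
    rw [hsym] at h1
    linarith
  have h3 := discrim_le_zero h
  unfold discrim at h3
  nlinarith

variable {M : Type} [TopologicalSpace M] {A : Atl n M} {L L' : LB A}

/-- `<du, dv>` (real part), as a function on `M` -/
def Gb (K : Kah A) (u v : M → ℝ) (x : M) : ℝ :=
  (fnD K (grd K.g (fun y => (u y : ℂ)) (fun y => (v y : ℂ))) x).re

theorem dl_gr (u : M → ℝ) (i : A.ι) (a : Fin n) (x : M) :
    dl A i a (fun y => (u y : ℂ)) x = gr (fun z => u ((A.e i).symm z)) (A.e i x) a := by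
  unfold OmT75.dl
  rw [dj_eq_wd]
  rfl

theorem sc {u : M → ℝ} (hu : A.Sm u) : ∀ i, A.SmAt i (fun y => (u y : ℂ)) :=
  fun i => smAt_ofReal (hu i)

theorem grdK_dn (K : Kah A) {u v : M → ℝ} (hu : A.Sm u) (hv : A.Sm v) :
    Dn A (grd K.g (fun y => (u y : ℂ)) (fun y => (v y : ℂ))) :=
  grd_dn (CF.tn (kah_cf K)) (sc hu) (sc hv)

theorem Gb_read (K : Kah A) {u v : M → ℝ} (hu : A.Sm u) (hv : A.Sm v) {i : A.ι} {x : M}
    (hx : x ∈ (A.e i).source) :
    Gb K u v x = (star (gr (fun z => v ((A.e i).symm z)) (A.e i x)) ⬝ᵥ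
      ((K.g i x)⁻¹ *ᵥ gr (fun z => u ((A.e i).symm z)) (A.e i x))).re := by
  have hd : (K.g i x).det ≠ 0 := (K.pos i x hx).det_pos.ne'
  unfold Gb
  rw [fnD_div K (grdK_dn K hu hv) hx, grd_qa, qa_eq, adjugate_eq (K.pos i x hx),
    Matrix.smul_mulVec, dotProduct_smul, smul_eq_mul, mul_div_cancel_left₀ _ hd]
  have e1 : (fun b => A.db i b (fun y => (v y : ℂ)) x) =
      star (gr (fun z => v ((A.e i).symm z)) (A.e i x)) := by
    funext b
    rw [db_ofReal, dl_gr]; rfl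
  have e2 : (fun a => dl A i a (fun y => (u y : ℂ)) x) =
      gr (fun z => u ((A.e i).symm z)) (A.e i x) := by
    funext a
    rw [dl_gr]
  rw [e1, e2]

theorem gq_read (K : Kah A) (u : M → ℝ) (i : A.ι) (x : M) :
    gq K u i x = (star (gr (fun z => u ((A.e i).symm z)) (A.e i x)) ⬝ᵥ
      ((K.g i x)⁻¹ *ᵥ gr (fun z => u ((A.e i).symm z)) (A.e i x))).re := by
  unfold gq
  rw [Matrix.mul_vecMulVec, Matrix.trace_vecMulVec, dotProduct_comm]

theorem Gb_self (K : Kah A) {u : M → ℝ} (hu : A.Sm u) (x : M) : Gb K u u x = Dg K u x := by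
  have hx := mem_ch A x
  rw [Gb_read K hu hu hx, Dg_eq K hu hx, gq_read]

theorem Gb_sq_le (K : Kah A) {u v : M → ℝ} (hu : A.Sm u) (hv : A.Sm v) (x : M) :
    Gb K u v x ^ 2 ≤ Dg K u x * Dg K v x := by
  have hx := mem_ch A x
  rw [Gb_read K hu hv hx, Dg_eq K hu hx, Dg_eq K hv hx, gq_read, gq_read]
  exact cs_aux (K.pos _ x hx).inv.posSemidef _ _

theorem Gb_comp (K : Kah A) {ψ ψ' : ℝ → ℝ} (hψ : ContDiff ℝ ∞ ψ)
    (h1 : ∀ s, HasDerivAt ψ (ψ' s) s) {u v : M → ℝ} (hu : A.Sm u) (hv : A.Sm v) (x : M) :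
    Gb K (fun y => ψ (u y)) v x = ψ' (u x) * Gb K u v x := by
  have hx := mem_ch A x
  rw [Gb_read K (sm_comp hψ hu) hv hx, Gb_read K hu hv hx]
  have e : gr (fun z => ψ (u ((A.e (ch A x)).symm z))) (A.e (ch A x) x) =
      ((ψ' (u x) : ℝ) : ℂ) • gr (fun z => u ((A.e (ch A x)).symm z)) (A.e (ch A x) x) := by
    funext a
    rw [Pi.smul_apply, smul_eq_mul]
    refine wd_comp_real (false, a) ?_ ?_
    · exact (sm_at hu hx).differentiableAt (by simp)
    · rw [(A.e (ch A x)).left_inv hx]; exact h1 _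
  rw [e, Matrix.mulVec_smul, dotProduct_smul, smul_eq_mul, Complex.re_ofReal_mul]

theorem sm_Gb (K : Kah A) {u v : M → ℝ} (hu : A.Sm u) (hv : A.Sm v) : A.Sm (Gb K u v) :=
  sm_re (sm_fnD K (grdK_dn K hu hv) (GreenG_5.smAt_grd (kah_cf K) (sc hu) (sc hv)))

section int

variable [T2Space M] [CompactSpace M] [Fintype A.ι] [MeasurableSpace M] [BorelSpace M]

/-- **Green's formula**: `∫ <du, dv> = - ∫ u Lap v` -/
theorem int_Gb (P : Part A) (K : Kah A) {u v : M → ℝ} (hu : A.Sm u) (hv : A.Sm v) :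
    ∫ x, Gb K u v x ∂(vm (volK K)) = - ∫ x, u x * Lap K v x ∂(vm (volK K)) := by
  have h1 : ∫ x, Gb K u v x ∂(vm (volK K)) =
      (totc P (grd K.g (fun y => (u y : ℂ)) (fun y => (v y : ℂ)))).re :=
    integral_fnD_re K P (grdK_dn K hu hv) (GreenG_5.smAt_grd (kah_cf K) (sc hu) (sc hv))
  have hD : Dn A (fun i x => (u x : ℂ) * ((K.g i x).adjugate * hsf A v i x).trace) := by
    have h0 := trA_dn (CF.tn (kah_cf K)) (CF.tn (hsf_cf hv))
    intro i j x hx
    have h2 := h0 i j x hx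
    show (u x : ℂ) * ((K.g i x).adjugate * hsf A v i x).trace =
      dens A i j x * ((u x : ℂ) * ((K.g j x).adjugate * hsf A v j x).trace)
    have h3 : ((K.g i x).adjugate * hsf A v i x).trace =
      dens A i j x * ((K.g j x).adjugate * hsf A v j x).trace := h2
    rw [h3]; ring
  have h2 : ∫ x, u x * Lap K v x ∂(vm (volK K)) =
      (totc P (fun i x => (u x : ℂ) * ((K.g i x).adjugate * hsf A v i x).trace)).re := by
    rw [← integral_fnD_re K P hD fun i => (sc hu i).mul (smAt_trA (kah_cf K) (hsf_cf hv) i)]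
    refine integral_congr_ae (Eventually.of_forall fun x => ?_)
    have hx := mem_ch A x
    show u x * Lap K v x = (fnD K _ x).re
    rw [fnD_div K hD hx, Lap_read K hv hx, ← trC_det K (hsf A v) hx, mul_div_assoc,
      mul_div_cancel_left₀ _ (K.pos _ x hx).det_pos.ne', Complex.re_ofReal_mul]
  rw [h1, totc_grd P (kah_cf K) hu hv, Complex.neg_re, h2]

theorem int_Gb_comp (P : Part A) (K : Kah A) {ψ ψ' : ℝ → ℝ} (hψ : ContDiff ℝ ∞ ψ)
    (h1 : ∀ s, HasDerivAt ψ (ψ' s) s) {u v : M → ℝ} (hu : A.Sm u) (hv : A.Sm v) :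
    ∫ x, ψ (u x) * Lap K v x ∂(vm (volK K)) = - ∫ x, ψ' (u x) * Gb K u v x ∂(vm (volK K)) := by
  have h2 := int_Gb P K (sm_comp hψ hu) hv
  simp only [Gb_comp K hψ h1 hu hv] at h2
  linarith

/-- **the structure `Har` on a compact Kaehler manifold** -/
theorem har_compact (P : Part A) (K : Kah A) {ρ φ Q : M → ℝ} {k e D : ℝ} (hρ : A.Sm ρ)
    (hφ : A.Sm φ) (hQ : Continuous Q) (k0 : 0 ≤ k) (e0 : 0 ≤ e)
    (hD : ∀ x, Dg K φ x ≤ D ^ 2) (hL : ∀ x, Lap K ρ x = - (k * Q x))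
    (hlow : ∀ x, -e ≤ Q x + Lap K φ x) :
    Har (vm (volK K)) ρ (Dg K ρ) Q (fun x => Q x + Lap K φ x) (Gb K ρ φ) k e D where
  k0 := k0
  e0 := e0
  mρ := (cont_sm hρ).measurable
  mW := (cont_sm (sm_Gb K hρ hφ)).measurable
  G0 := Dg_nonneg K hρ
  iG f hf _ := integrable_cont _ ((hf.comp (cont_sm hρ)).mul (continuous_Dg K hρ))
  iQ := integrable_cont _ hQ
  iQe := integrable_cont _ (hQ.add (cont_sm (sm_Lap K hφ)))
  hW x := by
    have h1 := Gb_sq_le K hρ hφ x
    have h2 := Dg_nonneg K hρ x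
    nlinarith [hD x]
  lQe := hlow
  A ψ ψ' hψ h1 _ := by
    rw [int_comp P K hψ h1 hρ, ← integral_neg, ← integral_const_mul]
    refine integral_congr_ae (Eventually.of_forall fun x => ?_)
    show -(ψ (ρ x) * Lap K ρ x) = k * (ψ (ρ x) * Q x)
    rw [hL]; ring
  B ψ ψ' hψ h1 _ := by
    have h2 : ∀ x, ψ (ρ x) * (Q x + Lap K φ x - Q x) = ψ (ρ x) * Lap K φ x := fun x => by ring
    simp only [h2]
    exact int_Gb_comp P K hψ h1 hρ hφ

end int

end

end Crest.Agent.R281.Har_331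
end

-- ▼ part R281/Har3_331
section

/-!
# R281 (S0424), leaf S6-HARN (helper331), part 3: dictionary for an immersion `f : T → M`

* `hsf_pull` : `hsf B (u ∘ f) = Jpᵀ (hsf A u) conj Jp`
* `Dg_pull`  : `|d (u ∘ f)|² ≤ |du|² ∘ f` for `pullI K`
* `tr_pull`  : lower bound of the trace of a pulled back `(1,1)`-form
-/

set_option autoImplicit false
set_option linter.unusedSectionVars false

open Set Filter Topology Complex MeasureTheory Function
open scoped ContDiff Matrix ComplexConjugate ComplexOrder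

namespace Crest.Agent.R281.Har_331

open Crest.Agent.R275 Crest.Agent.R275.Geo Crest.Agent.R275.Core144 Crest.Agent.R275.EDR890
open Crest.Agent.R273.Defs_333 Crest.Agent.R273.Hess_333 Crest.Agent.R273.HessB_333
open Crest.Agent.R273.HM_333 Crest.Agent.R273.Kah_333 Crest.Agent.R273.Vol_333
open Crest.Agent.R273.Vm_333 Crest.Agent.R273.Map_835 Crest.Agent.R273.KahI_645
open Crest.Agent.R273.Green_5 Crest.Agent.R273.FIa0_597 Crest.Agent.R273.FIb0_597
open Crest.Agent.R273.FIc0_597 Crest.Agent.R273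
open Crest.Agent.R273.SchI_152 (Dg sm_sq Dg_nonneg continuous_Dg)
open Crest.Agent.R281.Glob1_484 Crest.Agent.R281.S6D_664

noncomputable section

variable {m n : ℕ}

/-! ### linear algebra -/

/-- the dual norm decreases under restriction to a subspace -/
theorem dual_le {G : Matrix (Fin n) (Fin n) ℂ} (hG : G.PosDef) {J : Matrix (Fin n) (Fin m) ℂ}
    (hH : (Jᵀ * G * J.map conj).PosDef) (p : Fin n → ℂ) :
    (star (Jᵀ *ᵥ p) ⬝ᵥ ((Jᵀ * G * J.map conj)⁻¹ *ᵥ (Jᵀ *ᵥ p))).re ≤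
      (star p ⬝ᵥ (G⁻¹ *ᵥ p)).re := by
  set H := Jᵀ * G * J.map conj with hHd
  set q := H⁻¹ *ᵥ (Jᵀ *ᵥ p) with hq
  set r := G⁻¹ *ᵥ p - J.map conj *ᵥ q with hr
  have hGu : IsUnit G.det := isUnit_iff_ne_zero.2 hG.det_pos.ne'
  have hHu : IsUnit H.det := isUnit_iff_ne_zero.2 hH.det_pos.ne'
  have hJs : (J.map conj)ᴴ = Jᵀ := by
    ext a b
    simp [Matrix.conjTranspose_apply]
  have hHq : H *ᵥ q = Jᵀ *ᵥ p := by
    rw [hq, Matrix.mulVec_mulVec, Matrix.mul_nonsing_inv _ hHu, Matrix.one_mulVec]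
  have hGr : G *ᵥ r = p - G *ᵥ (J.map conj *ᵥ q) := by
    rw [hr, Matrix.mulVec_sub, Matrix.mulVec_mulVec, Matrix.mul_nonsing_inv _ hGu,
      Matrix.one_mulVec]
  have h0 : 0 ≤ (star r ⬝ᵥ (G *ᵥ r)).re := hG.posSemidef.re_dotProduct_nonneg r
  have hs : star (J.map conj *ᵥ q) = star q ᵥ* Jᵀ := by
    rw [Matrix.star_mulVec, hJs]
  have hs2 : star (G⁻¹ *ᵥ p) = star p ᵥ* G⁻¹ := by
    rw [Matrix.star_mulVec, hG.inv.1.eq]
  have a1 : star (J.map conj *ᵥ q) ⬝ᵥ p = star q ⬝ᵥ (Jᵀ *ᵥ p) := by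
    rw [hs, Matrix.dotProduct_mulVec]
  have a2 : star (G⁻¹ *ᵥ p) ⬝ᵥ (G *ᵥ (J.map conj *ᵥ q)) = star p ⬝ᵥ (J.map conj *ᵥ q) := by
    rw [hs2, ← Matrix.dotProduct_mulVec, Matrix.mulVec_mulVec, Matrix.nonsing_inv_mul _ hGu,
      Matrix.one_mulVec]
  have a3 : star (J.map conj *ᵥ q) ⬝ᵥ (G *ᵥ (J.map conj *ᵥ q)) = star q ⬝ᵥ (Jᵀ *ᵥ p) := by
    rw [hs, ← Matrix.dotProduct_mulVec, Matrix.mulVec_mulVec, Matrix.mulVec_mulVec, ← hHd, hHq]
  have a4 : star p ⬝ᵥ (J.map conj *ᵥ q) = star (star q ⬝ᵥ (Jᵀ *ᵥ p)) := by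
    rw [Matrix.star_dotProduct, a1]
  have a5 : star (Jᵀ *ᵥ p) ⬝ᵥ q = star (star q ⬝ᵥ (Jᵀ *ᵥ p)) := by
    rw [Matrix.star_dotProduct]
  have h1 : star r ⬝ᵥ (G *ᵥ r) = star (G⁻¹ *ᵥ p) ⬝ᵥ p - star (star q ⬝ᵥ (Jᵀ *ᵥ p)) := by
    rw [hGr, hr, star_sub, sub_dotProduct, dotProduct_sub, dotProduct_sub, a1, a2, a3, a4]
    ring
  have h2 : star (G⁻¹ *ᵥ p) ⬝ᵥ p = star p ⬝ᵥ (G⁻¹ *ᵥ p) := by
    rw [hs2, Matrix.dotProduct_mulVec]
  rw [h1, h2, Complex.sub_re] at h0
  rw [a5]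
  linarith

variable {M T : Type} [TopologicalSpace M] [TopologicalSpace T] {A : Atl n M} {B : Atl m T}

theorem rd_diff {f : T → M} (hf : HolMap B A f) {j : B.ι} {i : A.ι} {y : T}
    (hy : y ∈ (B.e j).source) (hi : f y ∈ (A.e i).source) :
    DifferentiableAt ℂ (rd B A f j i) (B.e j y) := hf.diffAt (mem_dm hy hi)

theorem rd_val {f : T → M} {j : B.ι} {i : A.ι} {y : T} (hy : y ∈ (B.e j).source) :
    rd B A f j i (B.e j y) = A.e i (f y) := by
  show A.e i (f ((B.e j).symm (B.e j y))) = _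
  rw [(B.e j).left_inv hy]

theorem near_pull {f : T → M} (hf : HolMap B A f) {u : M → ℝ} {j : B.ι} {i : A.ι} {y : T}
    (hy : y ∈ (B.e j).source) (hi : f y ∈ (A.e i).source) :
    (fun w => u (f ((B.e j).symm w))) =ᶠ[𝓝 (B.e j y)]
      fun w => u ((A.e i).symm (rd B A f j i w)) := by
  filter_upwards [(hf.isOpen_dm j i).mem_nhds (mem_dm hy hi)] with w hw
  show u (f ((B.e j).symm w)) = u ((A.e i).symm (A.e i (f ((B.e j).symm w))))
  rw [(A.e i).left_inv hw.2]

theorem hess_hs' {l : ℕ} (u : Cn l → ℝ) (z : Cn l) (a b : Fin l) :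
    hess u z a b = Levi_145.hs (Levi_145.cx u) z a b := by
  rw [hess_apply]
  simp only [Levi_145.hs, Crest.Agent.R275.OmT75.dj, wd, wdL, cI_false]
  rw [neg_smul, ← sub_eq_add_neg]
  rfl

/-- chain rule for the complex Hessian -/
theorem hess_compR' {u : Cn n → ℝ} {S : Cn m → Cn n} {z : Cn m}
    (hT : AnalyticAt ℂ S z) (hu : ContDiffAt ℝ 2 u (S z)) :
    hess (fun w => u (S w)) z =
      (mt (fderiv ℂ S z))ᵀ * hess u (S z) * (mt (fderiv ℂ S z)).map conj := by
  ext a b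
  rw [hess_hs']
  have e : Levi_145.cx (fun w => u (S w)) = fun w => (Levi_145.cx u) (S w) := rfl
  rw [e, Levi_145.hs_comp hT (Levi_145.cx_c2 hu)]
  simp only [Matrix.mul_apply, Matrix.transpose_apply, Matrix.map_apply, Finset.sum_mul, hess_hs']
  rw [Finset.sum_comm]
  refine Finset.sum_congr rfl fun c _ => Finset.sum_congr rfl fun d _ => ?_
  show _ = (fderiv ℂ S z (EuclideanSpace.single a 1)) d * _ *
    conj ((fderiv ℂ S z (EuclideanSpace.single b 1)) c)
  ring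

/-- **(d1)** the Hessian of `u ∘ f` -/
theorem hsf_pull {f : T → M} (hf : HolMap B A f) {u : M → ℝ} {j : B.ι} {i : A.ι} {y : T}
    (hy : y ∈ (B.e j).source) (hi : f y ∈ (A.e i).source)
    (hu : ContDiffAt ℝ ∞ (fun z => u ((A.e i).symm z)) (A.e i (f y))) :
    hsf B (fun t => u (f t)) j y =
      (Jp B A f j i y)ᵀ * hsf A u i (f y) * (Jp B A f j i y).map conj := by
  have hT : AnalyticAt ℂ (rd B A f j i) (B.e j y) := hf.analyticAt (mem_dm hy hi)
  have h1 : hsf B (fun t => u (f t)) j y =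
      hess (fun w => u ((A.e i).symm (rd B A f j i w))) (B.e j y) := by
    show hess (fun w => u (f ((B.e j).symm w))) (B.e j y) = _
    exact hess_congr (near_pull hf hy hi)
  rw [h1, hess_compR' (u := fun z => u ((A.e i).symm z)) hT]
  · rw [rd_val hy]; rfl
  · rw [rd_val hy]; exact hu.of_le (WithTop.coe_le_coe.2 le_top)

/-- the gradient of `u ∘ f` -/
theorem gr_pull {f : T → M} (hf : HolMap B A f) {u : M → ℝ} {j : B.ι} {i : A.ι} {y : T}
    (hy : y ∈ (B.e j).source) (hi : f y ∈ (A.e i).source)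
    (hu : ContDiffAt ℝ ∞ (fun z => u ((A.e i).symm z)) (A.e i (f y))) :
    gr (fun w => u (f ((B.e j).symm w))) (B.e j y) =
      (Jp B A f j i y)ᵀ *ᵥ gr (fun z => u ((A.e i).symm z)) (A.e i (f y)) := by
  funext a
  have h1 : cu (fun w => u (f ((B.e j).symm w))) =ᶠ[𝓝 (B.e j y)]
      fun w => cu (fun z => u ((A.e i).symm z)) (rd B A f j i w) := by
    filter_upwards [near_pull hf (u := u) hy hi] with w hw
    show ((u (f ((B.e j).symm w)) : ℝ) : ℂ) = ((u ((A.e i).symm (rd B A f j i w)) : ℝ) : ℂ)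
    rw [hw]
  show wd (false, a) (cu fun w => u (f ((B.e j).symm w))) (B.e j y) = _
  rw [wd_congr h1, wd_comp' (f := cu fun z => u ((A.e i).symm z)) ?_ (rd_diff hf hy hi)]
  · rw [rd_val hy]
    rfl
  · rw [rd_val hy]
    exact (contDiffAt_cu hu).differentiableAt (by simp)

section imm

variable (K : Kah A) {f : T → M} (hf : HolMap B A f) (hi : Imm B A f)

/-- **(d2)** -/
theorem Dg_pull {u : M → ℝ} (hu : A.Sm u) (huf : B.Sm fun t => u (f t)) (y : T) :
    Dg (pullI K hf hi) (fun t => u (f t)) y ≤ Dg K u (f y) := by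
  have hy := mem_ch B y
  have hx := mem_ch A (f y)
  rw [Dg_eq _ huf hy, Dg_eq K hu hx, gq_read, gq_read]
  have h1 := gr_pull hf (u := u) hy hx (sm_at hu hx)
  rw [h1]
  have h2 := pullI_g K hf hi hy hx
  have h3 := (pullI K hf hi).pos _ y hy
  rw [h2] at h3
  rw [h2]
  exact dual_le (K.pos _ _ hx) h3 _

/-- **(d3)** -/
theorem tr_pull {S : Matrix (Fin n) (Fin n) ℂ} {j : B.ι} {i : A.ι} {y : T} {e : ℝ}
    (hy : y ∈ (B.e j).source) (hx : f y ∈ (A.e i).source)
    (hS : (S + (e : ℂ) • K.g i (f y)).PosSemidef) :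
    -(e * m) ≤ ((((pullI K hf hi).g j y)⁻¹ *
      ((Jp B A f j i y)ᵀ * S * (Jp B A f j i y).map conj)).trace).re := by
  have h2 := pullI_g K hf hi hy hx
  have h3 := (pullI K hf hi).pos _ y hy
  set J := Jp B A f j i y with hJ
  have hJs : (J.map conj)ᴴ = Jᵀ := by
    ext a b
    simp [Matrix.conjTranspose_apply]
  have h4 : (Jᵀ * (S + (e : ℂ) • K.g i (f y)) * J.map conj).PosSemidef := by
    have := hS.conjTranspose_mul_mul_same (J.map conj)
    rwa [hJs] at this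
  have h5 := tr_re_nonneg h3 h4
  have h6 : Jᵀ * (S + (e : ℂ) • K.g i (f y)) * J.map conj =
      Jᵀ * S * J.map conj + (e : ℂ) • (pullI K hf hi).g j y := by
    rw [h2, Matrix.mul_add, Matrix.add_mul, Matrix.mul_smul, Matrix.smul_mul]
  rw [h6, Matrix.mul_add, Matrix.trace_add, Matrix.mul_smul, Matrix.trace_smul, tr_self h3,
    Complex.add_re, smul_eq_mul, Complex.re_ofReal_mul, Complex.natCast_re] at h5
  linarith

end imm

end

end Crest.Agent.R281.Har_331
end

-- ▼ part R281/Har4_331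

/-!
# R281 (S0424), leaf S6-HARN (helper331), part 4: assembly

* `sm_pull`   : `u ∘ f` is smooth
* `Low`       : the lower bound `c1` (helper389), as a property of `(M, K, h')`
* `osc_of_low`: uniform Harnack inequality for compact connected immersed `T` of bounded volume
-/

set_option autoImplicit false
set_option linter.unusedSectionVars false

open Set Filter Topology Complex MeasureTheory Function
open scoped ContDiff Matrix ComplexConjugate ComplexOrder

namespace Crest.Agent.R281.Har_331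

open Crest.Agent.R275 Crest.Agent.R275.Geo Crest.Agent.R275.Core144 Crest.Agent.R275.EDR890
open Crest.Agent.R273.Defs_333 Crest.Agent.R273.Hess_333 Crest.Agent.R273.HessB_333
open Crest.Agent.R273.HM_333 Crest.Agent.R273.Kah_333 Crest.Agent.R273.Vol_333
open Crest.Agent.R273.Vm_333 Crest.Agent.R273.Map_835 Crest.Agent.R273.KahI_645
open Crest.Agent.R273.Green_5 Crest.Agent.R273.FIa0_597 Crest.Agent.R273.FIb0_597
open Crest.Agent.R273.FIc0_597 Crest.Agent.R273
open Crest.Agent.R273.SchI_152 (Dg sm_sq Dg_nonneg continuous_Dg)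
open Crest.Agent.R281.Glob1_484 Crest.Agent.R281.S6D_664 Crest.Agent.R281.Defs_273

noncomputable section

variable {m n : ℕ}
variable {M T : Type} [TopologicalSpace M] [TopologicalSpace T] {A : Atl n M} {B : Atl m T}
  {L L' : LB A}

theorem sm_pull {f : T → M} (hf : HolMap B A f) {u : M → ℝ} (hu : A.Sm u) :
    B.Sm fun t => u (f t) := by
  intro j z hz
  obtain ⟨i, hi⟩ := A.cover (f ((B.e j).symm z))
  have hz' : z ∈ dm B A f j i := ⟨hz, hi⟩
  have hy := (B.e j).map_target hz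
  have h1 := near_pull hf (u := u) hy hi
  rw [(B.e j).right_inv hz] at h1
  have hT : AnalyticAt ℂ (rd B A f j i) z := hf.analyticAt hz'
  have hTc : ContDiffAt ℝ ∞ (rd B A f j i) z := hT.contDiffAt.restrict_scalars ℝ
  have hv : rd B A f j i z = A.e i (f ((B.e j).symm z)) := rfl
  have h2 : ContDiffAt ℝ ∞ (fun w => u ((A.e i).symm (rd B A f j i w))) z :=
    ContDiffAt.comp z (g := fun z => u ((A.e i).symm z)) (by rw [hv]; exact sm_at hu hi) hTc
  exact (h2.congr_of_eventuallyEq h1).contDiffWithinAt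

theorem hsf_log_nsM (h : HM L) {s : A.ι → M → ℂ} (hs : IsHS L univ s) {i : A.ι}
    {x : M} (hx : x ∈ (A.e i).source) (hp : 0 < nsM h s x) :
    hsf A (fun y => Real.log (nsM h s y)) i x = - cur h i x := by
  have hz := (A.e i).map_source hx
  have h0 : s i x ≠ 0 := by
    intro h0
    rw [nsM_eq h hs hx, nsq, h0] at hp
    simp at hp
  have h0' : (fun w => s i ((A.e i).symm w)) (A.e i x) ≠ 0 := by
    show s i ((A.e i).symm (A.e i x)) ≠ 0
    rw [(A.e i).left_inv hx]; exact h0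
  have hhol := hol_at hs i hz
  have h1 : (fun z => Real.log (nsM h s ((A.e i).symm z))) =ᶠ[𝓝 (A.e i x)]
      fun z => Real.log (‖s i ((A.e i).symm z)‖ ^ 2) - h.wt i z := by
    have hc : ContinuousAt (fun w => s i ((A.e i).symm w)) (A.e i x) :=
      hhol.self_of_nhds.continuousAt
    filter_upwards [hc.eventually_ne h0', (A.e i).open_target.mem_nhds hz] with z hz1 hz2
    have hz3 := (A.e i).map_target hz2
    rw [nsM_eq h hs hz3, nsq, HM.wt, Real.log_mul _ (h.pos i _ hz3).ne', sub_neg_eq_add]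
    exact pow_ne_zero 2 (norm_ne_zero_iff.2 hz1)
  have hw : ContDiffAt ℝ ∞ (h.wt i) (A.e i x) :=
    (wt_smooth h i).contDiffAt ((A.e i).open_target.mem_nhds hz)
  have hs2 : ContDiffAt ℝ ∞ (fun z => Real.log (‖s i ((A.e i).symm z)‖ ^ 2)) (A.e i x) := by
    have h3 := ((cd_at hs i).norm_sq ℝ).contDiffAt ((A.e i).open_target.mem_nhds hz)
    exact h3.log (pow_ne_zero 2 (norm_ne_zero_iff.2 h0'))
  show hess (fun z => Real.log (nsM h s ((A.e i).symm z))) (A.e i x) = _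
  rw [hess_congr h1, hess_sub hs2 hw, hess_log_norm hhol h0', zero_sub]
  rfl

/-- `log |s ∘ f|²` -/
def rho (h : HM L) (s : A.ι → M → ℂ) (f : T → M) (t : T) : ℝ := Real.log (nsM h s (f t))

theorem sm_rho (h : HM L) {s : A.ι → M → ℂ} (hs : IsHS L univ s) {f : T → M} (hf : HolMap B A f)
    (hp : ∀ t, 0 < nsM h s (f t)) : B.Sm (rho h s f) := by
  intro j
  have h1 := sm_pull hf (sm_nsM h hs) j
  exact ContDiffOn.log h1 fun z hz => (hp _).ne'

section imm

variable (K : Kah A) {f : T → M} (hf : HolMap B A f) (hi : Imm B A f)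

theorem lap_pull {u : M → ℝ} (huf : B.Sm fun t => u (f t)) {i : A.ι} {y : T}
    (hx : f y ∈ (A.e i).source)
    (hu : ContDiffAt ℝ ∞ (fun z => u ((A.e i).symm z)) (A.e i (f y))) :
    Lap (pullI K hf hi) (fun t => u (f t)) y =
      ((((pullI K hf hi).g (ch B y) y)⁻¹ * ((Jp B A f (ch B y) i y)ᵀ * hsf A u i (f y) *
        (Jp B A f (ch B y) i y).map conj)).trace).re := by
  rw [Lap_read _ huf (mem_ch B y)]
  unfold trC
  rw [hsf_pull hf (mem_ch B y) hx hu]

theorem lap_rho (h : HM L) {s : A.ι → M → ℂ} (hs : IsHS L univ s)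
    (hp : ∀ t, 0 < nsM h s (f t)) {i : A.ι} {y : T} (hx : f y ∈ (A.e i).source) :
    Lap (pullI K hf hi) (rho h s f) y =
      -((((pullI K hf hi).g (ch B y) y)⁻¹ * ((Jp B A f (ch B y) i y)ᵀ * cur h i (f y) *
        (Jp B A f (ch B y) i y).map conj)).trace).re := by
  have hu : ContDiffAt ℝ ∞ (fun z => Real.log (nsM h s ((A.e i).symm z))) (A.e i (f y)) := by
    refine ContDiffAt.log (sm_at (sm_nsM h hs) hx) ?_
    rw [(A.e i).left_inv hx]; exact (hp y).ne'
  have h1 := lap_pull K hf hi (u := fun x => Real.log (nsM h s x)) (sm_rho h hs hf hp) hx hu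
  rw [hsf_log_nsM h hs hx (hp y)] at h1
  rw [Matrix.mul_neg, Matrix.neg_mul, Matrix.mul_neg, Matrix.trace_neg, Complex.neg_re] at h1
  exact h1

end imm

/-- the lower bound of helper389 -/
def Low (K : Kah A) (h : HM L) (d : ℕ) (c1 : ℝ) : Prop :=
  ∀ (T : Type) [TopologicalSpace T] [T2Space T] [CompactSpace T] [ConnectedSpace T]
    [MeasurableSpace T] [BorelSpace T] (B : Atl d T) [Finite B.ι] (_ : Part B) (f : T → M)
    (hf : HolMap B A f) (hi : Imm B A f) (s : A.ι → M → ℂ), IsHS L univ s →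
    (∀ t, 0 < nsM h s (f t)) → ∀ q : T,
    c1 ≤ (vm (volK (pullI K hf hi))).real
        {x | rho h s f q - 1 < rho h s f x ∧ rho h s f x < rho h s f q + 1} +
      ∫ x in {x | rho h s f q - 1 < rho h s f x ∧ rho h s f x < rho h s f q + 1},
        Dg (pullI K hf hi) (rho h s f) x ∂(vm (volK (pullI K hf hi)))

/-- **uniform Harnack inequality** for compact connected immersed `T` of volume at most `v` -/
theorem osc_of_low [CompactSpace M] (K : Kah A) (h : HM L) (hnef : NefW K L) {k : ℕ} (hk : 0 < k)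
    {d : ℕ} {c1 : ℝ} (hc1 : 0 < c1) (hlow : Low K (pow h k) d c1) (v : ℝ) :
    ∃ C : ℝ, ∀ (T : Type) [TopologicalSpace T] [T2Space T] [CompactSpace T] [ConnectedSpace T]
      [MeasurableSpace T] [BorelSpace T] (B : Atl d T) [Finite B.ι] (_ : Part B) (f : T → M)
      (hf : HolMap B A f) (hi : Imm B A f) (s : A.ι → M → ℂ), IsHS (L ^ k) univ s →
      (∀ t, 0 < nsM (pow h k) s (f t)) → (vm (volK (pullI K hf hi))).real univ ≤ v →
      ∀ x y : T, rho (pow h k) s f x - rho (pow h k) s f y ≤ C := by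
  set v' := max v 0 with hv'
  have hv0 : 0 ≤ v' := le_max_right _ _
  set ε : ℝ := c1 / (8 * (k * d * v') + 1) with hε
  have hden : 0 < 8 * ((k : ℝ) * d * v') + 1 := by positivity
  have hε0 : 0 < ε := div_pos hc1 hden
  obtain ⟨hε', hpos⟩ := hnef ε hε0
  set φ := ratio hε' h with hφ
  have sφ : A.Sm φ := sm_ratio _ _
  have hpos' : ∀ i, ∀ x ∈ (A.e i).source,
      (cur h i x + hsf A φ i x + (ε : ℂ) • K.g i x).PosSemidef := by
    intro i x hx
    have h1 := cur_ratio hε' h i hx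
    have h2 : cur h i x + hsf A φ i x = cur hε' i x := by rw [h1]; simp [hφ]
    rw [h2]; exact hpos i x hx
  obtain ⟨D0, hD0⟩ := isCompact_univ.exists_bound_of_continuousOn
    (continuous_Dg K sφ).continuousOn
  set D : ℝ := max D0 1 with hD
  have hDb : ∀ x, Dg K φ x ≤ D ^ 2 := by
    intro x
    have h1 := (le_abs_self _).trans (hD0 x (mem_univ x))
    have h2 : D0 ≤ D := le_max_left _ _
    have h3 : 1 ≤ D := le_max_right _ _
    nlinarith
  refine ⟨6 + 4 / c1 * (v' + (k : ℝ) ^ 2 * D ^ 2 * v'), ?_⟩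
  intro T _ _ _ _ _ _ B _ P f hf hi s hs hp hvol x y
  have := Fintype.ofFinite B.ι
  set KT := pullI K hf hi with hKT
  set μ := vm (volK KT) with hμ
  have : IsFiniteMeasure μ := isFinite_vm _
  set ρ := rho (pow h k) s f with hρ
  have sρ : B.Sm ρ := sm_rho _ hs hf hp
  have sφT : B.Sm fun t => φ (f t) := sm_pull hf sφ
  have hk0 : (k : ℝ) ≠ 0 := by exact_mod_cast hk.ne'
  set Q : T → ℝ := fun t => -(1 / (k : ℝ)) * Lap KT ρ t with hQ
  have cQ : Continuous Q := continuous_const.mul (cont_sm (sm_Lap KT sρ))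
  have hμv : μ.real univ ≤ v' := hvol.trans (le_max_left _ _)
  have hμ0 : 0 ≤ μ.real univ := measureReal_nonneg
  have H : Har μ ρ (Dg KT ρ) Q (fun x => Q x + Lap KT (fun t => φ (f t)) x)
      (Gb KT ρ fun t => φ (f t)) k (ε * d) D := by
    refine har_compact P KT sρ sφT cQ (Nat.cast_nonneg k) (by positivity) (fun t => ?_)
      (fun t => ?_) fun t => ?_
    · exact (Dg_pull K hf hi sφ sφT t).trans (hDb _)
    · simp only [hQ]; field_simp
    · obtain ⟨i, hx⟩ := A.cover (f t)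
      have h1 := lap_rho K hf hi (pow h k) hs hp (y := t) hx
      have h2 := lap_pull K hf hi (u := φ) sφT hx (sm_at sφ hx)
      rw [cur_pow h k i hx, Matrix.mul_smul, Matrix.smul_mul, Matrix.mul_smul,
        Matrix.trace_smul, smul_eq_mul, ← Complex.ofReal_natCast, Complex.re_ofReal_mul] at h1
      have h3 := tr_pull K hf hi (j := ch B t) (mem_ch B t) hx (hpos' i _ hx)
      rw [Matrix.mul_add, Matrix.add_mul, Matrix.mul_add, Matrix.trace_add, Complex.add_re,
        ← h2] at h3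
      refine h3.trans (le_of_eq ?_)
      congr 1
      show _ = -(1 / (k : ℝ)) * Lap (pullI K hf hi) (rho (pow h k) s f) t
      rw [h1]
      field_simp
  have he : 8 * (k * (ε * d) * μ.real univ) ≤ c1 := by
    have h1 : (k : ℝ) * (ε * d) * μ.real univ ≤ k * (ε * d) * v' :=
      mul_le_mul_of_nonneg_left hμv (by positivity)
    have h2 : 8 * ((k : ℝ) * (ε * d) * v') = ε * (8 * (k * d * v')) := by ring
    have h3 : ε * (8 * ((k : ℝ) * d * v') + 1) = c1 := div_mul_cancel₀ _ hden.ne'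
    nlinarith
  have cρ : Continuous ρ := cont_sm sρ
  rcases le_total (ρ x) (ρ y) with hxy | hxy
  · have : 0 ≤ 6 + 4 / c1 * (v' + (k : ℝ) ^ 2 * D ^ 2 * v') := by positivity
    linarith
  · have h1 := H.osc_le (continuous_Dg KT sρ).measurable hc1 hxy (fun c h0 h1 => by
      obtain ⟨q, rfl⟩ := mem_range_of_exists_le_of_exists_ge cρ ⟨y, h0⟩ ⟨x, h1⟩
      exact hlow T B P f hf hi s hs hp q) he
    refine h1.trans ?_
    have h2 : μ.real univ + (k : ℝ) ^ 2 * D ^ 2 * μ.real univ ≤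
        v' + (k : ℝ) ^ 2 * D ^ 2 * v' :=
      add_le_add hμv (mul_le_mul_of_nonneg_left hμv (by positivity))
    have h3 := mul_le_mul_of_nonneg_left h2 (by positivity : 0 ≤ 4 / c1)
    linarith

end

end Crest.Agent.R281.Har_331
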