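import Crest.Agent.R281.Lf2_425
import Crest.Agent.R273.GreenG_5
import Crest.Agent.R281.Fib4_425
import Crest.Agent.R281.S6V7_664
import Crest.Agent.R281.Har4_331
import Crest.Agent.R281.N2_373
import Crest.Agent.R281.Mass5_519
import Crest.Agent.R281.D6f_986
import Crest.Agent.R281.HkP3_508
import Crest.Agent.R281.Sk0_474
import Crest.Agent.R281.Tc3_941

-- ▼ part R281/Lf3_425
section

/-!
# R281 (S0424), leaf integrals, part 3 (helper425): mixed determinants

* `quad`      : exact quadrature `∫₀¹ p = ∑_j qw D j * p(j)` for polynomials of degree `≤ D`;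
* `xi A C`    : `∫₀¹ det(A + t C) dt`; `xi_sum`, `xi_conj`, `det_add_sub` :
  `det(A + C) - det A = ∑_j qw n j * tr(adj(A + j C) C)` (size `n + 1`);
* `mixDen`    : the leaf density `a * ∫₀¹ det(Jᵀ (G + t (G' - G)) J̄) dt`, `pb_mixDen`,
  `mixDen_smOn`; `detDen K`.
-/

set_option autoImplicit false
set_option linter.unusedSectionVars false

open Set Filter Topology Complex Function MeasureTheory
open scoped ContDiff Matrix ComplexConjugate Polynomial

namespace Crest.Agent.R281.Lf3_425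

open Crest.Agent.R275.Geo Crest.Agent.R275.Core144 Crest.Agent.R275.EDR890
open Crest.Agent.R273.Map_835 (HolMap Jp dm mem_dm)
open Crest.Agent.R273.Defs_333 Crest.Agent.R273.Kah_333 Crest.Agent.R273.KahI_645
open Crest.Agent.R273.Green_5 Crest.Agent.R273.Piola_5
open Crest.Agent.R273.VolInv_5 (dp eval_dp natDegree_dp eval_derivative_dp)
open Crest.Agent.R273.StokesV_332 Crest.Agent.R281.S6D_664 Crest.Agent.R281.Lf1_425
open Crest.Agent.R273.FIb0_597 (ch mem_ch)
open Crest.Agent.R281.Fub_192 Crest.Agent.R281.Lf2_425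

noncomputable section

/-! ### exact quadrature -/

/-- quadrature weights with nodes `0, 1, …, D` -/
def qw (D : ℕ) (j : Fin (D + 1)) : ℂ :=
  ∫ t in (0 : ℝ)..1, (Lagrange.basis Finset.univ (fun i : Fin (D + 1) => (((i : ℕ) : ℝ) : ℂ)) j).eval
    (t : ℂ)

theorem continuous_evalR (p : ℂ[X]) : Continuous (fun t : ℝ => p.eval (t : ℂ)) :=
  p.continuous.comp Complex.continuous_ofReal

theorem quad {D : ℕ} {p : ℂ[X]} (hp : p.natDegree ≤ D) :
    ∫ t in (0 : ℝ)..1, p.eval (t : ℂ) =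
      ∑ j : Fin (D + 1), qw D j * p.eval (((j : ℕ) : ℝ) : ℂ) := by
  set v : Fin (D + 1) → ℂ := fun i => (((i : ℕ) : ℝ) : ℂ) with hv
  have hinj : Set.InjOn v (Finset.univ : Finset (Fin (D + 1))) := by
    intro i _ j _ h
    have h1 : ((i : ℕ) : ℝ) = ((j : ℕ) : ℝ) := Complex.ofReal_injective h
    exact Fin.ext (Nat.cast_injective h1)
  have hdeg : p.degree < (Finset.univ : Finset (Fin (D + 1))).card := by
    rw [Finset.card_univ, Fintype.card_fin]
    refine lt_of_le_of_lt Polynomial.degree_le_natDegree ?_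
    exact_mod_cast Nat.lt_succ_of_le hp
  have h1 := Lagrange.eq_interpolate (f := p) hinj hdeg
  have h2 : ∀ t : ℝ, p.eval (t : ℂ) = ∑ j : Fin (D + 1), p.eval (v j) *
      (Lagrange.basis Finset.univ v j).eval (t : ℂ) := by
    intro t
    conv_lhs => rw [h1]
    rw [Lagrange.interpolate_apply, Polynomial.eval_finsetSum]
    refine Finset.sum_congr rfl fun j _ => ?_
    rw [Polynomial.eval_mul, Polynomial.eval_C]
  have h4 : ∫ t in (0 : ℝ)..1, p.eval (t : ℂ) = ∫ t in (0 : ℝ)..1, ∑ j : Fin (D + 1),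
      p.eval (v j) * (Lagrange.basis Finset.univ v j).eval (t : ℂ) := by
    congr 1
    funext t
    exact h2 t
  rw [h4, intervalIntegral.integral_finsetSum]
  · refine Finset.sum_congr rfl fun j _ => ?_
    rw [intervalIntegral.integral_const_mul, mul_comm]
    rfl
  · intro j _
    exact (((continuous_evalR _).const_mul _).intervalIntegrable _ _)

theorem sum_qw (D : ℕ) : ∑ j : Fin (D + 1), qw D j = 1 := by
  have h := quad (D := D) (p := 1) (by simp)
  simpa using h.symm

/-! ### mixed determinants -/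

section alg

variable {n : ℕ}

/-- `∫₀¹ det(A + t C) dt` -/
def xi (A C : Matrix (Fin n) (Fin n) ℂ) : ℂ := ∫ t in (0 : ℝ)..1, (A + (t : ℂ) • C).det

theorem xi_sum (A C : Matrix (Fin n) (Fin n) ℂ) :
    xi A C = ∑ j : Fin (n + 1), qw n j * (A + ((((j : ℕ) : ℝ) : ℂ)) • C).det := by
  unfold xi
  have h := quad (natDegree_dp A C)
  simp only [eval_dp] at h
  exact h

theorem xi_zero (A : Matrix (Fin n) (Fin n) ℂ) : xi A 0 = A.det := by
  unfold xi
  simp

theorem det_map_conj (S : Matrix (Fin n) (Fin n) ℂ) : (S.map conj).det = conj S.det := by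
  rw [← RingHom.mapMatrix_apply, ← RingHom.map_det]

theorem xi_conj (A C S : Matrix (Fin n) (Fin n) ℂ) :
    xi (Sᵀ * A * S.map conj) (Sᵀ * C * S.map conj) = ((‖S.det‖ ^ 2 : ℝ) : ℂ) * xi A C := by
  unfold xi
  rw [← intervalIntegral.integral_const_mul]
  congr 1
  funext t
  have h1 : Sᵀ * A * S.map conj + (t : ℂ) • (Sᵀ * C * S.map conj) =
      Sᵀ * (A + (t : ℂ) • C) * S.map conj := by
    rw [Matrix.mul_add, Matrix.add_mul, Matrix.mul_smul, Matrix.smul_mul]
  rw [h1, Matrix.det_mul, Matrix.det_mul, Matrix.det_transpose, det_map_conj]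
  have h2 : S.det * conj S.det = ((‖S.det‖ ^ 2 : ℝ) : ℂ) := by
    rw [Complex.mul_conj, Complex.normSq_eq_norm_sq]
  rw [← h2]
  ring

/-- the determinant along a segment, size `n + 1` -/
theorem det_add_sub (A C : Matrix (Fin (n + 1)) (Fin (n + 1)) ℂ) :
    (A + C).det - A.det = ∑ j : Fin (n + 1), qw n j *
      ((A + ((((j : ℕ) : ℝ) : ℂ)) • C).adjugate * C).trace := by
  have hdeg : (Polynomial.derivative (dp A C)).natDegree ≤ n := by
    have h1 := Polynomial.natDegree_derivative_le (dp A C)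
    have h2 := natDegree_dp A C
    omega
  have h := quad hdeg
  simp only [eval_derivative_dp] at h
  rw [← h]
  have h3 : ∀ t : ℝ, HasDerivAt (fun s : ℝ => (dp A C).eval (s : ℂ))
      (((A + (t : ℂ) • C).adjugate * C).trace) t := by
    intro t
    rw [← eval_derivative_dp]
    exact ((dp A C).hasDerivAt (t : ℂ)).comp_ofReal
  have h4 := intervalIntegral.integral_eq_sub_of_hasDerivAt (a := 0) (b := 1)
    (f := fun s : ℝ => (dp A C).eval (s : ℂ))
    (f' := fun t : ℝ => ((A + (t : ℂ) • C).adjugate * C).trace) (fun t _ => h3 t) ?_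
  · rw [h4]
    simp only [eval_dp]
    simp
  · have h5 : (fun t : ℝ => ((A + (t : ℂ) • C).adjugate * C).trace) =
        fun t : ℝ => (Polynomial.derivative (dp A C)).eval (t : ℂ) := by
      funext t
      rw [eval_derivative_dp]
    rw [h5]
    exact (continuous_evalR _).intervalIntegrable _ _

end alg

/-! ### the leaf density of mixed determinants -/

variable {N d m : ℕ} {M : Type} [TopologicalSpace M] {A : Atl N M} {U : Set (Cn m)}
  {G G' : A.ι → M → Matrix (Fin N) (Fin N) ℂ}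

/-- pull-back of a matrix by a frame -/
def pm (J : Matrix (Fin N) (Fin d) ℂ) (G : Matrix (Fin N) (Fin N) ℂ) : Matrix (Fin d) (Fin d) ℂ :=
  Jᵀ * G * J.map conj

theorem pm_mul (J : Matrix (Fin N) (Fin d) ℂ) (S : Matrix (Fin d) (Fin d) ℂ)
    (G : Matrix (Fin N) (Fin N) ℂ) : pm (J * S) G = Sᵀ * pm J G * S.map conj := by
  unfold pm
  rw [Matrix.transpose_mul, Matrix.map_mul]
  simp only [Matrix.mul_assoc]

theorem pm_tr (J : Matrix (Fin N) (Fin d) ℂ) (T G : Matrix (Fin N) (Fin N) ℂ) :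
    pm (T * J) G = pm J (Tᵀ * G * T.map conj) := by
  unfold pm
  rw [Matrix.transpose_mul, Matrix.map_mul]
  simp only [Matrix.mul_assoc]

theorem pm_sub (J : Matrix (Fin N) (Fin d) ℂ) (G G' : Matrix (Fin N) (Fin N) ℂ) :
    pm J (G - G') = pm J G - pm J G' := by
  unfold pm
  rw [Matrix.mul_sub, Matrix.sub_mul]

/-- the leaf density `a * ∫₀¹ det(Jᵀ (G + t (G' - G)) J̄) dt` -/
def mixDen (d : ℕ) (hG : CF A G) (hG' : CF A G') (a : M → ℝ) : LDen A d where
  Φ i x J := (a x : ℂ) * xi (pm (Matrix.of J) (G i x)) (pm (Matrix.of J) (G' i x - G i x))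
  hom i x _ J S := by
    show (a x : ℂ) * xi (pm (J * S) (G i x)) (pm (J * S) (G' i x - G i x)) =
      _ * ((a x : ℂ) * xi (pm J (G i x)) (pm J (G' i x - G i x)))
    rw [pm_mul, pm_mul, xi_conj]
    ring
  tr i j x hx J := by
    show (a x : ℂ) * xi (pm J (G i x)) (pm J (G' i x - G i x)) =
      (a x : ℂ) * xi (pm (Jm A i j x * J) (G j x)) (pm (Jm A i j x * J) (G' j x - G j x))
    rw [pm_tr, pm_tr, hG.tr i j x hx, hG'.tr i j x hx, Matrix.mul_sub, Matrix.sub_mul]

theorem fb_pm (J : Matrix (Fin N) (Fin (d + m)) ℂ) (G : Matrix (Fin N) (Fin N) ℂ) :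
    fb (Jᵀ * G * J.map conj) = pm (fc J) G := by
  ext a b
  simp [fb, pm, fc, Matrix.mul_apply]

/-- **the density on a family, Kaehler metrics** -/
theorem pb_mixDen (K K' : Kah A) (a : M → ℝ) (F : Fam A d m U) {k : F.B.ι} {v : F.V}
    (hv : v ∈ (F.B.e k).source) :
    (mixDen d (kah_cf K) (kah_cf K') a).pb F k v = (a (F.i v) : ℂ) *
      xi (fb ((F.kah K).g k v)) (fb ((F.kah K').g k v) - fb ((F.kah K).g k v)) := by
  have hc := mem_ch A (F.i v)
  have h1 : (F.kah K).g k v = _ := pullI_g K F.hol F.imm hv hc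
  have h2 : (F.kah K').g k v = _ := pullI_g K' F.hol F.imm hv hc
  have h3 : fb ((F.kah K).g k v) = pm (fc (Jp F.B A F.i k (ch A (F.i v)) v))
      (K.g (ch A (F.i v)) (F.i v)) := by
    rw [h1]; exact fb_pm _ _
  have h4 : fb ((F.kah K').g k v) = pm (fc (Jp F.B A F.i k (ch A (F.i v)) v))
      (K'.g (ch A (F.i v)) (F.i v)) := by
    rw [h2]; exact fb_pm _ _
  rw [h3, h4, ← pm_sub]
  rfl

theorem contDiffAt_det {E : Type*} [NormedAddCommGroup E] [NormedSpace ℝ E] {n : ℕ}
    {F : E → Matrix (Fin n) (Fin n) ℂ} {z : E} (h : ∀ a b, ContDiffAt ℝ ∞ (fun x => F x a b) z) :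
    ContDiffAt ℝ ∞ (fun x => (F x).det) z := by
  simp only [Matrix.det_apply]
  refine ContDiffAt.sum fun σ _ => ?_
  have h1 : ContDiffAt ℝ ∞ (fun x => ∏ i, F x (σ i) i) z :=
    contDiffAt_prod fun i _ => h _ _
  exact h1.const_smul _

/-- smoothness of the mixed density where `a` is smooth -/
theorem mixDen_smOn (hG : CF A G) (hG' : CF A G') {a : M → ℝ} {O : Set M}
    (ha : ∀ i, ∀ z ∈ (A.e i).target, (A.e i).symm z ∈ O →
      ContDiffAt ℝ ∞ (fun w => a ((A.e i).symm w)) z) :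
    (mixDen d hG hG' a).SmOn O := by
  intro i z hz hO J
  show ContDiffAt ℝ ∞ (fun q : Cn N × (Fin N → Fin d → ℂ) => ((a ((A.e i).symm q.1) : ℝ) : ℂ) *
    xi (pm (Matrix.of q.2) (G i ((A.e i).symm q.1)))
      (pm (Matrix.of q.2) (G' i ((A.e i).symm q.1) - G i ((A.e i).symm q.1)))) (z, J)
  simp only [xi_sum]
  have hfst : ContDiffAt ℝ ∞ (fun q : Cn N × (Fin N → Fin d → ℂ) => q.1) (z, J) :=
    contDiffAt_fst
  have h1 : ContDiffAt ℝ ∞ (fun q : Cn N × (Fin N → Fin d → ℂ) =>
      ((a ((A.e i).symm q.1) : ℝ) : ℂ)) (z, J) := by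
    have h2 : ContDiffAt ℝ ∞ (fun q : Cn N × (Fin N → Fin d → ℂ) => a ((A.e i).symm q.1)) (z, J) :=
      ContDiffAt.comp (z, J) (g := fun w => a ((A.e i).symm w))
        (f := fun q : Cn N × (Fin N → Fin d → ℂ) => q.1) (ha i z hz hO) hfst
    exact Complex.ofRealCLM.contDiff.contDiffAt.comp (z, J) h2
  have hg : ∀ {H : A.ι → M → Matrix (Fin N) (Fin N) ℂ}, CF A H → ∀ a b,
      ContDiffAt ℝ ∞ (fun q : Cn N × (Fin N → Fin d → ℂ) => H i ((A.e i).symm q.1) a b) (z, J) := by
    intro H hH a b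
    exact ContDiffAt.comp (z, J) (g := fun w => H i ((A.e i).symm w) a b)
      (f := fun q : Cn N × (Fin N → Fin d → ℂ) => q.1)
      ((hH.sm i a b).contDiffAt ((A.e i).open_target.mem_nhds hz)) hfst
  have hJ : ∀ (a : Fin N) (b : Fin d),
      ContDiffAt ℝ ∞ (fun q : Cn N × (Fin N → Fin d → ℂ) => q.2 a b) (z, J) := by
    intro a b
    have h3 : ContDiffAt ℝ ∞ (fun q : Cn N × (Fin N → Fin d → ℂ) => q.2) (z, J) := contDiffAt_snd
    exact contDiffAt_pi.1 (contDiffAt_pi.1 h3 a) b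
  have hJc : ∀ (a : Fin N) (b : Fin d),
      ContDiffAt ℝ ∞ (fun q : Cn N × (Fin N → Fin d → ℂ) => conj (q.2 a b)) (z, J) := fun a b =>
    Complex.conjCLE.contDiff.contDiffAt.comp (z, J) (hJ a b)
  have hpm : ∀ {H : (Cn N × (Fin N → Fin d → ℂ)) → Matrix (Fin N) (Fin N) ℂ},
      (∀ a b, ContDiffAt ℝ ∞ (fun q => H q a b) (z, J)) → ∀ a b,
      ContDiffAt ℝ ∞ (fun q : Cn N × (Fin N → Fin d → ℂ) => pm (Matrix.of q.2) (H q) a b)
        (z, J) := by
    intro H hH a b
    simp only [pm, Matrix.mul_apply, Matrix.transpose_apply, Matrix.map_apply, Matrix.of_apply]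
    exact ContDiffAt.sum fun c _ => ContDiffAt.mul
      (ContDiffAt.sum fun e _ => (hJ e a).mul (hH e c)) (hJc c b)
  refine h1.mul (ContDiffAt.sum fun j _ => ?_)
  refine contDiffAt_const.mul (contDiffAt_det fun a b => ?_)
  refine (hpm (H := fun q => G i ((A.e i).symm q.1)) (hg hG) a b).add ?_
  refine contDiffAt_const.mul (hpm (H := fun q => G' i ((A.e i).symm q.1) -
    G i ((A.e i).symm q.1)) (fun a b => (hg hG' a b).sub (hg hG a b)) a b)

/-- the volume density of `K` -/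
def detDen (d : ℕ) (K : Kah A) : LDen A d := mixDen d (kah_cf K) (kah_cf K) (fun _ => 1)

theorem pb_detDen (K : Kah A) (F : Fam A d m U) {k : F.B.ι} {v : F.V}
    (hv : v ∈ (F.B.e k).source) : (detDen d K).pb F k v = (fb ((F.kah K).g k v)).det := by
  unfold detDen
  rw [pb_mixDen K K _ F hv, sub_self, xi_zero]
  simp



end

end Crest.Agent.R281.Lf3_425
end

-- ▼ part R281/Fib5_425
section

/-!
# R281 (S0424), leaf S6-FIB, part 5 (helper425): the fibre integral of `tr(adj(g) ∂∂̄H)`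

* `push_tr_adj`  : `f_*(tr(adj(g) ∂∂̄H)) = ∑_k ∂_k f_*(∑_b adj(g)_{b,y_k} ∂̄_b H)`;
* `push_grad`    : `f_*(∑_a adj(g)_{y_k,a} ∂_a H) = ∑_l ∂_l f_*(H adj(g)_{y_k,y_l})`;
* `push_tr_ddb`  : `g` Hermitian, `H` real:
  `f_*(tr(adj(g) ∂∂̄H)) = ∑_k ∑_l ∂_k ∂̄_l f_*(H adj(g)_{y_l,y_k})`;
* `push_det_sub` : base of dimension one: `f_*(det(g + ∂∂̄H) - det g) =
  ∂ ∂̄ f_*(H * ∫₀¹ det fb(g + t ∂∂̄H) dt)`.
-/

set_option autoImplicit false
set_option linter.unusedSectionVars false

open Set Filter Topology Complex MeasureTheory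
open scoped ContDiff ComplexConjugate Matrix

namespace Crest.Agent.R281.Fib5_425

open Crest.Agent.R275.Geo Crest.Agent.R275.Tor812 Crest.Agent.R275.TorS666
open Crest.Agent.R275.Core144 Crest.Agent.R275.EDR890
open Crest.Agent.R275.C1d194 Crest.Agent.R275.Pai323 Crest.Agent.R275.OmT75
open Crest.Agent.R275.SerG398 (lint dens DPair)
open Crest.Agent.R273.Defs_333 Crest.Agent.R273.Hess_333 Crest.Agent.R273.Kah_333
open Crest.Agent.R273.Green_5
open Crest.Agent.R273.StokesV_332 Crest.Agent.R281.Fib1_425 Crest.Agent.R281.Fib2_425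
open Crest.Agent.R281.Fib3_425 Crest.Agent.R281.Fib4_425 Crest.Agent.R281.S6D_664
open Crest.Agent.R281.Lf3_425

noncomputable section

variable {d m : ℕ} {V : Type} [TopologicalSpace V] {y : V → Cn m} {U : Set (Cn m)}

section any

variable {B : Atl (d + m) V} {P : Part B} {H : V → ℂ}
  {g : B.ι → V → Matrix (Fin (d + m)) (Fin (d + m)) ℂ}

theorem vd10_adj (hg : CF B g) {φ u : V → ℂ} (hφ : ∀ i, B.SmAt i φ) (hu : ∀ i, B.SmAt i u) :
    VD10 B (fun i a x => adjY B g φ u i x a) :=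
  ⟨(v10_adj hg hφ hu).sm, (v10_adj hg hφ hu).tr⟩

theorem dl_const0 (i : B.ι) (a : Fin (d + m)) (c : ℂ) (x : V) : dl B i a (fun _ => c) x = 0 := by
  unfold dl
  rw [dj_eq_wd]
  exact wd_const _ _ _

variable [T2Space V]

/-- first step -/
theorem push_tr_adj (h : Prj B y U) (hg : CF B g) (hH : ∀ i, B.SmAt i H) {w : Cn m} (hw : w ∈ U) :
    push P (fun i x => ((g i x).adjugate * hm B H i x).trace) w =
      ∑ k, dj k (push P (fun i x => ∑ b, (g i x).adjugate b (Fin.natAdd d k) *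
        B.db i b H x)) w := by
  have h1 := transport10 (P := P) h
    (vd10_adj hg (φ := fun _ => (1 : ℂ)) (u := H) (fun _ => contDiffOn_const) hH) w hw
  have h2 : push P (fun i x => ∑ a, dl B i a (fun x => adjY B g (fun _ => (1 : ℂ)) H i x a) x) w =
      push P (fun i x => ((g i x).adjugate * hm B H i x).trace) w := by
    refine push_congr h fun i x hx _ => ?_
    rw [div_adjY hg (φ := fun _ => (1 : ℂ)) contDiffOn_const (hH i) hx]
    simp only [dl_const0, mul_zero, zero_mul, Finset.sum_const_zero, add_zero, one_mul]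
  rw [← h2, h1]
  refine Finset.sum_congr rfl fun k _ => ?_
  congr 2
  funext i x
  unfold adjY
  rw [one_mul]

/-- `ȳ_k` is smooth -/
theorem smAt_yc (h : Prj B y U) (k : Fin m) (i : B.ι) : B.SmAt i (fun v => conj (y v k)) := by
  have h1 : ContDiffOn ℝ ∞ (fun z : Cn m => conj (z k)) U := by
    refine ContDiff.contDiffOn ?_
    exact Complex.conjCLE.contDiff.comp
      ((EuclideanSpace.proj (𝕜 := ℂ) k).restrictScalars ℝ).contDiff
  exact h.sm h1 i

theorem dl_y (h : Prj B y U) {i : B.ι} {x : V} (hx : x ∈ (B.e i).source) (k : Fin m)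
    (a : Fin (d + m)) : dl B i a (fun v => y v k) x = if a = Fin.natAdd d k then 1 else 0 := by
  have h1 : (fun z => y ((B.e i).symm z) k) =ᶠ[𝓝 (B.e i x)] fun z => z (Fin.natAdd d k) := by
    filter_upwards [(B.e i).open_target.mem_nhds ((B.e i).map_source hx)] with z hz
    rw [h.y_symm hz, bs_apply]
  have h2 : HasFDerivAt (fun z : Cn (d + m) => z (Fin.natAdd d k))
      ((EuclideanSpace.proj (𝕜 := ℂ) (Fin.natAdd d k)).restrictScalars ℝ : Cn (d + m) →L[ℝ] ℂ)
      (B.e i x) :=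
    ((EuclideanSpace.proj (𝕜 := ℂ) (Fin.natAdd d k)).restrictScalars ℝ :
      Cn (d + m) →L[ℝ] ℂ).hasFDerivAt
  unfold dl dj
  rw [h1.fderiv_eq, h2.fderiv]
  by_cases ha : a = Fin.natAdd d k
  · subst ha
    simp only [if_pos]
    show (1 / 2 : ℂ) * ((EuclideanSpace.single (Fin.natAdd d k) (1 : ℂ) : Cn (d + m))
      (Fin.natAdd d k) - I * (EuclideanSpace.single (Fin.natAdd d k) I : Cn (d + m))
      (Fin.natAdd d k)) = 1
    simp only [PiLp.single_apply, if_pos]
    rw [Complex.I_mul_I]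
    norm_num
  · rw [if_neg ha]
    show (1 / 2 : ℂ) * ((EuclideanSpace.single a (1 : ℂ) : Cn (d + m))
      (Fin.natAdd d k) - I * (EuclideanSpace.single a I : Cn (d + m))
      (Fin.natAdd d k)) = 0
    simp only [PiLp.single_apply, if_neg (fun h => ha h.symm : ¬ Fin.natAdd d k = a)]
    simp

theorem db_yc (h : Prj B y U) {i : B.ι} {x : V} (hx : x ∈ (B.e i).source) (k : Fin m)
    (a : Fin (d + m)) :
    B.db i a (fun v => conj (y v k)) x = if a = Fin.natAdd d k then 1 else 0 := by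
  have h1 := dl_conj (A := B) i a (fun v => conj (y v k)) x
  simp only [Complex.conj_conj] at h1
  rw [dl_y h hx k a] at h1
  have h2 := congrArg conj h1
  rw [Complex.conj_conj] at h2
  rw [← h2]
  split_ifs <;> simp

theorem hm_yc (h : Prj B y U) {i : B.ι} {x : V} (hx : x ∈ (B.e i).source) (k : Fin m) :
    hm B (fun v => conj (y v k)) i x = 0 := by
  ext a b
  rw [hm_apply]
  have h1 : dl B i a (B.db i b (fun v => conj (y v k))) x =
      dl B i a (fun _ => if b = Fin.natAdd d k then (1 : ℂ) else 0) x := by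
    unfold dl
    refine dj_congr ?_
    filter_upwards [(B.e i).open_target.mem_nhds ((B.e i).map_source hx)] with z hz
    exact db_yc h ((B.e i).map_target hz) k b
  rw [h1, dl_const0]
  rfl

/-- second step -/
theorem push_grad (h : Prj B y U) (hg : CF B g) (hH : ∀ i, B.SmAt i H) (k : Fin m) {w : Cn m}
    (hw : w ∈ U) :
    push P (fun i x => ∑ a, (g i x).adjugate (Fin.natAdd d k) a * dl B i a H x) w =
      ∑ l, dj l (push P (fun i x => H x *
        (g i x).adjugate (Fin.natAdd d k) (Fin.natAdd d l))) w := by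
  have h1 := transport10 (P := P) h
    (vd10_adj hg (φ := H) (u := fun v => conj (y v k)) hH (smAt_yc h k)) w hw
  have h2 : push P (fun i x => ∑ a, dl B i a
      (fun x => adjY B g H (fun v => conj (y v k)) i x a) x) w =
      push P (fun i x => ∑ a, (g i x).adjugate (Fin.natAdd d k) a * dl B i a H x) w := by
    refine push_congr h fun i x hx _ => ?_
    rw [div_adjY hg (hH i) (smAt_yc h k i) hx, hm_yc h hx, Matrix.mul_zero, Matrix.trace_zero,
      mul_zero, zero_add]
    refine Finset.sum_congr rfl fun a _ => ?_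
    rw [Finset.sum_eq_single (Fin.natAdd d k)]
    · rw [db_yc h hx, if_pos rfl, mul_one]
    · intro b _ hb
      rw [db_yc h hx, if_neg hb, mul_zero]
    · intro hb
      exact absurd (Finset.mem_univ _) hb
  rw [← h2, h1]
  refine Finset.sum_congr rfl fun l _ => ?_
  have h3 : push P (fun i x => adjY B g H (fun v => conj (y v k)) i x (Fin.natAdd d l)) =ᶠ[𝓝 w]
      push P (fun i x => H x * (g i x).adjugate (Fin.natAdd d k) (Fin.natAdd d l)) := by
    filter_upwards with z
    refine push_congr h fun i x hx _ => ?_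
    unfold adjY
    congr 1
    rw [Finset.sum_eq_single (Fin.natAdd d k)]
    · rw [db_yc h hx, if_pos rfl, mul_one]
    · intro b _ hb
      rw [db_yc h hx, if_neg hb, mul_zero]
    · intro hb
      exact absurd (Finset.mem_univ _) hb
  exact dj_congr h3

/-- conjugate of the adjugate of a Hermitian matrix -/
theorem adj_conj {n : ℕ} {G : Matrix (Fin n) (Fin n) ℂ} (hG : G.IsHermitian) (a b : Fin n) :
    conj (G.adjugate a b) = G.adjugate b a := by
  have h1 : G.adjugateᴴ = G.adjugate := by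
    rw [Matrix.adjugate_conjTranspose, hG.eq]
  have h2 := congrFun (congrFun h1 b) a
  rw [Matrix.conjTranspose_apply] at h2
  exact h2

/-- second step, conjugated -/
theorem push_grad_db (h : Prj B y U) (hg : CF B g)
    (hg' : ∀ i, ∀ x ∈ (B.e i).source, (g i x).IsHermitian) {H : V → ℝ} (hH : B.Sm H)
    (k : Fin m) {w : Cn m} (hw : w ∈ U) :
    push P (fun i x => ∑ b, (g i x).adjugate b (Fin.natAdd d k) *
        B.db i b (fun v => (H v : ℂ)) x) w =
      ∑ l, dbj l (push P (fun i x => (H x : ℂ) *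
        (g i x).adjugate (Fin.natAdd d l) (Fin.natAdd d k))) w := by
  have hH' : ∀ i, B.SmAt i (fun v => (H v : ℂ)) := fun i => smAt_ofReal (hH i)
  have h1 := push_grad (P := P) h hg hH' k hw
  have h2 := congrArg conj h1
  rw [← push_conj h hw, map_sum] at h2
  have h3 : push P (fun i x => conj (∑ a, (g i x).adjugate (Fin.natAdd d k) a *
      dl B i a (fun v => (H v : ℂ)) x)) w =
      push P (fun i x => ∑ b, (g i x).adjugate b (Fin.natAdd d k) *
        B.db i b (fun v => (H v : ℂ)) x) w := by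
    refine push_congr h fun i x hx _ => ?_
    rw [map_sum]
    refine Finset.sum_congr rfl fun a _ => ?_
    rw [map_mul, adj_conj (hg' i x hx)]
    congr 1
    have h4 := dl_conj (A := B) i a (fun v => (H v : ℂ)) x
    simp only [Complex.conj_ofReal] at h4
    rw [h4, Complex.conj_conj]
  rw [h3] at h2
  rw [h2]
  refine Finset.sum_congr rfl fun l _ => ?_
  rw [← dbj_conj]
  refine dbj_congr ?_
  filter_upwards [h.opn.mem_nhds hw] with z hz
  rw [← push_conj h hz]
  refine push_congr h fun i x hx _ => ?_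
  rw [map_mul, Complex.conj_ofReal, adj_conj (hg' i x hx)]

theorem smAt_Hadj (hg : CF B g) {H : V → ℝ} (hH : B.Sm H) (a b : Fin (d + m)) (i : B.ι) :
    B.SmAt i (fun x => (H x : ℂ) * (g i x).adjugate b a) :=
  (smAt_ofReal (hH i)).mul (smAt_adj hg i a b)

/-- **the fibre integral of `tr(adj(g) ∂∂̄H)`** -/
theorem push_tr_ddb (h : Prj B y U) (hg : CF B g)
    (hg' : ∀ i, ∀ x ∈ (B.e i).source, (g i x).IsHermitian) {H : V → ℝ} (hH : B.Sm H)
    {w : Cn m} (hw : w ∈ U) :
    push P (fun i x => ((g i x).adjugate * hsf B H i x).trace) w =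
      ∑ k, ∑ l, dj k (dbj l (push P (fun i x => (H x : ℂ) *
        (g i x).adjugate (Fin.natAdd d l) (Fin.natAdd d k)))) w := by
  have hH' : ∀ i, B.SmAt i (fun v => (H v : ℂ)) := fun i => smAt_ofReal (hH i)
  have h1 := push_tr_adj (P := P) h hg hH' hw
  have h2 : push P (fun i x => ((g i x).adjugate * hm B (fun v => (H v : ℂ)) i x).trace) w =
      push P (fun i x => ((g i x).adjugate * hsf B H i x).trace) w := by
    refine push_congr h fun i x hx _ => ?_
    rw [hm_ofReal H i hx]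
  rw [← h2, h1]
  refine Finset.sum_congr rfl fun k _ => ?_
  have h3 : push P (fun i x => ∑ b, (g i x).adjugate b (Fin.natAdd d k) *
      B.db i b (fun v => (H v : ℂ)) x) =ᶠ[𝓝 w] fun z => ∑ l, dbj l (push P (fun i x => (H x : ℂ) *
        (g i x).adjugate (Fin.natAdd d l) (Fin.natAdd d k))) z := by
    filter_upwards [h.opn.mem_nhds hw] with z hz
    exact push_grad_db h hg hg' hH k hz
  rw [dj_congr h3, dj_sum]
  intro l _
  exact ((Fib4_425.contDiffOn_dbj h.opn (contDiffOn_push h (smAt_Hadj hg hH _ _)) l).contDiffAt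
    (h.opn.mem_nhds hw)).differentiableAt (by simp)

end any

/-! ### linearity of the derivatives on the base -/

section lin

theorem dj_lin {ι : Type*} (s : Finset ι) (c : ι → ℂ) {F : ι → Cn m → ℂ} {z : Cn m}
    (hF : ∀ j ∈ s, DifferentiableAt ℝ (F j) z) (k : Fin m) :
    dj k (fun w => ∑ j ∈ s, c j * F j w) z = ∑ j ∈ s, c j * dj k (F j) z := by
  rw [dj_sum fun j hj => (hF j hj).const_mul (c j)]
  refine Finset.sum_congr rfl fun j hj => ?_
  unfold dj
  rw [fderiv_const_mul (hF j hj)]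
  simp only [_root_.smul_apply, smul_eq_mul]
  ring

theorem dbj_lin {ι : Type*} (s : Finset ι) (c : ι → ℂ) {F : ι → Cn m → ℂ} {z : Cn m}
    (hF : ∀ j ∈ s, DifferentiableAt ℝ (F j) z) (k : Fin m) :
    dbj k (fun w => ∑ j ∈ s, c j * F j w) z = ∑ j ∈ s, c j * dbj k (F j) z := by
  rw [R275.OmT75.dbj_sum fun j hj => (hF j hj).const_mul (c j)]
  refine Finset.sum_congr rfl fun j hj => ?_
  unfold dbj
  rw [fderiv_const_mul (hF j hj)]
  simp only [_root_.smul_apply, smul_eq_mul]
  ring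

theorem ddb_lin (hU : IsOpen U) {ι : Type*} (s : Finset ι) (c : ι → ℂ) {F : ι → Cn m → ℂ}
    (hF : ∀ j ∈ s, ContDiffOn ℝ ∞ (F j) U) (k l : Fin m) {z : Cn m} (hz : z ∈ U) :
    dj k (dbj l (fun w => ∑ j ∈ s, c j * F j w)) z = ∑ j ∈ s, c j * dj k (dbj l (F j)) z := by
  have h1 : dbj l (fun w => ∑ j ∈ s, c j * F j w) =ᶠ[𝓝 z] fun w => ∑ j ∈ s, c j * dbj l (F j) w := by
    filter_upwards [hU.mem_nhds hz] with w hw
    exact dbj_lin s c (fun j hj => ((hF j hj).contDiffAt (hU.mem_nhds hw)).differentiableAt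
      (by simp)) l
  rw [dj_congr h1]
  exact dj_lin s c (fun j hj => ((Fib4_425.contDiffOn_dbj hU (hF j hj) l).contDiffAt
    (hU.mem_nhds hz)).differentiableAt (by simp)) k

theorem ddb_congr (hU : IsOpen U) {F G : Cn m → ℂ} (h : EqOn F G U) (k l : Fin m) {z : Cn m}
    (hz : z ∈ U) : dj k (dbj l F) z = dj k (dbj l G) z := by
  refine dj_congr ?_
  filter_upwards [hU.mem_nhds hz] with w hw
  refine dbj_congr ?_
  filter_upwards [hU.mem_nhds hw] with w' hw'
  exact h hw'

end lin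

/-! ### base of dimension one -/

section one

variable {B : Atl (d + 1) V} {y : V → Cn 1} {U : Set (Cn 1)} {P : Part B} {H : V → ℝ}
  {g : B.ι → V → Matrix (Fin (d + 1)) (Fin (d + 1)) ℂ}

theorem natAdd_zero_eq (d : ℕ) (k : Fin 1) : Fin.natAdd d k = Fin.last d := by
  ext
  simp

theorem adj_last (G : Matrix (Fin (d + 1)) (Fin (d + 1)) ℂ) :
    G.adjugate (Fin.last d) (Fin.last d) = (fb (d := d) (m := 1) G).det := by
  rw [Matrix.adjugate_fin_succ_eq_det_submatrix]
  have h1 : G.submatrix (Fin.last d).succAbove (Fin.last d).succAbove =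
      fb (d := d) (m := 1) G := by
    rw [Fin.succAbove_last]
    rfl
  rw [h1, ← two_mul, pow_mul]
  simp

theorem fb_add (G G' : Matrix (Fin (d + m)) (Fin (d + m)) ℂ) : fb (G + G') = fb G + fb G' := rfl


theorem smAt_detG {n : ℕ} {B : Atl (d + m) V} {i : B.ι} {S : V → Matrix (Fin n) (Fin n) ℂ}
    (h : ∀ a b, B.SmAt i (fun x => S x a b)) : B.SmAt i (fun x => (S x).det) := by
  have h1 : ContDiffOn ℝ ∞ (fun z => (S ((B.e i).symm z)).det) (B.e i).target := by
    simp only [Matrix.det_apply]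
    refine ContDiffOn.sum fun σ _ => ?_
    refine ContDiffOn.const_smul _ ?_
    exact contDiffOn_prod fun b _ => h (σ b) b
  exact h1

theorem smAt_H {B : Atl (d + m) V} {g : B.ι → V → Matrix (Fin (d + m)) (Fin (d + m)) ℂ}
    (hg : CF B g) {H : V → ℝ} (hH : B.Sm H) (i : B.ι) :
    B.SmAt i (fun x => (H x : ℂ) * (fb (g i x)).det) := by
  refine (smAt_ofReal (hH i)).mul ?_
  exact smAt_detG (S := fun x => fb (g i x)) fun a b => hg.sm i _ _

variable [T2Space V]

theorem push_tr_one (h : Prj B y U) (hg : CF B g)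
    (hg' : ∀ i, ∀ x ∈ (B.e i).source, (g i x).IsHermitian) (hH : B.Sm H)
    {w : Cn 1} (hw : w ∈ U) :
    push P (fun i x => ((g i x).adjugate * hsf B H i x).trace) w =
      dj 0 (dbj 0 (push P (fun i x => (H x : ℂ) * (fb (d := d) (m := 1) (g i x)).det))) w := by
  rw [push_tr_ddb h hg hg' hH hw]
  simp only [Fin.sum_univ_one, Fin.isValue, natAdd_zero_eq, adj_last]

/-- **the defect of the fibre volume** -/
theorem push_det_sub (h : Prj B y U) (hg : CF B g)
    (hg' : ∀ i, ∀ x ∈ (B.e i).source, (g i x).IsHermitian) (hH : B.Sm H)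
    {w : Cn 1} (hw : w ∈ U) :
    push P (fun i x => (g i x + hsf B H i x).det - (g i x).det) w =
      dj 0 (dbj 0 (push P (fun i x => (H x : ℂ) *
        xi (fb (d := d) (m := 1) (g i x)) (fb (d := d) (m := 1) (hsf B H i x))))) w := by
  set gj : Fin (d + 1) → B.ι → V → Matrix (Fin (d + 1)) (Fin (d + 1)) ℂ := fun j i x =>
    g i x + (((j : ℕ) : ℝ) : ℂ) • hsf B H i x with hgj
  have hcf : ∀ j, CF B (gj j) := fun j => hg.add ((hsf_cf hH).smul _)
  have hher : ∀ j, ∀ i, ∀ x ∈ (B.e i).source, (gj j i x).IsHermitian := by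
    intro j i x hx
    refine (hg' i x hx).add ?_
    have h1 : (hsf B H i x).IsHermitian := R273.GreenM_5.hsf_herm hH hx
    show ((((j : ℕ) : ℝ) : ℂ) • hsf B H i x)ᴴ = _
    rw [Matrix.conjTranspose_smul, h1.eq]
    congr 1
    exact Complex.conj_ofReal _
  have e1 : push P (fun i x => (g i x + hsf B H i x).det - (g i x).det) w =
      ∑ j : Fin (d + 1), qw d j *
        push P (fun i x => ((gj j i x).adjugate * hsf B H i x).trace) w := by
    have e2 : push P (fun i x => (g i x + hsf B H i x).det - (g i x).det) w =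
        push P (fun i x => ∑ j : Fin (d + 1), qw d j *
          ((gj j i x).adjugate * hsf B H i x).trace) w :=
      push_congr h fun i x _ _ => det_add_sub _ _
    rw [e2, push_finsum h Finset.univ
      (F := fun j i x => qw d j * ((gj j i x).adjugate * hsf B H i x).trace) ?_ hw]
    · exact Finset.sum_congr rfl fun j _ => push_smul h _ hw
    · intro j _ i
      refine contDiffOn_const.mul ?_
      refine (smAt_tr (hcf j) (u := fun v => (H v : ℂ)) (smAt_ofReal (hH i))).congr fun z hz => ?_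
      show ((gj j i ((B.e i).symm z)).adjugate * hsf B H i ((B.e i).symm z)).trace =
        ((gj j i ((B.e i).symm z)).adjugate * hm B (fun v => (H v : ℂ)) i
          ((B.e i).symm z)).trace
      rw [hm_ofReal H i ((B.e i).map_target hz)]
  rw [e1]
  have hsm : ∀ j, ∀ i, B.SmAt i (fun x => (H x : ℂ) * (fb (d := d) (m := 1) (gj j i x)).det) :=
    fun j i => smAt_H (hcf j) hH i
  have e3 : ∀ z ∈ U, push P (fun i x => (H x : ℂ) *
      xi (fb (d := d) (m := 1) (g i x)) (fb (d := d) (m := 1) (hsf B H i x))) z =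
      ∑ j : Fin (d + 1), qw d j * push P (fun i x => (H x : ℂ) *
        (fb (d := d) (m := 1) (gj j i x)).det) z := by
    intro z hz
    have e4 : push P (fun i x => (H x : ℂ) *
        xi (fb (d := d) (m := 1) (g i x)) (fb (d := d) (m := 1) (hsf B H i x))) z =
        push P (fun i x => ∑ j : Fin (d + 1), qw d j * ((H x : ℂ) *
          (fb (d := d) (m := 1) (gj j i x)).det)) z := by
      refine push_congr h fun i x _ _ => ?_
      rw [xi_sum, Finset.mul_sum]
      refine Finset.sum_congr rfl fun j _ => ?_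
      rw [← mul_assoc, mul_comm (H x : ℂ), mul_assoc]
      rfl
    rw [e4, push_finsum h Finset.univ (F := fun j i x => qw d j * ((H x : ℂ) *
      (fb (d := d) (m := 1) (gj j i x)).det)) (fun j _ i => contDiffOn_const.mul (hsm j i)) hz]
    exact Finset.sum_congr rfl fun j _ => push_smul h _ hz
  rw [ddb_congr h.opn e3 0 0 hw, ddb_lin h.opn Finset.univ (qw d)
    (fun j _ => contDiffOn_push h (hsm j)) 0 0 hw]
  refine Finset.sum_congr rfl fun j _ => ?_
  rw [push_tr_one h (hcf j) (hher j) hH hw]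

end one

end

end Crest.Agent.R281.Fib5_425
end

-- ▼ part R281/Lf4_425
section

/-!
# R281 (S0424), leaf integrals, part 4 (helper425): leaf integrals of a fibration

* `prj`         : a family is a projection (`Prj`);
* `push_eq_leaf`: `push F.P f u = intD (leaf F hu).P f`;
* `leafI Φ T`   : the integral of the leaf density `Φ` over the leaf `T ⊆ M`;
* `leafI_eq`, `leafI_fam`; `leafI_sm` : smoothness of `x ↦ leafI Φ (Tf x)` in the tubes.
-/

set_option autoImplicit false
set_option linter.unusedSectionVars false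

open Set Filter Topology Complex Function MeasureTheory
open scoped ContDiff Matrix ComplexConjugate

namespace Crest.Agent.R281.Lf4_425

open Crest.Agent.R275.Geo Crest.Agent.R275.Core144 Crest.Agent.R275.EDR890
open Crest.Agent.R275.C1d194 Crest.Agent.R275.Tor812 Crest.Agent.R275.TorS666
open Crest.Agent.R275.Pai323
open Crest.Agent.R275.SerG398 (lint dens)
open Crest.Agent.R273.StokesV_332 Crest.Agent.R281.S6D_664 Crest.Agent.R281.Fub_192
open Crest.Agent.R281.Fib1_425 Crest.Agent.R281.Fib2_425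
open Crest.Agent.R281.Fib3_425 Crest.Agent.R281.Fib4_425
open Crest.Agent.R281.Lf2_425 Crest.Agent.R281.Lf3_425

noncomputable section

variable {N d m : ℕ} {M : Type} [TopologicalSpace M] {A : Atl N M} {U : Set (Cn m)}

/-- a family is a projection -/
theorem prj (F : Fam A d m U) (hU : IsOpen U) : Prj F.B F.y U := ⟨F.last, F.mem, F.proper, hU⟩

theorem jr_glue (t : RI d → ℝ) (u : Cn m) : jr t (rc u) = rc (glue u (cc t)) := by
  funext p
  rcases exists_fi_or_bi p with ⟨q, rfl⟩ | ⟨q, rfl⟩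
  · rw [jr_fi]
    show t q = rc (glue u (cc t)) (Fin.castAdd m q.1, q.2)
    have e : rc (glue u (cc t)) (Fin.castAdd m q.1, q.2) = rc (cc t) q := by simp [rc]
    rw [e, rc_cc]
  · rw [jr_bi]
    show rc u q = rc (glue u (cc t)) (Fin.natAdd d q.1, q.2)
    simp [rc]

/-- the push-forward is the leaf integral -/
theorem push_eq_leaf (F : Fam A d m U) (f : F.B.ι → F.V → ℂ) {u : Cn m} (hu : u ∈ U) :
    push F.P f u = intD (leaf F hu).P (fun k v => f k v.1) := by
  unfold push intD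
  refine finsum_congr fun k => ?_
  unfold tm par
  show _ = ∫ z : RI d → ℝ, rd (latl F hu) k
    (fun v => ((F.P.ψ k v.1 : ℝ) : ℂ) * f k v.1) z
  congr 1
  funext t
  rw [jr_glue, rd_on_leaf F (fun x => ((F.P.ψ k x : ℝ) : ℂ) * f k x) hu]

variable {Φ : LDen A d}

open Classical in
/-- **leaf integral** over the set `T ⊆ M` -/
def leafI (Φ : LDen A d) (T : Set M) : ℂ :=
  if h : ∃ F : Fam A d 0 univ, range F.i = T then intD h.choose.P (Φ.pb h.choose) else 0

theorem leafI_eq [T2Space M] (F : Fam A d 0 univ) {O : Set M} (hΦ : Φ.SmOn O)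
    (hO : ∀ v, F.i v ∈ O) : leafI Φ (range F.i) = intD F.P (Φ.pb F) := by
  have h : ∃ F' : Fam A d 0 univ, range F'.i = range F.i := ⟨F, rfl⟩
  unfold leafI
  rw [dif_pos h]
  exact (leaf_unique (Φ := Φ) F h.choose h.choose_spec.symm hΦ hO).symm

theorem range_leaf (F : Fam A d m U) {u : Cn m} (hu : u ∈ U) :
    range (leaf F hu).i = F.i '' (F.y ⁻¹' {u}) := by
  ext x
  constructor
  · rintro ⟨v, rfl⟩
    exact ⟨v.1, v.2, rfl⟩
  · rintro ⟨v, hv, rfl⟩
    exact ⟨⟨v, hv⟩, rfl⟩

/-- leaf integrals along a family -/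
theorem leafI_fam [T2Space M] (F : Fam A d m U) {O : Set M} (hΦ : Φ.SmOn O)
    (hO : ∀ v, F.i v ∈ O) {u : Cn m} (hu : u ∈ U) :
    leafI Φ (F.i '' (F.y ⁻¹' {u})) = push F.P (Φ.pb F) u := by
  rw [← range_leaf F hu, leafI_eq (leaf F hu) hΦ fun v => hO v.1, push_eq_leaf F _ hu]
  refine intD_congr _ fun k v hv => ?_
  exact LDen.pb_leaf F hu hv

open Crest.Agent.R281.S6V_664 Crest.Agent.R275.GC293 in
/-- smoothness of leaf integrals in a tube -/
theorem leafI_sm [T2Space M] [SecondCountableTopology M] {Tf : M → Set M} (hN : N = d + m)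
    (τ : Tube A m Tf) {O : Set M} (hO : τ.W ⊆ O) (hΦ : Φ.SmOn O) {x0 : M} (hx0 : x0 ∈ τ.W) :
    ∃ W : Cn m → ℂ, ∃ Q : Set M, IsOpen Q ∧ x0 ∈ Q ∧ Q ⊆ τ.W ∧
      (∀ x ∈ Q, leafI Φ (Tf x) = W (τ.f x)) ∧ ∀ x ∈ Q, ContDiffAt ℝ ∞ W (τ.f x) := by
  obtain ⟨r, hr, F, h1, h2, h3, h4, h5⟩ := exists_tubeFam (A := A) (d := d) hN τ hx0
  have hUo : IsOpen {u | (aff (τ.f x0) r hr).symm u ∈ Metric.ball (τ.f x0) r} :=
    Metric.isOpen_ball.preimage (aff (τ.f x0) r hr).symm.continuous
  have hOF : ∀ v, F.i v ∈ O := fun v => hO (h1 v).1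
  have hsm := LDen.pb_smAt F hΦ hOF
  have hp := prj F hUo
  have hpush := contDiffOn_push (P := F.P) hp hsm
  refine ⟨fun w => push F.P (Φ.pb F) (aff (τ.f x0) r hr w), range F.i,
    h2.isOpen_range, ?_, ?_, ?_, ?_⟩
  · rw [h3]
    exact ⟨hx0, Metric.mem_ball_self hr⟩
  · rw [h3]
    exact fun x hx => hx.1
  · rintro _ ⟨v, rfl⟩
    have h6 : aff (τ.f x0) r hr (τ.f (F.i v)) = F.y v := by
      rw [(h1 v).2, Homeomorph.apply_symm_apply]
    rw [h5 v, leafI_fam F hΦ hOF (F.mem v)]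
    show _ = push F.P (Φ.pb F) (aff (τ.f x0) r hr (τ.f (F.i v)))
    rw [h6]
  · rintro _ ⟨v, rfl⟩
    have h6 : aff (τ.f x0) r hr (τ.f (F.i v)) = F.y v := by
      rw [(h1 v).2, Homeomorph.apply_symm_apply]
    refine ContDiffAt.comp (τ.f (F.i v)) (g := push F.P (Φ.pb F)) ?_
      (contDiff_aff (τ.f x0) r hr).contDiffAt
    rw [h6]
    exact hpush.contDiffAt (hUo.mem_nhds (F.mem v))

end

end Crest.Agent.R281.Lf4_425
end

-- ▼ part R281/Up1_425
section

/-!
# R281 (S0424), the function `u`, part 1 (helper425): the mass of the mixed determinant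

* `sm_pullOn`  : pull-backs of locally smooth functions;
* `kah_pull`   : `K' = K + ∂∂̄a` on `O` gives `F.kah K' = F.kah K + ∂∂̄(a ∘ F.i)`;
* `xi_nonneg`, `mix_nonneg` : positivity of the mixed determinant density;
* `leaf_mass`  : on a compact leaf `∫ Ξ = vol`;
* `leaf_avg`   : `|Re ∫ a Ξ - c ∫ Ξ| ≤ C ∫ Ξ` for `|a - c| ≤ C`.
-/

set_option autoImplicit false
set_option linter.unusedSectionVars false

open Set Filter Topology Complex Function MeasureTheory
open scoped ContDiff Matrix ComplexConjugate ComplexOrder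

namespace Crest.Agent.R281.Up_425

open Crest.Agent.R275.Geo Crest.Agent.R275.Core144 Crest.Agent.R275.EDR890
open Crest.Agent.R275.Pai323 Crest.Agent.R275.C1d194
open Crest.Agent.R273.Defs_333 Crest.Agent.R273.Hess_333 Crest.Agent.R273.HessB_333
open Crest.Agent.R273.HM_333 Crest.Agent.R273.Kah_333 Crest.Agent.R273.KahI_645
open Crest.Agent.R273.Map_835 (HolMap Jp dm mem_dm)
open Crest.Agent.R273.Green_5
open Crest.Agent.R273.StokesV_332 Crest.Agent.R281.S6D_664 Crest.Agent.R281.Fub_192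
open Crest.Agent.R281.Fib1_425 Crest.Agent.R281.Fib2_425
open Crest.Agent.R281.Fib4_425 Crest.Agent.R281.Fib5_425
open Crest.Agent.R281.Lf2_425 Crest.Agent.R281.Lf3_425 Crest.Agent.R281.Lf4_425
open Crest.Agent.R281.Har_331 (near_pull hsf_pull)

noncomputable section

/-! ### pull-backs -/

section pull

variable {N n : ℕ} {M T : Type} [TopologicalSpace M] [TopologicalSpace T] {A : Atl N M}
  {B : Atl n T} {O : Set M} {u : M → ℝ}

/-- smoothness of a function on an open set, in charts -/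
def SmOnR (A : Atl N M) (O : Set M) (u : M → ℝ) : Prop :=
  ∀ i, ∀ z ∈ (A.e i).target, (A.e i).symm z ∈ O →
    ContDiffAt ℝ ∞ (fun w => u ((A.e i).symm w)) z

theorem SmOnR.at (hu : SmOnR A O u) {i : A.ι} {x : M} (hx : x ∈ (A.e i).source) (hO : x ∈ O) :
    ContDiffAt ℝ ∞ (fun w => u ((A.e i).symm w)) (A.e i x) :=
  hu i _ ((A.e i).map_source hx) (by rw [(A.e i).left_inv hx]; exact hO)

theorem SmOnR.of_sm (hu : A.Sm u) : SmOnR A O u := fun i _ hz _ =>
  (hu i).contDiffAt ((A.e i).open_target.mem_nhds hz)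

theorem sm_pullOn {f : T → M} (hf : HolMap B A f) (hu : SmOnR A O u) (hO : ∀ t, f t ∈ O) :
    B.Sm fun t => u (f t) := by
  intro j z hz
  obtain ⟨i, hi⟩ := A.cover (f ((B.e j).symm z))
  have hz' : z ∈ dm B A f j i := ⟨hz, hi⟩
  have hy := (B.e j).map_target hz
  have h1 := near_pull hf (u := u) hy hi
  rw [(B.e j).right_inv hz] at h1
  have hT : AnalyticAt ℂ (Crest.Agent.R273.Map_835.rd B A f j i) z := hf.analyticAt hz'
  have hTc : ContDiffAt ℝ ∞ (Crest.Agent.R273.Map_835.rd B A f j i) z :=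
    hT.contDiffAt.restrict_scalars ℝ
  have hval : Crest.Agent.R273.Map_835.rd B A f j i z = A.e i (f ((B.e j).symm z)) := rfl
  refine ContDiffAt.contDiffWithinAt ?_
  refine ContDiffAt.congr_of_eventuallyEq ?_ h1
  refine ContDiffAt.comp z (g := fun w => u ((A.e i).symm w)) ?_ hTc
  rw [hval]
  exact hu.at hi (hO _)

end pull

/-! ### the mixed determinant -/

section xi

variable {n : ℕ}

theorem det_nonneg_seg {S T : Matrix (Fin n) (Fin n) ℂ} (hS : S.PosSemidef) (hT : T.PosSemidef)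
    {t : ℝ} (h0 : 0 ≤ t) (h1 : t ≤ 1) :
    0 ≤ ((S + (t : ℂ) • (T - S)).det).re ∧ ((S + (t : ℂ) • (T - S)).det).im = 0 := by
  have h2 : S + (t : ℂ) • (T - S) = ((1 - t : ℝ) : ℂ) • S + ((t : ℝ) : ℂ) • T := by
    rw [smul_sub]
    push_cast
    rw [sub_smul, one_smul]
    abel
  have h3 : (S + (t : ℂ) • (T - S)).PosSemidef := by
    rw [h2]
    refine (hS.smul ?_).add (hT.smul ?_)
    · exact Complex.zero_le_real.2 (by linarith)
    · exact Complex.zero_le_real.2 h0
  have h4 := h3.det_nonneg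
  rw [Complex.le_def] at h4
  exact ⟨h4.1, h4.2.symm⟩


/-- **positivity** of the mixed determinant -/
theorem xi_nonneg {S T : Matrix (Fin n) (Fin n) ℂ} (hS : S.PosSemidef) (hT : T.PosSemidef) :
    0 ≤ (xi S (T - S)).re ∧ (xi S (T - S)).im = 0 := by
  have h1 : ∀ t ∈ Set.uIcc (0 : ℝ) 1, (S + (t : ℂ) • (T - S)).det =
      ((((S + (t : ℂ) • (T - S)).det).re : ℝ) : ℂ) := by
    intro t ht
    rw [Set.uIcc_of_le zero_le_one] at ht
    exact Complex.ext rfl (by
      rw [(det_nonneg_seg hS hT ht.1 ht.2).2, Complex.ofReal_im])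
  have h2 : xi S (T - S) = (((∫ t in (0 : ℝ)..1, ((S + (t : ℂ) • (T - S)).det).re) : ℝ) : ℂ) := by
    unfold xi
    rw [intervalIntegral.integral_congr h1]
    exact intervalIntegral.integral_ofReal
  rw [h2, Complex.ofReal_re, Complex.ofReal_im]
  refine ⟨?_, rfl⟩
  refine intervalIntegral.integral_nonneg zero_le_one fun t ht => ?_
  exact (det_nonneg_seg hS hT ht.1 ht.2).1

end xi

variable {N d m : ℕ} {M : Type} [TopologicalSpace M] {A : Atl N M} {U : Set (Cn m)}
  {K K' : Kah A} {a : M → ℝ} {O : Set M}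

/-- pull-back of `K' = K + ∂∂̄a` -/
theorem kah_pull (F : Fam A d m U) (ha : SmOnR A O a)
    (hK : ∀ i, ∀ x ∈ (A.e i).source, x ∈ O → K'.g i x = K.g i x + hsf A a i x)
    (hO : ∀ v, F.i v ∈ O) {k : F.B.ι} {v : F.V} (hv : v ∈ (F.B.e k).source) :
    (F.kah K').g k v = (F.kah K).g k v + hsf F.B (fun v => a (F.i v)) k v := by
  obtain ⟨i, hi⟩ := A.cover (F.i v)
  have h1 : (F.kah K).g k v = _ := pullI_g K F.hol F.imm hv hi
  have h2 : (F.kah K').g k v = _ := pullI_g K' F.hol F.imm hv hi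
  rw [h1, h2, hsf_pull F.hol hv hi (ha.at hi (hO v)), hK i _ hi (hO v), Matrix.mul_add,
    Matrix.add_mul]

theorem fb_posSemidef {G : Matrix (Fin (d + m)) (Fin (d + m)) ℂ} (hG : G.PosSemidef) :
    (fb (d := d) (m := m) G).PosSemidef := hG.submatrix _

/-- the mixed determinant density with weight one -/
theorem mix_nonneg (F : Fam A d m U) :
    NonnegD F.B ((mixDen d (kah_cf K) (kah_cf K') (fun _ => 1)).pb F) := by
  intro k v hv
  rw [pb_mixDen K K' _ F hv]
  simp only [Complex.ofReal_one, one_mul]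
  exact xi_nonneg (fb_posSemidef ((F.kah K).pos k v hv).posSemidef)
    (fb_posSemidef ((F.kah K').pos k v hv).posSemidef)

theorem mix_mul (F : Fam A d m U) {k : F.B.ι} {v : F.V} (hv : v ∈ (F.B.e k).source) (a : M → ℝ) :
    (mixDen d (kah_cf K) (kah_cf K') a).pb F k v =
      (a (F.i v) : ℂ) * (mixDen d (kah_cf K) (kah_cf K') (fun _ => 1)).pb F k v := by
  rw [pb_mixDen K K' _ F hv, pb_mixDen K K' _ F hv]
  simp

theorem mix_smOn (ha : SmOnR A O a) : (mixDen d (kah_cf K) (kah_cf K') a).SmOn O :=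
  mixDen_smOn _ _ ha

theorem one_smOnR : SmOnR A O (fun _ => (1 : ℝ)) := fun _ _ _ _ => contDiffAt_const

variable [T2Space M]

/-- **the mass of the mixed determinant on a compact leaf** -/
theorem leaf_mass (F : Fam A d 0 univ) (ha : SmOnR A O a)
    (hK : ∀ i, ∀ x ∈ (A.e i).source, x ∈ O → K'.g i x = K.g i x + hsf A a i x)
    (hO : ∀ v, F.i v ∈ O) :
    intD F.P ((mixDen d (kah_cf K) (kah_cf K') (fun _ => 1)).pb F) =
      intD F.P (fun k v => ((F.kah K).g k v).det) := by
  have hc := compact_leaf F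
  set H : F.V → ℝ := fun v => a (F.i v) with hH
  have hHs : F.B.Sm H := sm_pullOn F.hol ha hO
  have h1 : intD F.P ((mixDen d (kah_cf K) (kah_cf K') (fun _ => 1)).pb F) =
      intD F.P (fun k v => ∑ j : Fin (d + 1), qw d j *
        ((F.kah K).g k v + ((((j : ℕ) : ℝ) : ℝ) : ℂ) • hsf F.B H k v).det) := by
    refine intD_congr F.P fun k v hv => ?_
    rw [pb_mixDen K K' _ F hv]
    simp only [Complex.ofReal_one, one_mul]
    have h2 := kah_pull F ha hK hO hv
    rw [h2, fb_add, add_sub_cancel_left, xi_sum]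
    rfl
  have hsm : ∀ (j : Fin (d + 1)) (k : F.B.ι), F.B.SmAt k (fun v =>
      ((F.kah K).g k v + ((((j : ℕ) : ℝ) : ℝ) : ℂ) • hsf F.B H k v).det) := fun j k =>
    smAt_detG (d := d) (m := 0) fun a b =>
      (((kah_cf (F.kah K)).add ((hsf_cf hHs).smul ((((j : ℕ) : ℝ) : ℝ) : ℂ))).sm k a b)
  have hdet : ∀ f : F.B.ι → F.V → ℂ, intD F.P f = R273.StV_37.totc F.P f := fun f =>
    intD_eq_sum F.P isCompact_univ (Finset.Subset.refl _) (offK_univ _)
  rw [h1, intD_sum F.P Finset.univ (F := fun (j : Fin (d + 1)) k v => qw d j *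
    ((F.kah K).g k v + ((((j : ℕ) : ℝ) : ℝ) : ℂ) • hsf F.B H k v).det)
    (fun j _ k => contDiffOn_const.mul (hsm j k)) isCompact_univ (fun _ _ => offK_univ _)]
  have h3 : ∀ j : Fin (d + 1), intD F.P (fun k v => qw d j *
      ((F.kah K).g k v + ((((j : ℕ) : ℝ) : ℝ) : ℂ) • hsf F.B H k v).det) =
      qw d j * intD F.P (fun k v => ((F.kah K).g k v).det) := by
    intro j
    rw [intD_smul F.P _ isCompact_univ (offK_univ _), hdet, hdet,
      R273.VolInv_5.volinv_poly F.P (kah_cf (F.kah K)) hHs (((j : ℕ) : ℝ))]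
  rw [Finset.sum_congr rfl fun j _ => h3 j, ← Finset.sum_mul, sum_qw, one_mul]

/-- **averages over a compact leaf** -/
theorem leaf_avg (F : Fam A d 0 univ) (ha : SmOnR A O a) (hO : ∀ v, F.i v ∈ O) {c C : ℝ}
    (hC : ∀ v, |a (F.i v) - c| ≤ C) :
    |(intD F.P ((mixDen d (kah_cf K) (kah_cf K') a).pb F)).re -
        c * (intD F.P ((mixDen d (kah_cf K) (kah_cf K') (fun _ => 1)).pb F)).re| ≤
      C * (intD F.P ((mixDen d (kah_cf K) (kah_cf K') (fun _ => 1)).pb F)).re := by
  have hc := compact_leaf F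
  set η := (mixDen d (kah_cf K) (kah_cf K') (fun _ => 1)).pb F with hη
  have hηd : Den F.B η := LDen.pb_den F (mix_smOn (O := O) one_smOnR) hO
  have hηp : NonnegD F.B η := mix_nonneg F
  have hHs : F.B.Sm (fun v => a (F.i v)) := sm_pullOn F.hol ha hO
  have hHc : F.B.Sm (fun v => ((a (F.i v) : ℝ) : ℂ)) := fun i =>
    smAt_ofReal (A := F.B) (j := i) (χ := fun v => a (F.i v)) (hHs i)
  have e1 : intD F.P ((mixDen d (kah_cf K) (kah_cf K') a).pb F) =
      intD F.P (fun k v => ((a (F.i v) : ℝ) : ℂ) * η k v) :=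
    intD_congr F.P fun k v hv => mix_mul F hv a
  have hd := hηd.mulF hHc
  have key : ∀ s : ℝ, |s| = 1 → s * ((intD F.P (fun k v => ((a (F.i v) : ℝ) : ℂ) * η k v)).re -
      c * (intD F.P η).re) ≤ C * (intD F.P η).re := by
    intro s hs
    have h1 := intD_nonneg F.P (f := fun k v => ((C + s * c : ℝ) : ℂ) * η k v +
      ((-s : ℝ) : ℂ) * (((a (F.i v) : ℝ) : ℂ) * η k v)) ((hηd.smul _).add (hd.smul _))
      (fun k v hv => by
        have h2 := hηp k v hv
        have h4 : s * (a (F.i v) - c) ≤ C := by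
          have := le_abs_self (s * (a (F.i v) - c))
          rw [abs_mul, hs, one_mul] at this
          exact this.trans (hC v)
        constructor
        · rw [Complex.add_re, Complex.re_ofReal_mul, Complex.re_ofReal_mul, Complex.re_ofReal_mul]
          nlinarith [h2.1]
        · rw [Complex.add_im, Complex.im_ofReal_mul, Complex.im_ofReal_mul, Complex.im_ofReal_mul,
            h2.2]
          ring) isCompact_univ (offK_univ _)
    rw [intD_add F.P (hηd.smul _).sm (hd.smul _).sm isCompact_univ (offK_univ _) (offK_univ _),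
      intD_smul F.P _ isCompact_univ (offK_univ _), intD_smul F.P _ isCompact_univ (offK_univ _),
      Complex.add_re, Complex.re_ofReal_mul, Complex.re_ofReal_mul] at h1
    linarith [h1.1]
  rw [e1, abs_le]
  constructor
  · have := key (-1) (by simp)
    linarith
  · have := key 1 (by simp)
    linarith

end

end Crest.Agent.R281.Up_425
end

-- ▼ part R281/Up2_425
section

/-!
# R281 (S0424), the function `u`, part 2 (helper425): definition, smoothness, bound

* `rho_smOn`, `hsf_rho` : `ρ = log |s|²_h` is smooth on `Om`, `∂∂̄ρ = - k θ`;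
* `af` : `a = φ - ρ/k`, `hsf_af : ∂∂̄a = θ + ∂∂̄φ` on `Om`;
* `uf` : `u = ρ/k + v⁻¹ ∫_T a Ξ`;
* `uf_bdd`, `uf_smOn`.
-/

set_option autoImplicit false
set_option linter.unusedSectionVars false

open Set Filter Topology Complex Function MeasureTheory
open scoped ContDiff Matrix ComplexConjugate ComplexOrder

namespace Crest.Agent.R281.Up_425

open Crest.Agent.R275.Geo Crest.Agent.R275.Core144 Crest.Agent.R275.EDR890
open Crest.Agent.R275.Pai323
open Crest.Agent.R273.Defs_333 Crest.Agent.R273.Hess_333 Crest.Agent.R273.HessB_333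
open Crest.Agent.R273.HM_333 Crest.Agent.R273.Kah_333 Crest.Agent.R273.KahI_645
open Crest.Agent.R273.Map_835 (HolMap Jp dm mem_dm)
open Crest.Agent.R273.Green_5
open Crest.Agent.R273.StokesV_332 Crest.Agent.R281.S6D_664 Crest.Agent.R281.Fub_192
open Crest.Agent.R281.Fib2_425 Crest.Agent.R281.Fib4_425 Crest.Agent.R281.Fib5_425
open Crest.Agent.R281.Lf2_425 Crest.Agent.R281.Lf3_425 Crest.Agent.R281.Lf4_425
open Crest.Agent.R281.Har_331 (near_pull hsf_pull hsf_log_nsM nsM_pos_of)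
open Crest.Agent.R281.Glob1_484 (nsM sm_nsM)
open Crest.Agent.R281.Defs_273 Crest.Agent.R281.D6_986
open Crest.Agent.R273.FIb0_597 (ch mem_ch)

noncomputable section

variable {n : ℕ} {M : Type} [TopologicalSpace M] {A : Atl (2 * n) M}
variable {σ : HSymp A} {L : LB A} {K : Kah A}

theorem cont_of_sm {N : ℕ} {M : Type} [TopologicalSpace M] {A : Atl N M} {f : M → ℝ}
    (hf : A.Sm f) : Continuous f := by
  rw [continuous_iff_continuousAt]
  intro x
  obtain ⟨i, hi⟩ := A.cover x
  have h1 : ContinuousAt (fun z => f ((A.e i).symm z)) (A.e i x) :=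
    ((hf i).contDiffAt ((A.e i).open_target.mem_nhds ((A.e i).map_source hi))).continuousAt
  have h2 : ContinuousAt (fun y => f ((A.e i).symm (A.e i y))) x :=
    h1.comp ((A.e i).continuousAt hi)
  refine h2.congr ?_
  filter_upwards [(A.e i).open_source.mem_nhds hi] with y hy
  rw [(A.e i).left_inv hy]


theorem nsM_pos (o : OmOut σ L) (h : HM L) {x : M} (hx : x ∈ o.F.Om) :
    0 < nsM (pow h o.k) o.s x := nsM_pos_of _ fun i hi => o.nz x hx i hi

/-- `ρ` is smooth on `Om` -/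
theorem rho_smOn (o : OmOut σ L) (h : HM L) : SmOnR A o.F.Om (o.rho h) := by
  intro i z hz hO
  refine ContDiffAt.log ?_ (nsM_pos o h hO).ne'
  exact (sm_nsM (pow h o.k) o.hs i).contDiffAt ((A.e i).open_target.mem_nhds hz)

/-- `∂∂̄ρ = - k θ` on `Om` -/
theorem hsf_rho (o : OmOut σ L) (h : HM L) {i : A.ι} {x : M} (hx : x ∈ (A.e i).source)
    (hO : x ∈ o.F.Om) : hsf A (o.rho h) i x = - ((o.k : ℂ) • cur h i x) := by
  have h1 := hsf_log_nsM (pow h o.k) o.hs hx (nsM_pos o h hO)
  rw [cur_pow h o.k i hx] at h1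
  exact h1

/-- `a = φ - ρ/k` -/
def af (o : OmOut σ L) (h : HM L) (φ : M → ℝ) (x : M) : ℝ := φ x - (o.k : ℝ)⁻¹ * o.rho h x

theorem af_smOn (o : OmOut σ L) (h : HM L) {φ : M → ℝ} (hφ : A.Sm φ) :
    SmOnR A o.F.Om (af o h φ) := fun i z hz hO =>
  ((SmOnR.of_sm hφ) i z hz hO).sub (contDiffAt_const.mul (rho_smOn o h i z hz hO))

theorem hsf_sub_mul {u v : M → ℝ} {i : A.ι} {x : M} (c : ℝ)
    (hu : ContDiffAt ℝ ∞ (fun z => u ((A.e i).symm z)) (A.e i x))
    (hv : ContDiffAt ℝ ∞ (fun z => v ((A.e i).symm z)) (A.e i x)) :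
    hsf A (fun y => u y - c * v y) i x = hsf A u i x - (c : ℂ) • hsf A v i x := by
  show hess (fun z => u ((A.e i).symm z) - c * v ((A.e i).symm z)) (A.e i x) = _
  rw [hess_sub hu (contDiffAt_const.mul hv), hess_const_mul c hv]
  rfl


/-- `∂∂̄a = θ + ∂∂̄φ` on `Om` -/
theorem hsf_af (o : OmOut σ L) (h : HM L) {φ : M → ℝ} (hφ : A.Sm φ) {i : A.ι} {x : M}
    (hx : x ∈ (A.e i).source) (hO : x ∈ o.F.Om) :
    hsf A (af o h φ) i x = cur h i x + hsf A φ i x := by
  have h1 := hsf_sub_mul (A := A) (u := φ) (v := o.rho h) (o.k : ℝ)⁻¹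
    ((SmOnR.of_sm (O := o.F.Om) hφ).at hx hO) ((rho_smOn o h).at hx hO)
  have h2 : hsf A (af o h φ) i x = hsf A (fun y => φ y - (o.k : ℝ)⁻¹ * o.rho h y) i x := rfl
  have hk : (o.k : ℂ) ≠ 0 := by exact_mod_cast o.k_pos.ne'
  rw [h2, h1, hsf_rho o h hx hO, smul_neg, sub_neg_eq_add, smul_smul, add_comm]
  congr 1
  have h3 : (((o.k : ℝ)⁻¹ : ℝ) : ℂ) * (o.k : ℂ) = 1 := by
    push_cast
    exact inv_mul_cancel₀ hk
  rw [h3, one_smul]

/-- the two metrics differ by `∂∂̄a` on `Om` -/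
theorem kah_af {o : OmOut σ L} {h : HM L} (s : SKOut K o h) :
    ∀ i, ∀ x ∈ (A.e i).source, x ∈ o.F.Om →
      s.K'.g i x = K.g i x + hsf A (af o h s.φ) i x := by
  intro i x hx hO
  rw [s.eq i x hx, hsf_af o h s.sm hx hO, add_assoc]

/-- the leaf density `a Ξ` -/
def xd {o : OmOut σ L} {h : HM L} (s : SKOut K o h) : LDen A n :=
  mixDen n (kah_cf K) (kah_cf s.K') (af o h s.φ)

theorem xd_smOn {o : OmOut σ L} {h : HM L} (s : SKOut K o h) : (xd s).SmOn o.F.Om :=
  mix_smOn (af_smOn o h s.sm)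

open Classical in
/-- **the function `u`** -/
def uf {o : OmOut σ L} {h : HM L} (s : SKOut K o h) (v : ℝ) (x : M) : ℝ :=
  if x ∈ o.F.Om then (o.k : ℝ)⁻¹ * o.rho h x + v⁻¹ * (leafI (xd s) (o.F.Tf x)).re else 0

theorem uf_of {o : OmOut σ L} {h : HM L} (s : SKOut K o h) (v : ℝ) {x : M} (hx : x ∈ o.F.Om) :
    uf s v x = (o.k : ℝ)⁻¹ * o.rho h x + v⁻¹ * (leafI (xd s) (o.F.Tf x)).re := if_pos hx

/-! ### the bound -/

section bdd

variable [T2Space M] [SecondCountableTopology M]

/-- the leaf integral on the leaf of `x` -/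
theorem leaf_bound {o : OmOut σ L} {h : HM L} (s : SKOut K o h) {v : ℝ}
    (hv : Mass5_519.VolC A o.F.Tf o.F.Om n K v) {x : M} (hx : x ∈ o.F.Om) {C : ℝ}
    (hC : ∀ y ∈ o.F.Tf x, |af o h s.φ y - af o h s.φ x| ≤ C) :
    |v⁻¹ * (leafI (xd s) (o.F.Tf x)).re - af o h s.φ x| ≤ C := by
  obtain ⟨F0, hl, hr, -⟩ := N2_373.exists_leafy o.F hx
  have hO : ∀ w, F0.i w ∈ o.F.Om := fun w => (hl w).1
  have h1 : leafI (xd s) (o.F.Tf x) = intD F0.P ((xd s).pb F0) := by
    rw [← hr]
    exact leafI_eq F0 (xd_smOn s) hO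
  have h2 := leaf_mass F0 (af_smOn o h s.sm) (kah_af s) hO
  have h3 : intD F0.P (fun k w => ((F0.kah K).g k w).det) = v := hv.intD_leaf hx F0 hr
  have h4 := leaf_avg (K := K) (K' := s.K') F0 (af_smOn o h s.sm) hO (c := af o h s.φ x) (C := C)
    fun w => hC _ (by rw [← hr]; exact mem_range_self w)
  rw [h2, h3, Complex.ofReal_re] at h4
  have hv0 := hv.pos
  have h5 : v⁻¹ * (leafI (xd s) (o.F.Tf x)).re - af o h s.φ x =
      v⁻¹ * ((intD F0.P ((xd s).pb F0)).re - af o h s.φ x * v) := by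
    rw [h1]
    field_simp
  rw [h5, abs_mul, abs_of_pos (inv_pos.2 hv0)]
  calc v⁻¹ * |(intD F0.P ((xd s).pb F0)).re - af o h s.φ x * v| ≤ v⁻¹ * (C * v) :=
        mul_le_mul_of_nonneg_left h4 (inv_pos.2 hv0).le
    _ = C := by field_simp

/-- **the bound for `u`** -/
theorem uf_bdd [CompactSpace M] {o : OmOut σ L} {h : HM L} (s : SKOut K o h) (hH : Harn o h)
    {v : ℝ} (hv : Mass5_519.VolC A o.F.Tf o.F.Om n K v) : ∃ B : ℝ, ∀ x, |uf s v x| ≤ B := by
  obtain ⟨C, hC⟩ := hH
  have hc : Continuous s.φ := cont_of_sm s.sm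
  obtain ⟨B, hB⟩ : ∃ B : ℝ, ∀ x, |s.φ x| ≤ B := by
    obtain ⟨B, hB⟩ := (isCompact_range hc.abs).bddAbove
    exact ⟨B, fun x => hB (mem_range_self x)⟩
  refine ⟨max (3 * B + (o.k : ℝ)⁻¹ * C) 0, fun x => ?_⟩
  by_cases hx : x ∈ o.F.Om
  · refine le_trans ?_ (le_max_left _ _)
    have hk : 0 < (o.k : ℝ)⁻¹ := inv_pos.2 (by exact_mod_cast o.k_pos)
    have h1 := leaf_bound s hv hx (C := 2 * B + (o.k : ℝ)⁻¹ * C) fun y hy => by
      have h2 := hC x hx y hy
      have h3 : af o h s.φ y - af o h s.φ x =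
          (s.φ y - s.φ x) - (o.k : ℝ)⁻¹ * (o.rho h y - o.rho h x) := by
        unfold af
        ring
      rw [h3]
      have h4 : |(o.k : ℝ)⁻¹ * (o.rho h y - o.rho h x)| ≤ (o.k : ℝ)⁻¹ * C := by
        rw [abs_mul, abs_of_pos hk]
        exact mul_le_mul_of_nonneg_left h2 hk.le
      have h5 := abs_le.1 (hB y)
      have h6 := abs_le.1 (hB x)
      have h7 := abs_le.1 h4
      rw [abs_le]
      constructor <;> linarith
    rw [uf_of s v hx]
    have h8 := abs_le.1 h1
    have h9 := abs_le.1 (hB x)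
    have h10 : af o h s.φ x = s.φ x - (o.k : ℝ)⁻¹ * o.rho h x := rfl
    rw [h10] at h8
    rw [abs_le]
    constructor <;> linarith
  · unfold uf
    rw [if_neg hx, abs_zero]
    exact le_max_right _ _

/-- the projection of a tube is smooth in the charts -/
theorem tube_contDiffAt {N k : ℕ} {M : Type} [TopologicalSpace M] {A : Atl N M}
    {Tf : M → Set M} (τ : Tube A k Tf) {i : A.ι} {z : Cn N} (hz : z ∈ (A.e i).target)
    (hW : (A.e i).symm z ∈ τ.W) :
    ContDiffAt ℝ ∞ (fun z => τ.f ((A.e i).symm z)) z := by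
  have h1 := R266.SCV.analyticOnNhd_of_differentiableOn
    ((A.e i).isOpen_inter_preimage_symm τ.oW) (τ.hol i) z ⟨hz, hW⟩
  exact h1.contDiffAt.restrict_scalars ℝ

/-- **smoothness of `u`** -/
theorem uf_smOn {o : OmOut σ L} {h : HM L} (s : SKOut K o h) (v : ℝ) :
    SmOnR A o.F.Om (uf s v) := by
  intro i z hz hO
  obtain ⟨τ, hτ, hW, -⟩ := o.F.tube _ hO
  obtain ⟨W, Q, hQo, hQ0, hQW, h1, h2⟩ := leafI_sm (Φ := xd s) (two_mul n) τ hW (xd_smOn s) hτ
  have h3 : (fun w => uf s v ((A.e i).symm w)) =ᶠ[𝓝 z] fun w =>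
      (o.k : ℝ)⁻¹ * o.rho h ((A.e i).symm w) + v⁻¹ * (W (τ.f ((A.e i).symm w))).re := by
    filter_upwards [((A.e i).isOpen_inter_preimage_symm hQo).mem_nhds ⟨hz, hQ0⟩] with w hw
    rw [uf_of s v (hW (hQW hw.2)), h1 _ hw.2]
  refine ContDiffAt.congr_of_eventuallyEq ?_ h3
  refine (contDiffAt_const.mul (rho_smOn o h i z hz hO)).add (contDiffAt_const.mul ?_)
  refine Complex.reCLM.contDiff.contDiffAt.comp z ?_
  exact ContDiffAt.comp z (g := W) (h2 _ hQ0) (tube_contDiffAt τ hz hτ)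

end bdd

end

end Crest.Agent.R281.Up_425
end

-- ▼ part R281/Up3_425
section

/-!
# R281 (S0424), the function `u`, part 3 (helper425): the pointwise identity

* `uf_fvol` : the fibre volume of a leafy family is `v`;
* `hsf_base`: `∂∂̄ (G ∘ y) = (∂∂̄G)(y) E_last`;
* `push_vol`: `f_*(det K') = lam f_*(det K)`;
* `uf_id`   : the pointwise identity;
* `uPre_of` : `SKOut → Harn → UPre`.
-/

set_option autoImplicit false
set_option linter.unusedSectionVars false

open Set Filter Topology Complex Function MeasureTheory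
open scoped ContDiff Matrix ComplexConjugate ComplexOrder

namespace Crest.Agent.R281.Up_425

open Crest.Agent.R275.Geo Crest.Agent.R275.Core144 Crest.Agent.R275.EDR890
open Crest.Agent.R275.Pai323 Crest.Agent.R275.OmT75
open Crest.Agent.R273.Defs_333 Crest.Agent.R273.Hess_333 Crest.Agent.R273.HessB_333
open Crest.Agent.R273.HM_333 Crest.Agent.R273.Kah_333 Crest.Agent.R273.KahI_645
open Crest.Agent.R273.Map_835 (HolMap Jp dm mem_dm mt)
open Crest.Agent.R273.Green_5
open Crest.Agent.R273.StokesV_332 Crest.Agent.R281.S6D_664 Crest.Agent.R281.Fub_192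
open Crest.Agent.R281.Fib2_425 Crest.Agent.R281.Fib4_425 Crest.Agent.R281.Fib5_425
open Crest.Agent.R281.Lf2_425 Crest.Agent.R281.Lf3_425 Crest.Agent.R281.Lf4_425
open Crest.Agent.R281.Har_331 (near_pull hsf_pull hess_compR')
open Crest.Agent.R281.Defs_273 Crest.Agent.R281.D6_986

noncomputable section

/-! ### functions of the base -/

section base

variable {d : ℕ} {V : Type} [TopologicalSpace V] {B : Atl (d + 1) V} {y : V → Cn 1}
  {U : Set (Cn 1)} {G : Cn 1 → ℝ}

theorem mt_bs (d : ℕ) (c : Fin 1) (a : Fin (d + 1)) (z : Cn (d + 1)) :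
    mt (fderiv ℂ (bs d (m := 1)) z) c a = if a = Fin.last d then 1 else 0 := by
  rw [ContinuousLinearMap.fderiv]
  show (bs d (m := 1) (EuclideanSpace.single a (1 : ℂ))) c = _
  rw [bs_apply, PiLp.single_apply, natAdd_zero_eq]
  by_cases h : a = Fin.last d
  · rw [if_pos h, if_pos h.symm]
  · rw [if_neg h, if_neg fun h' => h h'.symm]

/-- `∂∂̄ (G ∘ y)` -/
theorem hsf_base (h : Prj B y U) (hG : ContDiffOn ℝ ∞ G U) {k : B.ι} {v : V}
    (hv : v ∈ (B.e k).source) :
    hsf B (fun w => G (y w)) k v =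
      dj 0 (dbj 0 (fun z => (G z : ℂ))) (y v) • Matrix.single (Fin.last d) (Fin.last d) (1 : ℂ) := by
  have h1 : (fun z => G (y ((B.e k).symm z))) =ᶠ[𝓝 (B.e k v)] fun z => G (bs d z) := by
    filter_upwards [(B.e k).open_target.mem_nhds ((B.e k).map_source hv)] with z hz
    rw [h.y_symm hz]
  have h2 : hsf B (fun w => G (y w)) k v = hess (fun z => G (bs d z)) (B.e k v) := hess_congr h1
  have hb : bs d (B.e k v) = y v := h.bs_e hv
  have h3 : ContDiffAt ℝ 2 G (bs d (B.e k v)) := by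
    rw [hb]
    exact (hG.contDiffAt (h.opn.mem_nhds (h.mem v))).of_le (WithTop.coe_le_coe.2 le_top)
  rw [h2, hess_compR' (u := G) (S := bs d (m := 1)) ((bs d (m := 1)).analyticAt _) h3, hb]
  ext a b
  simp only [Matrix.mul_apply, Fin.sum_univ_one, Matrix.transpose_apply, Matrix.map_apply,
    mt_bs, Matrix.smul_apply, smul_eq_mul, Matrix.single_apply, Fin.isValue]
  have h4 : hess G (y v) 0 0 = dj 0 (dbj 0 (fun z => (G z : ℂ))) (y v) := by
    rw [hess_apply, dj_eq_wd]
    rfl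
  rw [h4]
  by_cases ha : a = Fin.last d
  · by_cases hb : b = Fin.last d
    · subst ha; subst hb; simp
    · subst ha; simp [hb, Ne.symm hb]
  · simp [ha, Ne.symm ha]

end base

variable {n : ℕ} {M : Type} [TopologicalSpace M] {A : Atl (2 * n) M}
variable {σ : HSymp A} {L : LB A} {K : Kah A} {o : OmOut σ L} {h : HM L} {D : Set (Cn 1)}

theorem smAt_kdet (F : Fam A n 1 D) (K : Kah A) (k : F.B.ι) :
    F.B.SmAt k (fun v => ((F.kah K).g k v).det) :=
  smAt_detG fun a b => (F.kah K).sm k a b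

variable [T2Space M]

/-- the fibre volume of a leafy family -/
theorem uf_fvol {v : ℝ} (hv : Mass5_519.VolC A o.F.Tf o.F.Om n K v) (F : Fam A n 1 D)
    (hF : Leafy o.F F) : ∀ u ∈ D, push F.P (fun k w => (fb ((F.kah K).g k w)).det) u = v := by
  intro u hu
  obtain ⟨w0, hw0⟩ := (F.conn u hu).nonempty
  have hw0' : F.y w0 = u := hw0
  have h1 := hF w0
  rw [push_eq_leaf F _ hu]
  have h2 : range (leaf F hu).i = o.F.Tf (F.i w0) := by
    rw [Lf4_425.range_leaf F hu, h1.2, hw0']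
  have h3 := hv.intD_leaf h1.1 (leaf F hu) h2
  rw [← h3]
  refine intD_congr _ fun k w hw => ?_
  rw [← pb_detDen K F hw, ← LDen.pb_leaf F hu hw, pb_detDen K (leaf F hu) hw]
  rfl

/-- `f_*(det K') = lam f_*(det K)` -/
theorem push_vol (s : SKOut K o h) (hD : IsOpen D) (F : Fam A n 1 D) (hF : Leafy o.F F) :
    ∀ u ∈ D, push F.P (fun k v => ((F.kah s.K').g k v).det) u =
      (s.lam : ℂ) * push F.P (fun k v => ((F.kah K).g k v).det) u := by
  intro u hu
  have hp := prj F hD
  rw [← push_smul hp _ hu]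
  refine push_eq_of_weak (P' := F.P) hp (smAt_kdet F s.K')
    (Θ := fun k v => (s.lam : ℂ) * ((F.kah K).g k v).det)
    (fun k => contDiffOn_const.mul (smAt_kdet F K k)) (fun χ hχ => ?_) u hu
  rw [s.vol D hD F hF χ hχ]
  have hoff : OffK F.B (fun k v => (χ (F.y v) : ℂ) * ((F.kah K).g k v).det)
      (F.y ⁻¹' tsupport χ) := fun k v _ hv => by
    show (χ (F.y v) : ℂ) * _ = 0
    rw [image_eq_zero_of_notMem_tsupport hv]; simp
  rw [← intD_smul F.P _ (hp.proper _ hχ.sub hχ.cpt) hoff]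
  exact intD_congr F.P fun k v _ => by ring

/-- the pull-back of the metrics on a leafy family -/
theorem leafy_kah (s : SKOut K o h) (F : Fam A n 1 D) (hF : Leafy o.F F) {k : F.B.ι} {v : F.V}
    (hv : v ∈ (F.B.e k).source) :
    (F.kah s.K').g k v = (F.kah K).g k v + hsf F.B (fun v => af o h s.φ (F.i v)) k v :=
  kah_pull F (af_smOn o h s.sm) (kah_af s) (fun v => (hF v).1) hv

/-- the leaf integral along a leafy family -/
theorem leafy_push (s : SKOut K o h) (F : Fam A n 1 D) (hF : Leafy o.F F) (v : F.V) :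
    leafI (xd s) (o.F.Tf (F.i v)) = push F.P ((xd s).pb F) (F.y v) := by
  rw [(hF v).2]
  exact leafI_fam F (xd_smOn s) (fun v => (hF v).1) (F.mem v)

/-- the second derivative of the leaf integral -/
theorem push_xd (s : SKOut K o h) (hD : IsOpen D) (F : Fam A n 1 D) (hF : Leafy o.F F) {u : Cn 1}
    (hu : u ∈ D) : dj 0 (dbj 0 (push F.P ((xd s).pb F))) u =
      ((s.lam - 1 : ℝ) : ℂ) * push F.P (fun k v => ((F.kah K).g k v).det) u := by
  have hp := prj F hD
  set H : F.V → ℝ := fun v => af o h s.φ (F.i v) with hH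
  have hHs : F.B.Sm H := sm_pullOn F.hol (af_smOn o h s.sm) fun v => (hF v).1
  have h1 := push_det_sub (P := F.P) hp (kah_cf (F.kah K)) (fun k v hv => (F.kah K).pos k v hv |>.1)
    hHs hu
  have h2 : ∀ z ∈ D, push F.P ((xd s).pb F) z = push F.P (fun i x => (H x : ℂ) *
      xi (fb (d := n) (m := 1) ((F.kah K).g i x)) (fb (d := n) (m := 1) (hsf F.B H i x))) z := by
    intro z hz
    refine push_congr hp fun k v hv _ => ?_
    show (mixDen n (kah_cf K) (kah_cf s.K') (af o h s.φ)).pb F k v = _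
    rw [pb_mixDen K s.K' _ F hv, leafy_kah s F hF hv, fb_add, add_sub_cancel_left]
  rw [ddb_congr hD h2 0 0 hu, ← h1]
  have h3 : push F.P (fun i x => ((F.kah K).g i x + hsf F.B H i x).det -
      ((F.kah K).g i x).det) u =
      push F.P (fun i x => ((F.kah s.K').g i x).det - ((F.kah K).g i x).det) u :=
    push_congr hp fun k v hv _ => by rw [leafy_kah s F hF hv]
  rw [h3, push_sub hp (smAt_kdet F s.K') (smAt_kdet F K) hu, push_vol s hD F hF u hu]
  push_cast
  ring

/-- the leaf integral is real -/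
theorem xd_real (s : SKOut K o h) (hD : IsOpen D) (F : Fam A n 1 D) {u : Cn 1}
    (hu : u ∈ D) : (push F.P ((xd s).pb F) u).im = 0 := by
  refine push_real (prj F hD) hu fun k v hv _ => ?_
  have h1 : (xd s).pb F k v = _ := mix_mul (K := K) (K' := s.K') F hv (af o h s.φ)
  rw [h1, Complex.im_ofReal_mul, (mix_nonneg F k v hv).2, mul_zero]

variable [SecondCountableTopology M]

/-- **the pointwise identity** -/
theorem uf_id (s : SKOut K o h) (v0 : ℝ) (hD : IsOpen D) (F : Fam A n 1 D)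
    (hF : Leafy o.F F) {k : F.B.ι} {v : F.V} (hv : v ∈ (F.B.e k).source) {i : A.ι}
    (hi : F.i v ∈ (A.e i).source) :
    (Jp F.B A F.i k i v)ᵀ * (cur h i (F.i v) + hsf A (uf s v0) i (F.i v)) *
        (Jp F.B A F.i k i v).map conj =
      ((((s.lam - 1) / v0 : ℝ) : ℂ) * push F.P (fun k v => ((F.kah K).g k v).det) (F.y v)) •
        Matrix.single (Fin.last n) (Fin.last n) (1 : ℂ) := by
  have hp := prj F hD
  have hO := (hF v).1
  set W := push F.P ((xd s).pb F) with hW
  have hWs : ContDiffOn ℝ ∞ W D :=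
    contDiffOn_push hp (LDen.pb_smAt F (xd_smOn s) fun v => (hF v).1)
  have hWr : ContDiffOn ℝ ∞ (fun z => (W z).re) D := Complex.reCLM.contDiff.comp_contDiffOn hWs
  -- the Hessians
  have e1 := hsf_pull F.hol (u := uf s v0) hv hi ((uf_smOn s v0).at hi hO)
  have e2 := hsf_pull F.hol (u := o.rho h) hv hi ((rho_smOn o h).at hi hO)
  have e3 : (fun w => uf s v0 (F.i w)) = fun w => (o.k : ℝ)⁻¹ * o.rho h (F.i w) +
      v0⁻¹ * (W (F.y w)).re := by
    funext w
    rw [uf_of s v0 (hF w).1, leafy_push s F hF w]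
  have hρ : F.B.Sm (fun w => o.rho h (F.i w)) :=
    sm_pullOn F.hol (rho_smOn o h) fun v => (hF v).1
  have hGW : F.B.Sm (fun w => (W (F.y w)).re) := hp.sm hWr
  have hat : ∀ {f : F.V → ℝ}, F.B.Sm f →
      ContDiffAt ℝ ∞ (fun z => f ((F.B.e k).symm z)) (F.B.e k v) := fun hf =>
    (hf k).contDiffAt ((F.B.e k).open_target.mem_nhds ((F.B.e k).map_source hv))
  have e4 : hsf F.B (fun w => uf s v0 (F.i w)) k v =
      (((o.k : ℝ)⁻¹ : ℝ) : ℂ) • hsf F.B (fun w => o.rho h (F.i w)) k v +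
        ((v0⁻¹ : ℝ) : ℂ) • hsf F.B (fun w => (W (F.y w)).re) k v := by
    rw [e3]
    show hess (fun z => (o.k : ℝ)⁻¹ * o.rho h (F.i ((F.B.e k).symm z)) +
      v0⁻¹ * (W (F.y ((F.B.e k).symm z))).re) (F.B.e k v) = _
    rw [hess_add (contDiffAt_const.mul (hat hρ)) (contDiffAt_const.mul (hat hGW)),
      hess_const_mul _ (hat hρ), hess_const_mul _ (hat hGW)]
    rfl
  have e5 := hsf_base hp hWr hv
  have e6 : dj 0 (dbj 0 (fun z => (((W z).re : ℝ) : ℂ))) (F.y v) = dj 0 (dbj 0 W) (F.y v) := by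
    refine ddb_congr hD (fun z hz => ?_) 0 0 (F.mem v)
    exact Complex.ext rfl (by rw [Complex.ofReal_im]; exact (xd_real s hD F hz).symm)
  rw [e6, push_xd s hD F hF (F.mem v)] at e5
  rw [Matrix.mul_add, Matrix.add_mul, ← e1, e4, e2, e5, hsf_rho o h hi hO]
  have hk : (o.k : ℂ) ≠ 0 := by exact_mod_cast o.k_pos.ne'
  rw [Matrix.mul_neg, Matrix.neg_mul, Matrix.mul_smul, Matrix.smul_mul, smul_neg, smul_smul]
  have h3 : (((o.k : ℝ)⁻¹ : ℝ) : ℂ) * (o.k : ℂ) = 1 := by
    push_cast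
    exact inv_mul_cancel₀ hk
  rw [h3, one_smul, ← add_assoc, add_neg_cancel, zero_add, smul_smul]
  congr 1
  push_cast
  ring

/-- **`SKOut` and the Harnack inequality give `UPre`** -/
def uPre_of [CompactSpace M] (s : SKOut K o h) {v0 B : ℝ}
    (hv : Mass5_519.VolC A o.F.Tf o.F.Om n K v0) (hB : ∀ x, |uf s v0 x| ≤ B) : UPre K o h where
  u := uf s v0
  B := B
  bdd := hB
  sm := uf_smOn s v0
  a := (s.lam - 1) / v0
  a_pos := div_pos (by have := s.one_lt; linarith) hv.pos
  vol := v0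
  vol_pos := hv.pos
  fvol := fun _ _ F1 hF1 => uf_fvol hv F1 hF1
  id := fun _ hD F1 hF1 _ _ hv' _ hi => uf_id s v0 hD F1 hF1 hv' hi

end

end Crest.Agent.R281.Up_425
end

-- ▼ part R281/D6y_986

/-!
# R281 (S0424), S6-ASM (helper986), part y: the remaining nodes of division 6 (defs only)

* `LowStmt`   : the lower bound of 389/331;
* `OmStmt`    : the Lagrangian fibration (854/980/524/677);
* `SKStmt`    : the volume identity of two hyperkaehler metrics (507);
* `UPreStmt`  : the function `u` (425);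
* `ContStmt`  : the partition with the volume bound (166);
* `SliceStmt` : the slice (316);
* `RichStmt`  : Richberg for bounded potentials (710/791), in `D6a_986`.
-/

set_option autoImplicit false
set_option linter.unusedSectionVars false

open Set Filter Topology Complex MeasureTheory
open scoped ContDiff Matrix ComplexConjugate Manifold ComplexOrder

namespace Crest.Agent.R281.D6_986

open Crest.Agent.R275.Geo Crest.Agent.R275.Core144 Crest.Agent.R275.GC293
open Crest.Agent.R273.Defs_333 Crest.Agent.R273.Kah_333 Crest.Agent.R273.HM_333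
open Crest.Agent.R273.Hess_333 Crest.Agent.R273.HessB_333
open Crest.Agent.R281.Defs_273 Crest.Agent.R281.LEnd_10
open Crest.Agent.R281.S6D_664 (LFib Fam fb)
open Crest.Agent.R281.HkP3_508 (HK smulHS)
open Crest.Agent.R281.Har_331 (Low)
open Crest.Agent.R281.Tc_941 (SliceAt)

noncomputable section




/-- node of 425 -/
def UPreStmt : Prop :=
  ∀ (n : ℕ) (M : Type) [TopologicalSpace M] [T2Space M] [CompactSpace M] [SimplyConnectedSpace M]
    (A : Atl (2 * n) M) [Finite A.ι], 1 ≤ n → ∀ (_ : Part A) (K : Kah A) (σ : HSymp A)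
    (L : LB A) (h : HM L) (o : OmOut σ L), SKOut K o h → Harn o h → Nonempty (UPre K o h)



end

end Crest.Agent.R281.D6_986
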