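import Crest.Agent.R281.Dif2_268

/-!
# R281, DIF-HTPY (helper268), part 3: maps acting trivially on `H²`, the group of diffeomorphisms

* `HTriv C f`   : `f` is smooth and `f^* w - w` is exact for every closed `w`
* `HTriv.comp`, `HTriv.inv`, `HTriv.conj`, `HTriv.cmp` (independent of the chart system)
* `htriv_of_homotopy` : a map smoothly homotopic to the identity is `HTriv`
* `difG C`, `tG C` : the group of diffeomorphisms and the normal subgroup of the trivial ones
* `mapCh`       : the chart system `e_i ∘ g⁻¹`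
-/

set_option autoImplicit false
set_option maxSynthPendingDepth 5

open Set Filter Topology MeasureTheory
open scoped ContDiff

namespace Crest.Agent.R281.Dif_268

open Crest.Agent.R281.HkR_835 Crest.Agent.R260.ACM_580
open Crest.Agent.R281.Ti_846 hiding pb pb_apply symm2

noncomputable section

variable {V V' V'' X X' X'' : Type} [NormedAddCommGroup V] [NormedSpace ℝ V]
  [NormedAddCommGroup V'] [NormedSpace ℝ V'] [NormedAddCommGroup V''] [NormedSpace ℝ V'']
  [TopologicalSpace X] [TopologicalSpace X'] [TopologicalSpace X'']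
  {C : RCh V X} {C' : RCh V' X'}

theorem SMap.ext' {g g' : SMap C' C} (h : g.f = g'.f) : g = g' := by
  cases g; cases g'; cases h; rfl

/-- the map acts trivially on the second cohomology -/
def HTriv (C : RCh V X) (f : X → X) : Prop :=
  ∃ g : SMap C C, g.f = f ∧ ∀ w : F2 C, Coh (g.pull w) w

theorem HTriv.id (C : RCh V X) : HTriv C _root_.id :=
  ⟨SMap.id C, rfl, fun w => (pull_id w).coh⟩

theorem HTriv.comp {f f' : X → X} (h : HTriv C f) (h' : HTriv C f') : HTriv C (f ∘ f') := by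
  obtain ⟨g, rfl, hg⟩ := h
  obtain ⟨g', rfl, hg'⟩ := h'
  refine ⟨g.comp g', rfl, fun w => ?_⟩
  exact ((pull_comp g g' w).coh.trans ((hg w).pull g')).trans (hg' w)

theorem HTriv.inv {f f' : X → X} (h : HTriv C f) (g' : SMap C C) (e : g'.f = f')
    (h1 : f ∘ f' = _root_.id) : HTriv C f' := by
  obtain ⟨g, rfl, hg⟩ := h
  subst e
  refine ⟨g', rfl, fun w => ?_⟩
  -- `w ~ (g g')^* w ~ g'^* (g^* w) ~ g'^* w`
  have e1 : g.comp g' = SMap.id C := SMap.ext' h1
  have h2 : Coh (g'.pull (g.pull w)) w := by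
    have := (pull_comp g g' w).coh.symm
    rw [e1] at this
    exact this.trans (pull_id w).coh
  exact ((hg w).symm.pull g').trans h2

theorem HTriv.conj {f : X → X} (h : HTriv C f) (a b : SMap C C) (hab : a.f ∘ b.f = _root_.id) :
    HTriv C (a.f ∘ f ∘ b.f) := by
  obtain ⟨g, rfl, hg⟩ := h
  refine ⟨a.comp (g.comp b), rfl, fun w => ?_⟩
  have e1 : a.comp b = SMap.id C := SMap.ext' hab
  have h1 : Coh ((a.comp (g.comp b)).pull w) (b.pull (g.pull (a.pull w))) :=
    (pull_comp a (g.comp b) w).coh.trans (pull_comp g b (a.pull w)).coh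
  have h2 : Coh (b.pull (g.pull (a.pull w))) (b.pull (a.pull w)) := (hg (a.pull w)).pull b
  have h3 : Coh (b.pull (a.pull w)) w := by
    have := (pull_comp a b w).coh.symm
    rw [e1] at this
    exact this.trans (pull_id w).coh
  exact (h1.trans h2).trans h3

/-- independence of the chart system -/
theorem HTriv.cmp {C₂ : RCh V' X} (h : Cmp C C₂) {f : X → X} (hf : HTriv C₂ f) : HTriv C f := by
  obtain ⟨g, rfl, hg⟩ := hf
  -- `a : C₂ → C`, `b : C → C₂` identities
  let a : SMap C₂ C := SMap.ofCmp h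
  let b : SMap C C₂ := SMap.ofCmp h.symm
  refine ⟨a.comp (g.comp b), rfl, fun w => ?_⟩
  have e1 : a.comp b = SMap.id C := SMap.ext' rfl
  have h1 : Coh ((a.comp (g.comp b)).pull w) (b.pull (g.pull (a.pull w))) :=
    (pull_comp a (g.comp b) w).coh.trans (pull_comp g b (a.pull w)).coh
  have h2 : Coh (b.pull (g.pull (a.pull w))) (b.pull (a.pull w)) := (hg (a.pull w)).pull b
  have h3 : Coh (b.pull (a.pull w)) w := by
    have := (pull_comp a b w).coh.symm
    rw [e1] at this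
    exact this.trans (pull_id w).coh
  exact (h1.trans h2).trans h3

/-- a map smoothly homotopic to the identity acts trivially -/
theorem htriv_of_homotopy (Ψ : SMap (prodR C) C) (h0 : ∀ x, Ψ.f (0, x) = x) :
    HTriv C (fun x => Ψ.f (1, x)) := by
  refine ⟨Ψ.comp (slice C 1), rfl, fun w => ?_⟩
  have e : Ψ.comp (slice C 0) = SMap.id C := SMap.ext' (funext h0)
  have h := coh_homotopy Ψ w
  rw [e] at h
  exact h.trans (pull_id w).coh

/-! ### the group of diffeomorphisms -/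

/-- diffeomorphisms of `(X, C)` -/
def difG (C : RCh V X) : Subgroup (X ≃ₜ X) where
  carrier := {φ | (∃ g : SMap C C, g.f = φ) ∧ ∃ g : SMap C C, g.f = φ.symm}
  mul_mem' := by
    rintro φ ψ ⟨⟨a, ha⟩, ⟨a', ha'⟩⟩ ⟨⟨b, hb⟩, ⟨b', hb'⟩⟩
    refine ⟨⟨a.comp b, ?_⟩, ⟨b'.comp a', ?_⟩⟩
    · show a.f ∘ b.f = _
      rw [ha, hb]; rfl
    · show b'.f ∘ a'.f = _
      rw [ha', hb']; rfl
  one_mem' := ⟨⟨SMap.id C, rfl⟩, ⟨SMap.id C, rfl⟩⟩
  inv_mem' := by
    rintro φ ⟨ha, ha'⟩
    exact ⟨ha', ha⟩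



theorem apply_inv_self' (φ : difG C) (x : X) : φ.1 ((φ⁻¹).1 x) = x := φ.1.apply_symm_apply x

/-- diffeomorphisms acting trivially on the second cohomology -/
def tG (C : RCh V X) : Subgroup (difG C) where
  carrier := {φ | HTriv C φ.1}
  mul_mem' := by
    intro φ ψ h h'
    exact h.comp h'
  one_mem' := HTriv.id C
  inv_mem' := by
    intro φ h
    obtain ⟨g', hg'⟩ := φ.2.2
    refine HTriv.inv (f' := (φ⁻¹).1) h g' hg' ?_
    funext x
    exact apply_inv_self' φ x

instance tG_normal (C : RCh V X) : (tG C).Normal where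
  conj_mem := by
    intro φ h ψ
    obtain ⟨a, ha⟩ := ψ.2.1
    obtain ⟨b, hb⟩ := ψ.2.2
    have h1 : HTriv C (a.f ∘ φ.1 ∘ b.f) := h.conj a b (by
      rw [ha, hb]; funext x; exact ψ.1.apply_symm_apply x)
    rw [ha, hb] at h1
    exact h1

/-- the chart system `e_i ∘ φ⁻¹` -/
def mapCh (C : RCh V X) (φ : X ≃ₜ X) : RCh V X where
  ι := C.ι
  e i := φ.symm.toOpenPartialHomeomorph.trans (C.e i)
  cover x := by
    obtain ⟨i, hi⟩ := C.cover (φ.symm x)
    refine ⟨i, ?_⟩
    simpa using hi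
  sm i j := by
    refine ((C.sm i j).mono ?_).congr ?_
    · rintro z ⟨h1, h2⟩
      refine ⟨by simpa using h1, by simpa using h2⟩
    · intro z hz
      simp

theorem mapCh_target (φ : X ≃ₜ X) (i : C.ι) : ((mapCh C φ).e i).target = (C.e i).target := by
  ext z
  simp [mapCh]

theorem mapCh_source (φ : X ≃ₜ X) (i : C.ι) (x : X) :
    x ∈ ((mapCh C φ).e i).source ↔ φ.symm x ∈ (C.e i).source := by
  simp [mapCh]

theorem mapCh_symm (φ : X ≃ₜ X) (i : C.ι) (z : V) :
    ((mapCh C φ).e i).symm z = φ ((C.e i).symm z) := by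
  simp [mapCh]

theorem mapCh_e (φ : X ≃ₜ X) (i : C.ι) (x : X) : (mapCh C φ).e i x = C.e i (φ.symm x) := by
  simp [mapCh]

theorem mapCh_t (φ : X ≃ₜ X) (i j : C.ι) (z : V) : (mapCh C φ).t i j z = C.t i j z := by
  show (mapCh C φ).e j (((mapCh C φ).e i).symm z) = _
  rw [mapCh_symm, mapCh_e, φ.symm_apply_apply]
  rfl

theorem mapCh_ov (φ : X ≃ₜ X) (i j : C.ι) : (mapCh C φ).ov i j = C.ov i j := by
  ext z
  show z ∈ ((mapCh C φ).e i).target ∧ ((mapCh C φ).e i).symm z ∈ ((mapCh C φ).e j).source ↔ _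
  rw [mapCh_target, mapCh_symm, mapCh_source, φ.symm_apply_apply]
  rfl

/-- a diffeomorphism keeps the smooth structure -/
theorem cmp_mapCh {C₀ : RCh V X} (h : Cmp C₀ C) (φ : difG C₀) : Cmp C₀ (mapCh C φ.1) := by
  obtain ⟨a, ha⟩ := φ.2.1
  obtain ⟨b, hb⟩ := φ.2.2
  refine ⟨fun i (j : C.ι) => ?_, fun i (j : C.ι) => ?_⟩
  · -- `C₀.e i ∘ φ ∘ (C.e j).symm`
    let g : SMap C C₀ := a.comp (SMap.ofCmp h)
    have h1 := g.sm i j
    refine (h1.mono ?_).congr ?_
    · rintro z ⟨h2, h3⟩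
      rw [mapCh_target] at h2
      rw [mapCh_symm] at h3
      refine ⟨h2, ?_⟩
      show a.f ((C.e j).symm z) ∈ _
      rw [ha]; exact h3
    · rintro z ⟨h2, h3⟩
      show C₀.e i (((mapCh C φ.1).e j).symm z) = C₀.e i (a.f ((C.e j).symm z))
      rw [mapCh_symm, ha]
  · -- `C.e j ∘ φ⁻¹ ∘ (C₀.e i).symm`
    let g : SMap C₀ C := (SMap.ofCmp h.symm).comp b
    have h1 := g.sm j i
    refine (h1.mono ?_).congr ?_
    · rintro z ⟨h2, h3⟩
      rw [mapCh_source] at h3
      refine ⟨h2, ?_⟩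
      show b.f ((C₀.e i).symm z) ∈ _
      rw [hb]; exact h3
    · rintro z ⟨h2, h3⟩
      show (mapCh C φ.1).e j ((C₀.e i).symm z) = C.e j (b.f ((C₀.e i).symm z))
      rw [mapCh_e, hb]

end

end Crest.Agent.R281.Dif_268
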