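import Crest.Agent.R281.Ehr10_268

/-!
# R281 (S0424), PER-HOL (helper268, second hand), part 11: holomorphic forms on the markings

* `QCF F`      : one `CF` (655) over `F.R q0` for every `q0`, compatible; `re`, `im : QBF F`
* `QCF.cw m i c z v w` : the complex value of the pull back along the transport of the marking `m`
                 `re_at`, `im_at`, `cw_apply`, `hol` (holomorphic in `c` on the ball), `typ`
* `qcf`        : the `QCF` over 871's `qfam` from 867's polynomial data
* `mem`, `mem_cone`, `mem_cx`, `mark_cx` : the members, their tangent spaces are complex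
* `qcf_cw`, `qcf_nd`, `qcf_typ` : value, nondegeneracy, type on the members
-/

set_option autoImplicit false
set_option linter.unusedSectionVars false
set_option synthInstance.maxHeartbeats 200000
set_option maxSynthPendingDepth 3

open Set Filter Topology Complex
open scoped ContDiff

namespace Crest.Agent.R281.Ehr11_268

open Crest.Agent.R281.HkR_835 Crest.Agent.R281.Ehr2_268 Crest.Agent.R281.Dif_268
open Crest.Agent.R281.Ehr4_268 Crest.Agent.R281.Ehr6_268 Crest.Agent.R281.Ehr8_268
open Crest.Agent.R281.Phl_655 Crest.Agent.R281.AF_867 Crest.Agent.R281.KrB4_871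
open Crest.Agent.R281.QF_871 Crest.Agent.R281.Ehr9_268 Crest.Agent.R281.Ehr10_268

noncomputable section

universe uq

section gen

variable {Q : Type uq} [TopologicalSpace Q] {E H : Type} [NormedAddCommGroup E]
    [NormedSpace ℂ E] [NormedAddCommGroup H] [NormedSpace ℂ H] {V X : Type}
    [NormedAddCommGroup V] [NormedSpace ℝ V] [TopologicalSpace X]
    {F : QFam Q E H} {C : RCh V X}

/-- holomorphic basic forms on the cones of the family -/
structure QCF (F : QFam Q E H) where
  β : ∀ q0, CF (F.R q0)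
  compat : ∀ q0, ∀ q ∈ (F.e q0).source, ∀ x u v, Vel (F.R q) (F.u q) x u →
    Vel (F.R q) (F.u q) x v → (β q0).sg (F.u q) x u v = (β q).sg (F.u q) x u v

namespace QCF

variable (b : QCF F)

/-- real forms -/
def part (π : ℂ →L[ℝ] ℝ) : QBF F where
  β q0 := (b.β q0).part π
  compat q0 q hq x u v hu hv := congrArg π (b.compat q0 q hq x u v hu hv)

/-- real part -/
def re : QBF F := b.part reCLM

/-- imaginary part -/
def im : QBF F := b.part imCLM

/-- the complex value of the pull back along the transport of the marking `m` -/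
def cw (m : Mark F C) (i : m.C'.ι) (c : E) (z v w : V) : ℂ := (b.β m.q).cw i m.pf c z v w

theorem re_at (m : Mark F C) {c : E} (hc : c ∈ Metric.ball (F.u m.q) (F.r m.q)) (i : m.C'.ι)
    (z v w : V) : (b.re.at' m hc).w i z v w = (b.cw m i c z v w).re :=
  (cw_re (σ := b.β m.q) (F := m.pf) (i := i) c z v w).symm

theorem im_at (m : Mark F C) {c : E} (hc : c ∈ Metric.ball (F.u m.q) (F.r m.q)) (i : m.C'.ι)
    (z v w : V) : (b.im.at' m hc).w i z v w = (b.cw m i c z v w).im :=
  (cw_im (σ := b.β m.q) (F := m.pf) (i := i) c z v w).symm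

/-- the lift -/
theorem lift_pf (m : Mark F C) {c : E} (hc : c ∈ Metric.ball (F.u m.q) (F.r m.q)) {i : m.C'.ι}
    {z : V} (hz : z ∈ (m.C'.e i).target) : Lift m.pf i c z (fun p => m.pf.u i p.1 p.2) := by
  have h1 : ∀ᶠ p : E × V in 𝓝 (c, z),
      p ∈ Metric.ball (F.u m.q) (F.r m.q) ×ˢ (m.C'.e i).target :=
    (Metric.isOpen_ball.prod (m.C'.e i).open_target).mem_nhds ⟨hc, hz⟩
  filter_upwards [h1] with p hp
  refine ⟨fam_contDiffAt m.P (F.hM m.q) m.coneS hp.1 hp.2
    ((m.P.sm i).contDiffAt ((m.C'.e i).open_target.mem_nhds hp.2)),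
    ⟨1, one_ne_zero, (one_smul ℂ _).symm⟩, ?_⟩
  exact fam_holo m.P (F.hM m.q) m.coneS hp.1 hp.2

theorem dz_pf (m : Mark F C) {c : E} (hc : c ∈ Metric.ball (F.u m.q) (F.r m.q)) {i : m.C'.ι}
    {z : V} (hz : z ∈ (m.C'.e i).target) (v : V) :
    dz (fun p : E × V => m.pf.u i p.1 p.2) (c, z) v = fderiv ℝ (m.pf.u i c) z v := by
  have h1 := hasFDerivAt_dz (lift_pf m hc hz).diff
  have h2 : HasFDerivAt (m.pf.u i c) (dz (fun p : E × V => m.pf.u i p.1 p.2) (c, z)) z := h1
  rw [h2.fderiv]

theorem cw_apply (m : Mark F C) {c : E} (hc : c ∈ Metric.ball (F.u m.q) (F.r m.q)) {i : m.C'.ι}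
    {z : V} (hz : z ∈ (m.C'.e i).target) (v w : V) :
    b.cw m i c z v w = (b.β m.q).sg c (m.pf.u i c z) (fderiv ℝ (m.pf.u i c) z v)
      (fderiv ℝ (m.pf.u i c) z w) := by
  have h := Phl_655.cw_apply (σ := b.β m.q) (F.cn m.q) (pf_in m) hc hz (lift_pf m hc hz) v w
  rw [dz_pf m hc hz, dz_pf m hc hz] at h
  exact h

/-- **holomorphic in the parameter** -/
theorem hol (m : Mark F C) {i : m.C'.ι} {z : V} (hz : z ∈ (m.C'.e i).target) (v w : V) :
    DifferentiableOn ℂ (fun c => b.cw m i c z v w) (Metric.ball (F.u m.q) (F.r m.q)) :=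
  fun _ hc => (CF.hol (σ := b.β m.q) (F.cn m.q) (pf_in m) hc hz v w).differentiableWithinAt

/-- **type (2,0)** -/
theorem typ (m : Mark F C) {c : E} (hc : c ∈ Metric.ball (F.u m.q) (F.r m.q)) {i : m.C'.ι}
    {z : V} (hz : z ∈ (m.C'.e i).target) {v v' w : V} {a : ℂ}
    (hv : I • fderiv ℝ (m.pf.u i c) z v = fderiv ℝ (m.pf.u i c) z v' + a • m.pf.u i c z) :
    b.cw m i c z v' w = I * b.cw m i c z v w := by
  rw [← dz_pf m hc hz, ← dz_pf m hc hz] at hv
  exact CF.type (σ := b.β m.q) (F.cn m.q) (pf_in m) hc hz (lift_pf m hc hz) hv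

end QCF

end gen

section qcf

variable {Q : Type uq} [TopologicalSpace Q] {E0 : Type} [NormedAddCommGroup E0]
  [NormedSpace ℂ E0] {n N : ℕ} {R : Type*} [CommRing R]

/-- the coefficients are analytic over the target of the chart -/
theorem analyticAt_evL' {u : Q → E0} (hu : IsLocalHomeomorph u) {ev : Q → (R →+* ℂ)} {r : R}
    (han : AnE u fun q => ev q r) (q0 : Q) {c : E0} (hc : c ∈ (locE hu q0).target) :
    AnalyticAt ℂ (fun p => evL hu ev q0 p r) c := by
  obtain ⟨φ, h1, h2⟩ := han ((locE hu q0).symm c)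
  rw [u_symm hu hc] at h1
  refine h1.congr ?_
  have ht : (locE hu q0).target ∈ 𝓝 c := (locE hu q0).open_target.mem_nhds hc
  have h4 : Tendsto (locE hu q0).symm (𝓝 c) (𝓝 ((locE hu q0).symm c)) :=
    (locE hu q0).continuousAt_symm hc
  filter_upwards [ht, h4.eventually h2] with p hp hp2
  show φ p = evL hu ev q0 p r
  have h8 : ev ((locE hu q0).symm p) r = φ (u ((locE hu q0).symm p)) := hp2
  rw [evL, if_pos hp, h8, u_symm hu hp]

variable [FiniteDimensional ℂ E0] {u : Q → E0} (hu : IsLocalHomeomorph u) (c : Cert n N R)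
  (ev : Q → (R →+* ℂ)) (han : ∀ r, AnE u fun q => ev q r) {D : FDat (Fin (N + 1)) R}
  (hX : D.Exact) (hI : ∀ q, (D.map (ev q)).Imp (MvPolynomial.map (ev q) '' c.E))

/-- the local polynomial forms -/
def qjf (q0 : Q) : JForm ((qfam hu c ev han).R q0) (Fin (N + 1)) :=
  jf (ev := evL hu ev q0) (E := c.E) (fun _ hp => hp.1) D hX
    (fun _ _ hp r => analyticAt_evL' hu (han r) q0 hp.2)
    (fun p _ hp => by
      have h1 : evL hu ev q0 p = ev ((locE hu q0).symm p) := if_pos hp.2
      rw [h1]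
      exact hI _)


theorem sj_congr {ev₁ ev₂ : E0 → (R →+* ℂ)} {p : E0} (h : ev₁ p = ev₂ p) (j : Fin (N + 1))
    (x : EuclideanSpace ℂ (Fin (N + 1))) : sj ev₁ D j (p, x) = sj ev₂ D j (p, x) := by
  unfold sj
  refine Finset.sum_congr rfl fun k _ => Finset.sum_congr rfl fun l _ => ?_
  have h1 : val ev₁ (D.s j k l) (p, x) = val ev₂ (D.s j k l) (p, x) := by
    unfold val
    rw [h]
  rw [h1]

/-- **the holomorphic form on the family** -/
def qcf : QCF (qfam hu c ev han) where
  β q0 := (qjf hu c ev han hX hI q0).cf ((qfam hu c ev han).cn q0)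
  compat q0 q hq x v w _ _ := by
    have h1 : evL hu ev q0 (u q) = evL hu ev q (u q) := by
      rw [evL_u hu ev q0 hq, evL_u hu ev q (mem_locE hu q)]
    show (qjf hu c ev han hX hI q0).val (u q) x v w = (qjf hu c ev han hX hI q).val (u q) x v w
    unfold JForm.val
    have h2 : ∀ j, (qjf hu c ev han hX hI q0).s j (u q, x) =
        (qjf hu c ev han hX hI q).s j (u q, x) := fun j => sj_congr h1 j x
    by_cases h : ∃ j : Fin (N + 1), (qjf hu c ev han hX hI q).X j x ≠ 0
    · have h' : ∃ j : Fin (N + 1), (qjf hu c ev han hX hI q0).X j x ≠ 0 := h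
      rw [dif_pos h, dif_pos h', h2]
      rfl
    · have h' : ¬ ∃ j : Fin (N + 1), (qjf hu c ev han hX hI q0).X j x ≠ 0 := h
      rw [dif_neg h, dif_neg h']

variable {V X : Type} [NormedAddCommGroup V] [NormedSpace ℝ V] [TopologicalSpace X]
  [FiniteDimensional ℝ V] {C : RCh V X}

/-- the member at the parameter `p` along the transport of a marking -/
def mem (m : Mark (qfam hu c ev han) C) {p : E0}
    (hp : p ∈ Metric.ball ((qfam hu c ev han).u m.q) ((qfam hu c ev han).r m.q)) :
    HEmb m.C' (EuclideanSpace ℂ (Fin (N + 1))) :=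
  famEmb m.P ((qfam hu c ev han).hM m.q) m.coneS hp


theorem mem_cone (m : Mark (qfam hu c ev han) C) {p : E0}
    (hp : p ∈ Metric.ball ((qfam hu c ev han).u m.q) ((qfam hu c ev han).r m.q))
    (w : EuclideanSpace ℂ (Fin (N + 1))) :
    w ∈ (mem hu c ev han m hp).cone ↔ w ∈ c.cone (evL hu ev m.q p) :=
  (famEmb_cone m.P ((qfam hu c ev han).hM m.q) m.coneS hp w).symm






end qcf

end

end Crest.Agent.R281.Ehr11_268
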