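import Crest.Agent.R281.Phl3_655
import Crest.Agent.R281.Fuj4_207
import Crest.Agent.R281.Dif2_268

-- ▼ part R281/Phl4_655
section

/-!
# R281 (S0424), PER-HOL, part 4 (helper655): integrals of holomorphic families of forms

* `hol_int`   : integrals over a compact set of functions holomorphic in the parameter
* `HolF B a b`: families `a, b : E → F2 C`, jointly smooth, `a + i b` pointwise holomorphic
* `HolF.pull`, `HolF.congr`, `CF.holF` (the pull back of a holomorphic form)
* `HolF.tt`   : `c ↦ T(.., a c, ..) + i T(.., b c, ..)` is holomorphic, `T = IM μ b P`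
* `HolF.qf`   : `c ↦ Qf x (a c) + i Qf x (b c)` is holomorphic (207's form)
-/

set_option autoImplicit false
set_option linter.unusedSectionVars false
set_option synthInstance.maxHeartbeats 100000

open Set Filter Topology Complex MeasureTheory
open scoped ContDiff

namespace Crest.Agent.R281.Phl_655

open Crest.Agent.R281.HkR_835 Crest.Agent.R281.Ehr2_268 Crest.Agent.R281.Ti_846
open Crest.Agent.R281.Dif_268 hiding Coh symm2
open Crest.Agent.R281.Ehr4_268 Crest.Agent.R281.Ehr6_268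
open Crest.Agent.R281.Fuj1_207

noncomputable section

/-! ### real and complex derivatives -/

section diffC

variable {E : Type} [NormedAddCommGroup E] [NormedSpace ℂ E]
variable {G : Type*} [NormedAddCommGroup G] [NormedSpace ℂ G]

/-- a real derivative commuting with `I` is complex linear -/
theorem diffC {f : E → G} {f' : E →L[ℝ] G} {c : E} (h : HasFDerivAt f f' c)
    (hI : ∀ h, f' (I • h) = I • f' h) : DifferentiableAt ℂ f c := by
  have h7 : ∀ (a : ℂ) (h : E), f' (a • h) = a • f' h := by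
    intro a h
    have e1 : a • h = a.re • h + a.im • (I • h) := by
      conv_lhs => rw [← Complex.re_add_im a]
      rw [add_smul, mul_smul]
      rfl
    have e2 : a • f' h = a.re • f' h + a.im • (I • f' h) := by
      conv_lhs => rw [← Complex.re_add_im a]
      rw [add_smul, mul_smul]
      rfl
    rw [e1, e2, map_add, map_smul, map_smul, hI]
  let fC : E →L[ℂ] G :=
    { toFun := f', map_add' := f'.map_add, map_smul' := h7, cont := f'.continuous }
  exact (hasFDerivAt_of_restrictScalars (𝕜' := ℂ) (f' := fC) ℝ h (by ext; rfl)).differentiableAt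

theorem diffC_I {f : E → G} {f' : E →L[ℝ] G} {c : E} (h : HasFDerivAt f f' c)
    (hd : DifferentiableAt ℂ f c) (v : E) : f' (I • v) = I • f' v := by
  have h5 := h.unique (hd.hasFDerivAt.restrictScalars ℝ)
  have h6 : ∀ x : E, f' x = fderiv ℂ f c x := fun x => congrArg (fun L : E →L[ℝ] G => L x) h5
  rw [h6, h6, map_smul]

end diffC

section int

variable {E : Type} [NormedAddCommGroup E] [NormedSpace ℂ E]
variable {V : Type} [NormedAddCommGroup V] [NormedSpace ℝ V] [FiniteDimensional ℝ V]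
  [MeasurableSpace V] [BorelSpace V] (μ : Measure V) [IsFiniteMeasureOnCompacts μ]

open Crest.Agent.R240.SmJ in
/-- integrals of functions holomorphic in the parameter -/
theorem hol_int {B : Set E} (hB : IsOpen B) {W : Set V} (hW : IsOpen W) {Kc : Set V}
    (hK : IsCompact Kc) (hKW : Kc ⊆ W) {g : E × V → ℂ} (hg : ContDiffOn ℝ ∞ g (B ×ˢ W))
    (hol : ∀ c ∈ B, ∀ z ∈ Kc, DifferentiableAt ℂ (fun c => g (c, z)) c) {c : E} (hc : c ∈ B) :
    DifferentiableAt ℂ (fun c => ∫ z in Kc, g (c, z) ∂μ) c := by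
  have hs : IsOpen (B ×ˢ W) := hB.prod hW
  have hd := hasFDerivAt_integral hs hB hK (prod_mono subset_rfl hKW) μ hg hc
  refine diffC hd fun v => ?_
  have hcd : ContDiffOn ℝ ∞ (dx g) (B ×ˢ W) := contDiffOn_dx hs hg
  have h1 : ContinuousOn (fun z => dx g (c, z)) Kc :=
    hcd.continuousOn.comp (by fun_prop) fun z hz => ⟨hc, hKW hz⟩
  have hint : Integrable (fun z => dx g (c, z)) (μ.restrict Kc) := h1.integrableOn_compact hK
  rw [ContinuousLinearMap.integral_apply hint, ContinuousLinearMap.integral_apply hint,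
    ← integral_smul]
  refine setIntegral_congr_fun hK.measurableSet fun z hz => ?_
  have h2 : DifferentiableAt ℝ g (c, z) :=
    (hg.contDiffAt (hs.mem_nhds ⟨hc, hKW hz⟩)).differentiableAt (by simp)
  exact diffC_I (hasFDerivAt_dx h2) (hol c hc z hz) v

end int

/-! ### holomorphic families of forms -/

section HolF

variable {V X : Type} [NormedAddCommGroup V] [NormedSpace ℝ V] [TopologicalSpace X]
variable {V' X' : Type} [NormedAddCommGroup V'] [NormedSpace ℝ V'] [TopologicalSpace X']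
variable {E : Type} [NormedAddCommGroup E] [NormedSpace ℂ E]
variable {H : Type} [NormedAddCommGroup H] [NormedSpace ℂ H]
variable {C : RCh V X} {C' : RCh V' X'}

/-- families `a, b` of closed 2-forms, jointly smooth, with `a + i b` pointwise holomorphic -/
structure HolF (B : Set E) (a b : E → F2 C) : Prop where
  sa : ∀ i, ContDiffOn ℝ ∞ (fun p : E × V => (a p.1).w i p.2) (B ×ˢ (C.e i).target)
  sb : ∀ i, ContDiffOn ℝ ∞ (fun p : E × V => (b p.1).w i p.2) (B ×ˢ (C.e i).target)
  hol : ∀ i, ∀ c ∈ B, ∀ z ∈ (C.e i).target, ∀ u v,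
    DifferentiableAt ℂ (fun c => (((a c).w i z u v : ℝ) : ℂ) + (((b c).w i z u v : ℝ) : ℂ) * I) c

/-- the pull back, total in the parameter -/
def BF.pl {S : Set (E × H)} (σ : BF S) {B : Set E} (F : PFam C H B) (hS : Cn S) (hF : F.In S)
    (c : E) : F2 C :=
  open Classical in if h : c ∈ B then σ.pull F hS hF h else 0

section pl

variable {S : Set (E × H)} {B : Set E} {F : PFam C H B} (hS : Cn S) (hF : F.In S)

theorem pl_eq (σ : BF S) {c : E} (hc : c ∈ B) : σ.pl F hS hF c = σ.pull F hS hF hc :=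
  dif_pos hc




end pl

namespace HolF

variable {B : Set E} {a b : E → F2 C}

theorem congr (h : HolF B a b) (hB : IsOpen B) {a' b' : E → F2 C}
    (ha : ∀ c ∈ B, Eqv (a' c) (a c)) (hb : ∀ c ∈ B, Eqv (b' c) (b c)) : HolF B a' b' where
  sa i := (h.sa i).congr fun p hp => by ext u v; exact ha p.1 hp.1 i p.2 hp.2 u v
  sb i := (h.sb i).congr fun p hp => by ext u v; exact hb p.1 hp.1 i p.2 hp.2 u v
  hol i c hc z hz u v := by
    refine (h.hol i c hc z hz u v).congr_of_eventuallyEq ?_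
    filter_upwards [hB.mem_nhds hc] with c' hc'
    rw [ha c' hc' i z hz u v, hb c' hc' i z hz u v]

theorem mono (h : HolF B a b) {B' : Set E} (hB : B' ⊆ B) : HolF B' a b where
  sa i := (h.sa i).mono (prod_mono hB subset_rfl)
  sb i := (h.sb i).mono (prod_mono hB subset_rfl)
  hol i c hc := h.hol i c (hB hc)

theorem contDiffAt_pb2 {M : Type*} [NormedAddCommGroup M] [NormedSpace ℝ M] {D : M → V' →L[ℝ] V}
    {s : M → Bil V} {m : M} {n : WithTop ℕ∞} (hD : ContDiffAt ℝ n D m)
    (hs : ContDiffAt ℝ n s m) :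
    ContDiffAt ℝ n (fun y => ((ContinuousLinearMap.compL ℝ V' V ℝ).flip (D y)).comp
      ((s y).comp (D y))) m := by
  have h1 : ContDiffAt ℝ n (fun y => (ContinuousLinearMap.compL ℝ V' V ℝ).flip (D y)) m :=
    ContDiffAt.comp (f := D) (g := fun T => (ContinuousLinearMap.compL ℝ V' V ℝ).flip T) m
      (by exact (ContinuousLinearMap.contDiff _).contDiffAt) hD
  exact h1.clm_comp (hs.clm_comp hD)

/-- joint smoothness of the pull back by a smooth map -/
theorem smooth_pull (g : SMap C' C) (hB : IsOpen B) {a : E → F2 C}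
    (ha : ∀ i, ContDiffOn ℝ ∞ (fun p : E × V => (a p.1).w i p.2) (B ×ˢ (C.e i).target))
    (j : C'.ι) : ContDiffOn ℝ ∞ (fun p : E × V' => (g.pull (a p.1)).w j p.2)
      (B ×ˢ (C'.e j).target) := by
  rintro ⟨c, z⟩ ⟨hc, hz⟩
  obtain ⟨i, hi⟩ := g.exists_dom hz
  have h1 : ContDiffAt ℝ ∞ (fun p : E × V' => (p.1, loc C C' g.f i j p.2)) (c, z) :=
    contDiffAt_fst.prodMk (ContDiffAt.comp (f := fun p : E × V' => p.2)
      (g := loc C C' g.f i j) (c, z) (g.contDiffAt_loc hi) contDiffAt_snd)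
  have h2 : ContDiffAt ℝ ∞ (fun p : E × V' => (a p.1).w i (loc C C' g.f i j p.2)) (c, z) :=
    ContDiffAt.comp (f := fun p : E × V' => (p.1, loc C C' g.f i j p.2))
      (g := fun p : E × V => (a p.1).w i p.2) (c, z)
      ((ha i).contDiffAt ((hB.prod (C.e i).open_target).mem_nhds ⟨hc, g.loc_mem hi⟩)) h1
  have h3 : ContDiffAt ℝ ∞ (fun p : E × V' => fderiv ℝ (loc C C' g.f i j) p.2) (c, z) :=
    ContDiffAt.comp (f := fun p : E × V' => p.2) (g := fderiv ℝ (loc C C' g.f i j)) (c, z)
      ((g.contDiffAt_loc hi).fderiv_right (m := ∞) (by simp)) contDiffAt_snd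
  have h4 := contDiffAt_pb2 h3 h2
  refine (h4.congr_of_eventuallyEq ?_).contDiffWithinAt
  have h5 : ∀ᶠ p : E × V' in 𝓝 (c, z), p.2 ∈ dom C C' g.f i j :=
    continuousAt_snd.eventually ((g.isOpen_dom i j).mem_nhds hi)
  filter_upwards [h5] with p hp
  ext u v
  rw [g.pull_w _ hp]
  rfl

/-- **pull back by a smooth map** -/
theorem pull (h : HolF B a b) (hB : IsOpen B) (g : SMap C' C) :
    HolF B (fun c => g.pull (a c)) (fun c => g.pull (b c)) where
  sa := smooth_pull g hB h.sa
  sb := smooth_pull g hB h.sb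
  hol j c hc z hz u v := by
    obtain ⟨i, hi⟩ := g.exists_dom hz
    refine (h.hol i c hc _ (g.loc_mem hi) (fderiv ℝ (loc C C' g.f i j) z u)
      (fderiv ℝ (loc C C' g.f i j) z v)).congr_of_eventuallyEq ?_
    refine Eventually.of_forall fun c' => ?_
    simp only [g.pull_w _ hi]

section tt

variable [FiniteDimensional ℝ V] [MeasurableSpace V] [BorelSpace V] (μ : Measure V)
  [μ.IsAddHaarMeasure] [CompactSpace X] {K : Type} [Fintype K] [DecidableEq K]

theorem tp_update (bs : K × Fin 2 → V) (w : K → F2 C) (k : K) (x : F2 C) (i : C.ι) (z : V) :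
    TP bs (fun k' => (Function.update w k x k').w i z) =
      ∑ σ : Equiv.Perm (K × Fin 2), (((Equiv.Perm.sign σ : ℤ) : ℝ) *
        ∏ k' ∈ Finset.univ.erase k, (w k').w i z (bs (σ (k', 0))) (bs (σ (k', 1)))) *
          x.w i z (bs (σ (k, 0))) (bs (σ (k, 1))) := by
  unfold TP
  refine Finset.sum_congr rfl fun σ _ => ?_
  rw [← Finset.mul_prod_erase Finset.univ _ (Finset.mem_univ k)]
  simp only [Function.update_self]
  have e : ∏ k' ∈ Finset.univ.erase k, (Function.update w k x k').w i z (bs (σ (k', 0)))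
      (bs (σ (k', 1))) = ∏ k' ∈ Finset.univ.erase k, (w k').w i z (bs (σ (k', 0)))
      (bs (σ (k', 1))) := by
    refine Finset.prod_congr rfl fun k' hk' => ?_
    rw [Function.update_of_ne (Finset.ne_of_mem_erase hk')]
  rw [e]
  ring

/-- **integrals are holomorphic** -/
theorem tt (h : HolF B a b) (hB : IsOpen B) (bs : Module.Basis (K × Fin 2) ℝ V) (P : RPart C)
    (w : K → F2 C) (k : K) {c : E} (hc : c ∈ B) :
    DifferentiableAt ℂ (fun c => ((IM μ bs P (Function.update w k (a c)) : ℝ) : ℂ) +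
      ((IM μ bs P (Function.update w k (b c)) : ℝ) : ℂ) * I) c := by
  -- the integrand
  let L : (E → F2 C) → P.σ → E × V → ℝ := fun a κ p =>
    P.ψ κ ((C.e (P.c κ)).symm p.2) *
      TP bs (fun k' => (Function.update w k (a p.1) k').w (P.c κ) p.2)
  have hL : ∀ a : E → F2 C,
      (∀ i, ContDiffOn ℝ ∞ (fun p : E × V => (a p.1).w i p.2) (B ×ˢ (C.e i).target)) →
      ∀ κ, ContDiffOn ℝ ∞ (L a κ) (B ×ˢ (C.e (P.c κ)).target) := by
    intro a ha κ
    have h1 : ContDiffOn ℝ ∞ (fun p : E × V => P.ψ κ ((C.e (P.c κ)).symm p.2))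
        (B ×ˢ (C.e (P.c κ)).target) :=
      (P.sm κ (P.c κ)).comp contDiffOn_snd fun p hp => hp.2
    refine h1.mul ?_
    unfold TP
    refine ContDiffOn.sum fun σ _ => contDiffOn_const.mul (contDiffOn_prod fun k' _ => ?_)
    by_cases hk : k' = k
    · subst hk
      simp only [Function.update_self]
      exact ((ha (P.c κ)).clm_apply contDiffOn_const).clm_apply contDiffOn_const
    · simp only [Function.update_of_ne hk]
      have h2 : ContDiffOn ℝ ∞ (fun p : E × V => (w k').w (P.c κ) p.2)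
          (B ×ˢ (C.e (P.c κ)).target) :=
        ((w k').sm (P.c κ)).comp contDiffOn_snd fun p hp => hp.2
      exact (h2.clm_apply contDiffOn_const).clm_apply contDiffOn_const
  let Kc : P.σ → Set V := fun κ => C.e (P.c κ) '' tsupport (P.ψ κ)
  have hKc : ∀ κ, IsCompact (Kc κ) := fun κ =>
    ((isClosed_tsupport _).isCompact).image_of_continuousOn
      ((C.e (P.c κ)).continuousOn.mono (P.sub κ))
  have hKs : ∀ κ, Kc κ ⊆ (C.e (P.c κ)).target := by
    rintro κ _ ⟨x, hx, rfl⟩
    exact (C.e (P.c κ)).map_source (P.sub κ hx)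
  -- the integral as a sum of integrals over compact sets
  have hint : ∀ a : E → F2 C, ∀ c, IM μ bs P (Function.update w k (a c)) =
      ∑ κ, ∫ z in Kc κ, L a κ (c, z) ∂μ := by
    intro a c
    show ∑ κ, ∫ z in (C.e (P.c κ)).target, L a κ (c, z) ∂μ = _
    refine Finset.sum_congr rfl fun κ _ => ?_
    refine setIntegral_eq_of_subset_of_forall_sdiff_eq_zero (f := fun z => L a κ (c, z))
      (C.e (P.c κ)).open_target.measurableSet (hKs κ) fun z hz => ?_
    have h1 : (C.e (P.c κ)).symm z ∉ tsupport (P.ψ κ) := fun h =>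
      hz.2 ⟨_, h, (C.e (P.c κ)).right_inv hz.1⟩
    show P.ψ κ ((C.e (P.c κ)).symm z) * _ = 0
    rw [psi_zero P κ h1, zero_mul]
  -- the complex integrand
  let G : P.σ → E × V → ℂ := fun κ p => (L a κ p : ℂ) + (L b κ p : ℂ) * I
  have hG : ∀ κ, ContDiffOn ℝ ∞ (G κ) (B ×ˢ (C.e (P.c κ)).target) := fun κ =>
    (ofRealCLM.contDiff.comp_contDiffOn (hL a h.sa κ)).add
      ((ofRealCLM.contDiff.comp_contDiffOn (hL b h.sb κ)).mul contDiffOn_const)
  have hGh : ∀ κ, ∀ c ∈ B, ∀ z ∈ Kc κ, DifferentiableAt ℂ (fun c => G κ (c, z)) c := by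
    intro κ c hc z hz
    have e1 : (fun c => G κ (c, z)) = fun c => (P.ψ κ ((C.e (P.c κ)).symm z) : ℂ) *
        ∑ σ : Equiv.Perm (K × Fin 2), ((((Equiv.Perm.sign σ : ℤ) : ℝ) *
          ∏ k' ∈ Finset.univ.erase k, (w k').w (P.c κ) z (bs (σ (k', 0))) (bs (σ (k', 1))) :
            ℝ) : ℂ) * ((((a c).w (P.c κ) z (bs (σ (k, 0))) (bs (σ (k, 1))) : ℝ) : ℂ) +
              (((b c).w (P.c κ) z (bs (σ (k, 0))) (bs (σ (k, 1))) : ℝ) : ℂ) * I) := by
      funext c'
      simp only [G, L, tp_update]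
      rw [ofReal_mul, ofReal_mul, ofReal_sum, ofReal_sum, mul_assoc, Finset.sum_mul, ← mul_add,
        ← Finset.sum_add_distrib]
      congr 1
      refine Finset.sum_congr rfl fun σ _ => ?_
      push_cast
      ring
    rw [e1]
    refine (DifferentiableAt.fun_sum fun σ _ => ?_).const_mul _
    exact (h.hol (P.c κ) c hc z (hKs κ hz) _ _).const_mul _
  have hcont : ∀ a : E → F2 C,
      (∀ i, ContDiffOn ℝ ∞ (fun p : E × V => (a p.1).w i p.2) (B ×ˢ (C.e i).target)) →
      ∀ κ, ∀ c ∈ B, IntegrableOn (fun z => (L a κ (c, z) : ℂ)) (Kc κ) μ := by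
    intro a ha κ c hc
    have h1 : ContinuousOn (fun z => L a κ (c, z)) (Kc κ) :=
      (hL a ha κ).continuousOn.comp (by fun_prop) fun z hz => ⟨hc, hKs κ hz⟩
    exact (Complex.continuous_ofReal.comp_continuousOn h1).integrableOn_compact (hKc κ)
  have e2 : (fun c => ((IM μ bs P (Function.update w k (a c)) : ℝ) : ℂ) +
      ((IM μ bs P (Function.update w k (b c)) : ℝ) : ℂ) * I) =ᶠ[𝓝 c]
      fun c => ∑ κ, ∫ z in Kc κ, G κ (c, z) ∂μ := by
    filter_upwards [hB.mem_nhds hc] with c' hc'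
    rw [hint, hint, ofReal_sum, ofReal_sum, Finset.sum_mul, ← Finset.sum_add_distrib]
    refine Finset.sum_congr rfl fun κ _ => ?_
    rw [← integral_complex_ofReal, ← integral_complex_ofReal, ← integral_mul_const, ← integral_add]
    · exact hcont a h.sa κ c' hc'
    · exact (hcont b h.sb κ c' hc').mul_const I
  refine DifferentiableAt.congr_of_eventuallyEq ?_ e2
  exact DifferentiableAt.fun_sum fun κ _ =>
    hol_int μ hB (C.e (P.c κ)).open_target (hKc κ) (hKs κ) (hG κ) (hGh κ) hc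

end tt

/-- linear functionals that are holomorphic along the family -/
def lin (_h : HolF B a b) : Submodule ℝ (F2 C →ₗ[ℝ] ℝ) where
  carrier := {l | ∀ c ∈ B, DifferentiableAt ℂ (fun c => ((l (a c) : ℝ) : ℂ) + (l (b c) : ℂ) * I) c}
  zero_mem' c _ := by simp
  add_mem' {l l'} hl hl' c hc := by
    have h1 := (hl c hc).add (hl' c hc)
    refine h1.congr_of_eventuallyEq (Eventually.of_forall fun c' => ?_)
    simp only [LinearMap.add_apply, ofReal_add, Pi.add_apply]
    ring
  smul_mem' r l hl c hc := by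
    have h1 := (hl c hc).const_mul (r : ℂ)
    refine h1.congr_of_eventuallyEq (Eventually.of_forall fun c' => ?_)
    simp only [LinearMap.smul_apply, smul_eq_mul, ofReal_mul]
    ring


section qf

variable [FiniteDimensional ℝ V] [MeasurableSpace V] [BorelSpace V] (μ : Measure V)
  [μ.IsAddHaarMeasure] [CompactSpace X] {N : ℕ} (bs : Module.Basis (Fin N × Fin 2) ℝ V)
  (P : RPart C)




end qf

end HolF

end HolF

end

end Crest.Agent.R281.Phl_655
namespace Crest.Agent.R281.Phl_655.CF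
end Crest.Agent.R281.Phl_655.CF
end

-- ▼ part R281/Phl5_655

/-!
# R281 (S0424), PER-HOL, part 5 (helper655): constant classes, the Fubini-Study form

* `coh_const`  : for a parameter free cone `K` and `τ : B1 K` the class of the pull back of `τ` by
                 a family with values in `K` is constant (preconnected parameter set)
* `B1.ofPrim`, `B1.comap`
* `fs`, `FS : B1 {x ≠ 0}` on an inner product space, `fs_pos`
-/

set_option autoImplicit false
set_option linter.unusedSectionVars false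
set_option synthInstance.maxHeartbeats 100000

open Set Filter Topology Complex MeasureTheory
open scoped ContDiff

namespace Crest.Agent.R281.Phl_655

open Crest.Agent.R281.HkR_835 Crest.Agent.R281.Ehr2_268
open Crest.Agent.R281.Dif_268

noncomputable section

variable {V X : Type} [NormedAddCommGroup V] [NormedSpace ℝ V] [TopologicalSpace X]
variable {E : Type} [NormedAddCommGroup E] [NormedSpace ℂ E]
variable {H : Type} [NormedAddCommGroup H] [NormedSpace ℂ H]
variable {C : RCh V X} {B : Set E}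

/-! ### constancy of the classes -/

/-- the family along a path, as a map of `ℝ × X` -/
def PFam.path (F : PFam C H B) {γ : ℝ → E} (hγ : ContDiff ℝ ∞ γ) (hB : ∀ s, γ s ∈ B) :
    PFam (prodR C) H (univ : Set ℂ) where
  op := isOpen_univ
  u i _ p := F.u i (γ p.1) p.2
  ne i _ _ p hp := F.ne i _ (hB _) _ ((prodR_target (C := C) i p).mp hp)
  tr i j _ _ p hp := by
    have h1 : p.2 ∈ C.ov i j := by
      refine ⟨(prodR_target (C := C) i p).mp hp.1, ?_⟩
      have h2 : ((prodR C).e i).symm p ∈ ((prodR C).e j).source := hp.2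
      exact (prodR_source (C := C) j _).mp h2
    obtain ⟨a, ha⟩ := F.tr i j (γ p.1) (hB _) p.2 h1
    exact ⟨a, ha⟩
  loc i c _ p hp := by
    obtain ⟨U, hU⟩ := F.loc i (γ p.1) (hB _) p.2 ((prodR_target (C := C) i p).mp hp)
    refine ⟨fun q => U (γ q.2.1, q.2.2), ?_⟩
    have h1 : ContDiff ℝ ∞ (fun q : ℂ × (ℝ × V) => (γ q.2.1, q.2.2)) :=
      (hγ.comp (contDiff_fst.comp contDiff_snd)).prodMk (contDiff_snd.comp contDiff_snd)
    have h2 : Tendsto (fun q : ℂ × (ℝ × V) => (γ q.2.1, q.2.2)) (𝓝 (c, p))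
        (𝓝 (γ p.1, p.2)) := h1.continuous.continuousAt
    filter_upwards [h2.eventually hU] with q hq
    obtain ⟨h3, h4, -⟩ := hq
    exact ⟨ContDiffAt.comp (f := fun q : ℂ × (ℝ × V) => (γ q.2.1, q.2.2)) (g := U) q h3
      h1.contDiffAt, h4, differentiableAt_const _⟩

theorem coh_path {K : Set H} (τ : B1 K) (hK : Co K) (F : PFam C H B)
    (hF : F.In {p : E × H | p.2 ∈ K}) {γ : ℝ → E} (hγ : ContDiff ℝ ∞ γ) (hB : ∀ s, γ s ∈ B) :
    Coh ((τ.bf E).pull F (hK.cn E) hF (hB 1)) ((τ.bf E).pull F (hK.cn E) hF (hB 0)) := by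
  have hF' : (F.path hγ hB).In {p : ℂ × H | p.2 ∈ K} := fun i _ _ p hp =>
    hF i (γ p.1) (hB _) p.2 ((prodR_target (C := C) i p).mp hp)
  have key : ∀ s, Eqv ((τ.bf E).pull F (hK.cn E) hF (hB s))
      ((slice C s).pull ((τ.bf ℂ).pull (F.path hγ hB) (hK.cn ℂ) hF' (mem_univ (0 : ℂ)))) := by
    intro s
    refine pull_nat (slice C s) (τ.bf ℂ) (τ.bf E) (hK.cn ℂ) (hK.cn E) hF' hF (mem_univ (0 : ℂ))
      (hB s) (fun i j z hz => ?_) (fun _ _ _ _ _ _ _ _ _ => rfl)
    have h1 : z ∈ C.ov j i := ⟨hz.1, (prodR_source (C := C) i _).mp hz.2⟩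
    obtain ⟨a, ha⟩ := F.tr j i (γ s) (hB s) z h1
    have ha0 : a ≠ 0 := by
      rintro rfl
      rw [zero_smul] at ha
      exact F.ne j (γ s) (hB s) z h1.1 ha
    exact ⟨a, ha0, ha⟩
  exact ((key 1).coh.trans (coh_slice _)).trans (key 0).symm.coh

/-- **the class is constant** -/
theorem coh_const {K : Set H} (τ : B1 K) (hK : Co K) (F : PFam C H B)
    (hF : F.In {p : E × H | p.2 ∈ K}) (hconn : IsPreconnected B) {c c' : E} (hc : c ∈ B)
    (hc' : c' ∈ B) :
    Coh ((τ.bf E).pull F (hK.cn E) hF hc) ((τ.bf E).pull F (hK.cn E) hF hc') := by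
  rw [← pl_eq (hK.cn E) hF _ hc, ← pl_eq (hK.cn E) hF _ hc']
  refine hconn.induction₂ (fun c c' => Coh ((τ.bf E).pl F (hK.cn E) hF c)
    ((τ.bf E).pl F (hK.cn E) hF c')) (fun x hx => ?_)
    (fun _ _ _ _ _ _ h h' => h.trans h') (fun _ _ _ _ h => h.symm) hc hc'
  obtain ⟨ε, hε, hball⟩ := Metric.isOpen_iff.mp F.op x hx
  filter_upwards [mem_nhdsWithin_of_mem_nhds (Metric.ball_mem_nhds x hε)] with y hy
  let χ : ℝ → ℝ := Real.smoothTransition
  let γ : ℝ → E := fun s => x + χ s • (y - x)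
  have hγs : ContDiff ℝ ∞ γ := by
    have h : ContDiff ℝ ∞ χ := Real.smoothTransition.contDiff
    exact contDiff_const.add (h.smul contDiff_const)
  have hγ0 : γ 0 = x := by simp [γ, χ, Real.smoothTransition.zero]
  have hγ1 : γ 1 = y := by simp [γ, χ, Real.smoothTransition.one]
  have hγb : ∀ s, γ s ∈ B := by
    intro s
    apply hball
    rw [mem_ball_iff_norm]
    have e1 : γ s - x = χ s • (y - x) := by simp [γ]
    rw [e1, norm_smul, Real.norm_of_nonneg (Real.smoothTransition.nonneg s)]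
    rw [mem_ball_iff_norm] at hy
    have e2 : χ s ≤ 1 := Real.smoothTransition.le_one s
    calc χ s * ‖y - x‖ ≤ 1 * ‖y - x‖ :=
          mul_le_mul_of_nonneg_right e2 (norm_nonneg _)
      _ < ε := by rw [one_mul]; exact hy
  have h1 := coh_path τ hK F hF hγs hγb
  rw [← pl_eq (hK.cn E) hF _ (hγb 1), ← pl_eq (hK.cn E) hF _ (hγb 0), hγ0, hγ1] at h1
  exact h1.symm

/-! ### constructors of forms on cones -/

/-- a form given by a primitive -/
def B1.ofPrim {K : Set H} (α : H → H →L[ℝ] ℝ) (hα : ∀ x ∈ K, ∀ᶠ y in 𝓝 x, ContDiffAt ℝ ∞ α y)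
    (hb : ∀ x ∈ K, ∀ a : ℂ, a ≠ 0 → ∀ (b b' : ℂ) (u v : H),
      fderiv ℝ α (a • x) (a • u + b • x) (a • v + b' • x) -
        fderiv ℝ α (a • x) (a • v + b' • x) (a • u + b • x) =
      fderiv ℝ α x u v - fderiv ℝ α x v u) : B1 K where
  sg x u v := fderiv ℝ α x u v - fderiv ℝ α x v u
  loc x hx := by
    have h2 : ContDiff ℝ ∞ (fun T : H →L[ℝ] H →L[ℝ] ℝ => T - T.flip) := by
      have : (fun T : H →L[ℝ] H →L[ℝ] ℝ => T - T.flip) =
        fun T => T - ContinuousLinearMap.flipₗᵢ ℝ H H ℝ T := rfl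
      rw [this]
      fun_prop
    have hsm : ∀ y, ContDiffAt ℝ ∞ α y →
        ContDiffAt ℝ ∞ (fun y => fderiv ℝ α y - (fderiv ℝ α y).flip) y := by
      intro y hy
      have h1 : ContDiffAt ℝ ∞ (fderiv ℝ α) y := hy.fderiv_right (m := ∞) (by simp)
      exact ContDiffAt.comp (f := fderiv ℝ α) (g := fun T => T - T.flip) y h2.contDiffAt h1
    refine ⟨fun y => fderiv ℝ α y - (fderiv ℝ α y).flip, ?_, ?_⟩
    · filter_upwards [hα x hx] with y hy
      refine ⟨hsm y hy, fun _ => ⟨fun u v => ?_, fun u v _ _ => rfl⟩⟩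
      simp only [sub_apply, ContinuousLinearMap.flip_apply]
      ring
    · intro a b c _ _ _
      have h0 := (hα x hx).self_of_nhds
      have h1 : DifferentiableAt ℝ (fderiv ℝ α) x :=
        (h0.fderiv_right (m := ∞) (by simp)).differentiableAt (by simp)
      have hs : ∀ p q, fderiv ℝ (fderiv ℝ α) x p q = fderiv ℝ (fderiv ℝ α) x q p := fun p q =>
        (h0.of_le (m := 2) two_le).isSymmSndFDerivAt (by simp) p q
      have h3 : ∀ p q r, fderiv ℝ (fun y => fderiv ℝ α y - (fderiv ℝ α y).flip) x p q r =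
          fderiv ℝ (fderiv ℝ α) x p q r - fderiv ℝ (fderiv ℝ α) x p r q := by
        intro p q r
        have g1 : HasFDerivAt (fun y => fderiv ℝ α y q) _ x :=
          h1.hasFDerivAt.clm_apply (hasFDerivAt_const q x)
        have g2 : HasFDerivAt (fun y => fderiv ℝ α y r) _ x :=
          h1.hasFDerivAt.clm_apply (hasFDerivAt_const r x)
        have g3 := (g1.clm_apply (hasFDerivAt_const r x)).sub
          (g2.clm_apply (hasFDerivAt_const q x))
        have g4 : DifferentiableAt ℝ (fun y => fderiv ℝ α y - (fderiv ℝ α y).flip) x :=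
          (hsm x h0).differentiableAt (by simp)
        rw [← fderiv_app g4]
        have g5 : (fun y => (fderiv ℝ α y - (fderiv ℝ α y).flip) q r) =
          (fun y => fderiv ℝ α y q r) - fun y => fderiv ℝ α y r q := rfl
        rw [g5, g3.fderiv]
        simp
      rw [h3, h3, h3, hs a b, hs b c, hs a c]
      ring
  bas x hx a ha b b' u v _ _ := hb x hx a ha b b' u v

/-- linear pull back of a form -/
def B1.comap {G : Type} [NormedAddCommGroup G] [NormedSpace ℂ G] {K' : Set G} (τ : B1 K')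
    (T : H →L[ℂ] G) {K : Set H} (hT : ∀ x ∈ K, T x ∈ K') : B1 K where
  sg x u v := τ.sg (T x) (T u) (T v)
  loc x hx := by
    obtain ⟨Sg, h1, h2⟩ := τ.loc (T x) (hT x hx)
    have hv : ∀ y u, V1 K y u → V1 K' (T y) (T u) := by
      rintro y u ⟨γ, g0, g1, g2⟩
      refine ⟨fun t => T (γ t), by simp only [g0], ?_, g2.mono fun t ht => hT _ ht⟩
      exact (T.restrictScalars ℝ).hasFDerivAt.comp_hasDerivAt (0 : ℝ) g1
    refine ⟨fun y => ((ContinuousLinearMap.compL ℝ H G ℝ).flip (T.restrictScalars ℝ)).comp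
      ((Sg (T y)).comp (T.restrictScalars ℝ)), ?_, ?_⟩
    · filter_upwards [T.continuous.continuousAt.eventually h1] with y hy
      refine ⟨?_, fun hyK => ⟨fun u v => ?_, fun u v hu hv' => ?_⟩⟩
      · have h3 : ContDiffAt ℝ ∞ (fun y => Sg (T y)) y :=
          ContDiffAt.comp (f := fun y => T y) (g := Sg) y hy.1
            (T.restrictScalars ℝ).contDiff.contDiffAt
        exact contDiffAt_const.clm_comp (h3.clm_comp contDiffAt_const)
      · exact (hy.2 (hT y hyK)).1 (T u) (T v)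
      · exact (hy.2 (hT y hyK)).2 (T u) (T v) (hv y u hu) (hv y v hv')
    · intro u v w hu hv' hw
      have h3 : HasFDerivAt (fun y => Sg (T y))
          ((fderiv ℝ Sg (T x)).comp (T.restrictScalars ℝ)) x :=
        HasFDerivAt.comp (f := fun y => T y) (g := Sg) x
          (h1.self_of_nhds.1.differentiableAt (by simp)).hasFDerivAt
          (T.restrictScalars ℝ).hasFDerivAt
      have h4 := (hasFDerivAt_const ((ContinuousLinearMap.compL ℝ H G ℝ).flip
        (T.restrictScalars ℝ)) x).clm_comp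
          (h3.clm_comp (hasFDerivAt_const (T.restrictScalars ℝ) x))
      have h5 : ∀ a b c, fderiv ℝ (fun y => ((ContinuousLinearMap.compL ℝ H G ℝ).flip
          (T.restrictScalars ℝ)).comp ((Sg (T y)).comp (T.restrictScalars ℝ))) x a b c =
          fderiv ℝ Sg (T x) (T a) (T b) (T c) := by
        intro a b c
        rw [h4.fderiv]
        simp
      rw [h5, h5, h5]
      exact h2 _ _ _ (hv x u hu) (hv x v hv') (hv x w hw)
  bas x hx a ha b b' u v hu hv := by
    have h1 : ∀ y u, V1 K y u → V1 K' (T y) (T u) := by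
      rintro y u ⟨γ, g0, g1, g2⟩
      refine ⟨fun t => T (γ t), by simp only [g0], ?_, g2.mono fun t ht => hT _ ht⟩
      exact (T.restrictScalars ℝ).hasFDerivAt.comp_hasDerivAt (0 : ℝ) g1
    simp only [map_add, map_smul]
    exact τ.bas (T x) (hT x hx) a ha b b' _ _ (h1 x u hu) (h1 x v hv)

/-! ### the Fubini-Study form -/

section FS

open scoped InnerProductSpace

variable {G : Type} [NormedAddCommGroup G] [InnerProductSpace ℂ G]

/-- `Re ⟨x, v⟩` -/
def reB (G : Type) [NormedAddCommGroup G] [InnerProductSpace ℂ G] : G →L[ℝ] G →L[ℝ] ℝ :=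
  LinearMap.mkContinuous₂ (LinearMap.mk₂ ℝ (fun x v : G => (⟪x, v⟫_ℂ).re)
    (fun x y v => by rw [inner_add_left, add_re])
    (fun r x v => by
      have : r • x = (r : ℂ) • x := rfl
      rw [this, inner_smul_left, conj_ofReal, re_ofReal_mul, smul_eq_mul])
    (fun x v w => by rw [inner_add_right, add_re])
    (fun r x v => by
      have : r • v = (r : ℂ) • v := rfl
      rw [this, inner_smul_right, re_ofReal_mul, smul_eq_mul])) 1 (fun x v => by
      rw [one_mul, LinearMap.mk₂_apply, Real.norm_eq_abs]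
      exact (abs_re_le_norm _).trans (norm_inner_le_norm x v))

/-- `Im ⟨x, v⟩` -/
def imB (G : Type) [NormedAddCommGroup G] [InnerProductSpace ℂ G] : G →L[ℝ] G →L[ℝ] ℝ :=
  LinearMap.mkContinuous₂ (LinearMap.mk₂ ℝ (fun x v : G => (⟪x, v⟫_ℂ).im)
    (fun x y v => by rw [inner_add_left, add_im])
    (fun r x v => by
      have : r • x = (r : ℂ) • x := rfl
      rw [this, inner_smul_left, conj_ofReal, im_ofReal_mul, smul_eq_mul])
    (fun x v w => by rw [inner_add_right, add_im])
    (fun r x v => by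
      have : r • v = (r : ℂ) • v := rfl
      rw [this, inner_smul_right, im_ofReal_mul, smul_eq_mul])) 1 (fun x v => by
      rw [one_mul, LinearMap.mk₂_apply, Real.norm_eq_abs]
      exact (abs_im_le_norm _).trans (norm_inner_le_norm x v))

@[simp] theorem reB_apply (x v : G) : reB G x v = (⟪x, v⟫_ℂ).re := rfl
@[simp] theorem imB_apply (x v : G) : imB G x v = (⟪x, v⟫_ℂ).im := rfl

/-- the Fubini-Study form on the cone -/
def fs (x v w : G) : ℝ :=
  (⟪v, w⟫_ℂ).im / ‖x‖ ^ 2 - (⟪v, x⟫_ℂ * ⟪x, w⟫_ℂ).im / ‖x‖ ^ 4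

/-- its primitive -/
def fsa (x : G) : G →L[ℝ] ℝ := (2 * reB G x x)⁻¹ • imB G x

theorem reB_self (x : G) : reB G x x = ‖x‖ ^ 2 := by
  rw [reB_apply, inner_self_eq_norm_sq_to_K]
  norm_cast

theorem fsa_smooth {x : G} (hx : x ≠ 0) : ContDiffAt ℝ ∞ (fsa (G := G)) x := by
  have h1 : ContDiff ℝ ∞ (fun x : G => reB G x x) := by fun_prop
  have h2 : (2 * reB G x x) ≠ 0 := by
    rw [reB_self]
    have := norm_pos_iff.mpr hx
    positivity
  have h3 : ContDiffAt ℝ ∞ (fun x : G => (2 * reB G x x)⁻¹) x :=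
    (contDiffAt_const.mul h1.contDiffAt).inv h2
  exact h3.smul (imB G).contDiff.contDiffAt

theorem im_flip (u v : G) : (⟪v, u⟫_ℂ).im = -(⟪u, v⟫_ℂ).im := by
  rw [← inner_conj_symm, conj_im]

theorem d_fsa {x : G} (hx : x ≠ 0) (u v : G) :
    fderiv ℝ (fsa (G := G)) x u v - fderiv ℝ (fsa (G := G)) x v u = fs x u v := by
  have hn : (0 : ℝ) < ‖x‖ := norm_pos_iff.mpr hx
  have h2 : (2 * reB G x x) ≠ 0 := by
    rw [reB_self]
    positivity
  have h1 : HasFDerivAt (fun x : G => reB G x x)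
      (((reB G) x).comp (ContinuousLinearMap.id ℝ G) + (reB G).flip x) x := by
    have := (reB G).hasFDerivAt.clm_apply (hasFDerivAt_id x)
    exact this
  have h3 := (hasDerivAt_inv h2).comp_hasFDerivAt x (h1.const_mul 2)
  have h4 : HasFDerivAt (fsa (G := G)) _ x := h3.smul (imB G).hasFDerivAt
  have e0 : ∀ u v, fderiv ℝ (fsa (G := G)) x u v = (2 * reB G x x)⁻¹ * imB G u v -
      ((2 * reB G x x) ^ 2)⁻¹ * (2 * (reB G x u + reB G u x)) * imB G x v := by
    intro u v
    rw [h4.fderiv]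
    simp only [Function.comp_apply, add_apply, smul_apply, ContinuousLinearMap.smulRight_apply,
      ContinuousLinearMap.comp_apply, ContinuousLinearMap.flip_apply, smul_eq_mul,
      ContinuousLinearMap.id_apply]
    ring
  have e1 : ∀ u, reB G u x = reB G x u := fun u => by
    rw [reB_apply, reB_apply, ← inner_conj_symm, conj_re]
  have e2 : (⟪u, x⟫_ℂ * ⟪x, v⟫_ℂ).im = reB G x u * imB G x v - imB G x u * reB G x v := by
    rw [mul_im, ← inner_conj_symm u x, conj_re, conj_im]
    simp only [reB_apply, imB_apply]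
    ring
  rw [e0, e0, e1 u, e1 v, reB_self, fs, e2]
  have e3 : imB G v u = -imB G u v := im_flip u v
  rw [e3, imB_apply u v]
  field_simp
  ring

theorem fs_bas {x : G} (hx : x ≠ 0) {a : ℂ} (ha : a ≠ 0) (b b' : ℂ) (u v : G) :
    fs (a • x) (a • u + b • x) (a • v + b' • x) = fs x u v := by
  have hn : (‖x‖ : ℂ) ≠ 0 := by exact_mod_cast (norm_ne_zero_iff.mpr hx)
  have hfs : ∀ x v w : G, fs x v w =
      (⟪v, w⟫_ℂ / (‖x‖ : ℂ) ^ 2 - ⟪v, x⟫_ℂ * ⟪x, w⟫_ℂ / (‖x‖ : ℂ) ^ 4).im := by
    intro x v w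
    rw [sub_im, fs]
    congr 1
    · rw [← ofReal_pow, div_ofReal_im]
    · rw [← ofReal_pow, div_ofReal_im]
  rw [hfs, hfs]
  congr 1
  have hxx : ⟪x, x⟫_ℂ = (‖x‖ : ℂ) ^ 2 := inner_self_eq_norm_sq_to_K x
  have haa : (‖a • x‖ : ℂ) ^ 2 = (starRingEnd ℂ a * a) * (‖x‖ : ℂ) ^ 2 := by
    rw [norm_smul, ofReal_mul, mul_pow, ← ofReal_pow, ← normSq_eq_norm_sq, ← mul_conj]
    ring
  have ha4 : (‖a • x‖ : ℂ) ^ 4 = ((starRingEnd ℂ a * a) * (‖x‖ : ℂ) ^ 2) ^ 2 := by
    rw [← haa]; ring
  have hc : starRingEnd ℂ a ≠ 0 := (map_ne_zero _).mpr ha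
  rw [haa, ha4]
  simp only [inner_add_left, inner_add_right, inner_smul_left, inner_smul_right, hxx]
  field_simp
  ring

/-- **the Fubini-Study form** -/
def FS (G : Type) [NormedAddCommGroup G] [InnerProductSpace ℂ G] : B1 {x : G | x ≠ 0} :=
  B1.ofPrim (fsa (G := G))
    (fun x hx => (isOpen_ne.mem_nhds hx : {y : G | y ≠ 0} ∈ 𝓝 x) |> fun h => by
      filter_upwards [h] with y hy using fsa_smooth hy)
    (fun x hx a ha b b' u v => by
      rw [d_fsa (smul_ne_zero ha hx), d_fsa hx]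
      exact fs_bas hx ha b b' u v)





end FS

end

end Crest.Agent.R281.Phl_655
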