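import Crest.Agent.R281.RkE_902
import Crest.Agent.R281.Pjx1_648
import Crest.Agent.R281.Sta3_684
import Crest.Agent.R260.NN6_900

-- ▼ part R281/Rd1_326
section

/-!
# Row 281, ROADP (helper326), part 1: the Kaehler cone is open in the classes of type (1,1)

* `exists_pos2`, `exists_pos_sum` : positivity is open in finitely many directions
* `pr2`      : projection to the classes orthogonal to `om 1`, `om 2`
* `kcls_near`: classes near a positive multiple of `om 0`, orthogonal to `om 1`, `om 2`, are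
               Kaehler classes for `J 0`
-/

set_option autoImplicit false
set_option linter.unusedSectionVars false
set_option maxSynthPendingDepth 3

open Set Filter Topology
open scoped ContDiff

namespace Crest.Agent.R281.Rd_326

open Crest.Agent.R275.Geo Crest.Agent.R275.Core144
open Crest.Agent.R281.HkR_835 Crest.Agent.R281.Ti_846 Crest.Agent.R281.Cdr_234
open Crest.Agent.R281.Dif_268 Crest.Agent.R281.PL_713
open Crest.Agent.R281.NefO_476 Crest.Agent.R281.Nef_252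
open Crest.Agent.R281.Alg_998 Crest.Agent.R281.RkD_902

noncomputable section

section gen

variable {V X : Type} [NormedAddCommGroup V] [NormedSpace ℝ V] [TopologicalSpace X]
  {C : RCh V X} [FiniteDimensional ℝ V] [CompactSpace X]

/-- positivity is open: one direction -/
theorem exists_pos2 {J : AJ C} {om : F2 C} (h : Pos J om) (y : F2 C) :
    ∃ c : ℝ, 0 < c ∧ ∀ t : ℝ, |t| ≤ c → Pos J (om + t • y) := by
  obtain ⟨c1, h1, hp1⟩ := exists_pos_sub (om := y) h
  obtain ⟨c2, h2, hp2⟩ := exists_pos_sub (om := -y) h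
  refine ⟨min c1 c2, lt_min h1 h2, fun t ht i z hz u hu => ?_⟩
  have e1 := hp1 i z hz u hu
  have e2 := hp2 i z hz u hu
  simp only [F2.add_w, F2.sub_w, F2.smul_w, F2.neg_w, add_apply, sub_apply, smul_apply, neg_apply,
    smul_eq_mul] at e1 e2 ⊢
  obtain ⟨ht1, ht2⟩ := abs_le.1 ht
  have ht3 : -c1 ≤ t := by linarith [min_le_left c1 c2]
  have ht4 : t ≤ c2 := by linarith [min_le_right c1 c2]
  rcases le_total 0 (y.w i z u (J.J i z u)) with hb | hb
  · nlinarith [mul_le_mul_of_nonneg_right ht3 hb]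
  · nlinarith [mul_le_mul_of_nonpos_right ht4 hb]

/-- positivity is open: finitely many directions -/
theorem exists_pos_sum {J : AJ C} {M : ℕ} : ∀ {om : F2 C} (_ : Pos J om) (y : Fin M → F2 C),
    ∃ c : ℝ, 0 < c ∧ ∀ t : Fin M → ℝ, (∀ k, |t k| ≤ c) → Pos J (om + ∑ k, t k • y k) := by
  induction M with
  | zero =>
    intro om h y
    refine ⟨1, one_pos, fun t _ => ?_⟩
    rw [Fin.sum_univ_zero, add_zero]
    exact h
  | succ M ih =>
    intro om h y
    have hh : Pos J ((1 / 2 : ℝ) • om) := Pos.smul (by norm_num) h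
    obtain ⟨c1, h1, hp1⟩ := ih hh fun k => y k.castSucc
    obtain ⟨c2, h2, hp2⟩ := exists_pos2 hh (y (Fin.last M))
    refine ⟨min c1 c2, lt_min h1 h2, fun t ht => ?_⟩
    have e1 := hp1 (fun k => t k.castSucc) fun k => (ht _).trans (min_le_left _ _)
    have e2 := hp2 (t (Fin.last M)) ((ht _).trans (min_le_right _ _))
    have e3 := Pos.add e1 e2
    rw [Fin.sum_univ_castSucc]
    have e4 : (1 / 2 : ℝ) • om + ∑ k : Fin M, t k.castSucc • y k.castSucc +
        ((1 / 2 : ℝ) • om + t (Fin.last M) • y (Fin.last M)) =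
        om + (∑ k : Fin M, t k.castSucc • y k.castSucc + t (Fin.last M) • y (Fin.last M)) := by
      have : om = (1 / 2 : ℝ) • om + (1 / 2 : ℝ) • om := by
        rw [← add_smul]; norm_num
      conv_rhs => rw [this]
      abel
    rwa [e4] at e3

theorem T11.sum {J : AJ C} {M : ℕ} {y : Fin M → F2 C} (h : ∀ k, T11 J (y k)) (t : Fin M → ℝ) :
    T11 J (∑ k, t k • y k) := by
  induction M with
  | zero =>
    rw [Fin.sum_univ_zero]
    intro i z hz u v
    rfl
  | succ M ih =>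
    rw [Fin.sum_univ_castSucc]
    exact (ih (fun k => h k.castSucc) fun k => t k.castSucc).add ((h _).smul _)

theorem cl_sum {M : ℕ} {y y' : Fin M → F2 C} (h : ∀ k, Cl (y k) (y' k)) (t : Fin M → ℝ) :
    Cl (∑ k, t k • y k) (∑ k, t k • y' k) := by
  induction M with
  | zero =>
    rw [Fin.sum_univ_zero, Fin.sum_univ_zero]
    exact Cl.refl _
  | succ M ih =>
    rw [Fin.sum_univ_castSucc, Fin.sum_univ_castSucc]
    exact (ih (fun k => h k.castSucc) fun k => t k.castSucc).add ((h _).smul _)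

/-- projection to the classes orthogonal to `om 1`, `om 2` -/
def pr2 (Q : F2 C →ₗ[ℝ] F2 C →ₗ[ℝ] ℝ) (H : HkT C) (x : F2 C) : F2 C :=
  x - (Q x (H.om 1) / Q (H.om 0) (H.om 0)) • H.om 1 -
    (Q x (H.om 2) / Q (H.om 0) (H.om 0)) • H.om 2

/-- the projection as a linear map -/
def pr2L (Q : F2 C →ₗ[ℝ] F2 C →ₗ[ℝ] ℝ) (H : HkT C) : F2 C →ₗ[ℝ] F2 C where
  toFun := pr2 Q H
  map_add' x y := by
    simp only [pr2, map_add, LinearMap.add_apply, add_div]
    module
  map_smul' c x := by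
    simp only [pr2, map_smul, LinearMap.smul_apply, smul_eq_mul, RingHom.id_apply, mul_div_assoc]
    module

theorem pr2_sum (Q : F2 C →ₗ[ℝ] F2 C →ₗ[ℝ] ℝ) (H : HkT C) {M : ℕ} (b : Fin M → F2 C)
    (t : Fin M → ℝ) : ∑ k, t k • pr2 Q H (b k) = pr2 Q H (lco b t) := by
  have h : pr2L Q H (lco b t) = ∑ k, t k • pr2L Q H (b k) := by
    rw [lco, map_sum]
    exact Finset.sum_congr rfl fun k _ => by rw [map_smul]
  exact h.symm

end gen

section ctx

variable {n : ℕ} {X : Type} [TopologicalSpace X] [CompactSpace X] {C : RCh (Cn (2 * n)) X}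
  {Q : F2 C →ₗ[ℝ] F2 C →ₗ[ℝ] ℝ}

/-- **the Kaehler cone is open** -/
theorem kcls_near (hc : Ctx n C Q) {H : HkT C} (hp : 0 < Q (H.om 0) (H.om 0)) {M : ℕ}
    (b : Fin M → F2 C) {p : ℝ} (hp0 : 0 < p) :
    ∃ δ : ℝ, 0 < δ ∧ ∀ t : Fin M → ℝ, (∀ k, |t k| ≤ δ) → Q (lco b t) (H.om 1) = 0 →
      Q (lco b t) (H.om 2) = 0 → KCls (ofHk H 0) (p • H.om 0 + lco b t) := by
  have h11 : Q (H.om 1) (H.om 1) = Q (H.om 0) (H.om 0) := hc.eq H 1
  have h22 : Q (H.om 2) (H.om 2) = Q (H.om 0) (H.om 0) := hc.eq H 2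
  have h12 : Q (H.om 1) (H.om 2) = 0 := hc.ort H 1 2 (by decide)
  have h21 : Q (H.om 2) (H.om 1) = 0 := hc.ort H 2 1 (by decide)
  have hy : ∀ k, ∃ y, Cl y (pr2 Q H (b k)) ∧ T11 (ofHk H 0) y := by
    intro k
    refine hc.t11 H hp _ ?_ ?_
    · simp only [pr2, map_sub, map_smul, LinearMap.sub_apply, LinearMap.smul_apply, smul_eq_mul,
        h11, h21]
      field_simp
      ring
    · simp only [pr2, map_sub, map_smul, LinearMap.sub_apply, LinearMap.smul_apply, smul_eq_mul,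
        h22, h12]
      field_simp
      ring
  choose y hy1 hy2 using hy
  have hpos : Pos (ofHk H 0) (p • H.om 0) := Pos.smul hp0 (Pos_hk H 0)
  obtain ⟨δ, hδ, hP⟩ := exists_pos_sum hpos y
  refine ⟨δ, hδ, fun t ht e1 e2 => ?_⟩
  have h1 := KCls.of ((((T11_hk H 0).smul p)).add (T11.sum hy2 t)) (hP t ht)
  refine h1.congr ?_
  have h2 : Cl (∑ k, t k • y k) (lco b t) := by
    refine (cl_sum hy1 t).trans ?_
    rw [pr2_sum]
    have : pr2 Q H (lco b t) = lco b t := by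
      simp only [pr2, e1, e2, zero_div, zero_smul, sub_zero]
    rw [this]
    exact Cl.refl _
  exact (Cl.refl (p • H.om 0)).add h2

end ctx

end

end Crest.Agent.R281.Rd_326
end

-- ▼ part R281/Rd2_326
section

/-!
# Row 281, ROADP (helper326), part 2: rational choices

* `lco_add`, ...        : linear combinations
* `continuous_q1`, `q2` : continuity in coordinates
* `exists_rat2`         : rational `a`, `c` near `b0`, `c0` with `Q(a, c) = 0`
* `EVA Q e v A`         : `e` isotropic, `v`, `A` positive, pairwise orthogonal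
* `w1`, `es`, `EVA.frm` : the frame of a class `w` with `Q(w, e) ≠ 0`
* `esC`                 : `es` in coordinates
-/

set_option autoImplicit false
set_option linter.unusedSectionVars false
set_option maxSynthPendingDepth 3

open Set Filter Topology
open scoped ContDiff

namespace Crest.Agent.R281.Rd_326

open Crest.Agent.R275.Geo Crest.Agent.R275.Core144
open Crest.Agent.R281.HkR_835 Crest.Agent.R281.Ti_846 Crest.Agent.R281.Cdr_234
open Crest.Agent.R281.Dif_268 Crest.Agent.R281.PL_713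
open Crest.Agent.R281.NefO_476 Crest.Agent.R281.Nef_252
open Crest.Agent.R281.Alg_998 Crest.Agent.R281.RkD_902

noncomputable section

variable {V X : Type} [NormedAddCommGroup V] [NormedSpace ℝ V] [TopologicalSpace X]
  {C : RCh V X} {Q : F2 C →ₗ[ℝ] F2 C →ₗ[ℝ] ℝ}

theorem cl_sub {a a' b b' : F2 C} (h : Cl a a') (h' : Cl b b') : Cl (a - b) (a' - b') := by
  have h1 : Ex ((a - a') - (b - b')) := Ex.sub h h'
  unfold Cl
  rwa [show a - b - (a' - b') = (a - a') - (b - b') by abel]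

/-! ### linear combinations -/

section lin

variable {m m' : ℕ} (bas : Fin m → F2 C) (bas' : Fin m' → F2 C)

/-- linear combinations as a linear map -/
def lcoL : (Fin m → ℝ) →ₗ[ℝ] F2 C := Fintype.linearCombination ℝ bas


theorem lco_add (t s : Fin m → ℝ) : lco bas (t + s) = lco bas t + lco bas s :=
  map_add (lcoL bas) t s

theorem lco_sub (t s : Fin m → ℝ) : lco bas (t - s) = lco bas t - lco bas s :=
  map_sub (lcoL bas) t s

theorem lco_smul (r : ℝ) (t : Fin m → ℝ) : lco bas (r • t) = r • lco bas t :=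
  map_smul (lcoL bas) r t

theorem q_lco (t : Fin m → ℝ) (y : F2 C) : Q (lco bas t) y = ∑ k, t k * Q (bas k) y := by
  unfold lco
  simp only [map_sum, map_smul, LinearMap.sum_apply, LinearMap.smul_apply, smul_eq_mul]

theorem q_lco' (t : Fin m → ℝ) (y : F2 C) : Q y (lco bas t) = ∑ k, t k * Q y (bas k) := by
  unfold lco
  simp only [map_sum, map_smul, smul_eq_mul]

theorem continuous_q1 (y : F2 C) : Continuous fun t : Fin m → ℝ => Q (lco bas t) y := by
  simp only [q_lco]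
  exact continuous_finsetSum _ fun k _ => (continuous_apply k).mul continuous_const

theorem continuous_q2 : Continuous fun p : (Fin m → ℝ) × (Fin m' → ℝ) =>
    Q (lco bas p.1) (lco bas' p.2) := by
  simp only [q_lco, q_lco']
  fun_prop


theorem ratF_sub {w w' : F2 C} (h : RatF w) (h' : RatF w') : RatF (w - w') :=
  (clsS C _).sub_mem h h'

theorem ratF_neg {w : F2 C} (h : RatF w) : RatF (-w) :=
  (clsS C _).neg_mem h

theorem ratF_smul {w : F2 C} (h : RatF w) {r : ℝ} (hr : ∃ q : ℚ, r = q) : RatF (r • w) := by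
  obtain ⟨q, rfl⟩ := hr
  exact h.smul q

/-- the vector of casts -/
def cst (q : Fin m → ℚ) : Fin m → ℝ := fun k => (q k : ℝ)

theorem ratF_lco (hb : ∀ j, RatF (bas j)) (q : Fin m → ℚ) : RatF (lco bas (cst q)) :=
  (clsS C _).sum_mem fun k _ => (hb k).smul (q k)

theorem dense_cst : DenseRange (cst (m := m)) :=
  DenseRange.piMap fun _ => Rat.denseRange_cast

end lin

/-! ### a rational point of the quadric `Q(a, c) = 0` -/

theorem exists_rat2 {m : ℕ} {bas : Fin m → F2 C} (hb : ∀ j, RatF (bas j))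
    (rat : ∀ x y : F2 C, RatF x → RatF y → ∃ r : ℚ, Q x y = r)
    {b0 c0 : Fin m → ℝ} {B D : Set (Fin m → ℝ)} (oB : IsOpen B) (oD : IsOpen D) (hb0 : b0 ∈ B)
    (hc0 : c0 ∈ D) (hq : Q (lco bas b0) (lco bas b0) ≠ 0)
    (h0 : Q (lco bas c0) (lco bas b0) = 0) :
    ∃ a c : Fin m → ℚ, cst a ∈ B ∧ cst c ∈ D ∧ Q (lco bas (cst c)) (lco bas (cst a)) = 0 := by
  set Ψ : (Fin m → ℝ) × (Fin m → ℝ) → (Fin m → ℝ) := fun p =>
    p.2 - (Q (lco bas p.2) (lco bas p.1) / Q (lco bas p.1) (lco bas p.1)) • p.1 with hΨ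
  have c1 : Continuous fun p : (Fin m → ℝ) × (Fin m → ℝ) => Q (lco bas p.2) (lco bas p.1) :=
    (continuous_q2 (Q := Q) bas bas).comp (continuous_snd.prodMk continuous_fst)
  have c2 : Continuous fun p : (Fin m → ℝ) × (Fin m → ℝ) => Q (lco bas p.1) (lco bas p.1) :=
    (continuous_q2 (Q := Q) bas bas).comp (continuous_fst.prodMk continuous_fst)
  have c3 : ContinuousAt Ψ (b0, c0) :=
    continuous_snd.continuousAt.sub ((c1.continuousAt.div c2.continuousAt hq).smul
      continuous_fst.continuousAt)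
  have e0 : Ψ (b0, c0) = c0 := by
    simp only [hΨ, h0, zero_div, zero_smul, sub_zero]
  have n1 : ∀ᶠ p in 𝓝 (b0, c0), Ψ p ∈ D := by
    refine c3 (IsOpen.mem_nhds oD ?_)
    rw [e0]
    exact hc0
  have n2 : ∀ᶠ p in 𝓝 ((b0, c0) : (Fin m → ℝ) × (Fin m → ℝ)), p.1 ∈ B :=
    continuous_fst.continuousAt (oB.mem_nhds hb0)
  have n3 : ∀ᶠ p in 𝓝 ((b0, c0) : (Fin m → ℝ) × (Fin m → ℝ)),
      Q (lco bas p.1) (lco bas p.1) ≠ 0 := c2.continuousAt.eventually_ne hq
  have hd : DenseRange (Prod.map (cst (m := m)) (cst (m := m))) := dense_cst.prodMap dense_cst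
  obtain ⟨⟨a, c⟩, ha1, ha2, ha3⟩ := hd.mem_nhds (n2.and (n1.and n3))
  simp only [Prod.map_apply] at ha1 ha2 ha3
  obtain ⟨r1, h1⟩ := rat _ _ (ratF_lco bas hb c) (ratF_lco bas hb a)
  obtain ⟨r2, h2⟩ := rat _ _ (ratF_lco bas hb a) (ratF_lco bas hb a)
  have e1 : Ψ (cst a, cst c) = cst fun k => c k - r1 / r2 * a k := by
    simp only [hΨ, h1, h2]
    funext k
    simp [cst]
  refine ⟨a, fun k => c k - r1 / r2 * a k, ha1, ?_, ?_⟩
  · rw [← e1]
    exact ha2
  · rw [← e1]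
    simp only [hΨ]
    rw [lco_sub, lco_smul, map_sub, LinearMap.sub_apply, map_smul, LinearMap.smul_apply,
      smul_eq_mul, div_mul_cancel₀ _ ha3, sub_self]

/-- avoiding a countable set -/
theorem exists_avoid {S U : Set ℝ} (hS : S.Countable) (hU : IsOpen U) {x : ℝ} (hx : x ∈ U) :
    ∃ y ∈ U, y ∉ S := by
  obtain ⟨y, hy1, hy2⟩ := (hS.dense_compl ℝ).inter_open_nonempty U hU ⟨x, hx⟩
  exact ⟨y, hy1, hy2⟩

/-! ### frames -/

/-- `e` isotropic, `v`, `A` positive, pairwise orthogonal -/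
structure EVA (Q : F2 C →ₗ[ℝ] F2 C →ₗ[ℝ] ℝ) (e v A : F2 C) : Prop where
  symm : ∀ x y, Q x y = Q y x
  ee : Q e e = 0
  ev : Q e v = 0
  vv : 0 < Q v v
  AA : 0 < Q A A
  Ae : Q A e = 0
  Av : Q A v = 0

/-- projection to the orthogonal complement of `A`, `v` -/
def w1 (Q : F2 C →ₗ[ℝ] F2 C →ₗ[ℝ] ℝ) (v A w : F2 C) : F2 C :=
  w - (Q w A / Q A A) • A - (Q w v / Q v v) • v

/-- the isotropic class `e*` of `w` -/
def es (Q : F2 C →ₗ[ℝ] F2 C →ₗ[ℝ] ℝ) (e v A w : F2 C) : F2 C :=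
  (Q w e)⁻¹ • w1 Q v A w - (Q (w1 Q v A w) w / (2 * Q w e ^ 2)) • e

namespace EVA

variable {e v A : F2 C} (h : EVA Q e v A)

include h

theorem ve : Q v e = 0 := by rw [h.symm]; exact h.ev
theorem eA : Q e A = 0 := by rw [h.symm]; exact h.Ae
theorem vA : Q v A = 0 := by rw [h.symm]; exact h.Av

theorem w1_e (w : F2 C) : Q (w1 Q v A w) e = Q w e := by
  simp [w1, h.Ae, h.ve]

theorem w1_A (w : F2 C) : Q (w1 Q v A w) A = 0 := by
  have := h.AA.ne'
  simp [w1, h.vA, this]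

theorem w1_v (w : F2 C) : Q (w1 Q v A w) v = 0 := by
  have := h.vv.ne'
  simp [w1, h.Av, this]

theorem w1_w1 (w : F2 C) : Q (w1 Q v A w) (w1 Q v A w) = Q (w1 Q v A w) w := by
  conv_lhs => rw [show Q (w1 Q v A w) (w1 Q v A w) = Q (w1 Q v A w)
    (w - (Q w A / Q A A) • A - (Q w v / Q v v) • v) from rfl]
  rw [map_sub, map_sub, map_smul, map_smul, h.w1_A, h.w1_v]
  simp

theorem es_e {w : F2 C} (hw : Q w e ≠ 0) : Q (es Q e v A w) e = 1 := by
  simp [es, h.ee, h.w1_e, hw]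

theorem es_v (w : F2 C) : Q (es Q e v A w) v = 0 := by
  simp [es, h.ev, h.w1_v]

theorem es_A (w : F2 C) : Q (es Q e v A w) A = 0 := by
  simp [es, h.eA, h.w1_A]

theorem es_es {w : F2 C} (hw : Q w e ≠ 0) : Q (es Q e v A w) (es Q e v A w) = 0 := by
  simp only [es, map_sub, map_smul, LinearMap.sub_apply, LinearMap.smul_apply, smul_eq_mul,
    h.ee, h.w1_e, h.symm e (w1 Q v A w), h.w1_w1]
  field_simp
  ring

theorem es_rat (rat : ∀ x y : F2 C, RatF x → RatF y → ∃ r : ℚ, Q x y = r) (he : RatF e)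
    (hv : RatF v) (hA : RatF A) {w : F2 C} (hw : RatF w) : RatF (es Q e v A w) := by
  obtain ⟨r1, e1⟩ := rat _ _ hw hA
  obtain ⟨r2, e2⟩ := rat _ _ hA hA
  obtain ⟨r3, e3⟩ := rat _ _ hw hv
  obtain ⟨r4, e4⟩ := rat _ _ hv hv
  obtain ⟨r5, e5⟩ := rat _ _ hw he
  have h1 : RatF (w1 Q v A w) := by
    unfold w1
    rw [e1, e2, e3, e4]
    refine ratF_sub (ratF_sub hw (ratF_smul hA ⟨r1 / r2, ?_⟩)) (ratF_smul hv ⟨r3 / r4, ?_⟩)
    · push_cast; rfl
    · push_cast; rfl
  obtain ⟨r6, e6⟩ := rat _ _ h1 hw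
  unfold es
  rw [e5, e6]
  refine ratF_sub (ratF_smul h1 ⟨r5⁻¹, ?_⟩) (ratF_smul he ⟨r6 / (2 * r5 ^ 2), ?_⟩)
  · push_cast; rfl
  · push_cast; rfl

/-- the frame -/
def frm (rat : ∀ x y : F2 C, RatF x → RatF y → ∃ r : ℚ, Q x y = r) (he : IntF e)
    (hv : RatF v) (hA : RatF A) {w : F2 C} (hw : RatF w) (h0 : Q w e ≠ 0) : Frm C Q where
  e := e
  v := v
  es := es Q e v A w
  N := Q v v
  hN := h.vv
  e_e := h.ee
  e_v := h.ev
  es_e := h.es_e h0
  es_v := h.es_v w
  es_es := h.es_es h0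
  v_v := rfl
  int_e := he
  rat_v := hv
  rat_es := h.es_rat rat he.rat hv hA hw

end EVA

/-! ### `es` in coordinates -/

section coord

variable {M : ℕ} (b : Fin M → F2 C) (e v A : F2 C) (γ β α : Fin M → ℝ)

/-- `w1` in coordinates -/
def w1C (Q : F2 C →ₗ[ℝ] F2 C →ₗ[ℝ] ℝ) (t : Fin M → ℝ) : Fin M → ℝ :=
  t - (Q (lco b t) A / Q A A) • α - (Q (lco b t) v / Q v v) • β

/-- `es` in coordinates -/
def esC (Q : F2 C →ₗ[ℝ] F2 C →ₗ[ℝ] ℝ) (t : Fin M → ℝ) : Fin M → ℝ :=
  (Q (lco b t) e)⁻¹ • w1C b v A β α Q t -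
    (Q (lco b (w1C b v A β α Q t)) (lco b t) / (2 * Q (lco b t) e ^ 2)) • γ

variable {b e v A γ β α}

theorem lco_w1C (hα : Cl A (lco b α)) (hβ : Cl v (lco b β)) (t : Fin M → ℝ) :
    Cl (w1 Q v A (lco b t)) (lco b (w1C b v A β α Q t)) := by
  unfold w1C w1
  rw [lco_sub, lco_sub, lco_smul, lco_smul]
  exact cl_sub (cl_sub (Cl.refl _) (hα.smul _)) (hβ.smul _)

theorem w1_lco (ex : ∀ x y : F2 C, Ex x → Q x y = 0) (hα : Cl A (lco b α)) (hβ : Cl v (lco b β))
    (t : Fin M → ℝ) (y : F2 C) :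
    Q (w1 Q v A (lco b t)) y = Q (lco b (w1C b v A β α Q t)) y := by
  have h1 := ex _ y (lco_w1C (Q := Q) hα hβ t)
  rw [map_sub, LinearMap.sub_apply, sub_eq_zero] at h1
  exact h1

theorem lco_esC (ex : ∀ x y : F2 C, Ex x → Q x y = 0) (hα : Cl A (lco b α)) (hβ : Cl v (lco b β))
    (hγ : Cl e (lco b γ)) (t : Fin M → ℝ) :
    Cl (es Q e v A (lco b t)) (lco b (esC b e v A γ β α Q t)) := by
  unfold esC es
  rw [lco_sub, lco_smul, lco_smul, w1_lco ex hα hβ]
  exact cl_sub ((lco_w1C hα hβ t).smul _) (hγ.smul _)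

theorem continuous_w1C : Continuous (w1C b v A β α Q) := by
  unfold w1C
  exact (continuous_id.sub (((continuous_q1 b A).div_const _).smul continuous_const)).sub
    (((continuous_q1 b v).div_const _).smul continuous_const)

theorem continuousAt_esC {θ : Fin M → ℝ} (h0 : Q (lco b θ) e ≠ 0) :
    ContinuousAt (esC b e v A γ β α Q) θ := by
  unfold esC
  have c1 : ContinuousAt (fun t : Fin M → ℝ => Q (lco b t) e) θ := (continuous_q1 b e).continuousAt
  have c2 : ContinuousAt (fun t : Fin M → ℝ =>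
      Q (lco b (w1C b v A β α Q t)) (lco b t)) θ :=
    ((continuous_q2 (Q := Q) b b).comp (continuous_w1C.prodMk continuous_id)).continuousAt
  refine ((c1.inv₀ h0).smul continuous_w1C.continuousAt).sub
    ((c2.div (continuousAt_const.mul (c1.pow 2)) ?_).smul continuousAt_const)
  exact mul_ne_zero two_ne_zero (pow_ne_zero 2 h0)

theorem esC_fix {θ : Fin M → ℝ} (h1 : Q (lco b θ) e = 1) (h2 : Q (lco b θ) A = 0)
    (h3 : Q (lco b θ) v = 0) (h4 : Q (lco b θ) (lco b θ) = 0) : esC b e v A γ β α Q θ = θ := by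
  have e1 : w1C b v A β α Q θ = θ := by
    unfold w1C
    rw [h2, h3]
    simp
  unfold esC
  rw [e1, h1, h4]
  simp

end coord

end

end Crest.Agent.R281.Rd_326
end

-- ▼ part R281/Rd3_326
section

/-!
# Row 281, ROADP (helper326), part 3: the choice of `e*`

* `exists_es` : `H` a hyperkaehler structure with `om 1 ∼ s1 A`, `om 2 ∼ s2 (- v + N x e)`,
  `0 < Q(e, om 0)`: there are a rational class `w` and `y > 0` such that
  `Re σ_τ = es w + x v - N/2 (x² - y²) e` is a Kaehler class for `J 0`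
-/

set_option autoImplicit false
set_option linter.unusedSectionVars false
set_option maxSynthPendingDepth 3

open Set Filter Topology
open scoped ContDiff

namespace Crest.Agent.R281.Rd_326

open Crest.Agent.R275.Geo Crest.Agent.R275.Core144
open Crest.Agent.R281.HkR_835 Crest.Agent.R281.Ti_846 Crest.Agent.R281.Cdr_234
open Crest.Agent.R281.Dif_268 Crest.Agent.R281.PL_713
open Crest.Agent.R281.NefO_476 Crest.Agent.R281.Nef_252
open Crest.Agent.R281.Alg_998 Crest.Agent.R281.RkD_902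

noncomputable section

variable {n : ℕ} {X : Type} [TopologicalSpace X] [CompactSpace X] {C : RCh (Cn (2 * n)) X}
  {Q : F2 C →ₗ[ℝ] F2 C →ₗ[ℝ] ℝ}

theorem exists_es (hc : Ctx n C Q) {H : HkT C} (hp : 0 < Q (H.om 0) (H.om 0)) {e v A : F2 C}
    (h : EVA Q e v A) (he0 : 0 < Q e (H.om 0)) {x s1 s2 : ℝ} (hs1 : s1 ≠ 0) (hs2 : s2 ≠ 0)
    (h1 : Cl (H.om 1) (s1 • A)) (h2 : Cl (H.om 2) (s2 • (-v + (Q v v * x) • e)))
    {M : ℕ} {b : Fin M → F2 C} (hb : ∀ w, ∃ a, Cl w (lco b a)) :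
    ∃ w : Fin M → ℚ, Q (lco b (cst w)) e ≠ 0 ∧ ∃ y : ℝ, 0 < y ∧
      KCls (ofHk H 0)
        (es Q e v A (lco b (cst w)) + x • v - (Q v v / 2 * (x ^ 2 - y ^ 2)) • e) := by
  have hN := h.vv
  set N := Q v v with hNdef
  set p : ℝ := (Q e (H.om 0))⁻¹ with hpdef
  have hp0 : 0 < p := inv_pos.2 he0
  set κ : F2 C := p • H.om 0 with hκ
  -- pairings of `κ`
  have k_e : Q κ e = 1 := by
    rw [hκ, map_smul, LinearMap.smul_apply, smul_eq_mul, hc.symm, hpdef, inv_mul_cancel₀ he0.ne']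
  have o_A : Q (H.om 0) A = 0 := by
    have := hc.ort H 0 1 (by decide)
    rw [hc.cl_right h1, map_smul, smul_eq_mul] at this
    exact (mul_eq_zero.1 this).resolve_left hs1
  have o_b : Q (H.om 0) (-v + (N * x) • e) = 0 := by
    have := hc.ort H 0 2 (by decide)
    rw [hc.cl_right h2, map_smul, smul_eq_mul] at this
    exact (mul_eq_zero.1 this).resolve_left hs2
  have k_A : Q κ A = 0 := by
    rw [hκ, map_smul, LinearMap.smul_apply, o_A, smul_zero]
  have k_v : Q κ v = N * x := by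
    have e1 : Q κ (-v + (N * x) • e) = 0 := by
      rw [hκ, map_smul, LinearMap.smul_apply, o_b, smul_zero]
    rw [(Q κ).map_add, (Q κ).map_neg, (Q κ).map_smul, k_e, smul_eq_mul, mul_one] at e1
    linarith
  have k_k : 0 < Q κ κ := by
    rw [hκ]
    simp only [map_smul, LinearMap.smul_apply, smul_eq_mul]
    positivity
  obtain ⟨y, hy0, hy⟩ : ∃ y : ℝ, 0 < y ∧ N * y ^ 2 = Q κ κ := by
    refine ⟨Real.sqrt (Q κ κ / N), Real.sqrt_pos.2 (by positivity), ?_⟩
    rw [Real.sq_sqrt (by positivity)]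
    field_simp
  obtain ⟨κc, hκc⟩ := hb κ
  obtain ⟨α, hα⟩ := hb A
  obtain ⟨β, hβ⟩ := hb v
  obtain ⟨γ, hγ⟩ := hb e
  set c : ℝ := N / 2 * (x ^ 2 - y ^ 2) with hcdef
  set θ : Fin M → ℝ := κc - x • β + c • γ with hθ
  have hθz : ∀ z, Q (lco b θ) z = Q κ z - x * Q v z + c * Q e z := by
    intro z
    rw [hθ, lco_add, lco_sub, lco_smul, lco_smul]
    simp only [map_add, map_sub, map_smul, LinearMap.add_apply, LinearMap.sub_apply,
      LinearMap.smul_apply, smul_eq_mul]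
    rw [← hc.cl_left hκc, ← hc.cl_left hβ, ← hc.cl_left hγ]
  have t_e : Q (lco b θ) e = 1 := by
    rw [hθz, k_e, h.ve, h.ee]
    ring
  have t_A : Q (lco b θ) A = 0 := by
    rw [hθz, k_A, h.vA, h.eA]
    ring
  have t_v : Q (lco b θ) v = 0 := by
    rw [hθz, k_v, h.ev, ← hNdef]
    ring
  have t_t : Q (lco b θ) (lco b θ) = 0 := by
    rw [hθz, hc.symm κ, hc.symm v (lco b θ), hc.symm e (lco b θ), t_e, t_v, hθz, hc.symm v κ, k_v,
      hc.symm e κ, k_e, ← hy, hcdef]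
    ring
  have t_e' : Q (lco b θ) e ≠ 0 := by rw [t_e]; exact one_ne_zero
  obtain ⟨δ, hδ, hK⟩ := kcls_near hc hp b hp0
  set G : (Fin M → ℝ) → (Fin M → ℝ) := fun t =>
    esC b e v A γ β α Q t + x • β - c • γ with hG
  have hGc : ContinuousAt G θ :=
    ((continuousAt_esC t_e').add continuousAt_const).sub continuousAt_const
  have hGθ : G θ = κc := by
    rw [hG]
    simp only
    rw [esC_fix t_e t_A t_v t_t, hθ]
    abel
  have n1 : ∀ᶠ t in 𝓝 θ, dist (G t) κc < δ := by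
    have := Metric.continuousAt_iff'.1 hGc δ hδ
    rwa [hGθ] at this
  have n2 : ∀ᶠ t in 𝓝 θ, Q (lco b t) e ≠ 0 :=
    (continuous_q1 b e).continuousAt.eventually_ne t_e'
  obtain ⟨w, hw1, hw2⟩ := dense_cst.mem_nhds (n1.and n2)
  refine ⟨w, hw2, y, hy0, ?_⟩
  set S : F2 C := es Q e v A (lco b (cst w)) + x • v - c • e with hS
  have hSG : Cl S (lco b (G (cst w))) := by
    rw [hS, hG]
    simp only
    rw [lco_sub, lco_add, lco_smul, lco_smul]
    exact cl_sub (Cl.add (lco_esC hc.ex hα hβ hγ _) (hβ.smul x)) (hγ.smul c)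
  have hD : Cl (lco b (G (cst w) - κc)) (S - κ) := by
    rw [lco_sub]
    exact cl_sub hSG.symm hκc.symm
  have S_A : Q S A = 0 := by
    rw [hS]
    simp only [map_add, map_sub, map_smul, LinearMap.add_apply, LinearMap.sub_apply,
      LinearMap.smul_apply, smul_eq_mul]
    rw [h.es_A, h.vA, h.eA]
    ring
  have S_v : Q S v = N * x := by
    rw [hS]
    simp only [map_add, map_sub, map_smul, LinearMap.add_apply, LinearMap.sub_apply,
      LinearMap.smul_apply, smul_eq_mul]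
    rw [h.es_v, h.ev, ← hNdef]
    ring
  have S_e : Q S e = 1 := by
    rw [hS]
    simp only [map_add, map_sub, map_smul, LinearMap.add_apply, LinearMap.sub_apply,
      LinearMap.smul_apply, smul_eq_mul]
    rw [h.es_e hw2, h.ve, h.ee]
    ring
  have h3 := hK (G (cst w) - κc) (fun k => ?_) ?_ ?_
  · refine h3.congr ?_
    have e1 : Cl (κ + lco b (G (cst w) - κc)) (κ + (S - κ)) := (Cl.refl κ).add hD
    rwa [add_sub_cancel] at e1
  · have e1 : dist (G (cst w) k) (κc k) ≤ dist (G (cst w)) κc := dist_le_pi_dist _ _ k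
    rw [Real.dist_eq] at e1
    exact e1.trans hw1.le
  · rw [hc.cl_left hD, hc.cl_right h1, map_smul, map_sub, LinearMap.sub_apply, S_A, k_A]
    simp
  · rw [hc.cl_left hD, hc.cl_right h2, map_smul, map_add, map_neg, map_smul, map_sub,
      LinearMap.sub_apply, LinearMap.sub_apply, S_v, k_v, S_e, k_e]
    simp

end

end Crest.Agent.R281.Rd_326
end

-- ▼ part R281/Sta4_684
section

/-!
# R281 (S0424), START (D14), part 4 (helper684)

* `turn2 H = (om₁, om₀, -om₂)`
* `start_a2`    : part (A) in the convention of `RkD_902` v2: `H'.om 0 = r om₁`, `H'.om 2 = -r om₂`,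
                  classes `(A, z Re σ_τ, z Im σ_τ)`, `z > 0`
* `kcls_sre2`   : `Re σ_τ` is a Kaehler class if it is near a positive multiple of `om 0`
* `exists_kbasNF` : the basis of `W^⊥` by integral Kaehler classes with natural coefficients of `c A`
-/

set_option autoImplicit false
set_option linter.unusedSectionVars false
set_option maxSynthPendingDepth 3

open Set Filter Topology Module
open scoped ContDiff

namespace Crest.Agent.R281.Sta4_684

open Crest.Agent.R281.HkR_835 Crest.Agent.R281.Cdr_234 Crest.Agent.R281.Sta1_684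
open Crest.Agent.R281.Sta2_684 Crest.Agent.R281.Sta3_684 Crest.Agent.R281.W3a_698
open Crest.Agent.R281.Alg_998 Crest.Agent.R281.Dif_268 Crest.Agent.R260.ACM_580
open Crest.Agent.R281.Ti_846 (Ex)
open Crest.Agent.R281.NefO_476 (ofHk Pos)
open Crest.Agent.R281.Nef_252 (T11 KCls)

noncomputable section

variable {V X : Type} [NormedAddCommGroup V] [NormedSpace ℝ V] [TopologicalSpace X]
  {C : RCh V X} {B : F2 C →ₗ[ℝ] F2 C →ₗ[ℝ] ℝ}

/-- the rotation `(om₁, om₀, -om₂)` -/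
def RR2 : Fin 3 → Fin 3 → ℝ := ![![0, 1, 0], ![1, 0, 0], ![0, 0, -1]]

theorem frRR2 : HkT.Fr RR2 where
  nrm k := by fin_cases k <;> simp [RR2]
  ort := by simp [RR2]
  crs := by
    funext k
    fin_cases k <;> simp [RR2]

/-- the rotated triple -/
def turn2 (H : HkT C) : HkT C := H.rot RR2 frRR2

theorem turn2_om0 (H : HkT C) : (turn2 H).om 0 = H.om 1 := by
  show F2.lin (RR2 0) H.om = _
  rw [F2.lin_eq, Fin.sum_univ_three]
  simp [RR2]

theorem turn2_om1 (H : HkT C) : (turn2 H).om 1 = H.om 0 := by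
  show F2.lin (RR2 1) H.om = _
  rw [F2.lin_eq, Fin.sum_univ_three]
  simp [RR2]

theorem turn2_om2 (H : HkT C) : (turn2 H).om 2 = -H.om 2 := by
  show F2.lin (RR2 2) H.om = _
  rw [F2.lin_eq, Fin.sum_univ_three]
  simp [RR2]

theorem turn2_J1 (H : HkT C) (i : C.ι) (z : V) : (turn2 H).J 1 i z = H.J 0 i z := by
  show H.Jv (RR2 1) i z = _
  ext v
  rw [HkT.Jv_apply]
  simp [RR2]

theorem eqv_smul' {w w' : F2 C} (c : ℝ) (h : Eqv w w') : Eqv (c • w) (c • w') := by
  intro i z hz u v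
  rw [F2.smul_w, F2.smul_w]
  simp only [smul_apply, smul_eq_mul]
  rw [h i z hz]

/-- **START, part (A)**, in the convention of `RkD_902` v2 -/
theorem start_a2 [FiniteDimensional ℝ V] [T2Space X] [CompactSpace X] [ConnectedSpace X] {d : ℕ}
    (hNN : NNat V d) (hB : QS B) (F : Frm C B) {A : F2 C} {H : HkT C} (hu : UniqT H)
    {τ : ℂ} (hτ : 0 < τ.im) {s1 s2 : ℝ} (hs1 : 0 < s1) (hs2 : 0 < s2)
    (h1 : Cl (H.om 1) (s1 • A)) (h2 : Cl (H.om 2) ((-s2) • F.sim τ))
    (hk : KCls (ofHk H 0) (F.sre τ)) :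
    ∃ (H' : HkT C) (r z : ℝ), 0 < r ∧ 0 < z ∧ Eqv (H'.om 0) (r • H.om 1) ∧
      Eqv (H'.om 2) ((-r) • H.om 2) ∧ Cl (H'.om 0) A ∧ Cl (H'.om 1) (z • F.sre τ) ∧
      Cl (H'.om 2) (z • F.sim τ) ∧ AtTau F A H' τ ∧
      ∀ i, ∀ p ∈ (C.e i).target, H'.J 1 i p = H.J 0 i p := by
  obtain ⟨A', hf, -, ⟨P⟩, -, -, hA'⟩ := exists_rot hNN H
  obtain ⟨H1, r, hr, hJ, e1, e2, e0⟩ := move1 P (Crest.Agent.R281.KpK_487.yau_kah A') H hA'
    (uniq_of_T P hA' hu) hk
  -- classes of `H1`
  have f1 : Cl (H1.om 1) ((r * s1) • A) := by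
    rw [← smul_smul]
    exact Cl.trans (ex_sub_of_eqv e1) (Cl.smul r h1)
  have f2 : Cl (H1.om 2) (-((r * s2) • F.sim τ)) := by
    have a1 := Cl.trans (ex_sub_of_eqv e2) (Cl.smul r h2)
    rwa [smul_smul, mul_neg, neg_smul] at a1
  have f0 : Cl (H1.om 0) (F.sre τ) := e0
  have hN := F.hN
  have hrs : r * s2 = 1 := by
    have a0 := hB.congr f0 f0
    have a2 := hB.congr f2 f2
    rw [hB.eq H1 2, a0, q_sre hB] at a2
    simp only [map_neg, LinearMap.neg_apply, map_smul, LinearMap.smul_apply, smul_eq_mul] at a2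
    rw [q_sim hB] at a2
    have a3 : (r * s2) ^ 2 * (F.N * τ.im ^ 2) = 1 ^ 2 * (F.N * τ.im ^ 2) := by
      rw [one_pow, one_mul]
      nlinarith [a2]
    have a4 := mul_right_cancel₀ (by positivity) a3
    exact (sq_eq_sq₀ (by positivity) (by norm_num)).1 a4
  rw [hrs, one_smul] at f2
  set t : ℝ := (r * s1)⁻¹ with ht
  have ht0 : 0 < t := by positivity
  have g0 : Cl ((turn2 (smulP t ht0 H1)).om 0) A := by
    rw [turn2_om0, smulP_om]
    have a1 := Cl.smul t f1
    rw [smul_smul] at a1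
    have a2 : t * (r * s1) = 1 := by
      rw [ht]; field_simp
    rwa [a2, one_smul] at a1
  have g1 : Cl ((turn2 (smulP t ht0 H1)).om 1) (t • F.sre τ) := by
    rw [turn2_om1, smulP_om]
    exact Cl.smul t f0
  have g2 : Cl ((turn2 (smulP t ht0 H1)).om 2) (t • F.sim τ) := by
    rw [turn2_om2, smulP_om]
    have a1 := Cl.smul (-t) f2
    have a2 : (-t) • H1.om 2 = -(t • H1.om 2) := neg_smul _ _
    have a3 : (-t) • -F.sim τ = t • F.sim τ := neg_smul_neg _ _
    rwa [a2, a3] at a1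
  refine ⟨turn2 (smulP t ht0 H1), t * r, t, by positivity, ht0, ?_, ?_, g0, g1, g2,
    ⟨hτ, g0, (t : ℂ), ?_, ?_, ?_⟩, ?_⟩
  · rw [turn2_om0, smulP_om, ← smul_smul]
    exact eqv_smul' t e1
  · have a1 := eqv_smul' (-t) e2
    have a2 : (-t) • H1.om 2 = -(t • H1.om 2) := neg_smul _ _
    have a3 : (-t) • r • H.om 2 = (-(t * r)) • H.om 2 := by rw [smul_smul, neg_mul]
    rw [a2, a3] at a1
    rw [turn2_om2, smulP_om]
    exact a1
  · exact_mod_cast ht0.ne'
  · simpa using g1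
  · simpa using g2
  · intro i p hp
    rw [turn2_J1, smulP_J]
    ext v
    exact hJ i p hp v

variable [FiniteDimensional ℝ V]




end

end Crest.Agent.R281.Sta4_684
end

-- ▼ part R281/Rd4_326

/-!
# Row 281, ROADP (helper326), part 4: the node `RoadP` of RANK281 (902)

* `Div2P Alg`     : the geometric output of DIV 2 (998) for every frame
* `road_of`       : the road in a box
* `roadP`         : **`Div2P Alg → RoadP Alg`**
-/

set_option autoImplicit false
set_option linter.unusedSectionVars false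
set_option maxSynthPendingDepth 3

open Set Filter Topology
open scoped ContDiff

namespace Crest.Agent.R281.Rd_326

open Crest.Agent.R275.Geo Crest.Agent.R275.Core144
open Crest.Agent.R260.ACM_580 Crest.Agent.R260.NNB_580
open Crest.Agent.R281.HkR_835 Crest.Agent.R281.Ti_846 Crest.Agent.R281.Cdr_234
open Crest.Agent.R281.Dif_268 Crest.Agent.R281.PL_713
open Crest.Agent.R281.NefO_476 Crest.Agent.R281.Nef_252
open Crest.Agent.R281.Alg_998 Crest.Agent.R281.RkD_902
open Crest.Agent.R281.Sta2_684 (QS)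
open Crest.Agent.R281.Sta4_684 (start_a2)

noncomputable section

variable {n : ℕ} {X : Type} [TopologicalSpace X] [CompactSpace X] {C : RCh (Cn (2 * n)) X}
  {Q : F2 C →ₗ[ℝ] F2 C →ₗ[ℝ] ℝ} {H0 : HkT C} {e : F2 C}

theorem qs_of (hc : Ctx n C Q) : QS Q := ⟨hc.symm, hc.ex, hc.eq⟩

/-! ### box members -/

theorem box_e (B : Box Q H0 e) (b : Fin B.m → ℝ) : Q (lco B.bas b) e = 0 := by
  rw [q_lco]
  exact Finset.sum_eq_zero fun k _ => by rw [B.orth k, mul_zero]

theorem box_pos1 (hc : Ctx n C Q) (B : Box Q H0 e) {b c : Fin B.m → ℝ} (hb : b ∈ B.B)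
    (hd : c ∈ B.D) : 0 < Q (lco B.bas b) (lco B.bas b) := by
  obtain ⟨s, hs, h1⟩ := B.cl1 b hb c hd
  have h2 := B.pos2 b hb c hd
  rw [← hc.eq _ 1, hc.cl_cl h1 h1] at h2
  simp only [map_smul, LinearMap.smul_apply, smul_eq_mul] at h2
  have h3 : s * (s * Q (lco B.bas b) (lco B.bas b)) = s ^ 2 * Q (lco B.bas b) (lco B.bas b) := by
    ring
  rw [h3] at h2
  exact (mul_pos_iff_of_pos_left (by positivity)).1 h2

theorem box_om2 (hc : Ctx n C Q) (B : Box Q H0 e) {b c : Fin B.m → ℝ} (hb : b ∈ B.B)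
    (hd : c ∈ B.D) (h0 : Q (lco B.bas c) (lco B.bas b) = 0) :
    ∃ s : ℝ, 0 < s ∧ Cl ((B.H b c).om 2) (s • lco B.bas c) ∧
      0 < Q (lco B.bas c) (lco B.bas c) := by
  obtain ⟨s1, hs1, h1⟩ := B.cl1 b hb c hd
  obtain ⟨s, t, hs, h2⟩ := B.cl2 b hb c hd
  have hp := box_pos1 hc B hb hd
  have h3 := hc.ort (B.H b c) 2 1 (by decide)
  rw [hc.cl_cl h2 h1] at h3
  simp only [map_add, map_smul, LinearMap.add_apply, LinearMap.smul_apply, smul_eq_mul, h0,
    mul_zero, zero_add] at h3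
  have ht : t = 0 := by
    rcases mul_eq_zero.1 h3 with h | h
    · exact absurd h hs1.ne'
    · rcases mul_eq_zero.1 h with h | h
      · exact h
      · exact absurd h hp.ne'
  subst ht
  rw [zero_smul, add_zero] at h2
  refine ⟨s, hs, h2, ?_⟩
  have h4 := B.pos2 b hb c hd
  rw [← hc.eq _ 2, hc.cl_cl h2 h2] at h4
  simp only [map_smul, LinearMap.smul_apply, smul_eq_mul] at h4
  have h5 : s * (s * Q (lco B.bas c) (lco B.bas c)) = s ^ 2 * Q (lco B.bas c) (lco B.bas c) := by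
    ring
  rw [h5] at h4
  exact (mul_pos_iff_of_pos_left (by positivity)).1 h4

/-- **the road in a box** -/
theorem road_of [T2Space X] [SimplyConnectedSpace X] (hc : Ctx n C Q) {L0 : PL C}
    (hG : Given Q H0 L0 e) (B : Box Q H0 e) (Alg : AlgT Q)
    (hd : ∀ F : Frm C Q, F.e = e → Div2Geo F (Alg F)) : Nonempty (Road Alg B) := by
  -- (1) `A` and `v`
  have hq0 := box_pos1 hc B B.b0B B.c0D
  obtain ⟨a, c, ha, hcD, hac⟩ := exists_rat2 B.rat hc.rat B.oB B.oD B.b0B B.c0D hq0.ne'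
    (by rw [hc.symm]; exact B.ort0)
  have haa := box_pos1 hc B ha hcD
  obtain ⟨-, -, -, hcc⟩ := box_om2 hc B ha hcD hac
  obtain ⟨m0, hm0, hA⟩ := Crest.Agent.R281.Pjx_648.RatF.exists_int (ratF_lco B.bas B.rat a)
  have hm0' : (0 : ℝ) < m0 := by exact_mod_cast hm0
  set A : F2 C := (m0 : ℝ) • lco B.bas (cst a) with hAdef
  set v : F2 C := -lco B.bas (cst c) with hvdef
  have hva : Q A v = 0 := by
    rw [hAdef, hvdef, map_smul, LinearMap.smul_apply, map_neg, hc.symm, hac]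
    simp
  have hvv : Q v v = Q (lco B.bas (cst c)) (lco B.bas (cst c)) := by
    rw [hvdef]
    simp only [map_neg, LinearMap.neg_apply, neg_neg]
  have h : EVA Q e v A := by
    refine ⟨hc.symm, hG.ee, ?_, ?_, ?_, ?_, hva⟩
    · rw [hvdef, map_neg, hc.symm, box_e, neg_zero]
    · rw [hvv]; exact hcc
    · rw [hAdef]
      simp only [map_smul, LinearMap.smul_apply, smul_eq_mul]
      positivity
    · rw [hAdef, map_smul, LinearMap.smul_apply, box_e, smul_zero]
  have hvR : RatF v := ratF_neg (ratF_lco B.bas B.rat c)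
  -- (2) `b_x`
  obtain ⟨ε, hε⟩ := B.span e hG.ee
  set N : ℝ := Q v v with hN
  set cx : ℝ → Fin B.m → ℝ := fun x => cst c + (N * x) • ε with hcx
  have hcont : Continuous cx := by
    rw [hcx]
    fun_prop
  have hcl : ∀ x, Cl (lco B.bas (cx x)) (-v + (N * x) • e) := by
    intro x
    rw [hcx]
    simp only
    rw [lco_add, lco_smul, hvdef, neg_neg]
    exact (Cl.refl _).add (hε.symm.smul _)
  -- (3) the bad real parts
  obtain ⟨M, b, hbR, hb⟩ := hc.span
  have hbs : ∀ w, ∃ t, Cl w (lco b t) := fun w => (hb w).exists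
  let fr : ∀ w : Fin M → ℚ, Q (lco b (cst w)) e ≠ 0 → Frm C Q := fun w hw =>
    h.frm hc.rat hG.int hvR hA.rat (ratF_lco b hbR w) hw
  have hfr : ∀ w hw, (fr w hw).e = e := fun _ _ => rfl
  set S : Set ℝ := ⋃ (w : Fin M → ℚ) (hw : Q (lco b (cst w)) e ≠ 0),
    Classical.choose (hd (fr w hw) (hfr w hw)) with hS
  have hSc : S.Countable := countable_iUnion fun w => countable_iUnion fun hw =>
    (Classical.choose_spec (hd (fr w hw) (hfr w hw))).1
  have hc0 : cx 0 = cst c := by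
    rw [hcx]
    simp
  obtain ⟨x1, hx1D, hx1S⟩ := exists_avoid hSc (B.oD.preimage hcont)
    (x := 0) (by rw [mem_preimage, hc0]; exact hcD)
  have hx1D' : cx x1 ∈ B.D := hx1D
  -- (4) the box member
  set H : HkT C := B.H (cst a) (cx x1) with hH
  have hp : 0 < Q (H.om 0) (H.om 0) := B.pos2 _ ha _ hx1D'
  obtain ⟨s, hs, h1⟩ := B.cl1 _ ha _ hx1D'
  have hAa : lco B.bas (cst a) = (m0 : ℝ)⁻¹ • A := by
    rw [hAdef, smul_smul, inv_mul_cancel₀ hm0'.ne', one_smul]
  have h1' : Cl (H.om 1) ((s * (m0 : ℝ)⁻¹) • A) := by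
    rw [← smul_smul, ← hAa]
    exact h1
  have hs1 : 0 < s * (m0 : ℝ)⁻¹ := by positivity
  have hortho : Q (lco B.bas (cx x1)) (lco B.bas (cst a)) = 0 := by
    rw [hc.cl_left (hcl x1), hAa]
    simp only [map_add, map_neg, map_smul, LinearMap.add_apply, LinearMap.neg_apply,
      LinearMap.smul_apply, smul_eq_mul, h.vA, h.eA]
    ring
  obtain ⟨s2, hs2, h2, -⟩ := box_om2 hc B ha hx1D' hortho
  have h2' : Cl (H.om 2) (s2 • (-v + (Q v v * x1) • e)) := h2.trans ((hcl x1).smul s2)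
  obtain ⟨w, hw, y, hy, hk⟩ := exists_es hc hp h (B.pos _ ha _ hx1D') hs1.ne' hs2.ne' h1' h2' hbs
  -- (5) the frame and the start
  set F : Frm C Q := fr w hw with hF
  have hsim : F.sim ⟨x1, y⟩ = (-y) • (-v + (N * x1) • e) := by
    show y • v - (N * (x1 * y)) • e = _
    module
  have h2'' : Cl (H.om 2) ((-(s2 / y)) • F.sim ⟨x1, y⟩) := by
    rw [hsim, smul_smul]
    have e1 : -(s2 / y) * -y = s2 := by
      field_simp
    rw [e1]
    exact h2'
  have hk' : KCls (ofHk H 0) (F.sre ⟨x1, y⟩) := hk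
  have hNN : NNat (Cn (2 * n)) (2 * n) := Crest.Agent.R260.NN6_900.nnat (2 * n) (Cn (2 * n)) (by
    rw [finrank_real_of_complex]
    simp)
  obtain ⟨H', r, z, hr, hz, e0, e2, g0, g1, g2, hat, -⟩ := start_a2 hNN (qs_of hc) F
    (hc.uniq H hp) (τ := ⟨x1, y⟩) hy hs1 (div_pos hs2 hy) h1' h2'' hk'
  -- (6) DIV 2
  have hbad : x1 ∉ Classical.choose (hd F (hfr w hw)) := fun hx =>
    hx1S (mem_iUnion.2 ⟨w, mem_iUnion.2 ⟨hw, hx⟩⟩)
  obtain ⟨K, H1, τ1, hAlg, hmem, hre, hleg⟩ := (Classical.choose_spec (hd F (hfr w hw))).2 A hA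
    h.Ae h.Av (by rw [hc.symm]; exact h.es_A _) H' ⟨x1, y⟩ hat hbad
  exact ⟨{
    A := A
    intA := hA
    AA := h.AA
    F := F
    Fe := rfl
    Ae := h.Ae
    Av := h.Av
    Aes := by rw [hc.symm]; exact h.es_A _
    a := cst a
    ha := ⟨(m0 : ℝ)⁻¹, inv_pos.2 hm0', by rw [← hAa]; exact Cl.refl _⟩
    aB := ha
    c := cx
    c_cont := hcont
    hc := hcl
    x1 := x1
    cD := hx1D'
    K := K
    alg := hAlg
    H' := H'
    st := ⟨r, hr, e0, e2⟩
    τ0 := ⟨x1, y⟩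
    re0 := rfl
    ph0 := ⟨hy, z, hz, g1, g2⟩
    H1 := H1
    τ1 := τ1
    re1 := hre
    mem := hmem
    leg := hleg }⟩

/-- the geometric output of DIV 2 (998), for every frame -/
def Div2P (Alg : AlgTT) : Prop :=
  ∀ (n : ℕ) (X : Type) [TopologicalSpace X] [CompactSpace X] [T2Space X]
    [SimplyConnectedSpace X] (C : RCh (Cn (2 * n)) X) (Q : F2 C →ₗ[ℝ] F2 C →ₗ[ℝ] ℝ), Ctx n C Q →
    ∀ F : Frm C Q, Div2Geo F (Alg n X C Q F)

/-- **the node `RoadP` of RANK281** -/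
theorem roadP (Alg : AlgTT) (h : Div2P Alg) : RoadP Alg := by
  intro n X _ _ _ _ C Q hc H0 L0 e hG B
  exact road_of hc hG B (Alg n X C Q) fun F _ => h n X C Q hc F

end

end Crest.Agent.R281.Rd_326
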