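import Crest.Agent.R281.Ti5_846
import Crest.Agent.R281.Dif3_268
import Mathlib
import Crest.Agent.R281.Al5_830
import Crest.Agent.R281.Ehr7_268
import Crest.Agent.R281.LI2_473
import Crest.Agent.R281.Phb7_267
import Crest.Agent.R281.AlgDefs_998
import Crest.Agent.R281.Dv1_957
import Crest.Agent.R281.Qc2_377
import Crest.Agent.R281.RkD_902
import Crest.Agent.R281.Pt3_313
import Crest.Agent.R281.Dv2_957
import Crest.Agent.R281.Kb1_565
import Crest.Agent.R281.CB1_867
import Crest.Agent.R281.Blk6_592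
import Crest.Agent.R281.Cnt1_311
import Crest.Agent.R281.Phl3_655
import Crest.Agent.R281.Ehr11_268
import Crest.Agent.R281.Sta3_684
import Crest.Agent.R281.Cdr11_234
import Crest.Agent.R260.NN6_900
import Crest.Agent.R281.Phl5_655
import Crest.Agent.R281.Rd4_326

-- ▼ part R281/GI1_473
section

/-!
# GEOM-INST, part 1 (row 281, helper473): diffeomorphisms and the intersection form

`X` compact connected, `C` an oriented chart system.  A diffeomorphism preserves or reverses the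
orientation; the integral of a product of closed 2-forms is multiplied by `±1`.

* `intT_abs`  : change of chart system for densities
* `det_cases` : the local determinants of a diffeomorphism have constant sign
* `II_pull`   : `∫ φ^*w₁ ∧ … ∧ φ^*w_N = s ∫ w₁ ∧ … ∧ w_N`, `s = ±1`
-/

set_option autoImplicit false
set_option linter.unusedSectionVars false

open Set Filter Topology MeasureTheory
open scoped ContDiff

namespace Crest.Agent.R281.GI_473

open Crest.Agent.R281.HkR_835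
open Crest.Agent.R281.Ti_846 (ovc isOpen_ovc integrableOn_cpt Ori RPart TopF intT cont_psi
  cont_psi_symm psi_zero TP TP_comp' II)
open Crest.Agent.R281.Dif_268

noncomputable section

variable {V X : Type} [NormedAddCommGroup V] [NormedSpace ℝ V] [FiniteDimensional ℝ V]
  [MeasurableSpace V] [BorelSpace V] (μ : Measure V) [μ.IsAddHaarMeasure] [TopologicalSpace X]

/-- **change of chart** for densities -/
theorem chg_abs (e e' : OpenPartialHomeomorph X V) {g g' : V → ℝ}
    (hsm : DifferentiableOn ℝ (fun z => e' (e.symm z)) (ovc e e'))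
    (hz : ∀ z ∈ e.target, e.symm z ∉ e'.source → g z = 0)
    (hz' : ∀ z ∈ e'.target, e'.symm z ∉ e.source → g' z = 0)
    (htr : ∀ z ∈ ovc e e', g z = |(fderiv ℝ (fun z => e' (e.symm z)) z).det| * g' (e' (e.symm z))) :
    ∫ z in e.target, g z ∂μ = ∫ z in e'.target, g' z ∂μ := by
  have hS := isOpen_ovc e e'
  have hS' := isOpen_ovc e' e
  have h1 : ∫ z in e.target, g z ∂μ = ∫ z in ovc e e', g z ∂μ :=
    setIntegral_eq_of_subset_of_forall_sdiff_eq_zero e.open_target.measurableSet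
      (fun z hz => hz.1) fun z hz1 => hz z hz1.1 fun h => hz1.2 ⟨hz1.1, h⟩
  have h2 : ∫ z in e'.target, g' z ∂μ = ∫ z in ovc e' e, g' z ∂μ :=
    setIntegral_eq_of_subset_of_forall_sdiff_eq_zero e'.open_target.measurableSet
      (fun z hz => hz.1) fun z hz1 => hz' z hz1.1 fun h => hz1.2 ⟨hz1.1, h⟩
  have him : (fun z => e' (e.symm z)) '' ovc e e' = ovc e' e := by
    ext y
    constructor
    · rintro ⟨z, hz, rfl⟩
      refine ⟨e'.map_source hz.2, ?_⟩
      show e'.symm (e' (e.symm z)) ∈ e.source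
      rw [e'.left_inv hz.2]
      exact e.map_target hz.1
    · intro hy
      refine ⟨e (e'.symm y), ⟨e.map_source hy.2, ?_⟩, ?_⟩
      · rw [e.left_inv hy.2]
        exact e'.map_target hy.1
      · show e' (e.symm (e (e'.symm y))) = y
        rw [e.left_inv hy.2, e'.right_inv hy.1]
  have hinj : InjOn (fun z => e' (e.symm z)) (ovc e e') := by
    intro z hz y hy h
    have h1 : e.symm z = e.symm y := e'.injOn hz.2 hy.2 h
    exact e.symm.injOn hz.1 hy.1 h1
  have h3 := integral_image_eq_integral_abs_det_fderiv_smul μ hS.measurableSet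
    (fun z hz => ((hsm z hz).differentiableAt (hS.mem_nhds hz)).hasFDerivAt.hasFDerivWithinAt)
    hinj g'
  rw [h1, h2, ← him, h3]
  refine setIntegral_congr_fun hS.measurableSet fun z hz => ?_
  rw [htr z hz, smul_eq_mul]

variable {C C' : RCh V X} [CompactSpace X]

/-- **independence** of the partition and of the charts, for densities -/
theorem intT_abs (h : ∀ i j, ContDiffOn ℝ ∞ (fun z => C'.e j ((C.e i).symm z))
      (ovc (C.e i) (C'.e j)))
    (P : RPart C) (P' : RPart C') (D : TopF C) (D' : TopF C')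
    (hD : ∀ i j, ∀ z ∈ ovc (C.e i) (C'.e j), D.D i z =
      |(fderiv ℝ (fun z => C'.e j ((C.e i).symm z)) z).det| * D'.D j (C'.e j ((C.e i).symm z))) :
    intT μ P D = intT μ P' D' := by
  have e1 : intT μ P D = ∑ k, ∑ l, ∫ z in (C.e (P.c k)).target,
      P'.ψ l ((C.e (P.c k)).symm z) * (P.ψ k ((C.e (P.c k)).symm z) * D.D (P.c k) z) ∂μ := by
    unfold intT
    refine Finset.sum_congr rfl fun k _ => ?_
    rw [← integral_finsetSum]
    · refine setIntegral_congr_fun (C.e (P.c k)).open_target.measurableSet fun z _ => ?_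
      rw [← Finset.sum_mul, P'.sum_one, one_mul]
    · intro l _
      refine integrableOn_cpt μ (C.e (P.c k)) (Kc := tsupport (P.ψ k))
        (isClosed_tsupport _).isCompact (P.sub k) ?_ ?_
      · exact (cont_psi_symm P' l _).mul ((cont_psi_symm P k _).mul (D.cont _))
      · intro z _ hz
        rw [psi_zero P k hz, zero_mul, mul_zero]
  have e2 : intT μ P' D' = ∑ l, ∑ k, ∫ z in (C'.e (P'.c l)).target,
      P'.ψ l ((C'.e (P'.c l)).symm z) *
        (P.ψ k ((C'.e (P'.c l)).symm z) * D'.D (P'.c l) z) ∂μ := by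
    unfold intT
    refine Finset.sum_congr rfl fun l _ => ?_
    rw [← integral_finsetSum]
    · refine setIntegral_congr_fun (C'.e (P'.c l)).open_target.measurableSet fun z _ => ?_
      rw [← Finset.mul_sum, ← Finset.sum_mul, P.sum_one, one_mul]
    · intro k _
      refine integrableOn_cpt μ (C'.e (P'.c l)) (Kc := tsupport (P'.ψ l))
        (isClosed_tsupport _).isCompact (P'.sub l) ?_ ?_
      · exact (cont_psi_symm P' l _).mul ((cont_psi_symm P k _).mul (D'.cont _))
      · intro z _ hz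
        rw [psi_zero P' l hz, zero_mul]
  rw [e1, e2, Finset.sum_comm]
  refine Finset.sum_congr rfl fun l _ => Finset.sum_congr rfl fun k _ => ?_
  refine chg_abs μ (C.e (P.c k)) (C'.e (P'.c l)) ((h _ _).differentiableOn (by simp))
    ?_ ?_ ?_
  · intro z _ hz
    rw [psi_zero P' l fun h1 => hz (P'.sub l h1), zero_mul]
  · intro z _ hz
    rw [psi_zero P k fun h1 => hz (P.sub k h1), zero_mul, mul_zero]
  · intro z hz
    rw [hD _ _ z hz, (C'.e (P'.c l)).left_inv hz.2]
    ring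

/-- the multiple of a top form -/
def scT (s : ℝ) (D : TopF C) : TopF C where
  D i z := s * D.D i z
  cont i := continuousOn_const.mul (D.cont i)
  tr i j z hz := by rw [D.tr i j z hz]; ring

theorem intT_scT (P : RPart C) (s : ℝ) (D : TopF C) : intT μ P (scT s D) = s * intT μ P D := by
  unfold intT
  rw [Finset.mul_sum]
  refine Finset.sum_congr rfl fun k _ => ?_
  rw [← integral_const_mul]
  refine integral_congr_ae (Eventually.of_forall fun z => ?_)
  change _ * (s * _) = s * (_ * _)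
  ring

/-- the partition of unity transported by a homeomorphism -/
def mapPart (P : RPart C) (φ : X ≃ₜ X) : RPart (mapCh C φ) where
  σ := P.σ
  c := P.c
  ψ k x := P.ψ k (φ.symm x)
  sm := fun k (i : C.ι) => by
    have h1 := P.sm k i
    have h2 : ((mapCh C φ).e i).target = (C.e i).target := mapCh_target (C := C) φ i
    rw [h2]
    refine h1.congr fun z _ => ?_
    have h3 : ((mapCh C φ).e i).symm z = φ ((C.e i).symm z) := mapCh_symm (C := C) φ i z
    show P.ψ k (φ.symm (((mapCh C φ).e i).symm z)) = P.ψ k ((C.e i).symm z)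
    rw [h3, φ.symm_apply_apply]
  sub k := by
    intro x hx
    rw [mapCh_source]
    apply P.sub k
    have h1 : tsupport (fun x => P.ψ k (φ.symm x)) = φ.symm ⁻¹' tsupport (P.ψ k) := by
      unfold tsupport
      have : Function.support (fun x => P.ψ k (φ.symm x)) = φ.symm ⁻¹' Function.support (P.ψ k) :=
        rfl
      rw [this, φ.symm.preimage_closure]
    rw [h1] at hx
    exact hx
  sum_one x := P.sum_one (φ.symm x)

/-- the top form transported by a homeomorphism -/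
def mapT (D : TopF C) (φ : X ≃ₜ X) : TopF (mapCh C φ) where
  D := D.D
  cont := fun (i : C.ι) => by
    have h2 : ((mapCh C φ).e i).target = (C.e i).target := mapCh_target (C := C) φ i
    rw [h2]; exact D.cont i
  tr := fun (i j : C.ι) z hz => by
    have h1 : (mapCh C φ).ov i j = C.ov i j := mapCh_ov (C := C) φ i j
    have h2 : (mapCh C φ).t i j = C.t i j := funext fun z => mapCh_t (C := C) φ i j z
    rw [h1] at hz
    rw [h2]
    exact D.tr i j z hz

theorem intT_map (P : RPart C) (D : TopF C) (φ : X ≃ₜ X) :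
    intT μ (mapPart P φ) (mapT D φ) = intT μ P D := by
  unfold intT
  refine Finset.sum_congr rfl fun k _ => ?_
  have h2 : ((mapCh C φ).e (P.c k)).target = (C.e (P.c k)).target := mapCh_target φ _
  change ∫ z in ((mapCh C φ).e (P.c k)).target,
    P.ψ k (φ.symm (((mapCh C φ).e (P.c k)).symm z)) * D.D (P.c k) z ∂μ = _
  rw [h2]
  refine setIntegral_congr_fun (C.e (P.c k)).open_target.measurableSet fun z _ => ?_
  have h3 : ((mapCh C φ).e (P.c k)).symm z = φ ((C.e (P.c k)).symm z) :=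
    mapCh_symm (C := C) φ (P.c k) z
  change P.ψ k (φ.symm (((mapCh C φ).e (P.c k)).symm z)) * D.D (P.c k) z =
    P.ψ k ((C.e (P.c k)).symm z) * D.D (P.c k) z
  rw [h3, φ.symm_apply_apply]

/-! ### the sign of a diffeomorphism -/

section sign

omit [MeasurableSpace V] [BorelSpace V] [CompactSpace X] in
theorem det_comp' (S T : V →L[ℝ] V) : (S.comp T).det = S.det * T.det := by
  simp only [ContinuousLinearMap.det, ContinuousLinearMap.toLinearMap_comp, LinearMap.det_comp]

omit [MeasurableSpace V] [BorelSpace V] [CompactSpace X] in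
/-- the local determinant is not zero -/
theorem det_ne {g : SMap C' C} {g' : SMap C C'} (hgg : g'.f ∘ g.f = _root_.id) {i : C.ι} {j : C'.ι}
    {z : V} (hz : z ∈ dom C C' g.f i j) : (fderiv ℝ (loc C C' g.f i j) z).det ≠ 0 := by
  have h1 : z ∈ dom C' C' (g'.f ∘ g.f) j j := by
    rw [hgg]; exact ⟨hz.1, (C'.e j).map_target hz.1⟩
  have h2 : loc C' C' (g'.f ∘ g.f) j j =ᶠ[𝓝 z] _root_.id := by
    filter_upwards [(C'.e j).open_target.mem_nhds hz.1] with y hy
    rw [hgg]
    exact (C'.e j).right_inv hy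
  have h3 : (fderiv ℝ (loc C' C g'.f j i) (loc C C' g.f i j z)).comp
      (fderiv ℝ (loc C C' g.f i j) z) = ContinuousLinearMap.id ℝ V := by
    ext v
    have := g'.dloc_comp g hz h1 v
    rw [h2.fderiv_eq, fderiv_id] at this
    exact this.symm
  intro h0
  have h4 := congrArg ContinuousLinearMap.det h3
  rw [det_comp', h0, mul_zero] at h4
  simp [ContinuousLinearMap.det] at h4

omit [MeasurableSpace V] [BorelSpace V] [CompactSpace X] in
/-- the sign of the local determinant does not depend on the charts -/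
theorem det_sign (hC : Ori C) (hC' : Ori C') (g : SMap C' C) {i i' : C.ι} {j j' : C'.ι} {z z' : V}
    (hz : z ∈ dom C C' g.f i j) (hz' : z' ∈ dom C C' g.f i' j')
    (he : (C'.e j).symm z = (C'.e j').symm z') (h : 0 < (fderiv ℝ (loc C C' g.f i j) z).det) :
    0 < (fderiv ℝ (loc C C' g.f i' j') z').det := by
  -- move to the charts `i, j'`
  have hov : z' ∈ C'.ov j' j := ⟨hz'.1, by rw [← he]; exact (C'.e j).map_target hz.1⟩
  have htz : C'.t j' j z' = z := by
    show C'.e j ((C'.e j').symm z') = z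
    rw [← he, (C'.e j).right_inv hz.1]
  have hz2 : z' ∈ dom C C' g.f i j' := ⟨hz'.1, by rw [← he]; exact hz.2⟩
  have h1 : (fderiv ℝ (loc C C' g.f i j) z).comp (fderiv ℝ (C'.t j' j) z') =
      fderiv ℝ (loc C C' g.f i j') z' := by
    ext v
    have := g.dloc_t hov hz2 v
    rw [htz] at this
    exact this
  have h2 : 0 < (fderiv ℝ (loc C C' g.f i j') z').det := by
    rw [← h1, det_comp']
    exact mul_pos h (hC' _ _ _ hov)
  have h3 : (fderiv ℝ (C.t i i') (loc C C' g.f i j' z')).comp (fderiv ℝ (loc C C' g.f i j') z') =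
      fderiv ℝ (loc C C' g.f i' j') z' := by
    ext v
    exact g.dt_loc hz2 hz' v
  rw [← h3, det_comp']
  exact mul_pos (hC _ _ _ (g.loc_ov hz2 hz')) h2

omit [MeasurableSpace V] [BorelSpace V] [CompactSpace X] in
/-- **the local determinants of a diffeomorphism have constant sign** -/
theorem det_cases [PreconnectedSpace X] (hC : Ori C) (hC' : Ori C') {g : SMap C' C}
    {g' : SMap C C'} (hgg : g'.f ∘ g.f = _root_.id) :
    (∀ i j, ∀ z ∈ dom C C' g.f i j, 0 < (fderiv ℝ (loc C C' g.f i j) z).det) ∨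
    (∀ i j, ∀ z ∈ dom C C' g.f i j, (fderiv ℝ (loc C C' g.f i j) z).det < 0) := by
  set S : Set X := {x | ∃ i j, ∃ z ∈ dom C C' g.f i j, (C'.e j).symm z = x ∧
    0 < (fderiv ℝ (loc C C' g.f i j) z).det} with hS
  set S' : Set X := {x | ∃ i j, ∃ z ∈ dom C C' g.f i j, (C'.e j).symm z = x ∧
    (fderiv ℝ (loc C C' g.f i j) z).det < 0} with hS'
  have hcont : ∀ i j, ∀ z ∈ dom C C' g.f i j,
      ContinuousAt (fun y => (fderiv ℝ (loc C C' g.f i j) y).det) z := by
    intro i j z hz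
    have h1 : ContinuousAt (fderiv ℝ (loc C C' g.f i j)) z :=
      ((g.contDiffAt_loc hz).fderiv_right (m := 0) (by simp)).continuousAt
    exact ContinuousLinearMap.continuous_det.continuousAt.comp h1
  have hopen : ∀ (p : ℝ → Prop), IsOpen {t | p t} → IsOpen {x : X | ∃ i j,
      ∃ z ∈ dom C C' g.f i j, (C'.e j).symm z = x ∧
        p (fderiv ℝ (loc C C' g.f i j) z).det} := by
    intro p hp
    rw [isOpen_iff_mem_nhds]
    rintro x ⟨i, j, z, hz, rfl, hpz⟩
    have h1 : ∀ᶠ y in 𝓝 z, y ∈ dom C C' g.f i j ∧ p (fderiv ℝ (loc C C' g.f i j) y).det :=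
      ((g.isOpen_dom i j).eventually_mem hz).and ((hcont i j z hz).eventually (hp.mem_nhds hpz))
    have h2 : Tendsto (C'.e j) (𝓝 ((C'.e j).symm z)) (𝓝 z) := by
      have := (C'.e j).continuousAt ((C'.e j).map_target hz.1)
      rwa [ContinuousAt, (C'.e j).right_inv hz.1] at this
    filter_upwards [h2.eventually h1, (C'.e j).open_source.mem_nhds ((C'.e j).map_target hz.1)] with
      x hx hxs
    exact ⟨i, j, C'.e j x, hx.1, (C'.e j).left_inv hxs, hx.2⟩
  have hSo : IsOpen S := hopen (fun t => 0 < t) isOpen_Ioi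
  have hSo' : IsOpen S' := hopen (fun t => t < 0) isOpen_Iio
  have hcov : (univ : Set X) ⊆ S ∪ S' := by
    intro x _
    obtain ⟨j, hj⟩ := C'.cover x
    have hz : C'.e j x ∈ (C'.e j).target := (C'.e j).map_source hj
    obtain ⟨i, hi⟩ := g.exists_dom hz
    rcases lt_or_gt_of_ne (det_ne hgg hi) with h | h
    · exact Or.inr ⟨i, j, _, hi, (C'.e j).left_inv hj, h⟩
    · exact Or.inl ⟨i, j, _, hi, (C'.e j).left_inv hj, h⟩
  have hdisj : ∀ x, ¬ (x ∈ S ∧ x ∈ S') := by
    rintro x ⟨⟨i, j, z, hz, hx, h⟩, ⟨i', j', z', hz', hx', h'⟩⟩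
    have := det_sign hC hC' g hz hz' (hx.trans hx'.symm) h
    linarith
  have hmain : (univ : Set X) ⊆ S ∨ (univ : Set X) ⊆ S' := by
    refine isPreconnected_univ.subset_or_subset hSo hSo' ?_ hcov
    rw [Set.disjoint_left]
    exact fun x h1 h2 => hdisj x ⟨h1, h2⟩
  rcases hmain with h | h
  · left
    intro i j z hz
    obtain ⟨i', j', z', hz', hx, hp⟩ := h (mem_univ ((C'.e j).symm z))
    exact det_sign hC hC' g hz' hz hx hp
  · right
    intro i j z hz
    rcases lt_or_gt_of_ne (det_ne hgg hz) with h1 | h1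
    · exact h1
    · exact absurd ⟨⟨i, j, z, hz, rfl, h1⟩, h (mem_univ _)⟩ (hdisj ((C'.e j).symm z))

end sign

/-! ### the intersection form -/

variable {K : Type} [Fintype K] [DecidableEq K]

/-- **the integral of the pull backs under a diffeomorphism** -/
theorem II_pull_gen [PreconnectedSpace X] (hC : Ori C) (hC' : Ori C')
    (b : Module.Basis (K × Fin 2) ℝ V) (P : RPart C) (P' : RPart C') (φ : X ≃ₜ X) (g : SMap C' C)
    (g' : SMap C C') (hg : g.f = φ) (hg' : g'.f = φ.symm) : ∃ s : ℝ, (s = 1 ∨ s = -1) ∧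
      ∀ w : K → F2 C, II μ b P' (fun k => g.pull (w k)) = s * II μ b P w := by
  have hgg : g'.f ∘ g.f = _root_.id := by
    rw [hg, hg']; funext x; exact φ.symm_apply_apply x
  have key : ∃ s : ℝ, (s = 1 ∨ s = -1) ∧ ∀ i j, ∀ z ∈ dom C C' g.f i j,
      (fderiv ℝ (loc C C' g.f i j) z).det = |(fderiv ℝ (loc C C' g.f i j) z).det| * s := by
    rcases det_cases hC hC' hgg with h | h
    · exact ⟨1, Or.inl rfl, fun i j z hz => by rw [abs_of_pos (h i j z hz), mul_one]⟩
    · exact ⟨-1, Or.inr rfl, fun i j z hz => by rw [abs_of_neg (h i j z hz)]; ring⟩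
  obtain ⟨s, hs, hkey⟩ := key
  refine ⟨s, hs, fun w => ?_⟩
  -- the charts `e_j ∘ φ`
  have hsrc : ∀ (i : C'.ι) (j : C.ι), ovc (C'.e i) ((mapCh C φ.symm).e j) = dom C C' g.f j i := by
    intro i j
    ext z
    have h1 := mapCh_source (C := C) φ.symm j ((C'.e i).symm z)
    show z ∈ (C'.e i).target ∧ (C'.e i).symm z ∈ ((mapCh C φ.symm).e j).source ↔
      z ∈ (C'.e i).target ∧ g.f ((C'.e i).symm z) ∈ (C.e j).source
    rw [h1, hg]
    rfl
  have hfun : ∀ (i : C'.ι) (j : C.ι), (fun z => (mapCh C φ.symm).e j ((C'.e i).symm z)) =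
      loc C C' g.f j i := by
    intro i j
    funext z
    have h1 := mapCh_e (C := C) φ.symm j ((C'.e i).symm z)
    show (mapCh C φ.symm).e j ((C'.e i).symm z) = C.e j (g.f ((C'.e i).symm z))
    rw [h1, hg]
    rfl
  have h1 : II μ b P' (fun k => g.pull (w k)) =
      intT μ (mapPart P φ.symm) (mapT (scT s (TopF.of b w)) φ.symm) := by
    refine intT_abs μ (C := C') (C' := mapCh C φ.symm) (fun i (j : C.ι) => ?_) P' _ _ _
      fun i (j : C.ι) z hz => ?_
    · rw [hfun, hsrc]; exact g.sm j i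
    · rw [hfun]
      rw [hsrc] at hz
      have h2' : (mapCh C φ.symm).e j ((C'.e i).symm z) = loc C C' g.f j i z :=
        congrFun (hfun i j) z
      rw [h2']
      change TP b (fun k => (g.pull (w k)).w i z) =
        _ * (s * TP b (fun k => (w k).w j (loc C C' g.f j i z)))
      rw [TP_comp' b (fderiv ℝ (loc C C' g.f j i) z) fun k u v => g.pull_w (w k) hz u v,
        ← mul_assoc, ← hkey j i z hz]
  rw [h1, intT_map, intT_scT]
  rfl

/-- the same for a diffeomorphism of `(X, C)` -/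
theorem II_pull [PreconnectedSpace X] (hC : Ori C) (b : Module.Basis (K × Fin 2) ℝ V)
    (P : RPart C) (φ : difG C) : ∃ s : ℝ, (s = 1 ∨ s = -1) ∧
      ∀ g : SMap C C, g.f = φ.1 → ∀ w : K → F2 C,
        II μ b P (fun k => g.pull (w k)) = s * II μ b P w := by
  obtain ⟨g0, hg0⟩ := φ.2.1
  obtain ⟨g1, hg1⟩ := φ.2.2
  obtain ⟨s, hs, h⟩ := II_pull_gen μ hC hC b P P φ.1 g0 g1 hg0 hg1
  refine ⟨s, hs, fun g hg w => ?_⟩
  have hgg0 : g = g0 := SMap.ext' (by rw [hg, hg0])
  subst hgg0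
  exact h w


end

end Crest.Agent.R281.GI_473
end

-- ▼ part R281/Ph1_429
section

/-!
# Row 281, PER-HOL, part Ph1 (helper429): Fujiki relation, polarisation, holomorphy of the period

`W` a real vector space, `B` a symmetric bilinear form, `T` a symmetric multilinear form with
`T (x, ..., x) = B (x, x) ^ ν`.

* `quad_eq`   : `B(x,x)^ν = B'(x,x)^ν` for all `x`, both positive at one vector ==> `B = B'`
* `quad_g`    : `B(gx,gx)^ν = ± B(x,x)^ν`, `g x₀ = x₀`, `B(x₀,x₀) > 0` ==> `g` is an isometry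
* `polar`     : `T (y, x, ..., x) = B(x,x)^(ν-1) B(x,y)`
* `hol_of`    : if all the products `T (w, re s_q + i im s_q)` are holomorphic in `q` then
                `q ↦ B(x, re s_q) + i B(x, im s_q)` is holomorphic for every `x`
* `cont_of`   : the same with continuity
-/

set_option autoImplicit false
set_option maxHeartbeats 400000

open Set Filter Topology Finset

namespace Crest.Agent.R281.Ph1_429

noncomputable section

variable {W : Type*} [AddCommGroup W] [Module ℝ W]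

theorem quad_add (B : W →ₗ[ℝ] W →ₗ[ℝ] ℝ) (hs : ∀ x y, B x y = B y x) (x y : W) (t : ℝ) :
    B (x + t • y) (x + t • y) = B x x + 2 * t * B x y + t ^ 2 * B y y := by
  simp only [map_add, map_smul, LinearMap.add_apply, LinearMap.smul_apply, smul_eq_mul]
  rw [hs y x]
  ring

/-- near `0` a quadratic polynomial which is positive at `0` is positive -/
theorem ev_pos (a b c : ℝ) (ha : 0 < a) : ∀ᶠ t : ℝ in 𝓝 0, 0 < a + 2 * t * b + t ^ 2 * c := by
  have h1 : Continuous fun t : ℝ => a + 2 * t * b + t ^ 2 * c := by fun_prop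
  have h2 : Tendsto (fun t : ℝ => a + 2 * t * b + t ^ 2 * c) (𝓝 0) (𝓝 a) :=
    h1.tendsto' 0 a (by ring)
  exact h2.eventually (lt_mem_nhds ha)

/-- polarisation of an equality of quadratic forms -/
theorem pol_eq (B B' : W →ₗ[ℝ] W →ₗ[ℝ] ℝ) (hs : ∀ x y, B x y = B y x)
    (hs' : ∀ x y, B' x y = B' y x) (h : ∀ x, B x x = B' x x) (x y : W) : B x y = B' x y := by
  have h1 := h (x + y)
  have h2 := quad_add B hs x y 1
  have h3 := quad_add B' hs' x y 1
  rw [one_smul] at h2 h3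
  rw [h2, h3, h x, h y] at h1
  linarith

/-- **the sign at one vector determines the form** -/
theorem quad_eq {ν : ℕ} (hν : ν ≠ 0) (B B' : W →ₗ[ℝ] W →ₗ[ℝ] ℝ) (hs : ∀ x y, B x y = B y x)
    (hs' : ∀ x y, B' x y = B' y x) (h : ∀ x, (B x x) ^ ν = (B' x x) ^ ν) {x₀ : W}
    (h0 : 0 < B x₀ x₀) (h0' : 0 < B' x₀ x₀) (x y : W) : B x y = B' x y := by
  refine pol_eq B B' hs hs' (fun x => ?_) x y
  have h1 : ∀ᶠ t : ℝ in 𝓝 0, B (x₀ + t • x) (x₀ + t • x) = B' (x₀ + t • x) (x₀ + t • x) := by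
    filter_upwards [ev_pos (B x₀ x₀) (B x₀ x) (B x x) h0,
      ev_pos (B' x₀ x₀) (B' x₀ x) (B' x x) h0'] with t ht ht'
    have h2 := quad_add B hs x₀ x t
    have h3 := quad_add B' hs' x₀ x t
    exact (pow_left_inj₀ (by rw [h2]; exact ht.le) (by rw [h3]; exact ht'.le) hν).1 (h _)
  obtain ⟨ε, hε, h4⟩ := Metric.eventually_nhds_iff.1 h1
  have h5 : B x₀ x₀ = B' x₀ x₀ := by
    have := h1.self_of_nhds
    simpa using this
  have h6 := h4 (y := ε / 2) (by rw [dist_zero_right, Real.norm_eq_abs, abs_of_pos] <;> linarith)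
  have h7 := h4 (y := -(ε / 2))
    (by rw [dist_zero_right, Real.norm_eq_abs, abs_neg, abs_of_pos] <;> linarith)
  rw [quad_add B hs, quad_add B' hs'] at h6 h7
  have h8 : (ε / 2) ^ 2 * B x x = (ε / 2) ^ 2 * B' x x := by
    have : (-(ε / 2)) ^ 2 = (ε / 2) ^ 2 := by ring
    rw [this] at h7
    linarith
  exact mul_left_cancel₀ (by positivity) h8

/-- **a linear map which preserves `B^ν` up to sign and fixes a positive vector is an isometry** -/
theorem quad_g {ν : ℕ} (hν : ν ≠ 0) (B : W →ₗ[ℝ] W →ₗ[ℝ] ℝ) (hs : ∀ x y, B x y = B y x)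
    (g : W →ₗ[ℝ] W) {ε : ℝ} (h : ∀ x, (B (g x) (g x)) ^ ν = ε * (B x x) ^ ν) {x₀ : W}
    (h0 : 0 < B x₀ x₀) (hg : B (g x₀) (g x₀) = B x₀ x₀) (x y : W) : B (g x) (g y) = B x y := by
  have h1 : ε = 1 := by
    have h2 := h x₀
    rw [hg] at h2
    have h3 : (B x₀ x₀) ^ ν ≠ 0 := by positivity
    field_simp at h2
    exact h2.symm
  have h2 : ∀ x y, ((B.comp g).compl₂ g) x y = B (g x) (g y) := fun _ _ => rfl
  rw [← h2]
  refine quad_eq hν _ B (fun x y => ?_) hs (fun x => ?_) (x₀ := x₀) ?_ h0 x y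
  · rw [h2, h2]; exact hs _ _
  · rw [h2, h x, h1, one_mul]
  · rw [h2, hg]; exact h0

/-! ### polarisation of the Fujiki relation -/

variable {K : Type*} [Fintype K] [DecidableEq K]

/-- symmetric multilinear forms -/
def Sym (T : MultilinearMap ℝ (fun _ : K => W) ℝ) : Prop :=
  ∀ (σ : Equiv.Perm K) (w : K → W), T (fun k => w (σ k)) = T w

omit [Fintype K] in
theorem Sym.update {T : MultilinearMap ℝ (fun _ : K => W) ℝ} (hT : Sym T) (x y : W) (k l : K) :
    T (Function.update (fun _ => x) k y) = T (Function.update (fun _ => x) l y) := by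
  rw [← hT (Equiv.swap k l) (Function.update (fun _ => x) k y)]
  congr 1
  funext j
  rcases eq_or_ne j l with rfl | hj
  · rw [Equiv.swap_apply_right, Function.update_self, Function.update_self]
  · rw [Function.update_of_ne hj]
    rcases eq_or_ne j k with rfl | hjk
    · rw [Equiv.swap_apply_left, Function.update_of_ne (Ne.symm hj)]
    · rw [Equiv.swap_apply_of_ne_of_ne hjk hj, Function.update_of_ne hjk]

/-- the first derivative of `t ↦ T (x + t y, ..., x + t y)` at `0` -/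
theorem hasDerivAt_diag (T : MultilinearMap ℝ (fun _ : K => W) ℝ) (x y : W) :
    HasDerivAt (fun t : ℝ => T (fun _ => x + t • y))
      (∑ k, T (Function.update (fun _ => x) k y)) 0 := by
  have h1 : ∀ t : ℝ, T (fun _ => x + t • y) =
      ∑ s : Finset K, t ^ s.card * T (s.piecewise (fun _ => y) (fun _ => x)) := by
    intro t
    have h2 : (fun _ : K => x + t • y) = (fun _ => t • y) + (fun _ => x) := by
      funext k
      simp [add_comm]
    rw [h2, T.map_add_univ]
    refine Finset.sum_congr rfl fun s _ => ?_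
    have h3 := T.map_piecewise_smul (fun _ : K => t) (s.piecewise (fun _ => y) (fun _ => x)) s
    rw [prod_const, smul_eq_mul] at h3
    rw [← h3]
    congr 1
    funext k
    by_cases hk : k ∈ s <;> simp [hk]
  have h2 : ∀ s : Finset K, HasDerivAt
      (fun t : ℝ => t ^ s.card * T (s.piecewise (fun _ => y) (fun _ => x)))
      ((s.card : ℝ) * 0 ^ (s.card - 1) * T (s.piecewise (fun _ => y) (fun _ => x))) 0 :=
    fun s => (hasDerivAt_pow s.card (0 : ℝ)).mul_const _
  have h3 := HasDerivAt.fun_sum (u := (Finset.univ : Finset (Finset K))) fun s _ => h2 s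
  have h4 : (fun t : ℝ => T (fun _ => x + t • y)) = fun t =>
      ∑ s : Finset K, t ^ s.card * T (s.piecewise (fun _ => y) (fun _ => x)) := funext h1
  rw [h4]
  refine h3.congr_deriv ?_
  have h5 : ∀ s : Finset K, (s.card : ℝ) * 0 ^ (s.card - 1) *
      T (s.piecewise (fun _ => y) (fun _ => x)) =
        if s.card = 1 then T (s.piecewise (fun _ => y) (fun _ => x)) else 0 := by
    intro s
    split_ifs with hs
    · rw [hs]; simp
    · rcases Nat.eq_zero_or_pos s.card with h | h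
      · rw [h]; simp
      · rw [zero_pow (by omega)]; simp
  rw [Finset.sum_congr rfl fun s _ => h5 s, ← Finset.sum_filter]
  have h6 : (Finset.univ.filter fun s : Finset K => s.card = 1) =
      Finset.univ.map ⟨fun k : K => ({k} : Finset K), Finset.singleton_injective⟩ := by
    ext s
    simp only [mem_filter, Finset.mem_univ, true_and, Finset.mem_map, Function.Embedding.coeFn_mk,
      Finset.card_eq_one]
    constructor
    · rintro ⟨a, rfl⟩
      exact ⟨a, rfl⟩
    · rintro ⟨a, rfl⟩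
      exact ⟨a, rfl⟩
  rw [h6, Finset.sum_map]
  refine Finset.sum_congr rfl fun k _ => ?_
  simp only [Function.Embedding.coeFn_mk]
  congr 1
  funext j
  by_cases hj : j = k
  · subst hj; simp
  · simp [hj]

/-- **the polarised Fujiki relation** -/
theorem polar {ν : ℕ} (hν : ν ≠ 0) (hK : Fintype.card K = 2 * ν)
    {T : MultilinearMap ℝ (fun _ : K => W) ℝ} (hT : Sym T) (B : W →ₗ[ℝ] W →ₗ[ℝ] ℝ)
    (hs : ∀ x y, B x y = B y x) (hF : ∀ x, T (fun _ => x) = (B x x) ^ ν) (x y : W) (k : K) :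
    T (Function.update (fun _ => x) k y) = (B x x) ^ (ν - 1) * B x y := by
  have h1 := hasDerivAt_diag T x y
  have h2 : ∀ l, T (Function.update (fun _ => x) l y) = T (Function.update (fun _ => x) k y) :=
    fun l => hT.update x y l k
  rw [Finset.sum_congr rfl fun l _ => h2 l, Finset.sum_const, Finset.card_univ, hK,
    nsmul_eq_mul] at h1
  have h3 : HasDerivAt (fun t : ℝ => (B x x + 2 * t * B x y + t ^ 2 * B y y) ^ ν)
      (ν * (B x x) ^ (ν - 1) * (2 * B x y)) 0 := by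
    have h4 : HasDerivAt (fun t : ℝ => B x x + 2 * t * B x y + t ^ 2 * B y y) (2 * B x y) 0 := by
      have a1 : HasDerivAt (fun t : ℝ => 2 * t * B x y) (2 * B x y) 0 := by
        simpa using ((hasDerivAt_id (0 : ℝ)).const_mul 2).mul_const (B x y)
      have a2 : HasDerivAt (fun t : ℝ => t ^ 2 * B y y) 0 0 := by
        simpa using (hasDerivAt_pow 2 (0 : ℝ)).mul_const (B y y)
      exact ((a1.const_add (B x x)).fun_add a2).congr_deriv (by ring)
    exact (h4.fun_pow ν).congr_deriv (by simp)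
  have h5 : (fun t : ℝ => T (fun _ => x + t • y)) =
      fun t : ℝ => (B x x + 2 * t * B x y + t ^ 2 * B y y) ^ ν := by
    funext t
    rw [hF, quad_add B hs]
  rw [h5] at h1
  have h6 := h1.unique h3
  have h7 : (ν : ℝ) ≠ 0 := Nat.cast_ne_zero.2 hν
  push_cast at h6
  have h8 : (2 * (ν : ℝ)) * T (Function.update (fun _ => x) k y) =
      (2 * (ν : ℝ)) * ((B x x) ^ (ν - 1) * B x y) := by
    rw [h6]; ring
  exact mul_left_cancel₀ (by positivity) h8

/-! ### holomorphy of the period -/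

section hol

variable {E : Type*}

/-- the abstract transfer: a class of functions closed under real linear combinations which contains
all `T (w, s)` contains all `B (x, s)` -/
theorem transfer {ν : ℕ} (hν : ν ≠ 0) (hK : Fintype.card K = 2 * ν)
    {T : MultilinearMap ℝ (fun _ : K => W) ℝ} (hT : Sym T) (B : W →ₗ[ℝ] W →ₗ[ℝ] ℝ)
    (hs : ∀ x y, B x y = B y x) (hF : ∀ x, T (fun _ => x) = (B x x) ^ ν) {x₀ : W}
    (h0 : B x₀ x₀ ≠ 0) (S : E → W) (S' : E → W) (P : (E → ℂ) → Prop)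
    (hP : ∀ (f g : E → ℂ) (a b : ℝ), P f → P g → P fun q => (a : ℂ) * f q + (b : ℂ) * g q)
    (h : ∀ (w : K → W) (k : K), P fun q => (T (Function.update w k (S q)) : ℂ) +
      (T (Function.update w k (S' q)) : ℂ) * Complex.I) (x : W) :
    P fun q => (B x (S q) : ℂ) + (B x (S' q) : ℂ) * Complex.I := by
  have hne : Nonempty K := by
    rw [← Fintype.card_pos_iff]
    omega
  obtain ⟨k⟩ := hne
  have key : ∀ x : W, B x x ≠ 0 → P fun q => (B x (S q) : ℂ) + (B x (S' q) : ℂ) * Complex.I := by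
    intro x hx
    have h1 := h (fun _ => x) k
    have h2 := hP _ _ (((B x x) ^ (ν - 1))⁻¹) 0 h1 h1
    convert h2 using 1
    funext q
    rw [polar hν hK hT B hs hF, polar hν hK hT B hs hF]
    have h3 : (((B x x) ^ (ν - 1) : ℝ) : ℂ) ≠ 0 :=
      Complex.ofReal_ne_zero.2 (pow_ne_zero _ hx)
    push_cast at h3 ⊢
    field_simp
    ring
  by_cases hx : B x x = 0
  · -- `x = (x + t x₀) - t x₀`
    obtain ⟨t, ht0, ht⟩ : ∃ t : ℝ, t ≠ 0 ∧ B (x + t • x₀) (x + t • x₀) ≠ 0 := by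
      by_contra hcon
      push Not at hcon
      have h1 := hcon 1 one_ne_zero
      have h2 := hcon (-1) (by norm_num)
      rw [quad_add B hs, hx] at h1 h2
      apply h0
      linarith
    have h1 := key _ ht
    have h2 := key _ h0
    have h3 := hP _ _ 1 (-t) h1 h2
    convert h3 using 1
    funext q
    simp only [map_add, map_smul, LinearMap.add_apply, LinearMap.smul_apply, smul_eq_mul]
    push_cast
    ring
  · exact key x hx

/-- **holomorphy of the period** -/
theorem hol_of {E : Type*} [NormedAddCommGroup E] [NormedSpace ℂ E] {ν : ℕ} (hν : ν ≠ 0)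
    (hK : Fintype.card K = 2 * ν)
    {T : MultilinearMap ℝ (fun _ : K => W) ℝ} (hT : Sym T) (B : W →ₗ[ℝ] W →ₗ[ℝ] ℝ)
    (hs : ∀ x y, B x y = B y x) (hF : ∀ x, T (fun _ => x) = (B x x) ^ ν) {x₀ : W}
    (h0 : B x₀ x₀ ≠ 0) {D : Set E} (S S' : E → W)
    (h : ∀ (w : K → W) (k : K), DifferentiableOn ℂ (fun q => (T (Function.update w k (S q)) : ℂ) +
      (T (Function.update w k (S' q)) : ℂ) * Complex.I) D) (x : W) :
    DifferentiableOn ℂ (fun q => (B x (S q) : ℂ) + (B x (S' q) : ℂ) * Complex.I) D :=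
  transfer hν hK hT B hs hF h0 S S' (fun f => DifferentiableOn ℂ f D)
    (fun _ _ a b hf hg => (hf.const_mul (a : ℂ)).add (hg.const_mul (b : ℂ))) h x



end hol

end

end Crest.Agent.R281.Ph1_429
end

-- ▼ part R281/Phl7_655
section

/-!
# R281 (S0424), PER-HOL, part 7 (helper655): the Hodge-Riemann relations at a member

`per_of` : `β i` closed real forms such that every positive combination is a Kaehler form for `J`,
`s1 + i s2` holomorphic symplectic for `J`, `q` the Beauville-Bogomolov-Fujiki form (`TopI`), positive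
on one positive combination: `q s1 = q s2 > 0`, `s1 ⟂ s2`, `s1, s2 ⟂ β i`.

`per_cl` : the same on the classes, in the form of the field `per` of `LI_473.HM`.
-/

set_option autoImplicit false
set_option linter.unusedSectionVars false
set_option maxSynthPendingDepth 3

open Set Filter Topology Function MeasureTheory
open scoped ContDiff

namespace Crest.Agent.R281.Per_655

open Crest.Agent.R275.EDR890
open Crest.Agent.R281.HkR_835
open Crest.Agent.R281.Ti_846 hiding pb pb_apply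
open Crest.Agent.R281.NefO_476
open Crest.Agent.R281.Al_830
open Crest.Agent.R281.Cdr_234 (HdR)
open Crest.Agent.R281.Ehr7_268 (cl)

noncomputable section

variable {V X : Type} [NormedAddCommGroup V] [NormedSpace ℝ V] [TopologicalSpace X]
  {C : RCh V X} {J : AJ C} {s1 s2 : F2 C}
  [FiniteDimensional ℝ V] [MeasurableSpace V] [BorelSpace V] {μ : Measure V}
  [μ.IsAddHaarMeasure] [CompactSpace X] [T2Space X] [ConnectedSpace X] {n : ℕ}
  {b : Module.Basis (Fin (n + n) × Fin 2) ℝ V} {P : RPart C} {q : QuadraticForm ℝ (F2 C)}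

theorem polar_smul_left' (q : QuadraticForm ℝ (F2 C)) (a : ℝ) (x y : F2 C) :
    QuadraticMap.polar q (a • x) y = a * QuadraticMap.polar q x y := by
  rw [QuadraticMap.polar_smul_left, smul_eq_mul]

theorem polar_smul_right' (q : QuadraticForm ℝ (F2 C)) (a : ℝ) (x y : F2 C) :
    QuadraticMap.polar q x (a • y) = a * QuadraticMap.polar q x y := by
  rw [QuadraticMap.polar_smul_right, smul_eq_mul]

/-- one Kaehler form -/
theorem per_one (T : TopI μ b P q) {om : F2 C} (D : HD J om s1 s2) (hq : 0 < q om) :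
    q s1 = q s2 ∧ 0 < q s1 ∧ QuadraticMap.polar q s1 s2 = 0 ∧
      QuadraticMap.polar q om s1 = 0 ∧ QuadraticMap.polar q om s2 = 0 := by
  obtain ⟨H, r, hr, -, hex, h1, h2⟩ := T.exists_hk1 D hq
  have h0 : q (H.om 0) = q om := T.q_coh hex
  have hq0 : 0 < q (H.om 0) := by rw [h0]; exact hq
  have e1 := T.q_om H hq0 1
  have e2 := T.q_om H hq0 2
  have p12 := T.polar_om H hq0 (k := 1) (l := 2) (by decide)
  have p01 := T.polar_om H hq0 (k := 0) (l := 1) (by decide)
  have p02 := T.polar_om H hq0 (k := 0) (l := 2) (by decide)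
  rw [h1, QuadraticMap.map_smul, smul_eq_mul] at e1
  rw [h2, QuadraticMap.map_smul, smul_eq_mul] at e2
  rw [h1, h2, polar_smul_left', polar_smul_right'] at p12
  rw [h1, polar_smul_right', T.polar_coh hex] at p01
  rw [h2, polar_smul_right', T.polar_coh hex] at p02
  have hr2 : 0 < r * r := mul_pos hr hr
  refine ⟨mul_left_cancel₀ hr2.ne' (e1.trans e2.symm), ?_, ?_, ?_, ?_⟩
  · exact (mul_pos_iff_of_pos_left hr2).mp (by rw [e1]; exact hq0)
  · exact (mul_eq_zero.mp ((mul_eq_zero.mp p12).resolve_left hr.ne')).resolve_left hr.ne'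
  · exact (mul_eq_zero.mp p01).resolve_left hr.ne'
  · exact (mul_eq_zero.mp p02).resolve_left hr.ne'

/-- **the Hodge-Riemann relations** -/
theorem per_of (T : TopI μ b P q) {κ : Type*} [Fintype κ] {β : κ → F2 C}
    (hD : ∀ l : κ → ℝ, (∀ i, 0 < l i) → HD J (∑ i, l i • β i) s1 s2) {l0 : κ → ℝ}
    (hl0 : ∀ i, 0 < l0 i) (hq : 0 < q (∑ i, l0 i • β i)) :
    q s1 = q s2 ∧ 0 < q s1 ∧ QuadraticMap.polar q s1 s2 = 0 ∧
      ∀ i, QuadraticMap.polar q s1 (β i) = 0 ∧ QuadraticMap.polar q s2 (β i) = 0 := by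
  classical
  obtain ⟨h1, h2, h3, h4, h5⟩ := per_one T (hD l0 hl0) hq
  refine ⟨h1, h2, h3, fun i => ?_⟩
  set x : F2 C := ∑ i, l0 i • β i with hx
  -- a small positive multiple of `β i`
  have hc : Continuous fun s : ℝ => q (x + s • β i) := by
    have : (fun s : ℝ => q (x + s • β i)) = fun s =>
        q x + s * QuadraticMap.polar q x (β i) + s ^ 2 * q (β i) := by
      funext s
      exact FujSig_358.q_line _ _ _ _
    rw [this]
    fun_prop
  have h6 : ∀ᶠ s in 𝓝[>] (0 : ℝ), 0 < q (x + s • β i) := by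
    have h7 : ∀ᶠ s in 𝓝 (0 : ℝ), 0 < q (x + s • β i) :=
      hc.continuousAt.eventually
        (lt_mem_nhds (by show 0 < q (x + (0 : ℝ) • β i); rw [zero_smul, add_zero]; exact hq))
    exact h7.filter_mono nhdsWithin_le_nhds
  obtain ⟨ε, h7, h8⟩ := (h6.and self_mem_nhdsWithin).exists
  have hε : (0 : ℝ) < ε := h8
  have e1 : ∑ j, (l0 j + if j = i then ε else 0) • β j = x + ε • β i := by
    simp only [add_smul, Finset.sum_add_distrib, ite_smul, zero_smul]
    rw [Finset.sum_ite_eq' Finset.univ i, if_pos (Finset.mem_univ i)]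
  have hD' : HD J (x + ε • β i) s1 s2 := by
    rw [← e1]
    refine hD _ fun j => ?_
    split_ifs
    · exact add_pos (hl0 j) hε
    · rw [add_zero]; exact hl0 j
  obtain ⟨-, -, -, h9, h10⟩ := per_one T hD' h7
  rw [QuadraticMap.polar_add_left, h4, polar_smul_left', zero_add] at h9
  rw [QuadraticMap.polar_add_left, h5, polar_smul_left', zero_add] at h10
  rw [QuadraticMap.polar_comm _ s1, QuadraticMap.polar_comm _ s2]
  exact ⟨(mul_eq_zero.mp h9).resolve_left hε.ne', (mul_eq_zero.mp h10).resolve_left hε.ne'⟩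

/-- **the Hodge-Riemann relations on the classes**, the field `per` of `LI_473.HM` -/
theorem per_cl (T : TopI μ b P q) {Q : HdR C →ₗ[ℝ] HdR C →ₗ[ℝ] ℝ} {k : ℝ} (hk : 0 < k)
    (hQ : ∀ x y : F2 C, Q (cl x) (cl y) = k * QuadraticMap.polar q x y)
    {κ : Type*} [Fintype κ] {β : κ → F2 C}
    (hD : ∀ l : κ → ℝ, (∀ i, 0 < l i) → HD J (∑ i, l i • β i) s1 s2) {l0 : κ → ℝ}
    (hl0 : ∀ i, 0 < l0 i) (hq : 0 < Q (∑ i, l0 i • cl (β i)) (∑ i, l0 i • cl (β i))) :
    Q (cl s1) (cl s1) = Q (cl s2) (cl s2) ∧ 0 < Q (cl s1) (cl s1) ∧ Q (cl s1) (cl s2) = 0 ∧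
      ∀ i, Q (cl s1) (cl (β i)) = 0 ∧ Q (cl s2) (cl (β i)) = 0 := by
  have e0 : ∑ i, l0 i • cl (β i) = cl (∑ i, l0 i • β i) := by
    have : ∀ x : F2 C, cl x = (exS C).mkQ x := fun _ => rfl
    rw [this, map_sum]
    rfl
  have e1 : ∀ x : F2 C, Q (cl x) (cl x) = k * (2 * q x) := by
    intro x
    rw [hQ, QuadraticMap.polar_self, two_nsmul]
    ring
  rw [e0, e1] at hq
  have hq' : 0 < q (∑ i, l0 i • β i) := by
    have := (mul_pos_iff_of_pos_left hk).mp hq
    linarith
  obtain ⟨h1, h2, h3, h4⟩ := per_of T hD hl0 hq'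
  refine ⟨by rw [e1, e1, h1], by rw [e1]; positivity, by rw [hQ, h3, mul_zero], fun i => ?_⟩
  rw [hQ, hQ, (h4 i).1, (h4 i).2, mul_zero]
  exact ⟨rfl, rfl⟩

end

end Crest.Agent.R281.Per_655
end

-- ▼ part R281/Hmi1_790
section

/-!
# R281 (S0424), DIV 2, HM INSTANCE (helper790), part 1: the Fujiki form on classes, `LI_473.HM` from
Hodge data of a `QFam`

* `Fj μ b P QH`   : `QH` is a form on `HdR C` with the Fujiki relation (`Fj.of_top` from `TopI`)
* `Fj.holL`       : `QH (cl ·) y` sends holomorphic families to holomorphic functions (267's `HolL`)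
* `Fj.rG_q`       : an element of the group of the marked cover which fixes one positive class is an
                    isometry
* `frH`           : 473's `Fr` of 998's `Frm`
* `HD0 F C Fr κ`  : Hodge data: holomorphic form `b`, classes `β k` constant along the transports,
                    prescribed classes; `HD0.hm : HM (ls F C) Fr (Lz C) κ`; `HD0.hol` = the
                    hypothesis of 267's `HM.geomM`
-/

set_option autoImplicit false
set_option linter.unusedSectionVars false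
set_option maxSynthPendingDepth 5

open Set Filter Topology Complex MeasureTheory
open scoped ContDiff

namespace Crest.Agent.R281.Hmi_790

open Crest.Agent.R281.HkR_835 Crest.Agent.R281.Ehr2_268
open Crest.Agent.R281.Dif_268 hiding Coh symm2
open Crest.Agent.R281.Ehr4_268 Crest.Agent.R281.CL_473 Crest.Agent.R281.Ehr6_268
open Crest.Agent.R281.Cdr_234 Crest.Agent.R281.Ehr7_268 Crest.Agent.R281.LI_473
open Crest.Agent.R281.Ti_846 (IM IM_apply IM_perm RPart Ori II)
open Crest.Agent.R281.Ehr8_268 (QBF)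
open Crest.Agent.R281.Al_830 (TopI)
open Crest.Agent.R281.Alg_998 (Frm)

noncomputable section

universe uq

section sym

variable {V X : Type} [NormedAddCommGroup V] [NormedSpace ℝ V] [TopologicalSpace X]
  {C : RCh V X} {QH : HdR C →ₗ[ℝ] HdR C →ₗ[ℝ] ℝ}

theorem symm_of_cl {Q : F2 C →ₗ[ℝ] F2 C →ₗ[ℝ] ℝ} (hs : ∀ x y, Q x y = Q y x)
    (hQ : ∀ x y : F2 C, QH (cl x) (cl y) = Q x y) (x y : HdR C) : QH x y = QH y x := by
  obtain ⟨x, rfl⟩ := cl_surj x
  obtain ⟨y, rfl⟩ := cl_surj y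
  rw [hQ, hQ, hs]

end sym

section form

variable {V X : Type} [NormedAddCommGroup V] [NormedSpace ℝ V] [TopologicalSpace X]
  {C : RCh V X} [FiniteDimensional ℝ V] [MeasurableSpace V] [BorelSpace V] (μ : Measure V)
  [μ.IsAddHaarMeasure] [CompactSpace X] {n : ℕ}

/-- the class map, linear -/
def clL (C : RCh V X) : F2 C →ₗ[ℝ] HdR C where
  toFun := cl
  map_add' := cl_add
  map_smul' := cl_smul

/-- a form on the classes with the Fujiki relation -/
structure Fj (b : Module.Basis (Fin (n + n) × Fin 2) ℝ V) (P : RPart C)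
    (QH : HdR C →ₗ[ℝ] HdR C →ₗ[ℝ] ℝ) : Prop where
  npos : 0 < n
  ori : Ori C
  symm : ∀ x y, QH x y = QH y x
  fuj : ∃ c0 : ℝ, 0 < c0 ∧ ∀ x : F2 C, IM μ b P (fun _ => x) = c0 * (QH (cl x) (cl x)) ^ n

variable {μ} {b : Module.Basis (Fin (n + n) × Fin 2) ℝ V} {P : RPart C}
  {QH : HdR C →ₗ[ℝ] HdR C →ₗ[ℝ] ℝ}

/-- from 830's `TopI` -/
theorem Fj.of_top {q : QuadraticForm ℝ (F2 C)} (T : TopI μ b P q) {k : ℝ} (hk : 0 < k)
    (hQ : ∀ x y : F2 C, QH (cl x) (cl y) = k * QuadraticMap.polar q x y) : Fj μ b P QH where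
  npos := T.npos
  ori := T.ori
  symm x y := by
    obtain ⟨x, rfl⟩ := cl_surj x
    obtain ⟨y, rfl⟩ := cl_surj y
    rw [hQ, hQ, QuadraticMap.polar_comm]
  fuj := by
    refine ⟨((2 * k)⁻¹) ^ n, by positivity, fun x => ?_⟩
    rw [T.fuj, hQ, ← mul_pow]
    congr 1
    rw [QuadraticMap.polar_self, two_nsmul]
    field_simp
    ring

namespace Fj

variable (h : Fj μ b P QH)
include h

/-- **267's `HolL`** -/
theorem holL {x0 : HdR C} (h0 : QH x0 x0 ≠ 0) (y : HdR C) :
    Phb_267.HolL C (fun w => QH (cl w) y) := by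
  intro E _ _ B R T hB hf
  obtain ⟨c0, hc0, hF⟩ := h.fuj
  obtain ⟨y, rfl⟩ := cl_surj y
  obtain ⟨x0, rfl⟩ := cl_surj x0
  have hν : n ≠ 0 := h.npos.ne'
  have hsym : Ph1_429.Sym (c0⁻¹ • IM μ b P) := fun σ w => by
    rw [smul_apply, smul_apply, IM_perm]
  have hF' : ∀ x : F2 C, (c0⁻¹ • IM μ b P) (fun _ => x) =
      ((QH.compl₁₂ (clL C) (clL C)) x x) ^ n := by
    intro x
    rw [smul_apply, hF, smul_eq_mul, ← mul_assoc, inv_mul_cancel₀ hc0.ne', one_mul]
    rfl
  have h1 := Ph1_429.hol_of hν (by rw [Fintype.card_fin]; ring) hsym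
    (QH.compl₁₂ (clL C) (clL C)) (fun x y => h.symm _ _) hF' (x₀ := x0) h0 (D := B) R T
    (fun w k => by
      have h2 := (Phb_267.HolL.of_II μ b P w k E B R T hB hf).const_mul ((c0⁻¹ : ℝ) : ℂ)
      refine h2.congr fun q _ => ?_
      simp only [smul_apply, smul_eq_mul, IM_apply]
      push_cast
      ring) y
  refine h1.congr fun q _ => ?_
  show ((QH (cl (R q)) (cl y) : ℝ) : ℂ) + ((QH (cl (T q)) (cl y) : ℝ) : ℂ) * I =
    ((QH (cl y) (cl (R q)) : ℝ) : ℂ) + ((QH (cl y) (cl (T q)) : ℝ) : ℂ) * I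
  rw [h.symm (cl (R q)), h.symm (cl (T q))]

/-- **isometries** -/
theorem rG_q [PreconnectedSpace X] (g : difG C ⧸ tG C) {x0 : HdR C} (h0 : 0 < QH x0 x0)
    (hg : rG C g x0 = x0) (x y : HdR C) : QH (rG C g x) (rG C g y) = QH x y := by
  obtain ⟨c0, hc0, hF⟩ := h.fuj
  obtain ⟨φ, rfl⟩ := QuotientGroup.mk_surjective g
  obtain ⟨s, -, hs⟩ := GI_473.II_pull μ h.ori b P φ⁻¹
  have h1 : ∀ w : F2 C, IM μ b P (fun _ => (invS φ).pull w) = s * IM μ b P (fun _ => w) :=
    fun w => hs (invS φ) (invS_f φ) (fun _ => w)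
  refine Ph1_429.quad_g (ν := n) h.npos.ne' QH h.symm (rG C (QuotientGroup.mk φ)) (ε := s)
    (fun z => ?_) h0 (by rw [hg]) x y
  obtain ⟨w, rfl⟩ := cl_surj z
  have h2 := h1 w
  rw [hF, hF] at h2
  rw [rG_mk, hPull_cl]
  have h3 : c0 * (QH (cl ((invS φ).pull w)) (cl ((invS φ).pull w))) ^ n =
      c0 * (s * (QH (cl w) (cl w)) ^ n) := by rw [h2]; ring
  exact mul_left_cancel₀ hc0.ne' h3

end Fj

end form

section frame

variable {V X : Type} [NormedAddCommGroup V] [NormedSpace ℝ V] [TopologicalSpace X]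
  {C : RCh V X} {QH : HdR C →ₗ[ℝ] HdR C →ₗ[ℝ] ℝ} {Q : F2 C →ₗ[ℝ] F2 C →ₗ[ℝ] ℝ}

/-- the ternary frame on classes of 998's `Frm` -/
def frH (F : Frm C Q) (hs : ∀ x y, Q x y = Q y x) (hQ : ∀ x y : F2 C, QH (cl x) (cl y) = Q x y) :
    Fr QH where
  sym := symm_of_cl hs hQ
  N := F.N
  N_pos := F.hN
  e := cl F.e
  v := cl F.v
  f := cl F.es
  ee := by rw [hQ, F.e_e]
  ev := by rw [hQ, F.e_v]
  vv := by rw [hQ, F.v_v]
  ff := by rw [hQ, F.es_es]
  fv := by rw [hQ, F.es_v]
  fe := by rw [hQ, F.es_e]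

variable (F : Frm C Q) (hs : ∀ x y, Q x y = Q y x) (hQ : ∀ x y : F2 C, QH (cl x) (cl y) = Q x y)

@[simp] theorem frH_N : (frH F hs hQ).N = F.N := rfl
@[simp] theorem frH_e : (frH F hs hQ).e = cl F.e := rfl
@[simp] theorem frH_v : (frH F hs hQ).v = cl F.v := rfl
@[simp] theorem frH_f : (frH F hs hQ).f = cl F.es := rfl


end frame

/-! ### Hodge data over a `QFam` -/

section hm

variable {Q : Type uq} [TopologicalSpace Q] {E H : Type} [NormedAddCommGroup E]
    [NormedSpace ℂ E] [NormedAddCommGroup H] [NormedSpace ℂ H] {V X : Type}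
    [NormedAddCommGroup V] [NormedSpace ℝ V] [TopologicalSpace X]
    [FiniteDimensional ℝ V] [CompactSpace X] [T2Space X] [FiniteDimensional ℂ H]

/-- Hodge data over a `QFam` -/
structure HD0 (F : QFam Q E H) (C : RCh V X) {QH : HdR C →ₗ[ℝ] HdR C →ₗ[ℝ] ℝ} (Fr : Fr QH)
    (κ : Type) where
  /-- the holomorphic form -/
  b : Phb_267.QCF F
  /-- the forms with constant classes -/
  β : κ → QBF F
  β_s : ∀ k (x : MQ F C), ∀ q ∈ (ls F C).U ((ls F C).p x),
    ((β k).natF C).cls ((ls F C).s x q) = ((β k).natF C).cls x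
  /-- the prescribed classes -/
  cl0 : κ → HdR C
  /-- isometries -/
  r_q : ∀ g : difG C ⧸ tG C, (∀ k, rG C g (cl0 k) = cl0 k) →
    ∀ x y, QH (rG C g x) (rG C g y) = QH x y
  holL : ∀ y, Phb_267.HolL C (fun w => QH (cl w) y)
  mem_M : ∀ x, (∀ k, QH x (cl0 k) = 0) → x ∈ Fr.M
  perp : ∀ x ∈ Fr.M, ∀ k, QH x (cl0 k) = 0
  /-- Hodge-Riemann relations at the markings with the prescribed classes -/
  per : ∀ m : Mark F C, (∀ k, cl ((β k).form m) = cl0 k) →
    QH (cl (b.re.form m)) (cl (b.re.form m)) = QH (cl (b.im.form m)) (cl (b.im.form m)) ∧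
    0 < QH (cl (b.re.form m)) (cl (b.re.form m)) ∧
    QH (cl (b.re.form m)) (cl (b.im.form m)) = 0 ∧
    ∀ k, QH (cl (b.re.form m)) (cl0 k) = 0 ∧ QH (cl (b.im.form m)) (cl0 k) = 0

namespace HD0

variable {F : QFam Q E H} {C : RCh V X} {QH : HdR C →ₗ[ℝ] HdR C →ₗ[ℝ] ℝ} {Fr : Fr QH} {κ : Type}
  (D : HD0 F C Fr κ)

/-- **the instance** of 473's Hodge data -/
def hm : HM (ls F C) Fr (Lz C) κ where
  r := rG C
  r_mem g _ hx := rG_mem g hx
  cls k := ((D.β k).natF C).cls
  cls_smul k g x := (D.β k).cls_smul g x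
  cls_s k x q hq := D.β_s k x q hq
  cl := D.cl0
  r_q := D.r_q
  mem_M := D.mem_M
  perp := D.perp
  re := (D.b.re.natF C).cls
  im := (D.b.im.natF C).cls
  re_smul g x := D.b.re.cls_smul g x
  im_smul g x := D.b.im.cls_smul g x
  per x hx := by
    obtain ⟨m, rfl⟩ := MQ.exists_rep x
    exact D.per m hx
  cont0 x _ := (Phb_267.cont_of_QCF D.b Fr D.holL x).1
  cont1 x _ := (Phb_267.cont_of_QCF D.b Fr D.holL x).2
  conn := ls_conn F C

@[simp] theorem hm_r : D.hm.r = rG C := rfl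
@[simp] theorem hm_cls (k : κ) : D.hm.cls k = ((D.β k).natF C).cls := rfl
@[simp] theorem hm_cl : D.hm.cl = D.cl0 := rfl
@[simp] theorem hm_re : D.hm.re = (D.b.re.natF C).cls := rfl
@[simp] theorem hm_im : D.hm.im = (D.b.im.natF C).cls := rfl

end HD0

end hm

section hol

open Crest.Agent.R281.Am_957 Crest.Agent.R281.Sl_957

variable {H : Type} [NormedAddCommGroup H] [NormedSpace ℂ H]
    {V X : Type} [NormedAddCommGroup V] [NormedSpace ℝ V] [TopologicalSpace X]
    {C : RCh V X} [FiniteDimensional ℝ V] [CompactSpace X] [T2Space X]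
    [FiniteDimensional ℂ H] {k₀ ι : Type*} [Field k₀] [Algebra k₀ ℂ] {M : Fmt k₀ ι}
    {F : QFam (QM M) (Fin M.m → ℂ) H} {QH : HdR C →ₗ[ℝ] HdR C →ₗ[ℝ] ℝ} {Fr : Fr QH} {κ : Type}

/-- the hypothesis `hol` of `HM.geomM` -/
theorem HD0.hol (D : HD0 F C Fr κ) (hu : ∀ q : QM M, F.u q = q.1.1) (x : MQ F C) :
    ∃ φ₀ φ₁ : (Fin M.m → ℂ) → ℂ, AnalyticAt ℂ φ₀ ((ls F C).p x).1.1 ∧
      AnalyticAt ℂ φ₁ ((ls F C).p x).1.1 ∧ ∀ᶠ q in 𝓝 ((ls F C).p x),
        Fr.z0 (D.hm.re ((ls F C).s x q)) (D.hm.im ((ls F C).s x q)) = φ₀ q.1.1 ∧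
        Fr.z1 (D.hm.re ((ls F C).s x q)) (D.hm.im ((ls F C).s x q)) = φ₁ q.1.1 :=
  Phb_267.hol_of_QCF D.b Fr D.holL hu x

/-- **the geometry over the model** -/
def HD0.geomM (D : HD0 F C Fr κ) (hu : ∀ q : QM M, F.u q = q.1.1) :
    GeomM M Fr.N (Fr.Λ (Lz C)) D.hm.Gp D.hm.Mk :=
  D.hm.geomM fun x _ => D.hol hu x

end hol

end

end Crest.Agent.R281.Hmi_790
end

-- ▼ part R281/Hmi2_790
section

/-!
# R281 (S0424), DIV 2, HM INSTANCE (helper790), part 2: 473's Hodge data for a type (957's `Ty`)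

* `qs hC`       : 684's `QS Q` from 902's `Ctx`; `fj_of_ctx` : the Fujiki relation on the classes
* `qc T`        : the holomorphic form of the family of the type (377's `qcfC`)
* `Per T hQ`    : the Hodge-Riemann relations at the markings with the prescribed classes
* `hd0`, **`hm`** : `HM T.L (frF F hQ) (Lz C) (Fin T.ρ)`; `hm_hol`, **`gm`** : 267's `GeomM`

-/

set_option autoImplicit false
set_option linter.unusedSectionVars false
set_option maxSynthPendingDepth 5

open Set Filter Topology Complex MeasureTheory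
open scoped ContDiff

namespace Crest.Agent.R281.Hmi_790

open Crest.Agent.R275.Geo
open Crest.Agent.R281.HkR_835 Crest.Agent.R281.Ehr2_268
open Crest.Agent.R281.Dif_268 hiding Coh symm2
open Crest.Agent.R281.Ehr4_268 Crest.Agent.R281.CL_473 Crest.Agent.R281.Ehr6_268
open Crest.Agent.R281.Cdr_234 Crest.Agent.R281.Ehr7_268 Crest.Agent.R281.LI_473
open Crest.Agent.R281.Ti_846 (IM IM_apply IM_perm RPart Ori II lc)
open Crest.Agent.R281.Ehr8_268 (QBF)
open Crest.Agent.R281.Al_830 (TopI)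
open Crest.Agent.R281.Alg_998 (Frm)
open Crest.Agent.R281.Sta2_684 (QS)
open Crest.Agent.R281.Sta3_684 (Bq)
open Crest.Agent.R281.Dv_957 Crest.Agent.R281.Am_957 Crest.Agent.R281.Sl_957
open Crest.Agent.R281.Fuj7_207 (bn)
open Crest.Agent.R281.RkD_902 (Ctx)
open Crest.Agent.R281.Qc_377 (qcfC)

noncomputable section

universe uq

/-- 268's holomorphic forms in 267's form -/
def toPhb {Q : Type uq} [TopologicalSpace Q] {E H : Type} [NormedAddCommGroup E]
    [NormedSpace ℂ E] [NormedAddCommGroup H] [NormedSpace ℂ H] {F : QFam Q E H}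
    (b : Ehr11_268.QCF F) : Phb_267.QCF F := ⟨b.β, b.compat⟩



section types

variable {V X : Type} [NormedAddCommGroup V] [NormedSpace ℝ V] [TopologicalSpace X]
  {C : RCh V X} {n : ℕ}

/-- the holomorphic form of the family of the type -/
def qc (T : Ty n C) : Ehr11_268.QCF T.F := qcfC T.K T.M T.nice T.good

variable [FiniteDimensional ℝ V] [CompactSpace X] [T2Space X] {Q : F2 C →ₗ[ℝ] F2 C →ₗ[ℝ] ℝ}

/-- the class of the real part at a marking -/
def re (T : Ty n C) : MQ T.F C → HdR C := ((qc T).re.natF C).cls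

/-- the class of the imaginary part at a marking -/
def im (T : Ty n C) : MQ T.F C → HdR C := ((qc T).im.natF C).cls

/-- **the Hodge-Riemann relations** at the markings with the prescribed classes -/
def Per (T : Ty n C) (hQ : QS Q) : Prop :=
  ∀ m : Mark T.F C, (∀ k, T.cls k (MQ.mk m) = T.pcl k) →
    Bq hQ (re T (MQ.mk m)) (re T (MQ.mk m)) = Bq hQ (im T (MQ.mk m)) (im T (MQ.mk m)) ∧
    0 < Bq hQ (re T (MQ.mk m)) (re T (MQ.mk m)) ∧
    Bq hQ (re T (MQ.mk m)) (im T (MQ.mk m)) = 0 ∧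
    ∀ k, Bq hQ (re T (MQ.mk m)) (T.pcl k) = 0 ∧ Bq hQ (im T (MQ.mk m)) (T.pcl k) = 0

variable [MeasurableSpace V] [BorelSpace V] {μ : Measure V} [μ.IsAddHaarMeasure] {ν : ℕ}
  {b : Module.Basis (Fin (ν + ν) × Fin 2) ℝ V} {P : RPart C}

theorem rG_fix (T : Ty n C) (g : difG C ⧸ tG C) (hg : ∀ k, rG C g (T.pcl k) = T.pcl k) :
    rG C g (∑ k, T.B k) = ∑ k, T.B k := by
  rw [map_sum]
  refine Finset.sum_congr rfl fun k _ => ?_
  have h1 := hg k
  rw [Ty.pcl, map_smul] at h1
  exact smul_right_injective _ Real.pi_ne_zero h1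

/-- Hodge data of a type -/
def hd0 [PreconnectedSpace X] (T : Ty n C) (F : Frm C Q) (hQ : QS Q)
    (hj : Fj μ b P (Bq hQ)) (hok : T.Ok F hQ)
    (pos : 0 < Bq hQ (∑ k, T.B k) (∑ k, T.B k)) (per : Per T hQ) :
    HD0 T.F C (frF F hQ) (Fin T.ρ) where
  b := toPhb (qc T)
  β := T.qb
  β_s := T.cls_s
  cl0 := T.pcl
  r_q g hg x y := hj.rG_q g pos (rG_fix T g hg) x y
  holL := hj.holL pos.ne'
  mem_M := hok.mem_M
  perp := hok.perp'
  per m hm := per m hm

end types

/-! ### the context of 902 -/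

section ctx

variable {n : ℕ} {X : Type} [TopologicalSpace X] [CompactSpace X] {C : RCh (Cn (2 * n)) X}
  {Q : F2 C →ₗ[ℝ] F2 C →ₗ[ℝ] ℝ}

/-- the form of the context -/
theorem qs (hC : Ctx n C Q) : QS Q := ⟨hC.symm, hC.ex, hC.eq⟩

/-- the Fujiki relation on the classes -/
theorem fj_of_ctx (hC : Ctx n C Q) :
    ∃ P : RPart C, Fj (lc (2 * n)) (bn (two_mul n)) P (Bq (qs hC)) := by
  obtain ⟨P, q, k, hk, hT, h⟩ := hC.top
  exact ⟨P, Fj.of_top hT hk fun x y => h x y⟩

variable [T2Space X] [ConnectedSpace X] (hC : Ctx n C Q) (F : Frm C Q) (T : Ty (2 * n) C)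
  (hok : T.Ok F (qs hC)) (pos : 0 < Bq (qs hC) (∑ k, T.B k) (∑ k, T.B k))
  (per : Per T (qs hC))

/-- Hodge data of a type, in the context -/
def hdC : HD0 T.F C (frF F (qs hC)) (Fin T.ρ) :=
  hd0 T F (qs hC) (fj_of_ctx hC).choose_spec hok pos per

/-- **473's `HM`** of a type -/
def hm : HM T.L (frF F (qs hC)) (Lz C) (Fin T.ρ) := (hdC hC F T hok pos per).hm


/-- the hypothesis `hol` of `HM.geomM` -/
theorem hm_hol (x : MQ T.F C) :
    ∃ φ₀ φ₁ : (Fin T.M.m → ℂ) → ℂ, AnalyticAt ℂ φ₀ (T.L.p x).1.1 ∧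
      AnalyticAt ℂ φ₁ (T.L.p x).1.1 ∧ ∀ᶠ q in 𝓝 (T.L.p x),
        (frF F (qs hC)).z0 ((hm hC F T hok pos per).re (T.L.s x q))
          ((hm hC F T hok pos per).im (T.L.s x q)) = φ₀ q.1.1 ∧
        (frF F (qs hC)).z1 ((hm hC F T hok pos per).re (T.L.s x q))
          ((hm hC F T hok pos per).im (T.L.s x q)) = φ₁ q.1.1 :=
  (hdC hC F T hok pos per).hol (fun _ => rfl) x

/-- **267's `GeomM`** of a type -/
def gm : GeomM T.M (frF F (qs hC)).N ((frF F (qs hC)).Λ (Lz C)) (hm hC F T hok pos per).Gp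
    (hm hC F T hok pos per).Mk :=
  (hm hC F T hok pos per).geomM fun x _ => hm_hol hC F T hok pos per x

end ctx

end

end Crest.Agent.R281.Hmi_790
end

-- ▼ part R281/Phl8_655
section

/-!
# R281 (S0424), PER-HOL, part 8 (helper655): the field `per` of `LI_473.HM` over the types

* `pos_of_rel` : `T.Rel A`, `0 < Q A A` ⇒ `0 < Q(∑ B_k, ∑ B_k)`
* `per_mk`     : at a marking whose block forms have the prescribed classes
* `per_ty`     : the field `per` word by word

The input `hD` (every positive combination of the block forms at a marking is a Kaehler form for one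
complex structure, of which `re + i im` is a holomorphic symplectic form) is 313's point level.
-/

set_option autoImplicit false
set_option linter.unusedSectionVars false
set_option maxSynthPendingDepth 3

open Set Filter Topology

namespace Crest.Agent.R281.Per_655

open Crest.Agent.R275.EDR890
open Crest.Agent.R275.Geo Crest.Agent.R275.Core144 Crest.Agent.R275.GC293
open Crest.Agent.R273.Defs_333 Crest.Agent.R273.Kah_333
open Crest.Agent.R260.ACM_580 Crest.Agent.R260.NNB_580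
open Crest.Agent.R281.HkR_835
open Crest.Agent.R281.NefO_476
open Crest.Agent.R281.Al_830
open Crest.Agent.R281.Cdr_234 (HdR)
open Crest.Agent.R281.Ehr6_268 Crest.Agent.R281.Ehr7_268 Crest.Agent.R281.Ehr8_268
open Crest.Agent.R281.Ehr11_268 Crest.Agent.R281.Dif_268
open Crest.Agent.R281.Sta2_684 (QS)
open Crest.Agent.R281.Sta3_684 (Bq)
open Crest.Agent.R281.Dv_957 Crest.Agent.R281.Alg_998 Crest.Agent.R281.RkD_902

noncomputable section

section pos

variable {V X : Type} [NormedAddCommGroup V] [NormedSpace ℝ V] [TopologicalSpace X]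
  [FiniteDimensional ℝ V] {C : RCh V X} {Q : F2 C →ₗ[ℝ] F2 C →ₗ[ℝ] ℝ} {n : ℕ}


end pos

variable {n : ℕ} {X : Type} [TopologicalSpace X] [CompactSpace X] [T2Space X] [ConnectedSpace X]
  {C : RCh (Cn (2 * n)) X} {Q : F2 C →ₗ[ℝ] F2 C →ₗ[ℝ] ℝ}

/-- at a marking with the prescribed classes -/
theorem per_mk (hC : Ctx n C Q) (hQ : QS Q) {T : Ty (2 * n) C}
    (hpos : 0 < Bq hQ (∑ k, T.B k) (∑ k, T.B k)) {m : Mark T.F C} {J : AJ C} {s1 s2 : F2 C}
    (hD : ∀ l : Fin T.ρ → ℝ, (∀ i, 0 < l i) → HD J (∑ i, l i • (T.qb i).form m) s1 s2)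
    (hm : ∀ i, cl ((T.qb i).form m) = T.pcl i) :
    Bq hQ (cl s1) (cl s1) = Bq hQ (cl s2) (cl s2) ∧ 0 < Bq hQ (cl s1) (cl s1) ∧
      Bq hQ (cl s1) (cl s2) = 0 ∧
      ∀ i, Bq hQ (cl s1) (T.pcl i) = 0 ∧ Bq hQ (cl s2) (T.pcl i) = 0 := by
  obtain ⟨P, q, κ, hκ, hT, hq⟩ := hC.top
  have h1 : 0 < Bq hQ (∑ i, (1 : ℝ) • cl ((T.qb i).form m))
      (∑ i, (1 : ℝ) • cl ((T.qb i).form m)) := by
    have e1 : ∑ i, (1 : ℝ) • cl ((T.qb i).form m) = Real.pi • ∑ k, T.B k := by
      rw [Finset.smul_sum]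
      refine Finset.sum_congr rfl fun i _ => ?_
      rw [one_smul, hm i]
      rfl
    rw [e1, map_smul, map_smul, LinearMap.smul_apply, smul_eq_mul, smul_eq_mul]
    exact mul_pos Real.pi_pos (mul_pos Real.pi_pos hpos)
  obtain ⟨h2, h3, h4, h5⟩ := per_cl hT hκ (Q := Bq hQ) (fun x y => hq x y) hD
    (l0 := fun _ => 1) (fun _ => one_pos) h1
  refine ⟨h2, h3, h4, fun i => ?_⟩
  rw [← hm i]
  exact h5 i

/-- **the field `per` of `HM`** -/
theorem per_ty (hC : Ctx n C Q) (hQ : QS Q) {T : Ty (2 * n) C}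
    (hpos : 0 < Bq hQ (∑ k, T.B k) (∑ k, T.B k)) (b : QCF T.F) (J : Mark T.F C → AJ C)
    (hD : ∀ (m : Mark T.F C) (l : Fin T.ρ → ℝ), (∀ i, 0 < l i) →
      HD (J m) (∑ i, l i • (T.qb i).form m) (b.re.form m) (b.im.form m))
    (x : MQ T.F C) (hx : ∀ i, T.cls i x = T.pcl i) :
    Bq hQ ((b.re.natF C).cls x) ((b.re.natF C).cls x) =
        Bq hQ ((b.im.natF C).cls x) ((b.im.natF C).cls x) ∧
      0 < Bq hQ ((b.re.natF C).cls x) ((b.re.natF C).cls x) ∧
      Bq hQ ((b.re.natF C).cls x) ((b.im.natF C).cls x) = 0 ∧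
      ∀ i, Bq hQ ((b.re.natF C).cls x) (T.pcl i) = 0 ∧
        Bq hQ ((b.im.natF C).cls x) (T.pcl i) = 0 := by
  obtain ⟨m, rfl⟩ := MQ.exists_rep x
  exact per_mk hC hQ hpos (hD m) hx

end

end Crest.Agent.R281.Per_655
end

-- ▼ part R281/Hmi3_790
section

/-!
# R281 (S0424), DIV 2, HM INSTANCE (helper790), part 3: the Hodge data of every type

* `per_all` : the Hodge-Riemann relations at every marking (655's `per_ty`, 313's `Ty.hd`)
* **`hmOut`** : 957's `HmOut T F hQ` for every type, in the context of 902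
-/

set_option autoImplicit false
set_option linter.unusedSectionVars false
set_option maxSynthPendingDepth 5

open Set Filter Topology Complex MeasureTheory
open scoped ContDiff

namespace Crest.Agent.R281.Hmi_790

open Crest.Agent.R275.Geo
open Crest.Agent.R281.HkR_835 Crest.Agent.R281.Ehr2_268
open Crest.Agent.R281.Dif_268 hiding Coh symm2
open Crest.Agent.R281.Ehr4_268 Crest.Agent.R281.CL_473 Crest.Agent.R281.Ehr6_268
open Crest.Agent.R281.Cdr_234 Crest.Agent.R281.Ehr7_268 Crest.Agent.R281.LI_473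
open Crest.Agent.R281.Alg_998 (Frm)
open Crest.Agent.R281.Sta2_684 (QS)
open Crest.Agent.R281.Sta3_684 (Bq)
open Crest.Agent.R281.Dv_957 Crest.Agent.R281.Am_957 Crest.Agent.R281.Sl_957
open Crest.Agent.R281.RkD_902 (Ctx)

noncomputable section

variable {n : ℕ} {X : Type} [TopologicalSpace X] [CompactSpace X] {C : RCh (Cn (2 * n)) X}
  {Q : F2 C →ₗ[ℝ] F2 C →ₗ[ℝ] ℝ} [T2Space X] [ConnectedSpace X]

/-- real dimension of the model space -/
theorem finrank_Cn : Module.finrank ℝ (Cn (2 * n)) = 2 * (2 * n) := by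
  rw [finrank_real_of_complex, finrank_euclideanSpace_fin]

/-- **the Hodge-Riemann relations** at every marking with the prescribed classes -/
theorem per_all (hC : Ctx n C Q) {T : Ty (2 * n) C}
    (pos : 0 < Bq (qs hC) (∑ k, T.B k) (∑ k, T.B k)) : Per T (qs hC) := fun m hm =>
  Per_655.per_ty hC (qs hC) pos T.qc T.J (fun m _ hl => T.hd finrank_Cn m hl) (MQ.mk m) hm

/-- **the Hodge data of every type** -/
def hmOut (hC : Ctx n C Q) (F : Frm C Q) (T : Ty (2 * n) C) (hok : T.Ok F (qs hC)) :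
    HmOut T F (qs hC) where
  D := hm hC F T hok hok.pos (per_all hC hok.pos)
  cls := rfl
  cl := rfl
  re := rfl
  im := rfl
  hol x _ := hm_hol hC F T hok hok.pos (per_all hC hok.pos) x

end

end Crest.Agent.R281.Hmi_790
end

-- ▼ part R281/Kb2_565
section

/-!
# R281 (S0424), START (D14), Kodaira half (helper565), part 2: embeddings by integral Kaehler classes

* `pos_c1F`   : positivity of the metric from positivity of the form
* `ex_fs`     : `lb P = L ^ m` ==> the Fubini-Study form of `P` is in the class `m c1(L)`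
* `kod_many`  : finitely many integral Kaehler classes `w i` of `J 0` of a triple: ONE good atlas,
                positive bundles `L i` of class `w i`, and for all large `m` embeddings `P i` with
                `O(1) = L i ^ m`, `[FS (P i)] = m w i`
-/

set_option autoImplicit false
set_option linter.unusedSectionVars false
set_option maxSynthPendingDepth 3

open Set Filter Topology Complex
open scoped ContDiff Matrix ComplexConjugate ComplexOrder

namespace Crest.Agent.R281.Kb_565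

open Crest.Agent.R275.Geo Crest.Agent.R275.Core144 Crest.Agent.R275.EDR890
open Crest.Agent.R275.GC293
open Crest.Agent.R273
open Crest.Agent.R273.Kah_333 Crest.Agent.R273.Hess_333 Crest.Agent.R273.HessB_333
open Crest.Agent.R273.Defs_333 Crest.Agent.R273.HM_333
open Crest.Agent.R273.Map_835 (HolMap dm Jp mem_dm)
open Crest.Agent.R273.PB_835 (LBih Ref pullLB)
open Crest.Agent.R273.FS_333 (lb fs)
open Crest.Agent.R281.Defs_273
open Crest.Agent.R260.ACM_580 Crest.Agent.R260.NNB_580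
open Crest.Agent.R281.HkR_835 Crest.Agent.R281.Ti_846
open Crest.Agent.R281.NefO_476 Crest.Agent.R281.Dif_268
open Crest.Agent.R281.Nef_252
open Crest.Agent.R281.Cdr_234 (Cls IntF RatF c1F c1F_w cmp_of_hol pull_f2 lefschetz Cls.cmp_F
  hess_pullHM)

noncomputable section

section met

variable {n : ℕ} {M : Type} [TopologicalSpace M] {A : Atl n M}

/-- the curvature is `π` times the Chern form -/
theorem curK_f2 {L : LB A} (h : HM L) : (Cdr_234.curK h).f2 = (Real.pi : ℝ) • c1F h := by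
  rw [c1F, smul_smul, mul_inv_cancel₀ Real.pi_ne_zero, one_smul]

theorem pos_of_c1F {L : LB A} {h : HM L} (hp : Pos (jA A) (c1F h)) : h.Pos := by
  refine pos_of_cur fun i x hx => ?_
  have h1 : Pos (jA A) (Cdr_234.curK h).f2 := by
    intro i z hz v hv
    have h2 := hp i z hz v hv
    rw [curK_f2]
    show 0 < Real.pi * _
    exact mul_pos Real.pi_pos h2
  exact (pos_f2 _).1 h1 i x hx

/-- the Chern form of the Fubini-Study metric of an embedding by `L ^ m` -/
theorem ex_fs {L : LB A} (h : HM L) (P : ProjD A) {m : ℕ} (hP : lb P = L ^ m) :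
    Ex (c1F (fs P) - (m : ℝ) • c1F h) := by
  have key : ∀ (L' : LB A) (e : L' = L ^ m) (h' : HM L'), Ex (c1F h' - (m : ℝ) • c1F h) := by
    rintro L' rfl h'
    have h1 := ex_c1F h' (HM_333.pow h m)
    have h2 := eqv_ex_sub (eqv_c1F_pow h m)
    have h3 := ex_add h1 h2
    rwa [sub_add_sub_cancel] at h3
  exact key _ hP _

end met

section hk

variable {V X : Type} [NormedAddCommGroup V] [NormedSpace ℝ V] [TopologicalSpace X]
  {d : ℕ} {C : RCh V X}

theorem pos_hk {H : HkT C} {A : Atl d X} (hA : Cp (H.acm 0) A) {L : LB A} {h : HM L} {w : F2 C}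
    (hw : Eqv (c1F h) ((cmp_of_cp hA).F w)) (hp : Pos (ofHk H 0) w) : h.Pos := by
  refine pos_of_c1F fun i z hz v hv => ?_
  have h1 := onA_pos H hA hp i z hz v hv
  have h2 := hw i z hz v (I • v)
  show 0 < (c1F h).w i z v (I • v)
  rw [h2]
  exact h1

/-- **KODAIRA for finitely many classes**: one atlas, one bound for the exponent -/
theorem kod_many [FiniteDimensional ℝ V] [CompactSpace X] [T2Space X] (hNN : NNat V d)
    (H : HkT C) {ρ : Type} [Fintype ρ] {w : ρ → F2 C} (hi : ∀ i, IntF (w i))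
    (hw : ∀ i, KCls (ofHk H 0) (w i)) :
    ∃ (A : Atl d X) (_ : Finite A.ι) (_ : GoodA A) (_ : Nonempty (Part A))
      (hA : Cp (H.acm 0) A) (L : ρ → LB A) (h : ∀ i, HM (L i)),
      (∀ i, (h i).Pos) ∧ (∀ i, Ex (c1F (h i) - (cmp_of_cp hA).F (w i))) ∧
      ∃ m0 : ℕ, ∀ m, m0 ≤ m → ∀ i, ∃ P : ProjD A, lb P = L i ^ m ∧
        Ex (c1F (fs P) - (m : ℝ) • (cmp_of_cp hA).F (w i)) := by
  choose w' e1 e2 e3 using hw
  obtain ⟨A, f1, f2, ⟨PA⟩, hA, L, h, hc⟩ := lef_many hNN H hi e2 e1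
  have hpos : ∀ i, (h i).Pos := fun i => pos_hk hA (hc i) (e3 i)
  have hex : ∀ i, Ex (c1F (h i) - (cmp_of_cp hA).F (w i)) := by
    intro i
    have a1 := eqv_ex_sub (hc i)
    have a2 : Ex ((cmp_of_cp hA).F (w' i - w i)) := (ex_cmp_F _ _).2 (e1 i)
    have a3 : Eqv ((cmp_of_cp hA).F (w' i - w i)) ((cmp_of_cp hA).F (w' i) - (cmp_of_cp hA).F (w i)) :=
      F_sub _ _ _
    have a4 := ex_add a1 (a3.ex a2)
    rwa [sub_add_sub_cancel] at a4
  choose m1 hm1 using fun i => Crest.Agent.R272.Kod8_410.kodaira PA (hpos i) (1 : LB A)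
  refine ⟨A, f1, f2, ⟨PA⟩, hA, L, h, hpos, hex, Finset.univ.sup m1, fun m hm i => ?_⟩
  obtain ⟨P, hP⟩ := hm1 i m ((Finset.le_sup (Finset.mem_univ i)).trans hm)
  rw [one_mul] at hP
  refine ⟨P, hP, ?_⟩
  have a1 := ex_fs (h i) P hP
  have a2 := Cdr_234.Ex.smul (m : ℝ) (hex i)
  have a3 := ex_add a1 a2
  rwa [smul_sub, sub_add_sub_cancel] at a3

end hk

end

end Crest.Agent.R281.Kb_565
end

-- ▼ part R281/Kb3_565
section

/-!
# R281 (S0424), START (D14), SEG (helper565), part 3: the Segre embedding, the code and the marking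

* `closed_sig`  : the holomorphic symplectic form of a triple is closed (867's `Closed`)
* `segT`        : the Segre quadrics in the coordinates of `segPs Q e`; `segT_rels`
* `ex_seg`      : the class of the Segre embedding is the sum of the classes of the blocks
* `start_seg`   : from one triple and finitely many integral Kaehler classes of `J 0` to the code,
                  the model, the base point and the marking
-/

set_option autoImplicit false
set_option linter.unusedSectionVars false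
set_option maxSynthPendingDepth 3

open Set Filter Topology Complex
open scoped ContDiff Matrix ComplexConjugate ComplexOrder

namespace Crest.Agent.R281.Kb_565

open Crest.Agent.R275.Geo Crest.Agent.R275.Core144 Crest.Agent.R275.EDR890
open Crest.Agent.R275.GC293
open Crest.Agent.R273
open Crest.Agent.R273.Kah_333 Crest.Agent.R273.Hess_333 Crest.Agent.R273.HessB_333
open Crest.Agent.R273.Defs_333 Crest.Agent.R273.HM_333
open Crest.Agent.R273.FS_333 (lb fs sec sec_eq)
open Crest.Agent.R281.Defs_273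
open Crest.Agent.R260.ACM_580 Crest.Agent.R260.NNB_580
open Crest.Agent.R281.HkR_835 Crest.Agent.R281.Ti_846 Crest.Agent.R281.HkP2_508
open Crest.Agent.R281.NefO_476 Crest.Agent.R281.Dif_268
open Crest.Agent.R281.Nef_252
open Crest.Agent.R281.Cdr_234 (Cls IntF RatF c1F c1F_w)
open Crest.Agent.R281.AF_867 (Closed Rels)
open Crest.Agent.R281.Blk_592 (seg segPs segPs_F segPs_lb segPoly segRel_seg segRel_iff segM MapD)

noncomputable section

/-! ### closedness -/

section closed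

variable {n : ℕ} {M : Type} [TopologicalSpace M] {A : Atl n M}

theorem closed_of_clH {σ : H2 A} (h : ClH σ) : Closed σ := by
  intro i x hx a b c
  have hz := (A.e i).map_source hx
  have hd : ∀ a b, DifferentiableAt ℂ (fun w => sl σ i w a b) (A.e i x) := fun a b =>
    (sl_hol σ i a b).differentiableAt ((A.e i).open_target.mem_nhds hz)
  have h1 := h i _ hz a b c
  rw [wd_hol' (hd a b), wd_hol' (hd b c), wd_hol' (hd c a)] at h1
  show fderiv ℂ (fun w => sl σ i w b c) (A.e i x) (EuclideanSpace.single a 1) +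
    fderiv ℂ (fun w => sl σ i w c a) (A.e i x) (EuclideanSpace.single b 1) +
    fderiv ℂ (fun w => sl σ i w a b) (A.e i x) (EuclideanSpace.single c 1) = 0
  linear_combination h1

variable {V : Type} [NormedAddCommGroup V] [NormedSpace ℝ V] {C : RCh V M}

theorem closed_sig (H : HkT C) (hA : Cp (H.acm 0) A) : Closed (H.sig hA).toH2 :=
  closed_of_clH (S0_cl (H.onA hA) (onA_J H hA))

end closed

/-! ### the Segre embedding -/

section seg

variable {n : ℕ} {M : Type} [TopologicalSpace M] {A : Atl n M}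
variable {ι : Type} [Fintype ι] [DecidableEq ι] [Nonempty ι] (Q : ι → ProjD A) {N : ℕ}
  (e : (∀ k, Fin ((Q k).N + 1)) ≃ Fin (N + 1))

/-- the Segre quadrics in the coordinates of `segPs Q e` -/
def segT (k₀ : Type) [CommRing k₀] : Finset (MvPolynomial (Fin (N + 1)) k₀) :=
  open Classical in
  Finset.univ.image fun q : ι × (∀ k, Fin ((Q k).N + 1)) × (∀ k, Fin ((Q k).N + 1)) =>
    MvPolynomial.rename e (segPoly k₀ q.1 q.2.1 q.2.2)

theorem mem_segT (k₀ : Type) [CommRing k₀] {p : MvPolynomial (Fin (N + 1)) k₀} :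
    p ∈ segT Q e k₀ ↔ ∃ k a a', MvPolynomial.rename e (segPoly k₀ k a a') = p := by
  classical
  unfold segT
  simp only [Finset.mem_image, Finset.mem_univ, true_and]
  constructor
  · rintro ⟨q, hq⟩
    exact ⟨q.1, q.2.1, q.2.2, hq⟩
  · rintro ⟨k, a, a', h⟩
    exact ⟨(k, a, a'), h⟩

theorem segT_map {k₀ k₁ : Type} [CommRing k₀] [CommRing k₁] (φ : k₀ →+* k₁)
    {p : MvPolynomial (Fin (N + 1)) k₀} (hp : p ∈ segT Q e k₀) :
    MvPolynomial.map φ p ∈ segT Q e k₁ := by
  obtain ⟨k, a, a', rfl⟩ := (mem_segT Q e k₀).1 hp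
  rw [mem_segT]
  refine ⟨k, a, a', ?_⟩
  rw [MvPolynomial.map_rename, Blk_592.segPoly_map]

theorem segT_rels {p : MvPolynomial (Fin (N + 1)) ℂ} (hp : p ∈ segT Q e ℂ) :
    p ∈ Rels (fun k => sec (segPs Q e) k) := by
  obtain ⟨k, a, a', rfl⟩ := (mem_segT Q e ℂ).1 hp
  refine ⟨⟨2, (Blk_592.segPoly_hom k a a').rename_isHomogeneous⟩, fun i x hx => ?_⟩
  have h1 : (fun k => sec (segPs Q e) k i x) ∘ e = seg fun k => (Q k).F i x := by
    funext b
    show sec (segPs Q e) (e b) i x = _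
    rw [sec_eq (segPs Q e) hx (e b)]
    exact segPs_F Q e i x b
  have h2 := MvPolynomial.eval_rename e (fun k => sec (segPs Q e) k i x) (segPoly ℂ k a a')
  exact h2.trans ((congrArg (fun f => MvPolynomial.eval f (segPoly ℂ k a a')) h1).trans
    (segRel_iff.1 (segRel_seg _) k a a'))








end seg

/-! ### START from one triple -/

section start

open Crest.Agent.R281.CA_867 Crest.Agent.R281.CB_867 Crest.Agent.R281.Sl_957
open Crest.Agent.R281.Am_957 Crest.Agent.R281.QF_871 Crest.Agent.R281.Pe_313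
open Crest.Agent.R281.Ehr6_268

variable {V X : Type} [NormedAddCommGroup V] [NormedSpace ℝ V] [TopologicalSpace X]
  {d : ℕ} {C : RCh V X}



end start

end

end Crest.Agent.R281.Kb_565
end

-- ▼ part R281/Cnt2_311
section

/-!
# R281 (S0424), COUNT = (D13) (helper311), part 2: basic forms on cones (carrier of helper655)

* `natB τ hK : NatK C K`     : a closed basic 2-form `τ : B1 K` on the cone `K`
* `natF_toK`                 : comparison with the marked families (`QB`)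
* `MPer F σ hS c m τ`        : the marking `m` of the fibre `S_c` of a cone family with
                               holomorphic form `σ : CF S` has period `τ`
* `countable_MPer`           : **COUNT**: countably many periods over a countable set of `c`
* `MPer.of_family`           : the members of a `PFam`
* `MPer.of_cl`, `MPer.of_pt` : a marking with the form `k (om 1 + i om 2)` of `AtTau F A H' τ`
* `countable_fmt`            : ... for countably many cone families
-/

set_option autoImplicit false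
set_option linter.unusedSectionVars false

open Set Filter Topology
open scoped ContDiff

namespace Crest.Agent.R281.Cnt_311

open Crest.Agent.R281.HkR_835 Crest.Agent.R281.Ehr2_268
open Crest.Agent.R281.Dif_268 hiding Coh symm2
open Crest.Agent.R281.Ehr4_268 Crest.Agent.R281.Ehr6_268 Crest.Agent.R281.Ehr7_268
open Crest.Agent.R281.Cdr_234 Crest.Agent.R281.Alg_998 Crest.Agent.R281.Phl_655
open Crest.Agent.R281.Ti_846 (F1 IsD Ex)

noncomputable section

section one

variable {V X : Type} [NormedAddCommGroup V] [NormedSpace ℝ V] [TopologicalSpace X]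
  {H : Type} [NormedAddCommGroup H] [NormedSpace ℂ H] {C : RCh V X} {K : Set H}





end one

/-! ### fibres of a cone family with a holomorphic form -/

section fam

variable {V X : Type} [NormedAddCommGroup V] [NormedSpace ℝ V] [TopologicalSpace X]
  {E : Type} [NormedAddCommGroup E] [NormedSpace ℂ E]
  {H : Type} [NormedAddCommGroup H] [NormedSpace ℂ H] {C : RCh V X}
  {Q : F2 C →ₗ[ℝ] F2 C →ₗ[ℝ] ℝ} {S : Set (E × H)}









/-- change of charts and back -/
theorem cmp_F_eqv {C₂ : RCh V X} (h : Cmp C C₂) (w : F2 C) :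
    Eqv ((SMap.ofCmp h.symm).pull (h.F w)) w := by
  have h1 : Eqv (h.F w) ((SMap.ofCmp h).pull w) := by
    intro j z hz u v
    obtain ⟨i, hi⟩ := Cmp.exists_mov C hz
    rw [h.F_w w hi]
    exact ((SMap.ofCmp h).pull_w w (i := i) (j := j) (z := z) hi u v).symm
  have h2 := pull_comp (SMap.ofCmp h) (SMap.ofCmp h.symm) w
  have e : (SMap.ofCmp h).comp (SMap.ofCmp h.symm) = SMap.id C := SMap.ext' rfl
  rw [e] at h2
  exact ((h1.pull _).trans h2.symm).trans (pull_id w)


variable [FiniteDimensional ℝ V] [CompactSpace X] [T2Space X] [FiniteDimensional ℂ H]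


end fam

/-! ### countably many cone families -/

section fmt

variable {V X : Type} [NormedAddCommGroup V] [NormedSpace ℝ V] [TopologicalSpace X]
  {C : RCh V X} {Q : F2 C →ₗ[ℝ] F2 C →ₗ[ℝ] ℝ}
  [FiniteDimensional ℝ V] [CompactSpace X] [T2Space X]


end fmt

/-! ### marked families -/

section marked

universe uq

variable {Q' : Type uq} [TopologicalSpace Q'] {E H : Type} [NormedAddCommGroup E]
    [NormedSpace ℂ E] [NormedAddCommGroup H] [NormedSpace ℂ H] {V X : Type}
    [NormedAddCommGroup V] [NormedSpace ℝ V] [TopologicalSpace X] {C : RCh V X}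
    {Fm : QFam Q' E H}



end marked

end

end Crest.Agent.R281.Cnt_311
end

-- ▼ part R281/Sm1_871
section

/-!
# R281 (S0424), START MATCHING (helper871), part 1: the period of the start marking

* `stM`     : the start marking `⟨q0, ofAtl A, hc, ofProj P (bE N), _⟩` of 867's / 565's START
* `Val b m` : value of the holomorphic form `b : QCF (qfamC ..)` on the marking `m` in a coordinate
* `cw_stM`  : on the start marking it is the form `σ` of the certificate
* `re_stM`, `im_stM`, `cls_re`, `cls_im` : real and imaginary part are `om 1`, `om 2`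
* `isPer_stM`, `frH`, `tau_of_isPer`, `tau_stM` : the period is `τ0`
-/

set_option autoImplicit false
set_option linter.unusedSectionVars false
set_option synthInstance.maxHeartbeats 200000
set_option maxSynthPendingDepth 3

open Set Filter Topology Complex
open scoped ContDiff

namespace Crest.Agent.R281.Sm_871

open Crest.Agent.R275.Geo Crest.Agent.R273.Defs_333 Crest.Agent.R281.Defs_273
open Crest.Agent.R260.ACM_580 Crest.Agent.R260.NNB_580 Crest.Agent.R281.Dif_268
open Crest.Agent.R281.HkR_835 Crest.Agent.R281.Ehr2_268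
open Crest.Agent.R281.Ehr4_268 Crest.Agent.R281.Ehr6_268 Crest.Agent.R281.Ehr7_268
open Crest.Agent.R281.Ehr8_268 (QBF pf_id)
open Crest.Agent.R281.Ehr11_268 Crest.Agent.R281.Phl_655 Crest.Agent.R281.Cdr_234
open Crest.Agent.R281.Alg_998 Crest.Agent.R281.Cnt_311
open Crest.Agent.R281.CA_867 Crest.Agent.R281.CB_867 Crest.Agent.R281.AF_867
open Crest.Agent.R281.Sl_957 Crest.Agent.R281.Am_957 Crest.Agent.R281.QF_871
open Crest.Agent.R281.Pe_313
open Crest.Agent.R281.Ti_846 (Ex)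

noncomputable section

/-! ### values of the form -/

section val

variable {V X : Type} [NormedAddCommGroup V] [NormedSpace ℝ V] [TopologicalSpace X]
  {C : RCh V X} {k₀ : Type} [Field k₀] [Algebra k₀ ℂ] {d N : ℕ} {K : Code k₀ d N}
  {Mo : Fmt k₀ (Fin K.k)} {h : Mo.Nice}
  {hM : ∀ (z : Fin Mo.m → ℂ) (w : ℂ), Mo.On z w → K.Good (Mo.pt z w)}

/-- the value of the form on a marking, in a coordinate `j` -/
def Val (b : QCF (qfamC K Mo h hM)) (m : Mark (qfamC K Mo h hM) C) : Prop :=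
  ∀ (i : m.C'.ι) (z : V), z ∈ (m.C'.e i).target → ∀ j : Fin (N + 1), m.P.u i z j ≠ 0 →
    ∀ v w, b.cw m i ((qfamC K Mo h hM).u m.q) z v w * m.P.u i z j ^ K.Y.D.m =
      (K.mem (Mo.pt m.q.1.1 m.q.1.2)).D.b j (fun k => m.P.u i z k)
        (fun k => fderiv ℝ (m.P.u i) z v k) (fun k => fderiv ℝ (m.P.u i) z w k)

end val

/-! ### the start marking -/

section st

variable {X : Type} [TopologicalSpace X] {d : ℕ} {C : RCh (Cn d) X} {k₀ : Type} [Field k₀]
  [Algebra k₀ ℂ] {A : Atl d X} {P : ProjD A} {K : Code k₀ d P.N} {Mo : Fmt k₀ (Fin K.k)}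
  {h : Mo.Nice} {hM : ∀ (z : Fin Mo.m → ℂ) (w : ℂ), Mo.On z w → K.Good (Mo.pt z w)}
  {q0 : QM Mo}

/-- **the start marking** -/
def stM (hc : Cmp C (ofAtl A))
    (hw : ∀ w, w ∈ (ofProj P (bE P.N)).cone ↔ w ∈ (qfamC K Mo h hM).S q0) :
    Mark (qfamC K Mo h hM) C := ⟨q0, ofAtl A, hc, ofProj P (bE P.N), hw⟩

variable {hc : Cmp C (ofAtl A)}
  {hw : ∀ w, w ∈ (ofProj P (bE P.N)).cone ↔ w ∈ (qfamC K Mo h hM).S q0}

/-- **the value of the form on the start marking** -/
theorem cw_stM {b : QCF (qfamC K Mo h hM)} (hb : Val b (stM hc hw)) {σ : HSymp A}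
    (hC : IsCert P σ (K.mem (Mo.pt q0.1.1 q0.1.2))) {i : A.ι} {z : Cn d}
    (hz : z ∈ (A.e i).target) (u v : Cn d) :
    b.cw (stM hc hw) i ((qfamC K Mo h hM).u q0) z u v = sb (σ.s i ((A.e i).symm z)) u v := by
  obtain ⟨j, hj⟩ : ∃ j, P.F i ((A.e i).symm z) j ≠ 0 := by
    by_contra hcon
    push Not at hcon
    exact P.ne i _ ((A.e i).map_target hz) (funext hcon)
  have hj' : (stM hc hw).P.u i z j ≠ 0 := hj
  have h1 := hb i z hz j hj' u v
  have e1 : (fun k => (stM hc hw).P.u i z k) = P.F i ((A.e i).symm z) := rfl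
  have e2 : ∀ v : Cn d, (fun k => fderiv ℝ ((stM hc hw).P.u i) z v k) =
      fderiv ℂ (fun w => P.F i ((A.e i).symm w)) z v := by
    intro v
    funext k
    have h3 := ofProj_fderiv P (bE P.N) hz v
    exact congrArg (fun y : EuclideanSpace ℂ (Fin (P.N + 1)) => y k) h3
  have e3 : (stM hc hw).P.u i z j = P.F i ((A.e i).symm z) j := rfl
  rw [e1, e2, e2, e3] at h1
  have h2 := form_eq hC hz j u v
  have h4 : (K.mem (Mo.pt q0.1.1 q0.1.2)).D.m = K.Y.D.m := rfl
  rw [h4] at h2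
  have h5 : (P.F i ((A.e i).symm z) j) ^ K.Y.D.m ≠ 0 := pow_ne_zero _ hj
  have h6 := h1.trans h2
  rw [mul_comm] at h6
  exact mul_left_cancel₀ h5 h6

variable {H : HkT C} {hA : Cp (H.acm 0) A}
  {hw : ∀ w, w ∈ (ofProj P (bE P.N)).cone ↔ w ∈ (qfamC K Mo h hM).S q0}

theorem re_stM {b : QCF (qfamC K Mo h hM)} (hb : Val b (stM (cmp_of_cp hA) hw))
    (hC : IsCert P (H.sig hA) (K.mem (Mo.pt q0.1.1 q0.1.2))) :
    Eqv (b.re.form' (stM (cmp_of_cp hA) hw)) ((cmp_of_cp hA).F (H.om 1)) := by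
  intro i z hz u v
  have h1 : (b.re.form' (stM (cmp_of_cp hA) hw)).w i z u v =
      (b.cw (stM (cmp_of_cp hA) hw) i ((qfamC K Mo h hM).u q0) z u v).re :=
    b.re_at (stM (cmp_of_cp hA) hw) _ i z u v
  have h2 := cw_stM hb hC (i := i) hz u v
  have h3 := sig_sb H hA (j := i) hz u v
  rw [h1, h2]
  have h4 : sb ((H.sig hA).s i ((A.e i).symm z)) u v =
    sb (HkP2_508.sl (H.sig hA).toH2 i z) u v := rfl
  rw [h4, h3]
  simp

theorem im_stM {b : QCF (qfamC K Mo h hM)} (hb : Val b (stM (cmp_of_cp hA) hw))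
    (hC : IsCert P (H.sig hA) (K.mem (Mo.pt q0.1.1 q0.1.2))) :
    Eqv (b.im.form' (stM (cmp_of_cp hA) hw)) ((cmp_of_cp hA).F (H.om 2)) := by
  intro i z hz u v
  have h1 : (b.im.form' (stM (cmp_of_cp hA) hw)).w i z u v =
      (b.cw (stM (cmp_of_cp hA) hw) i ((qfamC K Mo h hM).u q0) z u v).im :=
    b.im_at (stM (cmp_of_cp hA) hw) _ i z u v
  have h2 := cw_stM hb hC (i := i) hz u v
  have h3 := sig_sb H hA (j := i) hz u v
  rw [h1, h2]
  have h4 : sb ((H.sig hA).s i ((A.e i).symm z)) u v =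
    sb (HkP2_508.sl (H.sig hA).toH2 i z) u v := rfl
  rw [h4, h3]
  simp

/-- the real part on `C` -/
theorem re_form {b : QCF (qfamC K Mo h hM)} (hb : Val b (stM (cmp_of_cp hA) hw))
    (hC : IsCert P (H.sig hA) (K.mem (Mo.pt q0.1.1 q0.1.2))) :
    Eqv (b.re.form (stM (cmp_of_cp hA) hw)) (H.om 1) :=
  ((re_stM hb hC).pull _).trans (cmp_F_eqv (cmp_of_cp hA) (H.om 1))

/-- the imaginary part on `C` -/
theorem im_form {b : QCF (qfamC K Mo h hM)} (hb : Val b (stM (cmp_of_cp hA) hw))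
    (hC : IsCert P (H.sig hA) (K.mem (Mo.pt q0.1.1 q0.1.2))) :
    Eqv (b.im.form (stM (cmp_of_cp hA) hw)) (H.om 2) :=
  ((im_stM hb hC).pull _).trans (cmp_F_eqv (cmp_of_cp hA) (H.om 2))

variable [CompactSpace X] [T2Space X]




end st

/-! ### the period in the frames of 473 -/

section fr

open Crest.Agent.R281.LI_473

variable {V X : Type} [NormedAddCommGroup V] [NormedSpace ℝ V] [TopologicalSpace X]
  {C : RCh V X} {Q : F2 C →ₗ[ℝ] F2 C →ₗ[ℝ] ℝ} {QH : HdR C →ₗ[ℝ] HdR C →ₗ[ℝ] ℝ}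


/-- 473's period of a pair of classes -/
theorem tau_cl (F : Frm C Q)
    (hQ : ∀ x y : F2 C, QH (cl x) (cl y) = Q x y) (G : Fr QH) (hN : G.N = F.N) (he : G.e = cl F.e)
    (hv : G.v = cl F.v) (a b : F2 C) : G.tau (cl a) (cl b) = Cnt_311.per F a b := by
  unfold Fr.tau Fr.z1 Fr.z0 Cnt_311.per
  rw [hN, he, hv, hQ, hQ, hQ, hQ]

theorem tau_of_isPer (F : Frm C Q) (hs : ∀ x y, QH x y = QH y x)
    (hQ : ∀ x y : F2 C, QH (cl x) (cl y) = Q x y) (G : Fr QH) (hN : G.N = F.N) (he : G.e = cl F.e)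
    (hv : G.v = cl F.v) {a b : F2 C} {τ : ℂ} (h : Cnt_311.IsPer F a b τ) :
    G.tau (cl a) (cl b) = τ := by
  rw [tau_cl F hQ G hN he hv]
  refine (Cnt_311.IsPer.uniq (fun x y => ?_) (fun x y hx => ?_) h).symm
  · rw [← hQ, ← hQ, hs]
  · have h1 : cl x = cl (0 : F2 C) := by
      rw [cl_eq_iff]
      have h2 : Ex (x - 0) := by rw [sub_zero]; exact hx
      exact (ex_sub_iff _ _).mp h2
    rw [← hQ, h1]
    have h3 : (cl (0 : F2 C) : HdR C) = 0 := map_zero (exS C).mkQ
    rw [h3, map_zero, LinearMap.zero_apply]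

end fr

end

end Crest.Agent.R281.Sm_871
end

-- ▼ part R281/StK1_871
section

/-!
# R281 (S0424), START (D14), (R6′) of 252 #8360 / 829 #8380, (S2) of 565 #8448 (helper871)

`exists_kbasN`  : integral Kaehler classes `k i` of `H.J 0`, a basis of `W^⊥`, and natural numbers
                  `a i > 0`, `c > 0` with `∑ a i • k i` cohomologous to `c • A`, `A = [om 0]`
`exists_kbasNF` : the same for `AtTau F A H τ` (998)
-/

set_option autoImplicit false
set_option linter.unusedSectionVars false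
set_option maxSynthPendingDepth 3

open Set Filter Topology Module
open scoped ContDiff

namespace Crest.Agent.R281.StK_871

open Crest.Agent.R281.HkR_835 Crest.Agent.R281.Cdr_234 Crest.Agent.R281.Sta1_684
open Crest.Agent.R281.Sta2_684 Crest.Agent.R281.Sta3_684 Crest.Agent.R281.W3a_698
open Crest.Agent.R281.Alg_998
open Crest.Agent.R281.Ti_846 (Ex)
open Crest.Agent.R281.NefO_476 (ofHk Pos)
open Crest.Agent.R281.Nef_252 (T11 KCls)

noncomputable section

variable {V X : Type} [NormedAddCommGroup V] [NormedSpace ℝ V] [FiniteDimensional ℝ V]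
  [TopologicalSpace X] {C : RCh V X} {B : F2 C →ₗ[ℝ] F2 C →ₗ[ℝ] ℝ}

/-- **a basis of `W^⊥` of integral Kaehler classes of `H.J 0`, natural coefficients of `A`** -/
theorem exists_kbasN [CompactSpace X] (hB : QR B) (hR : RatH C) {H : HkT C} {e A v w : F2 C}
    (h : Pos4 B e A v w) (he : RatF e) (hA : RatF A) (hv : RatF v) (hw : RatF w)
    (h0 : Cl (H.om 0) A) (b1 : ∀ k ∈ Wp B e v w, B k (H.om 1) = 0)
    (b2 : ∀ k ∈ Wp B e v w, B k (H.om 2) = 0) :
    ∃ (ρ : ℕ) (b : Basis (Fin ρ) ℝ (Wp (Bq hB.toQS) (cl e) (cl v) (cl w))) (k : Fin ρ → F2 C)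
      (a : Fin ρ → ℕ) (c : ℕ), 0 < ρ ∧
      (∀ i, IntF (k i) ∧ KCls (ofHk H 0) (k i) ∧ cl (k i) = b i) ∧
      (∀ i, 0 < a i) ∧ 0 < c ∧ Cl (∑ i, (a i : ℝ) • k i) ((c : ℝ) • A) := by
  have := hR.fin
  have hP := pos4_cl hB.toQS h
  have hQ := rat4_cl hB hR he hA hv hw
  set W := Wp (Bq hB.toQS) (cl e) (cl v) (cl w) with hW
  have hs := span_rat hP hQ hR.span
  let R' : AddSubgroup W := (RatS hR).comap W.subtype.toAddMonoidHom
  let A' : W := ⟨cl A, A_mem hP⟩
  have hA0 : A' ≠ 0 := by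
    intro h0
    have h1 : cl A = 0 := congrArg Subtype.val h0
    have h2 : B A A = 0 := by
      rw [← Bq_cl hB.toQS, h1, map_zero]
    exact h.AA.ne' h2
  let K : Set W := {ζ | ∃ k : F2 C, cl k = ζ ∧ KCls (ofHk H 0) k}
  have hK : ∀ ζ : W, ∃ ε > 0, ∀ t : ℝ, |t| < ε → A' + t • ζ ∈ K := by
    rintro ⟨ζ, hζ⟩
    obtain ⟨k, rfl⟩ := cl_surj ζ
    obtain ⟨ε, hε, h1⟩ := kcls_near hB h.AA h0 (b1 k hζ) (b2 k hζ)
    refine ⟨ε, hε, fun t ht => ⟨A + t • k, ?_, h1 t ht⟩⟩
    rw [map_add, map_smul]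
    rfl
  obtain ⟨b0, hb0, hsum⟩ := exists_bas R' (fun r x hx => hQ.q r _ hx) hs hQ.A hA0 K hK
  -- representatives
  have hrep : ∀ i, ∃ k : F2 C, RatF k ∧ KCls (ofHk H 0) k ∧ cl k = b0 i := by
    intro i
    obtain ⟨⟨k1, hk1, hk2⟩, ⟨k2, hk3, hk4⟩⟩ := hb0 i
    refine ⟨k1, hk1, hk4.congr ?_, hk2⟩
    rw [← cl_eq, hk3]
    exact hk2.symm
  choose k hk1 hk2 hk3 using hrep
  choose m hm hmi using fun i => hR.int (hk1 i)
  have hm' : ∀ i, (0 : ℝ) < m i := fun i => by exact_mod_cast hm i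
  have hρ : 0 < finrank ℝ W := by
    rw [Module.finrank_pos_iff_exists_ne_zero]
    exact ⟨A', hA0⟩
  let un : Fin (finrank ℝ W) → ℝˣ := fun i => Units.mk0 (m i : ℝ) (hm' i).ne'
  refine ⟨finrank ℝ W, b0.unitsSMul un, fun i => (m i : ℝ) • k i,
    fun i => ∏ j ∈ Finset.univ.erase i, m j, finrank ℝ W * ∏ j, m j, hρ,
    fun i => ⟨hmi i, (hk2 i).smul (hm' i), ?_⟩, fun i => Finset.prod_pos fun j _ => hm j,
    Nat.mul_pos hρ (Finset.prod_pos fun j _ => hm j), ?_⟩
  · rw [map_smul, hk3, Basis.unitsSMul_apply]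
    rfl
  · show Ex _
    rw [← cl_eq, map_sum, map_smul]
    have h1 : cl A = ((A' : W) : HdR C) := rfl
    rw [h1, hsum, Submodule.coe_sum, Finset.smul_sum]
    refine Finset.sum_congr rfl fun i _ => ?_
    rw [map_smul, map_smul, smul_smul, hk3]
    have h3 : (((finrank ℝ W : ℝ)⁻¹ • b0 i : W) : HdR C) =
        (finrank ℝ W : ℝ)⁻¹ • ((b0 i : W) : HdR C) := rfl
    rw [h3, smul_smul]
    congr 1
    have h4 : (0 : ℝ) < finrank ℝ W := by exact_mod_cast hρ
    have h5 : (∏ j ∈ Finset.univ.erase i, m j) * m i = ∏ j, m j :=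
      Finset.prod_erase_mul _ _ (Finset.mem_univ i)
    rw [← h5]
    push_cast
    field_simp

/-- **(S2) of START: `exists_kbasN` for `AtTau F A H τ`** -/
theorem exists_kbasNF [CompactSpace X] (F : Frm C B) (hB : QR B) (hR : RatH C) {A : F2 C}
    (hA : RatF A) (hAA : 0 < B A A) (h1 : B A F.e = 0) (h2 : B A F.v = 0) (h3 : B A F.es = 0)
    {H : HkT C} {τ : ℂ} (hH : AtTau F A H τ) :
    ∃ (ρ : ℕ) (b : Basis (Fin ρ) ℝ (WpF F hB.toQS)) (k : Fin ρ → F2 C) (a : Fin ρ → ℕ) (c : ℕ),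
      0 < ρ ∧ (∀ i, IntF (k i) ∧ KCls (ofHk H 0) (k i) ∧ cl (k i) = b i) ∧
      (∀ i, 0 < a i) ∧ 0 < c ∧ Cl (∑ i, (a i : ℝ) • k i) ((c : ℝ) • A) := by
  obtain ⟨z, hz, c1, c2⟩ := hH.om12
  have hk : ∀ k ∈ Wp B F.e F.v (F.es + F.e), B k F.e = 0 ∧ B k F.v = 0 ∧ B k F.es = 0 :=
    fun k hk => (mem_WpF F hB.toQS).1 hk
  refine exists_kbasN hB hR (pos4_frm F hB.toQS hAA h1 h2 h3) F.int_e.rat hA F.rat_v
    (Cls.add F.rat_es F.int_e.rat) hH.om0 (fun k hk' => ?_) fun k hk' => ?_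
  · obtain ⟨a1, a2, a3⟩ := hk k hk'
    rw [hB.toQS.congr (Cl.refl k) c1, map_sub, map_smul, map_smul, b_sre F a1 a2 a3,
      b_sim F a1 a2]
    simp
  · obtain ⟨a1, a2, a3⟩ := hk k hk'
    rw [hB.toQS.congr (Cl.refl k) c2, map_add, map_smul, map_smul, b_sre F a1 a2 a3,
      b_sim F a1 a2]
    simp

end

end Crest.Agent.R281.StK_871
end

-- ▼ part R281/Sm2_871
section

/-!
# R281 (S0424), START MATCHING (helper871), part 2: the start in 902's context

`Ctx n C Q` (RkD_902), `AtTau F A H τ` (998), `A` integral, orthogonal to `W`, `0 < Q A A`.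

* `exists_model_gen`, `exists_start_gen`, `start_seg_gen` : 867's and 565's START with the generic
                point (`RelOk`)
* `qs_ctx`, `qr_ctx` : `QS Q`, `QR Q`; `hbas_hk` : `HBas C`; `ratH` : `RatH C`
* `span_ok`  : classes orthogonal to `W^⊥` are in `W`
* `start_all` : integral classes `w k`, a positive combination (`∑ w k ~ c • A`), spanning `W^⊥`,
                an atlas of `J 0`, embeddings `Qs k` of class `w k`, the Segre embedding, code, model,
                base point (565's `start_seg`)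
-/

set_option autoImplicit false
set_option linter.unusedSectionVars false
set_option maxSynthPendingDepth 3

open Set Filter Topology Module
open scoped ContDiff

namespace Crest.Agent.R281.Sm_871

open Crest.Agent.R275.Geo Crest.Agent.R275.Core144 Crest.Agent.R275.GC293
open Crest.Agent.R275.EDR890
open Crest.Agent.R273.Defs_333 Crest.Agent.R273.Kah_333 Crest.Agent.R281.Defs_273
open Crest.Agent.R273.FS_333 (lb fs sec sec_eq)
open Crest.Agent.R260.ACM_580 Crest.Agent.R260.NNB_580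
open Crest.Agent.R281.HkR_835 Crest.Agent.R281.Dif_268
open Crest.Agent.R281.Cdr_234 Crest.Agent.R281.Alg_998
open Crest.Agent.R281.Sta2_684 Crest.Agent.R281.Sta3_684 Crest.Agent.R281.W3a_698
open Crest.Agent.R281.RkD_902 Crest.Agent.R281.StK_871 Crest.Agent.R281.Sta1_684
open Crest.Agent.R281.Ti_846 (Ex)
open Crest.Agent.R281.NefO_476 (ofHk Pos)
open Crest.Agent.R281.Nef_252 (T11 KCls eqv_ex_sub ex_add)
open Crest.Agent.R281.Kb_565
open Crest.Agent.R281.CA_867 Crest.Agent.R281.CB_867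
open Crest.Agent.R281.Sl_957 Crest.Agent.R281.Am_957 Crest.Agent.R281.QF_871
open Crest.Agent.R281.Pe_313 Crest.Agent.R281.Blk_592

noncomputable section

/-! ### the hypotheses of START from the context -/

section rat

variable {V X : Type} [NormedAddCommGroup V] [NormedSpace ℝ V] [TopologicalSpace X]
  {C : RCh V X}

/-- 684's `RatH` from 234's basis -/
theorem ratH (B : HBas C) : RatH C where
  fin := B.finite
  ex h hx := Cls.of_sub_ex' hx (by
    have h1 := Cdr_234.Ex.neg h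
    rwa [neg_sub] at h1)
  zero := by
    have := B.ratF_iff (fun _ => 0)
    simpa using this.2 fun _ => ⟨0, by simp⟩
  add h h' := Cls.add h h'
  smul q _ h := RatF.smul h q
  span := by
    rw [eq_top_iff]
    intro x _
    rw [← B.basis.sum_repr x]
    refine Submodule.sum_mem _ fun k _ => Submodule.smul_mem _ _ (Submodule.subset_span ?_)
    exact ⟨B.b k, (B.int k).rat, (B.basis_apply k).symm⟩
  int h := B.rat_int h

end rat

/-! ### the model of a code, with the generic point -/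

section gen

open Crest.Agent.R281.AF_867 (Closed Rels)

variable {k₀ : Type} [Field k₀] [CharZero k₀] [Algebra k₀ ℂ]

/-- the model of a good code; its points are specialisations of the given one -/
theorem exists_model_gen {n N : ℕ} {K : Code k₀ n N} {c : Fin K.k → ℂ} (hc : K.Good c) :
    ∃ (M : Fmt k₀ (Fin K.k)) (_ : M.Nice)
      (_ : ∀ (z : Fin M.m → ℂ) (w : ℂ), M.On z w → K.Good (M.pt z w)) (q : QM M),
      AlgebraicIndependent k₀ q.1.1 ∧ M.pt q.1.1 q.1.2 = c ∧
      ∀ (z : Fin M.m → ℂ) (w : ℂ), M.On z w → RelOk k₀ c (M.pt z w) := by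
  obtain ⟨M, z, b, hN, hz, hon, hpt, hsp⟩ := Fmt.exists_fmt (k₀ := k₀) c K.rr hc.ne
  exact ⟨M, hN, fun z' w hw => hc.spec (hsp z' w hw).1 (hsp z' w hw).2, ⟨(z, b), hon⟩, hz, hpt,
    fun z' w hw => (hsp z' w hw).1⟩

/-- 867's START-CODE, with the generic point -/
theorem exists_start_gen {n : ℕ} {M : Type} [TopologicalSpace M] {A : Atl n M} [T2Space M]
    [ConnectedSpace M] [CompactSpace M] [Finite A.ι] (PA : Part A)
    (hD : Crest.Agent.R273.TD3_733.D2 A)
    (P : ProjD A) (σ : HSymp A) (hcl : Closed σ.toH2)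
    (T : Finset (MvPolynomial (Fin (P.N + 1)) k₀))
    (hT : ∀ p ∈ T, MvPolynomial.map (algebraMap k₀ ℂ) p ∈ Rels (fun k => sec P k)) :
    ∃ (K : Code k₀ n P.N) (Mo : Fmt k₀ (Fin K.k)) (h : Mo.Nice)
      (hM : ∀ (z : Fin Mo.m → ℂ) (w : ℂ), Mo.On z w → K.Good (Mo.pt z w)) (q0 : QM Mo),
      (∀ p ∈ T, MvPolynomial.map (MvPolynomial.C : k₀ →+* MvPolynomial (Fin K.k) k₀) p ∈
        range K.Y.G) ∧
      IsCert P σ (K.mem (Mo.pt q0.1.1 q0.1.2)) ∧ AlgebraicIndependent k₀ q0.1.1 ∧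
      (∀ (z : Fin Mo.m → ℂ) (w : ℂ), Mo.On z w →
        RelOk k₀ (Mo.pt q0.1.1 q0.1.2) (Mo.pt z w)) ∧
      ∀ w, w ∈ (ofProj P (bE P.N)).cone ↔ w ∈ (qfamC K Mo h hM).S q0 := by
  obtain ⟨K, c, hg, hC, hT'⟩ := exists_code k₀ (algebraMap k₀ ℂ).injective PA hD P σ hcl T hT
  obtain ⟨Mo, h, hM, q0, hz, hpt, hgen⟩ := exists_model_gen hg
  have hC' : IsCert P σ (K.mem (Mo.pt q0.1.1 q0.1.2)) := by
    rw [hpt]
    exact hC
  refine ⟨K, Mo, h, hM, q0, hT', hC', hz, fun z w hw => by rw [hpt]; exact hgen z w hw,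
    fun w => ?_⟩
  rw [cone_ofProj hC', qfamC_S]
  rfl

/-- 565's START at a triple, with the generic point -/
theorem start_seg_gen {V X : Type} [NormedAddCommGroup V] [NormedSpace ℝ V] [TopologicalSpace X]
    {d : ℕ} {C : RCh V X} [FiniteDimensional ℝ V] [CompactSpace X] [T2Space X] [ConnectedSpace X]
    (hNN : NNat V d) (k₀ : Type) [Field k₀] [CharZero k₀] [Algebra k₀ ℂ] (H : HkT C)
    {ι : Type} [Fintype ι] [DecidableEq ι] [Nonempty ι] {w : ι → F2 C} (hi : ∀ i, IntF (w i))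
    (hw : ∀ i, KCls (ofHk H 0) (w i)) :
    ∃ (A : Atl d X) (_ : Finite A.ι) (_ : GoodA A) (_ : Nonempty (Part A))
      (hA : Cp (H.acm 0) A) (m : ℕ) (_ : 0 < m) (Q : ι → ProjD A) (N : ℕ)
      (e : (∀ k, Fin ((Q k).N + 1)) ≃ Fin (N + 1))
      (K : Code k₀ d N) (Mo : Fmt k₀ (Fin K.k)) (h : Mo.Nice)
      (hM : ∀ (z : Fin Mo.m → ℂ) (w : ℂ), Mo.On z w → K.Good (Mo.pt z w)) (q0 : QM Mo),
      (∀ k, Ex (c1F (fs (Q k)) - (m : ℝ) • (cmp_of_cp hA).F (w k))) ∧
      (∀ p ∈ segT Q e k₀, MvPolynomial.map (MvPolynomial.C : k₀ →+* MvPolynomial (Fin K.k) k₀) p ∈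
        range K.Y.G) ∧
      IsCert (segPs Q e) (H.sig hA) (K.mem (Mo.pt q0.1.1 q0.1.2)) ∧
      AlgebraicIndependent k₀ q0.1.1 ∧
      (∀ (z : Fin Mo.m → ℂ) (w : ℂ), Mo.On z w →
        RelOk k₀ (Mo.pt q0.1.1 q0.1.2) (Mo.pt z w)) ∧
      (∀ w, w ∈ (ofProj (segPs Q e) (bE N)).cone ↔ w ∈ (qfamC K Mo h hM).S q0) ∧
      CxOf (ofProj (segPs Q e) (bE N)) H := by
  obtain ⟨A, f1, f2, ⟨PA⟩, hA, L, hL, hpos, hc, m0, hm0⟩ := kod_many hNN H hi hw
  choose Q hQl hQ using hm0 (m0 + 1) (Nat.le_succ _)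
  have hne : Nonempty (∀ k, Fin ((Q k).N + 1)) := ⟨fun _ => 0⟩
  set N := Blk_592.segN fun k => Fin ((Q k).N + 1) with hN
  set e : (∀ k, Fin ((Q k).N + 1)) ≃ Fin (N + 1) := Blk_592.segEquiv _ with he
  have hD : Crest.Agent.R273.TD3_733.D2 A :=
    Crest.Agent.R273.D13_505.d2 PA (kah (hL (Classical.arbitrary ι)) (hpos _))
  obtain ⟨K, Mo, h, hM, q0, h1, h2, h3, h4, h5⟩ := exists_start_gen (k₀ := k₀) PA hD (segPs Q e)
    (H.sig hA) (closed_sig H hA) (segT Q e k₀) fun p hp => segT_rels Q e (segT_map Q e _ hp)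
  exact ⟨A, f1, f2, ⟨PA⟩, hA, m0 + 1, Nat.succ_pos _, Q, N, e, K, Mo, h, hM, q0, hQ, h1, h2,
    h3, h4, h5, cxOf_ofProj hA _ _⟩

end gen

variable {n : ℕ} {X : Type} [TopologicalSpace X] [CompactSpace X] {C : RCh (Cn (2 * n)) X}
  {Q : F2 C →ₗ[ℝ] F2 C →ₗ[ℝ] ℝ}

theorem qs_ctx (h : Ctx n C Q) : QS Q := ⟨h.symm, h.ex, h.eq⟩

theorem qr_ctx (h : Ctx n C Q) : QR Q :=
  ⟨qs_ctx h, fun x y hx hy => h.rat x y hx hy, h.t11⟩

theorem nnC (d : ℕ) : NNat (Cn d) d :=
  Crest.Agent.R260.NN6_900.nnat d (Cn d) (by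
    rw [finrank_real_of_complex]
    simp)

/-- 234's basis, on a manifold with a triple -/
theorem hbas_hk [T2Space X] (H : HkT C) : Nonempty (HBas C) := by
  obtain ⟨A, -, -, -, h, -, -⟩ := exists_rot (nnC (2 * n)) H
  exact exists_hbas_cmp A h


/-- **a class orthogonal to `W^⊥` is in `W`** -/
theorem span_ok (h : Ctx n C Q) (F : Frm C Q) {A : F2 C} (hAA : 0 < Q A A)
    (h1 : Q A F.e = 0) (h2 : Q A F.v = 0) (h3 : Q A F.es = 0) {H : HkT C} {τ : ℂ}
    (hH : AtTau F A H τ) {x : F2 C}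
    (hx : ∀ y : F2 C, Q y F.e = 0 → Q y F.v = 0 → Q y F.es = 0 → Q x y = 0) :
    ∃ a b c : ℝ, Cl x (a • F.e + b • F.v + c • F.es) := by
  have hs := h.symm
  have hN := F.hN.ne'
  have f1 : Q F.v F.e = 0 := by rw [hs]; exact F.e_v
  have f2 : Q F.v F.es = 0 := by rw [hs]; exact F.es_v
  have f3 : Q F.e F.es = 1 := by rw [hs]; exact F.es_e
  set a : ℝ := Q x F.es with ha
  set b : ℝ := Q x F.v / F.N with hb
  set c : ℝ := Q x F.e with hc
  set y : F2 C := x - (a • F.e + b • F.v + c • F.es) with hy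
  have y1 : Q y F.e = 0 := by
    rw [hy]
    simp only [map_sub, map_add, map_smul, LinearMap.sub_apply, LinearMap.add_apply,
      LinearMap.smul_apply, smul_eq_mul, F.e_e, f1, F.es_e]
    rw [hc]; ring
  have y2 : Q y F.v = 0 := by
    rw [hy]
    simp only [map_sub, map_add, map_smul, LinearMap.sub_apply, LinearMap.add_apply,
      LinearMap.smul_apply, smul_eq_mul, F.e_v, F.v_v, F.es_v]
    rw [hb]; field_simp; ring
  have y3 : Q y F.es = 0 := by
    rw [hy]
    simp only [map_sub, map_add, map_smul, LinearMap.sub_apply, LinearMap.add_apply,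
      LinearMap.smul_apply, smul_eq_mul, f3, f2, F.es_es]
    rw [ha]; ring
  have hyz : ∀ z : F2 C, Q z F.e = 0 → Q z F.v = 0 → Q z F.es = 0 → Q y z = 0 := by
    intro z z1 z2 z3
    rw [hs] at z1 z2 z3
    rw [hy]
    simp only [map_sub, map_add, map_smul, LinearMap.sub_apply, LinearMap.add_apply,
      LinearMap.smul_apply, smul_eq_mul, z1, z2, z3]
    have := hx z (by rw [hs]; exact z1) (by rw [hs]; exact z2) (by rw [hs]; exact z3)
    rw [this]; ring
  have hB := qs_ctx h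
  obtain ⟨z, hz, c1, c2⟩ := hH.om12
  have k0 : Q y (H.om 0) = 0 := by
    rw [hB.congr (Cl.refl y) hH.om0]
    exact hyz A h1 h2 h3
  have k1 : Q y (H.om 1) = 0 := by
    rw [hB.congr (Cl.refl y) c1, map_sub, map_smul, map_smul, b_sre F y1 y2 y3, b_sim F y1 y2]
    simp
  have k2 : Q y (H.om 2) = 0 := by
    rw [hB.congr (Cl.refl y) c2, map_add, map_smul, map_smul, b_sre F y1 y2 y3, b_sim F y1 y2]
    simp
  have hpos : 0 < Q (H.om 0) (H.om 0) := by
    rw [hB.congr hH.om0 hH.om0]; exact hAA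
  have hk : ∀ k, Q y (H.om k) = 0 := by
    intro k
    fin_cases k
    · exact k0
    · exact k1
    · exact k2
  have hex := (h.neg H hpos y hk).2 (hyz y y1 y2 y3)
  exact ⟨a, b, c, hex⟩

/-- the classes of a basis of `W^⊥` -/
theorem span_bas (h : Ctx n C Q) (F : Frm C Q) {ρ : ℕ}
    (b : Basis (Fin ρ) ℝ (WpF F (qs_ctx h))) {k : Fin ρ → F2 C} (hk : ∀ i, cl (k i) = b i)
    {x : F2 C} (hx : ∀ i, Q x (k i) = 0) (y : F2 C) (y1 : Q y F.e = 0) (y2 : Q y F.v = 0)
    (y3 : Q y F.es = 0) : Q x y = 0 := by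
  have hy : cl y ∈ WpF F (qs_ctx h) := (mem_WpF F _).2 ⟨y1, y2, y3⟩
  have e1 := b.sum_repr ⟨cl y, hy⟩
  have e2 : cl y = ∑ i, b.repr ⟨cl y, hy⟩ i • cl (k i) := by
    have e3 := congrArg (Subtype.val) e1
    rw [Submodule.coe_sum] at e3
    refine e3.symm.trans (Finset.sum_congr rfl fun i _ => ?_)
    rw [hk]
    rfl
  have e4 : Q x y = Bq (qs_ctx h) (cl x) (cl y) := rfl
  rw [e4, e2, map_sum]
  refine Finset.sum_eq_zero fun i _ => ?_
  rw [map_smul, Bq_cl, hx, smul_zero]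

/-- **START in 902's context** -/
theorem start_all [T2Space X] [ConnectedSpace X] (h : Ctx n C Q) (k₀ : Type) [Field k₀]
    [CharZero k₀] [Algebra k₀ ℂ] (F : Frm C Q) {A : F2 C} (hA : IntF A) (hAA : 0 < Q A A)
    (h1 : Q A F.e = 0) (h2 : Q A F.v = 0) (h3 : Q A F.es = 0) {H : HkT C} {τ : ℂ}
    (hH : AtTau F A H τ) :
    ∃ (ρ : ℕ) (_ : Nonempty (Fin ρ)) (w : Fin ρ → F2 C), (∀ k, IntF (w k)) ∧
      (∀ k, Q (w k) F.e = 0 ∧ Q (w k) F.v = 0 ∧ Q (w k) F.es = 0) ∧
      (∀ x : F2 C, (∀ k, Q x (w k) = 0) → ∃ a b c : ℝ, Cl x (a • F.e + b • F.v + c • F.es)) ∧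
      (∃ c : ℝ, 0 < c ∧ Cl (∑ k, w k) (c • A)) ∧
      ∃ (At : Atl (2 * n) X) (_ : Finite At.ι) (_ : GoodA At) (_ : Nonempty (Part At))
        (hAt : Cp (H.acm 0) At) (Qs : Fin ρ → ProjD At) (N : ℕ)
        (e : (∀ k, Fin ((Qs k).N + 1)) ≃ Fin (N + 1))
        (K : Code k₀ (2 * n) N) (Mo : Fmt k₀ (Fin K.k)) (hn : Mo.Nice)
        (hM : ∀ (z : Fin Mo.m → ℂ) (w : ℂ), Mo.On z w → K.Good (Mo.pt z w)) (q0 : QM Mo),
        (∀ k, Ex (c1F (fs (Qs k)) - (cmp_of_cp hAt).F (w k))) ∧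
        (∀ p ∈ segT Qs e k₀, MvPolynomial.map (MvPolynomial.C : k₀ →+* MvPolynomial (Fin K.k) k₀) p ∈
          range K.Y.G) ∧
        IsCert (segPs Qs e) (H.sig hAt) (K.mem (Mo.pt q0.1.1 q0.1.2)) ∧
        AlgebraicIndependent k₀ q0.1.1 ∧
        (∀ (z : Fin Mo.m → ℂ) (w : ℂ), Mo.On z w →
          RelOk k₀ (Mo.pt q0.1.1 q0.1.2) (Mo.pt z w)) ∧
        (∀ w, w ∈ (ofProj (segPs Qs e) (bE N)).cone ↔ w ∈ (qfamC K Mo hn hM).S q0) ∧
        CxOf (ofProj (segPs Qs e) (bE N)) H := by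
  obtain ⟨B⟩ := hbas_hk H
  obtain ⟨ρ, b, k, a, c, hρ, hk, ha, hc, hsum⟩ :=
    exists_kbasNF F (qr_ctx h) (ratH B) hA.rat hAA h1 h2 h3 hH
  have hne : Nonempty (Fin ρ) := ⟨⟨0, hρ⟩⟩
  have ha' : ∀ i, (0 : ℝ) < a i := fun i => by exact_mod_cast ha i
  obtain ⟨At, i1, i2, i3, hAt, m, hm, Qs, N, e, K, Mo, hn, hM, q0, j1, j3, j4, j5, j8, j6, j7⟩ :=
    start_seg_gen (nnC (2 * n)) k₀ H (w := fun i => (a i : ℝ) • k i)
      (fun i => (hk i).1.zsmul (a i)) (fun i => (hk i).2.1.smul (ha' i))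
  have hm' : (0 : ℝ) < m := by exact_mod_cast hm
  have horth : ∀ i, Q (k i) F.e = 0 ∧ Q (k i) F.v = 0 ∧ Q (k i) F.es = 0 := by
    intro i
    have e1 : cl (k i) ∈ WpF F (qs_ctx h) := by rw [(hk i).2.2]; exact (b i).2
    exact (mem_WpF F _).1 e1
  refine ⟨ρ, hne, fun i => (m : ℝ) • (a i : ℝ) • k i, fun i => ?_, fun i => ?_, fun x hx => ?_,
    ⟨m * c, by positivity, ?_⟩,
    At, i1, i2, i3, hAt, Qs, N, e, K, Mo, hn, hM, q0, fun i => ?_, j3, j4, j5, j8, j6, j7⟩
  · exact ((hk i).1.zsmul (a i)).zsmul m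
  · obtain ⟨o1, o2, o3⟩ := horth i
    simp [o1, o2, o3]
  · refine span_ok h F hAA h1 h2 h3 hH fun y y1 y2 y3 => ?_
    refine span_bas h F b (fun i => (hk i).2.2) (fun i => ?_) y y1 y2 y3
    have e1 := hx i
    rw [map_smul, map_smul, smul_eq_mul, smul_eq_mul] at e1
    have e2 := (mul_eq_zero.1 e1).resolve_left hm'.ne'
    exact (mul_eq_zero.1 e2).resolve_left (ha' i).ne'
  · have e1 := Cl.smul (m : ℝ) hsum
    rw [Finset.smul_sum, smul_smul] at e1
    exact e1
  · have e1 := j1 i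
    have e2 : Eqv ((cmp_of_cp hAt).F ((m : ℝ) • (a i : ℝ) • k i))
        ((m : ℝ) • (cmp_of_cp hAt).F ((a i : ℝ) • k i)) := F_smul _ _ _
    have e3 := eqv_ex_sub e2.symm
    have e4 := ex_add e1 e3
    rwa [sub_add_sub_cancel] at e4

end

end Crest.Agent.R281.Sm_871
end

-- ▼ part R281/Kb4_565
section

/-!
# R281 (S0424), START (D14) (helper565), part 4: the forms of the starting marking

`P₀ = ofProj (segPs Q e) (bE N)` the starting embedding.

* `sL e`      : the Segre coordinates of a vector of `ℂ^(N+1)`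
* `sL_u`, `sL_du` : of the embedding and of its derivative
* `blk_val`   : the value of the `k`-th block form (592) is the curvature form of `fs (Q k)`
* `fs_val`    : the value of the Fubini-Study form is the curvature form of `fs (segPs Q e)`
* `frm_val`   : the value of the certified form (867) is `om 1 + i om 2`
-/

set_option autoImplicit false
set_option linter.unusedSectionVars false
set_option maxSynthPendingDepth 3

open Set Filter Topology Complex
open scoped ContDiff Matrix ComplexConjugate ComplexOrder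

namespace Crest.Agent.R281.Kb_565

open Crest.Agent.R275.Geo Crest.Agent.R275.Core144 Crest.Agent.R275.EDR890
open Crest.Agent.R275.GC293
open Crest.Agent.R273
open Crest.Agent.R273.Kah_333 Crest.Agent.R273.Hess_333 Crest.Agent.R273.HessB_333
open Crest.Agent.R273.Defs_333 Crest.Agent.R273.HM_333
open Crest.Agent.R273.FS_333 (lb fs sec sec_eq)
open Crest.Agent.R281.Defs_273
open Crest.Agent.R260.ACM_580 Crest.Agent.R260.NNB_580
open Crest.Agent.R281.HkR_835 Crest.Agent.R281.Ti_846 Crest.Agent.R281.HkP2_508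
open Crest.Agent.R281.NefO_476 Crest.Agent.R281.Dif_268
open Crest.Agent.R281.Nef_252
open Crest.Agent.R281.Cdr_234 (Cls IntF RatF c1F c1F_w)
open Crest.Agent.R281.AF_867 (Closed Rels)
open Crest.Agent.R281.CA_867 Crest.Agent.R281.CB_867 Crest.Agent.R281.Pe_313
open Crest.Agent.R281.Blk_592 (seg dseg ext segPs segPs_F segPs_lb segPoly segRel_seg segRel_iff
  segM MapD SegRel DRel fsv sgv sgv_eq ext_seg ext_dseg fsv_bas dRel_dseg fderiv_seg f2_fs segK
  segB)

noncomputable section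

/-! ### Segre coordinates -/

section lin

variable {T : Type} [Fintype T] {N : ℕ}

/-- the Segre coordinates of a vector of `ℂ^(N+1)` -/
def sL (e : T ≃ Fin (N + 1)) : EuclideanSpace ℂ (Fin (N + 1)) ≃L[ℂ] (T → ℂ) :=
  (bE N).trans (Blk_592.bE e).symm



end lin

section forms

variable {n : ℕ} {M : Type} [TopologicalSpace M] {A : Atl n M}
variable {ι : Type} [Fintype ι] [DecidableEq ι] [Nonempty ι] (Q : ι → ProjD A) {N : ℕ}
  (e : (∀ k, Fin ((Q k).N + 1)) ≃ Fin (N + 1))

/-- the embedding -/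
abbrev P0 : Ehr2_268.HEmb (ofAtl A) (EuclideanSpace ℂ (Fin (N + 1))) := ofProj (segPs Q e) (bE N)

theorem sL_u (i : A.ι) (z : Cn n) :
    sL e ((P0 Q e).u i z) = seg fun k => (Q k).F i ((A.e i).symm z) := by
  funext a
  show (segPs Q e).F i ((A.e i).symm z) (e a) = _
  exact segPs_F Q e i _ a

theorem Q_diff {i : A.ι} {z : Cn n} (hz : z ∈ (A.e i).target) (k : ι) :
    DifferentiableAt ℝ (fun w => (Q k).F i ((A.e i).symm w)) z :=
  (F_hol (Q k) hz).restrictScalars ℝ

theorem sL_du {i : A.ι} {z : Cn n} (hz : z ∈ (A.e i).target) (v : Cn n) :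
    sL e (fderiv ℝ ((P0 Q e).u i) z v) = dseg (fun k => (Q k).F i ((A.e i).symm z))
      (fun k => fderiv ℝ (fun w => (Q k).F i ((A.e i).symm w)) z v) := by
  have h1 : DifferentiableAt ℝ ((P0 Q e).u i) z :=
    (((P0 Q e).sm i).contDiffAt ((A.e i).open_target.mem_nhds hz)).differentiableAt (by simp)
  let T : EuclideanSpace ℂ (Fin (N + 1)) →L[ℝ] ((∀ k, Fin ((Q k).N + 1)) → ℂ) :=
    ((sL e : EuclideanSpace ℂ (Fin (N + 1)) →L[ℂ] ((∀ k, Fin ((Q k).N + 1)) → ℂ))).restrictScalars ℝ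
  have h2 : HasFDerivAt (fun w => sL e ((P0 Q e).u i w))
      (T.comp (fderiv ℝ ((P0 Q e).u i) z)) z :=
    T.hasFDerivAt.comp z h1.hasFDerivAt
  have h3 : (fun w => sL e ((P0 Q e).u i w)) =
      fun w => seg fun k => (Q k).F i ((A.e i).symm w) := funext fun w => sL_u Q e i w
  rw [h3] at h2
  have h4 := fderiv_seg (u := fun k w => (Q k).F i ((A.e i).symm w)) (fun k => Q_diff Q hz k) v
  rw [h2.fderiv] at h4
  exact h4

theorem segK_u {i : A.ι} {z : Cn n} (hz : z ∈ (A.e i).target) :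
    sL e ((P0 Q e).u i z) ∈ segK fun k => Fin ((Q k).N + 1) := by
  refine ⟨fun h0 => (P0 Q e).ne i z hz ?_, ?_⟩
  · exact (sL e).injective (by rw [h0, map_zero])
  · rw [sL_u]
    exact segRel_seg _

/-- **the block form** -/
theorem blk_val {i : A.ι} {z : Cn n} (hz : z ∈ (A.e i).target) (k : ι) (u v : Cn n) :
    sgv k (sL e ((P0 Q e).u i z)) (sL e (fderiv ℝ ((P0 Q e).u i) z u))
      (sL e (fderiv ℝ ((P0 Q e).u i) z v)) = (Cdr_234.curK (fs (Q k))).f2.w i z u v := by
  have hx := (A.e i).map_target hz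
  obtain ⟨a, ha⟩ := Blk_592.exists_nz (segK_u Q e hz).1
  have hK := f2_fs (MapD.ofProj (Q k)) (Cdr_234.curK (fs (Q k))) (fun i x hx => by
    show cur (fs (Q k)) i x = _
    unfold cur
    have h3 : (MapD.ofProj (Q k)).fs.wt i = (fs (Q k)).wt i := by
      funext z
      simp only [HM.wt, MapD.ofProj_w]
    rw [h3]) hz u v
  rw [hK]
  have h1 := sL_u Q e i z
  rw [h1] at ha ⊢
  rw [sL_du Q e hz, sL_du Q e hz, sgv_eq k (segRel_seg _) (dRel_dseg _ _) (dRel_dseg _ _) ha,
    ext_seg, ext_dseg, ext_dseg]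
  have hc : (∏ l ∈ Finset.univ.erase k, (Q l).F i ((A.e i).symm z) (a l)) ≠ 0 := by
    rw [Blk_592.seg_eq _ k a] at ha
    exact right_ne_zero_of_mul ha
  exact fsv_bas ((Q k).ne i _ hx) _ _ hc _ _


variable {V : Type} [NormedAddCommGroup V] [NormedSpace ℝ V] {C : RCh V M}


end forms

end

end Crest.Agent.R281.Kb_565
end

-- ▼ part R281/Sm3_871
section

/-!
# R281 (S0424), START MATCHING (helper871), part 3: the start as a marking of a type of 957

* `qbf_form'_w` : the form of a marking given by a basic form on a parameter free cone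
* `val_qcfC`    : `Val (qcfC ..) m` at every marking (377)
* `blk_class`   : the class of the `k`-th block form on the start marking is `π cl (w k)`
* `AA_pos`      : `0 < Q A A` from `AtTau F A H τ`
* `exists_ty`   : **START**: a type `T`, a marking `m0` with `T.Ok`, `T.Rel A`, the classes of the
                  blocks, `CxOf m0.P H`, real and imaginary part of the form `H.om 1`, `H.om 2`
* `start_ty`    : the target of 957 #8732
-/

set_option autoImplicit false
set_option linter.unusedSectionVars false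
set_option synthInstance.maxHeartbeats 200000
set_option maxSynthPendingDepth 3

open Set Filter Topology Complex
open scoped ContDiff

namespace Crest.Agent.R281.Sm_871

open Crest.Agent.R275.Geo Crest.Agent.R275.Core144 Crest.Agent.R275.GC293
open Crest.Agent.R275.EDR890
open Crest.Agent.R273.Defs_333 Crest.Agent.R273.Kah_333 Crest.Agent.R281.Defs_273
open Crest.Agent.R273.FS_333 (lb fs sec sec_eq)
open Crest.Agent.R260.ACM_580 Crest.Agent.R260.NNB_580
open Crest.Agent.R281.HkR_835 Crest.Agent.R281.Ehr2_268 Crest.Agent.R281.Dif_268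
open Crest.Agent.R281.Ehr4_268 Crest.Agent.R281.Ehr6_268 Crest.Agent.R281.Ehr7_268
open Crest.Agent.R281.Ehr8_268 (QBF pf_id pf_in)
open Crest.Agent.R281.Ehr11_268 Crest.Agent.R281.Phl_655
open Crest.Agent.R281.Cdr_234 Crest.Agent.R281.Alg_998 Crest.Agent.R281.Cnt_311
open Crest.Agent.R281.Sta2_684 Crest.Agent.R281.RkD_902
open Crest.Agent.R281.CA_867 Crest.Agent.R281.CB_867
open Crest.Agent.R281.Sl_957 Crest.Agent.R281.Am_957 Crest.Agent.R281.QF_871
open Crest.Agent.R281.Pe_313 Crest.Agent.R281.Qc_377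
open Crest.Agent.R281.Kb_565 Crest.Agent.R281.Dv_957
open Crest.Agent.R281.Blk_592 (segPs segPoly segK segB sgv)
open Crest.Agent.R281.Ti_846 (Ex)
open Crest.Agent.R281.Nef_252 (eqv_ex_sub ex_add)

noncomputable section

/-! ### values -/

section val

universe uq

variable {Q : Type uq} [TopologicalSpace Q] {E H : Type} [NormedAddCommGroup E]
    [NormedSpace ℂ E] [NormedAddCommGroup H] [NormedSpace ℂ H] {V X : Type}
    [NormedAddCommGroup V] [NormedSpace ℝ V] [TopologicalSpace X]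
    {F : QFam Q E H} {C : RCh V X} {K : Set H}

/-- the form of a marking given by a basic form on a parameter free cone -/
theorem qbf_form'_w (τ : B1 K) (h : ∀ q0, F.R q0 ⊆ {p : E × H | p.2 ∈ K}) (m : Mark F C)
    {i : m.C'.ι} {z : V} (hz : z ∈ (m.C'.e i).target) (v w : V) :
    ((qbf τ h).form' m).w i z v w =
      τ.sg (m.P.u i z) (fderiv ℝ (m.P.u i) z v) (fderiv ℝ (m.P.u i) z w) := by
  have hc := F.ball_of_mem (F.U_mem m.q)
  have h1 := pw_apply ((qbf τ h).β m.q) (F.cn m.q) (pf_in m) hc hz (QCF.lift_pf m hc hz) v w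
  rw [QCF.dz_pf m hc hz, QCF.dz_pf m hc hz] at h1
  have h2 : m.pf.u i (F.u m.q) z = m.P.u i z := pf_id m hz
  have h3 : m.pf.u i (F.u m.q) =ᶠ[𝓝 z] m.P.u i := by
    filter_upwards [(m.C'.e i).open_target.mem_nhds hz] with y hy using pf_id m hy
  rw [h3.fderiv_eq] at h1
  refine h1.trans ?_
  rw [h2]
  rfl

end val

section qc

variable {V X : Type} [NormedAddCommGroup V] [NormedSpace ℝ V] [TopologicalSpace X]
  [FiniteDimensional ℝ V] {C : RCh V X} {k₀ : Type} [Field k₀] [Algebra k₀ ℂ] {d N : ℕ}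
  {K : Code k₀ d N} {Mo : Fmt k₀ (Fin K.k)} (h : Mo.Nice)
  (hM : ∀ (z : Fin Mo.m → ℂ) (w : ℂ), Mo.On z w → K.Good (Mo.pt z w))

theorem val_qcfC (m : Mark (qfamC K Mo h hM) C) : Val (qcfC K Mo h hM) m :=
  fun _ _ hz j hj v w => sgC_mul h hM m hz j v w hj

end qc

/-! ### the type of a start -/

section ty

variable {X : Type} [TopologicalSpace X] {n : ℕ} {C : RCh (Cn n) X} {A : Atl n X} {ρ : ℕ}
  [Nonempty (Fin ρ)] (Qs : Fin ρ → ProjD A) {N : ℕ} (e : (∀ k, Fin ((Qs k).N + 1)) ≃ Fin (N + 1))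
  (K : Code QB n N) (Mo : Fmt QB (Fin K.k)) (hn : Mo.Nice)
  (hM : ∀ (z : Fin Mo.m → ℂ) (w : ℂ), Mo.On z w → K.Good (Mo.pt z w))
  (hT : ∀ p ∈ segT Qs e QB, MvPolynomial.map (MvPolynomial.C : QB →+* MvPolynomial (Fin K.k) QB) p ∈
    range K.Y.G) {w : Fin ρ → F2 C} (hw : ∀ k, IntF (w k))

/-- the type -/
def tyOf : Ty n C where
  N := N
  K := K
  M := Mo
  nice := hn
  good := hM
  ρ := ρ
  b := fun k => (Qs k).N
  e := e
  seg := fun k a a' => hT _ ((mem_segT Qs e QB).2 ⟨k, a, a', rfl⟩)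
  B := fun k => cl (w k)
  B_int := fun k => cl_mem_Lz.mpr (hw k)

variable (hc : Cmp C (ofAtl A)) (q0 : QM Mo)
  (hS : ∀ w, w ∈ (ofProj (segPs Qs e) (bE N)).cone ↔ w ∈ (qfamC K Mo hn hM).S q0)

/-- the start marking -/
def tyM : Mark (tyOf Qs e K Mo hn hM hT hw).F C :=
  ⟨q0, ofAtl A, hc, ofProj (segPs Qs e) (bE N), hS⟩

/-- the `k`-th block form on the start marking -/
theorem blk_form' (k : Fin ρ) : Eqv (((tyOf Qs e K Mo hn hM hT hw).qb k).form'
    (tyM Qs e K Mo hn hM hT hw hc q0 hS)) (Cdr_234.curK (fs (Qs k))).f2 := by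
  intro i z hz u v
  have h1 := qbf_form'_w (blkB (tyOf Qs e K Mo hn hM hT hw).e k)
    (tyOf Qs e K Mo hn hM hT hw).R_seg (tyM Qs e K Mo hn hM hT hw hc q0 hS) hz u v
  exact h1.trans (blk_val Qs e (i := i) hz k u v)

theorem re_tyM {H : HkT C} (hA : Cp (H.acm 0) A)
    (hC : IsCert (segPs Qs e) (H.sig hA) (K.mem (Mo.pt q0.1.1 q0.1.2))) :
    Eqv ((tyOf Qs e K Mo hn hM hT hw).qc.re.form
      (tyM Qs e K Mo hn hM hT hw (cmp_of_cp hA) q0 hS)) (H.om 1) := by
  have g : Eqv ((qcfC K Mo hn hM).re.form (stM (P := segPs Qs e) (K := K) (h := hn) (hM := hM)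
      (q0 := q0) (cmp_of_cp hA) hS)) (H.om 1) :=
    re_form (P := segPs Qs e) (K := K) (hA := hA) (val_qcfC hn hM (stM (P := segPs Qs e) (K := K)
      (h := hn) (hM := hM) (q0 := q0) (cmp_of_cp hA) hS)) hC
  exact g

theorem im_tyM {H : HkT C} (hA : Cp (H.acm 0) A)
    (hC : IsCert (segPs Qs e) (H.sig hA) (K.mem (Mo.pt q0.1.1 q0.1.2))) :
    Eqv ((tyOf Qs e K Mo hn hM hT hw).qc.im.form
      (tyM Qs e K Mo hn hM hT hw (cmp_of_cp hA) q0 hS)) (H.om 2) := by
  have g : Eqv ((qcfC K Mo hn hM).im.form (stM (P := segPs Qs e) (K := K) (h := hn) (hM := hM)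
      (q0 := q0) (cmp_of_cp hA) hS)) (H.om 2) :=
    im_form (P := segPs Qs e) (K := K) (hA := hA) (val_qcfC hn hM (stM (P := segPs Qs e) (K := K)
      (h := hn) (hM := hM) (q0 := q0) (cmp_of_cp hA) hS)) hC
  exact g

variable [CompactSpace X] [T2Space X]

/-- **the class of the `k`-th block form on the start marking** -/
theorem blk_cls (hk : ∀ k, Ex (c1F (fs (Qs k)) - hc.F (w k))) (k : Fin ρ) :
    (tyOf Qs e K Mo hn hM hT hw).cls k (MQ.mk (tyM Qs e K Mo hn hM hT hw hc q0 hS)) =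
      (tyOf Qs e K Mo hn hM hT hw).pcl k := by
  have h1 := blk_form' Qs e K Mo hn hM hT hw hc q0 hS k
  have h2 := curK_f2 (fs (Qs k))
  have h3 : cl ((Cdr_234.curK (fs (Qs k))).f2) = Real.pi • cl (hc.F (w k)) := by
    rw [h2]
    have h4 : cl (c1F (fs (Qs k))) = cl (hc.F (w k)) := by
      rw [cl_eq_iff]
      exact (ex_sub_iff _ _).mp (hk k)
    rw [← h4]
    rfl
  have h5 : cl (((tyOf Qs e K Mo hn hM hT hw).qb k).form
      (tyM Qs e K Mo hn hM hT hw hc q0 hS)) = hPull (SMap.ofCmp hc.symm)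
      (cl ((Cdr_234.curK (fs (Qs k))).f2)) :=
    cl_eq_iff.mpr (h1.pull (SMap.ofCmp hc.symm)).coh
  have h6 : hPull (SMap.ofCmp hc.symm) (cl (hc.F (w k))) = cl (w k) :=
    cl_eq_iff.mpr (cmp_F_eqv hc (w k)).coh
  show cl (((tyOf Qs e K Mo hn hM hT hw).qb k).form
      (tyM Qs e K Mo hn hM hT hw hc q0 hS)) = Real.pi • cl (w k)
  rw [h5, h3, map_smul, h6]

end ty

/-! ### positivity -/

section pos

variable {n : ℕ} {X : Type} [TopologicalSpace X] [CompactSpace X] {C : RCh (Cn (2 * n)) X}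
  {Q : F2 C →ₗ[ℝ] F2 C →ₗ[ℝ] ℝ}

theorem AA_pos (h : Ctx n C Q) (F : Frm C Q) {A : F2 C} {H : HkT C} {τ : ℂ}
    (hH : AtTau F A H τ) : 0 < Q A A := by
  have hB := qs_ctx h
  obtain ⟨z, hz, c1, -⟩ := hH.om12
  have e0 : Q A A = Q (H.om 1) (H.om 1) := by
    rw [h.eq H 1, hB.congr hH.om0 hH.om0]
  have f1 : Q F.v F.e = 0 := by rw [h.symm]; exact F.e_v
  have f2 : Q F.v F.es = 0 := by rw [h.symm]; exact F.es_v
  have f3 : Q F.e F.es = 1 := by rw [h.symm]; exact F.es_e
  have e1 : Q (F.sre τ) (F.sim τ) = 0 := by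
    simp only [Frm.sre, Frm.sim, map_sub, map_add, map_smul, LinearMap.sub_apply,
      LinearMap.add_apply, LinearMap.smul_apply, smul_eq_mul, F.e_e, F.e_v, F.es_e, F.es_v,
      F.v_v, f1]
    ring
  have e2 : Q (F.sim τ) (F.sre τ) = 0 := by rw [h.symm]; exact e1
  rw [e0, hB.congr c1 c1]
  simp only [map_sub, map_smul, LinearMap.sub_apply, LinearMap.smul_apply, smul_eq_mul, e1, e2,
    q_sre hB, q_sim hB]
  have hN := F.hN
  have h1 : 0 < z.re ^ 2 + z.im ^ 2 := by
    rcases eq_or_ne z.re 0 with h0 | h0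
    · have h2 : z.im ≠ 0 := fun h2 => hz (Complex.ext h0 h2)
      positivity
    · positivity
  have h2 : 0 < F.N * τ.im ^ 2 := mul_pos hN (pow_pos hH.im_pos 2)
  nlinarith [mul_pos h1 h2]

end pos

/-! ### START -/

section start

open Crest.Agent.R281.LI_473

variable {n : ℕ} {X : Type} [TopologicalSpace X] [CompactSpace X] [T2Space X]
  [ConnectedSpace X] {C : RCh (Cn (2 * n)) X} {Q : F2 C →ₗ[ℝ] F2 C →ₗ[ℝ] ℝ}

/-- **START**: the type and the marking of a structure `AtTau F A H τ` -/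
theorem exists_ty (h : Ctx n C Q) (hQ : QS Q) (F : Frm C Q) {A : F2 C} (hA : IntF A)
    (h1 : Q A F.e = 0) (h2 : Q A F.v = 0) (h3 : Q A F.es = 0) {H : HkT C} {τ : ℂ}
    (hH : AtTau F A H τ) :
    ∃ (T : Ty (2 * n) C) (m0 : Mark T.F C), T.Ok F hQ ∧ T.Rel A ∧ CxOf m0.P H ∧
      (∀ k, T.cls k (MQ.mk m0) = T.pcl k) ∧ Eqv (T.qc.re.form m0) (H.om 1) ∧
      Eqv (T.qc.im.form m0) (H.om 2) := by
  have hAA := AA_pos h F hH
  obtain ⟨ρ, hρ, w, hw, hperp, hspan, ⟨c, hc0, hc⟩, At, i1, i2, i3, hAt, Qs, N, e, K, Mo, hn, hM,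
    q0, j1, j2, j3, j4, j5, j6, j7⟩ := start_all h QB F hA hAA h1 h2 h3 hH
  have hsum : (∑ k, cl (w k) : HdR C) = c • cl A := by
    have e1 : cl (∑ k, w k) = cl (c • A) := cl_eq_iff.mpr ((ex_sub_iff _ _).mp hc)
    have e2 : cl (∑ k, w k) = ∑ k, cl (w k) := by
      show (exS C).mkQ (∑ k, w k) = _
      rw [map_sum]
      rfl
    rw [← e2, e1]
    rfl
  refine ⟨tyOf Qs e K Mo hn hM j2 hw,
    tyM Qs e K Mo hn hM j2 hw (cmp_of_cp hAt) q0 j6, ⟨fun k => ?_, fun x hx => ?_, ?_⟩,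
    ⟨c, hc0, hsum⟩, j7, fun k => ?_, ?_, ?_⟩
  · obtain ⟨o1, o2, o3⟩ := hperp k
    have g1 : Q F.e (w k) = 0 := by rw [h.symm]; exact o1
    have g2 : Q F.v (w k) = 0 := by rw [h.symm]; exact o2
    have g3 : Q F.es (w k) = 0 := by rw [h.symm]; exact o3
    exact ⟨g1, g2, g3⟩
  · obtain ⟨x, rfl⟩ := cl_surj x
    obtain ⟨a, b, d, hx'⟩ := hspan x hx
    have e1 : cl x = cl (a • F.e + b • F.v + d • F.es) :=
      cl_eq_iff.mpr ((ex_sub_iff _ _).mp hx')
    rw [e1]
    refine ⟨![d, b, a], ?_⟩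
    rw [Fr.κ_apply]
    show d • cl F.es + b • cl F.v + a • cl F.e = a • cl F.e + b • cl F.v + d • cl F.es
    abel
  · show 0 < Sta3_684.Bq hQ (∑ k, cl (w k)) (∑ k, cl (w k))
    rw [hsum, map_smul, LinearMap.map_smul, LinearMap.smul_apply, smul_eq_mul, smul_eq_mul]
    have e1 : Sta3_684.Bq hQ (cl A) (cl A) = Q A A := rfl
    rw [e1]
    positivity
  · exact blk_cls Qs e K Mo hn hM j2 hw (cmp_of_cp hAt) q0 j6 j1 k
  · exact re_tyM Qs e K Mo hn hM j2 hw q0 j6 hAt j3
  · exact im_tyM Qs e K Mo hn hM j2 hw q0 j6 hAt j3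

/-- **the target of 957 (#8732)** -/
theorem start_ty (h : Ctx n C Q) (hQ : QS Q) (F : Frm C Q) {A : F2 C} (hA : IntF A)
    (h1 : Q A F.e = 0) (h2 : Q A F.v = 0) (h3 : Q A F.es = 0) {H : HkT C} {τ : ℂ}
    (hH : AtTau F A H τ) :
    ∃ (T : Ty (2 * n) C) (x0 : MQ T.F C) (m0 : Mark T.F C), T.Ok F hQ ∧ T.Rel A ∧
      MQ.mk m0 = x0 ∧ CxOf m0.P H ∧ (∀ k, T.cls k x0 = T.pcl k) ∧
      (T.qc.re.natF C).cls x0 = cl (H.om 1) ∧ (T.qc.im.natF C).cls x0 = cl (H.om 2) ∧
      (frF F hQ).tau ((T.qc.re.natF C).cls x0) ((T.qc.im.natF C).cls x0) = τ := by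
  obtain ⟨T, m0, g1, g2, g3, g4, g5, g6⟩ := exists_ty h hQ F hA h1 h2 h3 hH
  have e5 : (T.qc.re.natF C).cls (MQ.mk m0) = cl (H.om 1) := cl_eq_iff.mpr g5.coh
  have e6 : (T.qc.im.natF C).cls (MQ.mk m0) = cl (H.om 2) := cl_eq_iff.mpr g6.coh
  refine ⟨T, MQ.mk m0, m0, g1, g2, rfl, g3, g4, e5, e6, ?_⟩
  rw [e5, e6]
  exact tau_of_isPer F (frF F hQ).sym (fun _ _ => rfl) (frF F hQ) rfl rfl rfl hH.isPer

end start

end

end Crest.Agent.R281.Sm_871
end

-- ▼ part R281/Dvp1_326

/-!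
# Row 281, DIV 2 in the context of RANK281 (helper326): `Div2Geo` for every frame

957's `div2Geo_of` with `O := Hmi_790.hmOut hC F` (790; 655, 313):

* `StartP`, `LiftP`, `AlgP` : 957's hypotheses (b), (c), (d) in the context
* `startP`    : **START is proved** (565, 871)
* `div2P_of`  : **`AlgP hl Alg → Div2P Alg`**, `roadP_of` : hence `RoadP Alg`
-/

set_option autoImplicit false
set_option linter.unusedSectionVars false
set_option maxSynthPendingDepth 5

open Set Filter Topology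
open scoped ContDiff

namespace Crest.Agent.R281.Dvp_326

open Crest.Agent.R275.Geo Crest.Agent.R275.Core144
open Crest.Agent.R281.HkR_835 Crest.Agent.R281.Ehr2_268 Crest.Agent.R281.Dif_268
  Crest.Agent.R281.Ehr4_268 Crest.Agent.R281.Ehr6_268 Crest.Agent.R281.Ehr7_268
  Crest.Agent.R281.Ehr8_268 Crest.Agent.R281.Cdr_234
open Crest.Agent.R281.Alg_998 Crest.Agent.R281.RkD_902 Crest.Agent.R281.Dv_957
open Crest.Agent.R281.Sta2_684 (QS)
open Crest.Agent.R281.Sta3_684 (Bq)
open Crest.Agent.R281.Hmi_790 (qs hmOut)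
open Crest.Agent.R281.Rd_326 (Div2P roadP)
open Crest.Agent.R281.Cus_581

noncomputable section

section ctx

variable {n : ℕ} {X : Type} [TopologicalSpace X] [CompactSpace X] {C : RCh (Cn (2 * n)) X}
  {Q : F2 C →ₗ[ℝ] F2 C →ₗ[ℝ] ℝ} [T2Space X] [ConnectedSpace X]

/-- without structures there is nothing to prove -/
theorem div2Geo_empty (h : ¬ Nonempty (HkT C)) (F : Frm C Q) (Alg : ∀ A : F2 C, Cusp F A → Prop) :
    Div2Geo F Alg :=
  ⟨∅, countable_empty, fun _ _ _ _ _ H0 _ _ _ => absurd ⟨H0⟩ h⟩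

end ctx

/-! ### the nodes -/

/-- **957's (b)**: START (565, 871) -/
def StartP : Prop :=
  ∀ (n : ℕ) (X : Type) [TopologicalSpace X] [CompactSpace X] [T2Space X]
    [SimplyConnectedSpace X] (C : RCh (Cn (2 * n)) X) (Q : F2 C →ₗ[ℝ] F2 C →ₗ[ℝ] ℝ)
    (hC : Ctx n C Q) (F : Frm C Q), StartS F (qs hC) (hmOut hC F)

/-- **957's (c)**: LIFT (830) -/
def LiftP : Prop :=
  ∀ (n : ℕ) (X : Type) [TopologicalSpace X] [CompactSpace X] [T2Space X]
    [SimplyConnectedSpace X] (C : RCh (Cn (2 * n)) X) (Q : F2 C →ₗ[ℝ] F2 C →ₗ[ℝ] ℝ)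
    (hC : Ctx n C Q) (F : Frm C Q), LiftAll F (qs hC) (hmOut hC F)

/-- **957's (d)**: the algebraic data of the ends (581, 989, 867) -/
def AlgP (hl : LiftP) (Alg : AlgTT) : Prop :=
  ∀ (n : ℕ) (X : Type) [TopologicalSpace X] [CompactSpace X] [T2Space X]
    [SimplyConnectedSpace X] (C : RCh (Cn (2 * n)) X) (Q : F2 C →ₗ[ℝ] F2 C →ₗ[ℝ] ℝ)
    (hC : Ctx n C Q) (F : Frm C Q),
    AlgAll F (qs hC) (hmOut hC F) (hl n X C Q hC F) (Alg n X C Q F)

/-- **START** -/
theorem startP : StartP := by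
  intro n X _ _ _ _ C Q hC F A hA H0 τ0 h0
  obtain ⟨T, x0, m0, ok, rel, rfl, hcx, hcls, -, -, htau⟩ :=
    Sm_871.start_ty hC (qs hC) F hA.int hA.e hA.v hA.es h0
  exact ⟨T, ok, rel, m0, hcx, hcls, htau, h0.im_pos⟩

/-- **DIV 2 in the context** -/
theorem div2P_of {Alg : AlgTT} (hl : LiftP) (ha : AlgP hl Alg) : Div2P Alg := by
  intro n X _ _ _ _ C Q hC F
  by_cases h : Nonempty (HkT C)
  · obtain ⟨H⟩ := h
    obtain ⟨B⟩ := Sm_871.hbas_hk H
    exact div2Geo_of B (qs hC) hC.int F (hmOut hC F) (startP n X C Q hC F) (hl n X C Q hC F)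
      (ha n X C Q hC F)
  · exact div2Geo_empty h F _

/-- **the node `RoadP`** -/
theorem roadP_of {Alg : AlgTT} (hl : LiftP) (ha : AlgP hl Alg) : RoadP Alg :=
  roadP Alg (div2P_of hl ha)

end

end Crest.Agent.R281.Dvp_326
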