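import Crest.Agent.R281.Dvp1_326
import Crest.Agent.R281.Lf3_830
import Crest.Agent.R281.Aga1_581

/-!
# Row 281, DIV 2 in the context of RANK281 (helper326), part 2: LIFT, and `RoadP` from `MemF`

* `liftP`     : **LIFT is proved** (830)
* `MemFP`     : 581's `MemF` (the members over the end carry the algebraic data; 867), in the context
* `algP_of`   : `MemFP → AlgP liftP Alg_867.Alg`
* `roadP_of_memF` : **`MemFP → RoadP Alg_867.Alg`**
-/

set_option autoImplicit false
set_option linter.unusedSectionVars false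
set_option maxSynthPendingDepth 5

open Set Filter Topology
open scoped ContDiff

namespace Crest.Agent.R281.Dvp_326

open Crest.Agent.R275.Geo Crest.Agent.R275.Core144
open Crest.Agent.R281.HkR_835 Crest.Agent.R281.Ehr2_268 Crest.Agent.R281.Dif_268
  Crest.Agent.R281.Ehr4_268 Crest.Agent.R281.Ehr6_268 Crest.Agent.R281.Ehr7_268
  Crest.Agent.R281.Ehr8_268 Crest.Agent.R281.Cdr_234
open Crest.Agent.R281.Alg_998 Crest.Agent.R281.RkD_902 Crest.Agent.R281.Dv_957
open Crest.Agent.R281.Sta2_684 (QS)
open Crest.Agent.R281.Sta3_684 (Bq)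
open Crest.Agent.R281.Hmi_790 (qs hmOut)
open Crest.Agent.R281.Rd_326 (Div2P roadP)
open Crest.Agent.R281.Cus_581 Crest.Agent.R281.Aga_581 Crest.Agent.R281.Am_957
  Crest.Agent.R281.As_957

noncomputable section

/-- **LIFT** -/
theorem liftP : LiftP := fun _ _ _ _ _ _ _ _ hC F =>
  Lf_830.liftAll hC (qs hC) F (hmOut hC F)





end

end Crest.Agent.R281.Dvp_326
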