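import Crest.Agent.R273.FIb0_597
import Crest.Agent.R273.FS_333
import Crest.Agent.R281.Mv1_757_Mg
import Crest.Agent.R273.GreenG_5

-- ▼ part R281/Mv2_757
section

/-!
# Row 281, S6-MONO (M4), part 2 (helper757): integrals on a noncompact `M`

* `dq h f`  : the function `f / h.w` of a real density `f` (`RD A f`)
* `vm_tot`  : `∫ f dvm = tot P F (h.w f)` for `f` zero off a compact set
* `bil`     : `∫ w tr(adj g ∂∂̄u) = ∫ u tr(adj g ∂∂̄w)` (real parts of `tot`), `u`, `w` real,
              `tsupport u ∩ tsupport w ⊆ K` compact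
-/

set_option autoImplicit false
set_option linter.unusedSectionVars false

open Set Filter Topology Complex MeasureTheory
open scoped ContDiff Matrix ComplexConjugate Manifold ComplexOrder ENNReal

namespace Crest.Agent.R281.Mv_757

open Crest.Agent.R275 Crest.Agent.R275.Geo Crest.Agent.R275.Core144 Crest.Agent.R275.EDR890
open Crest.Agent.R275.Pai323 Crest.Agent.R275.C1d194
open Crest.Agent.R275.SerG398 (lint dens OffZ)
open Crest.Agent.R275.OmT75 (dj dl dl_chain dl_mul dj_sum dj_congr)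
open Crest.Agent.R273.Defs_333 Crest.Agent.R273.Hess_333 Crest.Agent.R273.HessB_333
open Crest.Agent.R273.HM_333 Crest.Agent.R273.Kah_333 Crest.Agent.R273.Vol_333
open Crest.Agent.R273.StV_37 Crest.Agent.R273.Green_5 Crest.Agent.R273.Vm_333
open Crest.Agent.R273.FIa0_597 Crest.Agent.R273.FIb0_597

noncomputable section

variable {n : ℕ} {M : Type} [TopologicalSpace M] {A : Atl n M}

/-! ### densities -/

/-- real density: `f i = |det J|² f j` -/
def RD (A : Atl n M) (f : A.ι → M → ℝ) : Prop :=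
  ∀ i j, ∀ x ∈ (A.e i).source ∩ (A.e j).source, f i x = jac A i j x * f j x

/-- the function of a density -/
def dq (h : HM (KB A)⁻¹) (f : A.ι → M → ℝ) (x : M) : ℝ := f (ch A x) x / h.w (ch A x) x

theorem jac_pos {i j : A.ι} {x : M} (hx : x ∈ (A.e i).source ∩ (A.e j).source) :
    0 < jac A i j x := by
  have h1 : (Matrix.of (A.J i j x)).det ≠ 0 := det_Jm_ne hx
  unfold jac
  positivity

theorem w_jac' (h : HM (KB A)⁻¹) {i j : A.ι} {x : M}
    (hx : x ∈ (A.e i).source ∩ (A.e j).source) : h.w i x = jac A i j x * h.w j x := by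
  let _ : MeasurableSpace M := borel M
  have _ : BorelSpace M := ⟨rfl⟩
  exact w_jac h hx

theorem dq_eq (h : HM (KB A)⁻¹) {f : A.ι → M → ℝ} (hf : RD A f) {i : A.ι} {x : M}
    (hx : x ∈ (A.e i).source) : dq h f x = f i x / h.w i x := by
  have hx' : x ∈ (A.e i).source ∩ (A.e (ch A x)).source := ⟨hx, mem_ch A x⟩
  have h1 := hf i (ch A x) x hx'
  have h2 := w_jac' h hx'
  have h3 := (jac_pos hx').ne'
  have h4 := (h.pos _ x (mem_ch A x)).ne'
  unfold dq
  rw [h1, h2]
  field_simp

theorem dq_mul (h : HM (KB A)⁻¹) {f : A.ι → M → ℝ} (hf : RD A f) {i : A.ι} {x : M}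
    (hx : x ∈ (A.e i).source) : h.w i x * dq h f x = f i x := by
  rw [dq_eq h hf hx]
  exact mul_div_cancel₀ _ (h.pos i x hx).ne'

theorem sm_dq (h : HM (KB A)⁻¹) {f : A.ι → M → ℝ} (hf : RD A f) (hs : ∀ i, A.SmAt i (f i)) :
    A.Sm (dq h f) := by
  intro i
  have h1 : ContDiffOn ℝ ∞ (fun z => f i ((A.e i).symm z) / h.w i ((A.e i).symm z))
      (A.e i).target :=
    (hs i).div (h.sm i) fun z hz => (h.pos i _ ((A.e i).map_target hz)).ne'
  exact h1.congr fun z hz => dq_eq h hf ((A.e i).map_target hz)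

/-! ### the integral -/

section integral

variable [T2Space M] [MeasurableSpace M] [BorelSpace M] [Countable A.ι]

theorem psi_bdd (P : Part A) (i : A.ι) : ∃ C, ∀ x, ‖(P.ψ i x : ℂ)‖ ≤ C := by
  have hc : Continuous fun x => (P.ψ i x : ℂ) :=
    Complex.continuous_ofReal.comp (sm_continuous (P.ψ_sm i))
  obtain ⟨C, hC⟩ := (P.χ_cpt i).exists_bound_of_continuousOn hc.continuousOn
  refine ⟨max C 0, fun x => ?_⟩
  by_cases hx : x ∈ tsupport (P.χ i)
  · exact (hC x hx).trans (le_max_left _ _)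
  · have : P.ψ i x = 0 := image_eq_zero_of_notMem_tsupport fun h => hx (tsupport_psi P i h)
    rw [this]
    simp

theorem vm_tot (P : Part A) (h : HM (KB A)⁻¹) {K : Set M} (hK : IsCompact K) {F : Finset A.ι}
    (hF : Fn P hK ⊆ F) {f : M → ℂ} (hf : Integrable f (vm h)) (h0 : ∀ x ∉ K, f x = 0) :
    ∫ x, f x ∂(vm h) = tot P F (fun i x => (h.w i x : ℂ) * f x) := by
  have hint : ∀ i, Integrable (fun x => (P.ψ i x : ℂ) * f x) (vm h) := by
    intro i
    obtain ⟨C, hC⟩ := psi_bdd P i
    have hc : Continuous fun x => (P.ψ i x : ℂ) :=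
      Complex.continuous_ofReal.comp (sm_continuous (P.ψ_sm i))
    exact hf.bdd_mul (c := C) hc.measurable.aestronglyMeasurable (Eventually.of_forall hC)
  have h1 : (fun x => f x) = fun x => ∑ i ∈ F, (P.ψ i x : ℂ) * f x := by
    funext x
    rw [← Finset.sum_mul]
    by_cases hx : x ∈ K
    · rw [sum_psiC P hK hF hx, one_mul]
    · rw [h0 x hx, mul_zero]
  calc ∫ x, f x ∂(vm h) = ∫ x, ∑ i ∈ F, (P.ψ i x : ℂ) * f x ∂(vm h) := by rw [← h1]
    _ = ∑ i ∈ F, ∫ x, (P.ψ i x : ℂ) * f x ∂(vm h) := integral_finsetSum _ fun i _ => hint i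
    _ = _ := by
      unfold tot
      refine Finset.sum_congr rfl fun i _ => ?_
      have h3 : ∫ x, (P.ψ i x : ℂ) * f x ∂(vm h) =
          ∫ x in (A.e i).source, (P.ψ i x : ℂ) * f x ∂(vm h) := by
        symm
        refine setIntegral_eq_integral_of_forall_compl_eq_zero fun x hx => ?_
        rw [psi_off P hx, Complex.ofReal_zero, zero_mul]
      rw [h3, setIntegral_vm h i (hint i).aestronglyMeasurable]
      unfold SerG398.lint
      symm
      rw [← setIntegral_eq_integral_of_forall_compl_eq_zero (s := Ui A i)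
        (fun y hy => rd_off hy)]
      refine setIntegral_congr_fun (C1d194.isOpen_Ui i).measurableSet fun y hy => ?_
      rw [rd_of_mem hy]
      change (P.ψ i (sg A i y) : ℂ) * ((h.w i (sg A i y) : ℂ) * f (sg A i y)) =
        (h.w i (sg A i y)) • ((P.ψ i (sg A i y) : ℂ) * f (sg A i y))
      rw [Complex.real_smul]
      ring

/-- real form -/
theorem vm_tot_re (P : Part A) (h : HM (KB A)⁻¹) {K : Set M} (hK : IsCompact K) {F : Finset A.ι}
    (hF : Fn P hK ⊆ F) {f : M → ℝ} (hf : Integrable f (vm h)) (h0 : ∀ x ∉ K, f x = 0) :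
    ∫ x, f x ∂(vm h) = (tot P F (fun i x => ((h.w i x * f x : ℝ) : ℂ))).re := by
  have h1 := vm_tot P h hK hF (f := fun x => (f x : ℂ)) hf.ofReal fun x hx => by
    rw [h0 x hx, Complex.ofReal_zero]
  have h3 : ∫ x, (f x : ℂ) ∂(vm h) = ((∫ x, f x ∂(vm h) : ℝ) : ℂ) := integral_ofReal
  rw [h3] at h1
  have h2 := congrArg Complex.re h1
  rw [Complex.ofReal_re] at h2
  rw [h2]
  congr 2
  funext i x
  push_cast
  rfl

/-- continuous functions with compact support are integrable -/
theorem integrable_of_zero_off (h : HM (KB A)⁻¹) {K : Set M} (hK : IsCompact K) {f : M → ℝ}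
    (hc : Continuous f) (h0 : ∀ x ∉ K, f x = 0) : Integrable f (vm h) := by
  have := isLocallyFinite_vm h
  have h1 : IntegrableOn f K (vm h) := hc.continuousOn.integrableOn_compact hK
  rw [← integrable_indicator_iff hK.isClosed.measurableSet] at h1
  have h2 : K.indicator f = f := by
    funext x
    by_cases hx : x ∈ K
    · rw [indicator_of_mem hx]
    · rw [indicator_of_notMem hx, h0 x hx]
  rwa [h2] at h1

end integral

/-! ### Green's formula for a pair of real functions -/

section green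

variable [T2Space M] {g : A.ι → M → Matrix (Fin n) (Fin n) ℂ}

/-- Green's formula, `φ` and `db u` have disjoint supports off the compact set `K` -/
theorem green_pair (P : Part A) (hg : CF A g) {φ u : M → ℂ} (hφ : ∀ i, A.SmAt i φ)
    (hu : ∀ i, A.SmAt i u) {K : Set M} (hK : IsCompact K) {F : Finset A.ι} (hF : Fn P hK ⊆ F)
    (h0 : ∀ x ∉ K, φ x = 0 ∨ u =ᶠ[𝓝 x] 0) :
    tot P F (fun i x => φ x * ((g i x).adjugate * hm A u i x).trace) =
      - tot P F (fun i x => ∑ a, ∑ b, (g i x).adjugate b a * dl A i a φ x * A.db i b u x) := by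
  classical
  set Y : A.ι → M → Fin n → ℂ := fun i x a =>
    if x ∈ (A.e i).source then adjY A g φ u i x a else 0 with hY
  have hv := v10_adj hg hφ hu
  have hYe : ∀ i, ∀ x ∈ (A.e i).source, ∀ a, Y i x a = adjY A g φ u i x a :=
    fun i x hx a => by simp only [hY, if_pos hx]
  have hvY : V10 A Y := by
    refine ⟨fun i a => (hv.sm i a).congr fun z hz => hYe i _ ((A.e i).map_target hz) a,
      fun i j x hx b => ?_⟩
    rw [Finset.sum_congr rfl fun a _ => by rw [hYe i x hx.1 a], hYe j x hx.2 b]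
    exact hv.tr i j x hx b
  have h1 := stokes10 P hvY hK hF fun i x hx => by
    funext a
    by_cases hxi : x ∈ (A.e i).source
    · rw [hYe i x hxi]
      unfold adjY
      rcases h0 x hx with h2 | h2
      · rw [h2, zero_mul]
        rfl
      · rw [Finset.sum_eq_zero fun b _ => by rw [db_zero_of hxi h2, mul_zero], mul_zero]
        rfl
    · simp only [hY, if_neg hxi]
      rfl
  have h5 : tot P F (fun i x => ∑ a, dl A i a (fun y => Y i y a) x) =
      tot P F (fun i x => φ x * ((g i x).adjugate * hm A u i x).trace +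
        ∑ a, ∑ b, (g i x).adjugate b a * dl A i a φ x * A.db i b u x) := by
    refine tot_congr P F fun i _ x hx => ?_
    rw [← div_adjY hg (hφ i) (hu i) hx]
    refine Finset.sum_congr rfl fun a _ => ?_
    unfold OmT75.dl
    refine dj_congr ?_
    filter_upwards [(A.e i).open_target.mem_nhds ((A.e i).map_source hx)] with z hz
    rw [hYe i _ ((A.e i).map_target hz)]
  rw [h5, tot_add P F (f := fun i x => φ x * ((g i x).adjugate * hm A u i x).trace)
      (g := fun i x => ∑ a, ∑ b, (g i x).adjugate b a * dl A i a φ x * A.db i b u x)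
      (fun i => (hφ i).mul (smAt_tr hg (hu i))) (fun i => smAt_grad hg (hφ i) (hu i))] at h1
  exact eq_neg_of_add_eq_zero_left h1

theorem conj_self_real (r : ℝ) : conj (r : ℂ) = (r : ℂ) := Complex.conj_ofReal r

/-- symmetric form for real functions and Hermitian `g` -/
theorem green_symm (P : Part A) (hg : CF A g)
    (hh : ∀ i, ∀ x ∈ (A.e i).source, (g i x).IsHermitian) {u w : M → ℝ} (hu : A.Sm u)
    (hw : A.Sm w) {K : Set M} (hK : IsCompact K) {F : Finset A.ι} (hF : Fn P hK ⊆ F)
    (h0 : ∀ x ∉ K, w =ᶠ[𝓝 x] 0 ∨ u =ᶠ[𝓝 x] 0) :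
    (tot P F (fun i x => (w x : ℂ) * ((g i x).adjugate * hsf A u i x).trace)).re =
      (tot P F (fun i x => (u x : ℂ) * ((g i x).adjugate * hsf A w i x).trace)).re := by
  have hu' : ∀ i, A.SmAt i (fun x => (u x : ℂ)) := fun i => smAt_ofReal (hu i)
  have hw' : ∀ i, A.SmAt i (fun x => (w x : ℂ)) := fun i => smAt_ofReal (hw i)
  have ev : ∀ {v : M → ℝ} {x : M}, v =ᶠ[𝓝 x] 0 → (fun y => (v y : ℂ)) =ᶠ[𝓝 x] 0 := by
    intro v x hv
    filter_upwards [hv] with y hy
    simp only [Pi.zero_apply] at hy ⊢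
    rw [hy, Complex.ofReal_zero]
  have g1 := green_pair P hg hw' hu' hK hF fun x hx => by
    rcases h0 x hx with h | h
    · exact Or.inl (by rw [h.self_of_nhds]; simp)
    · exact Or.inr (ev h)
  have g2 := green_pair P hg hu' hw' hK hF fun x hx => by
    rcases h0 x hx with h | h
    · exact Or.inr (ev h)
    · exact Or.inl (by rw [h.self_of_nhds]; simp)
  have e1 : tot P F (fun i x => (w x : ℂ) * ((g i x).adjugate * hsf A u i x).trace) =
      tot P F (fun i x => (w x : ℂ) * ((g i x).adjugate * hm A (fun y => (u y : ℂ)) i x).trace) :=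
    tot_congr P F fun i _ x hx => by rw [hm_ofReal u i hx]
  have e2 : tot P F (fun i x => (u x : ℂ) * ((g i x).adjugate * hsf A w i x).trace) =
      tot P F (fun i x => (u x : ℂ) * ((g i x).adjugate * hm A (fun y => (w y : ℂ)) i x).trace) :=
    tot_congr P F fun i _ x hx => by rw [hm_ofReal w i hx]
  have e3 : tot P F (fun i x => ∑ a, ∑ b, (g i x).adjugate b a *
      dl A i a (fun y => (u y : ℂ)) x * A.db i b (fun y => (w y : ℂ)) x) =
      conj (tot P F (fun i x => ∑ a, ∑ b, (g i x).adjugate b a *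
        dl A i a (fun y => (w y : ℂ)) x * A.db i b (fun y => (u y : ℂ)) x)) := by
    rw [← tot_conj]
    refine tot_congr P F fun i _ x hx => ?_
    rw [map_sum, Finset.sum_comm]
    refine Finset.sum_congr rfl fun b _ => ?_
    rw [map_sum]
    refine Finset.sum_congr rfl fun a _ => ?_
    have c1 : conj ((g i x).adjugate a b) = (g i x).adjugate b a := by
      have h1 : ((g i x).adjugate)ᴴ = (g i x).adjugate := by
        rw [Matrix.adjugate_conjTranspose, hh i x hx]
      have h2 := congrFun (congrFun h1 b) a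
      rwa [Matrix.conjTranspose_apply] at h2
    have c2 : conj (dl A i b (fun y => (w y : ℂ)) x) = A.db i b (fun y => (w y : ℂ)) x := by
      rw [← db_conj]
      simp only [conj_self_real]
    have c3 : conj (A.db i a (fun y => (u y : ℂ)) x) = dl A i a (fun y => (u y : ℂ)) x := by
      rw [← dl_conj]
      simp only [conj_self_real]
    rw [map_mul, map_mul, c1, c2, c3]
    ring
  rw [e1, e2, g1, g2, e3, Complex.neg_re, Complex.neg_re, Complex.conj_re]

end green

end

end Crest.Agent.R281.Mv_757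
end

-- ▼ part R281/Mv3_757
section

/-!
# Row 281, S6-MONO (M4), part 3 (helper757): densities of `|F|²`

* `sF F x = ∑ |F_k x|²`, `DF A F i x` : the Jacobian `∂_a F_k`
* `hsf_sF` : `∂∂̄ |F|² = C Cᴴ`, `C = DF`;  `grA_sF` : `∂|F|² = C (star F)`
* `dl_F`  : density `det (C Cᴴ)`;  `tt_F` : density `tv`
* `tr_hsf_comp` : `tr (adj g ∂∂̄ γ(s)) = n γ' det g + γ'' tv`
-/

set_option autoImplicit false
set_option linter.unusedSectionVars false

open Set Filter Topology Complex MeasureTheory
open scoped ContDiff Matrix ComplexConjugate Manifold ComplexOrder ENNReal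

namespace Crest.Agent.R281.Mv_757

open Crest.Agent.R275 Crest.Agent.R275.Geo Crest.Agent.R275.Core144 Crest.Agent.R275.EDR890
open Crest.Agent.R275.Pai323 Crest.Agent.R275.C1d194
open Crest.Agent.R275.SerG398 (lint dens OffZ)
open Crest.Agent.R275.OmT75 (dj dl dl_chain dl_mul dj_sum dj_congr)
open Crest.Agent.R273.Defs_333 Crest.Agent.R273.Hess_333 Crest.Agent.R273.HessB_333
open Crest.Agent.R273.HM_333 Crest.Agent.R273.Kah_333 Crest.Agent.R273.Vol_333
open Crest.Agent.R273.StV_37 Crest.Agent.R273.Green_5 Crest.Agent.R273.Vm_333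
open Crest.Agent.R273.FIa0_597 Crest.Agent.R273.FIb0_597 Crest.Agent.R273.FS_333

noncomputable section

variable {n N : ℕ}

/-! ### matrices -/

theorem tr_adj_law (J g S : Matrix (Fin n) (Fin n) ℂ) :
    ((J * g * Jᴴ).adjugate * (J * S * Jᴴ)).trace =
      (J.det * conj J.det) * (g.adjugate * S).trace := by
  have e1 : (J * g * Jᴴ).adjugate = Jᴴ.adjugate * g.adjugate * J.adjugate := by
    rw [Matrix.adjugate_mul_distrib, Matrix.adjugate_mul_distrib, Matrix.mul_assoc]
  calc ((J * g * Jᴴ).adjugate * (J * S * Jᴴ)).trace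
      = ((Jᴴ.adjugate * g.adjugate) * (J.adjugate * J) * (S * Jᴴ)).trace := by
        rw [e1]
        simp only [Matrix.mul_assoc]
    _ = J.det * ((Jᴴ.adjugate * (g.adjugate * S * Jᴴ))).trace := by
        rw [Matrix.adjugate_mul, Matrix.mul_smul, Matrix.mul_one, Matrix.smul_mul,
          Matrix.trace_smul, smul_eq_mul]
        simp only [Matrix.mul_assoc]
    _ = J.det * (g.adjugate * S * (Jᴴ * Jᴴ.adjugate)).trace := by
        rw [Matrix.trace_mul_comm]
        simp only [Matrix.mul_assoc]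
    _ = _ := by
        rw [Matrix.mul_adjugate, Matrix.det_conjTranspose, Matrix.mul_smul, Matrix.mul_one,
          Matrix.trace_smul, smul_eq_mul, mul_assoc]
        rfl

theorem tr_adj_self (g : Matrix (Fin n) (Fin n) ℂ) : (g.adjugate * g).trace = n * g.det := by
  rw [Matrix.adjugate_mul, Matrix.trace_smul, Matrix.trace_one, Fintype.card_fin, smul_eq_mul,
    mul_comm]

theorem posDef_add_eps {g : Matrix (Fin n) (Fin n) ℂ} (hg : g.PosSemidef) {ε : ℝ} (hε : 0 < ε) :
    (g + (ε : ℂ) • (1 : Matrix (Fin n) (Fin n) ℂ)).PosDef :=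
  (Matrix.PosDef.one.smul (by exact_mod_cast hε : (0 : ℂ) < ε)).posSemidef_add hg

/-- `0 ≤ re tr (adj g S)` for positive semidefinite `g`, `S` -/
theorem tr_adj_nonneg {g S : Matrix (Fin n) (Fin n) ℂ} (hg : g.PosSemidef) (hS : S.PosSemidef) :
    0 ≤ (g.adjugate * S).trace.re := by
  set f : ℝ → ℝ := fun ε =>
    ((g + (ε : ℂ) • (1 : Matrix (Fin n) (Fin n) ℂ)).adjugate * S).trace.re with hf
  have hc : Continuous f := by
    have h1 : Continuous fun ε : ℝ => g + (ε : ℂ) • (1 : Matrix (Fin n) (Fin n) ℂ) :=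
      continuous_const.add (Complex.continuous_ofReal.smul continuous_const)
    exact Complex.continuous_re.comp
      ((h1.matrix_adjugate.matrix_mul continuous_const).matrix_trace)
  have h0 : f 0 = (g.adjugate * S).trace.re := by simp [hf]
  rw [← h0]
  have h1 : Tendsto f (𝓝[>] 0) (𝓝 (f 0)) := hc.continuousAt.tendsto.mono_left nhdsWithin_le_nhds
  refine ge_of_tendsto h1 ?_
  filter_upwards [self_mem_nhdsWithin] with ε hε
  exact (Complex.le_def.1 (Crest.Agent.R273.GreenG_5.trace_adj_nonneg (posDef_add_eps hg hε) hS)).1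

/-! ### `|F|²` -/

variable {M : Type} [TopologicalSpace M] {A : Atl n M}

/-- `∑ |F_k|²` -/
def sF (F : M → Fin N → ℂ) (x : M) : ℝ := ∑ k, ‖F x k‖ ^ 2

theorem sF_nonneg (F : M → Fin N → ℂ) (x : M) : 0 ≤ sF F x :=
  Finset.sum_nonneg fun _ _ => by positivity

/-- holomorphic map to `ℂ^N` -/
def HF (A : Atl n M) (F : M → Fin N → ℂ) : Prop := ∀ i k, HolAt A i univ (fun x => F x k)

/-- the Jacobian `∂_a F_k` -/
def DF (A : Atl n M) (F : M → Fin N → ℂ) (i : A.ι) (x : M) : Matrix (Fin n) (Fin N) ℂ :=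
  Matrix.of fun a k =>
    fderiv ℂ (fun z => F ((A.e i).symm z) k) (A.e i x) (EuclideanSpace.single a 1)

/-- the gradient in the chart `i` -/
def grA (A : Atl n M) (u : M → ℝ) (i : A.ι) (x : M) : Fin n → ℂ :=
  gr (fun z => u ((A.e i).symm z)) (A.e i x)

variable {F : M → Fin N → ℂ}

theorem HF.diff (hF : HF A F) (i : A.ι) (k : Fin N) :
    DifferentiableOn ℂ (fun z => F ((A.e i).symm z) k) (A.e i).target := by
  have h1 := hF i k
  unfold HolAt at h1
  rwa [preimage_univ, inter_univ] at h1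

theorem sm_sF (hF : HF A F) : A.Sm (sF F) := by
  intro i
  refine ContDiffOn.sum fun k _ => ?_
  intro z hz
  exact ((contDiffAt_of_hol (A.e i).open_target (hF.diff i k) hz).norm_sq ℝ).contDiffWithinAt

theorem hsf_sF (hF : HF A F) (i : A.ι) {x : M} (hx : x ∈ (A.e i).source) :
    hsf A (sF F) i x = DF A F i x * (DF A F i x)ᴴ := by
  ext a b
  have h1 := hess_sq (F := fun z => F ((A.e i).symm z)) (A.e i).open_target (hF.diff i)
    ((A.e i).map_source hx) a b
  exact h1

theorem grA_sF (hF : HF A F) (i : A.ι) {x : M} (hx : x ∈ (A.e i).source) :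
    grA A (sF F) i x = DF A F i x *ᵥ star (F x) := by
  funext a
  have h1 := wd_sq' (F := fun z => F ((A.e i).symm z)) (A.e i).open_target (hF.diff i)
    ((A.e i).map_source hx) a
  have h2 : grA A (sF F) i x a = ∑ k, fderiv ℂ (fun z => F ((A.e i).symm z) k) (A.e i x)
      (EuclideanSpace.single a 1) * conj (F ((A.e i).symm (A.e i x)) k) := h1
  rw [h2, (A.e i).left_inv hx]
  rfl

/-! ### transformation laws -/

theorem jac_eq (i j : A.ι) (x : M) :
    ((Jm A i j x)ᵀ.det * conj (Jm A i j x)ᵀ.det) = ((jac A i j x : ℝ) : ℂ) := by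
  rw [Matrix.det_transpose, Complex.mul_conj, Complex.normSq_eq_norm_sq]
  rfl

theorem conjT_T (J : Matrix (Fin n) (Fin n) ℂ) : (Jᵀ)ᴴ = J.map conj := by
  ext a b
  rfl

/-- the density `re tr (adj g S)` -/
theorem rd_tr {g S : A.ι → M → Matrix (Fin n) (Fin n) ℂ} (hg : TF A g) (hS : TF A S) :
    RD A (fun i x => ((g i x).adjugate * S i x).trace.re) := by
  intro i j x hx
  simp only
  rw [hg.tr i j x hx, hS.tr i j x hx, ← conjT_T, tr_adj_law, jac_eq, Complex.re_ofReal_mul]

/-- the density `re det g` -/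
theorem rd_det {g : A.ι → M → Matrix (Fin n) (Fin n) ℂ} (hg : TF A g) :
    RD A (fun i x => (g i x).det.re) := by
  intro i j x hx
  simp only
  rw [hg.tr i j x hx, ← conjT_T, Matrix.det_mul, Matrix.det_mul, Matrix.det_conjTranspose,
    mul_right_comm]
  have h1 := jac_eq i j x
  rw [show (star (Jm A i j x)ᵀ.det : ℂ) = conj (Jm A i j x)ᵀ.det from rfl, h1,
    Complex.re_ofReal_mul]


theorem grA_eq (u : M → ℝ) (i : A.ι) (x : M) (a : Fin n) :
    grA A u i x a = dl A i a (fun y => (u y : ℂ)) x := by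
  unfold grA gr
  rw [← dj_eq_wd]
  rfl

theorem grA_tr {u : M → ℝ} (hu : A.Sm u) {i j : A.ι} {x : M}
    (hx : x ∈ (A.e i).source ∩ (A.e j).source) :
    grA A u i x = (Jm A i j x)ᵀ *ᵥ grA A u j x := by
  funext a
  rw [grA_eq, dl_chain (Atl.SmAt.diffAt (smAt_ofReal (hu j)) hx.2) hx a]
  simp only [Matrix.mulVec, dotProduct, Matrix.transpose_apply, Jm_apply, grA_eq, smul_eq_mul]

/-- the density `tv g (∂u)` -/
theorem rd_tv {g : A.ι → M → Matrix (Fin n) (Fin n) ℂ} (hg : TF A g) {u : M → ℝ} (hu : A.Sm u) :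
    RD A (fun i x => tv (g i x) (grA A u i x)) := by
  intro i j x hx
  simp only [tv]
  rw [hg.tr i j x hx, ← conjT_T, grA_tr hu hx, tvc_mul, jac_eq, Complex.re_ofReal_mul]

/-! ### smoothness -/

variable [T2Space M]

theorem smAt_re {i : A.ι} {f : M → ℂ} (hf : A.SmAt i f) : A.SmAt i (fun x => (f x).re) :=
  Complex.reCLM.contDiff.comp_contDiffOn hf

theorem sm_det {g : A.ι → M → Matrix (Fin n) (Fin n) ℂ} (hg : TF A g) (i : A.ι) :
    A.SmAt i (fun x => (g i x).det.re) := smAt_re (smAt_det (hg.sm i))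

theorem sm_tr {g : A.ι → M → Matrix (Fin n) (Fin n) ℂ} (hg : CF A g) {w : M → ℝ} (hw : A.Sm w)
    (i : A.ι) : A.SmAt i (fun x => ((g i x).adjugate * hsf A w i x).trace.re) := by
  refine (smAt_re (smAt_tr hg (smAt_ofReal (hw i)))).congr fun z hz => ?_
  show ((g i ((A.e i).symm z)).adjugate * hsf A w i ((A.e i).symm z)).trace.re = _
  rw [← hm_ofReal w i ((A.e i).map_target hz)]

theorem tvc_grA {g : A.ι → M → Matrix (Fin n) (Fin n) ℂ} {u : M → ℝ} {i : A.ι} {x : M} :
    tvc (g i x) (grA A u i x) = ∑ a, ∑ b, (g i x).adjugate b a *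
      dl A i a (fun y => (u y : ℂ)) x * A.db i b (fun y => (u y : ℂ)) x := by
  have h1 : ∀ b, star (grA A u i x) b = A.db i b (fun y => (u y : ℂ)) x := by
    intro b
    have h2 : star (grA A u i x) b = conj (grA A u i x b) := rfl
    rw [h2, grA_eq, ← db_conj]
    simp only [conj_self_real]
  unfold tvc
  simp only [Matrix.trace, Matrix.diag, Matrix.mul_apply, Matrix.vecMulVec_apply, h1, grA_eq]
  rw [Finset.sum_comm]
  refine Finset.sum_congr rfl fun a _ => Finset.sum_congr rfl fun b _ => ?_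
  ring

theorem sm_tv {g : A.ι → M → Matrix (Fin n) (Fin n) ℂ} (hg : CF A g) {u : M → ℝ} (hu : A.Sm u)
    (i : A.ι) : A.SmAt i (fun x => tv (g i x) (grA A u i x)) := by
  have h1 := smAt_re (smAt_grad hg (smAt_ofReal (hu i)) (smAt_ofReal (hu i)))
  refine h1.congr fun z hz => ?_
  show tv (g i ((A.e i).symm z)) (grA A u i ((A.e i).symm z)) = _
  unfold tv
  rw [tvc_grA]

/-- chain rule -/
theorem hsf_comp {γ : ℝ → ℝ} (hγ : ContDiff ℝ ∞ γ) {u : M → ℝ} (hu : A.Sm u) {i : A.ι} {x : M}
    (hx : x ∈ (A.e i).source) :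
    hsf A (fun y => γ (u y)) i x = ((deriv γ (u x) : ℝ) : ℂ) • hsf A u i x +
      ((deriv (deriv γ) (u x) : ℝ) : ℂ) • Matrix.vecMulVec (grA A u i x) (star (grA A u i x)) := by
  have hz := (A.e i).map_source hx
  have hc := sm_contDiffAt hu i hz
  have e : u ((A.e i).symm (A.e i x)) = u x := by rw [(A.e i).left_inv hx]
  have h1 : ∀ s, HasDerivAt γ (deriv γ s) s := fun s =>
    (hγ.differentiable (by simp)).differentiableAt.hasDerivAt
  have h2' : ContDiff ℝ ∞ (deriv γ) := by
    have := (contDiff_infty_iff_deriv.1 hγ).2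
    exact this
  have h2 : ∀ s, HasDerivAt (deriv γ) (deriv (deriv γ) s) s := fun s =>
    (h2'.differentiable (by simp)).differentiableAt.hasDerivAt
  ext a b
  have h3 := hess_comp_real (φ := γ) (φ' := deriv γ) (d2 := deriv (deriv γ) (u x)) hc
    (Eventually.of_forall h1) (by rw [e]; exact h2 _) a b
  rw [e] at h3
  have h4 := star_gr (hc.differentiableAt (by simp)) b
  have h5 : hsf A (fun y => γ (u y)) i x a b =
      hess (fun w => γ (u ((A.e i).symm w))) (A.e i x) a b := rfl
  rw [h5, h3, Matrix.add_apply, Matrix.smul_apply, Matrix.smul_apply, Matrix.vecMulVec_apply,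
    smul_eq_mul, smul_eq_mul]
  congr 2
  rw [← h4]
  rfl

theorem tr_hsf_comp {γ : ℝ → ℝ} (hγ : ContDiff ℝ ∞ γ) (hF : HF A F) {i : A.ι} {x : M}
    (hx : x ∈ (A.e i).source) :
    ((hsf A (sF F) i x).adjugate * hsf A (fun y => γ (sF F y)) i x).trace =
      (((n : ℝ) * deriv γ (sF F x) * (hsf A (sF F) i x).det.re +
        deriv (deriv γ) (sF F x) * tv (hsf A (sF F) i x) (grA A (sF F) i x) : ℝ) : ℂ) := by
  rw [hsf_comp hγ (sm_sF hF) hx, Matrix.mul_add, Matrix.trace_add, Matrix.mul_smul,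
    Matrix.trace_smul, Matrix.mul_smul, Matrix.trace_smul, tr_adj_self, smul_eq_mul, smul_eq_mul]
  have h1 : ((hsf A (sF F) i x).adjugate *
      Matrix.vecMulVec (grA A (sF F) i x) (star (grA A (sF F) i x))).trace =
      (tv (hsf A (sF F) i x) (grA A (sF F) i x) : ℂ) := by
    have h2 := tvc_real (DF A F i x) (star (F x))
    rw [← hsf_sF hF i hx, ← grA_sF hF i hx] at h2
    exact h2
  have h3 : (hsf A (sF F) i x).det = (((hsf A (sF F) i x).det.re : ℝ) : ℂ) := by
    rw [hsf_sF hF i hx]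
    exact det_gram_real _
  rw [h1, h3]
  push_cast
  simp only [Complex.ofReal_re]
  ring

end

end Crest.Agent.R281.Mv_757
end

-- ▼ part R281/Mv4_757

/-!
# Row 281, S6-MONO (M4), part 4 (helper757): the hypothesis `SH` of 192 for a holomorphic map

`M` a complex manifold (`A : Atl n M`, `P : Part A`, not necessarily compact), `h` any smooth volume
form, `F : M → ℂ^N` holomorphic, `s = |F|²`, `w ≥ 0` smooth psh with
`tsupport w ∩ {s ≤ R}` compact.

* `muF h F` : the measure `det (DF* DF) dλ` (= volume of `(F^* β)^n`)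
* `GF h F`  : `|∂ s|²` with respect to `F^* β`, `0 ≤ GF ≤ s`
* `dat`     : `Mo_192.Dat (muF h F) (sF F) (GF h F) w n R`
* `mono`, `lower` : the conclusions of 192
-/

set_option autoImplicit false
set_option linter.unusedSectionVars false

open Set Filter Topology Complex MeasureTheory
open scoped ContDiff Matrix ComplexConjugate Manifold ComplexOrder ENNReal

namespace Crest.Agent.R281.Mv_757

open Crest.Agent.R275 Crest.Agent.R275.Geo Crest.Agent.R275.Core144 Crest.Agent.R275.EDR890
open Crest.Agent.R275.Pai323 Crest.Agent.R275.C1d194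
open Crest.Agent.R275.SerG398 (lint dens OffZ)
open Crest.Agent.R273.Defs_333 Crest.Agent.R273.Hess_333 Crest.Agent.R273.HessB_333
open Crest.Agent.R273.HM_333 Crest.Agent.R273.Kah_333 Crest.Agent.R273.Vol_333
open Crest.Agent.R273.StV_37 Crest.Agent.R273.Green_5 Crest.Agent.R273.Vm_333
open Crest.Agent.R273.FIa0_597 Crest.Agent.R273.FIb0_597 Crest.Agent.R273.FS_333
open Crest.Agent.R281

noncomputable section

variable {n N : ℕ} {M : Type} [TopologicalSpace M] [T2Space M] {A : Atl n M}
  {F : M → Fin N → ℂ}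

/-- the density of `F^* β` with respect to `h` -/
def rhoF (h : HM (KB A)⁻¹) (F : M → Fin N → ℂ) : M → ℝ :=
  dq h (fun i x => (hsf A (sF F) i x).det.re)

/-- auxiliary density -/
def tauF (h : HM (KB A)⁻¹) (F : M → Fin N → ℂ) : M → ℝ :=
  dq h (fun i x => tv (hsf A (sF F) i x) (grA A (sF F) i x))

/-- `|∂ s|²` -/
def GF (h : HM (KB A)⁻¹) (F : M → Fin N → ℂ) (x : M) : ℝ := tauF h F x / rhoF h F x

variable (h : HM (KB A)⁻¹)

theorem sm_cont {f : M → ℝ} (hf : A.Sm f) : Continuous f := by
  rw [continuous_iff_continuousAt]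
  intro x
  obtain ⟨i, hi⟩ := A.cover x
  have h1 : ContinuousOn (fun z => f ((A.e i).symm z)) (A.e i).target := (hf i).continuousOn
  have h2 : ContinuousOn (fun y => f ((A.e i).symm (A.e i y))) (A.e i).source :=
    h1.comp (A.e i).continuousOn fun y hy => (A.e i).map_source hy
  have h3 : ContinuousOn f (A.e i).source :=
    h2.congr fun y hy => by
      change f y = f ((A.e i).symm (A.e i y))
      rw [(A.e i).left_inv hy]
  exact h3.continuousAt ((A.e i).open_source.mem_nhds hi)

theorem cf_sF (hF : HF A F) : CF A (hsf A (sF F)) := hsf_cf (sm_sF hF)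
theorem tf_sF (hF : HF A F) : TF A (hsf A (sF F)) := tf_hsf (sm_sF hF)

theorem rhoF_eq (hF : HF A F) {i : A.ι} {x : M} (hx : x ∈ (A.e i).source) :
    h.w i x * rhoF h F x = (hsf A (sF F) i x).det.re := dq_mul h (rd_det (tf_sF hF)) hx

theorem tauF_eq (hF : HF A F) {i : A.ι} {x : M} (hx : x ∈ (A.e i).source) :
    h.w i x * tauF h F x = tv (hsf A (sF F) i x) (grA A (sF F) i x) :=
  dq_mul h (rd_tv (tf_sF hF) (sm_sF hF)) hx

theorem cont_rhoF (hF : HF A F) : Continuous (rhoF h F) :=
  sm_cont (sm_dq h (rd_det (tf_sF hF)) (sm_det (tf_sF hF)))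

theorem cont_tauF (hF : HF A F) : Continuous (tauF h F) :=
  sm_cont (sm_dq h (rd_tv (tf_sF hF) (sm_sF hF)) (sm_tv (cf_sF hF) (sm_sF hF)))

theorem rhoF_nonneg (hF : HF A F) (x : M) : 0 ≤ rhoF h F x := by
  have hx := mem_ch A x
  have h1 := rhoF_eq h hF hx
  have h2 : 0 ≤ (hsf A (sF F) (ch A x) x).det.re := by
    rw [hsf_sF hF _ hx]
    exact det_gram_re_nonneg _
  rw [← h1] at h2
  exact nonneg_of_mul_nonneg_right (by linarith) (h.pos _ x hx)

theorem tauF_nonneg (hF : HF A F) (x : M) : 0 ≤ tauF h F x := by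
  have hx := mem_ch A x
  have h1 := tauF_eq h hF hx
  have h2 : 0 ≤ tv (hsf A (sF F) (ch A x) x) (grA A (sF F) (ch A x) x) := by
    rw [hsf_sF hF _ hx, grA_sF hF _ hx]
    exact tv_nonneg _ _
  rw [← h1] at h2
  exact nonneg_of_mul_nonneg_right (by linarith) (h.pos _ x hx)

theorem star_dot_sF (x : M) : (star (star (F x)) ⬝ᵥ star (F x)).re = sF F x := by
  unfold sF
  simp only [star_star, dotProduct, Complex.re_sum]
  refine Finset.sum_congr rfl fun k _ => ?_
  have : F x k * star (F x) k = ((‖F x k‖ ^ 2 : ℝ) : ℂ) := by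
    have h1 : F x k * star (F x) k = F x k * conj (F x k) := rfl
    rw [h1, Complex.mul_conj, Complex.normSq_eq_norm_sq]
  rw [this, Complex.ofReal_re]

theorem tauF_le (hF : HF A F) (x : M) : tauF h F x ≤ rhoF h F x * sF F x := by
  have hx := mem_ch A x
  have hp := h.pos _ x hx
  have h1 := tauF_eq h hF hx
  have h2 := rhoF_eq h hF hx
  have h3 : tv (hsf A (sF F) (ch A x) x) (grA A (sF F) (ch A x) x) ≤
      (hsf A (sF F) (ch A x) x).det.re * sF F x := by
    rw [hsf_sF hF _ hx, grA_sF hF _ hx, ← star_dot_sF (F := F) x]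
    exact tv_le _ _
  rw [← h1, ← h2, mul_assoc] at h3
  exact le_of_mul_le_mul_left h3 hp

theorem GF_nonneg (hF : HF A F) (x : M) : 0 ≤ GF h F x :=
  div_nonneg (tauF_nonneg h hF x) (rhoF_nonneg h hF x)

theorem GF_le (hF : HF A F) (x : M) : GF h F x ≤ sF F x := by
  unfold GF
  rcases (rhoF_nonneg h hF x).eq_or_lt with h0 | h0
  · rw [← h0, div_zero]
    exact sF_nonneg F x
  · rw [div_le_iff₀ h0, mul_comm]
    exact tauF_le h hF x

theorem rhoF_mul_GF (hF : HF A F) (x : M) : rhoF h F x * GF h F x = tauF h F x := by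
  unfold GF
  rcases (rhoF_nonneg h hF x).eq_or_lt with h0 | h0
  · have h1 := tauF_le h hF x
    have h2 := tauF_nonneg h hF x
    rw [← h0, zero_mul] at h1 ⊢
    linarith
  · exact mul_div_cancel₀ _ h0.ne'

variable [MeasurableSpace M] [BorelSpace M] [Countable A.ι]

/-- the measure `det (DF* DF) dλ` -/
def muF (F : M → Fin N → ℂ) : Measure M :=
  (vm h).withDensity (fun x => ENNReal.ofReal (rhoF h F x))

theorem locFin_muF (hF : HF A F) : IsLocallyFiniteMeasure (muF h F) := by
  have := isLocallyFinite_vm h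
  exact IsLocallyFiniteMeasure.withDensity_ofReal (cont_rhoF h hF)

theorem integral_muF (hF : HF A F) (f : M → ℝ) :
    ∫ x, f x ∂(muF h F) = ∫ x, rhoF h F x * f x ∂(vm h) := by
  unfold muF
  rw [integral_withDensity_eq_integral_toReal_smul
    (cont_rhoF h hF).measurable.ennreal_ofReal
    (Eventually.of_forall fun x => ENNReal.ofReal_lt_top)]
  refine integral_congr_ae (Eventually.of_forall fun x => ?_)
  simp only [smul_eq_mul]
  rw [ENNReal.toReal_ofReal (rhoF_nonneg h hF x)]

theorem meas_GF (hF : HF A F) : Measurable (GF h F) :=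
  (cont_tauF h hF).measurable.div (cont_rhoF h hF).measurable

/-- data for the instance -/
structure MD (A : Atl n M) (F : M → Fin N → ℂ) (w : M → ℝ) (R : ℝ) : Prop where
  hol : HF A F
  sm : A.Sm w
  w0 : ∀ x, 0 ≤ w x
  psh : ∀ i, ∀ x ∈ (A.e i).source, (hsf A w i x).PosSemidef
  cpt : IsCompact (tsupport w ∩ {x | sF F x ≤ R})

variable {w : M → ℝ} {R : ℝ}

/-- `∫ w Lap (γ ∘ s) = ∫ (γ ∘ s) Lap w` -/
theorem key (P : Part A) (D : MD A F w R) {γ : ℝ → ℝ} (hγ : ContDiff ℝ ∞ γ)
    (hz : ∀ s, R ≤ s → γ s = 0) :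
    ∫ x, w x * ((n : ℝ) * deriv γ (sF F x) + deriv (deriv γ) (sF F x) * GF h F x) ∂(muF h F) =
      ∫ x, γ (sF F x) *
        dq h (fun i x => ((hsf A (sF F) i x).adjugate * hsf A w i x).trace.re) x ∂(vm h) := by
  set K : Set M := tsupport w ∩ {x | sF F x ≤ R} with hK
  have hKc : IsCompact K := D.cpt
  have hg := cf_sF D.hol
  have hs := sm_sF D.hol
  have hsc := sm_continuous hs
  have hu : A.Sm (fun x => γ (sF F x)) := fun i => hγ.comp_contDiffOn (hs i)
  have hγ1 : ContDiff ℝ ∞ (deriv γ) := (contDiff_infty_iff_deriv.1 hγ).2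
  have hγ2 : ContDiff ℝ ∞ (deriv (deriv γ)) := (contDiff_infty_iff_deriv.1 hγ1).2
  have hz1 : ∀ s, R < s → deriv γ s = 0 := by
    intro s hs
    have : γ =ᶠ[𝓝 s] fun _ => 0 := by
      filter_upwards [lt_mem_nhds hs] with t ht
      exact hz t ht.le
    rw [this.deriv_eq, deriv_const]
  have hz2 : ∀ s, R < s → deriv (deriv γ) s = 0 := by
    intro s hs
    have : deriv γ =ᶠ[𝓝 s] fun _ => 0 := by
      filter_upwards [lt_mem_nhds hs] with t ht
      exact hz1 t ht
    rw [this.deriv_eq, deriv_const]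
  have hoff : ∀ x ∉ K, w =ᶠ[𝓝 x] 0 ∨ (fun x => γ (sF F x)) =ᶠ[𝓝 x] 0 := by
    intro x hx
    rw [hK, mem_inter_iff, not_and_or] at hx
    rcases hx with hx | hx
    · exact Or.inl (notMem_tsupport_iff_eventuallyEq.1 hx)
    · have hx' : R < sF F x := not_le.1 hx
      refine Or.inr ?_
      filter_upwards [hsc.continuousAt.eventually (lt_mem_nhds hx')] with y hy
      exact hz _ hy.le
  -- left side
  set f : M → ℝ := fun x => w x * ((n : ℝ) * deriv γ (sF F x) * rhoF h F x +
    deriv (deriv γ) (sF F x) * tauF h F x) with hf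
  have hfc : Continuous f :=
    (sm_continuous D.sm).mul (((continuous_const.mul (hγ1.continuous.comp hsc)).mul
      (cont_rhoF h D.hol)).add ((hγ2.continuous.comp hsc).mul (cont_tauF h D.hol)))
  have hf0 : ∀ x ∉ K, f x = 0 := by
    intro x hx
    rw [hK, mem_inter_iff, not_and_or] at hx
    rcases hx with hx | hx
    · simp only [hf]
      rw [image_eq_zero_of_notMem_tsupport hx, zero_mul]
    · have hx' : R < sF F x := not_le.1 hx
      simp only [hf]
      rw [hz1 _ hx', hz2 _ hx']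
      ring
  have e1 : ∫ x, w x * ((n : ℝ) * deriv γ (sF F x) + deriv (deriv γ) (sF F x) * GF h F x)
      ∂(muF h F) = ∫ x, f x ∂(vm h) := by
    rw [integral_muF h D.hol]
    refine integral_congr_ae (Eventually.of_forall fun x => ?_)
    simp only [hf]
    rw [← rhoF_mul_GF h D.hol x]
    ring
  rw [e1, vm_tot_re P h hKc (Finset.Subset.refl _) (integrable_of_zero_off h hKc hfc hf0) hf0]
  have e2 : tot P (Fn P hKc) (fun i x => ((h.w i x * f x : ℝ) : ℂ)) =
      tot P (Fn P hKc) (fun i x => (w x : ℂ) *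
        ((hsf A (sF F) i x).adjugate * hsf A (fun y => γ (sF F y)) i x).trace) := by
    refine tot_congr P _ fun i _ x hx => ?_
    rw [tr_hsf_comp hγ D.hol hx, ← rhoF_eq h D.hol hx, ← tauF_eq h D.hol hx]
    simp only [hf]
    push_cast
    ring
  have hh : ∀ i, ∀ x ∈ (A.e i).source, (hsf A (sF F) i x).IsHermitian := by
    intro i x hx
    rw [hsf_sF D.hol i hx]
    exact Matrix.isHermitian_mul_conjTranspose_self _
  rw [e2, green_symm P hg hh hu D.sm hKc (Finset.Subset.refl _) hoff]
  -- right side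
  set q : M → ℝ := dq h (fun i x => ((hsf A (sF F) i x).adjugate * hsf A w i x).trace.re) with hq
  have hrd := rd_tr (tf_sF D.hol) (tf_hsf D.sm)
  have hqc : Continuous q := sm_continuous (sm_dq h hrd (sm_tr hg D.sm))
  have hq0 : ∀ x ∉ K, γ (sF F x) * q x = 0 := by
    intro x hx
    rw [hK, mem_inter_iff, not_and_or] at hx
    rcases hx with hx | hx
    · have hx' := mem_ch A x
      have h1 : q x = 0 := by
        rw [hq, dq_eq h hrd hx']
        have h2 : hsf A w (ch A x) x = 0 := by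
          have h3 : (fun z => w ((A.e (ch A x)).symm z)) =ᶠ[𝓝 (A.e (ch A x) x)]
              fun _ => (0 : ℝ) := by
            have hc : Tendsto (A.e (ch A x)).symm (𝓝 (A.e (ch A x) x)) (𝓝 x) := by
              have := (A.e (ch A x)).continuousAt_symm ((A.e (ch A x)).map_source hx')
              rw [ContinuousAt, (A.e (ch A x)).left_inv hx'] at this
              exact this
            exact hc.eventually (notMem_tsupport_iff_eventuallyEq.1 hx)
          show hess (fun z => w ((A.e (ch A x)).symm z)) (A.e (ch A x) x) = 0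
          rw [hess_congr h3]
          ext a b
          rw [hess_apply]
          have h4 : wd (true, b) (cu (fun _ : Cn n => (0 : ℝ))) = fun _ => (0 : ℂ) := by
            funext z
            exact wd_const _ _ _
          rw [h4]
          exact wd_const _ _ _
        simp only [h2]
        rw [Matrix.mul_zero, Matrix.trace_zero, Complex.zero_re, zero_div]
      rw [h1, mul_zero]
    · rw [hz _ (not_le.1 hx).le, zero_mul]
  have hgc : Continuous fun x => γ (sF F x) * q x := (sm_continuous hu).mul hqc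
  rw [vm_tot_re P h hKc (Finset.Subset.refl _) (integrable_of_zero_off h hKc hgc hq0) hq0]
  have e3 : tot P (Fn P hKc) (fun i x => ((γ (sF F x) : ℝ) : ℂ) *
      ((hsf A (sF F) i x).adjugate * hsf A w i x).trace) =
      tot P (Fn P hKc) (fun i x => ((h.w i x * (γ (sF F x) * q x) : ℝ) : ℂ)) := by
    refine tot_congr P _ fun i _ x hx => ?_
    have h1 : h.w i x * q x = ((hsf A (sF F) i x).adjugate * hsf A w i x).trace.re :=
      dq_mul h hrd hx
    have h2 : ((hsf A (sF F) i x).adjugate * hsf A w i x).trace =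
        ((h.w i x * q x : ℝ) : ℂ) := by
      rw [h1]
      have h3 : conj (((hsf A (sF F) i x).adjugate * hsf A w i x).trace) =
          ((hsf A (sF F) i x).adjugate * hsf A w i x).trace := by
        have h4 : star (((hsf A (sF F) i x).adjugate * hsf A w i x).trace) =
            (((hsf A (sF F) i x).adjugate * hsf A w i x)ᴴ).trace :=
          (Matrix.trace_conjTranspose _).symm
        have h5 : ((hsf A (sF F) i x).adjugate)ᴴ = (hsf A (sF F) i x).adjugate := by
          rw [Matrix.adjugate_conjTranspose, hh i x hx]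
        show star (((hsf A (sF F) i x).adjugate * hsf A w i x).trace) = _
        rw [h4, Matrix.conjTranspose_mul, h5, (D.psh i x hx).isHermitian, Matrix.trace_mul_comm]
      exact Complex.ext (by simp) (by simpa using im_zero_of_conj h3)
    rw [h2]
    push_cast
    ring
  rw [e3]

/-- `SH` for smooth test functions -/
theorem sh_smooth (P : Part A) (D : MD A F w R) {γ : ℝ → ℝ} (hγ : ContDiff ℝ ∞ γ)
    (h0 : ∀ s, 0 ≤ γ s) (hz : ∀ s, R ≤ s → γ s = 0) :
    0 ≤ ∫ x, w x * ((n : ℝ) * deriv γ (sF F x) + deriv (deriv γ) (sF F x) * GF h F x)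
      ∂(muF h F) := by
  rw [key h P D hγ hz]
  refine integral_nonneg fun x => mul_nonneg (h0 _) ?_
  have hx := mem_ch A x
  rw [dq_eq h (rd_tr (tf_sF D.hol) (tf_hsf D.sm)) hx]
  refine div_nonneg ?_ (h.pos _ x hx).le
  refine tr_adj_nonneg ?_ (D.psh _ x hx)
  rw [hsf_sF D.hol _ hx]
  exact Matrix.posSemidef_self_mul_conjTranspose _

theorem intOn_w (D : MD A F w R) : IntegrableOn w {x | sF F x < R} (muF h F) := by
  have := locFin_muF h D.hol
  have h1 : IntegrableOn w (tsupport w ∩ {x | sF F x ≤ R}) (muF h F) :=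
    (sm_continuous D.sm).continuousOn.integrableOn_compact D.cpt
  refine h1.of_forall_sdiff_eq_zero
    (measurableSet_lt (sm_continuous (sm_sF D.hol)).measurable measurable_const) fun x hx => ?_
  refine image_eq_zero_of_notMem_tsupport fun h2 => hx.2 ⟨h2, ?_⟩
  exact (show sF F x < R from hx.1).le

/-- **(M4)**: the data of 192 -/
theorem MD.dat (P : Part A) (D : MD A F w R) : Mo_192.Dat (muF h F) (sF F) (GF h F) w n R where
  mρ := (sm_continuous (sm_sF D.hol)).measurable
  mG := meas_GF h D.hol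
  G0 := GF_nonneg h D.hol
  Gρ := GF_le h D.hol
  w0 := D.w0
  int := intOn_w h D
  sh := sh_of_smooth (sm_continuous (sm_sF D.hol)).measurable (meas_GF h D.hol)
    (GF_nonneg h D.hol) (GF_le h D.hol) (intOn_w h D) fun _ hγ h0 hz => sh_smooth h P D hγ h0 hz

end

end Crest.Agent.R281.Mv_757
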