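import Crest.Agent.R275.QN2b_734
import Crest.Agent.R281.Mv4_757
import Crest.Agent.R273.FIa0_597
import Crest.Agent.R273.FS_333

-- ▼ part R281/Mv5_757
section

/-!
# Row 281, S6-MONO (M4), part 5 (helper757): the local form of `SH`

As `Mv4`, but `F` is holomorphic only on an open set `W0`, and only
`tsupport w ∩ (W0 ∩ {|F|² ≤ R})` is compact.

* `ML A W0 F w R` : the data
* `rhoL`, `Gl`, `muL`, `sL` : density of `F^*β`, `|∂s|²`, the measure (zero off `W0`), `s` (`= |R|+1` off `W0`)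
* `ML.dat` : `Mo_192.Dat (muL h W0 F) (sL W0 F R) (Gl h W0 F) w n R`
-/

set_option autoImplicit false
set_option linter.unusedSectionVars false

open Set Filter Topology Complex MeasureTheory
open scoped ContDiff Matrix ComplexConjugate Manifold ComplexOrder ENNReal

namespace Crest.Agent.R281.Mv_757

open Crest.Agent.R275 Crest.Agent.R275.Geo Crest.Agent.R275.Core144 Crest.Agent.R275.EDR890
open Crest.Agent.R275.Pai323 Crest.Agent.R275.C1d194
open Crest.Agent.R275.SerG398 (lint dens OffZ)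
open Crest.Agent.R275.OmT75 (dj dl dl_chain dl_mul dj_sum dj_congr)
open Crest.Agent.R273.Defs_333 Crest.Agent.R273.Hess_333 Crest.Agent.R273.HessB_333
open Crest.Agent.R273.HM_333 Crest.Agent.R273.Kah_333 Crest.Agent.R273.Vol_333
open Crest.Agent.R273.StV_37 Crest.Agent.R273.Green_5 Crest.Agent.R273.Vm_333
open Crest.Agent.R273.FIa0_597 Crest.Agent.R273.FIb0_597 Crest.Agent.R273.FS_333
open Crest.Agent.R275.QN2b734 (SmP sm_iff smP_const exists_bump)
open Crest.Agent.R281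

noncomputable section

variable {n N : ℕ} {M : Type} [TopologicalSpace M] [T2Space M] {A : Atl n M}
  {F : M → Fin N → ℂ} {W0 : Set M}

/-- holomorphic on `W0` -/
def HFL (A : Atl n M) (W0 : Set M) (F : M → Fin N → ℂ) : Prop :=
  ∀ i k, HolAt A i W0 (fun x => F x k)

/-- the domain in the chart -/
def tW (A : Atl n M) (W0 : Set M) (i : A.ι) : Set (Cn n) := (A.e i).target ∩ (A.e i).symm ⁻¹' W0

theorem isOpen_tW (hW : IsOpen W0) (i : A.ι) : IsOpen (tW A W0 i) :=
  (A.e i).isOpen_inter_preimage_symm hW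

theorem mem_tW {i : A.ι} {x : M} (hx : x ∈ (A.e i).source) (hxW : x ∈ W0) :
    A.e i x ∈ tW A W0 i := by
  refine ⟨(A.e i).map_source hx, ?_⟩
  show (A.e i).symm (A.e i x) ∈ W0
  rwa [(A.e i).left_inv hx]

theorem hsf_sFL (hF : HFL A W0 F) (hW : IsOpen W0) {i : A.ι} {x : M} (hx : x ∈ (A.e i).source)
    (hxW : x ∈ W0) : hsf A (sF F) i x = DF A F i x * (DF A F i x)ᴴ := by
  ext a b
  exact hess_sq (F := fun z => F ((A.e i).symm z)) (isOpen_tW hW i) (hF i) (mem_tW hx hxW) a b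

theorem grA_sFL (hF : HFL A W0 F) (hW : IsOpen W0) {i : A.ι} {x : M} (hx : x ∈ (A.e i).source)
    (hxW : x ∈ W0) : grA A (sF F) i x = DF A F i x *ᵥ star (F x) := by
  funext a
  have h1 := wd_sq' (F := fun z => F ((A.e i).symm z)) (isOpen_tW hW i) (hF i) (mem_tW hx hxW) a
  have h2 : grA A (sF F) i x a = ∑ k, fderiv ℂ (fun z => F ((A.e i).symm z) k) (A.e i x)
      (EuclideanSpace.single a 1) * conj (F ((A.e i).symm (A.e i x)) k) := h1
  rw [h2, (A.e i).left_inv hx]
  rfl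

theorem cd_sFL (hF : HFL A W0 F) (hW : IsOpen W0) {i : A.ι} {x : M} (hx : x ∈ (A.e i).source)
    (hxW : x ∈ W0) : ContDiffAt ℝ ∞ (fun z => sF F ((A.e i).symm z)) (A.e i x) := by
  have : ContDiffAt ℝ ∞ (fun z => ∑ k, ‖F ((A.e i).symm z) k‖ ^ 2) (A.e i x) :=
    ContDiffAt.sum fun k _ =>
      (contDiffAt_of_hol (isOpen_tW hW i) (hF i k) (mem_tW hx hxW)).norm_sq ℝ
  exact this

theorem smP_sFL (hF : HFL A W0 F) (hW : IsOpen W0) {x : M} (hxW : x ∈ W0) : SmP A (sF F) x := by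
  intro i hi
  exact cd_sFL hF hW hi hxW

/-- transformation of the Jacobian -/
theorem DF_tr (hF : HFL A W0 F) (hW : IsOpen W0) {i j : A.ι} {x : M}
    (hx : x ∈ (A.e i).source ∩ (A.e j).source) (hxW : x ∈ W0) :
    DF A F i x = (Jm A i j x)ᵀ * DF A F j x := by
  have hd : ∀ {l : A.ι}, x ∈ (A.e l).source → ∀ k,
      DifferentiableAt ℂ (fun z => F ((A.e l).symm z) k) (A.e l x) := fun {l} hl k =>
    (hF l k).differentiableAt ((isOpen_tW hW l).mem_nhds (mem_tW hl hxW))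
  have e : ∀ {l : A.ι}, x ∈ (A.e l).source → ∀ k a, DF A F l x a k =
      dl A l a (fun y => F y k) x := by
    intro l hl k a
    have h1 := wd_hol' (hd hl k) (a := a)
    have h2 : dl A l a (fun y => F y k) x = wd (false, a) (fun z => F ((A.e l).symm z) k)
        (A.e l x) := by
      rw [← dj_eq_wd]
      rfl
    rw [h2, h1]
    rfl
  ext a k
  rw [e hx.1, dl_chain ((hd hx.2 k).restrictScalars ℝ) hx a, Matrix.mul_apply]
  refine Finset.sum_congr rfl fun b _ => ?_
  rw [e hx.2, Matrix.transpose_apply, Jm_apply, smul_eq_mul]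

open Classical in
/-- the density of `F^* β` (zero off `W0`) -/
def dFL (A : Atl n M) (W0 : Set M) (F : M → Fin N → ℂ) (i : A.ι) (x : M) : ℝ :=
  if x ∈ W0 then (DF A F i x * (DF A F i x)ᴴ).det.re else 0

open Classical in
/-- the auxiliary density (zero off `W0`) -/
def tFL (A : Atl n M) (W0 : Set M) (F : M → Fin N → ℂ) (i : A.ι) (x : M) : ℝ :=
  if x ∈ W0 then tv (DF A F i x * (DF A F i x)ᴴ) (DF A F i x *ᵥ star (F x)) else 0

theorem dFL_on {i : A.ι} {x : M} (hxW : x ∈ W0) :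
    dFL A W0 F i x = (DF A F i x * (DF A F i x)ᴴ).det.re := if_pos hxW
theorem tFL_on {i : A.ι} {x : M} (hxW : x ∈ W0) :
    tFL A W0 F i x = tv (DF A F i x * (DF A F i x)ᴴ) (DF A F i x *ᵥ star (F x)) := if_pos hxW
theorem dFL_off {i : A.ι} {x : M} (hxW : x ∉ W0) : dFL A W0 F i x = 0 := if_neg hxW
theorem tFL_off {i : A.ι} {x : M} (hxW : x ∉ W0) : tFL A W0 F i x = 0 := if_neg hxW

theorem gram_tr (J : Matrix (Fin n) (Fin n) ℂ) (C : Matrix (Fin n) (Fin N) ℂ) :
    (J * C) * (J * C)ᴴ = J * (C * Cᴴ) * Jᴴ := by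
  rw [Matrix.conjTranspose_mul]
  simp only [Matrix.mul_assoc]

theorem rd_dFL (hF : HFL A W0 F) (hW : IsOpen W0) : RD A (dFL A W0 F) := by
  intro i j x hx
  by_cases hxW : x ∈ W0
  · rw [dFL_on hxW, dFL_on hxW, DF_tr hF hW hx hxW, gram_tr, Matrix.det_mul, Matrix.det_mul,
      Matrix.det_conjTranspose, mul_right_comm,
      show (star (Jm A i j x)ᵀ.det : ℂ) = conj (Jm A i j x)ᵀ.det from rfl, jac_eq,
      Complex.re_ofReal_mul]
  · rw [dFL_off hxW, dFL_off hxW, mul_zero]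

theorem rd_tFL (hF : HFL A W0 F) (hW : IsOpen W0) : RD A (tFL A W0 F) := by
  intro i j x hx
  by_cases hxW : x ∈ W0
  · rw [tFL_on hxW, tFL_on hxW, DF_tr hF hW hx hxW, gram_tr]
    unfold tv
    rw [← Matrix.mulVec_mulVec, tvc_mul, jac_eq, Complex.re_ofReal_mul]
  · rw [tFL_off hxW, tFL_off hxW, mul_zero]

/-! ### continuity -/

theorem contOn_DF (hF : HFL A W0 F) (hW : IsOpen W0) (i : A.ι) :
    ContinuousOn (DF A F i) ((A.e i).source ∩ W0) := by
  have h0 : ∀ a k, ContinuousOn (fun x => DF A F i x a k) ((A.e i).source ∩ W0) := by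
    intro a k
    have h3 : AnalyticOnNhd ℂ (fderiv ℂ (fun z => F ((A.e i).symm z) k)) (tW A W0 i) :=
      (Crest.Agent.R266.SCV.analyticOnNhd_of_differentiableOn (isOpen_tW hW i) (hF i k)).fderiv
    have h4 : ContinuousOn (fun z => fderiv ℂ (fun z => F ((A.e i).symm z) k) z
        (EuclideanSpace.single a 1)) (tW A W0 i) :=
      h3.continuousOn.clm_apply continuousOn_const
    exact h4.comp ((A.e i).continuousOn.mono inter_subset_left)
      fun x hx => mem_tW hx.1 hx.2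
  exact continuousOn_pi.2 fun a => continuousOn_pi.2 fun k => h0 a k

theorem contOn_F (hF : HFL A W0 F) (hW : IsOpen W0) (k : Fin N) :
    ContinuousOn (fun x => F x k) W0 := by
  intro x hxW
  obtain ⟨i, hi⟩ := A.cover x
  have h1 : ContinuousAt (fun z => F ((A.e i).symm z) k) (A.e i x) :=
    ((hF i k).differentiableAt ((isOpen_tW hW i).mem_nhds (mem_tW hi hxW))).continuousAt
  have h2 : ContinuousAt (fun y => F ((A.e i).symm (A.e i y)) k) x :=
    ContinuousAt.comp (g := fun z => F ((A.e i).symm z) k) h1 ((A.e i).continuousAt hi)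
  refine (h2.congr ?_).continuousWithinAt
  filter_upwards [(A.e i).open_source.mem_nhds hi] with y hy
  rw [(A.e i).left_inv hy]

theorem contOn_sF (hF : HFL A W0 F) (hW : IsOpen W0) : ContinuousOn (sF F) W0 := by
  unfold sF
  exact continuousOn_finsetSum _ fun k _ => (contOn_F hF hW k).norm.pow 2

theorem cont_det : Continuous fun C : Matrix (Fin n) (Fin N) ℂ => (C * Cᴴ).det.re :=
  Complex.continuous_re.comp
    ((continuous_id.matrix_mul continuous_id.matrix_conjTranspose).matrix_det)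

theorem cont_tv : Continuous fun p : Matrix (Fin n) (Fin N) ℂ × (Fin N → ℂ) =>
    tv (p.1 * p.1ᴴ) (p.1 *ᵥ star p.2) := by
  unfold tv tvc
  have h1 : Continuous fun p : Matrix (Fin n) (Fin N) ℂ × (Fin N → ℂ) => p.1 * p.1ᴴ :=
    continuous_fst.matrix_mul continuous_fst.matrix_conjTranspose
  have h2 : Continuous fun p : Matrix (Fin n) (Fin N) ℂ × (Fin N → ℂ) => p.1 *ᵥ star p.2 :=
    continuous_fst.matrix_mulVec continuous_snd.star
  exact Complex.continuous_re.comp
    ((h1.matrix_adjugate.matrix_mul (h2.matrix_vecMulVec h2.star)).matrix_trace)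

theorem contOn_dq (h : HM (KB A)⁻¹) (hW : IsOpen W0) {f : A.ι → M → ℝ} (hf : RD A f)
    (hc : ∀ i, ContinuousOn (f i) ((A.e i).source ∩ W0)) : ContinuousOn (dq h f) W0 := by
  intro x hxW
  obtain ⟨i, hi⟩ := A.cover x
  have hw : ContinuousOn (h.w i) (A.e i).source := by
    have h1 : ContinuousOn (fun z => h.w i ((A.e i).symm z)) (A.e i).target :=
      (h.sm i).continuousOn
    have h2 : ContinuousOn (fun y => h.w i ((A.e i).symm (A.e i y))) (A.e i).source :=
      h1.comp (A.e i).continuousOn fun y hy => (A.e i).map_source hy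
    exact h2.congr fun y hy => by
      change h.w i y = h.w i ((A.e i).symm (A.e i y))
      rw [(A.e i).left_inv hy]
  have ho : (A.e i).source ∩ W0 ∈ 𝓝 x := ((A.e i).open_source.inter hW).mem_nhds ⟨hi, hxW⟩
  have h3 : ContinuousAt (fun y => f i y / h.w i y) x :=
    ((hc i).continuousAt ho).div (hw.continuousAt ((A.e i).open_source.mem_nhds hi))
      (h.pos i x hi).ne'
  refine (h3.congr ?_).continuousWithinAt
  filter_upwards [ho] with y hy
  exact (dq_eq h hf hy.1).symm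

variable (h : HM (KB A)⁻¹)

/-- the density of `F^* β` with respect to `h`, zero off `W0` -/
def rhoL (W0 : Set M) (F : M → Fin N → ℂ) : M → ℝ := dq h (dFL A W0 F)

/-- auxiliary -/
def tauL (W0 : Set M) (F : M → Fin N → ℂ) : M → ℝ := dq h (tFL A W0 F)

/-- `|∂ s|²` -/
def Gl (W0 : Set M) (F : M → Fin N → ℂ) (x : M) : ℝ := tauL h W0 F x / rhoL h W0 F x

open Classical in
/-- `|F|²` on `W0`, large off `W0` -/
def sL (W0 : Set M) (F : M → Fin N → ℂ) (R : ℝ) (x : M) : ℝ :=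
  if x ∈ W0 then sF F x else |R| + 1

theorem sL_on {R : ℝ} {x : M} (hxW : x ∈ W0) : sL W0 F R x = sF F x := if_pos hxW
theorem sL_off {R : ℝ} {x : M} (hxW : x ∉ W0) : sL W0 F R x = |R| + 1 := if_neg hxW

theorem sL_lt (R : ℝ) : {x | sL W0 F R x < R} = W0 ∩ {x | sF F x < R} := by
  ext x
  simp only [mem_ofPred_eq, mem_inter_iff]
  by_cases hxW : x ∈ W0
  · rw [sL_on hxW]
    simp [hxW]
  · rw [sL_off hxW]
    simp only [hxW, false_and, iff_false, not_lt]
    linarith [le_abs_self R]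

theorem sL_lt' {R r : ℝ} (hr : r ≤ R) : {x | sL W0 F R x < r} = W0 ∩ {x | sF F x < r} := by
  ext x
  simp only [mem_ofPred_eq, mem_inter_iff]
  by_cases hxW : x ∈ W0
  · rw [sL_on hxW]
    simp [hxW]
  · rw [sL_off hxW]
    simp only [hxW, false_and, iff_false, not_lt]
    linarith [le_abs_self R]


theorem rhoL_mul (hF : HFL A W0 F) (hW : IsOpen W0) {i : A.ι} {x : M}
    (hx : x ∈ (A.e i).source) : h.w i x * rhoL h W0 F x = dFL A W0 F i x :=
  dq_mul h (rd_dFL hF hW) hx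

theorem tauL_mul (hF : HFL A W0 F) (hW : IsOpen W0) {i : A.ι} {x : M}
    (hx : x ∈ (A.e i).source) : h.w i x * tauL h W0 F x = tFL A W0 F i x :=
  dq_mul h (rd_tFL hF hW) hx

theorem dFL_nonneg (i : A.ι) (x : M) : 0 ≤ dFL A W0 F i x := by
  by_cases hxW : x ∈ W0
  · rw [dFL_on hxW]
    exact det_gram_re_nonneg _
  · rw [dFL_off hxW]

theorem tFL_nonneg (i : A.ι) (x : M) : 0 ≤ tFL A W0 F i x := by
  by_cases hxW : x ∈ W0
  · rw [tFL_on hxW]
    exact tv_nonneg _ _
  · rw [tFL_off hxW]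

theorem tFL_le (i : A.ι) (x : M) : tFL A W0 F i x ≤ dFL A W0 F i x * sF F x := by
  by_cases hxW : x ∈ W0
  · rw [tFL_on hxW, dFL_on hxW, ← star_dot_sF (F := F) x]
    exact tv_le _ _
  · rw [tFL_off hxW, dFL_off hxW, zero_mul]

theorem rhoL_nonneg (x : M) : 0 ≤ rhoL h W0 F x :=
  div_nonneg (dFL_nonneg _ _) (h.pos _ x (mem_ch A x)).le

theorem tauL_nonneg (x : M) : 0 ≤ tauL h W0 F x :=
  div_nonneg (tFL_nonneg _ _) (h.pos _ x (mem_ch A x)).le

theorem tauL_le (x : M) : tauL h W0 F x ≤ rhoL h W0 F x * sF F x := by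
  have hp := h.pos _ x (mem_ch A x)
  unfold tauL rhoL dq
  rw [div_mul_eq_mul_div]
  exact div_le_div_of_nonneg_right (tFL_le _ _) hp.le

theorem rhoL_off {x : M} (hxW : x ∉ W0) : rhoL h W0 F x = 0 := by
  unfold rhoL dq
  rw [dFL_off hxW, zero_div]

theorem tauL_off {x : M} (hxW : x ∉ W0) : tauL h W0 F x = 0 := by
  unfold tauL dq
  rw [tFL_off hxW, zero_div]

theorem Gl_nonneg (x : M) : 0 ≤ Gl h W0 F x :=
  div_nonneg (tauL_nonneg h x) (rhoL_nonneg h x)

theorem Gl_le (R : ℝ) (x : M) : Gl h W0 F x ≤ sL W0 F R x := by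
  by_cases hxW : x ∈ W0
  · rw [sL_on hxW]
    unfold Gl
    rcases (rhoL_nonneg h x).eq_or_lt with h0 | h0
    · rw [← h0, div_zero]
      exact sF_nonneg F x
    · rw [div_le_iff₀ h0, mul_comm]
      exact tauL_le h x
  · rw [sL_off hxW]
    unfold Gl
    rw [tauL_off h hxW, zero_div]
    positivity

theorem rhoL_mul_Gl (x : M) : rhoL h W0 F x * Gl h W0 F x = tauL h W0 F x := by
  unfold Gl
  rcases (rhoL_nonneg h x).eq_or_lt with h0 | h0
  · have h1 := tauL_le h (W0 := W0) (F := F) x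
    have h2 := tauL_nonneg h (W0 := W0) (F := F) x
    rw [← h0, zero_mul] at h1 ⊢
    linarith
  · exact mul_div_cancel₀ _ h0.ne'

theorem contOn_rhoL (hF : HFL A W0 F) (hW : IsOpen W0) : ContinuousOn (rhoL h W0 F) W0 := by
  refine contOn_dq h hW (rd_dFL hF hW) fun i => ?_
  have h1 : ContinuousOn (fun x => (DF A F i x * (DF A F i x)ᴴ).det.re)
      ((A.e i).source ∩ W0) := cont_det.comp_continuousOn (contOn_DF hF hW i)
  exact h1.congr fun x hx => dFL_on hx.2

theorem contOn_tauL (hF : HFL A W0 F) (hW : IsOpen W0) : ContinuousOn (tauL h W0 F) W0 := by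
  refine contOn_dq h hW (rd_tFL hF hW) fun i => ?_
  have h0 : ContinuousOn (fun x => (DF A F i x, F x)) ((A.e i).source ∩ W0) :=
    (contOn_DF hF hW i).prodMk
      (continuousOn_pi.2 fun k => (contOn_F hF hW k).mono inter_subset_right)
  have h1 := (cont_tv (n := n) (N := N)).comp_continuousOn h0
  refine ContinuousOn.congr h1 fun x hx => ?_
  rw [tFL_on hx.2]
  rfl

end

end Crest.Agent.R281.Mv_757
end

-- ▼ part R281/Mv6_757
section

/-!
# Row 281, S6-MONO (M4), part 6 (helper757): the local form of `SH`, conclusion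

* `structure ML A W0 F w R` : `W0` open, `F` holomorphic on `W0`, `w ≥ 0` smooth on `M` and psh on
  `W0 ∩ {|F|² ≤ R}`, `tsupport w ∩ (W0 ∩ {|F|² ≤ R})` compact
* `ML.dat` : `Mo_192.Dat (muL h W0 F) (sL W0 F R) (Gl h W0 F) w n R`
-/

set_option autoImplicit false
set_option linter.unusedSectionVars false

open Set Filter Topology Complex MeasureTheory
open scoped ContDiff Matrix ComplexConjugate Manifold ComplexOrder ENNReal

namespace Crest.Agent.R281.Mv_757

open Crest.Agent.R275 Crest.Agent.R275.Geo Crest.Agent.R275.Core144 Crest.Agent.R275.EDR890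
open Crest.Agent.R275.Pai323 Crest.Agent.R275.C1d194
open Crest.Agent.R275.SerG398 (lint dens OffZ)
open Crest.Agent.R275.OmT75 (dj dl dl_chain dl_mul dj_sum dj_congr)
open Crest.Agent.R273.Defs_333 Crest.Agent.R273.Hess_333 Crest.Agent.R273.HessB_333
open Crest.Agent.R273.HM_333 Crest.Agent.R273.Kah_333 Crest.Agent.R273.Vol_333
open Crest.Agent.R273.StV_37 Crest.Agent.R273.Green_5 Crest.Agent.R273.Vm_333
open Crest.Agent.R273.FIa0_597 Crest.Agent.R273.FIb0_597 Crest.Agent.R273.FS_333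
open Crest.Agent.R275.QN2b734 (SmP sm_iff smP_const exists_bump)
open Crest.Agent.R281

noncomputable section

variable {n N : ℕ} {M : Type} [TopologicalSpace M] [T2Space M] {A : Atl n M}
  {F : M → Fin N → ℂ} {W0 : Set M}

/-- data for the local instance -/
structure ML (A : Atl n M) (W0 : Set M) (F : M → Fin N → ℂ) (w : M → ℝ) (R : ℝ) : Prop where
  op : IsOpen W0
  hol : HFL A W0 F
  sm : A.Sm w
  w0 : ∀ x, 0 ≤ w x
  psh : ∀ i, ∀ x ∈ (A.e i).source, x ∈ W0 → sF F x ≤ R → (hsf A w i x).PosSemidef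
  cpt : IsCompact (tsupport w ∩ (W0 ∩ {x | sF F x ≤ R}))

/-! ### pointwise facts -/

theorem tendsto_symm' {i : A.ι} {x : M} (hx : x ∈ (A.e i).source) :
    Tendsto (A.e i).symm (𝓝 (A.e i x)) (𝓝 x) := by
  have := (A.e i).continuousAt_symm ((A.e i).map_source hx)
  rwa [ContinuousAt, (A.e i).left_inv hx] at this

theorem hsf_congr {u v : M → ℝ} {i : A.ι} {x : M} (hx : x ∈ (A.e i).source)
    (h : u =ᶠ[𝓝 x] v) : hsf A u i x = hsf A v i x :=
  hess_congr ((tendsto_symm' hx).eventually h)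

theorem hsf_zero {i : A.ι} {x : M} : hsf A (fun _ => (0 : ℝ)) i x = 0 := by
  show hess (fun _ => (0 : ℝ)) (A.e i x) = 0
  ext a b
  rw [hess_apply]
  have h4 : wd (true, b) (cu (fun _ : Cn n => (0 : ℝ))) = fun _ => (0 : ℂ) := by
    funext z
    exact wd_const _ _ _
  rw [h4]
  exact wd_const _ _ _

theorem hsf_zero_of {u : M → ℝ} {i : A.ι} {x : M} (hx : x ∈ (A.e i).source)
    (h : u =ᶠ[𝓝 x] 0) : hsf A u i x = 0 := by
  rw [hsf_congr hx (v := fun _ => 0) h, hsf_zero]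

/-- chain rule at a point -/
theorem hsf_compL {γ : ℝ → ℝ} (hγ : ContDiff ℝ ∞ γ) {u : M → ℝ} {i : A.ι} {x : M}
    (hx : x ∈ (A.e i).source)
    (hc : ContDiffAt ℝ ∞ (fun z => u ((A.e i).symm z)) (A.e i x)) :
    hsf A (fun y => γ (u y)) i x = ((deriv γ (u x) : ℝ) : ℂ) • hsf A u i x +
      ((deriv (deriv γ) (u x) : ℝ) : ℂ) • Matrix.vecMulVec (grA A u i x) (star (grA A u i x)) := by
  have e : u ((A.e i).symm (A.e i x)) = u x := by rw [(A.e i).left_inv hx]
  have h1 : ∀ s, HasDerivAt γ (deriv γ s) s := fun s =>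
    (hγ.differentiable (by simp)).differentiableAt.hasDerivAt
  have h2' : ContDiff ℝ ∞ (deriv γ) := (contDiff_infty_iff_deriv.1 hγ).2
  have h2 : ∀ s, HasDerivAt (deriv γ) (deriv (deriv γ) s) s := fun s =>
    (h2'.differentiable (by simp)).differentiableAt.hasDerivAt
  ext a b
  have h3 := hess_comp_real (φ := γ) (φ' := deriv γ) (d2 := deriv (deriv γ) (u x)) hc
    (Eventually.of_forall h1) (by rw [e]; exact h2 _) a b
  rw [e] at h3
  have h4 := star_gr (hc.differentiableAt (by simp)) b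
  have h5 : hsf A (fun y => γ (u y)) i x a b =
      hess (fun w => γ (u ((A.e i).symm w))) (A.e i x) a b := rfl
  rw [h5, h3, Matrix.add_apply, Matrix.smul_apply, Matrix.smul_apply, Matrix.vecMulVec_apply,
    smul_eq_mul, smul_eq_mul]
  congr 2
  rw [← h4]
  rfl

theorem tr_hsf_compL {γ : ℝ → ℝ} (hγ : ContDiff ℝ ∞ γ) (hF : HFL A W0 F) (hW : IsOpen W0)
    {i : A.ι} {x : M} (hx : x ∈ (A.e i).source) (hxW : x ∈ W0) :
    ((hsf A (sF F) i x).adjugate * hsf A (fun y => γ (sF F y)) i x).trace =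
      (((n : ℝ) * deriv γ (sF F x) * dFL A W0 F i x +
        deriv (deriv γ) (sF F x) * tFL A W0 F i x : ℝ) : ℂ) := by
  rw [hsf_compL hγ hx (cd_sFL hF hW hx hxW), Matrix.mul_add, Matrix.trace_add, Matrix.mul_smul,
    Matrix.trace_smul, Matrix.mul_smul, Matrix.trace_smul, tr_adj_self, smul_eq_mul, smul_eq_mul,
    dFL_on hxW, tFL_on hxW, hsf_sFL hF hW hx hxW, grA_sFL hF hW hx hxW]
  have h1 : ((DF A F i x * (DF A F i x)ᴴ).adjugate *
      Matrix.vecMulVec (DF A F i x *ᵥ star (F x)) (star (DF A F i x *ᵥ star (F x)))).trace =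
      (tv (DF A F i x * (DF A F i x)ᴴ) (DF A F i x *ᵥ star (F x)) : ℂ) := tvc_real _ _
  have h3 := det_gram_real (DF A F i x)
  rw [h1, h3]
  push_cast
  simp only [Complex.ofReal_re]
  ring

theorem smP_mul_cut {φ f : M → ℝ} (hφ : ∀ y, SmP A φ y) (hW : tsupport φ ⊆ W0)
    (hf : ∀ y ∈ W0, SmP A f y) (x : M) : SmP A (fun y => φ y * f y) x := by
  by_cases hx : x ∈ tsupport φ
  · exact (hφ x).mul (hf x (hW hx))
  · refine (smP_const (A := A) (0 : ℝ) x).congr ?_
    filter_upwards [notMem_tsupport_iff_eventuallyEq.1 hx] with y hy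
    rw [hy, Pi.zero_apply, zero_mul]

variable (h : HM (KB A)⁻¹) [MeasurableSpace M] [BorelSpace M] [Countable A.ι]
variable {w : M → ℝ} {R : ℝ}

/-- the measure `det (DF* DF) dλ` on `W0` -/
def muL (W0 : Set M) (F : M → Fin N → ℂ) : Measure M :=
  (vm h).withDensity (fun x => ENNReal.ofReal (rhoL h W0 F x))

theorem meas_indicator_of_contOn {f : M → ℝ} (hW : IsOpen W0) (hc : ContinuousOn f W0)
    (c : ℝ) (h0 : ∀ x ∉ W0, f x = c) : Measurable f := by
  classical
  have h1 := hc.measurable_piecewise (g := fun _ => c) continuousOn_const hW.measurableSet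
  have h2 : W0.piecewise f (fun _ => c) = f := by
    funext x
    by_cases hx : x ∈ W0
    · rw [piecewise_eq_of_mem _ _ _ hx]
    · rw [piecewise_eq_of_notMem _ _ _ hx, h0 x hx]
  rwa [h2] at h1

theorem meas_rhoL (hF : HFL A W0 F) (hW : IsOpen W0) : Measurable (rhoL h W0 F) :=
  meas_indicator_of_contOn hW (contOn_rhoL h hF hW) 0 fun _ hx => rhoL_off h hx

theorem meas_tauL (hF : HFL A W0 F) (hW : IsOpen W0) : Measurable (tauL h W0 F) :=
  meas_indicator_of_contOn hW (contOn_tauL h hF hW) 0 fun _ hx => tauL_off h hx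

theorem meas_Gl (hF : HFL A W0 F) (hW : IsOpen W0) : Measurable (Gl h W0 F) :=
  (meas_tauL h hF hW).div (meas_rhoL h hF hW)

theorem meas_sL (hF : HFL A W0 F) (hW : IsOpen W0) (R : ℝ) : Measurable (sL W0 F R) :=
  meas_indicator_of_contOn hW ((contOn_sF hF hW).congr fun _ hx => sL_on hx) (|R| + 1)
    fun _ hx => sL_off hx

theorem integral_muL (hF : HFL A W0 F) (hW : IsOpen W0) (f : M → ℝ) :
    ∫ x, f x ∂(muL h W0 F) = ∫ x, rhoL h W0 F x * f x ∂(vm h) := by
  unfold muL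
  rw [integral_withDensity_eq_integral_toReal_smul (meas_rhoL h hF hW).ennreal_ofReal
    (Eventually.of_forall fun x => ENNReal.ofReal_lt_top)]
  refine integral_congr_ae (Eventually.of_forall fun x => ?_)
  simp only [smul_eq_mul]
  rw [ENNReal.toReal_ofReal (rhoL_nonneg h x)]

/-- `SH` for smooth test functions -/
theorem sh_smoothL (P : Part A) (D : ML A W0 F w R) {γ : ℝ → ℝ} (hγ : ContDiff ℝ ∞ γ)
    (hγ0 : ∀ s, 0 ≤ γ s) (hz : ∀ s, R ≤ s → γ s = 0) :
    0 ≤ ∫ x, w x * ((n : ℝ) * deriv γ (sL W0 F R x) +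
      deriv (deriv γ) (sL W0 F R x) * Gl h W0 F x) ∂(muL h W0 F) := by
  have hW := D.op
  have hF := D.hol
  set K : Set M := tsupport w ∩ (W0 ∩ {x | sF F x ≤ R}) with hK
  have hKc : IsCompact K := D.cpt
  have hKW : K ⊆ W0 := fun x hx => hx.2.1
  have hγ1 : ContDiff ℝ ∞ (deriv γ) := (contDiff_infty_iff_deriv.1 hγ).2
  have hγ2 : ContDiff ℝ ∞ (deriv (deriv γ)) := (contDiff_infty_iff_deriv.1 hγ1).2
  have hz1 : ∀ s, R < s → deriv γ s = 0 := by
    intro s hs
    have : γ =ᶠ[𝓝 s] fun _ => 0 := by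
      filter_upwards [lt_mem_nhds hs] with t ht
      exact hz t ht.le
    rw [this.deriv_eq, deriv_const]
  have hz2 : ∀ s, R < s → deriv (deriv γ) s = 0 := by
    intro s hs
    have : deriv γ =ᶠ[𝓝 s] fun _ => 0 := by
      filter_upwards [lt_mem_nhds hs] with t ht
      exact hz1 t ht
    rw [this.deriv_eq, deriv_const]
  -- cut-offs
  obtain ⟨φ, φs, φ01, φ1, φc, φW⟩ := exists_bump A hKc hW hKW
  have φ1' : ∀ x ∈ K, ∀ᶠ y in 𝓝 x, φ y = 1 := fun x hx =>
    eventually_nhdsSet_iff_forall.1 φ1 x hx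
  set S : M → ℝ := fun y => φ y * sF F y with hS
  set u : M → ℝ := fun y => φ y * γ (sF F y) with hu
  have Ssm : A.Sm S := sm_iff.2 fun x => smP_mul_cut φs φW (fun y hy => smP_sFL hF hW hy) x
  have usm : A.Sm u := sm_iff.2 fun x => smP_mul_cut φs φW (fun y hy =>
    SmP.comp hγ.contDiffAt (smP_sFL hF hW hy)) x
  have u0 : ∀ x, 0 ≤ u x := fun x => mul_nonneg (φ01 x).1 (hγ0 _)
  have SK : ∀ x ∈ K, S =ᶠ[𝓝 x] sF F := by
    intro x hx
    filter_upwards [φ1' x hx] with y hy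
    simp only [hS]
    rw [hy, one_mul]
  have uK : ∀ x ∈ K, u =ᶠ[𝓝 x] fun y => γ (sF F y) := by
    intro x hx
    filter_upwards [φ1' x hx] with y hy
    simp only [hu]
    rw [hy, one_mul]
  have hoff : ∀ x ∉ K, w =ᶠ[𝓝 x] 0 ∨ u =ᶠ[𝓝 x] 0 := by
    intro x hx
    by_cases hxw : x ∈ tsupport w
    · refine Or.inr ?_
      by_cases hxW : x ∈ W0
      · have hx' : R < sF F x := by
          by_contra hc
          exact hx ⟨hxw, hxW, not_lt.1 hc⟩
        have hc : ContinuousAt (sF F) x := (contOn_sF hF hW).continuousAt (hW.mem_nhds hxW)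
        filter_upwards [hc.eventually (lt_mem_nhds hx')] with y hy
        simp only [hu]
        rw [hz _ hy.le, mul_zero, Pi.zero_apply]
      · have hx2 : x ∉ tsupport φ := fun hc => hxW (φW hc)
        filter_upwards [notMem_tsupport_iff_eventuallyEq.1 hx2] with y hy
        simp only [hu]
        rw [hy, Pi.zero_apply, zero_mul]
    · exact Or.inl (notMem_tsupport_iff_eventuallyEq.1 hxw)
  set g : A.ι → M → Matrix (Fin n) (Fin n) ℂ := hsf A S with hg
  have hgc : CF A g := hsf_cf Ssm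
  have hh : ∀ i, ∀ x ∈ (A.e i).source, (g i x).IsHermitian := fun i x hx =>
    hess_herm (sm_contDiffAt Ssm i ((A.e i).map_source hx))
  have gK : ∀ i, ∀ x ∈ (A.e i).source, x ∈ K → g i x = hsf A (sF F) i x := fun i x hx hxK =>
    hsf_congr hx (SK x hxK)
  -- left side
  set f : M → ℝ := fun x => w x * ((n : ℝ) * deriv γ (sL W0 F R x) * rhoL h W0 F x +
    deriv (deriv γ) (sL W0 F R x) * tauL h W0 F x) with hf
  have hf0 : ∀ x ∉ K, f x = 0 := by
    intro x hx
    simp only [hf]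
    by_cases hxW : x ∈ W0
    · by_cases hxw : x ∈ tsupport w
      · have hx' : R < sF F x := by
          by_contra hc
          exact hx ⟨hxw, hxW, not_lt.1 hc⟩
        rw [sL_on hxW, hz1 _ hx', hz2 _ hx']
        ring
      · rw [image_eq_zero_of_notMem_tsupport hxw, zero_mul]
    · rw [rhoL_off h hxW, tauL_off h hxW]
      ring
  have hfc : Continuous f := by
    rw [continuous_iff_continuousAt]
    intro x
    by_cases hxK : x ∈ K
    · have hxW := hKW hxK
      have hnh := hW.mem_nhds hxW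
      have c1 : ContinuousAt (sL W0 F R) x :=
        ((contOn_sF hF hW).congr fun _ hx => sL_on hx).continuousAt hnh
      have c2 := (contOn_rhoL h hF hW).continuousAt hnh
      have c3 := (contOn_tauL h hF hW).continuousAt hnh
      have c4 : ContinuousAt (fun x => deriv γ (sL W0 F R x)) x :=
        ContinuousAt.comp (g := deriv γ) hγ1.continuous.continuousAt c1
      have c5 : ContinuousAt (fun x => deriv (deriv γ) (sL W0 F R x)) x :=
        ContinuousAt.comp (g := deriv (deriv γ)) hγ2.continuous.continuousAt c1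
      exact (sm_cont D.sm).continuousAt.mul (((continuousAt_const.mul c4).mul c2).add (c5.mul c3))
    · have : f =ᶠ[𝓝 x] fun _ => 0 := by
        filter_upwards [hKc.isClosed.isOpen_compl.mem_nhds hxK] with y hy
        exact hf0 y hy
      exact continuousAt_const.congr this.symm
  have e1 : ∫ x, w x * ((n : ℝ) * deriv γ (sL W0 F R x) +
      deriv (deriv γ) (sL W0 F R x) * Gl h W0 F x) ∂(muL h W0 F) = ∫ x, f x ∂(vm h) := by
    rw [integral_muL h hF hW]
    refine integral_congr_ae (Eventually.of_forall fun x => ?_)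
    simp only [hf]
    rw [← rhoL_mul_Gl h x]
    ring
  rw [e1, vm_tot_re P h hKc (Finset.Subset.refl _) (integrable_of_zero_off h hKc hfc hf0) hf0]
  have e2 : tot P (Fn P hKc) (fun i x => ((h.w i x * f x : ℝ) : ℂ)) =
      tot P (Fn P hKc) (fun i x => (w x : ℂ) * ((g i x).adjugate * hsf A u i x).trace) := by
    refine tot_congr P _ fun i _ x hx => ?_
    by_cases hxK : x ∈ K
    · have hxW := hKW hxK
      rw [gK i x hx hxK, hsf_congr hx (uK x hxK), tr_hsf_compL hγ hF hW hx hxW,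
        ← rhoL_mul h hF hW hx, ← tauL_mul h hF hW hx]
      simp only [hf]
      rw [sL_on hxW]
      push_cast
      ring
    · rw [hf0 x hxK, mul_zero, Complex.ofReal_zero]
      rcases hoff x hxK with h1 | h1
      · rw [h1.self_of_nhds]
        simp
      · rw [hsf_zero_of hx h1, Matrix.mul_zero, Matrix.trace_zero, mul_zero]
  rw [e2, green_symm P hgc hh usm D.sm hKc (Finset.Subset.refl _) hoff]
  -- right side
  set q : M → ℝ := dq h (fun i x => ((g i x).adjugate * hsf A w i x).trace.re) with hq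
  have hrd := rd_tr (tf_of_cf hgc) (tf_hsf D.sm)
  have hqc : Continuous q := sm_cont (sm_dq h hrd (sm_tr hgc D.sm))
  have hq0 : ∀ x ∉ K, u x * q x = 0 := by
    intro x hx
    rcases hoff x hx with h1 | h1
    · have hx' := mem_ch A x
      have h2 : q x = 0 := by
        rw [hq, dq_eq h hrd hx']
        simp only [hsf_zero_of hx' h1]
        rw [Matrix.mul_zero, Matrix.trace_zero, Complex.zero_re, zero_div]
      rw [h2, mul_zero]
    · rw [h1.self_of_nhds, Pi.zero_apply, zero_mul]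
  have hgc' : Continuous fun x => u x * q x := (sm_cont usm).mul hqc
  have e3 : tot P (Fn P hKc) (fun i x => ((u x : ℝ) : ℂ) *
      ((g i x).adjugate * hsf A w i x).trace) =
      tot P (Fn P hKc) (fun i x => ((h.w i x * (u x * q x) : ℝ) : ℂ)) := by
    refine tot_congr P _ fun i _ x hx => ?_
    have h1 : h.w i x * q x = ((g i x).adjugate * hsf A w i x).trace.re :=
      dq_mul h hrd hx
    have hwh : (hsf A w i x).IsHermitian :=
      hess_herm (sm_contDiffAt D.sm i ((A.e i).map_source hx))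
    have h2 : ((g i x).adjugate * hsf A w i x).trace = ((h.w i x * q x : ℝ) : ℂ) := by
      rw [h1]
      have h3 : conj (((g i x).adjugate * hsf A w i x).trace) =
          ((g i x).adjugate * hsf A w i x).trace := by
        have h4 : star (((g i x).adjugate * hsf A w i x).trace) =
            (((g i x).adjugate * hsf A w i x)ᴴ).trace :=
          (Matrix.trace_conjTranspose _).symm
        have h5 : ((g i x).adjugate)ᴴ = (g i x).adjugate := by
          rw [Matrix.adjugate_conjTranspose, hh i x hx]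
        show star (((g i x).adjugate * hsf A w i x).trace) = _
        rw [h4, Matrix.conjTranspose_mul, h5, hwh, Matrix.trace_mul_comm]
      exact Complex.ext (by simp) (by simpa using im_zero_of_conj h3)
    rw [h2]
    push_cast
    ring
  rw [e3, ← vm_tot_re P h hKc (Finset.Subset.refl _) (integrable_of_zero_off h hKc hgc' hq0) hq0]
  refine integral_nonneg fun x => ?_
  by_cases hxK : x ∈ K
  · refine mul_nonneg (u0 x) ?_
    have hx := mem_ch A x
    rw [hq, dq_eq h hrd hx]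
    refine div_nonneg ?_ (h.pos _ x hx).le
    simp only
    rw [gK _ x hx hxK, hsf_sFL hF hW hx (hKW hxK)]
    exact tr_adj_nonneg (Matrix.posSemidef_self_mul_conjTranspose _) (D.psh _ x hx (hKW hxK) hxK.2.2)
  · exact (hq0 x hxK).ge

theorem intOn_wL (D : ML A W0 F w R) : IntegrableOn w {x | sL W0 F R x < R} (muL h W0 F) := by
  have hW := D.op
  have hF := D.hol
  have := isLocallyFinite_vm h
  set K : Set M := tsupport w ∩ (W0 ∩ {x | sF F x ≤ R}) with hK
  have hKc : IsCompact K := D.cpt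
  have hKW : K ⊆ W0 := fun x hx => hx.2.1
  obtain ⟨C, hC⟩ := hKc.exists_bound_of_continuousOn ((contOn_rhoL h hF hW).mono hKW)
  have hfin : muL h W0 F K < ⊤ := by
    unfold muL
    rw [withDensity_apply _ hKc.isClosed.measurableSet]
    calc ∫⁻ x in K, ENNReal.ofReal (rhoL h W0 F x) ∂(vm h)
        ≤ ∫⁻ _ in K, ENNReal.ofReal C ∂(vm h) := by
          refine setLIntegral_mono' hKc.isClosed.measurableSet fun x hx => ?_
          exact ENNReal.ofReal_le_ofReal ((le_abs_self _).trans (hC x hx))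
      _ < ⊤ := by
          rw [setLIntegral_const]
          exact ENNReal.mul_lt_top ENNReal.ofReal_lt_top hKc.measure_lt_top
  obtain ⟨C', hC'⟩ := hKc.exists_bound_of_continuousOn (sm_cont D.sm).continuousOn
  have h1 : IntegrableOn w K (muL h W0 F) :=
    Measure.integrableOn_of_bounded hfin.ne (sm_cont D.sm).aestronglyMeasurable
      ((ae_restrict_iff' hKc.isClosed.measurableSet).2 (Eventually.of_forall hC'))
  rw [sL_lt]
  have hm : MeasurableSet (W0 ∩ {x | sF F x < R}) := by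
    rw [← sL_lt]
    exact measurableSet_lt (meas_sL hF hW R) measurable_const
  refine h1.of_forall_sdiff_eq_zero hm fun x hx => ?_
  refine image_eq_zero_of_notMem_tsupport fun h2 => hx.2 ⟨h2, hx.1.1, ?_⟩
  exact (show sF F x < R from hx.1.2).le

/-- **(M4), local form**: the data of 192 -/
theorem ML.dat (P : Part A) (D : ML A W0 F w R) :
    Mo_192.Dat (muL h W0 F) (sL W0 F R) (Gl h W0 F) w n R where
  mρ := meas_sL D.hol D.op R
  mG := meas_Gl h D.hol D.op
  G0 := Gl_nonneg h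
  Gρ := Gl_le h R
  w0 := D.w0
  int := intOn_wL h D
  sh := sh_of_smooth (meas_sL D.hol D.op R) (meas_Gl h D.hol D.op)
    (Gl_nonneg h) (Gl_le h R) (intOn_wL h D) fun _ hγ h0 hz => sh_smoothL h P D hγ h0 hz

end

end Crest.Agent.R281.Mv_757
end

-- ▼ part R281/Mv7_757
section

/-!
# Row 281, S6-MONO (M4), part 7 (helper757): volumes of ellipsoids, first order estimate

* `bv n` : volume of the unit ball of `ℂⁿ` (real coordinates `RI n → ℝ`), `bv_pos`
* `vol_ell` : `vol {y | ‖T (cc y - z₀)‖² ≤ t} = t^n bv n / ‖det T‖²`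
* `exists_T` : for `C : Matrix (Fin n) (Fin N) ℂ` with `det (C Cᴴ) ≠ 0` there is `T` with
  `‖T v‖² = ∑_k |∑_a C a k v_a|²`, `‖det T‖² = det (C Cᴴ)`
* `first_order` : `∑ |Φ_k z|² ≤ (1+δ) ‖T (z - z₀)‖²` near `z₀` if `Φ z₀ = 0`, `C = DΦ(z₀)`
-/

set_option autoImplicit false
set_option linter.unusedSectionVars false

open Set Filter Topology Complex MeasureTheory
open scoped ContDiff Matrix ComplexConjugate ComplexOrder ENNReal

namespace Crest.Agent.R281.Mv_757

open Crest.Agent.R275 Crest.Agent.R275.Geo Crest.Agent.R275.Core144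
open Crest.Agent.R275.Pai323 Crest.Agent.R275.C1d194
open Crest.Agent.R273.FIa0_597

noncomputable section

variable {n N : ℕ}

/-- unit ball in real coordinates -/
def ub (n : ℕ) : Set (RI n → ℝ) := {y | ‖(cc y : Cn n)‖ ^ 2 ≤ 1}

/-- its volume -/
def bv (n : ℕ) : ℝ := (volume (ub n)).toReal


theorem isCompact_ub : IsCompact (ub n) := by
  have h1 : ub n = (fun y => (cc y : Cn n)) ⁻¹' Metric.closedBall 0 1 := by
    ext y
    simp only [ub, mem_ofPred_eq, mem_preimage, Metric.mem_closedBall, dist_zero_right]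
    constructor
    · intro h
      nlinarith [norm_nonneg (cc y : Cn n)]
    · intro h
      nlinarith [norm_nonneg (cc y : Cn n)]
  have h2 : ub n = rc '' Metric.closedBall (0 : Cn n) 1 := by
    rw [h1]
    ext y
    constructor
    · intro hy
      exact ⟨cc y, hy, rc_cc y⟩
    · rintro ⟨z, hz, rfl⟩
      show (cc (rc z) : Cn n) ∈ Metric.closedBall (0 : Cn n) 1
      rw [cc_rc]
      exact hz
  rw [h2]
  refine (isCompact_closedBall _ _).image ?_
  rw [rc_eq]
  exact (rcL n).continuous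

theorem bv_pos : 0 < bv n := by
  refine ENNReal.toReal_pos ?_ isCompact_ub.measure_lt_top.ne
  have h1 : IsOpen {y : RI n → ℝ | ‖(cc y : Cn n)‖ ^ 2 < 1} :=
    isOpen_lt (continuous_cc.norm.pow 2) continuous_const
  have h2 : (0 : RI n → ℝ) ∈ {y : RI n → ℝ | ‖(cc y : Cn n)‖ ^ 2 < 1} := by
    have : (cc (0 : RI n → ℝ) : Cn n) = 0 := by
      ext a
      simp
    simp [this]
  have h3 : 0 < volume {y : RI n → ℝ | ‖(cc y : Cn n)‖ ^ 2 < 1} := h1.measure_pos volume ⟨0, h2⟩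
  exact (h3.trans_le (measure_mono fun y (hy : ‖(cc y : Cn n)‖ ^ 2 < 1) =>
    (show ‖(cc y : Cn n)‖ ^ 2 ≤ 1 from hy.le))).ne'

/-- a complex linear map in real coordinates -/
def rT (T : Cn n →L[ℂ] Cn n) : (RI n → ℝ) →ₗ[ℝ] (RI n → ℝ) :=
  (((rcE n : Cn n →ₗ[ℝ] (RI n → ℝ)) ∘ₗ ((T : Cn n →ₗ[ℂ] Cn n).restrictScalars ℝ)) ∘ₗ
      ((rcE n).symm : (RI n → ℝ) →ₗ[ℝ] Cn n))

theorem rT_apply (T : Cn n →L[ℂ] Cn n) (y : RI n → ℝ) : rT T y = rc (T (cc y)) :=
  rcL_apply (T (cc y))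

theorem vol_ell0 (T : Cn n →L[ℂ] Cn n) (hT : LinearMap.det (T : Cn n →ₗ[ℂ] Cn n) ≠ 0)
    (z0 : Cn n) :
    volume {y : RI n → ℝ | ‖T (cc y - z0)‖ ^ 2 ≤ 1} =
      ENNReal.ofReal (‖LinearMap.det (T : Cn n →ₗ[ℂ] Cn n)‖ ^ 2)⁻¹ * volume (ub n) := by
  have h1 : LinearMap.det (rT T) = ‖LinearMap.det (T : Cn n →ₗ[ℂ] Cn n)‖ ^ 2 := det_real T
  have hpos : 0 < ‖LinearMap.det (T : Cn n →ₗ[ℂ] Cn n)‖ ^ 2 := by positivity
  have h2 : LinearMap.det (rT T) ≠ 0 := by rw [h1]; exact hpos.ne'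
  have h3 := Measure.addHaar_preimage_linearMap volume h2 (ub n)
  rw [h1, abs_of_pos (inv_pos.2 hpos)] at h3
  have h4 : {y : RI n → ℝ | ‖T (cc y - z0)‖ ^ 2 ≤ 1} =
      (fun y => y + (-rc z0)) ⁻¹' ((rT T) ⁻¹' ub n) := by
    ext y
    simp only [mem_ofPred_eq, mem_preimage, ub, rT_apply, cc_rc]
    have : (cc (y + -rc z0) : Cn n) = cc y - z0 := by
      ext a
      simp only [cc_apply, Pi.add_apply, Pi.neg_apply, PiLp.sub_apply]
      have h5 : z0 a = ((rc z0 (a, 0) : ℝ) : ℂ) + ((rc z0 (a, 1) : ℝ) : ℂ) * I := by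
        conv_lhs => rw [← cc_rc z0]
        rfl
      rw [h5]
      push_cast
      ring
    rw [this]
  rw [h4, measure_preimage_add_right, h3]

/-- **volume of an ellipsoid** -/
theorem vol_ell (T : Cn n →L[ℂ] Cn n) (hT : LinearMap.det (T : Cn n →ₗ[ℂ] Cn n) ≠ 0)
    (z0 : Cn n) {t : ℝ} (ht : 0 < t) :
    (volume {y : RI n → ℝ | ‖T (cc y - z0)‖ ^ 2 ≤ t}).toReal =
      t ^ n * bv n / ‖LinearMap.det (T : Cn n →ₗ[ℂ] Cn n)‖ ^ 2 := by
  have hs : 0 < Real.sqrt t := Real.sqrt_pos.2 ht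
  set c : ℂ := ((Real.sqrt t : ℝ) : ℂ)⁻¹ with hc
  have hc0 : c ≠ 0 := inv_ne_zero (by exact_mod_cast hs.ne')
  have hcn : ‖c‖ ^ 2 = t⁻¹ := by
    rw [hc, norm_inv, Complex.norm_real, Real.norm_eq_abs, abs_of_pos hs, inv_pow,
      Real.sq_sqrt ht.le]
  have hdet : LinearMap.det ((c • T : Cn n →L[ℂ] Cn n) : Cn n →ₗ[ℂ] Cn n) =
      c ^ n * LinearMap.det (T : Cn n →ₗ[ℂ] Cn n) := by
    have h1 : ((c • T : Cn n →L[ℂ] Cn n) : Cn n →ₗ[ℂ] Cn n) = c • (T : Cn n →ₗ[ℂ] Cn n) := rfl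
    rw [h1, LinearMap.det_smul]
    simp
  have h2 := vol_ell0 (c • T) (by rw [hdet]; exact mul_ne_zero (pow_ne_zero _ hc0) hT) z0
  have h3 : {y : RI n → ℝ | ‖(c • T) (cc y - z0)‖ ^ 2 ≤ 1} =
      {y : RI n → ℝ | ‖T (cc y - z0)‖ ^ 2 ≤ t} := by
    ext y
    simp only [mem_ofPred_eq, smul_apply, norm_smul, mul_pow, hcn]
    rw [inv_mul_le_iff₀ ht, mul_one]
  rw [h3, hdet, norm_mul, norm_pow, mul_pow, ← pow_mul, mul_comm n 2, pow_mul, hcn] at h2
  rw [h2, ENNReal.toReal_mul, ENNReal.toReal_ofReal (by positivity)]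
  unfold bv
  rw [mul_inv, inv_pow, inv_inv]
  ring

/-! ### factorisation -/

/-- the quadratic form of `C` -/
def qC (C : Matrix (Fin n) (Fin N) ℂ) (v : Cn n) : ℝ := ∑ k, ‖∑ a, C a k * v a‖ ^ 2

theorem qC_eq (C : Matrix (Fin n) (Fin N) ℂ) (v : Cn n) :
    ((qC C v : ℝ) : ℂ) = ∑ a, ∑ b, v a * conj (v b) * (C * Cᴴ) a b := by
  unfold qC
  have h1 : ∀ k, ((‖∑ a, C a k * v a‖ ^ 2 : ℝ) : ℂ) =
      ∑ a, ∑ b, v a * conj (v b) * (C a k * conj (C b k)) := by
    intro k
    rw [← Complex.normSq_eq_norm_sq, ← Complex.mul_conj, map_sum, Finset.sum_mul_sum]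
    refine Finset.sum_congr rfl fun a _ => Finset.sum_congr rfl fun b _ => ?_
    rw [map_mul]
    ring
  rw [Complex.ofReal_sum, Finset.sum_congr rfl fun k _ => h1 k, Finset.sum_comm]
  refine Finset.sum_congr rfl fun a _ => ?_
  rw [Finset.sum_comm]
  refine Finset.sum_congr rfl fun b _ => ?_
  rw [Matrix.mul_apply, Finset.mul_sum]
  rfl

theorem exists_T (C : Matrix (Fin n) (Fin N) ℂ) (hC : (C * Cᴴ).det ≠ 0) :
    ∃ T : Cn n →L[ℂ] Cn n, (∀ v, ‖T v‖ ^ 2 = qC C v) ∧
      LinearMap.det (T : Cn n →ₗ[ℂ] Cn n) ≠ 0 ∧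
      ‖LinearMap.det (T : Cn n →ₗ[ℂ] Cn n)‖ ^ 2 = (C * Cᴴ).det.re := by
  obtain ⟨B, hB⟩ := exists_sq (Matrix.posSemidef_self_mul_conjTranspose C)
  set D : Matrix (Fin n) (Fin n) ℂ := Bᴴ with hD
  have hDD : D * Dᴴ = C * Cᴴ := by rw [hB, hD, Matrix.conjTranspose_conjTranspose]
  set T0 : Cn n →ₗ[ℂ] Cn n := Matrix.toEuclideanLin Dᵀ with hT0
  have hdet : LinearMap.det T0 = D.det := by
    rw [hT0, Matrix.toEuclideanLin_eq_toLin_orthonormal, LinearMap.det_toLin,
      Matrix.det_transpose]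
  have hd2 : (C * Cᴴ).det = D.det * conj D.det := by
    rw [← hDD, Matrix.det_mul, Matrix.det_conjTranspose D]
    rfl
  have hD0 : D.det ≠ 0 := by
    intro h0
    rw [hd2, h0, zero_mul] at hC
    exact hC rfl
  refine ⟨LinearMap.toContinuousLinearMap T0, fun v => ?_, ?_, ?_⟩
  · have h1 : ∀ k, (LinearMap.toContinuousLinearMap T0 v) k = ∑ a, D a k * v a := by
      intro k
      show (T0 v) k = _
      rw [hT0, Matrix.toLpLin_apply]
      simp only [Matrix.mulVec, dotProduct, Matrix.transpose_apply]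
    have h2 : ‖LinearMap.toContinuousLinearMap T0 v‖ ^ 2 = qC D v := by
      rw [EuclideanSpace.norm_sq_eq]
      unfold qC
      exact Finset.sum_congr rfl fun k _ => by rw [h1 k]
    rw [h2]
    have h3 : ((qC D v : ℝ) : ℂ) = ((qC C v : ℝ) : ℂ) := by
      rw [qC_eq, qC_eq, hDD]
    exact_mod_cast h3
  · rw [show ((LinearMap.toContinuousLinearMap T0 : Cn n →L[ℂ] Cn n) : Cn n →ₗ[ℂ] Cn n) = T0
      from rfl, hdet]
    exact hD0
  · rw [show ((LinearMap.toContinuousLinearMap T0 : Cn n →L[ℂ] Cn n) : Cn n →ₗ[ℂ] Cn n) = T0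
      from rfl, hdet, hd2, Complex.mul_conj, Complex.normSq_eq_norm_sq, Complex.ofReal_re]

/-- lower bound of an invertible map -/
theorem exists_lower {T : Cn n →L[ℂ] Cn n} (hT : LinearMap.det (T : Cn n →ₗ[ℂ] Cn n) ≠ 0) :
    ∃ κ : ℝ, 0 < κ ∧ ∀ v, ‖v‖ ≤ κ * ‖T v‖ := by
  set e : Cn n ≃ₗ[ℂ] Cn n := LinearMap.equivOfDetNeZero (T : Cn n →ₗ[ℂ] Cn n) hT with he
  set e' : Cn n ≃L[ℂ] Cn n := e.toContinuousLinearEquiv with he'
  refine ⟨‖(e'.symm : Cn n →L[ℂ] Cn n)‖ + 1, by positivity, fun v => ?_⟩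
  have h1 : T v = e' v := rfl
  calc ‖v‖ = ‖(e'.symm : Cn n →L[ℂ] Cn n) (e' v)‖ := by simp
    _ ≤ ‖(e'.symm : Cn n →L[ℂ] Cn n)‖ * ‖e' v‖ := ContinuousLinearMap.le_opNorm _ _
    _ ≤ (‖(e'.symm : Cn n →L[ℂ] Cn n)‖ + 1) * ‖T v‖ := by
        rw [h1]
        exact mul_le_mul_of_nonneg_right (by linarith) (norm_nonneg _)

/-- **first order estimate** -/
theorem first_order {Φ : Cn n → Fin N → ℂ} {z0 : Cn n}
    (hΦ : ∀ k, DifferentiableAt ℂ (fun z => Φ z k) z0) (h0 : Φ z0 = 0)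
    {C : Matrix (Fin n) (Fin N) ℂ}
    (hC : ∀ a k, C a k = fderiv ℂ (fun z => Φ z k) z0 (EuclideanSpace.single a 1))
    {T : Cn n →L[ℂ] Cn n} (hT : ∀ v, ‖T v‖ ^ 2 = qC C v)
    (hd : LinearMap.det (T : Cn n →ₗ[ℂ] Cn n) ≠ 0) {δ : ℝ} (hδ : 0 < δ) :
    ∀ᶠ z in 𝓝 z0, ∑ k, ‖Φ z k‖ ^ 2 ≤ (1 + δ) * ‖T (z - z0)‖ ^ 2 := by
  obtain ⟨κ, hκ, hκT⟩ := exists_lower hd
  -- `Λ`
  set Ψ : Cn n → EuclideanSpace ℂ (Fin N) := fun z => WithLp.toLp 2 (Φ z) with hΨ
  set Λ : Cn n →L[ℂ] EuclideanSpace ℂ (Fin N) :=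
    (PiLp.continuousLinearEquiv 2 ℂ (fun _ : Fin N => ℂ)).symm.toContinuousLinearMap.comp
      (ContinuousLinearMap.pi fun k => fderiv ℂ (fun z => Φ z k) z0) with hΛ
  have hΛk : ∀ v k, Λ v k = fderiv ℂ (fun z => Φ z k) z0 v := fun v k => rfl
  have hder : HasFDerivAt Ψ Λ z0 := by
    have h1 : HasFDerivAt (fun z => Φ z) (ContinuousLinearMap.pi fun k =>
        fderiv ℂ (fun z => Φ z k) z0) z0 := hasFDerivAt_pi.2 fun k => (hΦ k).hasFDerivAt
    exact ((PiLp.continuousLinearEquiv 2 ℂ (fun _ : Fin N => ℂ)).symm.hasFDerivAt).comp z0 h1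
  have hΛT : ∀ v, ‖Λ v‖ = ‖T v‖ := by
    intro v
    have h1 : ‖Λ v‖ ^ 2 = ‖T v‖ ^ 2 := by
      rw [hT, EuclideanSpace.norm_sq_eq]
      unfold qC
      refine Finset.sum_congr rfl fun k _ => ?_
      rw [hΛk]
      congr 2
      have h2 : v = ∑ a, v a • (EuclideanSpace.single a (1 : ℂ) : Cn n) := by
        ext b
        simp [Finset.sum_apply, Pi.single_apply]
      conv_lhs => rw [h2]
      rw [map_sum]
      refine Finset.sum_congr rfl fun a _ => ?_
      rw [map_smul, hC a k, smul_eq_mul, mul_comm]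
    exact (pow_left_inj₀ (norm_nonneg _) (norm_nonneg _) two_ne_zero).1 h1
  -- choose `ε` with `(1 + ε κ)² ≤ 1 + δ`
  obtain ⟨ε, hε, hε2⟩ : ∃ ε : ℝ, 0 < ε ∧ (1 + ε * κ) ^ 2 ≤ 1 + δ := by
    refine ⟨min 1 (δ / 3) / κ, by positivity, ?_⟩
    rw [div_mul_cancel₀ _ hκ.ne']
    have h1 : 0 ≤ min 1 (δ / 3) := by positivity
    have h2 : min 1 (δ / 3) ≤ 1 := min_le_left _ _
    have h3 : min 1 (δ / 3) ≤ δ / 3 := min_le_right _ _
    nlinarith
  have h1 := hder.isLittleO.def hε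
  filter_upwards [h1] with z hz
  have hΨ0 : Ψ z0 = 0 := by
    simp only [hΨ]
    rw [h0]
    rfl
  rw [hΨ0, sub_zero] at hz
  have h2 : ‖Ψ z‖ ≤ (1 + ε * κ) * ‖T (z - z0)‖ := by
    calc ‖Ψ z‖ = ‖(Ψ z - Λ (z - z0)) + Λ (z - z0)‖ := by rw [sub_add_cancel]
      _ ≤ ‖Ψ z - Λ (z - z0)‖ + ‖Λ (z - z0)‖ := norm_add_le _ _
      _ ≤ ε * (κ * ‖T (z - z0)‖) + ‖T (z - z0)‖ := by
          rw [hΛT]
          exact add_le_add (hz.trans (mul_le_mul_of_nonneg_left (hκT _) hε.le)) le_rfl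
      _ = _ := by ring
  have h3 : ∑ k, ‖Φ z k‖ ^ 2 = ‖Ψ z‖ ^ 2 := by
    rw [EuclideanSpace.norm_sq_eq]
  rw [h3]
  calc ‖Ψ z‖ ^ 2 ≤ ((1 + ε * κ) * ‖T (z - z0)‖) ^ 2 :=
        pow_le_pow_left₀ (norm_nonneg _) h2 2
    _ = (1 + ε * κ) ^ 2 * ‖T (z - z0)‖ ^ 2 := by ring
    _ ≤ _ := mul_le_mul_of_nonneg_right hε2 (by positivity)

/-- injective differential ⇒ nondegenerate Gram matrix -/
theorem det_ne_of_inj {C : Matrix (Fin n) (Fin N) ℂ}
    (h : ∀ v : Fin n → ℂ, (∀ k, ∑ a, C a k * v a = 0) → v = 0) : (C * Cᴴ).det ≠ 0 := by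
  intro h0
  obtain ⟨x, hx, hx0⟩ := Matrix.exists_mulVec_eq_zero_iff.2 h0
  apply hx
  have h1 : Cᴴ *ᵥ x = 0 := by
    have h2 : star (Cᴴ *ᵥ x) ⬝ᵥ (Cᴴ *ᵥ x) = 0 := by
      rw [Matrix.star_mulVec, Matrix.conjTranspose_conjTranspose, ← Matrix.dotProduct_mulVec,
        Matrix.mulVec_mulVec, hx0, dotProduct_zero]
    exact dotProduct_star_self_eq_zero.1 h2
  have h3 : star x = 0 := by
    refine h (star x) fun k => ?_
    have h4 := congrFun h1 k
    simp only [Matrix.mulVec, dotProduct, Matrix.conjTranspose_apply, Pi.zero_apply] at h4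
    have h5 := congrArg star h4
    rw [star_sum, star_zero] at h5
    rw [← h5]
    refine Finset.sum_congr rfl fun a _ => ?_
    rw [star_mul', star_star]
    rfl
  have := congrArg star h3
  rwa [star_star, star_zero] at this

end

end Crest.Agent.R281.Mv_757
end

-- ▼ part R281/Mv8_757

/-!
# Row 281, S6-MONO (M4), part 8 (helper757): density at a point, the mean value inequality

* `ML.density` : `liminf a^(-n) ∫_{|F|² ≤ a} w dμ ≥ bv n * w q` at an immersive point `q`, `F q = 0`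
* `ML.mvi`     : `bv n * w q * b^n ≤ ∫_{W0 ∩ {|F|² < b}} w dμ` for `0 < b ≤ R`
* `ML.mvi_le`  : comparison with another volume: `rhoL ≤ C` gives `≤ C ∫ w dvm h`
-/

set_option autoImplicit false
set_option linter.unusedSectionVars false

open Set Filter Topology Complex MeasureTheory
open scoped ContDiff Matrix ComplexConjugate Manifold ComplexOrder ENNReal

namespace Crest.Agent.R281.Mv_757

open Crest.Agent.R275 Crest.Agent.R275.Geo Crest.Agent.R275.Core144 Crest.Agent.R275.EDR890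
open Crest.Agent.R275.Pai323 Crest.Agent.R275.C1d194
open Crest.Agent.R273.Defs_333 Crest.Agent.R273.Hess_333 Crest.Agent.R273.HessB_333
open Crest.Agent.R273.HM_333 Crest.Agent.R273.Kah_333 Crest.Agent.R273.Vol_333
open Crest.Agent.R273.Vm_333
open Crest.Agent.R281

noncomputable section

variable {n N : ℕ} {M : Type} [TopologicalSpace M] [T2Space M] {A : Atl n M}
  {F : M → Fin N → ℂ} {W0 : Set M}
variable (h : HM (KB A)⁻¹) [MeasurableSpace M] [BorelSpace M] [Countable A.ι]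
variable {w : M → ℝ} {R : ℝ}

theorem exists_e {c w0 D0 b0 : ℝ} (hD : 0 < D0) (hc : c < b0 * w0) (n : ℕ) :
    ∃ e : ℝ, 0 < e ∧ c < (w0 * D0 - e) * (b0 / D0) / (1 + e) ^ n := by
  have hcont : ContinuousAt (fun e : ℝ => (w0 * D0 - e) * (b0 / D0) / (1 + e) ^ n) 0 := by
    refine ContinuousAt.div (by fun_prop) (by fun_prop) ?_
    simp
  have h0 : (w0 * D0 - 0) * (b0 / D0) / (1 + 0) ^ n = b0 * w0 := by
    field_simp
    simp
  have h1 : ∀ᶠ e in 𝓝 (0 : ℝ), c < (w0 * D0 - e) * (b0 / D0) / (1 + e) ^ n := by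
    apply hcont.eventually_const_lt
    show c < (w0 * D0 - 0) * (b0 / D0) / (1 + 0) ^ n
    rw [h0]
    exact hc
  obtain ⟨e, he, he0⟩ := ((h1.filter_mono nhdsWithin_le_nhds).and
    (self_mem_nhdsWithin : Ioi (0 : ℝ) ∈ 𝓝[>] 0)).exists
  exact ⟨e, he0, he⟩

/-- the density at an immersive point -/
theorem ML.density (D : ML A W0 F w R) (hR : 0 < R) {q : M} (hq : q ∈ W0) (hFq : F q = 0)
    {i : A.ι} (hi : q ∈ (A.e i).source) (hd : (DF A F i q * (DF A F i q)ᴴ).det ≠ 0) {c : ℝ}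
    (hc : c < bv n * w q) :
    ∃ r : ℝ, 0 < r ∧ r ≤ R ∧ ∀ a, 0 < a → a < r →
      c * a ^ n ≤ ∫ x in {x | sL W0 F R x ≤ a}, w x ∂(muL h W0 F) := by
  have hW := D.op
  have hF := D.hol
  set z0 : Cn n := A.e i q with hz0
  obtain ⟨T, hT1, hT2, hT3⟩ := exists_T (DF A F i q) hd
  set D0 : ℝ := (DF A F i q * (DF A F i q)ᴴ).det.re with hD0
  have hD0p : 0 < D0 := by
    rw [← hT3]
    have := norm_pos_iff.2 hT2
    positivity
  have hq0 : (A.e i).symm z0 = q := (A.e i).left_inv hi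
  set f : Cn n → ℝ := fun z => w ((A.e i).symm z) * dFL A W0 F i ((A.e i).symm z) with hf
  have hfc : ContinuousOn f (tW A W0 i) := by
    have h1 : ContinuousOn (fun z => w ((A.e i).symm z)) (tW A W0 i) :=
      (D.sm i).continuousOn.mono inter_subset_left
    have h2 : ContinuousOn (fun x => dFL A W0 F i x) ((A.e i).source ∩ W0) :=
      (cont_det.comp_continuousOn (contOn_DF hF hW i)).congr fun x hx => dFL_on hx.2
    have h3 : ContinuousOn (fun z => dFL A W0 F i ((A.e i).symm z)) (tW A W0 i) :=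
      h2.comp ((A.e i).continuousOn_symm.mono inter_subset_left) fun z hz =>
        ⟨(A.e i).map_target hz.1, hz.2⟩
    exact h1.mul h3
  have hz0W : z0 ∈ tW A W0 i := mem_tW hi hq
  have hf0 : f z0 = w q * D0 := by
    simp only [hf]
    rw [hq0, dFL_on hq]
  obtain ⟨e, he, hec⟩ := exists_e (b0 := bv n) hD0p hc n
  -- local conditions
  have c1 : ∀ᶠ z in 𝓝 z0, z ∈ tW A W0 i := (isOpen_tW hW i).mem_nhds hz0W
  have c2 : ∀ᶠ z in 𝓝 z0, w q * D0 - e < f z := by
    refine (hfc.continuousAt ((isOpen_tW hW i).mem_nhds hz0W)).eventually_const_lt ?_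
    rw [hf0]
    linarith
  have c3 : ∀ᶠ z in 𝓝 z0, ∑ k, ‖F ((A.e i).symm z) k‖ ^ 2 ≤ (1 + e) * ‖T (z - z0)‖ ^ 2 :=
    first_order (Φ := fun z => F ((A.e i).symm z))
      (fun k => (hF i k).differentiableAt ((isOpen_tW hW i).mem_nhds hz0W))
      (by rw [hq0, hFq]) (C := DF A F i q) (fun a k => rfl) hT1 hT2 he
  obtain ⟨r0, hr0, hr⟩ := Metric.eventually_nhds_iff.1 (c1.and (c2.and c3))
  obtain ⟨κ, hκ, hκT⟩ := exists_lower hT2
  refine ⟨min (r0 ^ 2 / κ ^ 2) R, lt_min (by positivity) hR, min_le_right _ _, fun a ha har => ?_⟩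
  have ha1 : a < r0 ^ 2 / κ ^ 2 := har.trans_le (min_le_left _ _)
  have ha2 : a < R := har.trans_le (min_le_right _ _)
  set t : ℝ := a / (1 + e) with ht
  have h1e : 0 < 1 + e := by linarith
  have ht0 : 0 < t := div_pos ha h1e
  have hta : t ≤ a := by
    rw [ht, div_le_iff₀ h1e]
    nlinarith
  set V : Set (RI n → ℝ) := {y | ‖T (cc y - z0)‖ ^ 2 ≤ t} with hV
  have hVb : ∀ z : Cn n, ‖T (z - z0)‖ ^ 2 ≤ t → dist z z0 < r0 := by
    intro z hz
    rw [dist_eq_norm]
    have h2 : ‖z - z0‖ ^ 2 < r0 ^ 2 := by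
      calc ‖z - z0‖ ^ 2 ≤ (κ * ‖T (z - z0)‖) ^ 2 :=
            pow_le_pow_left₀ (norm_nonneg _) (hκT _) 2
        _ = κ ^ 2 * ‖T (z - z0)‖ ^ 2 := by ring
        _ ≤ κ ^ 2 * a := mul_le_mul_of_nonneg_left (hz.trans hta) (by positivity)
        _ < κ ^ 2 * (r0 ^ 2 / κ ^ 2) := mul_lt_mul_of_pos_left ha1 (by positivity)
        _ = r0 ^ 2 := by field_simp
    exact lt_of_pow_lt_pow_left₀ 2 hr0.le h2
  have hTc : Continuous fun z : Cn n => ‖T (z - z0)‖ ^ 2 := by fun_prop
  have hVc : IsClosed V := isClosed_le (hTc.comp continuous_cc) continuous_const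
  have hVU : ∀ y ∈ V, (cc y : Cn n) ∈ tW A W0 i := fun y hy => (hr (hVb _ hy)).1
  have hVf : ∀ y ∈ V, w q * D0 - e ≤ f (cc y) := fun y hy => (hr (hVb _ hy)).2.1.le
  have hVvol : (volume V).toReal = t ^ n * bv n / D0 := by
    rw [← hT3]
    exact vol_ell T hT2 z0 ht0
  have hVfin : volume V ≠ ⊤ := by
    have hsub : V ⊆ rc '' Metric.closedBall z0 r0 := by
      intro y hy
      exact ⟨cc y, (hVb _ hy).le, rc_cc y⟩
    have hcomp : IsCompact (rc '' Metric.closedBall z0 r0) := by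
      refine (isCompact_closedBall _ _).image ?_
      rw [rc_eq]
      exact (rcL n).continuous
    exact ((measure_mono hsub).trans_lt hcomp.measure_lt_top).ne
  have hVcomp : IsCompact V := by
    have hsub : V ⊆ rc '' Metric.closedBall z0 r0 := by
      intro y hy
      exact ⟨cc y, (hVb _ hy).le, rc_cc y⟩
    have hcomp : IsCompact (rc '' Metric.closedBall z0 r0) := by
      refine (isCompact_closedBall _ _).image ?_
      rw [rc_eq]
      exact (rcL n).continuous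
    exact hcomp.of_isClosed_subset hVc hsub
  -- the set in `M`
  set S : Set M := {x | x ∈ (A.e i).source ∧ ‖T (A.e i x - z0)‖ ^ 2 ≤ t} with hS
  have hSm : MeasurableSet S := by
    have h1 : S = (A.e i).source \ ((A.e i).source ∩ A.e i ⁻¹' {z | t < ‖T (z - z0)‖ ^ 2}) := by
      ext x
      simp only [hS, mem_ofPred_eq, Set.mem_sdiff, mem_inter_iff, mem_preimage, not_and, not_lt]
      constructor
      · rintro ⟨h1, h2⟩
        exact ⟨h1, fun _ => h2⟩
      · rintro ⟨h1, h2⟩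
        exact ⟨h1, h2 h1⟩
    rw [h1]
    exact (A.e i).open_source.measurableSet.diff
      ((A.e i).isOpen_inter_preimage (isOpen_lt continuous_const hTc)).measurableSet
  have hSsub : S ⊆ {x | sL W0 F R x ≤ a} := by
    rintro x ⟨hx1, hx2⟩
    have h1 := hr (hVb _ hx2)
    have h2 : x ∈ W0 := by
      have := h1.1.2
      rwa [mem_preimage, (A.e i).left_inv hx1] at this
    show sL W0 F R x ≤ a
    rw [sL_on h2]
    have h3 := h1.2.2
    rw [(A.e i).left_inv hx1] at h3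
    calc sF F x ≤ (1 + e) * ‖T (A.e i x - z0)‖ ^ 2 := h3
      _ ≤ (1 + e) * t := mul_le_mul_of_nonneg_left hx2 h1e.le
      _ = a := by rw [ht]; field_simp
  have hIn : IntegrableOn w {x | sL W0 F R x ≤ a} (muL h W0 F) :=
    (intOn_wL h D).mono_set fun x (hx : sL W0 F R x ≤ a) => (hx.trans_lt ha2 : sL W0 F R x < R)
  have s1 : ∫ x in S, w x ∂(muL h W0 F) ≤ ∫ x in {x | sL W0 F R x ≤ a}, w x ∂(muL h W0 F) :=
    setIntegral_mono_set hIn (Eventually.of_forall fun x => D.w0 x) hSsub.eventuallyLE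
  have s2 : ∫ x in S, w x ∂(muL h W0 F) = ∫ y in V, f (cc y) := by
    rw [← integral_indicator hSm, integral_muL h hF hW]
    set J : M → ℝ := fun x => rhoL h W0 F x * S.indicator w x with hJ
    have hJm : Measurable J := (meas_rhoL h hF hW).mul ((sm_cont D.sm).measurable.indicator hSm)
    have e1 : ∫ x, J x ∂(vm h) = ∫ x in (A.e i).source, J x ∂(vm h) := by
      symm
      refine setIntegral_eq_integral_of_forall_compl_eq_zero fun x hx => ?_
      simp only [hJ]
      rw [indicator_of_notMem (fun hc => hx hc.1), mul_zero]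
    rw [e1, setIntegral_vm h i hJm.aestronglyMeasurable]
    have e2 : ∫ y in Ui A i, h.w i (sg A i y) • J (sg A i y) =
        ∫ y in Ui A i, V.indicator (fun y => f (cc y)) y := by
      refine setIntegral_congr_fun (C1d194.isOpen_Ui i).measurableSet fun y hy => ?_
      have hs : sg A i y ∈ (A.e i).source := sg_mem hy
      have hy' : A.e i (sg A i y) = cc y := (A.e i).right_inv hy
      have e3 : h.w i (sg A i y) * rhoL h W0 F (sg A i y) = dFL A W0 F i (sg A i y) :=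
        rhoL_mul h hF hW hs
      simp only [hJ, smul_eq_mul]
      rw [← mul_assoc, e3]
      by_cases hyV : y ∈ V
      · have : sg A i y ∈ S := ⟨hs, by rw [hy']; exact hyV⟩
        rw [indicator_of_mem this, indicator_of_mem hyV]
        show _ = w (sg A i y) * dFL A W0 F i (sg A i y)
        ring
      · have : sg A i y ∉ S := fun hc => hyV (by
          have := hc.2
          rw [hy'] at this
          exact this)
        rw [indicator_of_notMem this, indicator_of_notMem hyV, mul_zero]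
    rw [e2, setIntegral_indicator hVc.measurableSet]
    congr 2
    ext y
    exact ⟨fun hy => hy.2, fun hy => ⟨(hVU y hy).1, hy⟩⟩
  have hfi : IntegrableOn (fun y => f (cc y)) V := by
    have h1 : ContinuousOn (fun y => f (cc y)) V :=
      hfc.comp continuous_cc.continuousOn fun y hy => hVU y hy
    exact h1.integrableOn_compact hVcomp
  have s3 : (w q * D0 - e) * (volume V).toReal ≤ ∫ y in V, f (cc y) :=
    setIntegral_ge_of_const_le_real hVc.measurableSet hVfin hVf hfi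
  calc c * a ^ n ≤ ((w q * D0 - e) * (bv n / D0) / (1 + e) ^ n) * a ^ n :=
        mul_le_mul_of_nonneg_right hec.le (by positivity)
    _ = (w q * D0 - e) * (t ^ n * bv n / D0) := by
        rw [ht, div_pow]
        field_simp
    _ ≤ ∫ y in V, f (cc y) := by rw [← hVvol]; exact s3
    _ = ∫ x in S, w x ∂(muL h W0 F) := s2.symm
    _ ≤ _ := s1

/-- **the mean value inequality** -/
theorem ML.mvi (P : Part A) (D : ML A W0 F w R) (hn : 0 < n) {q : M} (hq : q ∈ W0)
    (hFq : F q = 0) {i : A.ι} (hi : q ∈ (A.e i).source)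
    (hd : (DF A F i q * (DF A F i q)ᴴ).det ≠ 0) {b : ℝ} (hb : 0 < b) (hbR : b ≤ R) :
    bv n * w q * b ^ n ≤ ∫ x in W0 ∩ {x | sF F x < b}, w x ∂(muL h W0 F) := by
  rw [← sL_lt' (F := F) (W0 := W0) hbR]
  have key : ∀ c, c < bv n * w q →
      c * b ^ n ≤ ∫ x in {x | sL W0 F R x < b}, w x ∂(muL h W0 F) := by
    intro c hc
    obtain ⟨r, hr, _, h1⟩ := D.density h (hb.trans_le hbR) hq hFq hi hd hc
    have ha : 0 < min (r / 2) (b / 2) := by positivity
    have ha1 : min (r / 2) (b / 2) < r := (min_le_left _ _).trans_lt (by linarith)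
    have ha2 : min (r / 2) (b / 2) < b := (min_le_right _ _).trans_lt (by linarith)
    exact (D.dat h P).lower hn ha ha2 hbR (h1 _ ha ha1)
  refine le_of_forall_lt_imp_le_of_dense fun c hc => ?_
  have hbn : 0 < b ^ n := pow_pos hb n
  have := key (c / b ^ n) (by rwa [div_lt_iff₀ hbn])
  rwa [div_mul_cancel₀ _ hbn.ne'] at this


/-- the data with compactness and positivity only below `R` -/
structure MDL (A : Atl n M) (W0 : Set M) (F : M → Fin N → ℂ) (w : M → ℝ) (R : ℝ) : Prop where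
  op : IsOpen W0
  hol : ∀ i k, HolAt A i W0 (fun x => F x k)
  sm : A.Sm w
  w0 : ∀ x, 0 ≤ w x
  psh : ∀ i, ∀ x ∈ (A.e i).source, x ∈ W0 → sF F x < R → (hsf A w i x).PosSemidef
  cpt : ∀ r < R, IsCompact (tsupport w ∩ {x | x ∈ W0 ∧ sF F x ≤ r})

theorem MDL.ml {r : ℝ} (D : MDL A W0 F w R) (hr : r < R) : ML A W0 F w r where
  op := D.op
  hol := D.hol
  sm := D.sm
  w0 := D.w0
  psh i x hx hxW hx2 := D.psh i x hx hxW (hx2.trans_lt hr)
  cpt := D.cpt r hr

/-- **the mean value inequality**, up to the radius `R` -/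
theorem MDL.mvi (P : Part A) (D : MDL A W0 F w R) (hR : 0 < R) (hn : 0 < n) {q : M} (hq : q ∈ W0)
    (hFq : F q = 0) {i : A.ι} (hi : q ∈ (A.e i).source)
    (hd : (DF A F i q * (DF A F i q)ᴴ).det ≠ 0)
    (hint : IntegrableOn w {x | x ∈ W0 ∧ sF F x < R} (muL h W0 F)) :
    bv n * w q * R ^ n ≤ ∫ x in {x | x ∈ W0 ∧ sF F x < R}, w x ∂(muL h W0 F) := by
  have h1 : ∀ r, 0 < r → r < R →
      bv n * w q * r ^ n ≤ ∫ x in {x | x ∈ W0 ∧ sF F x < R}, w x ∂(muL h W0 F) := by
    intro r hr hrR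
    refine ((D.ml hrR).mvi h P hn hq hFq hi hd hr le_rfl).trans ?_
    exact setIntegral_mono_set hint (Eventually.of_forall fun x => D.w0 x)
      (LE.le.eventuallyLE fun x hx => ⟨hx.1, (show sF F x < r from hx.2).trans hrR⟩)
  have h2 : Tendsto (fun r : ℝ => bv n * w q * r ^ n) (𝓝[<] R) (𝓝 (bv n * w q * R ^ n)) := by
    have : Continuous fun r : ℝ => bv n * w q * r ^ n := by fun_prop
    exact this.continuousAt.tendsto.mono_left nhdsWithin_le_nhds
  refine le_of_tendsto h2 ?_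
  filter_upwards [Ioo_mem_nhdsLT hR] with r hr
  exact h1 r hr.1 hr.2

/-- the same as a bound of the lower integral, without integrability -/
theorem MDL.mvi' (P : Part A) (D : MDL A W0 F w R) (hR : 0 < R) (hn : 0 < n) {q : M} (hq : q ∈ W0)
    (hFq : F q = 0) {i : A.ι} (hi : q ∈ (A.e i).source)
    (hd : (DF A F i q * (DF A F i q)ᴴ).det ≠ 0) :
    ENNReal.ofReal (bv n * w q * R ^ n) ≤
      ∫⁻ x in {x | x ∈ W0 ∧ sF F x < R}, ENNReal.ofReal (w x) ∂(muL h W0 F) := by
  have hm : ∀ r, MeasurableSet (W0 ∩ {x | sF F x < r}) := by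
    intro r
    rw [← sL_lt' (F := F) (W0 := W0) (le_refl r)]
    exact measurableSet_lt (meas_sL D.hol D.op r) measurable_const
  by_cases hint : IntegrableOn w {x | x ∈ W0 ∧ sF F x < R} (muL h W0 F)
  · rw [← ofReal_integral_eq_lintegral_ofReal hint (Eventually.of_forall fun x => D.w0 x)]
    exact ENNReal.ofReal_le_ofReal (D.mvi h P hR hn hq hFq hi hd hint)
  · have h1 : ∫⁻ x in {x | x ∈ W0 ∧ sF F x < R}, ENNReal.ofReal (w x) ∂(muL h W0 F) = ⊤ := by
      by_contra hne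
      apply hint
      refine ⟨(sm_cont D.sm).aestronglyMeasurable, ?_⟩
      rw [hasFiniteIntegral_iff_ofReal (Eventually.of_forall fun x => D.w0 x)]
      exact lt_top_iff_ne_top.2 hne
    rw [h1]
    exact le_top

/-- comparison of the lower integrals -/
theorem lint_muL_le (hF : HFL A W0 F) (hW : IsOpen W0) (hw : Measurable w) {S : Set M}
    (hS : MeasurableSet S) {C : ℝ} (hC : ∀ x ∈ S, rhoL h W0 F x ≤ C) :
    ∫⁻ x in S, ENNReal.ofReal (w x) ∂(muL h W0 F) ≤
      ENNReal.ofReal C * ∫⁻ x in S, ENNReal.ofReal (w x) ∂(vm h) := by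
  unfold muL
  rw [restrict_withDensity hS, lintegral_withDensity_eq_lintegral_mul _
    (meas_rhoL h hF hW).ennreal_ofReal hw.ennreal_ofReal, ← lintegral_const_mul _ hw.ennreal_ofReal]
  refine setLIntegral_mono' hS fun x hx => ?_
  exact mul_le_mul_left (ENNReal.ofReal_le_ofReal (hC x hx)) _

/-- the mean value inequality, compared with `vm h` -/
theorem MDL.mvi_C (P : Part A) (D : MDL A W0 F w R) (hR : 0 < R) (hn : 0 < n) {q : M}
    (hq : q ∈ W0) (hFq : F q = 0) {i : A.ι} (hi : q ∈ (A.e i).source)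
    (hd : (DF A F i q * (DF A F i q)ᴴ).det ≠ 0) {C : ℝ}
    (hC : ∀ x ∈ W0, sF F x < R → rhoL h W0 F x ≤ C) :
    ENNReal.ofReal (bv n * w q * R ^ n) ≤
      ENNReal.ofReal C * ∫⁻ x in {x | x ∈ W0 ∧ sF F x < R}, ENNReal.ofReal (w x) ∂(vm h) := by
  have hm : MeasurableSet {x | x ∈ W0 ∧ sF F x < R} := by
    have h1 : {x | x ∈ W0 ∧ sF F x < R} = W0 ∩ {x | sF F x < R} := rfl
    rw [h1, ← sL_lt' (F := F) (W0 := W0) (le_refl R)]
    exact measurableSet_lt (meas_sL D.hol D.op R) measurable_const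
  exact (D.mvi' h P hR hn hq hFq hi hd).trans
    (lint_muL_le h D.hol D.op (sm_cont D.sm).measurable hm fun x hx => hC x hx.1 hx.2)

end

end Crest.Agent.R281.Mv_757
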