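import Crest.Agent.R281.SK2_507
import Crest.Agent.R281.S6D_664
import Mathlib
import Crest.Agent.R281.Har4_331
import Crest.Agent.R281.D6f_986
import Crest.Agent.R281.HkP3_508
import Crest.Agent.R281.Con1_166
import Crest.Agent.R281.Con5_166
import Crest.Agent.R281.Mv8_757
import Crest.Agent.R281.N2_373

-- ▼ part R281/SK3_507
section

/-!
# R281 (S0424), S6-SK (helper507), part 3: mixed relative invariance; pull-back of the 2-form

* `rmixed` : `∫ φ |r|^(2m) tr (adj (C + ∂_f∂̄_f u) S) = ∫ φ |r|^(2m) tr (adj C S)`, `C`, `S` relative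
  closed fields
* `ps`     : local expression of the pulled back holomorphic 2-form; `ps_hol`, `ps_closed`
* `ada F`  : the charts of a `Fam` are adapted
* `sV F σ` : the pulled back 2-form on `F.V`; `xi F σ c`: the relative 1-forms `σ(∂_a, ∂_{y_c})`
* `rcf_xi` : `ξ ξ*` is a relative closed field when the fibres are isotropic
-/

set_option autoImplicit false
set_option linter.unusedSectionVars false

open Set Filter Topology Complex Function
open scoped ContDiff Matrix ComplexConjugate Polynomial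

namespace Crest.Agent.R281.SK3_507

open Crest.Agent.R275 Crest.Agent.R275.Geo Crest.Agent.R275.Core144 Crest.Agent.R275.EDR890
open Crest.Agent.R275.Pai323 Crest.Agent.R275.C1d194
open Crest.Agent.R275.SerG398 (lint dens OffZ)
open Crest.Agent.R275.OmT75 (dj dl dl_chain dl_mul db_chain dj_sum dj_congr dbj_congr dj_comp)
open Crest.Agent.R273.Defs_333 Crest.Agent.R273.Hess_333 Crest.Agent.R273.HessB_333
open Crest.Agent.R273.HM_333 Crest.Agent.R273.Kah_333 Crest.Agent.R273.Vol_333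
open Crest.Agent.R273.Piola_5 Crest.Agent.R273.Green_5
open Crest.Agent.R273.VolInv_5 (dp eval_dp natDegree_dp contDiffOn_coeff_prod eval_derivative_dp)
open Crest.Agent.R273.GreenG_5 (coeff_one_dp)
open Crest.Agent.R273.StokesV_332
open Crest.Agent.R273.Map_835 Crest.Agent.R273.KahI_645
open Crest.Agent.R281.SK1_507 Crest.Agent.R281.SK2_507 Crest.Agent.R281.S6D_664
open Crest.Agent.R281.Defs_273

noncomputable section

section mixed_

variable {d m : ℕ} {V : Type} [TopologicalSpace V] {B : Atl (d + m) V} {y : V → Cn m} [T2Space V]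

/-- **mixed relative invariance** -/
theorem rmixed (P : Part B) (D : Ada B y) {C S : B.ι → V → Matrix (Fin d) (Fin d) ℂ}
    (hC : RCF B C) (hS : RCF B S) {φ : V → ℂ} (hφ : Bas B φ) {u : V → ℝ} (hu : B.Sm u) {K : Set V}
    (hK : IsCompact K) (h0 : ∀ x ∉ K, φ x = 0) :
    intD P (fun i x => φ x * wt D i * ((C i x + fib (hsf B u) i x).adjugate * S i x).trace) =
      intD P (fun i x => φ x * wt D i * ((C i x).adjugate * S i x).trace) := by
  have hCu : RCF B (fun i x => C i x + fib (hsf B u) i x) := hC.add (rcf_fib D (hsf_cf hu))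
  set Q : (B.ι → V → Matrix (Fin d) (Fin d) ℂ) → ℂ[X] := fun g =>
    ∑ k ∈ Finset.range (d + 2), Polynomial.monomial k
      (intD P (fun i x => φ x * wt D i * (dp (g i x) (S i x)).coeff k)) with hQ
  have hev : ∀ g, RCF B g → ∀ t : ℂ, (Q g).eval t =
      intD P (fun i x => φ x * wt D i * (g i x + t • S i x).det) := by
    intro g hg t
    rw [int_dp P D hg.sm hS.sm hφ.sm hK h0, hQ]
    simp only [Polynomial.eval_finsetSum, Polynomial.eval_monomial]
    exact Finset.sum_congr rfl fun k _ => mul_comm _ _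
  have hco : ∀ g, (Q g).coeff 1 =
      intD P (fun i x => φ x * wt D i * ((g i x).adjugate * S i x).trace) := by
    intro g
    rw [hQ]
    simp only [Polynomial.finsetSum_coeff, Polynomial.coeff_monomial]
    rw [Finset.sum_ite_eq' (Finset.range (d + 2)) 1, if_pos (Finset.mem_range.2 (by omega))]
    simp only [coeff_one_dp]
  rw [← hco (fun i x => C i x + fib (hsf B u) i x), ← hco C]
  congr 1
  refine Polynomial.eq_of_infinite_eval_eq _ _ ?_
  refine Set.infinite_of_injective_forall_mem (f := fun t : ℝ => (t : ℂ)) ofReal_injective ?_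
  intro t
  change (Q fun i x => C i x + fib (hsf B u) i x).eval (t : ℂ) = (Q C).eval (t : ℂ)
  rw [hev _ hCu, hev _ hC, ← rvol P D (hC.add (hS.smul (t : ℂ))) hφ hu hK h0]
  refine intD_congr P fun i x _ => ?_
  congr 2
  abel

end mixed_

/-! ### the local expression of a pulled back 2-form -/

section calc_

variable {n m : ℕ} {F : Cn m → Cn n} {z : Cn m} {G : Fin n → Fin n → Cn n → ℂ}

/-- the local expression of the pulled back 2-form -/
def ps (F : Cn m → Cn n) (G : Fin n → Fin n → Cn n → ℂ) (a b : Fin m) (w : Cn m) : ℂ :=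
  ∑ a', ∑ b', Je F a a' w * G a' b' (F w) * Je F b b' w

theorem ps_hol (hF : ∀ᶠ w in 𝓝 z, DifferentiableAt ℂ F w)
    (hG : ∀ a b, DifferentiableAt ℂ (G a b) (F z)) (a b : Fin m) :
    DifferentiableAt ℂ (ps F G a b) z := by
  have hFz : DifferentiableAt ℂ F z := hF.self_of_nhds
  refine DifferentiableAt.fun_sum fun a' _ => DifferentiableAt.fun_sum fun b' _ => ?_
  exact ((je_diff hF a a').fun_mul ((hG a' b').comp z hFz)).fun_mul (je_diff hF b b')

theorem ps_closed (hF : ∀ᶠ w in 𝓝 z, DifferentiableAt ℂ F w)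
    (hG : ∀ a b, DifferentiableAt ℂ (G a b) (F z))
    (hsk : ∀ a b, G a b (F z) = - G b a (F z))
    (hcl : ∀ a b c, wd (false, c) (G a b) (F z) + wd (false, a) (G b c) (F z) +
      wd (false, b) (G c a) (F z) = 0) (a b c : Fin m) :
    wd (false, c) (ps F G a b) z + wd (false, a) (ps F G b c) z +
      wd (false, b) (ps F G c a) z = 0 := by
  have hFz : DifferentiableAt ℂ F z := hF.self_of_nhds
  have dJ : ∀ a b', DifferentiableAt ℝ (Je F a b') z := fun a b' =>
    (je_diff hF a b').restrictScalars ℝ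
  have dG0 : ∀ a' b', DifferentiableAt ℝ (G a' b') (F z) := fun a' b' =>
    (hG a' b').restrictScalars ℝ
  have dG : ∀ a' b', DifferentiableAt ℝ (fun w => G a' b' (F w)) z := fun a' b' =>
    (dG0 a' b').comp z (hFz.restrictScalars ℝ)
  have key : ∀ a b c, wd (false, c) (ps F G a b) z = ∑ a', ∑ b',
      (wd (false, c) (Je F a a') z * G a' b' (F z) * Je F b b' z +
        Je F a a' z * G a' b' (F z) * wd (false, c) (Je F b b') z +
        ∑ e, Je F a a' z * Je F c e z * wd (false, e) (G a' b') (F z) * Je F b b' z) := by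
    intro a b c
    have h1 : wd (false, c) (ps F G a b) z = ∑ a', wd (false, c) (fun w => ∑ b',
        Je F a a' w * G a' b' (F w) * Je F b b' w) z :=
      wd_sum Finset.univ (fun a' _ => DifferentiableAt.fun_sum fun b' _ =>
        ((dJ a a').fun_mul (dG a' b')).fun_mul (dJ b b')) (false, c)
    rw [h1]
    refine Finset.sum_congr rfl fun a' _ => ?_
    rw [wd_sum Finset.univ (fun b' _ => ((dJ a a').fun_mul (dG a' b')).fun_mul (dJ b b')) (false, c)]
    refine Finset.sum_congr rfl fun b' _ => ?_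
    rw [wd_mul ((dJ a a').fun_mul (dG a' b')) (dJ b b'),
      wd_mul (dJ a a') (dG a' b'), wd_comp' (dG0 a' b') hFz (false, c)]
    have h2 : (∑ e, cj (false, c).1 ((fderiv ℂ F z (EuclideanSpace.single (false, c).2 1)) e) •
        wd ((false, c).1, e) (G a' b') (F z)) = ∑ e, Je F c e z * wd (false, e) (G a' b') (F z) :=
      Finset.sum_congr rfl fun e _ => by simp only [cj_false, smul_eq_mul]; rfl
    rw [h2]
    have h3 : Je F a a' z * ∑ e, Je F c e z * wd (false, e) (G a' b') (F z) =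
        ∑ e, Je F a a' z * Je F c e z * wd (false, e) (G a' b') (F z) := by
      rw [Finset.mul_sum]; exact Finset.sum_congr rfl fun e _ => by ring
    rw [h3, add_mul, Finset.sum_mul]
    ring
  -- names for the three kinds of terms
  set X : Fin m → Fin m → Fin m → ℂ := fun p q r =>
    ∑ a', ∑ b', wd (false, q) (Je F p a') z * G a' b' (F z) * Je F r b' z with hX
  set Y : Fin m → Fin m → Fin m → ℂ := fun p q r => ∑ a', ∑ b', ∑ e,
    Je F p a' z * Je F r e z * wd (false, e) (G a' b') (F z) * Je F q b' z with hY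
  have hX2 : ∀ p q r, X p q r = X q p r := by
    intro p q r
    simp only [hX]
    refine Finset.sum_congr rfl fun a' _ => Finset.sum_congr rfl fun b' _ => ?_
    rw [je_symm hF]
  have hX3 : ∀ a b c, ∑ a', ∑ b', Je F a a' z * G a' b' (F z) * wd (false, c) (Je F b b') z =
      - X b c a := by
    intro a b c
    simp only [hX]
    rw [Finset.sum_comm, ← Finset.sum_neg_distrib]
    refine Finset.sum_congr rfl fun b' _ => ?_
    rw [← Finset.sum_neg_distrib]
    refine Finset.sum_congr rfl fun a' _ => ?_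
    rw [hsk a' b']
    ring
  have key2 : ∀ a b c, wd (false, c) (ps F G a b) z = X a c b - X b c a + Y a b c := by
    intro a b c
    rw [key]
    simp only [Finset.sum_add_distrib]
    rw [hX3 a b c]
    simp only [hX, hY]
    ring
  have hYc : Y a b c + Y b c a + Y c a b = 0 := by
    have e1 : Y b c a = ∑ a', ∑ b', ∑ e,
        Je F a a' z * Je F c e z * wd (false, a') (G b' e) (F z) * Je F b b' z := by
      simp only [hY]
      -- `Y b c a = ∑ p q r, J b p * J a r * ∂_r G p q * J c q`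
      rw [show (∑ a', ∑ b', ∑ e, Je F b a' z * Je F a e z * wd (false, e) (G a' b') (F z) *
          Je F c b' z) = ∑ e, ∑ a', ∑ b', Je F b a' z * Je F a e z *
            wd (false, e) (G a' b') (F z) * Je F c b' z by
        rw [Finset.sum_congr rfl fun a' _ => Finset.sum_comm, Finset.sum_comm]]
      refine Finset.sum_congr rfl fun e _ => Finset.sum_congr rfl fun p _ =>
        Finset.sum_congr rfl fun q _ => by ring
    have e2 : Y c a b = ∑ a', ∑ b', ∑ e,
        Je F a a' z * Je F c e z * wd (false, b') (G e a') (F z) * Je F b b' z := by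
      simp only [hY]
      -- `Y c a b = ∑ p q r, J c p * J b r * ∂_r G p q * J a q`
      rw [show (∑ a', ∑ b', ∑ e, Je F c a' z * Je F b e z * wd (false, e) (G a' b') (F z) *
          Je F a b' z) = ∑ b', ∑ e, ∑ a', Je F c a' z * Je F b e z *
            wd (false, e) (G a' b') (F z) * Je F a b' z by
        rw [Finset.sum_comm]
        refine Finset.sum_congr rfl fun b' _ => ?_
        rw [Finset.sum_comm]]
      refine Finset.sum_congr rfl fun q _ => Finset.sum_congr rfl fun r _ =>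
        Finset.sum_congr rfl fun p _ => by ring
    rw [e1, e2]
    simp only [hY]
    rw [← Finset.sum_add_distrib, ← Finset.sum_add_distrib]
    refine Finset.sum_eq_zero fun a' _ => ?_
    rw [← Finset.sum_add_distrib, ← Finset.sum_add_distrib]
    refine Finset.sum_eq_zero fun b' _ => ?_
    rw [← Finset.sum_add_distrib, ← Finset.sum_add_distrib]
    refine Finset.sum_eq_zero fun e _ => ?_
    linear_combination (Je F a a' z * Je F c e z * Je F b b' z) * hcl a' b' e
  rw [key2 a b c, key2 b c a, key2 c a b]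
  linear_combination hYc + hX2 a c b + hX2 b a c + hX2 c b a

end calc_

end

end Crest.Agent.R281.SK3_507
end

-- ▼ part R281/SK4_507
section

/-!
# R281 (S0424), S6-SK (helper507), part 4: the pulled back 2-form on a family

* `sm2`, `sV`   : the matrix of `f^* σ`; `sV_eq`, `sV_tr`, `sV_alt`, `sV_hol`, `sV_closed`
* `ada F`       : the charts of a `Fam` are adapted
* `xi F σ c`    : the relative 1-forms `σ(∂_a, ∂_{y_c})`; `xi_tr`, `xi_hol`, `xi_closed`
* `rcf_xi`      : `ξ ξ*` is a relative closed field when the fibres are isotropic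
-/

set_option autoImplicit false
set_option linter.unusedSectionVars false

open Set Filter Topology Complex Function
open scoped ContDiff Matrix ComplexConjugate

namespace Crest.Agent.R281.SK4_507

open Crest.Agent.R275 Crest.Agent.R275.Geo Crest.Agent.R275.Core144 Crest.Agent.R275.EDR890
open Crest.Agent.R275.Pai323 Crest.Agent.R275.C1d194
open Crest.Agent.R273.Defs_333 Crest.Agent.R273.Hess_333 Crest.Agent.R273.HessB_333
open Crest.Agent.R273.HM_333 Crest.Agent.R273.Kah_333 Crest.Agent.R273.Vol_333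
open Crest.Agent.R273.StokesV_332
open Crest.Agent.R273.Map_835 Crest.Agent.R273.KahI_645
open Crest.Agent.R281.SK1_507 Crest.Agent.R281.SK2_507 Crest.Agent.R281.SK3_507
open Crest.Agent.R281.S6D_664 Crest.Agent.R281.Defs_273

noncomputable section

/-! ### pull-back of a holomorphic 2-form -/

section pull_

variable {n m : ℕ} {M V : Type} [TopologicalSpace M] [TopologicalSpace V] {A : Atl n M}
  {B : Atl m V} {f : V → M}

/-- closed holomorphic 2-forms (in the form of `HkP3_508.HK.closed`) -/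
def ClH2 (σ : H2 A) : Prop :=
  ∀ i, ∀ z ∈ (A.e i).target, ∀ a b c : Fin n,
    wd (false, c) (fun w => σ.s i ((A.e i).symm w) a b) z +
      wd (false, a) (fun w => σ.s i ((A.e i).symm w) b c) z +
      wd (false, b) (fun w => σ.s i ((A.e i).symm w) c a) z = 0

/-- the matrix of `f^* σ` in the charts `j`, `i` -/
def sm2 (σ : H2 A) (B : Atl m V) (f : V → M) (j : B.ι) (i : A.ι) (y : V) :
    Matrix (Fin m) (Fin m) ℂ :=
  (Jp B A f j i y)ᵀ * σ.s i (f y) * Jp B A f j i y

theorem sm2_eq (σ : H2 A) (hf : HolMap B A f) {j : B.ι} {i i' : A.ι} {y : V}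
    (hy : y ∈ (B.e j).source) (hi : f y ∈ (A.e i).source) (hi' : f y ∈ (A.e i').source) :
    sm2 σ B f j i y = sm2 σ B f j i' y := by
  unfold sm2
  rw [← hf.Jp_right hy ⟨hi, hi'⟩, Matrix.transpose_mul, σ.tr i i' (f y) ⟨hi, hi'⟩]
  simp only [Matrix.mul_assoc]

theorem sm2_apply (σ : H2 A) (j : B.ι) (i : A.ι) (y : V) (a b : Fin m) :
    sm2 σ B f j i y a b = ∑ a', ∑ b', Jp B A f j i y a' a * σ.s i (f y) a' b' *
      Jp B A f j i y b' b := by
  simp only [sm2, Matrix.mul_apply, Matrix.transpose_apply, Finset.sum_mul]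
  rw [Finset.sum_comm]

theorem sm2_read (σ : H2 A) {j : B.ι} {i : A.ι} {z : Cn m}
    (hz : z ∈ dm B A f j i) (a b : Fin m) :
    sm2 σ B f j i ((B.e j).symm z) a b =
      ps (rd B A f j i) (fun a' b' w => σ.s i ((A.e i).symm w) a' b') a b z := by
  rw [sm2_apply, ps]
  refine Finset.sum_congr rfl fun a' _ => Finset.sum_congr rfl fun b' _ => ?_
  simp only [Jp, Matrix.of_apply, (B.e j).right_inv hz.1, Je, Crest.Agent.R273.Map_835.rd]
  rw [(A.e i).left_inv hz.2]

/-- the matrix of `f^* σ` in the chart `j` -/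
def sV (σ : H2 A) (B : Atl m V) (f : V → M) (j : B.ι) (y : V) : Matrix (Fin m) (Fin m) ℂ :=
  sm2 σ B f j (A.cover (f y)).choose y

theorem sV_eq (σ : H2 A) (hf : HolMap B A f) {j : B.ι} {i : A.ι} {y : V}
    (hy : y ∈ (B.e j).source) (hi : f y ∈ (A.e i).source) : sV σ B f j y = sm2 σ B f j i y :=
  sm2_eq σ hf hy (A.cover (f y)).choose_spec hi

theorem sV_tr (σ : H2 A) (hf : HolMap B A f) {j j' : B.ι} {y : V}
    (hy : y ∈ (B.e j).source ∩ (B.e j').source) :
    sV σ B f j y = (Jm B j j' y)ᵀ * sV σ B f j' y * Jm B j j' y := by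
  set i := (A.cover (f y)).choose with hi
  have hi' : f y ∈ (A.e i).source := (A.cover (f y)).choose_spec
  change sm2 σ B f j i y = (Jm B j j' y)ᵀ * sm2 σ B f j' i y * Jm B j j' y
  unfold sm2
  rw [← hf.Jp_left hy hi', Matrix.transpose_mul]
  simp only [Matrix.mul_assoc]

theorem sV_alt (σ : H2 A) {j : B.ι} {y : V} : (sV σ B f j y)ᵀ = - sV σ B f j y := by
  have hi' : f y ∈ (A.e (A.cover (f y)).choose).source := (A.cover (f y)).choose_spec
  unfold sV sm2
  rw [Matrix.transpose_mul, Matrix.transpose_mul, Matrix.transpose_transpose, σ.alt _ _ hi']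
  rw [Matrix.neg_mul, Matrix.mul_neg, Matrix.mul_assoc]

theorem sV_near (σ : H2 A) (hf : HolMap B A f) {j : B.ι} {i : A.ι} {z : Cn m}
    (hz : z ∈ dm B A f j i) (a b : Fin m) :
    (fun w => sV σ B f j ((B.e j).symm w) a b) =ᶠ[𝓝 z]
      ps (rd B A f j i) (fun a' b' w => σ.s i ((A.e i).symm w) a' b') a b := by
  filter_upwards [(hf.isOpen_dm j i).mem_nhds hz] with w hw
  rw [← sm2_read σ hw]
  exact congrFun (congrFun (sV_eq σ hf ((B.e j).map_target hw.1) hw.2) a) b

theorem s_diff (σ : H2 A) {i : A.ι} {z : Cn n} (hz : z ∈ (A.e i).target) (a b : Fin n) :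
    DifferentiableAt ℂ (fun w => σ.s i ((A.e i).symm w) a b) z := by
  have h := (σ.hol i a b).diffAt isOpen_univ ((A.e i).map_target hz) (mem_univ _)
  rwa [(A.e i).right_inv hz] at h

theorem sV_hol (σ : H2 A) (hf : HolMap B A f) (j : B.ι) {z : Cn m} (hz : z ∈ (B.e j).target)
    (a b : Fin m) : DifferentiableAt ℂ (fun w => sV σ B f j ((B.e j).symm w) a b) z := by
  obtain ⟨i, hi⟩ := A.cover (f ((B.e j).symm z))
  have hzd : z ∈ dm B A f j i := ⟨hz, hi⟩
  have hFz : rd B A f j i z ∈ (A.e i).target := (A.e i).map_source hi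
  refine (ps_hol ?_ (fun a' b' => s_diff σ hFz a' b') a b).congr_of_eventuallyEq
    (sV_near σ hf hzd a b)
  filter_upwards [(hf.isOpen_dm j i).mem_nhds hzd] with w hw
  exact hf.diffAt hw

theorem sV_closed {σ : H2 A} (hσ : ClH2 σ) (hf : HolMap B A f) (j : B.ι) {z : Cn m}
    (hz : z ∈ (B.e j).target) (a b c : Fin m) :
    wd (false, c) (fun w => sV σ B f j ((B.e j).symm w) a b) z +
      wd (false, a) (fun w => sV σ B f j ((B.e j).symm w) b c) z +
      wd (false, b) (fun w => sV σ B f j ((B.e j).symm w) c a) z = 0 := by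
  obtain ⟨i, hi⟩ := A.cover (f ((B.e j).symm z))
  have hzd : z ∈ dm B A f j i := ⟨hz, hi⟩
  have hFz : rd B A f j i z ∈ (A.e i).target := (A.e i).map_source hi
  rw [wd_congr (sV_near σ hf hzd a b), wd_congr (sV_near σ hf hzd b c),
    wd_congr (sV_near σ hf hzd c a)]
  refine ps_closed ?_ (fun a' b' => s_diff σ hFz a' b') (fun a' b' => ?_) (fun a' b' c' => ?_) a b c
  · filter_upwards [(hf.isOpen_dm j i).mem_nhds hzd] with w hw
    exact hf.diffAt hw
  · have h := congrFun (congrFun (σ.alt i _ ((A.e i).map_target hFz)) b') a'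
    exact h
  · exact hσ i _ hFz a' b' c'

end pull_

/-! ### families -/

section fam_

variable {N d m : ℕ} {M : Type} [TopologicalSpace M] {A : Atl N M} {U : Set (Cn m)}

/-- the charts of a family are adapted -/
def ada (F : Fam A d m U) : Ada F.B F.y where
  r _ := 1
  b _ := 0
  r_ne _ := one_ne_zero
  eq i x hx c := by
    rw [one_mul]
    show F.y x c = F.B.e i x (Fin.natAdd d c) + 0
    rw [add_zero]
    exact (F.last i x hx c).symm

theorem wt_ada (F : Fam A d m U) (i : F.B.ι) : wt (ada F) i = 1 := by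
  show ((‖(1 : ℂ)‖ ^ (2 * m) : ℝ) : ℂ) = 1
  simp

/-- the relative 1-forms `σ(∂_a, ∂_{y_c})` -/
def xi (F : Fam A d m U) (σ : H2 A) (c : Fin m) (k : F.B.ι) (v : F.V) : Fin d → ℂ :=
  fun a => sV σ F.B F.i k v (fi a) (bi c)

theorem sV_lag {F : Fam A d m U} {σ : H2 A} (hL : F.Lag σ) {k : F.B.ι} {v : F.V}
    (hv : v ∈ (F.B.e k).source) (a b : Fin d) : sV σ F.B F.i k v (fi a) (fi b) = 0 := by
  have h := hL k _ v hv (A.cover (F.i v)).choose_spec
  exact congrFun (congrFun h a) b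

theorem xi_tr {F : Fam A d m U} {σ : H2 A} (hL : F.Lag σ) (c : Fin m) {k k' : F.B.ι} {v : F.V}
    (hv : v ∈ (F.B.e k).source ∩ (F.B.e k').source) :
    xi F σ c k v = (Jf F.B k k' v)ᵀ *ᵥ xi F σ c k' v := by
  funext a
  show sV σ F.B F.i k v (fi a) (bi c) = _
  rw [sV_tr σ F.hol hv]
  simp only [Matrix.mul_apply, Matrix.transpose_apply, Jm_apply, Matrix.mulVec, dotProduct,
    Jf_apply]
  rw [Fin.sum_univ_add]
  have e1 : ∀ b : Fin d, (∑ p, F.B.J k k' v p (fi a) * sV σ F.B F.i k' v p (fi b)) *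
      F.B.J k k' v (fi b) (bi c) = 0 := by
    intro b
    rw [Fin.sum_univ_add]
    have h1 : ∀ p : Fin d, F.B.J k k' v (fi p) (fi a) * sV σ F.B F.i k' v (fi p) (fi b) = 0 :=
      fun p => by rw [sV_lag hL hv.2, mul_zero]
    have h2 : ∀ p : Fin m, F.B.J k k' v (bi p) (fi a) * sV σ F.B F.i k' v (bi p) (fi b) = 0 :=
      fun p => by rw [J_base (ada F) hv, zero_mul]
    rw [Finset.sum_congr rfl fun p _ => h1 p, Finset.sum_congr rfl fun p _ => h2 p]
    simp
  have e2 : ∀ e : Fin m, (∑ p, F.B.J k k' v p (fi a) * sV σ F.B F.i k' v p (bi e)) *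
      F.B.J k k' v (bi e) (bi c) = if e = c then
        ∑ p : Fin d, F.B.J k k' v (fi p) (fi a) * sV σ F.B F.i k' v (fi p) (bi c) else 0 := by
    intro e
    rw [J_bb (ada F) hv]
    by_cases hec : e = c
    · subst hec
      rw [if_pos rfl, if_pos rfl, Fin.sum_univ_add]
      have h2 : ∀ p : Fin m, F.B.J k k' v (bi p) (fi a) * sV σ F.B F.i k' v (bi p) (bi e) = 0 :=
        fun p => by rw [J_base (ada F) hv, zero_mul]
      rw [Finset.sum_congr rfl fun p _ => h2 p, Finset.sum_const_zero, add_zero]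
      show _ * ((1 : ℂ) / 1) = _
      rw [div_one, mul_one]
    · rw [if_neg hec, if_neg hec, mul_zero]
  rw [Finset.sum_congr rfl fun b _ => e1 b, Finset.sum_const_zero, zero_add,
    Finset.sum_congr rfl fun e _ => e2 e, Finset.sum_ite_eq' Finset.univ c, if_pos (Finset.mem_univ _)]
  rfl

theorem xi_hol (F : Fam A d m U) (σ : H2 A) (c : Fin m) (k : F.B.ι) {z : Cn (d + m)}
    (hz : z ∈ (F.B.e k).target) (a : Fin d) :
    DifferentiableAt ℂ (fun w => xi F σ c k ((F.B.e k).symm w) a) z :=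
  sV_hol σ F.hol k hz _ _

theorem xi_sm (F : Fam A d m U) (σ : H2 A) (c : Fin m) (k : F.B.ι) (a : Fin d) :
    F.B.SmAt k (fun v => xi F σ c k v a) := by
  have h : DifferentiableOn ℂ (fun w => xi F σ c k ((F.B.e k).symm w) a) (F.B.e k).target :=
    fun z hz => (xi_hol F σ c k hz a).differentiableWithinAt
  exact ((Crest.Agent.R266.SCV.contDiffOn_omega_of_differentiableOn (F.B.e k).open_target
    h).restrict_scalars ℝ).of_le le_top

theorem xi_closed {F : Fam A d m U} {σ : H2 A} (hσ : ClH2 σ) (hL : F.Lag σ) (c : Fin m)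
    (k : F.B.ι) {z : Cn (d + m)} (hz : z ∈ (F.B.e k).target) (a b : Fin d) :
    wd (false, fi b) (fun w => xi F σ c k ((F.B.e k).symm w) a) z =
      wd (false, fi a) (fun w => xi F σ c k ((F.B.e k).symm w) b) z := by
  have h := sV_closed hσ F.hol k hz (fi a) (bi c) (fi b)
  have h3 : (fun w => sV σ F.B F.i k ((F.B.e k).symm w) (fi b) (fi a)) =ᶠ[𝓝 z] fun _ => 0 := by
    filter_upwards [(F.B.e k).open_target.mem_nhds hz] with w hw
    exact sV_lag hL ((F.B.e k).map_target hw) b a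
  have h4 : wd (false, bi c) (fun w => sV σ F.B F.i k ((F.B.e k).symm w) (fi b) (fi a)) z = 0 := by
    rw [wd_congr h3]
    exact wd_const _ _ _
  have h5 : (fun w => sV σ F.B F.i k ((F.B.e k).symm w) (bi c) (fi b)) =
      fun w => (-1 : ℂ) • xi F σ c k ((F.B.e k).symm w) b := by
    funext w
    have := congrFun (congrFun (sV_alt (B := F.B) (f := F.i) σ (j := k)
      (y := (F.B.e k).symm w)) (fi b)) (bi c)
    rw [Matrix.transpose_apply, Matrix.neg_apply] at this
    rw [this, smul_eq_mul, neg_one_mul]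
    rfl
  rw [h4, add_zero, h5, wd_const_smul (-1 : ℂ) ((xi_hol F σ c k hz b).restrictScalars ℝ) _,
    smul_eq_mul, neg_one_mul, ← sub_eq_add_neg, sub_eq_zero] at h
  exact h

/-- **`ξ ξ*` is a relative closed field** -/
theorem rcf_xi {F : Fam A d m U} {σ : H2 A} (hσ : ClH2 σ) (hL : F.Lag σ) (c : Fin m) :
    RCF F.B (fun k v => Matrix.vecMulVec (xi F σ c k v) (star (xi F σ c k v))) where
  sm k a b := by
    have h1 := xi_sm F σ c k a
    have h2 : F.B.SmAt k (fun v => conj (xi F σ c k v b)) :=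
      (conjCLE : ℂ →L[ℝ] ℂ).contDiff.comp_contDiffOn (xi_sm F σ c k b)
    exact h1.mul h2
  tr k k' v hv := by
    rw [xi_tr hL c hv]
    ext a b
    simp only [Matrix.vecMulVec_apply, Matrix.mul_apply, Matrix.transpose_apply, Matrix.mulVec,
      dotProduct, Matrix.map_apply, Pi.star_apply, star_sum, star_mul', RCLike.star_def]
    rw [Finset.sum_mul_sum]
    rw [Finset.sum_comm]
    refine Finset.sum_congr rfl fun e _ => ?_
    rw [Finset.sum_mul]
    refine Finset.sum_congr rfl fun p _ => ?_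
    ring
  closed k z hz a b e := by
    have hd : ∀ a, DifferentiableAt ℝ (fun w => xi F σ c k ((F.B.e k).symm w) a) z := fun a =>
      (xi_hol F σ c k hz a).restrictScalars ℝ
    have hc : DifferentiableAt ℝ (fun w => conj (xi F σ c k ((F.B.e k).symm w) b)) z :=
      (conjCLE : ℂ →L[ℝ] ℂ).differentiableAt.comp z (hd b)
    have key : ∀ a e, wd (false, fi e) (fun w => Matrix.vecMulVec (xi F σ c k ((F.B.e k).symm w))
        (star (xi F σ c k ((F.B.e k).symm w))) a b) z =
        wd (false, fi e) (fun w => xi F σ c k ((F.B.e k).symm w) a) z *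
          conj (xi F σ c k ((F.B.e k).symm z) b) := by
      intro a e
      have h1 := wd_mul (s := (false, fi e)) (hd a) hc
      rw [wd_conj_hol (xi_hol F σ c k hz b), mul_zero, add_zero] at h1
      exact h1
    rw [key a e, key e a, xi_closed hσ hL c k hz a e]

end fam_

end

end Crest.Agent.R281.SK4_507
end

-- ▼ part R281/Lag1_479
section

/-!
# Row 281 (S0424), leaf S6-LAGALG (helper479), part 1: Lagrangian subspaces of a quaternionic metric

Conventions (508, 835): `G` Hermitian positive definite (`g_{a b̄}`), squared length of `v` is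
`∑ G a b v_a conj v_b = star v ⬝ᵥ (Gᵀ *ᵥ v)`; `S` antisymmetric; hyperkaehler relation
`S * (Gᵀ)⁻¹ * Sᴴ = c • G` (`c = 1` in `HkP3_508.HK.rel`).  `A` is an `m × n` matrix whose columns
form a frame of a subspace `F`; `gr G A = Aᵀ G conj A` is its Gram matrix, `Aᵀ S V` are
the covectors `σ(A_j, V_k)` on `F`, `dst G A V W` is the square of the distance to `F` (polarised).

* `schur_eq`   : `F` Lagrangian of half dimension: the Schur complement (square of the distance to
  `F`) of the vectors `V` is `c⁻¹` times the dual form of `G|_F` on the covectors `Aᵀ S V`;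
* `schur_ge`   : the same with `≥` for an arbitrary isotropic `F`;
* `det_frame`  : determinant of `G` on `F + V`; `det_one`: one vector, cofactor form;
* `le_lift`    : `|ι_v σ|²_{G|F} ≤ c |v|²`, `F` isotropic.
-/

set_option autoImplicit false
set_option linter.unusedSectionVars false

open Matrix
open scoped ComplexOrder ComplexConjugate

namespace Crest.Agent.R281.Lag_479

noncomputable section

variable {m n p q : Type*} [Fintype m] [DecidableEq m] [Fintype n] [DecidableEq n]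
  [Fintype p] [DecidableEq p] [Fintype q] [DecidableEq q]

/-- the Gram matrix of the frame `A` in the convention `g_{a b̄}`: `gr G A j k = ⟨A_j, A_k⟩` -/
def gr (G : Matrix m m ℂ) (A : Matrix m n ℂ) : Matrix n n ℂ := Aᵀ * G * (Aᵀ)ᴴ

/-- the square of the distance to the span of `A` (polarised, convention `star v ⬝ᵥ Gᵀ w`) -/
def dst (G : Matrix m m ℂ) (A : Matrix m n ℂ) (V : Matrix m p ℂ) (W : Matrix m q ℂ) :
    Matrix p q ℂ :=
  Vᴴ * Gᵀ * W - Vᴴ * Gᵀ * A * ((gr G A)ᵀ)⁻¹ * (Aᴴ * Gᵀ * W)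

theorem gr_transpose (G : Matrix m m ℂ) (A : Matrix m n ℂ) : (gr G A)ᵀ = Aᴴ * Gᵀ * A := by
  rw [gr, transpose_mul, transpose_mul, transpose_transpose, Matrix.mul_assoc]
  rfl


theorem gr_posDef {G : Matrix m m ℂ} (hG : G.PosDef) {A : Matrix m n ℂ}
    (hA : Function.Injective A.mulVec) : (gr G A).PosDef := by
  rw [← PosDef.transpose_iff, gr_transpose]
  exact hG.transpose.conjTranspose_mul_mul_same hA

/-- the conjugate frame `(Gᵀ)⁻¹ Sᴴ conj A` of the orthogonal complement -/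
def comp (G S : Matrix m m ℂ) (A : Matrix m n ℂ) : Matrix m n ℂ := (Gᵀ)⁻¹ * Sᴴ * (Aᵀ)ᴴ

section
variable {G S : Matrix m m ℂ} {c : ℝ} {A : Matrix m n ℂ}

theorem isUnit_T (hG : G.PosDef) : IsUnit (Gᵀ).det :=
  (Matrix.isUnit_iff_isUnit_det _).1 hG.transpose.isUnit

theorem herm_T (hG : G.PosDef) : (Gᵀ)ᴴ = Gᵀ := hG.transpose.isHermitian

theorem comp_H (hG : G.PosDef) : (comp G S A)ᴴ = Aᵀ * S * (Gᵀ)⁻¹ := by
  rw [comp, conjTranspose_mul, conjTranspose_mul, conjTranspose_conjTranspose,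
    conjTranspose_conjTranspose, conjTranspose_nonsing_inv, herm_T hG, Matrix.mul_assoc]

theorem comp_orth (hG : G.PosDef) (hL : Aᵀ * S * A = 0) : Aᴴ * Gᵀ * comp G S A = 0 := by
  have h1 : Gᵀ * comp G S A = Sᴴ * (Aᵀ)ᴴ := by
    rw [comp, Matrix.mul_assoc, Matrix.mul_nonsing_inv_cancel_left _ _ (isUnit_T hG)]
  rw [Matrix.mul_assoc, h1, ← conjTranspose_mul, ← conjTranspose_mul, hL, conjTranspose_zero]

theorem comp_orth' (hG : G.PosDef) (hL : Aᵀ * S * A = 0) : (comp G S A)ᴴ * Gᵀ * A = 0 := by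
  rw [comp_H hG, Matrix.mul_assoc (Aᵀ * S), Matrix.nonsing_inv_mul _ (isUnit_T hG), Matrix.mul_one,
    hL]

theorem comp_gram (hG : G.PosDef) (hR : S * (Gᵀ)⁻¹ * Sᴴ = (c : ℂ) • G) :
    (comp G S A)ᴴ * Gᵀ * comp G S A = (c : ℂ) • gr G A := by
  have h1 : Gᵀ * comp G S A = Sᴴ * (Aᵀ)ᴴ := by
    rw [comp, Matrix.mul_assoc, Matrix.mul_nonsing_inv_cancel_left _ _ (isUnit_T hG)]
  have h2 : Aᵀ * S * (Gᵀ)⁻¹ * (Sᴴ * (Aᵀ)ᴴ) = Aᵀ * (S * (Gᵀ)⁻¹ * Sᴴ) * (Aᵀ)ᴴ := by
    simp only [Matrix.mul_assoc]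
  rw [Matrix.mul_assoc, h1, comp_H hG, h2, hR, gr, Matrix.mul_smul, Matrix.smul_mul]

theorem comp_cov (hG : G.PosDef) (V : Matrix m p ℂ) : (comp G S A)ᴴ * Gᵀ * V = Aᵀ * S * V := by
  rw [comp_H hG, Matrix.mul_assoc (Aᵀ * S), Matrix.nonsing_inv_mul _ (isUnit_T hG), Matrix.mul_one]

theorem cov_comp (hG : G.PosDef) (V : Matrix m p ℂ) :
    Vᴴ * Gᵀ * comp G S A = (Aᵀ * S * V)ᴴ := by
  rw [← comp_cov (G := G) (S := S) (A := A) hG V, conjTranspose_mul, conjTranspose_mul, herm_T hG,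
    conjTranspose_conjTranspose, Matrix.mul_assoc]

/-- the two blocks resolve the identity when `A` is a frame of a half dimensional subspace -/
theorem resolve (hG : G.PosDef) (hc : 0 < c) (hR : S * (Gᵀ)⁻¹ * Sᴴ = (c : ℂ) • G)
    (hA : Function.Injective A.mulVec) (hL : Aᵀ * S * A = 0)
    (hcard : Fintype.card m = 2 * Fintype.card n) :
    A * ((gr G A)ᵀ)⁻¹ * (Aᴴ * Gᵀ) +
      comp G S A * ((c : ℂ)⁻¹ • (gr G A)⁻¹) * ((comp G S A)ᴴ * Gᵀ) = 1 := by
  set D := (gr G A)ᵀ with hD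
  set B := comp G S A with hB
  have hDu : IsUnit D.det := (Matrix.isUnit_iff_isUnit_det _).1 (gr_posDef hG hA).transpose.isUnit
  have hCu : IsUnit (gr G A).det := (Matrix.isUnit_iff_isUnit_det _).1 (gr_posDef hG hA).isUnit
  have hc0 : (c : ℂ) ≠ 0 := by exact_mod_cast hc.ne'
  have key : fromRows (D⁻¹ * (Aᴴ * Gᵀ)) (((c : ℂ)⁻¹ • (gr G A)⁻¹) * (Bᴴ * Gᵀ)) *
      fromCols A B = 1 := by
    rw [fromRows_mul_fromCols]
    have e1 : D⁻¹ * (Aᴴ * Gᵀ) * A = 1 := by
      rw [Matrix.mul_assoc, ← gr_transpose, ← hD, Matrix.nonsing_inv_mul _ hDu]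
    have e2 : D⁻¹ * (Aᴴ * Gᵀ) * B = 0 := by
      rw [Matrix.mul_assoc, comp_orth hG hL, Matrix.mul_zero]
    have e3 : (c : ℂ)⁻¹ • (gr G A)⁻¹ * (Bᴴ * Gᵀ) * A = 0 := by
      rw [Matrix.mul_assoc, comp_orth' hG hL, Matrix.mul_zero]
    have e4 : (c : ℂ)⁻¹ • (gr G A)⁻¹ * (Bᴴ * Gᵀ) * B = 1 := by
      rw [Matrix.mul_assoc, comp_gram hG hR, Matrix.smul_mul, Matrix.mul_smul, smul_smul,
        inv_mul_cancel₀ hc0, one_smul, Matrix.nonsing_inv_mul _ hCu]
    rw [e1, e2, e3, e4, fromBlocks_one]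
  have hce : Fintype.card (n ⊕ n) = Fintype.card m := by
    rw [Fintype.card_sum, hcard]; ring
  have key2 := (Matrix.mul_eq_one_comm_of_equiv (Fintype.equivOfCardEq hce)).1 key
  rw [fromCols_mul_fromRows] at key2
  rw [← key2]
  simp only [Matrix.mul_assoc]

/-- **(L1)** the square of the distance to a Lagrangian subspace `F` is the dual norm of the
covector `ι_v σ|_F`, up to the constant `c` -/
theorem schur_eq (hG : G.PosDef) (hc : 0 < c) (hR : S * (Gᵀ)⁻¹ * Sᴴ = (c : ℂ) • G)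
    (hA : Function.Injective A.mulVec) (hL : Aᵀ * S * A = 0)
    (hcard : Fintype.card m = 2 * Fintype.card n) (V : Matrix m p ℂ) (W : Matrix m q ℂ) :
    dst G A V W = (c : ℂ)⁻¹ • ((Aᵀ * S * V)ᴴ * (gr G A)⁻¹ * (Aᵀ * S * W)) := by
  have h := congrArg (fun X => Vᴴ * Gᵀ * X * W) (resolve hG hc hR hA hL hcard)
  simp only [Matrix.mul_add, Matrix.add_mul, Matrix.mul_one] at h
  have e1 : Vᴴ * Gᵀ * (A * ((gr G A)ᵀ)⁻¹ * (Aᴴ * Gᵀ)) * W =
      Vᴴ * Gᵀ * A * ((gr G A)ᵀ)⁻¹ * (Aᴴ * Gᵀ * W) := by simp only [Matrix.mul_assoc]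
  have e2 : Vᴴ * Gᵀ * (comp G S A * ((c : ℂ)⁻¹ • (gr G A)⁻¹) * ((comp G S A)ᴴ * Gᵀ)) * W =
      (c : ℂ)⁻¹ • ((Aᵀ * S * V)ᴴ * (gr G A)⁻¹ * (Aᵀ * S * W)) := by
    rw [← comp_cov (G := G) (S := S) (A := A) hG W, ← cov_comp (G := G) (S := S) (A := A) hG V]
    simp only [Matrix.mul_assoc, Matrix.mul_smul, Matrix.smul_mul]
  rw [e1, e2] at h
  rw [dst, ← h, add_sub_cancel_left]









/-- determinant of `G` on `F + V`: Schur complement -/
theorem det_frame (hG : G.PosDef) (hA : Function.Injective A.mulVec) (V : Matrix m p ℂ) :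
    (gr G (fromCols A V)).det = (gr G A).det * (dst G A V V).det := by
  have hDp : ((gr G A)ᵀ).PosDef := (gr_posDef hG hA).transpose
  let _ : Invertible ((gr G A)ᵀ) := hDp.isUnit.invertible
  have e : (gr G (fromCols A V))ᵀ =
      fromBlocks ((gr G A)ᵀ) (Aᴴ * Gᵀ * V) (Vᴴ * Gᵀ * A) (Vᴴ * Gᵀ * V) := by
    rw [gr_transpose, gr_transpose, conjTranspose_fromCols_eq_fromRows_conjTranspose,
      fromRows_mul, fromRows_mul_fromCols]
  rw [← det_transpose, e, det_fromBlocks₁₁, invOf_eq_nonsing_inv, det_transpose, dst]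


/-! ### one vector -/

/-- **(L1), one vector** -/
theorem one_eq (hG : G.PosDef) (hc : 0 < c) (hR : S * (Gᵀ)⁻¹ * Sᴴ = (c : ℂ) • G)
    (hA : Function.Injective A.mulVec) (hL : Aᵀ * S * A = 0)
    (hcard : Fintype.card m = 2 * Fintype.card n) (v : m → ℂ) :
    dst G A (replicateCol Unit v) (replicateCol Unit v) () () =
      (c : ℂ)⁻¹ * (star ((Aᵀ * S) *ᵥ v) ⬝ᵥ ((gr G A)⁻¹ *ᵥ ((Aᵀ * S) *ᵥ v))) := by
  rw [schur_eq hG hc hR hA hL hcard, Matrix.smul_apply, smul_eq_mul]
  congr 1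
  rw [← replicateCol_mulVec, Matrix.mul_assoc, ← replicateCol_mulVec, conjTranspose_replicateCol,
    replicateRow_mul_replicateCol_apply]

/-- **(L3), one vector, cofactor form**: `det G|_{F + v} = c⁻¹ β* adj(G|_F) β`, `β = ι_v σ|_F` -/
theorem det_one (hG : G.PosDef) (hc : 0 < c) (hR : S * (Gᵀ)⁻¹ * Sᴴ = (c : ℂ) • G)
    (hA : Function.Injective A.mulVec) (hL : Aᵀ * S * A = 0)
    (hcard : Fintype.card m = 2 * Fintype.card n) (v : m → ℂ) :
    (gr G (fromCols A (replicateCol Unit v))).det =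
      (c : ℂ)⁻¹ * (star ((Aᵀ * S) *ᵥ v) ⬝ᵥ ((gr G A).adjugate *ᵥ ((Aᵀ * S) *ᵥ v))) := by
  have hu : IsUnit (gr G A).det := (Matrix.isUnit_iff_isUnit_det _).1 (gr_posDef hG hA).isUnit
  rw [det_frame hG hA, det_unique (dst G A (replicateCol Unit v) (replicateCol Unit v))]
  have h := one_eq hG hc hR hA hL hcard v
  change (gr G A).det * dst G A (replicateCol Unit v) (replicateCol Unit v) () () = _
  rw [h, Matrix.inv_def, Matrix.smul_mulVec, dotProduct_smul, smul_eq_mul]
  have h2 : (gr G A).det * Ring.inverse (gr G A).det = 1 := Ring.mul_inverse_cancel _ hu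
  linear_combination ((c : ℂ)⁻¹ * (star ((Aᵀ * S) *ᵥ v) ⬝ᵥ
    ((gr G A).adjugate *ᵥ ((Aᵀ * S) *ᵥ v)))) * h2


end

end

end Crest.Agent.R281.Lag_479
end

-- ▼ part R281/SK5_507
section

/-!
# R281 (S0424), S6-SK (helper507), part 5: the two-Yau identity on disc families

* `det_kah`    : `det K_V = c⁻¹ tr (adj (K_F) ξ ξ*)` for a Lagrangian family over a disc,
  `σ (Kᵀ)⁻¹ σ* = c K`
* `two_vol`    : `c' ∫ χ(y) det K'_V = c ∫ χ(y) det K_V` when `K'_V = K_V + ∂∂̄ H`
-/

set_option autoImplicit false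
set_option linter.unusedSectionVars false

open Set Filter Topology Complex Function
open scoped ContDiff Matrix ComplexConjugate ComplexOrder

namespace Crest.Agent.R281.SK5_507

open Crest.Agent.R275 Crest.Agent.R275.Geo Crest.Agent.R275.Core144 Crest.Agent.R275.EDR890
open Crest.Agent.R275.C1d194
open Crest.Agent.R273.Defs_333 Crest.Agent.R273.Hess_333 Crest.Agent.R273.HessB_333
open Crest.Agent.R273.HM_333 Crest.Agent.R273.Kah_333 Crest.Agent.R273.Vol_333
open Crest.Agent.R273.StokesV_332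
open Crest.Agent.R273.Map_835 Crest.Agent.R273.KahI_645
open Crest.Agent.R281.SK1_507 Crest.Agent.R281.SK2_507 Crest.Agent.R281.SK3_507
open Crest.Agent.R281.SK4_507
open Crest.Agent.R281.S6D_664 Crest.Agent.R281.Defs_273 Crest.Agent.R281.Lag_479

noncomputable section

/-! ### linear algebra -/

section alg_

variable {N n : ℕ}

/-- the equivalence `Fin n ⊕ Unit ≃ Fin (n + 1)` -/
def eU (n : ℕ) : Fin n ⊕ Unit ≃ Fin (n + 1) :=
  (Equiv.sumCongr (Equiv.refl _) (Equiv.equivPUnit (Fin 1)).symm).trans finSumFinEquiv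


theorem eU_inr (u : Unit) : eU n (Sum.inr u) = bi (d := n) (0 : Fin 1) := by
  show finSumFinEquiv (Sum.inr _) = _
  rw [finSumFinEquiv_apply_right]
  congr 1

/-- `det (Jᵀ G J̄) = c⁻¹ tr (adj (J_fᵀ G J̄_f) ξ ξ*)` -/
theorem det_pull_eq {G S : Matrix (Fin (2 * n)) (Fin (2 * n)) ℂ}
    {J : Matrix (Fin (2 * n)) (Fin (n + 1)) ℂ} {c : ℝ} (hG : G.PosDef) (hc : 0 < c)
    (hR : S * (Gᵀ)⁻¹ * Sᴴ = (c : ℂ) • G) (hJ : Injective J.mulVec)
    (hL : ∀ a b : Fin n, (Jᵀ * S * J) (fi a) (fi b) = 0) :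
    (Jᵀ * G * J.map conj).det = (c : ℂ)⁻¹ *
      (((Jᵀ * G * J.map conj).submatrix fi fi).adjugate *
        Matrix.vecMulVec (fun a => (Jᵀ * S * J) (fi a) (bi 0))
          (star fun a => (Jᵀ * S * J) (fi a) (bi 0))).trace := by
  have hmc : J.map conj = (Jᵀ)ᴴ := by
    ext a b
    simp [Matrix.conjTranspose_apply]
  set A0 : Matrix (Fin (2 * n)) (Fin n) ℂ := J.submatrix id fi with hA0
  set v : Fin (2 * n) → ℂ := fun a => J a (bi 0) with hv
  have e1 : Matrix.fromCols A0 (Matrix.replicateCol Unit v) = J.submatrix id (eU n) := by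
    ext a b
    rcases b with b | b
    · rfl
    · show v a = J a (eU n (Sum.inr b))
      rw [eU_inr]
  have e2 : (Jᵀ * G * J.map conj).det = (gr G (Matrix.fromCols A0 (Matrix.replicateCol Unit v))).det := by
    rw [← Matrix.det_submatrix_equiv_self (eU n) (Jᵀ * G * J.map conj)]
    congr 1
    rw [e1, gr, hmc]
    ext a b
    simp only [Matrix.submatrix_apply, Matrix.mul_apply, Matrix.transpose_apply,
      Matrix.conjTranspose_apply, id_eq]
  have hA : Injective A0.mulVec := by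
    intro x x' hxx
    have h1 : ∀ x : Fin n → ℂ, A0 *ᵥ x = J *ᵥ (Fin.addCases x (fun _ => 0) : Fin (n + 1) → ℂ) := by
      intro x
      funext a
      simp only [Matrix.mulVec, dotProduct]
      rw [Fin.sum_univ_add]
      simp [hA0, fi]
    have h1' : (A0.mulVec x : Fin (2 * n) → ℂ) = A0.mulVec x' := hxx
    rw [h1, h1] at h1'
    have h2 := hJ h1'
    funext a
    have h3 := congrFun h2 (fi a)
    simpa [fi] using h3
  have hL' : A0ᵀ * S * A0 = 0 := by
    ext a b
    have := hL a b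
    simpa [Matrix.mul_apply, hA0] using this
  have hcard : Fintype.card (Fin (2 * n)) = 2 * Fintype.card (Fin n) := by simp
  have hbeta : (A0ᵀ * S) *ᵥ v = fun a => (Jᵀ * S * J) (fi a) (bi 0) := by
    funext a
    simp only [Matrix.mulVec, dotProduct, Matrix.mul_apply, Matrix.transpose_apply, hA0,
      Matrix.submatrix_apply, id_eq, hv]
  have hgr : gr G A0 = (Jᵀ * G * J.map conj).submatrix fi fi := by
    rw [gr, hmc]
    ext a b
    simp only [Matrix.submatrix_apply, Matrix.mul_apply, Matrix.transpose_apply,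
      Matrix.conjTranspose_apply, id_eq, hA0]
  rw [e2, det_one hG hc hR hA hL' hcard v, hbeta, hgr]
  congr 1
  set C := ((Jᵀ * G * J.map conj).submatrix (fi (d := n) (m := 1)) fi).adjugate with hC
  set ξ : Fin n → ℂ := fun a => (Jᵀ * S * J) (fi a) (bi 0) with hξ
  simp only [Matrix.trace, Matrix.diag_apply, Matrix.mul_apply, Matrix.vecMulVec_apply,
    dotProduct, Matrix.mulVec]
  refine Finset.sum_congr rfl fun a _ => ?_
  rw [Finset.mul_sum]
  refine Finset.sum_congr rfl fun b _ => ?_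
  ring

end alg_

section fam_

variable {n : ℕ} {M : Type} [TopologicalSpace M] {A : Atl (2 * n) M} {U : Set (Cn 1)}

/-- **(S1)** on a Lagrangian family over a disc -/
theorem det_kah {F : Fam A n 1 U} {σ : H2 A} (hL : F.Lag σ) (K : Kah A) {c : ℝ} (hc : 0 < c)
    (hR : ∀ i, ∀ x ∈ (A.e i).source, σ.s i x * ((K.g i x)ᵀ)⁻¹ * (σ.s i x)ᴴ = (c : ℂ) • K.g i x)
    {k : F.B.ι} {v : F.V} (hv : v ∈ (F.B.e k).source) :
    ((F.kah K).g k v).det = (c : ℂ)⁻¹ * ((fib (F.kah K).g k v).adjugate *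
      Matrix.vecMulVec (xi F σ 0 k v) (star (xi F σ 0 k v))).trace := by
  obtain ⟨i, hi⟩ := A.cover (F.i v)
  have hg : (F.kah K).g k v = (Jp F.B A F.i k i v)ᵀ * K.g i (F.i v) * (Jp F.B A F.i k i v).map conj :=
    pullI_g K F.hol F.imm hv hi
  have hx : xi F σ 0 k v = fun a =>
      ((Jp F.B A F.i k i v)ᵀ * σ.s i (F.i v) * Jp F.B A F.i k i v) (fi a) (bi 0) := by
    funext a
    show sV σ F.B F.i k v (fi a) (bi 0) = _
    rw [sV_eq σ F.hol hv hi]
    rfl
  have hJ : Injective (Jp F.B A F.i k i v).mulVec := by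
    intro w w' hww
    have h3 := F.imm k i v hv hi
    have h4 : ∀ w : Fin (n + 1) → ℂ, (Jp F.B A F.i k i v) *ᵥ w =
        (fderiv ℂ (Crest.Agent.R273.Map_835.rd F.B A F.i k i) (F.B.e k v) (WithLp.toLp 2 w) :
          Fin (2 * n) → ℂ) := by
      intro w
      funext b
      rw [mt_apply]
      rfl
    have h5 : fderiv ℂ (Crest.Agent.R273.Map_835.rd F.B A F.i k i) (F.B.e k v) (WithLp.toLp 2 w) =
        fderiv ℂ (Crest.Agent.R273.Map_835.rd F.B A F.i k i) (F.B.e k v) (WithLp.toLp 2 w') := by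
      ext b
      exact congrFun ((h4 w).symm.trans (Eq.trans hww (h4 w'))) b
    exact congrArg (WithLp.ofLp) (h3 h5)
  have hLag : ∀ a b : Fin n,
      ((Jp F.B A F.i k i v)ᵀ * σ.s i (F.i v) * Jp F.B A F.i k i v) (fi a) (fi b) = 0 := fun a b =>
    congrFun (congrFun (hL k i v hv hi) a) b
  have h := det_pull_eq (K.pos i _ hi) hc (hR i _ hi) hJ hLag
  have hf : fib (F.kah K).g k v = ((Jp F.B A F.i k i v)ᵀ * K.g i (F.i v) *
      (Jp F.B A F.i k i v).map conj).submatrix fi fi := by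
    unfold fib
    rw [hg]
  rw [hf, hg, hx]
  exact h

/-- **(S3), the two-Yau identity on a disc family**, tested against `χ(y)` -/
theorem two_vol {F : Fam A n 1 U} {σ : H2 A} (hσ : ClH2 σ) (hL : F.Lag σ) {K K' : Kah A} {c c' : ℝ}
    (hc : 0 < c) (hc' : 0 < c')
    (hR : ∀ i, ∀ x ∈ (A.e i).source, σ.s i x * ((K.g i x)ᵀ)⁻¹ * (σ.s i x)ᴴ = (c : ℂ) • K.g i x)
    (hR' : ∀ i, ∀ x ∈ (A.e i).source, σ.s i x * ((K'.g i x)ᵀ)⁻¹ * (σ.s i x)ᴴ = (c' : ℂ) • K'.g i x)
    {H : F.V → ℝ} (hH : F.B.Sm H)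
    (he : ∀ k, ∀ v ∈ (F.B.e k).source, (F.kah K').g k v = (F.kah K).g k v + hsf F.B H k v)
    {χ : Cn 1 → ℂ} (hχ : ContDiff ℝ ∞ χ) {C : Set F.V} (hC : IsCompact C)
    (h0 : ∀ v ∉ C, χ (F.y v) = 0) :
    intD F.P (fun k v => χ (F.y v) * ((F.kah K').g k v).det) =
      ((c / c' : ℝ) : ℂ) * intD F.P (fun k v => χ (F.y v) * ((F.kah K).g k v).det) := by
  have hS := rcf_xi hσ hL (0 : Fin 1)
  have hg : RCF F.B (fib (F.kah K).g) := rcf_fib (ada F) (Crest.Agent.R273.Green_5.kah_cf (F.kah K))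
  have hm := rmixed F.P (ada F) hg hS (bas_comp (ada F) hχ) hH hC h0
  simp only [wt_ada, mul_one] at hm
  have h1 : intD F.P (fun k v => χ (F.y v) * ((F.kah K').g k v).det) =
      (c' : ℂ)⁻¹ * intD F.P (fun k v => χ (F.y v) * ((fib (F.kah K).g k v +
        fib (hsf F.B H) k v).adjugate *
          Matrix.vecMulVec (xi F σ 0 k v) (star (xi F σ 0 k v))).trace) := by
    rw [← intD_smul F.P (c' : ℂ)⁻¹ hC (fun k v _ hvC => by
      show χ (F.y v) * _ = 0
      rw [h0 v hvC, zero_mul])]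
    refine intD_congr F.P fun k v hv => ?_
    have e : fib (F.kah K').g k v = fib (F.kah K).g k v + fib (hsf F.B H) k v := by
      unfold fib
      rw [he k v hv]
      rfl
    rw [det_kah hL K' hc' hR' hv, e]
    ring
  have h2 : intD F.P (fun k v => χ (F.y v) * ((F.kah K).g k v).det) =
      (c : ℂ)⁻¹ * intD F.P (fun k v => χ (F.y v) * ((fib (F.kah K).g k v).adjugate *
          Matrix.vecMulVec (xi F σ 0 k v) (star (xi F σ 0 k v))).trace) := by
    rw [← intD_smul F.P (c : ℂ)⁻¹ hC (fun k v _ hvC => by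
      show χ (F.y v) * _ = 0
      rw [h0 v hvC, zero_mul])]
    refine intD_congr F.P fun k v hv => ?_
    rw [det_kah hL K hc hR hv]
    ring
  rw [h1, h2, hm]
  have hc0 : (c : ℂ) ≠ 0 := by exact_mod_cast hc.ne'
  have hc0' : (c' : ℂ) ≠ 0 := by exact_mod_cast hc'.ne'
  push_cast
  field_simp

end fam_

end

end Crest.Agent.R281.SK5_507
end

-- ▼ part R281/SK6_507
section

/-!
# R281 (S0424), S6-SK (helper507), part 6: the literal output `SKOut`

* `lag_of_leafy` : families whose fibres are leaves of an `LFib` are Lagrangian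
* `relH`, `sm_relH`, `kah_relH` : on a leafy family `K'_V = K_V + ∂∂̄ H`, `H = φ - ρ/k`
* `skOut`        : two hyperkaehler metrics `K`, `K' = K + θ` for `σ`, `r σ` ⟹ `SKOut K o h`
-/

set_option autoImplicit false
set_option linter.unusedSectionVars false

open Set Filter Topology Complex Function
open scoped ContDiff Matrix ComplexConjugate ComplexOrder

namespace Crest.Agent.R281.SK6_507

open Crest.Agent.R275 Crest.Agent.R275.Geo Crest.Agent.R275.Core144 Crest.Agent.R275.EDR890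
open Crest.Agent.R275.GC293 Crest.Agent.R275.C1d194
open Crest.Agent.R273.Defs_333 Crest.Agent.R273.Hess_333 Crest.Agent.R273.HessB_333
open Crest.Agent.R273.HM_333 Crest.Agent.R273.Kah_333 Crest.Agent.R273.Vol_333
open Crest.Agent.R273.StokesV_332
open Crest.Agent.R273.Map_835 Crest.Agent.R273.KahI_645
open Crest.Agent.R281.SK4_507 Crest.Agent.R281.SK5_507
open Crest.Agent.R281.S6D_664 Crest.Agent.R281.Defs_273 Crest.Agent.R281.D6_986
open Crest.Agent.R281.Har_331 (hsf_pull hsf_log_nsM sm_pull)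
open Crest.Agent.R281.Glob1_484 (nsM nsM_eq sm_nsM)
open Crest.Agent.R281.HkP3_508 Crest.Agent.R281.HkP2_508
open Crest.Agent.R281.Fib4_425 (Tst)

noncomputable section

variable {n : ℕ} {M : Type} [TopologicalSpace M] {A : Atl (2 * n) M} {σ : HSymp A}

/-- **leafy families are Lagrangian** -/
theorem lag_of_leafy {F0 : LFib A σ} {m : ℕ} {D : Set (Cn m)} {F : Fam A n m D}
    (h : Leafy F0 F) : F.Lag σ.toH2 := by
  intro j i v hj hi
  obtain ⟨hv, hT⟩ := h v
  obtain ⟨τ, hτ, -, hlag⟩ := F0.tube (F.i v) hv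
  set w0 := F.B.e j v with hw0
  have hw0t : w0 ∈ (F.B.e j).target := (F.B.e j).map_source hj
  have hsy : (F.B.e j).symm w0 = v := (F.B.e j).left_inv hj
  have hdm : w0 ∈ dm F.B A F.i j i := mem_dm hj hi
  have h1 : DifferentiableAt ℂ (Crest.Agent.R273.Map_835.rd F.B A F.i j i) w0 := F.hol.diffAt hdm
  have hrd0 : Crest.Agent.R273.Map_835.rd F.B A F.i j i w0 = A.e i (F.i v) := by
    show A.e i (F.i ((F.B.e j).symm w0)) = _
    rw [hsy]
  have h3 : DifferentiableAt ℂ (fun z => τ.f ((A.e i).symm z))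
      (Crest.Agent.R273.Map_835.rd F.B A F.i j i w0) := by
    rw [hrd0]
    have ho : IsOpen ((A.e i).target ∩ (A.e i).symm ⁻¹' τ.W) :=
      (A.e i).isOpen_inter_preimage_symm τ.oW
    refine (τ.hol i).differentiableAt (ho.mem_nhds ⟨(A.e i).map_source hi, ?_⟩)
    rw [mem_preimage, (A.e i).left_inv hi]
    exact hτ
  -- the differential of `τ.f ∘ i` vanishes in the fibre directions
  have hker : ∀ a : Fin n, fderiv ℂ (fun z => τ.f ((A.e i).symm z)) (A.e i (F.i v))
      (fderiv ℂ (Crest.Agent.R273.Map_835.rd F.B A F.i j i) w0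
        (EuclideanSpace.single (Fin.castAdd m a) 1)) = 0 := by
    intro a
    set e : Cn (n + m) := EuclideanSpace.single (Fin.castAdd m a) 1 with he
    set g : Cn (n + m) → Cn n := fun w => τ.f ((A.e i).symm
      (Crest.Agent.R273.Map_835.rd F.B A F.i j i w)) with hg
    have hgd : HasFDerivAt g ((fderiv ℂ (fun z => τ.f ((A.e i).symm z)) (A.e i (F.i v))).comp
        (fderiv ℂ (Crest.Agent.R273.Map_835.rd F.B A F.i j i) w0)) w0 := by
      have := HasFDerivAt.comp w0 (g := fun z => τ.f ((A.e i).symm z)) h3.hasFDerivAt h1.hasFDerivAt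
      rwa [hrd0] at this
    have hline : HasDerivAt (fun c : ℂ => w0 + c • e) e 0 := by
      simpa using ((hasDerivAt_id (0 : ℂ)).smul_const e).const_add w0
    have hcomp : HasDerivAt (fun c : ℂ => g (w0 + c • e)) ((fderiv ℂ (fun z => τ.f ((A.e i).symm z))
        (A.e i (F.i v))) (fderiv ℂ (Crest.Agent.R273.Map_835.rd F.B A F.i j i) w0 e)) 0 := by
      have h5 : HasFDerivAt g ((fderiv ℂ (fun z => τ.f ((A.e i).symm z)) (A.e i (F.i v))).comp
        (fderiv ℂ (Crest.Agent.R273.Map_835.rd F.B A F.i j i) w0)) (w0 + (0 : ℂ) • e) := by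
        rw [zero_smul, add_zero]; exact hgd
      exact h5.comp_hasDerivAt (0 : ℂ) hline
    have hconst : (fun c : ℂ => g (w0 + c • e)) =ᶠ[𝓝 0] fun _ => τ.f (F.i v) := by
      have hc : ContinuousAt (fun c : ℂ => w0 + c • e) 0 := hline.continuousAt
      have hc0 : dm F.B A F.i j i ∈ 𝓝 (w0 + (0 : ℂ) • e) := by
        rw [zero_smul, add_zero]
        exact (F.hol.isOpen_dm j i).mem_nhds hdm
      filter_upwards [hc.preimage_mem_nhds hc0] with c hcd
      have hcd' : w0 + c • e ∈ dm F.B A F.i j i := hcd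
      set v' := (F.B.e j).symm (w0 + c • e) with hv'
      have hs' : v' ∈ (F.B.e j).source := (F.B.e j).map_target hcd'.1
      have hy : F.y v' = F.y v := by
        ext b
        rw [← F.last j v' hs' b, ← F.last j v hj b, hv', (F.B.e j).right_inv hcd'.1]
        show (w0 + c • e) (Fin.natAdd n b) = w0 (Fin.natAdd n b)
        have : e (Fin.natAdd n b) = 0 := by
          rw [he, PiLp.single_apply, if_neg]
          intro hh
          have := congrArg Fin.val hh
          simp at this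
          omega
        rw [PiLp.add_apply, PiLp.smul_apply, this, smul_zero, add_zero]
      have hmem : F.i v' ∈ F0.Tf (F.i v) := by
        rw [hT]
        exact ⟨v', hy, rfl⟩
      rw [τ.fib _ hτ] at hmem
      show τ.f ((A.e i).symm (A.e i (F.i v'))) = _
      rw [(A.e i).left_inv hcd'.2]
      exact hmem.2
    exact (hcomp.congr_of_eventuallyEq hconst.symm).unique (hasDerivAt_const _ _)
  ext a b
  have h5 := hlag i (F.i v) ⟨hi, hτ⟩ _ _ (hker a) (hker b)
  have h6 : (fb ((Jp F.B A F.i j i v)ᵀ * σ.s i (F.i v) * Jp F.B A F.i j i v)) a b =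
      ∑ p, ∑ q, (fderiv ℂ (Crest.Agent.R273.Map_835.rd F.B A F.i j i) (F.B.e j v)
        (EuclideanSpace.single (Fin.castAdd m a) 1)) p * σ.s i (F.i v) p q *
        (fderiv ℂ (Crest.Agent.R273.Map_835.rd F.B A F.i j i) (F.B.e j v)
        (EuclideanSpace.single (Fin.castAdd m b) 1)) q := by
    simp only [fb, Matrix.submatrix_apply, Matrix.mul_apply, Matrix.transpose_apply, Jp,
      Matrix.of_apply, Finset.sum_mul]
    rw [Finset.sum_comm]
  rw [h6, h5]
  rfl

/-! ### the potential of `K' - K` on a leafy family -/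

section relH_

variable {L : LB A} {d m : ℕ} {U : Set (Cn m)}

/-- `- log |s|²_{h^k} / k` on a family -/
def relH (h : HM L) (k : ℕ) (s : A.ι → M → ℂ) {V : Type} (i : V → M) (v : V) : ℝ :=
  (-(1 / (k : ℝ))) * Real.log (nsM (pow h k) s (i v))

variable {h : HM L} {k : ℕ} {s : A.ι → M → ℂ}

theorem nsM_pos' (h : HM L) {s : A.ι → M → ℂ} {x : M}
    (h0 : ∀ i, x ∈ (A.e i).source → s i x ≠ 0) : 0 < nsM h s x := by
  obtain hx := Crest.Agent.R273.FIb0_597.mem_ch A x
  have h1 := h0 _ hx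
  have h2 := h.pos _ x hx
  have h3 : 0 < ‖s (Crest.Agent.R273.FIb0_597.ch A x) x‖ := norm_pos_iff.2 h1
  show 0 < ‖s (Crest.Agent.R273.FIb0_597.ch A x) x‖ ^ 2 * h.w (Crest.Agent.R273.FIb0_597.ch A x) x
  positivity

theorem sm_relH (hs : IsHS (L ^ k) univ s) (F : Fam A d m U)
    (hp : ∀ v, 0 < nsM (pow h k) s (F.i v)) : F.B.Sm (relH h k s F.i) := by
  intro j
  have h1 := sm_pull F.hol (sm_nsM (pow h k) hs) j
  exact contDiffOn_const.mul (ContDiffOn.log h1 fun z hz => (hp _).ne')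

theorem hsf_relH (hk : 0 < k) (hs : IsHS (L ^ k) univ s) (F : Fam A d m U)
    (hp : ∀ v, 0 < nsM (pow h k) s (F.i v)) {j : F.B.ι} {i : A.ι} {v : F.V}
    (hj : v ∈ (F.B.e j).source) (hi : F.i v ∈ (A.e i).source) :
    hsf F.B (relH h k s F.i) j v =
      (Jp F.B A F.i j i v)ᵀ * cur h i (F.i v) * (Jp F.B A F.i j i v).map conj := by
  have hz := (F.B.e j).map_source hj
  have hsm : ContDiffAt ℝ ∞ (fun w => Real.log (nsM (pow h k) s (F.i ((F.B.e j).symm w))))
      (F.B.e j v) :=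
    ((ContDiffOn.log (sm_pull F.hol (sm_nsM (pow h k) hs) j) fun z hz => (hp _).ne').contDiffAt
      ((F.B.e j).open_target.mem_nhds hz))
  have h1 : hsf F.B (relH h k s F.i) j v =
      ((-(1 / (k : ℝ)) : ℝ) : ℂ) • hsf F.B (fun v => Real.log (nsM (pow h k) s (F.i v))) j v := by
    show hess (fun w => (-(1 / (k : ℝ))) * Real.log (nsM (pow h k) s (F.i ((F.B.e j).symm w))))
      (F.B.e j v) = _
    exact hess_const_mul _ hsm
  have hu : ContDiffAt ℝ ∞ (fun z => Real.log (nsM (pow h k) s ((A.e i).symm z)))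
      (A.e i (F.i v)) := by
    refine ContDiffAt.log (((sm_nsM (pow h k) hs) i).contDiffAt
      ((A.e i).open_target.mem_nhds ((A.e i).map_source hi))) ?_
    rw [(A.e i).left_inv hi]; exact (hp v).ne'
  rw [h1, hsf_pull F.hol (u := fun x => Real.log (nsM (pow h k) s x)) hj hi hu,
    hsf_log_nsM (pow h k) hs hi (hp v), cur_pow h k i hi]
  have hk0 : (k : ℂ) ≠ 0 := by exact_mod_cast hk.ne'
  rw [Matrix.mul_neg, Matrix.neg_mul, Matrix.mul_smul, Matrix.smul_mul, smul_neg, smul_smul,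
    ← neg_smul]
  have : -(((-(1 / (k : ℝ)) : ℝ) : ℂ) * (k : ℂ)) = 1 := by
    push_cast
    field_simp
  rw [this, one_smul]

/-- **on a leafy family `K'_V = K_V + ∂∂̄ H`** -/
theorem kah_relH {K K' : Kah A} {φ : M → ℝ} (hφ : A.Sm φ)
    (he : ∀ i, ∀ x ∈ (A.e i).source, K'.g i x = K.g i x + cur h i x + hsf A φ i x)
    (hk : 0 < k) (hs : IsHS (L ^ k) univ s) (F : Fam A d m U)
    (hp : ∀ v, 0 < nsM (pow h k) s (F.i v)) {j : F.B.ι} {v : F.V}
    (hj : v ∈ (F.B.e j).source) :
    (F.kah K').g j v = (F.kah K).g j v +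
      hsf F.B (fun v => φ (F.i v) + relH h k s F.i v) j v := by
  obtain ⟨i, hi⟩ := A.cover (F.i v)
  have h1 : (F.kah K').g j v = (Jp F.B A F.i j i v)ᵀ * K'.g i (F.i v) * (Jp F.B A F.i j i v).map conj :=
    pullI_g K' F.hol F.imm hj hi
  have h2 : (F.kah K).g j v = (Jp F.B A F.i j i v)ᵀ * K.g i (F.i v) * (Jp F.B A F.i j i v).map conj :=
    pullI_g K F.hol F.imm hj hi
  have hz := (F.B.e j).map_source hj
  have h3 : hsf F.B (fun v => φ (F.i v) + relH h k s F.i v) j v =
      hsf F.B (fun v => φ (F.i v)) j v + hsf F.B (relH h k s F.i) j v :=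
    hess_add (((sm_pull F.hol hφ) j).contDiffAt ((F.B.e j).open_target.mem_nhds hz))
      (((sm_relH hs F hp) j).contDiffAt ((F.B.e j).open_target.mem_nhds hz))
  have h4 := hsf_pull F.hol hj hi ((hφ i).contDiffAt
      ((A.e i).open_target.mem_nhds ((A.e i).map_source hi)))
  rw [h1, h2, h3, h4, hsf_relH hk hs F hp hj hi, he i _ hi]
  simp only [Matrix.mul_add, Matrix.add_mul]
  abel

theorem sm_relH' {φ : M → ℝ} (hφ : A.Sm φ) (hs : IsHS (L ^ k) univ s) (F : Fam A d m U)
    (hp : ∀ v, 0 < nsM (pow h k) s (F.i v)) :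
    F.B.Sm (fun v => φ (F.i v) + relH h k s F.i v) := fun j =>
  ((sm_pull F.hol hφ) j).add ((sm_relH hs F hp) j)

end relH_

/-! ### the output -/

variable {L : LB A}

theorem nz_leafy {o : OmOut σ L} (h : HM L) {m : ℕ} {D : Set (Cn m)} {F : Fam A n m D}
    (hF : Leafy o.F F) (v : F.V) : 0 < nsM (pow h o.k) o.s (F.i v) :=
  nsM_pos' _ fun i hi => o.nz _ (hF v).1 i hi

/-- the two-Yau identity on leafy disc families -/
theorem two_vol_leafy {K K' : Kah A} {h : HM L} {φ : M → ℝ} (hφ : A.Sm φ)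
    (he : ∀ i, ∀ x ∈ (A.e i).source, K'.g i x = K.g i x + cur h i x + hsf A φ i x)
    (hσ : ClH2 σ.toH2) {c c' : ℝ} (hc : 0 < c) (hc' : 0 < c')
    (hR : ∀ i, ∀ x ∈ (A.e i).source, σ.s i x * ((K.g i x)ᵀ)⁻¹ * (σ.s i x)ᴴ = (c : ℂ) • K.g i x)
    (hR' : ∀ i, ∀ x ∈ (A.e i).source, σ.s i x * ((K'.g i x)ᵀ)⁻¹ * (σ.s i x)ᴴ = (c' : ℂ) • K'.g i x)
    (o : OmOut σ L) {D : Set (Cn 1)} {F : Fam A n 1 D} (hF : Leafy o.F F) {χ : Cn 1 → ℝ}
    (hχ : Tst D χ) :
    intD F.P (fun k v => (χ (F.y v) : ℂ) * ((F.kah K').g k v).det) =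
      ((c / c' : ℝ) : ℂ) * intD F.P (fun k v => (χ (F.y v) : ℂ) * ((F.kah K).g k v).det) := by
  have hp := nz_leafy h hF
  refine two_vol (U := D) hσ (lag_of_leafy hF) hc hc' hR hR' (sm_relH' hφ o.hs F hp)
    (fun k v hv => kah_relH hφ he o.k_pos o.hs F hp hv) (χ := fun z => (χ z : ℂ)) hχ.smC
    (F.proper _ hχ.sub hχ.cpt) fun v hv => ?_
  show ((χ (F.y v) : ℝ) : ℂ) = 0
  rw [image_eq_zero_of_notMem_tsupport hv, ofReal_zero]

/-- **the output of S6-SK**, from the two hyperkaehler metrics of `RF_373.two_yau` -/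
def skOut {K : Kah A} {h : HM L} (hK : HK K σ) (K' : Kah A) {r : ℝ} {hr : (r : ℂ) ≠ 0}
    (h1 : 1 < r) (hK' : HK K' (smulHS (r : ℂ) hr σ))
    (he : ∀ i, ∀ x ∈ (A.e i).source, K'.g i x = K.g i x + cur h i x) (o : OmOut σ L) :
    SKOut K o h where
  K' := K'
  φ := fun _ => 0
  sm := fun _ => contDiffOn_const
  eq := fun i x hx => by
    have h0 : hsf A (fun _ => (0 : ℝ)) i x = 0 := hess_zero' _
    rw [he i x hx, h0, add_zero]
  lam := r ^ 2
  one_lt := by nlinarith
  vol := fun D _ F hF χ hχ => by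
    have hr0 : 0 < r := by linarith
    have hR : ∀ i, ∀ x ∈ (A.e i).source,
        σ.s i x * ((K.g i x)ᵀ)⁻¹ * (σ.s i x)ᴴ = ((1 : ℝ) : ℂ) • K.g i x := fun i x hx => by
      rw [ofReal_one, one_smul]; exact hK.rel i x hx
    have hR' : ∀ i, ∀ x ∈ (A.e i).source,
        σ.s i x * ((K'.g i x)ᵀ)⁻¹ * (σ.s i x)ᴴ = (((r ^ 2)⁻¹ : ℝ) : ℂ) • K'.g i x := fun i x hx => by
      have h3 := hK'.rel i x hx
      change ((r : ℂ) • σ.s i x) * ((K'.g i x)ᵀ)⁻¹ * ((r : ℂ) • σ.s i x)ᴴ = K'.g i x at h3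
      rw [Matrix.conjTranspose_smul, Matrix.smul_mul, Matrix.mul_smul, Matrix.smul_mul, smul_smul,
        RCLike.star_def, Complex.conj_ofReal] at h3
      have : (((r ^ 2)⁻¹ : ℝ) : ℂ) * ((r : ℂ) * (r : ℂ)) = 1 := by
        have h5 : (r : ℂ) ≠ 0 := hr
        push_cast
        field_simp
      conv_rhs => rw [← h3, smul_smul, this, one_smul]
    have he' : ∀ i, ∀ x ∈ (A.e i).source,
        K'.g i x = K.g i x + cur h i x + hsf A (fun _ => (0 : ℝ)) i x := fun i x hx => by
      have h0 : hsf A (fun _ => (0 : ℝ)) i x = 0 := hess_zero' _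
      rw [he i x hx, h0, add_zero]
    have h2 := two_vol_leafy (K := K) (K' := K') (φ := fun _ => (0 : ℝ)) (fun _ => contDiffOn_const)
      he' (fun i z hz a b c => hK.closed i hz a b c) one_pos (inv_pos.2 (pow_pos hr0 2)) hR hR' o hF hχ
    rw [h2, one_div, inv_inv]

end

end Crest.Agent.R281.SK6_507
end

-- ▼ part R281/Con2_166
section

/-!
Row 281, DIV 6: covering numbers of the limit sets `Z x`, hence finite Hausdorff measure
(input of helper316's slice lemma (F1)).
-/

set_option autoImplicit false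

open Metric Set Filter Topology MeasureTheory
open scoped ENNReal NNReal

namespace Crest.Agent.R281.Con_166

/-- covering by balls from a lower mass bound -/
lemma exists_cover {X : Type*} [PseudoMetricSpace X] [MeasurableSpace X] [OpensMeasurableSpace X]
    (μ : Measure X) (T : Set X) {r a v : ℝ} (hr : 0 < r) (ha : 0 < a) (hv0 : 0 ≤ v)
    (hμ : ∀ p ∈ T, ENNReal.ofReal a ≤ μ (ball p (r / 2))) (hv : μ univ ≤ ENNReal.ofReal v) :
    ∃ s : Finset X, (↑s : Set X) ⊆ T ∧ T ⊆ ⋃ p ∈ s, ball p r ∧ (s.card : ℝ) * a ≤ v := by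
  classical
  let S : Set (Finset X) := {s | (↑s : Set X) ⊆ T ∧ ∀ p ∈ s, ∀ q ∈ s, p ≠ q → r ≤ dist p q}
  have hS0 : (∅ : Finset X) ∈ S := ⟨by simp, by simp⟩
  have hcard : ∀ s ∈ S, (s.card : ℝ) * a ≤ v := by
    intro s hs
    have hdisj : Set.PairwiseDisjoint (↑s : Set X) (fun p => ball p (r / 2)) := by
      intro p hp q hq hpq
      apply ball_disjoint_ball
      have := hs.2 p hp q hq hpq
      linarith
    have h1 : ∑ p ∈ s, μ (ball p (r / 2)) ≤ μ univ := by
      rw [← measure_biUnion_finset hdisj (fun p _ => measurableSet_ball)]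
      exact measure_mono (subset_univ _)
    have h2 : (s.card : ℝ≥0∞) * ENNReal.ofReal a ≤ ∑ p ∈ s, μ (ball p (r / 2)) := by
      rw [← nsmul_eq_mul]
      exact Finset.card_nsmul_le_sum s _ _ (fun p hp => hμ p (hs.1 hp))
    have h3 : ENNReal.ofReal ((s.card : ℝ) * a) ≤ ENNReal.ofReal v := by
      rw [ENNReal.ofReal_mul (by positivity), ENNReal.ofReal_natCast]
      exact h2.trans (h1.trans hv)
    exact (ENNReal.ofReal_le_ofReal_iff hv0).1 h3
  have hbdd : BddAbove {n : ℕ | ∃ s ∈ S, s.card = n} := by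
    refine ⟨⌊v / a⌋₊, ?_⟩
    rintro n ⟨s, hs, rfl⟩
    apply Nat.le_floor
    rw [le_div_iff₀ ha]
    exact hcard s hs
  have hne : {n : ℕ | ∃ s ∈ S, s.card = n}.Nonempty := ⟨0, ∅, hS0, rfl⟩
  obtain ⟨s, hs, hsn⟩ := Nat.sSup_mem hne hbdd
  refine ⟨s, hs.1, ?_, hcard s hs⟩
  intro x hx
  by_contra hxs
  simp only [mem_iUnion, mem_ball, not_exists, not_lt] at hxs
  have hxs' : x ∉ s := fun h => by
    have := hxs x h
    rw [dist_self] at this
    linarith
  have hins : insert x s ∈ S := by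
    refine ⟨?_, ?_⟩
    · intro y hy
      rw [Finset.coe_insert, mem_insert_iff] at hy
      rcases hy with rfl | hy
      · exact hx
      · exact hs.1 hy
    · intro p hp q hq hpq
      rw [Finset.mem_insert] at hp hq
      rcases hp with rfl | hp
      · rcases hq with rfl | hq
        · exact absurd rfl hpq
        · exact hxs q hq
      · rcases hq with rfl | hq
        · rw [dist_comm]; exact hxs p hp
        · exact hs.2 p hp q hq hpq
  have hle := le_csSup hbdd ⟨insert x s, hins, rfl⟩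
  rw [Finset.card_insert_of_notMem hxs', ← hsn] at hle
  omega

lemma ediam_ball_le2 {X : Type*} [PseudoMetricSpace X] (p : X) (r : ℝ) :
    ediam (ball p r) ≤ ENNReal.ofReal (2 * r) := by
  rw [← Metric.eball_ofReal, ENNReal.ofReal_mul (by norm_num)]
  refine ediam_eball_le.trans ?_
  simp

/-- finite Hausdorff measure from covering numbers -/
lemma hausdorff_le_of_cover {X : Type*} [MetricSpace X] [MeasurableSpace X] [BorelSpace X]
    (K : Set X) {k : ℕ} {C r0 : ℝ} (_hC : 0 ≤ C) (hr0 : 0 < r0)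
    (h : ∀ r : ℝ, 0 < r → r < r0 → ∃ s : Finset X, K ⊆ (⋃ p ∈ s, ball p r) ∧
      (s.card : ℝ) * r ^ k ≤ C) :
    Measure.hausdorffMeasure (k : ℝ) K ≤ ENNReal.ofReal (2 ^ k * C) := by
  classical
  have key : ∀ n : ℕ, ∃ s : Finset X, K ⊆ (⋃ p ∈ s, ball p (r0 / (n + 2))) ∧
      (s.card : ℝ) * (r0 / (n + 2)) ^ k ≤ C := by
    intro n
    have hn : (0 : ℝ) < (n : ℝ) + 2 := by positivity
    refine h _ (by positivity) ?_
    rw [div_lt_iff₀ hn]
    nlinarith [(Nat.cast_nonneg n : (0 : ℝ) ≤ n)]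
  choose s hs1 hs2 using key
  have hr : Tendsto (fun n : ℕ => ENNReal.ofReal (2 * (r0 / (n + 2)))) atTop (𝓝 0) := by
    have h1 : Tendsto (fun n : ℕ => (2 : ℝ) * (r0 / ((n : ℝ) + 2))) atTop (𝓝 0) := by
      have h2 : Tendsto (fun n : ℕ => r0 / ((n : ℝ) + 2)) atTop (𝓝 0) := by
        apply Tendsto.div_atTop tendsto_const_nhds
        exact tendsto_atTop_add_const_right _ _ tendsto_natCast_atTop_atTop
      simpa using h2.const_mul 2
    have := ENNReal.tendsto_ofReal h1
    simpa using this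
  have hmain := Measure.hausdorffMeasure_le_liminf_sum (k : ℝ) K (l := atTop)
    (ι := fun n : ℕ => (s n : Set X)) (fun n : ℕ => ENNReal.ofReal (2 * (r0 / (n + 2)))) hr
    (fun n i => ball (i : X) (r0 / (n + 2))) (Eventually.of_forall fun n i => ?_)
    (Eventually.of_forall fun n => ?_)
  · refine hmain.trans ?_
    apply liminf_le_of_le
    · isBoundedDefault
    intro b hb
    obtain ⟨n, hn⟩ := hb.exists
    refine hn.trans ?_
    have hpos : (0 : ℝ) < r0 / (n + 2) := by positivity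
    calc ∑ i : (s n : Set X), ediam (ball (i : X) (r0 / (n + 2))) ^ (k : ℝ)
        ≤ ∑ _i : (s n : Set X), ENNReal.ofReal (2 * (r0 / (n + 2))) ^ (k : ℝ) := by
          apply Finset.sum_le_sum
          intro i _
          exact ENNReal.rpow_le_rpow (ediam_ball_le2 _ _) (by positivity)
      _ = ENNReal.ofReal ((s n).card * (2 * (r0 / (n + 2))) ^ k) := by
          rw [Finset.sum_const, nsmul_eq_mul, ENNReal.rpow_natCast,
            ← ENNReal.ofReal_pow (by positivity), ← ENNReal.ofReal_natCast,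
            ← ENNReal.ofReal_mul (by positivity)]
          congr 3
          simp
      _ ≤ ENNReal.ofReal (2 ^ k * C) := by
          apply ENNReal.ofReal_le_ofReal
          have := hs2 n
          calc ((s n).card : ℝ) * (2 * (r0 / (n + 2))) ^ k
              = 2 ^ k * (((s n).card : ℝ) * (r0 / (n + 2)) ^ k) := by rw [mul_pow]; ring
            _ ≤ 2 ^ k * C := by gcongr
  · exact ediam_ball_le2 _ _
  · intro x hx
    obtain ⟨p, hp, hxp⟩ := mem_iUnion₂.1 (hs1 n hx)
    exact mem_iUnion.2 ⟨⟨p, hp⟩, hxp⟩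

namespace PD

variable {X : Type*} [MetricSpace X] (P : PD X)




end PD

end Crest.Agent.R281.Con_166
end

-- ▼ part R281/Cv1_254

/-!
# R281 (S0424), END6, CONTVOL (helper254): the node `ContVol` from `LeafVol`

* `low_leaf`     : lower bound for the volume of a leaf in a small ball of a chart;
* `cover_leaf`   : covering numbers of a leaf in a chart ball;
* `near_Z`       : the limit fibre `Z x0` in a chart ball is close to leaves;
* `contVol_of`   : `LeafVol F K v → ContVol c`.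
-/

set_option autoImplicit false
set_option linter.unusedSectionVars false

open Set Filter Topology Complex MeasureTheory Function
open scoped ContDiff Matrix ComplexConjugate ComplexOrder ENNReal

namespace Crest.Agent.R281.Cv_254

open Crest.Agent.R275.Geo Crest.Agent.R275.Core144 Crest.Agent.R275.GC293
open Crest.Agent.R273.Defs_333 Crest.Agent.R273.Kah_333 Crest.Agent.R273.HM_333
open Crest.Agent.R273.Vol_333 Crest.Agent.R273.Vm_333 Crest.Agent.R273.Map_835
open Crest.Agent.R281.Defs_273 Crest.Agent.R281.D6_986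
open Crest.Agent.R281.S6D_664 Crest.Agent.R281.Mv_757 Crest.Agent.R281.Con_166

noncomputable section

section leaf

variable {N n : ℕ} {M : Type} [TopologicalSpace M] [T2Space M] {A : Atl N M}

/-- the space of a family over a point is compact -/
theorem compactSpace_V (T : Fam A n 0 univ) : CompactSpace T.V := by
  refine ⟨?_⟩
  have h1 : IsCompact (univ : Set (Cn 0)) := Set.subsingleton_univ.isCompact
  have h2 := T.proper univ subset_rfl h1
  rwa [preimage_univ] at h2

/-- the data of 757 with weight `1` -/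
theorem mdl_one (T : Fam A n 0 univ) {j : A.ι} {q : M} {δ : ℝ} (hδ : 0 < δ)
    (hball : Metric.closedBall (A.e j q) δ ⊆ (A.e j).target) :
    MDL T.B (T.i ⁻¹' (A.e j).source) (Phi T j q) (fun _ => (1 : ℝ)) (δ ^ 2) := by
  have := compactSpace_V T
  refine ⟨(A.e j).open_source.preimage T.hol.cont, hol_Phi T j q, ?_, fun _ => zero_le_one,
    ?_, ?_⟩
  · intro k
    exact contDiffOn_const
  · intro k x hx hxW hxs
    have h1 : hsf T.B (fun _ => (1 : ℝ)) k x = 0 := by
      show Crest.Agent.R273.Hess_333.hess (fun _ => (1 : ℝ)) (T.B.e k x) = 0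
      ext a b
      rw [Crest.Agent.R273.Hess_333.hess_apply]
      have h4 : Crest.Agent.R275.EDR890.wd (true, b)
          (Crest.Agent.R273.Hess_333.cu (fun _ : Cn (n + 0) => (1 : ℝ))) = fun _ => (0 : ℂ) := by
        funext z
        exact Crest.Agent.R275.EDR890.wd_const _ _ _
      rw [h4]
      exact Crest.Agent.R275.EDR890.wd_const _ _ _
    rw [h1]
    exact Matrix.PosSemidef.zero
  · intro r' hr'
    have hcl : IsClosed {x | x ∈ T.i ⁻¹' (A.e j).source ∧ sF (Phi T j q) x ≤ r'} := by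
      rcases lt_or_ge r' 0 with h0 | h0
      · have : {x | x ∈ T.i ⁻¹' (A.e j).source ∧ sF (Phi T j q) x ≤ r'} = ∅ := by
          ext x
          simp only [mem_ofPred_eq, mem_empty_iff_false, iff_false, not_and, not_le]
          intro _
          exact h0.trans_le (sF_nonneg _ x)
        rw [this]
        exact isClosed_empty
      · have h1 : Real.sqrt r' ≤ δ := by
          rw [← Real.sqrt_sq hδ.le]
          exact Real.sqrt_le_sqrt hr'.le
        have h2 := closed_Phi T j (q := q) (Real.sqrt_nonneg r')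
          ((Metric.closedBall_subset_closedBall h1).trans hball)
        rwa [Real.sq_sqrt h0] at h2
    exact ((isClosed_tsupport _).inter hcl).isCompact

/-- **lower volume bound of a leaf in a ball of a chart** -/
theorem low_leaf (hn : 0 < n) (T : Fam A n 0 univ) (K : Kah A) {j : A.ι} {q : M}
    (hq : q ∈ (A.e j).source) {δ C : ℝ} (hδ : 0 < δ)
    (hball : Metric.closedBall (A.e j q) δ ⊆ (A.e j).target)
    (hG : ∀ z ∈ Metric.closedBall (A.e j q) δ,
      ((C : ℂ) • K.g j ((A.e j).symm z) - 1).PosSemidef)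
    {vq : T.V} (hvq : T.i vq = q) :
    ENNReal.ofReal (bv n * (δ ^ 2) ^ n) ≤ ENNReal.ofReal (C ^ n) *
      T.mu K {v | T.i v ∈ (A.e j).source ∧ A.e j (T.i v) ∈ Metric.ball (A.e j q) δ} := by
  let _ : MeasurableSpace T.V := borel T.V
  have _ : BorelSpace T.V := ⟨rfl⟩
  have D : MDL T.B (T.i ⁻¹' (A.e j).source) (Phi T j q) (fun _ => (1 : ℝ)) (δ ^ 2) :=
    mdl_one T hδ hball
  obtain ⟨k, hk⟩ := T.B.cover vq
  have hq0 : vq ∈ T.i ⁻¹' (A.e j).source := by
    show T.i vq ∈ (A.e j).source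
    rw [hvq]
    exact hq
  have hPhi0 : Phi T j q vq = 0 := by
    funext b
    simp [Phi, hvq]
  have hd : (DF T.B (Phi T j q) k vq * (DF T.B (Phi T j q) k vq)ᴴ).det ≠ 0 := by
    refine det_ne_of_inj fun ξ hξ => inj_Phi T j q hk hq0 ?_
    funext b
    have := hξ b
    rw [Matrix.vecMul, dotProduct, Pi.zero_apply, ← this]
    exact Finset.sum_congr rfl fun a _ => mul_comm _ _
  have hrho : ∀ x ∈ T.i ⁻¹' (A.e j).source, sF (Phi T j q) x < δ ^ 2 →
      rhoL (volK (T.kah K)) (T.i ⁻¹' (A.e j).source) (Phi T j q) x ≤ C ^ n := by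
    intro x hx hxs
    obtain ⟨l, hl⟩ := T.B.cover x
    have h1 := rhoL_mul (volK (T.kah K)) (W0 := T.i ⁻¹' (A.e j).source) (F := Phi T j q)
      D.hol D.op hl
    rw [dFL_on hx] at h1
    have h2 := (volK (T.kah K)).pos l x hl
    have hxz : A.e j (T.i x) ∈ Metric.closedBall (A.e j q) δ := by
      rw [mem_closedBall_iff_norm]
      rw [sF_Phi] at hxs
      exact ((pow_lt_pow_iff_left₀ (norm_nonneg _) hδ.le two_ne_zero).1 hxs).le
    have h3 := hG _ hxz
    rw [(A.e j).left_inv hx] at h3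
    have h4 := det_Phi_le T K (q := q) hl hx h3
    rw [← h1] at h4
    have h5 : (volK (T.kah K)).w l x * rhoL (volK (T.kah K)) (T.i ⁻¹' (A.e j).source)
        (Phi T j q) x ≤ (volK (T.kah K)).w l x * C ^ n := by
      rw [mul_comm _ (C ^ n)]
      exact h4
    exact le_of_mul_le_mul_left h5 h2
  have h1 := D.mvi_C (volK (T.kah K)) T.P (by positivity) hn hq0 hPhi0 hk hd hrho
  have h2 : ∫⁻ x in {x | x ∈ T.i ⁻¹' (A.e j).source ∧ sF (Phi T j q) x < δ ^ 2},
      ENNReal.ofReal ((fun _ => (1 : ℝ)) x) ∂(vm (volK (T.kah K))) =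
      T.mu K {v | T.i v ∈ (A.e j).source ∧ A.e j (T.i v) ∈ Metric.ball (A.e j q) δ} := by
    have h3 : {x | x ∈ T.i ⁻¹' (A.e j).source ∧ sF (Phi T j q) x < δ ^ 2} =
        {v | T.i v ∈ (A.e j).source ∧ A.e j (T.i v) ∈ Metric.ball (A.e j q) δ} := by
      ext x
      simp only [mem_ofPred_eq, mem_preimage]
      rw [sF_Phi, mem_ball_iff_norm, pow_lt_pow_iff_left₀ (norm_nonneg _) hδ.le two_ne_zero]
    rw [h3]
    simp only [ENNReal.ofReal_one, lintegral_const, one_mul]
    rw [Measure.restrict_apply_univ]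
    rfl
  rw [h2] at h1
  simpa using h1

/-- **covering numbers of a leaf in a chart ball** -/
theorem cover_leaf (hn : 0 < n) (T : Fam A n 0 univ) (K : Kah A) {j : A.ι} {p : Cn N}
    {ρ C v : ℝ} (hC : 0 < C) (hv0 : 0 ≤ v)
    (hball : Metric.closedBall p (3 * ρ) ⊆ (A.e j).target)
    (hG : ∀ z ∈ Metric.closedBall p (3 * ρ), ((C : ℂ) • K.g j ((A.e j).symm z) - 1).PosSemidef)
    (hv : T.mu K univ ≤ ENNReal.ofReal v) {r : ℝ} (hr : 0 < r) (hrρ : r < ρ) :
    ∃ s : Finset (Cn N), (A.e j) '' (range T.i ∩ (A.e j).source) ∩ Metric.closedBall p (2 * ρ) ⊆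
      (⋃ q ∈ s, Metric.ball q r) ∧
      (s.card : ℝ) * ((C ^ n)⁻¹ * (bv n * ((r / 2) ^ 2) ^ n)) ≤ v := by
  let _ : MeasurableSpace T.V := borel T.V
  have _ : BorelSpace T.V := ⟨rfl⟩
  set S : Set T.V := T.i ⁻¹' (A.e j).source with hS
  have hSo : IsOpen S := (A.e j).open_source.preimage T.hol.cont
  set g : T.V → Cn N := fun v => A.e j (T.i v) with hg
  have hgc : ContinuousOn g S := (A.e j).continuousOn.comp T.hol.cont.continuousOn fun _ hv => hv
  have hgm : AEMeasurable g ((T.mu K).restrict S) := hgc.aemeasurable hSo.measurableSet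
  set μ : Measure (Cn N) := Measure.map g ((T.mu K).restrict S) with hμ
  have hμb : ∀ q r, μ (Metric.ball q r) =
      T.mu K {v | T.i v ∈ (A.e j).source ∧ A.e j (T.i v) ∈ Metric.ball q r} := by
    intro q r
    rw [hμ, Measure.map_apply_of_aemeasurable hgm Metric.isOpen_ball.measurableSet,
      Measure.restrict_apply' hSo.measurableSet]
    congr 1
    ext v
    simp only [hS, hg, mem_inter_iff, mem_preimage, mem_ofPred_eq]
    exact and_comm
  have k1 : ∀ q ∈ (A.e j) '' (range T.i ∩ (A.e j).source) ∩ Metric.closedBall p (2 * ρ),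
      ENNReal.ofReal ((C ^ n)⁻¹ * (bv n * ((r / 2) ^ 2) ^ n)) ≤ μ (Metric.ball q (r / 2)) := by
    rintro q ⟨⟨x, ⟨⟨w, hw⟩, hx⟩, rfl⟩, hq⟩
    have hsub : Metric.closedBall (A.e j x) (r / 2) ⊆ Metric.closedBall p (3 * ρ) := by
      refine Metric.closedBall_subset_closedBall' ?_
      rw [Metric.mem_closedBall] at hq
      linarith
    have h1 := low_leaf hn T K hx (half_pos hr) (hsub.trans hball)
      (fun z hz => hG z (hsub hz)) hw
    rw [hμb, ENNReal.ofReal_mul (by positivity), ENNReal.ofReal_inv_of_pos (by positivity)]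
    calc (ENNReal.ofReal (C ^ n))⁻¹ * ENNReal.ofReal (bv n * ((r / 2) ^ 2) ^ n)
        ≤ (ENNReal.ofReal (C ^ n))⁻¹ * (ENNReal.ofReal (C ^ n) *
          T.mu K {v | T.i v ∈ (A.e j).source ∧
            A.e j (T.i v) ∈ Metric.ball (A.e j x) (r / 2)}) := by gcongr
      _ = T.mu K {v | T.i v ∈ (A.e j).source ∧
            A.e j (T.i v) ∈ Metric.ball (A.e j x) (r / 2)} := by
          rw [← mul_assoc, ENNReal.inv_mul_cancel, one_mul]
          · exact (ENNReal.ofReal_pos.2 (by positivity)).ne'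
          · exact ENNReal.ofReal_ne_top
  have k2 : μ univ ≤ ENNReal.ofReal v := by
    rw [hμ, Measure.map_apply_of_aemeasurable hgm MeasurableSet.univ, preimage_univ,
      Measure.restrict_apply_univ]
    exact (measure_mono (subset_univ _)).trans hv
  have hbn := bv_pos (n := n)
  obtain ⟨s, -, h2, h3⟩ := exists_cover μ
    ((A.e j) '' (range T.i ∩ (A.e j).source) ∩ Metric.closedBall p (2 * ρ)) hr
    (a := (C ^ n)⁻¹ * (bv n * ((r / 2) ^ 2) ^ n)) (v := v) (by positivity) hv0 k1 k2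
  exact ⟨s, h2, h3⟩

end leaf

section cont

variable {n : ℕ} {M : Type} [TopologicalSpace M] {A : Atl (2 * n) M}
variable {σ : HSymp A}

/-- a compact part of the limit fibre `Z x0` in a chart is close to `Z x` for `x` near `x0` -/
theorem near_Z {F : LFib A σ} (c : ContOut F) (x0 : M) {j : A.ι} {S : Set M} (hS : IsCompact S)
    (hSZ : S ⊆ c.Z x0) (hSs : S ⊆ (A.e j).source) {r : ℝ} (hr : 0 < r) :
    ∀ᶠ x in 𝓝 x0, ∀ q ∈ S, ∃ q' ∈ c.Z x ∩ (A.e j).source, dist (A.e j q) (A.e j q') < r := by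
  have hcov : ∀ q ∈ S, ∃ V ∈ 𝓝[S] q, ∀ᶠ x in 𝓝 x0, ∀ p ∈ V,
      ∃ q' ∈ c.Z x ∩ (A.e j).source, dist (A.e j p) (A.e j q') < r := by
    intro q hq
    have hW : IsOpen ((A.e j).source ∩ A.e j ⁻¹' Metric.ball (A.e j q) (r / 2)) :=
      (A.e j).isOpen_inter_preimage Metric.isOpen_ball
    have hqW : q ∈ (A.e j).source ∩ A.e j ⁻¹' Metric.ball (A.e j q) (r / 2) :=
      ⟨hSs hq, Metric.mem_ball_self (half_pos hr)⟩
    refine ⟨_, mem_nhdsWithin_of_mem_nhds (hW.mem_nhds hqW), ?_⟩
    filter_upwards [c.lsc x0 q (hSZ hq) _ hW hqW] with x hx p hp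
    obtain ⟨q', hq', hq1, hq2⟩ := hx
    refine ⟨q', ⟨hq', hq1⟩, ?_⟩
    have h1 : dist (A.e j p) (A.e j q) < r / 2 := hp.2
    have h2 : dist (A.e j q') (A.e j q) < r / 2 := hq2
    have h3 := dist_triangle_right (A.e j p) (A.e j q') (A.e j q)
    linarith
  exact hS.induction_on (p := fun s => ∀ᶠ x in 𝓝 x0, ∀ q ∈ s,
      ∃ q' ∈ c.Z x ∩ (A.e j).source, dist (A.e j q) (A.e j q') < r) (by simp)
    (fun s t hst h => h.mono fun x hx p hp => hx p (hst hp))
    (fun s t h1 h2 => by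
      filter_upwards [h1, h2] with x a b p hp
      exact hp.elim (a p) (b p)) hcov

/-- **the node `ContVol`** -/
theorem contVol_of [T2Space M] [SecondCountableTopology M] (K : Kah A) {F : LFib A σ}
    (c : ContOut F) {v : ℝ} (hv : LeafVol F K v) : ContVol c := by
  intro x0
  obtain ⟨j, hj⟩ := A.cover x0
  obtain ⟨δ, hδ, C, hC, hball, hG⟩ : ∃ δ : ℝ, 0 < δ ∧ ∃ C : ℝ, 0 < C ∧
      Metric.closedBall (A.e j x0) δ ⊆ (A.e j).target ∧
      ∀ z ∈ Metric.closedBall (A.e j x0) δ,
        ((C : ℂ) • K.g j ((A.e j).symm z) - 1).PosSemidef := by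
    have ht : A.e j x0 ∈ (A.e j).target := (A.e j).map_source hj
    have hto : (A.e j).target ∈ 𝓝 (A.e j x0) := (A.e j).open_target.mem_nhds ht
    have hKc : ContinuousAt (fun z => K.g j ((A.e j).symm z)) (A.e j x0) := by
      refine continuousAt_pi.2 fun a => continuousAt_pi.2 fun b => ?_
      exact ((K.sm j a b).continuousOn.continuousAt hto)
    obtain ⟨C, hC, h1⟩ := D6_986.dom_near (K := fun z => K.g j ((A.e j).symm z))
      (G := fun _ => (1 : Matrix (Fin (2 * n)) (Fin (2 * n)) ℂ)) hKc continuousAt_const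
      (by filter_upwards [hto] with z hz using (K.pos j _ ((A.e j).map_target hz)).isHermitian)
      (Eventually.of_forall fun _ => Matrix.isHermitian_one)
      (K.pos j _ ((A.e j).map_target ht))
    obtain ⟨r, hr, hrs⟩ := Metric.eventually_nhds_iff.1 (h1.and hto)
    refine ⟨r / 2, by positivity, C, hC, fun z hz => (hrs ?_).2, fun z hz => (hrs ?_).1⟩
    · rw [Metric.mem_closedBall] at hz
      linarith
    · rw [Metric.mem_closedBall] at hz
      linarith
  set ρ : ℝ := δ / 3 with hρ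
  have hρ0 : 0 < ρ := by positivity
  have h3ρ : 3 * ρ = δ := by rw [hρ]; ring
  have hballρ : Metric.closedBall (A.e j x0) ρ ⊆ (A.e j).target :=
    (Metric.closedBall_subset_closedBall (by linarith)).trans hball
  refine ⟨j, hj, ρ, hρ0, hballρ, ?_⟩
  rcases Nat.eq_zero_or_pos n with hn | hn
  · -- dimension zero
    subst hn
    have : Subsingleton (Cn (2 * 0)) := by
      refine ⟨fun a b => ?_⟩
      ext i
      exact absurd i.2 (by simp)
    refine lt_of_le_of_lt ?_ ENNReal.one_lt_top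
    have h1 := Measure.hausdorffMeasure_le_one_of_subsingleton (d := ((2 * 0 : ℕ) : ℝ))
      (s := (A.e j) '' (c.Z x0 ∩ (A.e j).source) ∩ Metric.closedBall (A.e j x0) ρ)
      (Set.subsingleton_of_subsingleton) (by simp)
    exact h1
  -- the compact part of the fibre
  set S : Set M := c.Z x0 ∩ (A.e j).symm '' Metric.closedBall (A.e j x0) ρ with hS
  have hScl : IsCompact ((A.e j).symm '' Metric.closedBall (A.e j x0) ρ) :=
    (isCompact_closedBall _ _).image_of_continuousOn ((A.e j).continuousOn_symm.mono hballρ)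
  have hSc : IsCompact S := (c.cpt x0).inter_right hScl.isClosed
  have hSs : S ⊆ (A.e j).source := by
    rintro y ⟨-, z, hz, rfl⟩
    exact (A.e j).map_target (hballρ hz)
  have hKS : (A.e j) '' (c.Z x0 ∩ (A.e j).source) ∩ Metric.closedBall (A.e j x0) ρ ⊆
      (A.e j) '' S := by
    rintro z ⟨⟨y, ⟨hy1, hy2⟩, rfl⟩, hz⟩
    exact ⟨y, ⟨hy1, A.e j y, hz, (A.e j).left_inv hy2⟩, rfl⟩
  have hbn := bv_pos (n := n)
  set a0 : ℝ := (C ^ n)⁻¹ * bv n with ha0
  have ha0p : 0 < a0 := by positivity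
  -- covering numbers of the limit fibre
  have hcov : ∀ r : ℝ, 0 < r → r < 2 * ρ → ∃ s : Finset (Cn (2 * n)),
      (A.e j) '' (c.Z x0 ∩ (A.e j).source) ∩ Metric.closedBall (A.e j x0) ρ ⊆
        (⋃ p ∈ s, Metric.ball p r) ∧
      (s.card : ℝ) * r ^ (2 * n) ≤ 4 ^ (2 * n) * (max v 0 / a0) := by
    intro r hr hrρ
    obtain ⟨x, hxO, hx⟩ := F.dns.inter_nhds_nonempty
      (near_Z c x0 hSc inter_subset_left hSs (half_pos hr))
    obtain ⟨T, hTl, hTr, -⟩ := N2_373.exists_leafy F hxO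
    obtain ⟨s, hs1, hs2⟩ := cover_leaf hn T K (j := j) (p := A.e j x0) (v := max v 0) hC
      (le_max_right _ _) (by rw [h3ρ]; exact hball) (by rw [h3ρ]; exact hG)
      ((hv T hTl).trans (ENNReal.ofReal_le_ofReal (le_max_left _ _)))
      (half_pos hr) (by linarith)
    refine ⟨s, fun z hz => ?_, ?_⟩
    · obtain ⟨y, hy, hyz⟩ := hKS hz
      obtain ⟨q', hq', hd⟩ := hx y hy
      have hq1 : A.e j q' ∈ (A.e j) '' (range T.i ∩ (A.e j).source) ∩
          Metric.closedBall (A.e j x0) (2 * ρ) := by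
        refine ⟨⟨q', ⟨?_, hq'.2⟩, rfl⟩, ?_⟩
        · rw [hTr, ← c.eq x hxO]
          exact hq'.1
        · have h1 : dist z (A.e j x0) ≤ ρ := hz.2
          rw [← hyz] at h1
          rw [Metric.mem_closedBall]
          have h2 := dist_triangle_left (A.e j q') (A.e j x0) (A.e j y)
          linarith
      obtain ⟨p, hp, hpq⟩ := mem_iUnion₂.1 (hs1 hq1)
      refine mem_iUnion₂.2 ⟨p, hp, ?_⟩
      rw [Metric.mem_ball] at hpq ⊢
      rw [← hyz]
      have := dist_triangle (A.e j y) (A.e j q') p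
      linarith
    · have e1 : (C ^ n)⁻¹ * (bv n * ((r / 2 / 2) ^ 2) ^ n) = a0 * (r ^ (2 * n) / 4 ^ (2 * n)) := by
        rw [ha0, ← pow_mul, div_div, div_pow]
        norm_num
        ring
      rw [e1] at hs2
      have h4 : (0 : ℝ) < 4 ^ (2 * n) := by positivity
      have e2 : (s.card : ℝ) * r ^ (2 * n) =
          4 ^ (2 * n) * (((s.card : ℝ) * (a0 * (r ^ (2 * n) / 4 ^ (2 * n)))) / a0) := by
        field_simp
      rw [e2]
      gcongr
  exact (hausdorff_le_of_cover _ (by positivity) (by positivity : (0 : ℝ) < 2 * ρ) hcov).trans_lt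
    ENNReal.ofReal_lt_top

end cont

end

end Crest.Agent.R281.Cv_254
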