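import Crest.Agent.R281.Glob1_484
import Crest.Agent.R281.LEnd0_10

-- ▼ part R281/End1_946
section

/-!
# R281 (S0424), leaf S6-END, part 1 (helper946): the one-variable functions

* `Cut a b`      : smooth cut-offs, `1` on `t ≤ a`, `0` on `t ≥ b`; `exists_cut`
* `lam c d t`    : `χ(t) log (t + d²)`, derivatives `lam1`, `lam2`
* `exists_bound` : `0 ≤ y ≤ t x`, `0 ≤ t ≤ b`, `0 < d ≤ 1` ==> `0 ≤ (C + lam1) x + lam2 y`
* `psd_comb`     : the matrix form
* `psd_sq`       : `|F|² H - ∂|F|² ⊗ ∂̄|F|²` is positive semidefinite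
-/

set_option autoImplicit false
set_option linter.unusedSectionVars false

open Set Filter Topology Complex
open scoped ContDiff Matrix ComplexConjugate ComplexOrder

namespace Crest.Agent.R281.End_946

open Crest.Agent.R275.Geo Crest.Agent.R275.EDR890
open Crest.Agent.R273.Hess_333 Crest.Agent.R273.HessB_333
open Crest.Agent.R273.FIa0_597
open Crest.Agent.R273.FS_333 (sq wd_sq wd_sq' hess_sq)

noncomputable section

/-! ### cut-offs -/

/-- smooth cut-off: `1` on `t ≤ a`, `0` on `t ≥ b` -/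
structure Cut (a b : ℝ) where
  f : ℝ → ℝ
  sm : ContDiff ℝ ∞ f
  one : ∀ t ≤ a, f t = 1
  zero : ∀ t, b ≤ t → f t = 0
  nn : ∀ t, 0 ≤ f t
  le : ∀ t, f t ≤ 1

theorem exists_cut {a b : ℝ} (hab : a < b) : Nonempty (Cut a b) := by
  have hp : 0 < b - a := sub_pos.2 hab
  refine ⟨⟨fun t => Real.smoothTransition ((b - t) / (b - a)), ?_, ?_, ?_, ?_, ?_⟩⟩
  · exact Real.smoothTransition.contDiff.comp ((contDiff_const.sub contDiff_id).div_const _)
  · intro t ht
    refine Real.smoothTransition.one_of_one_le ?_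
    rw [le_div_iff₀ hp]
    linarith
  · intro t ht
    refine Real.smoothTransition.zero_of_nonpos ?_
    exact div_nonpos_of_nonpos_of_nonneg (by linarith) hp.le
  · intro t
    exact Real.smoothTransition.nonneg _
  · intro t
    exact Real.smoothTransition.le_one _

namespace Cut

variable {a b : ℝ} (c : Cut a b)

/-- first derivative -/
def f1 : ℝ → ℝ := deriv c.f

/-- second derivative -/
def f2 : ℝ → ℝ := deriv c.f1

theorem sm1 : ContDiff ℝ ∞ c.f1 := by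
  have h := c.sm
  rw [show (∞ : WithTop ℕ∞) = ∞ + 1 from rfl, contDiff_succ_iff_deriv] at h
  exact h.2.2

theorem d1 (t : ℝ) : HasDerivAt c.f (c.f1 t) t :=
  (c.sm.differentiable (by simp) t).hasDerivAt

theorem d2 (t : ℝ) : HasDerivAt c.f1 (c.f2 t) t :=
  (c.sm1.differentiable (by simp) t).hasDerivAt

theorem sm2 : ContDiff ℝ ∞ c.f2 := by
  have h := c.sm1
  rw [show (∞ : WithTop ℕ∞) = ∞ + 1 from rfl, contDiff_succ_iff_deriv] at h
  exact h.2.2

theorem f1_low {t : ℝ} (ht : t < a) : c.f1 t = 0 := by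
  have h : c.f =ᶠ[𝓝 t] fun _ => 1 := by
    filter_upwards [Iio_mem_nhds ht] with s hs
    exact c.one s (le_of_lt hs)
  unfold f1
  rw [h.deriv_eq, deriv_const]

theorem f1_high {t : ℝ} (ht : b < t) : c.f1 t = 0 := by
  have h : c.f =ᶠ[𝓝 t] fun _ => 0 := by
    filter_upwards [Ioi_mem_nhds ht] with s hs
    exact c.zero s (le_of_lt hs)
  unfold f1
  rw [h.deriv_eq, deriv_const]

theorem f2_low {t : ℝ} (ht : t < a) : c.f2 t = 0 := by
  have h : c.f1 =ᶠ[𝓝 t] fun _ => 0 := by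
    filter_upwards [Iio_mem_nhds ht] with s hs
    exact c.f1_low hs
  unfold f2
  rw [h.deriv_eq, deriv_const]

theorem f2_high {t : ℝ} (ht : b < t) : c.f2 t = 0 := by
  have h : c.f1 =ᶠ[𝓝 t] fun _ => 0 := by
    filter_upwards [Ioi_mem_nhds ht] with s hs
    exact c.f1_high hs
  unfold f2
  rw [h.deriv_eq, deriv_const]

theorem exists_bd : ∃ B : ℝ, 0 ≤ B ∧ ∀ t, |c.f1 t| ≤ B ∧ |c.f2 t| ≤ B := by
  obtain ⟨B1, h1⟩ := isCompact_Icc.exists_bound_of_continuousOn (s := Icc a b)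
    c.sm1.continuous.continuousOn
  obtain ⟨B2, h2⟩ := isCompact_Icc.exists_bound_of_continuousOn (s := Icc a b)
    c.sm2.continuous.continuousOn
  refine ⟨max (max B1 B2) 0, le_max_right _ _, fun t => ?_⟩
  rcases lt_or_ge t a with ht | ht
  · rw [c.f1_low ht, c.f2_low ht]
    simp
  rcases lt_or_ge b t with hb | hb
  · rw [c.f1_high hb, c.f2_high hb]
    simp
  exact ⟨((h1 t ⟨ht, hb⟩).trans (le_max_left _ _)).trans (le_max_left _ _),
    ((h2 t ⟨ht, hb⟩).trans (le_max_right _ _)).trans (le_max_left _ _)⟩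

/-! ### the weight function -/

/-- `χ(t) log (t + d²)` -/
def lam (d t : ℝ) : ℝ := c.f t * Real.log (t + d ^ 2)

/-- its derivative -/
def lam1 (d t : ℝ) : ℝ := c.f1 t * Real.log (t + d ^ 2) + c.f t * (t + d ^ 2)⁻¹

/-- its second derivative -/
def lam2 (d t : ℝ) : ℝ :=
  c.f2 t * Real.log (t + d ^ 2) + 2 * c.f1 t * (t + d ^ 2)⁻¹ - c.f t * ((t + d ^ 2) ^ 2)⁻¹

theorem lam_d1 {d t : ℝ} (h : 0 < t + d ^ 2) : HasDerivAt (c.lam d) (c.lam1 d t) t := by
  have h1 : HasDerivAt (fun s : ℝ => Real.log (s + d ^ 2)) ((t + d ^ 2)⁻¹) t := by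
    have := ((hasDerivAt_id t).add_const (d ^ 2)).log h.ne'
    simpa using this
  exact (c.d1 t).mul h1

theorem lam_d2 {d t : ℝ} (h : 0 < t + d ^ 2) : HasDerivAt (c.lam1 d) (c.lam2 d t) t := by
  have h1 : HasDerivAt (fun s : ℝ => Real.log (s + d ^ 2)) ((t + d ^ 2)⁻¹) t := by
    have := ((hasDerivAt_id t).add_const (d ^ 2)).log h.ne'
    simpa using this
  have h2 : HasDerivAt (fun s : ℝ => (s + d ^ 2)⁻¹) (-((t + d ^ 2) ^ 2)⁻¹) t := by
    have h := ((hasDerivAt_id t).add_const (d ^ 2)).inv h.ne'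
    have e : -((t + d ^ 2) ^ 2)⁻¹ = -1 / (id t + d ^ 2) ^ 2 := by
      simp only [id, neg_div, one_div]
    rw [e]
    exact h
  have h3 := ((c.d2 t).mul h1).add ((c.d1 t).mul h2)
  have e : c.lam2 d t = c.f2 t * Real.log (t + d ^ 2) + c.f1 t * (t + d ^ 2)⁻¹ +
      (c.f1 t * (t + d ^ 2)⁻¹ + c.f t * -((t + d ^ 2) ^ 2)⁻¹) := by
    unfold lam2
    ring
  rw [e]
  exact h3

theorem lam_sm (d : ℝ) : ContDiffOn ℝ ∞ (c.lam d) {t | 0 < t + d ^ 2} := by
  refine c.sm.contDiffOn.mul ?_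
  exact (contDiff_id.add contDiff_const).contDiffOn.log fun t ht => (ne_of_gt ht)

theorem lam_zero {d t : ℝ} (ht : b ≤ t) : c.lam d t = 0 := by
  rw [lam, c.zero t ht, zero_mul]

theorem lam_low {d t : ℝ} (ht : t ≤ a) : c.lam d t = Real.log (t + d ^ 2) := by
  rw [lam, c.one t ht, one_mul]

/-- the log is bounded on the collar -/
theorem log_bd (ha : 0 < a) {t d : ℝ} (h1 : a ≤ t) (h2 : t ≤ b) (hd : 0 ≤ d) (hd1 : d ≤ 1) :
    |Real.log (t + d ^ 2)| ≤ max |Real.log a| |Real.log (b + 1)| := by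
  have h0 : 0 ≤ d ^ 2 := sq_nonneg d
  have h3 : d ^ 2 ≤ 1 := by nlinarith
  have h4 : Real.log a ≤ Real.log (t + d ^ 2) := Real.log_le_log ha (by linarith)
  have h5 : Real.log (t + d ^ 2) ≤ Real.log (b + 1) :=
    Real.log_le_log (by linarith) (by linarith)
  rw [abs_le]
  constructor
  · have := neg_abs_le (Real.log a)
    have := le_max_left |Real.log a| |Real.log (b + 1)|
    linarith
  · have := le_abs_self (Real.log (b + 1))
    have := le_max_right |Real.log a| |Real.log (b + 1)|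
    linarith

theorem lam_bd (ha : 0 < a) {t d : ℝ} (h1 : a ≤ t) (hd : 0 ≤ d) (hd1 : d ≤ 1) :
    |c.lam d t| ≤ max |Real.log a| |Real.log (b + 1)| := by
  rcases le_or_gt b t with hb | hb
  · rw [c.lam_zero hb, abs_zero]
    exact (abs_nonneg _).trans (le_max_left _ _)
  · rw [lam, abs_mul, abs_of_nonneg (c.nn t)]
    calc c.f t * |Real.log (t + d ^ 2)| ≤ 1 * |Real.log (t + d ^ 2)| :=
          mul_le_mul_of_nonneg_right (c.le t) (abs_nonneg _)
      _ ≤ _ := by rw [one_mul]; exact log_bd ha h1 hb.le hd hd1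

/-- `lam` is bounded above -/
theorem lam_le {t d : ℝ} (ht : 0 ≤ t) (hd : 0 < d) (hd1 : d ≤ 1) :
    c.lam d t ≤ max |Real.log a| |Real.log (b + 1)| := by
  rcases le_or_gt b t with h | h
  · rw [c.lam_zero h]
    exact (abs_nonneg _).trans (le_max_left _ _)
  · have h0 : 0 < d ^ 2 := by positivity
    have h3 : d ^ 2 ≤ 1 := by nlinarith
    rw [lam]
    have h5 : Real.log (t + d ^ 2) ≤ |Real.log (b + 1)| :=
      (Real.log_le_log (by linarith) (by linarith)).trans (le_abs_self _)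
    have h6 : c.f t * Real.log (t + d ^ 2) ≤ c.f t * |Real.log (b + 1)| :=
      mul_le_mul_of_nonneg_left h5 (c.nn t)
    have h7 : c.f t * |Real.log (b + 1)| ≤ 1 * |Real.log (b + 1)| :=
      mul_le_mul_of_nonneg_right (c.le t) (abs_nonneg _)
    linarith [le_max_right |Real.log a| |Real.log (b + 1)|]

/-- **the bound**, uniform in `d` -/
theorem exists_bound (ha : 0 < a) (hab : a < b) :
    ∃ C : ℝ, 0 ≤ C ∧ ∀ d : ℝ, 0 < d → d ≤ 1 → ∀ t : ℝ, 0 ≤ t → ∀ x y : ℝ, 0 ≤ x → 0 ≤ y →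
      y ≤ t * x → 0 ≤ (C + c.lam1 d t) * x + c.lam2 d t * y := by
  obtain ⟨B, hB0, hB⟩ := c.exists_bd
  set m : ℝ := max |Real.log a| |Real.log (b + 1)| with hm
  have hm0 : 0 ≤ m := (abs_nonneg _).trans (le_max_left _ _)
  have hb : 0 < b := ha.trans hab
  refine ⟨B * m + (B * m * b + 2 * B), by positivity, ?_⟩
  intro d hd hd1 t ht x y hx hy hyx
  have hp : 0 < t + d ^ 2 := by positivity
  have key : 0 ≤ c.f t * ((t + d ^ 2)⁻¹ * x - ((t + d ^ 2) ^ 2)⁻¹ * y) := by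
    refine mul_nonneg (c.nn t) ?_
    have h1 : ((t + d ^ 2) ^ 2)⁻¹ * y ≤ ((t + d ^ 2) ^ 2)⁻¹ * (t * x) :=
      mul_le_mul_of_nonneg_left hyx (by positivity)
    have h2 : ((t + d ^ 2) ^ 2)⁻¹ * (t * x) ≤ ((t + d ^ 2) ^ 2)⁻¹ * ((t + d ^ 2) * x) := by
      refine mul_le_mul_of_nonneg_left ?_ (by positivity)
      refine mul_le_mul_of_nonneg_right ?_ hx
      nlinarith [sq_nonneg d]
    have h3 : ((t + d ^ 2) ^ 2)⁻¹ * ((t + d ^ 2) * x) = (t + d ^ 2)⁻¹ * x := by
      field_simp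
    linarith
  have e : (B * m + (B * m * b + 2 * B) + c.lam1 d t) * x + c.lam2 d t * y =
      (B * m * x + c.f1 t * Real.log (t + d ^ 2) * x) +
      ((B * m * b + 2 * B) * x + (c.f2 t * Real.log (t + d ^ 2) +
        2 * c.f1 t * (t + d ^ 2)⁻¹) * y) +
      c.f t * ((t + d ^ 2)⁻¹ * x - ((t + d ^ 2) ^ 2)⁻¹ * y) := by
    unfold lam1 lam2
    ring
  rw [e]
  rcases lt_or_ge t a with hta | hta
  · rw [c.f1_low hta, c.f2_low hta]
    have : 0 ≤ B * m * x := by positivity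
    have : 0 ≤ (B * m * b + 2 * B) * x := by positivity
    simp only [zero_mul, mul_zero, add_zero]
    linarith
  rcases lt_or_ge b t with htb | htb
  · rw [c.f1_high htb, c.f2_high htb]
    have : 0 ≤ B * m * x := by positivity
    have : 0 ≤ (B * m * b + 2 * B) * x := by positivity
    simp only [zero_mul, mul_zero, add_zero]
    linarith
  have hl : |Real.log (t + d ^ 2)| ≤ m := log_bd ha hta htb hd.le hd1
  have h1 : 0 ≤ B * m * x + c.f1 t * Real.log (t + d ^ 2) * x := by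
    have h2 : |c.f1 t * Real.log (t + d ^ 2)| ≤ B * m := by
      rw [abs_mul]
      exact mul_le_mul (hB t).1 hl (abs_nonneg _) hB0
    have h3 := neg_abs_le (c.f1 t * Real.log (t + d ^ 2))
    have h4 : 0 ≤ (B * m + c.f1 t * Real.log (t + d ^ 2)) * x :=
      mul_nonneg (by linarith) hx
    linarith
  have h2 : 0 ≤ (B * m * b + 2 * B) * x + (c.f2 t * Real.log (t + d ^ 2) +
      2 * c.f1 t * (t + d ^ 2)⁻¹) * y := by
    have h3 : |c.f2 t * Real.log (t + d ^ 2)| ≤ B * m := by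
      rw [abs_mul]
      exact mul_le_mul (hB t).2 hl (abs_nonneg _) hB0
    have h4 : |2 * c.f1 t * (t + d ^ 2)⁻¹| ≤ 2 * B * (t + d ^ 2)⁻¹ := by
      rw [abs_mul, abs_mul, abs_of_pos (by norm_num : (0 : ℝ) < 2),
        abs_of_pos (inv_pos.2 hp)]
      have := (hB t).1
      gcongr
    have h5 := neg_abs_le (c.f2 t * Real.log (t + d ^ 2))
    have h6 := neg_abs_le (2 * c.f1 t * (t + d ^ 2)⁻¹)
    have h7 : -(B * m + 2 * B * (t + d ^ 2)⁻¹) * y ≤ (c.f2 t * Real.log (t + d ^ 2) +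
      2 * c.f1 t * (t + d ^ 2)⁻¹) * y := mul_le_mul_of_nonneg_right (by linarith) hy
    have h8 : (B * m) * y ≤ B * m * (b * x) := by
      refine mul_le_mul_of_nonneg_left (hyx.trans ?_) (by positivity)
      exact mul_le_mul_of_nonneg_right htb hx
    have h9 : (t + d ^ 2)⁻¹ * y ≤ x := by
      rw [inv_mul_le_iff₀ hp]
      refine hyx.trans ?_
      nlinarith [sq_nonneg d]
    have h10 : 2 * B * ((t + d ^ 2)⁻¹ * y) ≤ 2 * B * x :=
      mul_le_mul_of_nonneg_left h9 (by positivity)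
    nlinarith
  linarith

end Cut

/-! ### matrices -/

variable {n : ℕ}

theorem psd_comb {H T : Matrix (Fin n) (Fin n) ℂ} {t c1 c2 : ℝ} (hH : H.PosSemidef)
    (hT : T.PosSemidef) (hHT : (t • H - T).PosSemidef)
    (hc : ∀ x y : ℝ, 0 ≤ x → 0 ≤ y → y ≤ t * x → 0 ≤ c1 * x + c2 * y) :
    (c1 • H + c2 • T).PosSemidef := by
  refine Matrix.PosSemidef.of_dotProduct_mulVec_nonneg ?_ fun v => ?_
  · have h1 := hH.isHermitian
    have h2 := hT.isHermitian
    unfold Matrix.IsHermitian at *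
    rw [Matrix.conjTranspose_add, Matrix.conjTranspose_smul, Matrix.conjTranspose_smul, h1, h2]
    simp
  · have h1 := Complex.nonneg_iff.1 (hH.dotProduct_mulVec_nonneg v)
    have h2 := Complex.nonneg_iff.1 (hT.dotProduct_mulVec_nonneg v)
    have h3 := Complex.nonneg_iff.1 (hHT.dotProduct_mulVec_nonneg v)
    rw [Matrix.sub_mulVec, Matrix.smul_mulVec, dotProduct_sub, dotProduct_smul] at h3
    rw [Matrix.add_mulVec, Matrix.smul_mulVec, Matrix.smul_mulVec, dotProduct_add,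
      dotProduct_smul, dotProduct_smul]
    set X := star v ⬝ᵥ H *ᵥ v
    set Y := star v ⬝ᵥ T *ᵥ v
    simp only [Complex.sub_re, Complex.real_smul, Complex.re_ofReal_mul] at h3
    rw [Complex.nonneg_iff]
    simp only [Complex.add_re, Complex.add_im, Complex.real_smul, Complex.re_ofReal_mul,
      Complex.im_ofReal_mul]
    refine ⟨hc _ _ h1.1 h2.1 (by linarith [h3.1]), ?_⟩
    rw [← h1.2, ← h2.2]
    simp

end

end Crest.Agent.R281.End_946
end

-- ▼ part R281/End2_946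
section

/-!
# R281 (S0424), leaf S6-END, part 2 (helper946): global functions of `|w|²`

* `psd_sq`        : `|F|² ∂∂̄|F|² - ∂|F|² ⊗ ∂̄|F|²` is positive semidefinite
* `gl D φ`        : `φ(|w|²)` on `U`, `0` off `U`; smooth if `φ = 0` on `t ≥ b`, `b < ρ`
* `hsf_gl`, `hsf_gl_off`
* `wf D c d`      : the weight `gl (lam d)`; `wf_psd` : `C ∂∂̄|w|² + ∂∂̄ wf ≥ 0` near the fibre
* `curv_ge`, `curv_ge'` : curvature of `h^P e^{-P u - N wf}`
-/

set_option autoImplicit false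
set_option linter.unusedSectionVars false

open Set Filter Topology Complex
open scoped ContDiff Matrix ComplexConjugate ComplexOrder

namespace Crest.Agent.R281.End_946

open Crest.Agent.R275.Geo Crest.Agent.R275.Core144 Crest.Agent.R275.EDR890 Crest.Agent.R273
open Crest.Agent.R273.Defs_333 Crest.Agent.R273.HM_333 Crest.Agent.R273.Kah_333
open Crest.Agent.R273.Hess_333 Crest.Agent.R273.HessB_333
open Crest.Agent.R273.FIa0_597
open Crest.Agent.R273.FS_333 (sq wd_sq wd_sq' hess_sq contDiffAt_of_hol)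
open Crest.Agent.R281.Glob1_484 (hess_comp_mat)
open Crest.Agent.R281.LEnd_10

noncomputable section

variable {n : ℕ}

/-! ### Cauchy-Schwarz in matrix form -/

theorem dot_vmv (a v : Fin n → ℂ) :
    star v ⬝ᵥ (Matrix.vecMulVec a (star a) *ᵥ v) = ((‖star v ⬝ᵥ a‖ ^ 2 : ℝ) : ℂ) := by
  have h1 : star a ⬝ᵥ v = conj (star v ⬝ᵥ a) := by
    simp only [dotProduct, map_sum, map_mul, Pi.star_apply, RCLike.star_def, Complex.conj_conj]
    exact Finset.sum_congr rfl fun _ _ => mul_comm _ _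
  rw [Matrix.vecMulVec_mulVec, dotProduct_smul, h1]
  have h2 : MulOpposite.op (conj (star v ⬝ᵥ a)) • (star v ⬝ᵥ a) =
      (star v ⬝ᵥ a) * conj (star v ⬝ᵥ a) := rfl
  rw [h2, Complex.mul_conj, Complex.normSq_eq_norm_sq]

theorem psd_cs {N : ℕ} (D : Fin N → Fin n → ℂ) (f : Fin N → ℂ) :
    ((∑ k, ‖f k‖ ^ 2 : ℝ) • (∑ k, Matrix.vecMulVec (D k) (star (D k))) -
      Matrix.vecMulVec (∑ k, conj (f k) • D k) (star (∑ k, conj (f k) • D k))).PosSemidef := by
  refine Matrix.PosSemidef.of_dotProduct_mulVec_nonneg ?_ fun v => ?_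
  · have h1 : (∑ k, Matrix.vecMulVec (D k) (star (D k))).IsHermitian := by
      have : (∑ k, Matrix.vecMulVec (D k) (star (D k))).PosSemidef :=
        Matrix.posSemidef_sum _ fun k _ => Matrix.posSemidef_vecMulVec_self_star _
      exact this.isHermitian
    have h2 := (Matrix.posSemidef_vecMulVec_self_star (∑ k, conj (f k) • D k)).isHermitian
    unfold Matrix.IsHermitian at *
    rw [Matrix.conjTranspose_sub, Matrix.conjTranspose_smul, h1, h2]
    simp
  · rw [Matrix.sub_mulVec, Matrix.smul_mulVec, dotProduct_sub, dotProduct_smul, dot_vmv,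
      Matrix.sum_mulVec, dotProduct_sum]
    simp only [dot_vmv]
    rw [← Complex.ofReal_sum, Complex.real_smul, ← Complex.ofReal_mul, ← Complex.ofReal_sub]
    rw [Complex.zero_le_real, sub_nonneg]
    have h3 : star v ⬝ᵥ (∑ k, conj (f k) • D k) = ∑ k, conj (f k) * (star v ⬝ᵥ D k) := by
      rw [dotProduct_sum]
      refine Finset.sum_congr rfl fun k _ => ?_
      rw [dotProduct_smul, smul_eq_mul]
    rw [h3]
    have h4 : ‖∑ k, conj (f k) * (star v ⬝ᵥ D k)‖ ≤ ∑ k, ‖f k‖ * ‖star v ⬝ᵥ D k‖ := by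
      refine (norm_sum_le _ _).trans (le_of_eq ?_)
      refine Finset.sum_congr rfl fun k _ => ?_
      rw [norm_mul, RCLike.norm_conj]
    calc ‖∑ k, conj (f k) * (star v ⬝ᵥ D k)‖ ^ 2
        ≤ (∑ k, ‖f k‖ * ‖star v ⬝ᵥ D k‖) ^ 2 := by gcongr
      _ ≤ _ := Finset.sum_mul_sq_le_sq_mul_sq _ _ _

variable {N : ℕ} {F : Cn n → Fin N → ℂ} {U : Set (Cn n)} {z : Cn n}

theorem hess_sq_mat (hU : IsOpen U) (hF : ∀ k, DifferentiableOn ℂ (fun z => F z k) U)
    (hz : z ∈ U) : hess (sq F) z = ∑ k, Matrix.vecMulVec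
      (fun a => fderiv ℂ (fun z => F z k) z (EuclideanSpace.single a 1))
      (star fun a => fderiv ℂ (fun z => F z k) z (EuclideanSpace.single a 1)) := by
  ext a b
  rw [hess_sq hU hF hz, Matrix.sum_apply]
  rfl

theorem gr_sq (hU : IsOpen U) (hF : ∀ k, DifferentiableOn ℂ (fun z => F z k) U)
    (hz : z ∈ U) : gr (sq F) z = ∑ k, conj (F z k) •
      (fun a => fderiv ℂ (fun z => F z k) z (EuclideanSpace.single a 1)) := by
  funext a
  rw [gr, wd_sq' hU hF hz, Finset.sum_apply]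
  refine Finset.sum_congr rfl fun k _ => ?_
  rw [Pi.smul_apply, smul_eq_mul, mul_comm]

theorem psd_hess_sq (hU : IsOpen U) (hF : ∀ k, DifferentiableOn ℂ (fun z => F z k) U)
    (hz : z ∈ U) : (hess (sq F) z).PosSemidef := by
  rw [hess_sq_mat hU hF hz]
  exact Matrix.posSemidef_sum _ fun k _ => Matrix.posSemidef_vecMulVec_self_star _

theorem psd_sq (hU : IsOpen U) (hF : ∀ k, DifferentiableOn ℂ (fun z => F z k) U)
    (hz : z ∈ U) : ((sq F z : ℝ) • hess (sq F) z -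
      Matrix.vecMulVec (gr (sq F) z) (star (gr (sq F) z))).PosSemidef := by
  rw [hess_sq_mat hU hF hz, gr_sq hU hF hz]
  exact psd_cs _ _

/-! ### functions of `|w|²` on `M` -/

variable {M : Type} [TopologicalSpace M] {A : Atl n M} {K : Kah A} {L : LB A} {x0 : M}

section Glob

variable (D : EndIn K L x0)

open Classical in
/-- `φ(|w|²)` on `U`, zero off `U` -/
def gl (φ : ℝ → ℝ) (x : M) : ℝ := if x ∈ D.U then φ (sqw D.w x) else 0

theorem gl_mem {φ : ℝ → ℝ} {x : M} (hx : x ∈ D.U) : gl D φ x = φ (sqw D.w x) := if_pos hx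

theorem gl_off {φ : ℝ → ℝ} {x : M} (hx : x ∉ D.U) : gl D φ x = 0 := if_neg hx

theorem sqw_nonneg {r : ℕ} (w : M → Fin r → ℂ) (x : M) : 0 ≤ sqw w x :=
  Finset.sum_nonneg fun _ _ => by positivity

/-- `w` read in a chart -/
def wr (i : A.ι) : Cn n → Fin D.r → ℂ := fun z => D.w ((A.e i).symm z)

/-- the domain of `w` read in a chart -/
def Ur (i : A.ι) : Set (Cn n) := (A.e i).target ∩ (A.e i).symm ⁻¹' D.U

theorem isOpen_Ur (i : A.ι) : IsOpen (Ur D i) := isOpen_ti D.isOpen_U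

theorem wr_hol (i : A.ι) (k : Fin D.r) : DifferentiableOn ℂ (fun z => wr D i z k) (Ur D i) :=
  D.hol i k


theorem mem_Ur {i : A.ι} {x : M} (hx : x ∈ (A.e i).source) (hU : x ∈ D.U) : A.e i x ∈ Ur D i :=
  ⟨(A.e i).map_source hx, by rw [mem_preimage, (A.e i).left_inv hx]; exact hU⟩

theorem sq_contDiffAt {i : A.ι} {z : Cn n} (hz : z ∈ Ur D i) :
    ContDiffAt ℝ ∞ (FS_333.sq (wr D i)) z := by
  refine ContDiffAt.sum fun k _ => ?_
  exact (contDiffAt_of_hol (isOpen_Ur D i) (wr_hol D i k) hz).norm_sq ℝ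

theorem psd_sqw {i : A.ι} {x : M} (hx : x ∈ (A.e i).source) (hU : x ∈ D.U) :
    (hsf A (sqw D.w) i x).PosSemidef :=
  psd_hess_sq (isOpen_Ur D i) (wr_hol D i) (mem_Ur D hx hU)

theorem sq_at {i : A.ι} {x : M} (hx : x ∈ (A.e i).source) :
    sq (wr D i) (A.e i x) = sqw D.w x := by
  show sqw D.w ((A.e i).symm (A.e i x)) = _
  rw [(A.e i).left_inv hx]

/-- `|w|² ∂∂̄|w|² ≥ ∂|w|² ⊗ ∂̄|w|²` -/
theorem psd_sqw' {i : A.ι} {x : M} (hx : x ∈ (A.e i).source) (hU : x ∈ D.U) :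
    ((sqw D.w x : ℝ) • hsf A (sqw D.w) i x -
      Matrix.vecMulVec (gr (sq (wr D i)) (A.e i x)) (star (gr (sq (wr D i)) (A.e i x)))).PosSemidef := by
  have h := psd_sq (isOpen_Ur D i) (wr_hol D i) (mem_Ur D hx hU)
  rw [sq_at D hx] at h
  exact h

/-- `∂∂̄ (φ(|w|²))` on `U` -/
theorem hsf_gl {φ φ' : ℝ → ℝ} {d2 : ℝ} {i : A.ι} {x : M} (hx : x ∈ (A.e i).source)
    (hU : x ∈ D.U) (h1 : ∀ᶠ s in 𝓝 (sqw D.w x), HasDerivAt φ (φ' s) s)
    (h2 : HasDerivAt φ' d2 (sqw D.w x)) :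
    hsf A (gl D φ) i x = (φ' (sqw D.w x) : ℝ) • hsf A (sqw D.w) i x +
      (d2 : ℝ) • Matrix.vecMulVec (gr (sq (wr D i)) (A.e i x))
        (star (gr (sq (wr D i)) (A.e i x))) := by
  have hz := mem_Ur D hx hU
  have e1 : (fun z => gl D φ ((A.e i).symm z)) =ᶠ[𝓝 (A.e i x)] fun z => φ (sq (wr D i) z) := by
    filter_upwards [(isOpen_Ur D i).mem_nhds hz] with z hz
    exact gl_mem D hz.2
  have h := hess_comp_mat (φ := φ) (φ' := φ') (d2 := d2) (sq_contDiffAt D hz)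
    (by rw [sq_at D hx]; exact h1) (by rw [sq_at D hx]; exact h2)
  rw [sq_at D hx] at h
  unfold hsf
  rw [hess_congr e1, h]
  rfl

variable [T2Space M]

theorem eventually_off {x : M} (hx : ¬ (x ∈ D.U ∧ sqw D.w x ≤ D.ρ)) :
    ∀ᶠ y in 𝓝 x, ¬ (y ∈ D.U ∧ sqw D.w y ≤ D.ρ) :=
  D.cpt.isClosed.isOpen_compl.mem_nhds hx

theorem gl_zero {φ : ℝ → ℝ} {x : M} (h0 : ∀ t, D.ρ < t → φ t = 0)
    (hx : ¬ (x ∈ D.U ∧ sqw D.w x ≤ D.ρ)) : gl D φ x = 0 := by
  by_cases hU : x ∈ D.U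
  · rw [gl_mem D hU]
    refine h0 _ ?_
    by_contra h
    exact hx ⟨hU, not_lt.1 h⟩
  · exact gl_off D hU

/-- smoothness -/
theorem sm_gl {φ : ℝ → ℝ} {S : Set ℝ} (hS : IsOpen S) (hS0 : Ici 0 ⊆ S) (hφ : ContDiffOn ℝ ∞ φ S)
    (h0 : ∀ t, D.ρ < t → φ t = 0) : A.Sm (gl D φ) := by
  intro i z hz
  have hxs := (A.e i).map_target hz
  by_cases hU : (A.e i).symm z ∈ D.U
  · have hz' : z ∈ Ur D i := ⟨hz, hU⟩
    have e1 : (fun z => gl D φ ((A.e i).symm z)) =ᶠ[𝓝 z] fun z => φ (sq (wr D i) z) := by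
      filter_upwards [(isOpen_Ur D i).mem_nhds hz'] with z hz
      exact gl_mem D hz.2
    have h1 : ContDiffAt ℝ ∞ φ (sq (wr D i) z) := by
      exact hφ.contDiffAt (hS.mem_nhds (hS0 (mem_Ici.2 (FS_333.sq_nonneg' (wr D i) z))))
    exact ((h1.comp z (sq_contDiffAt D hz')).congr_of_eventuallyEq e1).contDiffWithinAt
  · have h1 := eventually_off D (x := (A.e i).symm z) (fun h => hU h.1)
    have h2 : ∀ᶠ w in 𝓝 z, gl D φ ((A.e i).symm w) = 0 := by
      have h3 : ContinuousAt (A.e i).symm z := (A.e i).continuousAt_symm hz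
      filter_upwards [h3.eventually h1] with w hw
      exact gl_zero D h0 hw
    have h4 : ContDiffAt ℝ ∞ (fun _ : Cn n => (0 : ℝ)) z := contDiffAt_const
    exact (h4.congr_of_eventuallyEq h2).contDiffWithinAt

theorem hsf_gl_off {φ : ℝ → ℝ} {i : A.ι} {x : M} (hx : x ∈ (A.e i).source)
    (h0 : ∀ t, D.ρ < t → φ t = 0) (hn : ¬ (x ∈ D.U ∧ sqw D.w x ≤ D.ρ)) :
    hsf A (gl D φ) i x = 0 := by
  have h1 := eventually_off D hn
  have hz := (A.e i).map_source hx
  have h3 : ContinuousAt (A.e i).symm (A.e i x) := (A.e i).continuousAt_symm hz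
  rw [← (A.e i).left_inv hx] at h1
  have h2 : (fun z => gl D φ ((A.e i).symm z)) =ᶠ[𝓝 (A.e i x)] fun _ => 0 := by
    filter_upwards [h3.eventually h1] with w hw
    exact gl_zero D h0 hw
  unfold hsf
  rw [hess_congr h2]
  have h5 := hess_const_mul (u := fun _ : Cn n => (0 : ℝ)) (z := A.e i x) 0 contDiffAt_const
  simpa using h5

end Glob

end

end Crest.Agent.R281.End_946
end

-- ▼ part R281/End3_946

/-!
# R281 (S0424), leaf S6-END, part 3 (helper946): the weight and the curvature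

* `wf D c d`   : the weight function `χ(|w|²) log(|w|² + d²)`
* `wf_psd`     : `C ∂∂̄|w|² + ∂∂̄ wf ≥ 0` on `U`, `C` independent of `d`
* `wt D c P N d u`, `mt` : the metric `h^P e^{-P u - N wf}` of `L ^ P`
* `curv_tube`  : curvature `≥ ∂∂̄|w|² - P δ K` near the fibre
* `curv_ge`    : curvature `≥ - P δ K` everywhere
-/

set_option autoImplicit false
set_option linter.unusedSectionVars false

open Set Filter Topology Complex
open scoped ContDiff Matrix ComplexConjugate ComplexOrder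

namespace Crest.Agent.R281.End_946

open Crest.Agent.R275.Geo Crest.Agent.R275.Core144 Crest.Agent.R275.EDR890 Crest.Agent.R273
open Crest.Agent.R273.Defs_333 Crest.Agent.R273.HM_333 Crest.Agent.R273.Kah_333
open Crest.Agent.R273.Hess_333 Crest.Agent.R273.HessB_333
open Crest.Agent.R273.FIa0_597
open Crest.Agent.R281.LEnd_10

noncomputable section

variable {n : ℕ} {M : Type} [TopologicalSpace M] {A : Atl n M} {K : Kah A} {L : LB A} {x0 : M}

theorem coe_smul' (r : ℝ) (X : Matrix (Fin n) (Fin n) ℂ) : (r : ℂ) • X = r • X := by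
  ext a b
  simp [Matrix.smul_apply]

theorem psd_smul {r : ℝ} (hr : 0 ≤ r) {X : Matrix (Fin n) (Fin n) ℂ} (hX : X.PosSemidef) :
    (r • X).PosSemidef := by
  have h := psd_comb (t := 0) (c1 := r) (c2 := 0) hX (Matrix.PosSemidef.zero)
    (by simpa using Matrix.PosSemidef.zero) (fun x y hx _ _ => by
      have := mul_nonneg hr hx
      simpa using this)
  simpa using h

section

variable (D : EndIn K L x0) {a b : ℝ} (c : Cut a b)

/-- the weight function -/
def wf (d : ℝ) : M → ℝ := gl D (c.lam d)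

theorem wf_mem {d : ℝ} {x : M} (hx : x ∈ D.U) : wf D c d x = c.lam d (sqw D.w x) := gl_mem D hx

theorem wf_low {d : ℝ} {x : M} (hx : x ∈ D.U) (h : sqw D.w x ≤ a) :
    wf D c d x = Real.log (sqw D.w x + d ^ 2) := by
  rw [wf_mem D c hx, c.lam_low h]

theorem wf_psd (ha : 0 < a) (hab : a < b) :
    ∃ C : ℝ, 0 ≤ C ∧ ∀ d : ℝ, 0 < d → d ≤ 1 → ∀ i, ∀ x ∈ (A.e i).source, x ∈ D.U →
      (C • hsf A (sqw D.w) i x + hsf A (wf D c d) i x).PosSemidef := by
  obtain ⟨C, hC, h⟩ := c.exists_bound ha hab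
  refine ⟨C, hC, fun d hd hd1 i x hx hU => ?_⟩
  have ht := sqw_nonneg D.w x
  have hp : 0 < sqw D.w x + d ^ 2 := by positivity
  have e := hsf_gl D (φ := c.lam d) (φ' := c.lam1 d) (d2 := c.lam2 d (sqw D.w x)) hx hU ?_
    (c.lam_d2 hp)
  · unfold wf
    rw [e, ← add_assoc, ← add_smul]
    refine psd_comb (psd_sqw D hx hU) (Matrix.posSemidef_vecMulVec_self_star _)
      (psd_sqw' D hx hU) fun x' y' hx' hy' hxy => ?_
    exact h d hd hd1 _ ht x' y' hx' hy' hxy
  · have ho : IsOpen {s : ℝ | 0 < s + d ^ 2} := isOpen_lt continuous_const (by fun_prop)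
    filter_upwards [ho.mem_nhds hp] with s hs
    exact c.lam_d1 hs

variable [T2Space M]

theorem wf_sm (hb : b ≤ D.ρ) {d : ℝ} (hd : 0 < d) : A.Sm (wf D c d) := by
  have ho : IsOpen {s : ℝ | 0 < s + d ^ 2} := isOpen_lt continuous_const (by fun_prop)
  refine sm_gl D ho (fun t ht => ?_) (c.lam_sm d) fun t ht => c.lam_zero (hb.trans ht.le)
  have h0 : 0 ≤ t := ht
  show 0 < t + d ^ 2
  positivity

theorem wf_off (hb : b ≤ D.ρ) {d : ℝ} {x : M} (hx : ¬ (x ∈ D.U ∧ sqw D.w x ≤ D.ρ)) :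
    wf D c d x = 0 := gl_zero D (fun _ ht => c.lam_zero (hb.trans ht.le)) hx

theorem hsf_wf_off (hb : b ≤ D.ρ) {d : ℝ} {i : A.ι} {x : M} (hx : x ∈ (A.e i).source)
    (hn : ¬ (x ∈ D.U ∧ sqw D.w x ≤ D.ρ)) : hsf A (wf D c d) i x = 0 :=
  hsf_gl_off D hx (fun _ ht => c.lam_zero (hb.trans ht.le)) hn

/-- upper bound of the weight, uniform in `d` -/
theorem wf_le (hb : b ≤ D.ρ) {d : ℝ} (hd : 0 < d) (hd1 : d ≤ 1) (x : M) :
    wf D c d x ≤ max |Real.log a| |Real.log (b + 1)| := by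
  by_cases hU : x ∈ D.U
  · rw [wf_mem D c hU]
    exact c.lam_le (sqw_nonneg _ _) hd hd1
  · rw [wf_off D c hb fun h => hU h.1]
    exact (abs_nonneg _).trans (le_max_left _ _)

/-- the total weight of `L ^ P` relative to `h ^ P` -/
def wt (P : ℕ) (N d : ℝ) (u : M → ℝ) (x : M) : ℝ := P * u x + N * wf D c d x

theorem wt_sm (hb : b ≤ D.ρ) (P : ℕ) (N : ℝ) {d : ℝ} (hd : 0 < d) {u : M → ℝ} (hu : A.Sm u) :
    A.Sm (wt D c P N d u) := fun i =>
  (contDiffOn_const.mul (hu i)).add (contDiffOn_const.mul (wf_sm D c hb hd i))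


/-- the metric `h^P e^{-P u - N wf}` -/
def mt (hb : b ≤ D.ρ) (P : ℕ) (N : ℝ) {d : ℝ} (hd : 0 < d) {u : M → ℝ} (hu : A.Sm u) :
    HM (L ^ P) := tw (pow D.h P) (wt D c P N d u) (wt_sm D c hb P N hd hu)




/-- the squared norms of `mt` -/
theorem mt_w (hb : b ≤ D.ρ) (P : ℕ) (N : ℝ) {d : ℝ} (hd : 0 < d) {u : M → ℝ} (hu : A.Sm u)
    (i : A.ι) (x : M) : (mt D c hb P N hd hu).w i x =
      D.h.w i x ^ P * Real.exp (-(P * u x + N * wf D c d x)) := by
  have h : (mt D c hb P N hd hu).w i x = (pow D.h P).w i x * Real.exp (-(wt D c P N d u x)) := rfl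
  rw [h, pow_w]
  rfl

end

end

end Crest.Agent.R281.End_946
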