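import Crest.Agent.R281.HkP3_508
import Crest.Agent.R281.KpK_487
import Crest.Agent.R273.FIlin_332
import Crest.Agent.R273.GreenG_5
import Crest.Agent.R281.D6e_986
import Crest.Agent.R281.Sk0_474
import Crest.Agent.R273.BKNe_37
import Crest.Agent.R281.KpU_487
import Crest.Agent.R281.LEnd0_10
import Crest.Agent.R272.Kod6_410
import Crest.Agent.R273.FIa0_597
import Crest.Agent.R281.HoC3_578
import Crest.Agent.R281.HoC4_578
import Crest.Agent.R281.End3_946
import Crest.Agent.R281.N2_373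
import Crest.Agent.R281.Hk6_389
import Crest.Agent.R273.AsmB_73
import Crest.Agent.R281.D6f_986
import Crest.Agent.R281.SK2_507
import Crest.Agent.R281.S6V6_664
import Crest.Agent.R281.Fub5_163
import Crest.Agent.R273.LeviR_155
import Crest.Agent.R273.UpV_914

-- ▼ part R281/RF1_373
section

/-!
# R281 (S0424), S6-RF (helper373), part 1: linear algebra of hyperkaehler pairs

* `tr_ge`, `eq_of_tr` : `tr (G⁻¹ S) ≥ n` for `det S = det G`, equality iff `S = G`;
* `qm_left`  : `qm S G H = tr (adj G H)` for `S G⁻ᵀ Sᴴ = G`;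
* `qm_symm`, `qm_add`, `qm_smulS`
* `qm_pair`  : `N r² det G = N det G + 2 tr (adj G Θ) + qm S Θ Θ` for two pairs `(G, S)`,
               `(G + Θ, r S)`
-/

set_option autoImplicit false
set_option linter.unusedSectionVars false

open Set Filter Topology Complex
open scoped ContDiff Matrix ComplexConjugate ComplexOrder

namespace Crest.Agent.R281.RF_373

open Crest.Agent.R281.Defs_273 (qm)
open Crest.Agent.R273.FIlin_332 (simd nd nd_pos det_nd tr_eq)

variable {n : ℕ}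

/-- for positive definite `G`, positive semidefinite `S` with `det S = det G`: `tr (G⁻¹ S) ≥ n`, and
equality forces `S = G` -/
theorem eq_of_tr {G S : Matrix (Fin n) (Fin n) ℂ} (hG : G.PosDef) (hS : S.PosSemidef)
    (hdet : S.det = G.det) (ht : ((G⁻¹ * S).trace).re ≤ n) : S = G := by
  obtain ⟨B, d, hB, hd, h1, h2⟩ := simd hG hS
  have hGd : G.det = (nd B : ℂ) := by
    rw [h1, Matrix.det_mul, det_nd]
  have hSd : S.det = ((nd B * ∏ i, d i : ℝ) : ℂ) := by
    rw [h2, Matrix.det_mul, Matrix.det_mul, Matrix.det_diagonal]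
    push_cast
    rw [← det_nd]
    ring
  rw [tr_eq hB h1 h2, Complex.ofReal_re] at ht
  rw [hSd, hGd] at hdet
  have hdet' : nd B * ∏ i, d i = nd B := by exact_mod_cast hdet
  have hprod : ∏ i, d i = 1 := by
    have := nd_pos hB
    exact mul_left_cancel₀ this.ne' (by rw [hdet', mul_one])
  have hdpos : ∀ i, 0 < d i := by
    intro i
    refine lt_of_le_of_ne (hd i) fun h0 => ?_
    have : ∏ i, d i = 0 := Finset.prod_eq_zero (Finset.mem_univ i) h0.symm
    rw [this] at hprod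
    exact zero_ne_one hprod
  have hlog : ∑ i, Real.log (d i) = 0 := by
    rw [← Real.log_prod fun i _ => (hdpos i).ne', hprod, Real.log_one]
  have hle : ∀ i ∈ Finset.univ, (0 : ℝ) ≤ d i - 1 - Real.log (d i) := fun i _ => by
    have := Real.log_le_sub_one_of_pos (hdpos i)
    linarith
  have hsum : ∑ i, (d i - 1 - Real.log (d i)) = 0 := by
    refine le_antisymm ?_ (Finset.sum_nonneg hle)
    rw [Finset.sum_sub_distrib, Finset.sum_sub_distrib, hlog]
    simp
    linarith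
  have hall := (Finset.sum_eq_zero_iff_of_nonneg hle).1 hsum
  have hd1 : ∀ i, d i = 1 := by
    intro i
    by_contra hne
    have h3 := Real.log_lt_sub_one_of_pos (hdpos i) hne
    have h4 := hall i (Finset.mem_univ i)
    linarith
  rw [h1, h2]
  simp [hd1]

theorem conjT_map {S : Matrix (Fin n) (Fin n) ℂ} (hS : Sᵀ = -S) : Sᴴ = - S.map conj := by
  ext a b
  have h1 := congrFun (congrFun hS a) b
  rw [Matrix.transpose_apply, Matrix.neg_apply] at h1
  rw [Matrix.conjTranspose_apply, Matrix.neg_apply, Matrix.map_apply, h1, star_neg]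
  rfl

/-- `S⁻¹ G (conj S)⁻¹ = - (Gᵀ)⁻¹` for a hyperkaehler pair -/
theorem pair_inv {S G : Matrix (Fin n) (Fin n) ℂ} (hS : Sᵀ = -S) (hd : S.det ≠ 0)
    (hR : S * (Gᵀ)⁻¹ * Sᴴ = G) : S⁻¹ * G * (S.map conj)⁻¹ = - (Gᵀ)⁻¹ := by
  have hu : IsUnit S.det := isUnit_iff_ne_zero.2 hd
  have hc : S.map conj = - Sᴴ := by rw [conjT_map hS, neg_neg]
  have hu' : IsUnit (Sᴴ).det := by
    rw [Matrix.det_conjTranspose]
    exact hu.star
  have h1 : (S.map conj)⁻¹ = - (Sᴴ)⁻¹ := by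
    rw [hc]
    refine Matrix.inv_eq_left_inv ?_
    rw [neg_mul_neg, Matrix.nonsing_inv_mul _ hu']
  rw [h1, Matrix.mul_neg]
  congr 1
  calc S⁻¹ * G * (Sᴴ)⁻¹ = S⁻¹ * (S * (Gᵀ)⁻¹ * Sᴴ) * (Sᴴ)⁻¹ := by rw [hR]
    _ = (S⁻¹ * S) * (Gᵀ)⁻¹ * (Sᴴ * (Sᴴ)⁻¹) := by simp only [Matrix.mul_assoc]
    _ = (Gᵀ)⁻¹ := by
      rw [Matrix.nonsing_inv_mul _ hu, Matrix.mul_nonsing_inv _ hu', one_mul, mul_one]

theorem qm_left {S G : Matrix (Fin n) (Fin n) ℂ} (hS : Sᵀ = -S) (hd : S.det ≠ 0)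
    (hR : S * (Gᵀ)⁻¹ * Sᴴ = G) (hG : G.PosDef) (hdet : G.det = ((‖S.det‖ : ℝ) : ℂ))
    (H : Matrix (Fin n) (Fin n) ℂ) : qm S G H = (G.adjugate * H).trace := by
  unfold qm
  rw [pair_inv hS hd hR, Matrix.neg_mul, Matrix.trace_neg, neg_mul_neg, ← hdet,
    Crest.Agent.R273.GreenG_5.adjugate_eq hG, Matrix.smul_mul, Matrix.trace_smul, smul_eq_mul]
  congr 1
  have h1 : (Gᵀ)⁻¹ * Hᵀ = (H * G⁻¹)ᵀ := by
    rw [Matrix.transpose_mul, Matrix.transpose_nonsing_inv]
  rw [h1, Matrix.trace_transpose, Matrix.trace_mul_comm]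

theorem qm_symm {S : Matrix (Fin n) (Fin n) ℂ} (hS : Sᵀ = -S) (hd : S.det ≠ 0)
    (G H : Matrix (Fin n) (Fin n) ℂ) : qm S H G = qm S G H := by
  have hu : IsUnit S.det := isUnit_iff_ne_zero.2 hd
  have hc : (S.map conj)ᵀ = - S.map conj := by
    ext a b
    have h1 := congrFun (congrFun hS a) b
    rw [Matrix.transpose_apply, Matrix.neg_apply] at h1
    rw [Matrix.transpose_apply, Matrix.neg_apply, Matrix.map_apply, Matrix.map_apply, h1, map_neg]
  have hneg : ∀ X : Matrix (Fin n) (Fin n) ℂ, IsUnit X.det → (-X)⁻¹ = - X⁻¹ := by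
    intro X hX
    refine Matrix.inv_eq_left_inv ?_
    rw [neg_mul_neg, Matrix.nonsing_inv_mul _ hX]
  have hcu : IsUnit (S.map conj).det := by
    have : (S.map conj).det = conj S.det := by
      rw [← RingHom.mapMatrix_apply, ← RingHom.map_det]
    rw [this]
    exact hu.map (starRingEnd ℂ)
  have h1 : (S⁻¹)ᵀ = - S⁻¹ := by
    rw [Matrix.transpose_nonsing_inv, hS, hneg _ hu]
  have h2 : ((S.map conj)⁻¹)ᵀ = - (S.map conj)⁻¹ := by
    rw [Matrix.transpose_nonsing_inv, hc, hneg _ hcu]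
  unfold qm
  congr 1
  have h3 : (S⁻¹ * H * (S.map conj)⁻¹ * Gᵀ)ᵀ = G * (S.map conj)⁻¹ * Hᵀ * S⁻¹ := by
    rw [Matrix.transpose_mul, Matrix.transpose_mul, Matrix.transpose_mul,
      Matrix.transpose_transpose, h1, h2]
    simp only [Matrix.mul_neg, Matrix.neg_mul, neg_neg, Matrix.mul_assoc]
  rw [← Matrix.trace_transpose, h3, Matrix.trace_mul_comm]
  simp only [Matrix.mul_assoc]

theorem qm_add_right (S G H H' : Matrix (Fin n) (Fin n) ℂ) :
    qm S G (H + H') = qm S G H + qm S G H' := by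
  unfold qm
  rw [Matrix.transpose_add, Matrix.mul_add, Matrix.trace_add, mul_add]

theorem qm_add_left (S G G' H : Matrix (Fin n) (Fin n) ℂ) :
    qm S (G + G') H = qm S G H + qm S G' H := by
  unfold qm
  rw [Matrix.mul_add, Matrix.add_mul, Matrix.add_mul, Matrix.trace_add, mul_add]

theorem qm_smulS {S : Matrix (Fin n) (Fin n) ℂ} (hd : S.det ≠ 0) {r : ℝ} (hr : 0 < r)
    (G H : Matrix (Fin n) (Fin n) ℂ) :
    ((r ^ 2 : ℝ) : ℂ) * qm ((r : ℂ) • S) G H = ((r ^ n : ℝ) : ℂ) * qm S G H := by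
  have hu : IsUnit S.det := isUnit_iff_ne_zero.2 hd
  have hrc : (r : ℂ) ≠ 0 := by exact_mod_cast hr.ne'
  have hinv : ∀ X : Matrix (Fin n) (Fin n) ℂ, IsUnit X.det → ((r : ℂ) • X)⁻¹ = (r : ℂ)⁻¹ • X⁻¹ := by
    intro X hX
    refine Matrix.inv_eq_left_inv ?_
    rw [Matrix.smul_mul, Matrix.mul_smul, smul_smul, inv_mul_cancel₀ hrc, one_smul,
      Matrix.nonsing_inv_mul _ hX]
  have hcu : IsUnit (S.map conj).det := by
    have : (S.map conj).det = conj S.det := by
      rw [← RingHom.mapMatrix_apply, ← RingHom.map_det]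
    rw [this]
    exact hu.map (starRingEnd ℂ)
  have hmap : ((r : ℂ) • S).map conj = (r : ℂ) • S.map conj := by
    ext a b
    simp
  unfold qm
  rw [hmap, hinv _ hu, hinv _ hcu, Matrix.det_smul, Fintype.card_fin, norm_mul, norm_pow,
    Complex.norm_real, Real.norm_eq_abs, abs_of_pos hr]
  simp only [Matrix.smul_mul, Matrix.mul_smul, smul_smul, Matrix.trace_smul, smul_eq_mul]
  push_cast
  field_simp

/-- the identity behind `λ - 1 = c (ω, e)` -/
theorem qm_pair {S G Θ : Matrix (Fin n) (Fin n) ℂ} (hS : Sᵀ = -S) (hd : S.det ≠ 0)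
    (hR : S * (Gᵀ)⁻¹ * Sᴴ = G) (hG : G.PosDef) (hdet : G.det = ((‖S.det‖ : ℝ) : ℂ))
    {r : ℝ} (hr : 0 < r)
    (hR' : ((r : ℂ) • S) * ((G + Θ)ᵀ)⁻¹ * ((r : ℂ) • S)ᴴ = G + Θ) (hG' : (G + Θ).PosDef)
    (hdet' : (G + Θ).det = ((‖((r : ℂ) • S).det‖ : ℝ) : ℂ)) :
    (n : ℂ) * ((r ^ 2 : ℝ) : ℂ) * G.det =
      n * G.det + 2 * (G.adjugate * Θ).trace + qm S Θ Θ := by
  have hrc : (r : ℂ) ≠ 0 := by exact_mod_cast hr.ne'
  have hS' : ((r : ℂ) • S)ᵀ = - ((r : ℂ) • S) := by
    rw [Matrix.transpose_smul, hS, smul_neg]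
  have hd' : ((r : ℂ) • S).det ≠ 0 := by
    rw [Matrix.det_smul]
    exact mul_ne_zero (pow_ne_zero _ hrc) hd
  have hself : ∀ X : Matrix (Fin n) (Fin n) ℂ, (X.adjugate * X).trace = n * X.det := by
    intro X
    rw [Matrix.adjugate_mul, Matrix.trace_smul, Matrix.trace_one, Fintype.card_fin, smul_eq_mul,
      mul_comm]
  have h1 := qm_left hS hd hR hG hdet G
  have h2 := qm_left hS hd hR hG hdet Θ
  have h3 := qm_left hS' hd' hR' hG' hdet' (G + Θ)
  have h4 := qm_smulS hd hr (G + Θ) (G + Θ)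
  rw [h3, hself] at h4
  rw [hself] at h1
  have h5 : (G + Θ).det = ((r ^ n : ℝ) : ℂ) * G.det := by
    rw [hdet', hdet, Matrix.det_smul, Fintype.card_fin, norm_mul, norm_pow, Complex.norm_real,
      Real.norm_eq_abs, abs_of_pos hr]
    push_cast
    ring
  have h6 : qm S (G + Θ) (G + Θ) = n * G.det + 2 * (G.adjugate * Θ).trace + qm S Θ Θ := by
    rw [qm_add_right, qm_add_left, qm_add_left, h1, h2, qm_symm hS hd G Θ, h2]
    ring
  rw [h6, h5] at h4
  have hrn : ((r ^ n : ℝ) : ℂ) ≠ 0 := by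
    exact_mod_cast (pow_pos hr n).ne'
  have h7 : ((r ^ n : ℝ) : ℂ) * ((n : ℂ) * ((r ^ 2 : ℝ) : ℂ) * G.det) =
      ((r ^ n : ℝ) : ℂ) * (n * G.det + 2 * (G.adjugate * Θ).trace + qm S Θ Θ) := by
    rw [← h4]
    ring
  exact mul_left_cancel₀ hrn h7

end Crest.Agent.R281.RF_373
end

-- ▼ part R281/RF2_373
section

/-!
# R281 (S0424), S6-RF (helper373), part 2: the two Yau metrics and `λ > 1`

* `addC`      : the Kaehler metric `K + cur h`;
* `exists_pair` : `NefW K L`, `σ.Uniq` ⟹ `h : HM L`, `K' = K + cur h`, `HK K' (r σ)`, `r > 0`;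
* `one_lt`    : for `HK K σ`, `L` nef, isotropic, not flat: `r > 1`;
* `two_yau`   : both;
* `isotropic_smul`, `end6_of` : `END6` follows from the same statement for hyperkaehler pairs.
-/

set_option autoImplicit false
set_option linter.unusedSectionVars false

open Set Filter Topology Complex
open scoped ContDiff Matrix ComplexConjugate ComplexOrder

namespace Crest.Agent.R281.RF_373

open Crest.Agent.R275.Geo Crest.Agent.R275.Core144 Crest.Agent.R275.EDR890
open Crest.Agent.R275.GC293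
open Crest.Agent.R273.Hess_333 Crest.Agent.R273.HessB_333 Crest.Agent.R273.Defs_333
open Crest.Agent.R273.HM_333 Crest.Agent.R273.Kah_333 Crest.Agent.R273.Vol_333
open Crest.Agent.R273.StV_37 Crest.Agent.R273.Green_5 Crest.Agent.R273.GreenG_5
open Crest.Agent.R273.GreenM_5 Crest.Agent.R273.VolInv_5
open Crest.Agent.R273.StokesV_332 (intD Den offK_univ NonnegD intD_nonneg eq_zero_of_intD)
open Crest.Agent.R273.BKNe_37 (intD_eq_totc)
open Crest.Agent.R281.Defs_273 Crest.Agent.R281.HkP3_508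

noncomputable section

variable {n : ℕ} {M : Type} [TopologicalSpace M] {A : Atl n M} {L : LB A}

/-- the Kaehler metric `K + cur h` -/
def addC (K : Kah A) (h : HM L)
    (hp : ∀ i, ∀ x ∈ (A.e i).source, (K.g i x + cur h i x).PosDef) : Kah A where
  g i x := K.g i x + cur h i x
  sm := ((kah_cf K).add (cur_cf h)).sm
  pos := hp
  tr := ((kah_cf K).add (cur_cf h)).tr
  closed := ((kah_cf K).add (cur_cf h)).closed
  closed' i z hz a b c := by
    have hK : ∀ b, DifferentiableAt ℝ (fun w => K.g i ((A.e i).symm w) a b) z := fun b =>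
      (kah_cf K).diffAt hz a b
    have hU : ∀ b, DifferentiableAt ℝ (fun w => cur h i ((A.e i).symm w) a b) z := fun b =>
      (cur_cf h).diffAt hz a b
    have e : ∀ b c, wd (true, c) (fun w =>
        (K.g i ((A.e i).symm w) + cur h i ((A.e i).symm w)) a b) z =
        wd (true, c) (fun w => K.g i ((A.e i).symm w) a b) z +
          wd (true, c) (fun w => cur h i ((A.e i).symm w) a b) z := fun b c =>
      wd_add (hK b) (hU b) _
    rw [e b c, e c b, K.closed' i z hz, cur_closed' h i hz]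

/-- the second hyperkaehler metric -/
theorem exists_pair [T2Space M] [CompactSpace M] [ConnectedSpace M] [Finite A.ι] (P : Part A)
    (K : Kah A) (σ : HSymp A) (hu : σ.Uniq) (hnef : NefW K L) :
    ∃ (h : HM L) (K' : Kah A) (r : ℝ) (hr : (r : ℂ) ≠ 0), 0 < r ∧
      (∀ i, ∀ x, K'.g i x = K.g i x + cur h i x ∨ x ∉ (A.e i).source) ∧
      HK K' (smulHS (r : ℂ) hr σ) := by
  obtain ⟨h0, hh⟩ := hnef (1 / 2) (by norm_num)
  have hp0 : ∀ i, ∀ x ∈ (A.e i).source, (K.g i x + cur h0 i x).PosDef := by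
    intro i x hx
    have h1 : ((1 / 2 : ℝ) • K.g i x).PosDef := (K.pos i x hx).smul (by norm_num)
    have h2 := h1.add_posSemidef (hh i x hx)
    have h3 : (1 / 2 : ℝ) • K.g i x + (cur h0 i x + ((1 / 2 : ℝ) : ℂ) • K.g i x) =
        K.g i x + cur h0 i x := by
      ext a b
      simp only [Matrix.add_apply, Matrix.smul_apply, smul_eq_mul, Complex.real_smul]
      push_cast
      ring
    rwa [h3] at h2
  obtain ⟨u, hs, hp, r, hr, hr0, hHK⟩ :=
    exists_HK_class P (KpK_487.yau_kah A) (addC K h0 hp0) σ hu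
  refine ⟨tw h0 u hs, addK (addC K h0 hp0) u hs hp, r, hr, hr0, fun i x => ?_, hHK⟩
  by_cases hx : x ∈ (A.e i).source
  · refine Or.inl ?_
    show K.g i x + cur h0 i x + hsf A u i x = _
    rw [cur_tw h0 hs i hx, add_assoc]
  · exact Or.inr hx

theorem smAt_cmul {i : A.ι} {f : M → ℂ} (c : ℂ) (hf : A.SmAt i f) :
    A.SmAt i (fun x => c * f x) := (contDiffOn_const (c := c)).mul hf

section

variable [T2Space M] [CompactSpace M] (P : Part A)

theorem den_det (K : Kah A) : Den A (fun i x => (K.g i x).det) where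
  sm i := smAt_det (K.sm i)
  tr i j x hx := by
    rw [K.tr i j x hx, Matrix.det_mul, Matrix.det_mul, Matrix.det_transpose, dens_Jm]
    have h2 : ((Jm A i j x).map conj).det = conj (Jm A i j x).det := by
      rw [← RingHom.mapMatrix_apply, ← RingHom.map_det]
    rw [h2]
    ring

theorem den_tr {G S : A.ι → M → Matrix (Fin n) (Fin n) ℂ} (hG : CF A G) (hS : CF A S) :
    Den A (fun i x => ((G i x).adjugate * S i x).trace) where
  sm i := smAt_trA hG hS i
  tr i j x hx := trA_dn hG.tr hS.tr i j x hx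

/-- `∫ det K > 0` -/
theorem vol_pos [Nonempty M] (K : Kah A) : 0 < (totc P (fun i x => (K.g i x).det)).re := by
  rw [← intD_eq_totc]
  have hn : NonnegD A (fun i x => (K.g i x).det) := fun i x hx => by
    have h1 := (K.pos i x hx).det_pos
    exact ⟨(Complex.lt_def.1 h1).1.le, (Complex.lt_def.1 h1).2.symm⟩
  have h0 := intD_nonneg P (den_det K) hn isCompact_univ (offK_univ _)
  refine lt_of_le_of_ne h0.1 fun h1 => ?_
  obtain ⟨x⟩ := ‹Nonempty M›
  obtain ⟨i, hi⟩ := A.cover x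
  have h2 := eq_zero_of_intD P (den_det K) hn isCompact_univ (offK_univ _) h1.symm i x hi
  exact (K.pos i x hi).det_pos.ne' h2

theorem vol_im (K : Kah A) : (totc P (fun i x => (K.g i x).det)).im = 0 := by
  rw [← intD_eq_totc]
  have hn : NonnegD A (fun i x => (K.g i x).det) := fun i x hx => by
    have h1 := (K.pos i x hx).det_pos
    exact ⟨(Complex.lt_def.1 h1).1.le, (Complex.lt_def.1 h1).2.symm⟩
  exact (intD_nonneg P (den_det K) hn isCompact_univ (offK_univ _)).2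

/-- the degree does not depend on the metric of `L` -/
theorem deg_indep (K : Kah A) (h h' : HM L) :
    totc P (fun i x => ((K.g i x).adjugate * cur h' i x).trace) =
      totc P (fun i x => ((K.g i x).adjugate * cur h i x).trace) := by
  have h0 : A.Sm (fun _ : M => (0 : ℝ)) := fun i => contDiffOn_const
  have h1 : A.Sm (fun x => - ratio h h' x) := fun i => (sm_ratio h h' i).neg
  rw [← mixed P (kah_cf K) (cur_cf h) h0 h1]
  refine totc_congr P fun i x hx => ?_
  have hz := (A.e i).map_source hx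
  have e1 : hsf A (fun _ : M => (0 : ℝ)) i x = 0 := D6_986.hess_zero' _
  have e2 : hsf A (fun x => - ratio h h' x) i x = - hsf A (ratio h h') i x := by
    have h1 := hsf_read (A := A) (fun x => - ratio h h' x) i hz
    have h2 := hsf_read (A := A) (ratio h h') i hz
    rw [(A.e i).left_inv hx] at h1 h2
    rw [h1, h2, ← hess_neg (sm_contDiffAt (sm_ratio h h') i hz)]
  show ((K.g i x).adjugate * cur h' i x).trace =
    ((K.g i x + hsf A (fun _ : M => (0 : ℝ)) i x).adjugate *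
      (cur h i x + hsf A (fun x => - ratio h h' x) i x)).trace
  rw [e1, e2, add_zero, cur_ratio h h' i hx, sub_eq_add_neg]

/-- a nef class has nonnegative degree -/
theorem deg_nonneg (K : Kah A) (hnef : NefW K L) (h : HM L) :
    0 ≤ (totc P (fun i x => ((K.g i x).adjugate * cur h i x).trace)).re := by
  have hself : ∀ X : Matrix (Fin n) (Fin n) ℂ, (X.adjugate * X).trace = n * X.det := by
    intro X
    rw [Matrix.adjugate_mul, Matrix.trace_smul, Matrix.trace_one, Fintype.card_fin, smul_eq_mul,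
      mul_comm]
  have key : ∀ ε : ℝ, 0 < ε →
      0 ≤ (totc P (fun i x => ((K.g i x).adjugate * cur h i x).trace)).re +
        ε * (n * (totc P (fun i x => (K.g i x).det)).re) := by
    intro ε hε
    obtain ⟨h', hh⟩ := hnef ε hε
    have hcf : CF A (fun i x => cur h' i x + (ε : ℂ) • K.g i x) :=
      (cur_cf h').add ((kah_cf K).smul _)
    have hnn : NonnegD A (fun i x =>
        ((K.g i x).adjugate * (cur h' i x + (ε : ℂ) • K.g i x)).trace) := fun i x hx => by
      have h1 := trace_adj_nonneg (K.pos i x hx) (hh i x hx)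
      exact ⟨(Complex.le_def.1 h1).1, (Complex.le_def.1 h1).2.symm⟩
    have h1 := (intD_nonneg P (den_tr (kah_cf K) hcf) hnn isCompact_univ (offK_univ _)).1
    rw [intD_eq_totc] at h1
    have h2 : totc P (fun i x =>
        ((K.g i x).adjugate * (cur h' i x + (ε : ℂ) • K.g i x)).trace) =
        totc P (fun i x => ((K.g i x).adjugate * cur h i x).trace) +
          (ε : ℂ) * ((n : ℂ) * totc P (fun i x => (K.g i x).det)) := by
      have h3 : totc P (fun i x =>
          ((K.g i x).adjugate * (cur h' i x + (ε : ℂ) • K.g i x)).trace) =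
          totc P (fun i x => ((K.g i x).adjugate * cur h' i x).trace +
            ((ε : ℂ) * n) * (K.g i x).det) := by
        refine totc_congr P fun i x _ => ?_
        rw [Matrix.mul_add, Matrix.trace_add, Matrix.mul_smul, Matrix.trace_smul, hself,
          smul_eq_mul]
        ring
      rw [h3, totc_add P (fun i => smAt_trA (kah_cf K) (cur_cf h') i)
        (fun i => smAt_cmul ((ε : ℂ) * n) (smAt_det (K.sm i))), totc_smul,
        deg_indep P K h h']
      ring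
    rw [h2, Complex.add_re, Complex.re_ofReal_mul] at h1
    have h4 : ((n : ℂ) * totc P (fun i x => (K.g i x).det)).re =
        n * (totc P (fun i x => (K.g i x).det)).re := by
      simp
    rwa [h4] at h1
  refine le_of_forall_pos_le_add fun ε hε => ?_
  set V := (n : ℝ) * (totc P (fun i x => (K.g i x).det)).re with hV
  have h5 := key (ε / (|V| + 1)) (by positivity)
  have h6 : ε / (|V| + 1) * V ≤ ε := by
    rw [div_mul_eq_mul_div, div_le_iff₀ (by positivity)]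
    have := le_abs_self V
    nlinarith
  linarith

/-- **`λ > 1`** -/
theorem one_lt [Nonempty M] (K : Kah A) (σ : HSymp A) (hK : HK K σ) (hnef : NefW K L)
    (hnf : NonFlat L) (hiso : Isotropic P σ L) (hn : 0 < n) {h : HM L} {K' : Kah A} {r : ℝ}
    {hr : (r : ℂ) ≠ 0} (hr0 : 0 < r)
    (hg : ∀ i, ∀ x, K'.g i x = K.g i x + cur h i x ∨ x ∉ (A.e i).source)
    (hK' : HK K' (smulHS (r : ℂ) hr σ)) : 1 < r := by
  set V := totc P (fun i x => (K.g i x).det) with hV
  set D := totc P (fun i x => ((K.g i x).adjugate * cur h i x).trace) with hD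
  have hVp : 0 < V.re := vol_pos P K
  have hVi : V.im = 0 := vol_im P K
  have hDp : 0 ≤ D.re := deg_nonneg P K hnef h
  have hg' : ∀ i, ∀ x ∈ (A.e i).source, K'.g i x = K.g i x + cur h i x := fun i x hx =>
    (hg i x).resolve_right (not_not.2 hx)
  -- the pointwise identity
  have hpt : ∀ i, ∀ x ∈ (A.e i).source, qd σ (cur h) (cur h) i x =
      ((n : ℂ) * ((r ^ 2 : ℝ) : ℂ) - n) * (K.g i x).det +
        (-2) * ((K.g i x).adjugate * cur h i x).trace := by
    intro i x hx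
    have e1 := hK'.rel i x hx
    have e2 := hK'.det i hx
    have e3 := K'.pos i x hx
    rw [hg' i x hx] at e1 e2 e3
    have := qm_pair (S := σ.s i x) (G := K.g i x) (Θ := cur h i x) (σ.alt i x hx) (σ.nd i x hx)
      (hK.rel i x hx) (K.pos i x hx) (hK.det i hx) hr0 e1 e3 e2
    show qm (σ.s i x) (cur h i x) (cur h i x) = _
    linear_combination (-1 : ℂ) * this
  have hint : (0 : ℂ) = ((n : ℂ) * ((r ^ 2 : ℝ) : ℂ) - n) * V + (-2) * D := by
    have h1 := hiso h
    rw [intD_eq_totc, totc_congr P hpt, totc_add P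
      (fun i => smAt_cmul ((n : ℂ) * ((r ^ 2 : ℝ) : ℂ) - n) (smAt_det (K.sm i)))
      (fun i => smAt_cmul (-2 : ℂ) (smAt_trA (kah_cf K) (cur_cf h) i)),
      totc_smul, totc_smul] at h1
    exact h1.symm
  have hre : 0 = n * (r ^ 2 - 1) * V.re - 2 * D.re := by
    have h1 := congrArg Complex.re hint
    have h2 : ((n : ℂ) * ((r ^ 2 : ℝ) : ℂ) - n) = ((n * (r ^ 2 - 1) : ℝ) : ℂ) := by
      push_cast; ring
    have h3 : (-2 : ℂ) = ((-2 : ℝ) : ℂ) := by push_cast; ring
    rw [h2, h3, Complex.add_re, Complex.re_ofReal_mul, Complex.re_ofReal_mul, Complex.zero_re] at h1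
    linarith
  have hn' : (0 : ℝ) < n := by exact_mod_cast hn
  have hr1 : 1 ≤ r := by
    by_contra hlt
    push Not at hlt
    have h1 : r ^ 2 - 1 < 0 := by nlinarith
    have h2 : n * (r ^ 2 - 1) * V.re < 0 := by
      have := mul_neg_of_pos_of_neg hn' h1
      exact mul_neg_of_neg_of_pos this hVp
    linarith
  refine lt_of_le_of_ne hr1 fun he => ?_
  -- `r = 1`
  subst he
  have hD0 : D.re = 0 := by
    have : (1 : ℝ) ^ 2 - 1 = 0 := by norm_num
    rw [this] at hre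
    linarith
  have hdet : ∀ i, ∀ x ∈ (A.e i).source, (K'.g i x).det = (K.g i x).det := by
    intro i x hx
    rw [hK'.det i hx, hK.det i hx]
    show ((‖(((1 : ℝ) : ℂ) • σ.s i x).det‖ : ℝ) : ℂ) = _
    rw [Complex.ofReal_one, one_smul]
  have hcf : CF A (cur h) := cur_cf h
  have hge : ∀ i, ∀ x ∈ (A.e i).source, 0 ≤ (((K.g i x)⁻¹ * cur h i x).trace).re := by
    intro i x hx
    refine Crest.Agent.R281.KpU_487.tr_inv_nonneg (K.pos i x hx) ?_ ?_
    · rw [← hg' i x hx]; exact K'.pos i x hx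
    · rw [← hg' i x hx]; exact hdet i x hx
  have htr : ∀ i, ∀ x ∈ (A.e i).source, ((K.g i x).adjugate * cur h i x).trace =
      (K.g i x).det * ((K.g i x)⁻¹ * cur h i x).trace := by
    intro i x hx
    rw [adjugate_eq (K.pos i x hx), Matrix.smul_mul, Matrix.trace_smul, smul_eq_mul]
  have him : ∀ i, ∀ x ∈ (A.e i).source, (((K.g i x)⁻¹ * cur h i x).trace).im = 0 := by
    intro i x hx
    have h1 : conj (((K.g i x)⁻¹ * cur h i x).trace) = ((K.g i x)⁻¹ * cur h i x).trace := by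
      have e := Matrix.trace_conjTranspose ((K.g i x)⁻¹ * cur h i x)
      rw [Matrix.conjTranspose_mul, Matrix.conjTranspose_nonsing_inv, (K.pos i x hx).1.eq,
        (cur_herm h i hx).eq, Matrix.trace_mul_comm] at e
      exact e.symm
    exact Complex.conj_eq_iff_im.1 h1
  have hnn : NonnegD A (fun i x => ((K.g i x).adjugate * cur h i x).trace) := fun i x hx => by
    show 0 ≤ (((K.g i x).adjugate * cur h i x).trace).re ∧
      (((K.g i x).adjugate * cur h i x).trace).im = 0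
    rw [htr i x hx]
    have h1 := (K.pos i x hx).det_pos
    have h2 : ((K.g i x).det).im = 0 := (Complex.lt_def.1 h1).2.symm
    have h3 : 0 < ((K.g i x).det).re := (Complex.lt_def.1 h1).1
    constructor
    · rw [Complex.mul_re, h2, zero_mul, sub_zero]
      exact mul_nonneg h3.le (hge i x hx)
    · rw [Complex.mul_im, h2, zero_mul, add_zero, him i x hx, mul_zero]
  have hz := eq_zero_of_intD P (den_tr (kah_cf K) hcf) hnn isCompact_univ (offK_univ _)
    (by rw [intD_eq_totc]; exact hD0)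
  obtain ⟨i, x, hx, hne⟩ := hnf h
  apply hne
  have h1 : ((K.g i x)⁻¹ * cur h i x).trace = 0 := by
    have h2 := hz i x hx
    rw [htr i x hx] at h2
    exact (mul_eq_zero.1 h2).resolve_left (K.pos i x hx).det_pos.ne'
  have h2 : K'.g i x = K.g i x := by
    refine eq_of_tr (K.pos i x hx) (K'.pos i x hx).posSemidef (hdet i x hx) ?_
    rw [hg' i x hx, Matrix.mul_add, Matrix.trace_add, h1, add_zero,
      Matrix.nonsing_inv_mul _ (isUnit_iff_ne_zero.2 (K.pos i x hx).det_pos.ne'),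
      Matrix.trace_one, Fintype.card_fin, Complex.natCast_re]
  rw [hg' i x hx] at h2
  simpa using h2

/-- **the two hyperkaehler metrics** -/
theorem two_yau [ConnectedSpace M] [Finite A.ι] (hn : 0 < n) (K : Kah A) (σ : HSymp A)
    (hu : σ.Uniq) (hK : HK K σ) (hnef : NefW K L) (hnf : NonFlat L) (hiso : Isotropic P σ L) :
    ∃ (h : HM L) (K' : Kah A) (r : ℝ) (hr : (r : ℂ) ≠ 0), 1 < r ∧
      (∀ i, ∀ x ∈ (A.e i).source, K'.g i x = K.g i x + cur h i x) ∧
      HK K' (smulHS (r : ℂ) hr σ) := by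
  obtain ⟨h, K', r, hr, hr0, hg, hK'⟩ := exists_pair P K σ hu hnef
  exact ⟨h, K', r, hr, one_lt P K σ hK hnef hnf hiso hn hr0 hg hK', fun i x hx =>
    (hg i x).resolve_right (not_not.2 hx), hK'⟩

theorem isotropic_smul {σ : HSymp A} (hiso : Isotropic P σ L) {r : ℝ} (hr : (r : ℂ) ≠ 0)
    (hr0 : 0 < r) : Isotropic P (smulHS (r : ℂ) hr σ) L := by
  intro h
  have h1 : ∀ i, ∀ x ∈ (A.e i).source, qd (smulHS (r : ℂ) hr σ) (cur h) (cur h) i x =
      (((r ^ 2 : ℝ) : ℂ)⁻¹ * ((r ^ n : ℝ) : ℂ)) * qd σ (cur h) (cur h) i x := by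
    intro i x hx
    have h2 := qm_smulS (S := σ.s i x) (σ.nd i x hx) hr0 (cur h i x) (cur h i x)
    have h3 : ((r ^ 2 : ℝ) : ℂ) ≠ 0 := by exact_mod_cast (pow_pos hr0 2).ne'
    show qm ((r : ℂ) • σ.s i x) (cur h i x) (cur h i x) = _ * qm (σ.s i x) (cur h i x) (cur h i x)
    rw [mul_assoc, ← h2, inv_mul_cancel_left₀ h3]
  rw [intD_eq_totc, totc_congr P h1, totc_smul, ← intD_eq_totc, hiso h, mul_zero]

end

/-- `END6` for hyperkaehler pairs -/
def END6K : Prop :=
  ∀ (n : ℕ) (M : Type) [TopologicalSpace M] [T2Space M] [CompactSpace M] [SimplyConnectedSpace M]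
    (A : Atl (2 * n) M) [Finite A.ι], 1 ≤ n → GoodA A → ∀ (P : Part A) (K : Kah A) (σ : HSymp A),
    σ.Uniq → HK K σ → ∀ L : LB A, NefW K L → Isotropic P σ L → Sk_474.Rich A L →
    ∀ (h : HM L) (K' : Kah A) (r : ℝ) (hr : (r : ℂ) ≠ 0), 1 < r →
      (∀ i, ∀ x ∈ (A.e i).source, K'.g i x = K.g i x + cur h i x) →
      HK K' (smulHS (r : ℂ) hr σ) → SemiAmple L

/-- reduction to hyperkaehler pairs -/
theorem end6_of (H : END6K) : Sk_474.END6 := by
  intro n M _ _ _ _ A _ hn hA P K σ hu L hnef hnf hiso hrich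
  have : ConnectedSpace M := inferInstance
  obtain ⟨u, hs, hp, s, hs', hs0, hK⟩ := exists_HK_class P (KpK_487.yau_kah A) K σ hu
  have hnef' : NefW (addK K u hs hp) L := D6_986.nefW_change hnef
  have hu' : (smulHS (s : ℂ) hs' σ).Uniq := smulHS_uniq _ _ hu
  have hiso' : Isotropic P (smulHS (s : ℂ) hs' σ) L := isotropic_smul P hiso hs' hs0
  obtain ⟨h, K', r, hr, hr1, hg, hK'⟩ :=
    two_yau P (by omega) (addK K u hs hp) (smulHS (s : ℂ) hs' σ) hu' hK hnef' hnf hiso'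
  exact H n M A hn hA P (addK K u hs hp) (smulHS (s : ℂ) hs' σ) hu' hK L hnef' hiso' hrich h K' r
    hr hr1 hg hK'

end

end Crest.Agent.R281.RF_373
end

-- ▼ part R281/LEnd1_10
section

/-!
# R281 (S0424), S6-L2END (helper10), part 1: interfaces, the flat metric of the canonical bundle

`flatKB σ : HM (KB A)` : the flat metric `|det σ|⁻¹` of a holomorphic symplectic form
`L2Stmt P K`           : the `L²` theorem (helper578) in the form consumed here
`HasWt E m`            : the weights with a pole of order `m` along the fibre (helper946)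
-/

set_option autoImplicit false
set_option linter.unusedSectionVars false

open Set Filter Topology Complex MeasureTheory Metric
open scoped ContDiff Matrix ComplexConjugate Manifold ComplexOrder ENNReal

namespace Crest.Agent.R281.LEnd_10

open Crest.Agent.R275 Crest.Agent.R275.Geo Crest.Agent.R275.Core144 Crest.Agent.R275.GC293
open Crest.Agent.R273.Defs_333 Crest.Agent.R273.Kah_333 Crest.Agent.R273.HM_333
open Crest.Agent.R273.Hess_333 Crest.Agent.R273.HessB_333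
open Crest.Agent.R281.Defs_273
open Crest.Agent.R273.LamN127 Crest.Agent.R273.NormC_505 Crest.Agent.R273.DnInt_505
open Crest.Agent.R273.DVec_733 Crest.Agent.R273.DMet_733
open Crest.Agent.R273.HDN_505 (HB HB_pos)
open Crest.Agent.R273.SerA_945 Crest.Agent.R273.SerB_945
open Crest.Agent.R273.TD3_733

noncomputable section

variable {n : ℕ} {M : Type} [TopologicalSpace M] {A : Atl n M}

/-! ### the flat metric -/

theorem det_sm (σ : HSymp A) (i : A.ι) : HolAt A i univ (fun x => (σ.s i x).det) := by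
  have h1 : ∀ x, (σ.s i x).det = ∑ p : Equiv.Perm (Fin n),
      ((Equiv.Perm.sign p : ℤ) : ℂ) * ∏ a, σ.s i x (p a) a := fun x => Matrix.det_apply' _
  refine (HolAt.sum (A := A) (i := i) (U := univ) Finset.univ (F := fun p x =>
    ((Equiv.Perm.sign p : ℤ) : ℂ) * ∏ a, σ.s i x (p a) a) fun p _ => ?_).congr
      fun x _ _ => (h1 x).symm
  exact HolAt.const_mul _ (HolAt.prod Finset.univ fun a _ => σ.hol i (p a) a)

/-- the flat metric of the canonical bundle of a holomorphic symplectic manifold -/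
def flatKB (σ : HSymp A) : HM (KB A) where
  w i x := ‖(σ.s i x).det‖⁻¹
  pos i x hx := inv_pos.2 (norm_pos_iff.2 (σ.nd i x hx))
  sm i := by
    have h1 := (det_sm σ i).contDiffOn isOpen_univ
    rw [preimage_univ, inter_univ] at h1
    have h2 : ContDiffOn ℝ ∞ (fun z => ‖(σ.s i ((A.e i).symm z)).det‖) (A.e i).target :=
      h1.norm ℝ fun z hz => σ.nd i _ ((A.e i).map_target hz)
    exact h2.inv fun z hz => (norm_pos_iff.2 (σ.nd i _ ((A.e i).map_target hz))).ne'
  tr i j x hx := by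
    have h1 : (σ.s i x).det = (Jm A i j x).det ^ 2 * (σ.s j x).det := by
      rw [σ.tr i j x hx, Matrix.det_mul, Matrix.det_mul, Matrix.det_transpose]
      ring
    have h2 : (KB A).g i j x = (Jm A i j x).det := KB_g hx
    have h3 : (Jm A i j x).det ≠ 0 := by
      rw [← h2]; exact (KB A).ne_zero i j x
    have h4 : ‖(Jm A i j x).det‖ ≠ 0 := norm_ne_zero_iff.2 h3
    have h5 : ‖(σ.s j x).det‖ ≠ 0 := norm_ne_zero_iff.2 (σ.nd j x hx.2)
    rw [h1, h2, norm_mul, norm_pow]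
    field_simp

theorem cur_flatKB (σ : HSymp A) (i : A.ι) {x : M} (hx : x ∈ (A.e i).source) :
    cur (flatKB σ) i x = 0 := by
  have hz := (A.e i).map_source hx
  have hd : ∀ᶠ w in 𝓝 (A.e i x), DifferentiableAt ℂ (fun w => (σ.s i ((A.e i).symm w)).det) w := by
    filter_upwards [(A.e i).open_target.mem_nhds hz] with w hw
    have h1 := (det_sm σ i).diffAt isOpen_univ ((A.e i).map_target hw) (mem_univ _)
    rwa [(A.e i).right_inv hw] at h1
  have h0 : (fun w => (σ.s i ((A.e i).symm w)).det) (A.e i x) ≠ 0 := by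
    simp only [(A.e i).left_inv hx]
    exact σ.nd i x hx
  have hc : ContDiffAt ℝ ∞ (fun w => Real.log (‖(σ.s i ((A.e i).symm w)).det‖ ^ 2)) (A.e i x) := by
    have h1 := (det_sm σ i).contDiffOn isOpen_univ
    rw [preimage_univ, inter_univ] at h1
    have h2 := (h1.contDiffAt ((A.e i).open_target.mem_nhds hz)).norm_sq ℝ
    exact h2.log (by simp only [(A.e i).left_inv hx]; exact pow_ne_zero _ (norm_ne_zero_iff.2 (σ.nd i x hx)))
  have h2 := hess_log_norm hd h0
  have h3 : (flatKB σ).wt i =ᶠ[𝓝 (A.e i x)] fun w =>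
      (1 / 2 : ℝ) * Real.log (‖(σ.s i ((A.e i).symm w)).det‖ ^ 2) := by
    filter_upwards [(A.e i).open_target.mem_nhds hz] with w hw
    show - Real.log (‖(σ.s i ((A.e i).symm w)).det‖⁻¹) = _
    rw [Real.log_inv, Real.log_pow]
    push_cast
    ring
  unfold cur
  rw [hess_congr h3, hess_const_mul _ hc, h2, smul_zero]

/-! ### interfaces -/


/-- weights with a pole of order `m` along the fibre through `x0`, regularised by `e` -/
def HasWt {K : Kah A} {L : LB A} {x0 : M} (E : EndIn K L x0) (m : ℕ) : Prop :=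
  ∃ C3 C4 : ℝ, ∀ e : ℝ, 0 < e → e ≤ 1 → ∃ Φ : M → ℝ, A.Sm Φ ∧
    (∀ i, ∀ x ∈ (A.e i).source, x ∈ E.U → sqw E.w x ≤ E.ρ →
      (hsf A Φ i x + (C3 : ℂ) • hsf A (sqw E.w) i x).PosSemidef) ∧
    (∀ x, ¬ (x ∈ E.U ∧ sqw E.w x < E.ρ) → Φ x = 0) ∧
    (∀ x, (x ∈ E.U → E.ρ / 8 ≤ sqw E.w x) → |Φ x| ≤ C4) ∧
    (∀ x ∈ E.U, sqw E.w x ≤ E.ρ / 8 → Φ x = m * Real.log (sqw E.w x + e))

end

end Crest.Agent.R281.LEnd_10
end

-- ▼ part R281/LEnd2_10
section

/-!
# R281 (S0424), S6-L2END (helper10), part 2: the cut off section `φ(|w|²) τ^p`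

`EndIn.T`       : the compact tube `{x ∈ U, |w x|² ≤ ρ}`
`cutS E φ p`    : the section `φ(|w|²) τ^p` of `L ^ (k0 * p)`, `φ` supported in `t < ρ`
`smS_cutS`      : it is smooth
`cutS_pt`       : `|∂̄(cutS φ p)(ξ)|² ≤ φ'(s)² |τ^p|² s · (∂∂̄ s)(ξ, ξ)`, `s = |w|²`
-/

set_option autoImplicit false
set_option linter.unusedSectionVars false

open Set Filter Topology Complex MeasureTheory Metric
open scoped ContDiff Matrix ComplexConjugate Manifold ComplexOrder ENNReal

namespace Crest.Agent.R281.LEnd_10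

open Crest.Agent.R275 Crest.Agent.R275.Geo Crest.Agent.R275.Core144 Crest.Agent.R275.GC293
open Crest.Agent.R275.Dg199 Crest.Agent.R275.EDR890
open Crest.Agent.R273.Defs_333 Crest.Agent.R273.Kah_333 Crest.Agent.R273.HM_333
open Crest.Agent.R273.Hess_333 Crest.Agent.R273.HessB_333 Crest.Agent.R273.FS_333
open Crest.Agent.R281.Defs_273
open Crest.Agent.R273.SerA_945 Crest.Agent.R273.SerB_945

noncomputable section

variable {n : ℕ} {M : Type} [TopologicalSpace M] {A : Atl n M}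
variable {K : Kah A} {L : LB A} {x0 : M} (E : EndIn K L x0)

/-- the compact tube -/
def EndIn.T : Set M := {x | x ∈ E.U ∧ sqw E.w x ≤ E.ρ}

theorem sqw_nonneg {r : ℕ} (w : M → Fin r → ℂ) (x : M) : 0 ≤ sqw w x :=
  Finset.sum_nonneg fun _ _ => by positivity

theorem EndIn.isCompact_T : IsCompact E.T := E.cpt

/-! ### reading in a chart -/

/-- `w` read in the chart `i` -/
def EndIn.wr (i : A.ι) (z : Cn n) : Fin E.r → ℂ := fun k => E.w ((A.e i).symm z) k

/-- `U` read in the chart `i` -/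
def EndIn.V (i : A.ι) : Set (Cn n) := (A.e i).target ∩ (A.e i).symm ⁻¹' E.U

theorem EndIn.isOpen_V (i : A.ι) : IsOpen (E.V i) := isOpen_ti (A := A) (i := i) E.isOpen_U

theorem EndIn.mem_V {i : A.ι} {x : M} (hx : x ∈ (A.e i).source) (hU : x ∈ E.U) :
    A.e i x ∈ E.V i :=
  ⟨(A.e i).map_source hx, by rw [mem_preimage, (A.e i).left_inv hx]; exact hU⟩

theorem EndIn.hol_wr (i : A.ι) (k : Fin E.r) : DifferentiableOn ℂ (fun z => E.wr i z k) (E.V i) :=
  E.hol i k

/-- the derivatives of `w` -/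
def EndIn.dw (i : A.ι) (x : M) (k : Fin E.r) (a : Fin n) : ℂ :=
  fderiv ℂ (fun z => E.wr i z k) (A.e i x) (EuclideanSpace.single a 1)

theorem EndIn.hess_w {i : A.ι} {x : M} (hx : x ∈ (A.e i).source) (hU : x ∈ E.U) (a b : Fin n) :
    hsf A (sqw E.w) i x a b = ∑ k, E.dw i x k a * conj (E.dw i x k b) :=
  hess_sq (E.isOpen_V i) (E.hol_wr i) (E.mem_V hx hU) a b

theorem EndIn.wd_w {i : A.ι} {x : M} (hx : x ∈ (A.e i).source) (hU : x ∈ E.U) (b : Fin n) :
    wd (true, b) (cu (sq (E.wr i))) (A.e i x) = ∑ k, E.w x k * conj (E.dw i x k b) := by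
  rw [wd_sq (E.isOpen_V i) (E.hol_wr i) (E.mem_V hx hU) b]
  refine Finset.sum_congr rfl fun k _ => ?_
  have : E.wr i (A.e i x) k = E.w x k := by
    show E.w ((A.e i).symm (A.e i x)) k = _
    rw [(A.e i).left_inv hx]
  rw [this]
  rfl

theorem EndIn.sq_wr {i : A.ι} {x : M} (hx : x ∈ (A.e i).source) :
    sq (E.wr i) (A.e i x) = sqw E.w x := by
  show ∑ k, ‖E.w ((A.e i).symm (A.e i x)) k‖ ^ 2 = _
  rw [(A.e i).left_inv hx]
  rfl

theorem EndIn.sq_cd {i : A.ι} {x : M} (hx : x ∈ (A.e i).source) (hU : x ∈ E.U) :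
    ContDiffAt ℝ ∞ (sq (E.wr i)) (A.e i x) :=
  ContDiffAt.sum fun k _ =>
    (contDiffAt_of_hol (E.isOpen_V i) (E.hol_wr i k) (E.mem_V hx hU)).norm_sq ℝ

theorem EndIn.smN_sqw {x : M} (hU : x ∈ E.U) : SmN A (sqw E.w) x := by
  obtain ⟨i, hi⟩ := A.cover x
  exact ⟨i, hi, E.sq_cd hi hU⟩

/-- Cauchy-Schwarz -/
theorem EndIn.cs {i : A.ι} {x : M} (hx : x ∈ (A.e i).source) (hU : x ∈ E.U) (ξ : Fin n → ℂ) :
    ‖∑ b, (∑ k, E.w x k * conj (E.dw i x k b)) * conj (ξ b)‖ ^ 2 ≤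
      sqw E.w x * (∑ a, ∑ b, hsf A (sqw E.w) i x a b * ξ a * conj (ξ b)).re := by
  set q : Fin E.r → ℂ := fun k => ∑ a, E.dw i x k a * ξ a with hq
  have e1 : ∑ b, (∑ k, E.w x k * conj (E.dw i x k b)) * conj (ξ b) =
      ∑ k, E.w x k * conj (q k) := by
    rw [hq]
    simp only [map_sum, map_mul, Finset.mul_sum, Finset.sum_mul]
    rw [Finset.sum_comm]
    refine Finset.sum_congr rfl fun k _ => Finset.sum_congr rfl fun b _ => ?_
    ring
  have e2 : ∑ a, ∑ b, hsf A (sqw E.w) i x a b * ξ a * conj (ξ b) =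
      ((∑ k, ‖q k‖ ^ 2 : ℝ) : ℂ) := by
    have e3 : ((∑ k, ‖q k‖ ^ 2 : ℝ) : ℂ) = ∑ k, q k * conj (q k) := by
      rw [ofReal_sum]
      exact Finset.sum_congr rfl fun k _ => by rw [Complex.mul_conj, Complex.normSq_eq_norm_sq]
    rw [e3]
    simp only [E.hess_w hx hU, hq, map_sum, map_mul, Finset.sum_mul, Finset.mul_sum]
    rw [Finset.sum_congr rfl fun a _ => Finset.sum_comm, Finset.sum_comm]
    refine Finset.sum_congr rfl fun k _ => ?_
    rw [Finset.sum_comm]
    refine Finset.sum_congr rfl fun a _ => Finset.sum_congr rfl fun b _ => ?_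
    ring
  rw [e1, e2, ofReal_re]
  have h1 : ‖∑ k, E.w x k * conj (q k)‖ ≤ ∑ k, ‖E.w x k‖ * ‖q k‖ := by
    refine (norm_sum_le _ _).trans (le_of_eq (Finset.sum_congr rfl fun k _ => ?_))
    rw [norm_mul, RCLike.norm_conj]
  refine (pow_le_pow_left₀ (norm_nonneg _) h1 2).trans ?_
  exact Finset.sum_mul_sq_le_sq_mul_sq _ _ _

/-! ### the cut off section -/

open Classical in
/-- the section `φ(|w|²) τ^p` -/
def cutS (φ : ℝ → ℝ) (p : ℕ) : Fn A := fun i x =>
  if x ∈ (A.e i).source ∧ x ∈ E.U then (φ (sqw E.w x) : ℂ) * E.τ i x ^ p else 0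

variable {φ : ℝ → ℝ} {p : ℕ}

theorem cutS_eq {i : A.ι} {x : M} (hx : x ∈ (A.e i).source) (hU : x ∈ E.U) :
    cutS E φ p i x = (φ (sqw E.w x) : ℂ) * E.τ i x ^ p := if_pos ⟨hx, hU⟩

theorem cutS_off (i : A.ι) : ∀ x ∉ (A.e i).source, cutS E φ p i x = 0 := fun _ hx =>
  if_neg fun h => hx h.1

theorem cutS_offU (i : A.ι) {x : M} (hU : x ∉ E.U) : cutS E φ p i x = 0 :=
  if_neg fun h => hU h.2

section

variable [T2Space M]

theorem EndIn.isClosed_T : IsClosed E.T := E.isCompact_T.isClosed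

theorem cutS_offT (hφ : ∀ t, E.ρ ≤ t → φ t = 0) (i : A.ι) {x : M} (hT : x ∉ E.T) :
    cutS E φ p i x = 0 := by
  by_cases h : x ∈ (A.e i).source ∧ x ∈ E.U
  · rw [cutS_eq E h.1 h.2]
    have h1 : E.ρ ≤ sqw E.w x := by
      by_contra h2
      exact hT ⟨h.2, (not_le.1 h2).le⟩
    rw [hφ _ h1, ofReal_zero, zero_mul]
  · exact if_neg h

theorem smS_cutS (hφs : ContDiff ℝ ∞ φ) (hφ : ∀ t, E.ρ ≤ t → φ t = 0) :
    SmS (L ^ (E.k0 * p)) (cutS E φ p) := by
  refine SmS.of_smN (fun i q hq => ?_) (fun i j x hx => ?_)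
  · by_cases hU : q ∈ E.U
    · have h1 : SmN A (fun x => (φ (sqw E.w x) : ℂ)) q := by
        have h2 : ContDiffAt ℝ ∞ (fun z => φ (sq (E.wr i) z)) (A.e i q) :=
          hφs.contDiffAt.comp _ (E.sq_cd hq hU)
        exact SmN.ofReal (f := fun x => φ (sqw E.w x)) ⟨i, hq, h2⟩
      have h3 : SmN A (E.τ i) q := by
        refine (smN_iff hq).2 ?_
        exact contDiffAt_of_hol (isOpen_ti (A := A) (i := i) E.isOpen_U) (E.isHS.hol i)
          (E.mem_V hq hU)
      refine (h1.mul (h3.pow p)).congr ?_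
      filter_upwards [(A.e i).open_source.mem_nhds hq, E.isOpen_U.mem_nhds hU] with x hx hxU
      exact cutS_eq E hx hxU
    · refine (smN_const (A := A) (0 : ℂ) q).congr ?_
      have hT : q ∉ E.T := fun h => hU h.1
      filter_upwards [E.isClosed_T.isOpen_compl.mem_nhds hT] with x hx
      exact cutS_offT E hφ i hx
  · by_cases hU : x ∈ E.U
    · rw [cutS_eq E hx.1 hU, cutS_eq E hx.2 hU, E.isHS.tr i j x hx hU, mul_pow, pow_mul,
        LB_pow_g (L ^ E.k0) p]
      ring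
    · rw [cutS_offU E i hU, cutS_offU E j hU, mul_zero]

end

/-- `∂̄` of the section on `U` -/
theorem db_cutS (hφs : ContDiff ℝ ∞ φ) {i : A.ι} {x : M} (hx : x ∈ (A.e i).source)
    (hU : x ∈ E.U) (b : Fin n) :
    A.db i b (cutS E φ p i) x = ((deriv φ (sqw E.w x) : ℝ) : ℂ) * E.τ i x ^ p *
      ∑ k, E.w x k * conj (E.dw i x k b) := by
  have h1 : (fun z => cutS E φ p i ((A.e i).symm z)) =ᶠ[𝓝 (A.e i x)] fun z =>
      cu (fun z => φ (sq (E.wr i) z)) z * (E.τ i ((A.e i).symm z)) ^ p := by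
    filter_upwards [(E.isOpen_V i).mem_nhds (E.mem_V hx hU)] with z hz
    exact cutS_eq E ((A.e i).map_target hz.1) hz.2
  have hd : DifferentiableAt ℝ (sq (E.wr i)) (A.e i x) :=
    (E.sq_cd hx hU).differentiableAt (by simp)
  have hφd : DifferentiableAt ℝ φ (sq (E.wr i) (A.e i x)) :=
    hφs.contDiffAt.differentiableAt (by simp)
  have h2 : DifferentiableAt ℝ (cu (fun z => φ (sq (E.wr i) z))) (A.e i x) :=
    Complex.ofRealCLM.differentiableAt.comp _ (hφd.comp _ hd)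
  have h3 : DifferentiableAt ℂ (fun z => (E.τ i ((A.e i).symm z)) ^ p) (A.e i x) := by
    have h4 : DifferentiableAt ℂ (fun z => E.τ i ((A.e i).symm z)) (A.e i x) :=
      (E.isHS.hol i).differentiableAt ((E.isOpen_V i).mem_nhds (E.mem_V hx hU))
    exact h4.pow p
  show wd (true, b) (fun z => cutS E φ p i ((A.e i).symm z)) (A.e i x) = _
  rw [wd_congr h1, wd_mul h2 (h3.restrictScalars ℝ), wd_hol h3, mul_zero, add_zero,
    Crest.Agent.R273.FIa0_597.wd_comp_real (true, b) hd hφd.hasDerivAt, E.wd_w hx hU b, E.sq_wr hx]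
  simp only [(A.e i).left_inv hx]
  ring

/-- the pointwise bound -/
theorem cutS_pt (hφs : ContDiff ℝ ∞ φ) {i : A.ι} {x : M} (hx : x ∈ (A.e i).source)
    (hU : x ∈ E.U) (ξ : Fin n → ℂ) :
    ‖∑ b, A.db i b (cutS E φ p i) x * conj (ξ b)‖ ^ 2 ≤
      (deriv φ (sqw E.w x)) ^ 2 * ‖E.τ i x ^ p‖ ^ 2 * (sqw E.w x *
        (∑ a, ∑ b, hsf A (sqw E.w) i x a b * ξ a * conj (ξ b)).re) := by
  have e1 : ∑ b, A.db i b (cutS E φ p i) x * conj (ξ b) =
      ((deriv φ (sqw E.w x) : ℝ) : ℂ) * E.τ i x ^ p *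
        ∑ b, (∑ k, E.w x k * conj (E.dw i x k b)) * conj (ξ b) := by
    rw [Finset.mul_sum]
    refine Finset.sum_congr rfl fun b _ => ?_
    rw [db_cutS E hφs hx hU b]
    ring
  rw [e1, norm_mul, norm_mul, mul_pow, mul_pow, Complex.norm_real, Real.norm_eq_abs, sq_abs]
  exact mul_le_mul_of_nonneg_left (E.cs hx hU ξ) (by positivity)

end

end Crest.Agent.R281.LEnd_10
end

-- ▼ part R281/LEnd3_10
section

/-!
# R281 (S0424), S6-L2END (helper10), part 3: local lower bound of the `L²` norm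

`lowerB` : `∫_{B(p,s)} |y|² ≤ D⁻¹ ‖y‖²` if the metric is `≥ D` on the ball (410's argument, any
metric).
-/

set_option autoImplicit false
set_option linter.unusedSectionVars false

open Set Filter Topology Complex MeasureTheory Metric
open scoped ContDiff Matrix ComplexConjugate Kronecker ComplexOrder ENNReal

namespace Crest.Agent.R281.LEnd_10

open Crest.Agent.R275 Crest.Agent.R275.Geo Crest.Agent.R275.Core144 Crest.Agent.R275.Dg199
open Crest.Agent.R275.C1d194 Crest.Agent.R275.Pai323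
open Crest.Agent.R275.SerG398 (lint dens)
open Crest.Agent.R273.Defs_333 Crest.Agent.R273.HM_333 Crest.Agent.R273.Kah_333
open Crest.Agent.R273.Fock_243 Crest.Agent.R273.Pos_243
open Crest.Agent.R273.LamN127 Crest.Agent.R273.NormC_505 Crest.Agent.R273.DnInt_505
open Crest.Agent.R273.DVec_733 Crest.Agent.R273.DMet_733 Crest.Agent.R273.Mol_106
open Crest.Agent.R273.HDN_505 (HB HB_pos)
open Crest.Agent.R273.Lim_505
open Crest.Agent.R273.SteinM_794 (kap kap_eq mp_kap me_kap)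
open Crest.Agent.R272.Kod2_410 Crest.Agent.R272.Kod3_410
open Crest.Agent.R272.Kod5_410 (Yf hd_zero_le)

noncomputable section

variable {n : ℕ} {M : Type} [TopologicalSpace M] {A : Atl n M} {N : LB A}

variable [T2Space M] [CompactSpace M] [Finite A.ι] (P : Part A) (K : Kah A)
  {p : M} {i0 : A.ι}

theorem lowerB (N : LB A) (hp : p ∈ (A.e i0).source) {W' : Set M} (hW' : IsOpen W')
    (hpW' : p ∈ W') :
    ∃ r : ℝ, 0 < r ∧
      (∀ ζ ∈ closedBall (WithLp.ofLp (A.e i0 p)) r, WithLp.toLp 2 ζ ∈ (A.e i0).target ∧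
        (A.e i0).symm (WithLp.toLp 2 ζ) ∈ W') ∧
      ∀ (h : HM ((KB A)⁻¹ * N)) (D s : ℝ), 0 < s → s ≤ r → 0 < D →
        (∀ ζ ∈ closedBall (WithLp.ofLp (A.e i0 p)) s,
          D ≤ h.w i0 ((A.e i0).symm (WithLp.toLp 2 ζ))) →
        ∀ y : Sec (BN N), ∫⁻ ζ in closedBall (WithLp.ofLp (A.e i0 p)) s, ‖Yf i0 y.1 ζ‖ₑ ^ 2 ≤
          ENNReal.ofReal (D⁻¹ * (HB K h).sn P y ^ 2) := by
  obtain ⟨χ, hχ, hχ1, hχs, hχc, hχ0, hχ2⟩ := exists_bump A ((A.e i0).open_source.mem_nhds hp)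
  have ev : ∀ᶠ q in 𝓝 p, χ q = 1 ∧ q ∈ W' := hχ1.and (hW'.eventually_mem hpW')
  have ev2 : ∀ᶠ ζ in 𝓝 (WithLp.ofLp (A.e i0 p)), WithLp.toLp 2 ζ ∈ (A.e i0).target ∧
      (χ ((A.e i0).symm (WithLp.toLp 2 ζ)) = 1 ∧ (A.e i0).symm (WithLp.toLp 2 ζ) ∈ W') := by
    have h1 : Tendsto (fun ζ : Fin n → ℂ => (WithLp.toLp 2 ζ : Cn n))
        (𝓝 (WithLp.ofLp (A.e i0 p))) (𝓝 (A.e i0 p)) := by
      have := (PiLp.continuous_toLp 2 (fun _ : Fin n => ℂ)).continuousAt
        (x := WithLp.ofLp (A.e i0 p))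
      exact this
    exact h1.eventually (((A.e i0).open_target.eventually_mem ((A.e i0).map_source hp)).and
      (ev_symm hp ev))
  obtain ⟨r, hr, hrb⟩ := Metric.eventually_nhds_iff_ball.1 ev2
  have hcb : closedBall (WithLp.ofLp (A.e i0 p)) (r / 2) ⊆ ball (WithLp.ofLp (A.e i0 p)) r :=
    closedBall_subset_ball (by linarith)
  refine ⟨r / 2, by positivity, fun ζ hζ => ⟨(hrb ζ (hcb hζ)).1, (hrb ζ (hcb hζ)).2.2⟩, ?_⟩
  intro h D s hs hsr hD0 hDw y
  have hsub : closedBall (WithLp.ofLp (A.e i0 p)) s ⊆ ball (WithLp.ofLp (A.e i0 p)) r :=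
    (closedBall_subset_closedBall hsr).trans hcb
  -- the localised density
  have hdn : IsDn A ((HB K h).hd y.1 y.1) := (HB K h).isDn y.2 y.2
  have hχC : A.Sm (fun x => (χ x : ℂ)) := sm_iff.2 fun q => (hχ q).ofReal
  have hf : IsDn A (fun i x => (χ x : ℂ) * (HB K h).hd y.1 y.1 i x) := hdn.fmul hχC
  have hnn : ∀ i, ∀ x ∈ (A.e i).source, 0 ≤ ((HB K h).hd y.1 y.1 i x).re := fun i x hx =>
    (Complex.le_def.1 ((HB K h).hd_self_nonneg y.1 hx)).1
  have hmono : (IntP P (fun i x => (χ x : ℂ) * (HB K h).hd y.1 y.1 i x)).re ≤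
      (HB K h).sn P y ^ 2 := by
    rw [HDen.sn_sq]
    refine IntP_re_mono P hf hdn fun i x hx => ?_
    rw [Complex.re_ofReal_mul]
    have := mul_le_mul_of_nonneg_right (hχ2 x) (hnn i x hx)
    linarith
  have hz0 : ∀ i, ∀ x ∈ (A.e i).source, x ∉ tsupport χ →
      (χ x : ℂ) * (HB K h).hd y.1 y.1 i x = 0 := fun i x _ hx => by
    rw [image_eq_zero_of_notMem_tsupport hx, Complex.ofReal_zero, zero_mul]
  rw [IntP_loc P hf hχc hχs hz0] at hmono
  have hcc : CC A i0 (fun x => (χ x : ℂ) * (HB K h).hd y.1 y.1 i0 x) :=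
    CC.of_zero_off (hf.sm i0) hχc hχs fun x hx => by
      rw [image_eq_zero_of_notMem_tsupport hx, Complex.ofReal_zero, zero_mul]
  rw [lint_re i0 hcc.integrable] at hmono
  set G : (RI n → ℝ) → ℂ := rd A i0 (fun x => (χ x : ℂ) * (HB K h).hd y.1 y.1 i0 x) with hG
  have hGnn : ∀ x, 0 ≤ (G x).re := by
    intro x
    by_cases hx : x ∈ Ui A i0
    · rw [hG, C1d194.rd_of_mem hx, Complex.re_ofReal_mul]
      exact mul_nonneg (hχ0 _) (hnn i0 _ ((A.e i0).map_target hx))
    · rw [hG, C1d194.rd_off hx]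
      simp
  have hGint : Integrable (fun x => (G x).re) := hcc.integrable.re
  have h1 : ENNReal.ofReal (∫ x, (G x).re) = ∫⁻ x, ENNReal.ofReal (G x).re :=
    ofReal_integral_eq_lintegral_ofReal hGint (Eventually.of_forall hGnn)
  have h2 : ENNReal.ofReal D * ∫⁻ ζ in closedBall (WithLp.ofLp (A.e i0 p)) s,
      ‖Yf i0 y.1 ζ‖ₑ ^ 2 ≤ ENNReal.ofReal (∫ x, (G x).re) := by
    rw [h1, ← lintegral_const_mul' _ _ ENNReal.ofReal_ne_top,
      ← (mp_kap n).setLIntegral_comp_preimage_emb (me_kap n)]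
    refine (setLIntegral_mono' ?_ fun x hx => ?_).trans (setLIntegral_le_lintegral _ _)
    · exact (mp_kap n).measurable measurableSet_closedBall
    · have hx' : kap x ∈ closedBall (WithLp.ofLp (A.e i0 p)) s := hx
      obtain ⟨hxt, hx1, hx2⟩ := hrb (kap x) (hsub hx')
      have hx4 := hDw (kap x) hx'
      have hcx : (WithLp.toLp 2 (kap x) : Cn n) = cc x := by
        rw [kap_eq]
      rw [hcx] at hxt hx1 hx2 hx4
      have hxU : x ∈ Ui A i0 := hxt
      rw [hG, C1d194.rd_of_mem hxU, Complex.re_ofReal_mul, hx1, one_mul]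
      have hsrc := (A.e i0).map_target hxt
      have h3 := hd_zero_le K h y.1 hsrc
      have h8 : ‖Yf i0 y.1 (kap x)‖ₑ ^ 2 =
          ENNReal.ofReal (‖oB (y.1 i0 ((A.e i0).symm (cc x))) ∅‖ ^ 2) := by
        rw [← hcx, ENNReal.ofReal_pow (norm_nonneg _), ofReal_norm]
        rfl
      rw [h8, ← ENNReal.ofReal_mul hD0.le]
      refine ENNReal.ofReal_le_ofReal (le_trans ?_ h3)
      exact mul_le_mul_of_nonneg_right hx4 (sq_nonneg _)
  have h3 : ENNReal.ofReal D * ∫⁻ ζ in closedBall (WithLp.ofLp (A.e i0 p)) s,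
      ‖Yf i0 y.1 ζ‖ₑ ^ 2 ≤ ENNReal.ofReal ((HB K h).sn P y ^ 2) :=
    h2.trans (ENNReal.ofReal_le_ofReal hmono)
  have h4 : ∫⁻ ζ in closedBall (WithLp.ofLp (A.e i0 p)) s, ‖Yf i0 y.1 ζ‖ₑ ^ 2 =
      ENNReal.ofReal D⁻¹ * (ENNReal.ofReal D *
        ∫⁻ ζ in closedBall (WithLp.ofLp (A.e i0 p)) s, ‖Yf i0 y.1 ζ‖ₑ ^ 2) := by
    rw [← mul_assoc, ← ENNReal.ofReal_mul (by positivity), inv_mul_cancel₀ hD0.ne',
      ENNReal.ofReal_one, one_mul]
  rw [h4]
  refine (mul_le_mul_right h3 _).trans ?_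
  rw [← ENNReal.ofReal_mul (by positivity)]

end

end Crest.Agent.R281.LEnd_10
end

-- ▼ part R281/LEnd4_10
section

/-!
# R281 (S0424), S6-L2END (helper10), part 4: the section which does not vanish at `x0`

`L2User P K hX` : the `L²` theorem in the user's form (helper578), `hX` a flat metric of `K_M`
`locGen_of`     : `L2User`, `EndIn`, `HasWt` ⟹ `LocGen L x0`
`semiAmple_of`  : the conclusion of division 6 from the local data
-/

set_option autoImplicit false
set_option linter.unusedSectionVars false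

open Set Filter Topology Complex MeasureTheory Metric
open scoped ContDiff Matrix ComplexConjugate Kronecker ComplexOrder ENNReal

namespace Crest.Agent.R281.LEnd_10

open Crest.Agent.R275 Crest.Agent.R275.Geo Crest.Agent.R275.Core144 Crest.Agent.R275.Dg199
open Crest.Agent.R275.EDR890
open Crest.Agent.R273.Defs_333 Crest.Agent.R273.HM_333 Crest.Agent.R273.Kah_333
open Crest.Agent.R273.Hess_333 Crest.Agent.R273.HessB_333 Crest.Agent.R273.FS_333
open Crest.Agent.R273.LamN127 Crest.Agent.R273.NormC_505 Crest.Agent.R273.DnInt_505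
open Crest.Agent.R273.DVec_733 Crest.Agent.R273.DMet_733
open Crest.Agent.R273.HDN_505 (HB HB_pos)
open Crest.Agent.R273.SerA_945 Crest.Agent.R273.SerB_945
open Crest.Agent.R281.Defs_273
open Crest.Agent.R281.HoC_578 (HB_hd_re)
open Crest.Agent.R272.Kod5_410 (Yf)

noncomputable section

variable {n : ℕ} {M : Type} [TopologicalSpace M] {A : Atl n M}

/-- the `L²` theorem in the user's form -/
def L2User [T2Space M] [CompactSpace M] [Finite A.ι] (P : Part A) (K : Kah A) (hX : HM (KB A)) :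
    Prop :=
  ∀ (N : LB A) (hh : ℕ → HM N) (b : HM N),
    (∀ ν i, ∀ x ∈ (A.e i).source, b.w i x ≤ (hh ν).w i x) →
  ∀ ε : ℕ → ℝ, (∀ ν, 0 < ε ν) → Tendsto ε atTop (𝓝 0) →
    (∀ ν i, ∀ x ∈ (A.e i).source, (cur (hh ν) i x + (ε ν : ℂ) • K.g i x).PosSemidef) →
  ∀ (y0 y1 : Fn A) (_ : SmS N y0) (_ : ∀ i, ∀ x ∉ (A.e i).source, y0 i x = 0)
    (h1 : SmS N y1) (o1 : ∀ i, ∀ x ∉ (A.e i).source, y1 i x = 0) (D : ℝ),
    (∀ ν, (HB K (mul (inv hX) (hh ν))).sn P ⟨embN y1, (embN_mem h1 o1).1⟩ ^ 2 ≤ D) →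
    (∀ ν i, ∀ x ∈ (A.e i).source, ∀ ξ : Fin n → ℂ,
      ‖∑ a, A.db i a (y0 i) x * conj (ξ a)‖ ^ 2 ≤ ‖y1 i x‖ ^ 2 *
        (∑ a, ∑ c, (cur (hh ν) i x + (ε ν : ℂ) • K.g i x) a c * ξ a * conj (ξ c)).re) →
  ∃ s, IsHS N univ s ∧ ∀ u : Sec (BN N), u.1 = embN y0 - embN s →
    (HB K (mul (inv hX) b)).sn P u ^ 2 ≤ D

/-! ### small lemmas -/

theorem form_eq (X : Matrix (Fin n) (Fin n) ℂ) (ξ : Fin n → ℂ) :
    ∑ a, ∑ c, X a c * ξ a * conj (ξ c) = star (star ξ) ⬝ᵥ (X *ᵥ star ξ) := by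
  rw [star_star]
  simp only [dotProduct, Matrix.mulVec, Finset.mul_sum, Pi.star_apply, RCLike.star_def]
  refine Finset.sum_congr rfl fun a _ => Finset.sum_congr rfl fun c _ => ?_
  ring

theorem form_nonneg {X : Matrix (Fin n) (Fin n) ℂ} (hX : X.PosSemidef) (ξ : Fin n → ℂ) :
    0 ≤ (∑ a, ∑ c, X a c * ξ a * conj (ξ c)).re := by
  rw [form_eq]
  exact (Complex.le_def.1 (hX.dotProduct_mulVec_nonneg _)).1

theorem form_mono {X H : Matrix (Fin n) (Fin n) ℂ} (h : (X - H).PosSemidef) (ξ : Fin n → ℂ) :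
    (∑ a, ∑ c, H a c * ξ a * conj (ξ c)).re ≤ (∑ a, ∑ c, X a c * ξ a * conj (ξ c)).re := by
  have h1 := form_nonneg h ξ
  have h2 : ∑ a, ∑ c, (X - H) a c * ξ a * conj (ξ c) =
      ∑ a, ∑ c, X a c * ξ a * conj (ξ c) - ∑ a, ∑ c, H a c * ξ a * conj (ξ c) := by
    rw [← Finset.sum_sub_distrib]
    refine Finset.sum_congr rfl fun a _ => ?_
    rw [← Finset.sum_sub_distrib]
    refine Finset.sum_congr rfl fun c _ => ?_
    rw [Matrix.sub_apply]
    ring
  rw [h2, Complex.sub_re] at h1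
  linarith

theorem psd_smul {X : Matrix (Fin n) (Fin n) ℂ} (hX : X.PosSemidef) {t : ℝ} (ht : 0 ≤ t) :
    ((t : ℂ) • X).PosSemidef :=
  hX.smul (by exact_mod_cast ht)

theorem hsf_lin {u v : M → ℝ} (c : ℝ) (hu : A.Sm u) (hv : A.Sm v) {i : A.ι} {x : M}
    (hx : x ∈ (A.e i).source) : hsf A (fun y => c * u y + v y) i x =
      (c : ℂ) • hsf A u i x + hsf A v i x := by
  have hz := (A.e i).map_source hx
  unfold hsf
  rw [hess_add (u := fun z => c * u ((A.e i).symm z)) (v := fun z => v ((A.e i).symm z))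
    (contDiffAt_const.mul (sm_contDiffAt hu i hz)) (sm_contDiffAt hv i hz)]
  rw [hess_const_mul c (sm_contDiffAt hu i hz)]

theorem sm_lin {u v : M → ℝ} (c : ℝ) (hu : A.Sm u) (hv : A.Sm v) :
    A.Sm (fun y => c * u y + v y) := fun i => (contDiffOn_const.mul (hu i)).add (hv i)

theorem hess_zero (z : Cn n) : hess (fun _ => (0 : ℝ)) z = 0 := by
  ext a b
  rw [hess_apply]
  have h4 : wd (true, b) (cu fun _ : Cn n => (0 : ℝ)) = fun _ => 0 := by
    funext w
    exact wd_const _ _ _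
  rw [h4, wd_const]
  rfl

/-- the density vanishes where the section vanishes -/
theorem hd_of_zero {N : LB A} (K : Kah A) (h : HM ((KB A)⁻¹ * N)) {u : A.ι → M → (BN N).κ → ℂ}
    {i : A.ι} {x : M} (h0 : u i x = 0) : (HB K h).hd u u i x = 0 := by
  unfold HDen.hd
  rw [h0, star_zero, zero_dotProduct]

section

variable {K : Kah A} {L : LB A} {x0 : M} (E : EndIn K L x0)

theorem EndIn.psd_w {i : A.ι} {x : M} (hx : x ∈ (A.e i).source) (hU : x ∈ E.U) :
    (hsf A (sqw E.w) i x).PosSemidef := by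
  have h : hsf A (sqw E.w) i x = (Matrix.of fun k b => conj (E.dw i x k b))ᴴ *
      (Matrix.of fun k b => conj (E.dw i x k b)) := by
    ext a b
    rw [E.hess_w hx hU, Matrix.mul_apply]
    refine Finset.sum_congr rfl fun k _ => ?_
    rw [Matrix.conjTranspose_apply, Matrix.of_apply, Matrix.of_apply, RCLike.star_def,
      Complex.conj_conj]
  rw [h]
  exact Matrix.posSemidef_conjTranspose_mul_self _

/-- `∂̄` of the cut off section vanishes off the tube -/
theorem db_cutS_off [T2Space M] {φ : ℝ → ℝ} {p : ℕ} (hφ : ∀ t, E.ρ ≤ t → φ t = 0) {i : A.ι}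
    {x : M} (hx : x ∈ (A.e i).source) (hT : x ∉ E.T) (a : Fin n) :
    A.db i a (cutS E φ p i) x = 0 := by
  have h1 : (fun z => cutS E φ p i ((A.e i).symm z)) =ᶠ[𝓝 (A.e i x)] fun _ => (0 : ℂ) := by
    have h2 : ∀ᶠ y in 𝓝 x, y ∉ E.T := E.isClosed_T.isOpen_compl.mem_nhds hT
    filter_upwards [ev_symm hx h2] with z hz
    exact cutS_offT E hφ i hz
  show wd (true, a) (fun z => cutS E φ p i ((A.e i).symm z)) (A.e i x) = 0
  rw [wd_congr h1, wd_const]

/-! ### the metrics -/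

/-- the metric `h^q e^{-q u - Φ}` -/
def mt (q : ℕ) {u Φ : M → ℝ} (hu : A.Sm u) (hΦ : A.Sm Φ) : HM (L ^ q) :=
  tw (pow E.h q) (fun y => (q : ℝ) * u y + Φ y) (sm_lin _ hu hΦ)

theorem cur_mt (q : ℕ) {u Φ : M → ℝ} (hu : A.Sm u) (hΦ : A.Sm Φ) {i : A.ι} {x : M}
    (hx : x ∈ (A.e i).source) :
    cur (mt E q hu hΦ) i x = (q : ℂ) • (cur E.h i x + hsf A u i x) + hsf A Φ i x := by
  unfold mt
  rw [cur_tw _ _ _ hx, cur_pow _ _ _ hx, hsf_lin _ hu hΦ hx, smul_add, add_assoc]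
  norm_num

theorem mt_w (q : ℕ) {u Φ : M → ℝ} (hu : A.Sm u) (hΦ : A.Sm Φ) (i : A.ι) (x : M) :
    (mt E q hu hΦ).w i x = E.h.w i x ^ q * Real.exp (-(q * u x + Φ x)) := by
  show (pow E.h q).w i x * _ = _
  rw [pow_w]

/-- positivity on the tube -/
theorem psd_mt {q : ℕ} {u Φ : M → ℝ} (hu : A.Sm u) (hΦ : A.Sm Φ) {i : A.ι} {x : M}
    (hx : x ∈ (A.e i).source) (hT : x ∈ E.T) {δ C3 : ℝ} (hq : C3 + 1 ≤ q * E.ε)
    (h1 : (cur E.h i x + hsf A u i x + (δ : ℂ) • K.g i x - (E.ε : ℂ) •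
      hsf A (sqw E.w) i x).PosSemidef)
    (h2 : (hsf A Φ i x + (C3 : ℂ) • hsf A (sqw E.w) i x).PosSemidef) :
    (cur (mt E q hu hΦ) i x + ((q * δ : ℝ) : ℂ) • K.g i x - hsf A (sqw E.w) i x).PosSemidef := by
  have h3 := psd_smul h1 (Nat.cast_nonneg (α := ℝ) q)
  have h4 := psd_smul (E.psd_w hx hT.1) (t := q * E.ε - C3 - 1) (by linarith)
  have h5 := (h3.add h2).add h4
  convert h5 using 1
  rw [cur_mt E q hu hΦ hx]
  push_cast
  module

/-- positivity off the tube -/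
theorem psd_mt_off [T2Space M] {q : ℕ} {u Φ : M → ℝ} (hu : A.Sm u) (hΦ : A.Sm Φ) {i : A.ι} {x : M}
    (hx : x ∈ (A.e i).source) (hT : x ∉ E.T) {δ : ℝ}
    (h1 : (cur E.h i x + hsf A u i x + (δ : ℂ) • K.g i x).PosSemidef)
    (h2 : ∀ x, ¬ (x ∈ E.U ∧ sqw E.w x < E.ρ) → Φ x = 0) :
    (cur (mt E q hu hΦ) i x + ((q * δ : ℝ) : ℂ) • K.g i x).PosSemidef := by
  have h3 := psd_smul h1 (Nat.cast_nonneg (α := ℝ) q)
  have h4 : hsf A Φ i x = 0 := by
    have e1 : (fun z => Φ ((A.e i).symm z)) =ᶠ[𝓝 (A.e i x)] fun _ => (0 : ℝ) := by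
      have e2 : ∀ᶠ y in 𝓝 x, y ∉ E.T := E.isClosed_T.isOpen_compl.mem_nhds hT
      filter_upwards [ev_symm hx e2] with z hz
      exact h2 _ fun h => hz ⟨h.1, h.2.le⟩
    unfold hsf
    rw [hess_congr e1, hess_zero]
  convert h3 using 1
  rw [cur_mt E q hu hΦ hx, h4]
  push_cast
  module

end

end

end Crest.Agent.R281.LEnd_10
end

-- ▼ part R281/LEnd5_10
section

/-!
# R281 (S0424), S6-L2END (helper10), part 5: `L2User` from helper578's theorem
-/

set_option autoImplicit false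
set_option linter.unusedSectionVars false

open Set Filter Topology Complex MeasureTheory Metric
open scoped ContDiff Matrix ComplexConjugate Kronecker ComplexOrder ENNReal

namespace Crest.Agent.R281.LEnd_10

open Crest.Agent.R275 Crest.Agent.R275.Geo Crest.Agent.R275.Core144 Crest.Agent.R275.Dg199
open Crest.Agent.R275.EDR890
open Crest.Agent.R273.Defs_333 Crest.Agent.R273.HM_333 Crest.Agent.R273.Kah_333
open Crest.Agent.R273.Hess_333 Crest.Agent.R273.HessB_333 Crest.Agent.R273.FS_333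
open Crest.Agent.R273.Fock_243 Crest.Agent.R273.Calc_243
open Crest.Agent.R273.LamN127 Crest.Agent.R273.NormC_505 Crest.Agent.R273.DnInt_505
open Crest.Agent.R273.DVec_733 Crest.Agent.R273.DMet_733 Crest.Agent.R273.DMetB_733
open Crest.Agent.R273.HDN_505 (HB HB_pos)
open Crest.Agent.R273.SerA_945 Crest.Agent.R273.SerB_945
open Crest.Agent.R281.Defs_273
open Crest.Agent.R281.HoC_578 (HB_hd_re)
open Crest.Agent.R272.Kod5_410 (Yf hd_zero_le)

noncomputable section

variable {n : ℕ} {M : Type} [TopologicalSpace M] {A : Atl n M}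

/-- the part of degree one of `e_a ∧ f` (copy of `DegOne_376.eW_single_apply`) -/
theorem eW_one (a b : Fin n) (v : FI n → ℂ) :
    ((eW (ep a) : Matrix (FI n) (FI n) ℂ) *ᵥ v) {b} = if a = b then v ∅ else 0 := by
  unfold eW
  rw [Crest.Agent.R275.Kos798.K_mulVec]
  unfold Crest.Agent.R275.Kos798.op
  rw [Finset.sum_eq_single b]
  · have h1 : (({b} : FI n).filter (· < b)) = ∅ := by
      ext x
      simp only [Finset.mem_filter, Finset.mem_singleton, Finset.notMem_empty, iff_false, not_and]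
      rintro rfl
      exact lt_irrefl _
    simp only [Crest.Agent.R275.Kos798.sgn, Crest.Agent.R275.Kos798.cf,
      Crest.Agent.R275.Kos798.tog, h1, Finset.mem_singleton, if_true, Finset.card_empty, pow_zero,
      one_mul, Finset.erase_singleton]
    by_cases hab : a = b
    · subst hab
      simp
    · rw [if_neg hab, show (ep a : Fin n → ℂ) b = 0 from Pi.single_eq_of_ne (Ne.symm hab) _,
        zero_mul]
  · intro c _ hc
    simp [Crest.Agent.R275.Kos798.cf, Finset.mem_singleton, hc]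
  · intro h
    exact absurd (Finset.mem_univ _) h

theorem embN_vac {N : LB A} (y : Fn A) (i : A.ι) (x : M) :
    oB (N := N) (embN y i x) ∅ = y i x := by
  show (if (∅ : Finset (Fin n)) = ∅ then y i x else 0) = y i x
  rw [if_pos rfl]

/-- the components of `∂̄ y0` -/
theorem nab_embN {N : LB A} {y0 : Fn A} (h0 : SmS N y0)
    (o0 : ∀ i, ∀ x ∉ (A.e i).source, y0 i x = 0) {i : A.ι} {x : M} (hx : x ∈ (A.e i).source)
    (b : Fin n) : oB (N := N) (nab (BN N) (embN y0) i x) {b} = A.db i b (y0 i) x := by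
  have hm := embN_mem h0 o0
  have h1 := congrFun (oB_nab (N := N) (u := embN y0) hm.1.1 hx) {b}
  refine h1.trans ?_
  rw [Finset.sum_apply, Finset.sum_eq_single b]
  · rw [eW_one, if_pos rfl]
    have h3 : (fun z => oB (N := N) (embN y0 i ((A.e i).symm z)) ∅) =
        fun z => y0 i ((A.e i).symm z) := by
      funext z
      exact embN_vac y0 i _
    show wd (true, b) (fun z => oB (N := N) (embN y0 i ((A.e i).symm z)) ∅) (A.e i x) = _
    rw [h3]
    rfl
  · intro a _ hab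
    rw [eW_one, if_neg hab]
  · intro h
    exact absurd (Finset.mem_univ _) h

variable [T2Space M] [CompactSpace M] [Finite A.ι] (P : Part A) (K : Kah A)

theorem cur_mulX {N : LB A} {hX : HM (KB A)} (hflat : ∀ i, ∀ x ∈ (A.e i).source, cur hX i x = 0)
    (h : HM N) {i : A.ι} {x : M} (hx : x ∈ (A.e i).source) :
    cur (mul (inv hX) h) i x = cur h i x := by
  rw [cur_mul _ _ _ hx, cur_inv _ _ hx, hflat i x hx, neg_zero, zero_add]

/-- **the `L²` theorem in the user's form** -/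
theorem l2User (hX : HM (KB A)) (hflat : ∀ i, ∀ x ∈ (A.e i).source, cur hX i x = 0) :
    L2User P K hX := by
  intro N hh b hb ε hε hε0 hpsd y0 y1 h0 o0 h1 o1 D hD hpt
  have hm := embN_mem h0 o0
  let u0 : Sec (BN N) := ⟨embN y0, hm.1⟩
  let u1 : Sec (BN N) := ⟨embN y1, (embN_mem h1 o1).1⟩
  have hu0 : pqL (BN N) 0 u0 = u0 := Subtype.ext (R273.SerE_945.pq_of_isDeg hm.2)
  set g : Sec (BN N) := nabL (BN N) u0 with hg
  have hg1 : pqL (BN N) 1 g = g := by
    refine Subtype.ext ?_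
    have h4 := nab_pq (B := BN N) 0 u0.2
    have h5 : pq (BN N) 0 u0.1 = u0.1 := congrArg Subtype.val hu0
    rw [h5] at h4
    exact h4.symm
  have hg0 : nabL (BN N) g = 0 := nab_nab_BN N u0
  have hw : ∀ (h : HM N) i x, (mul (inv hX) h).w i x = (hX.w i x)⁻¹ * h.w i x := fun h i x => rfl
  have hXp : ∀ i, ∀ x ∈ (A.e i).source, 0 < (hX.w i x)⁻¹ := fun i x hx => inv_pos.2 (hX.pos i x hx)
  obtain ⟨y, hy, hy0, hyn⟩ := HoC_578.l2_pt P K N g hg0 hg1 (fun ν => mul (inv hX) (hh ν))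
    (mul (inv hX) b)
    (fun ν i x hx => by
      rw [hw, hw]
      exact mul_le_mul_of_nonneg_left (hb ν i x hx) (hXp i x hx).le) ε hε hε0
    (fun ν i x hx => by
      rw [cur_mulX hflat _ hx]
      exact hpsd ν i x hx)
    (fun ν => (HB K (mul (inv hX) (hh ν))).hd u1.1 u1.1) D
    (fun ν => (HB K _).isDn u1.2 u1.2)
    (fun ν i x hx => (Complex.le_def.1 ((HB K _).hd_self_nonneg u1.1 hx)).1)
    (fun ν => by
      have := hD ν
      rw [HDen.sn_sq] at this
      exact this)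
    (fun ν i x hx ξ => by
      rw [cur_mulX hflat _ hx]
      have e1 : ∑ c, oB (g.1 i x) {c} * conj (ξ c) = ∑ a, A.db i a (y0 i) x * conj (ξ a) :=
        Finset.sum_congr rfl fun c _ => by
          rw [← nab_embN h0 o0 hx c]
          rfl
      rw [e1]
      have e2 := hd_zero_le K (mul (inv hX) (hh ν)) u1.1 hx
      have e3 : oB (u1.1 i x) ∅ = y1 i x := embN_vac y1 i x
      rw [e3] at e2
      have e4 : 0 ≤ (∑ a, ∑ c, (cur (hh ν) i x + (ε ν : ℂ) • K.g i x) a c * ξ a *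
          conj (ξ c)).re := form_nonneg (hpsd ν i x hx) ξ
      calc (mul (inv hX) (hh ν)).w i x * ‖∑ a, A.db i a (y0 i) x * conj (ξ a)‖ ^ 2
          ≤ (mul (inv hX) (hh ν)).w i x * (‖y1 i x‖ ^ 2 * _) :=
            mul_le_mul_of_nonneg_left (hpt ν i x hx ξ) ((mul (inv hX) (hh ν)).pos i x hx).le
        _ = ((mul (inv hX) (hh ν)).w i x * ‖y1 i x‖ ^ 2) * _ := by ring
        _ ≤ _ := mul_le_mul_of_nonneg_right e2 e4)
  let yr : Raw A := y.1
  have hyF : yr ∈ FF N 0 := by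
    refine ⟨y.2, ?_⟩
    intro i x κ hκ
    by_contra hne
    have h1 : y.1 i x κ = pq (BN N) 0 y.1 i x κ := by
      conv_lhs => rw [← hy0]
      rfl
    rw [pq_apply, if_neg hne] at h1
    exact hκ h1
  have hu : embN y0 - yr ∈ FF N 0 := (FF N 0).sub_mem hm hyF
  have hDu : Db (embN y0 - yr) = 0 := by
    rw [Db_sub hm hyF]
    have h2 : Db yr = Db (embN y0) := congrArg Subtype.val hy
    rw [h2, sub_self]
  have hsec := isHS_of_closed hu hDu
  refine ⟨_, hsec, fun u hu' => ?_⟩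
  have e5 : u = y := by
    refine Subtype.ext ?_
    rw [hu']
    funext i x k
    show embN y0 i x k - embN (fun i x => (embN y0 - yr) i x (∅, ())) i x k = y.1 i x k
    by_cases hk : k.1 = ∅
    · obtain ⟨T, ⟨⟩⟩ := k
      simp only at hk
      subst hk
      have e6 : embN (fun i x => (embN y0 - yr) i x ((∅ : Finset (Fin n)), ())) i x
          ((∅ : Finset (Fin n)), ()) = (embN y0 - yr) i x ((∅ : Finset (Fin n)), ()) :=
        if_pos rfl
      rw [e6]
      show embN y0 i x ((∅ : Finset (Fin n)), ()) - (embN y0 i x ((∅ : Finset (Fin n)), ()) -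
        yr i x ((∅ : Finset (Fin n)), ())) = yr i x ((∅ : Finset (Fin n)), ())
      ring
    · have e6 : embN (fun i x => (embN y0 - yr) i x (∅, ())) i x k = 0 := if_neg hk
      have e7 : embN y0 i x k = 0 := if_neg hk
      have e8 : y.1 i x k = 0 := by
        by_contra hne
        exact hk (Finset.card_eq_zero.1 (hyF.2 i x k hne))
      rw [e6, e7, e8, sub_zero]
  rw [e5]
  exact hyn

end

end Crest.Agent.R281.LEnd_10
end

-- ▼ part R281/End4_946
section

/-!
# R281 (S0424), leaf S6-END, part 4 (helper946): the pole weight in the form used by helper10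

* `HasWt E m` : for every `e ∈ (0,1]` a smooth function `Φ` on `M`, `Φ = m log(|w|² + e)` for
  `|w|² ≤ ρ/8`, `Φ = 0` off the tube, bounded off `|w|² < ρ/8`, and `∂∂̄ Φ ≥ - C ∂∂̄|w|²` on the tube,
  with constants independent of `e`
* `hasWt` : it holds for every `m`
-/

set_option autoImplicit false
set_option linter.unusedSectionVars false

open Set Filter Topology Complex
open scoped ContDiff Matrix ComplexConjugate ComplexOrder

namespace Crest.Agent.R281.End_946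

open Crest.Agent.R275.Geo Crest.Agent.R275.Core144 Crest.Agent.R275.EDR890 Crest.Agent.R273
open Crest.Agent.R273.Defs_333 Crest.Agent.R273.HM_333 Crest.Agent.R273.Kah_333
open Crest.Agent.R273.Hess_333 Crest.Agent.R273.HessB_333
open Crest.Agent.R273.FIa0_597
open Crest.Agent.R281.LEnd_10

noncomputable section

variable {n : ℕ} {M : Type} [TopologicalSpace M] {A : Atl n M} {K : Kah A} {L : LB A} {x0 : M}

theorem hasWt [T2Space M] (E : EndIn K L x0) (m : ℕ) : HasWt E m := by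
  have hρ := E.ρ_pos
  obtain ⟨c⟩ := exists_cut (a := E.ρ / 8) (b := E.ρ / 2) (by linarith)
  obtain ⟨C, hC0, hC⟩ := wf_psd E c (by positivity) (by linarith)
  set B : ℝ := max |Real.log (E.ρ / 8)| |Real.log (E.ρ / 2 + 1)| with hB
  have hB0 : 0 ≤ B := (abs_nonneg _).trans (le_max_left _ _)
  refine ⟨m * C, m * B, fun e he he1 => ?_⟩
  have hd : 0 < Real.sqrt e := Real.sqrt_pos.2 he
  have hd1 : Real.sqrt e ≤ 1 := by
    exact Real.sqrt_le_one.2 he1
  have hd2 : Real.sqrt e ^ 2 = e := Real.sq_sqrt he.le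
  have hb : E.ρ / 2 ≤ E.ρ := by linarith
  have hsm := wf_sm E c hb hd
  refine ⟨fun x => m * wf E c (Real.sqrt e) x, fun i => contDiffOn_const.mul (hsm i),
    fun i x hx hU _ => ?_, fun x hx => ?_, fun x hx => ?_, fun x hU hx => ?_⟩
  · have h1 := psd_smul (Nat.cast_nonneg m) (hC _ hd hd1 i x hx hU)
    have h2 : hsf A (fun x => (m : ℝ) * wf E c (Real.sqrt e) x) i x =
        (m : ℝ) • hsf A (wf E c (Real.sqrt e)) i x := by
      unfold hsf
      rw [hess_const_mul _ (sm_contDiffAt hsm i ((A.e i).map_source hx)), coe_smul']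
    rw [h2, coe_smul', mul_smul, ← smul_add, add_comm]
    exact h1
  · show (m : ℝ) * wf E c (Real.sqrt e) x = 0
    by_cases hU : x ∈ E.U
    · have h1 : E.ρ ≤ sqw E.w x := by
        by_contra h
        exact hx ⟨hU, not_le.1 h⟩
      rw [wf_mem E c hU, c.lam_zero (hb.trans h1), mul_zero]
    · unfold wf
      rw [gl_off E hU, mul_zero]
  · show |(m : ℝ) * wf E c (Real.sqrt e) x| ≤ m * B
    rw [abs_mul, Nat.abs_cast]
    refine mul_le_mul_of_nonneg_left ?_ (Nat.cast_nonneg m)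
    by_cases hU : x ∈ E.U
    · rw [wf_mem E c hU]
      exact c.lam_bd (by positivity) (hx hU) hd.le hd1
    · unfold wf
      rw [gl_off E hU, abs_zero]
      exact hB0
  · show (m : ℝ) * wf E c (Real.sqrt e) x = _
    rw [wf_low E c hU hx, hd2]

end

end Crest.Agent.R281.End_946
end

-- ▼ part R281/LEnd6_10
section

/-!
# R281 (S0424), S6-L2END (helper10), part 6: the section which does not vanish at `x0`
-/

set_option autoImplicit false
set_option linter.unusedSectionVars false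

open Set Filter Topology Complex MeasureTheory Metric
open scoped ContDiff Matrix ComplexConjugate Kronecker ComplexOrder ENNReal

namespace Crest.Agent.R281.LEnd_10

open Crest.Agent.R275 Crest.Agent.R275.Geo Crest.Agent.R275.Core144 Crest.Agent.R275.Dg199
open Crest.Agent.R275.EDR890
open Crest.Agent.R273.Defs_333 Crest.Agent.R273.HM_333 Crest.Agent.R273.Kah_333
open Crest.Agent.R273.Hess_333 Crest.Agent.R273.HessB_333 Crest.Agent.R273.FS_333
open Crest.Agent.R273.LamN127 Crest.Agent.R273.NormC_505 Crest.Agent.R273.DnInt_505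
open Crest.Agent.R273.DVec_733 Crest.Agent.R273.DMet_733
open Crest.Agent.R273.HDN_505 (HB HB_pos)
open Crest.Agent.R273.SerA_945 Crest.Agent.R273.SerB_945
open Crest.Agent.R281.Defs_273
open Crest.Agent.R281.HoC_578 (HB_hd_re)
open Crest.Agent.R272.Kod5_410 (Yf)

noncomputable section

variable {n : ℕ} {M : Type} [TopologicalSpace M] {A : Atl n M}
variable {K : Kah A} {L : LB A} {x0 : M} (E : EndIn K L x0)

/-! ### the cut-off function -/

/-- `1` on `t ≤ ρ/4`, `0` on `t ≥ ρ/2` -/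
def cf (ρ : ℝ) (t : ℝ) : ℝ := Real.smoothTransition ((ρ / 2 - t) / (ρ / 4))

theorem cf_smooth (ρ : ℝ) : ContDiff ℝ ∞ (cf ρ) := by
  have h1 : ContDiff ℝ ∞ (fun t : ℝ => (ρ / 2 - t) / (ρ / 4)) := by fun_prop
  exact Real.smoothTransition.contDiff.comp h1

theorem cf_one {ρ t : ℝ} (hρ : 0 < ρ) (ht : t ≤ ρ / 4) : cf ρ t = 1 := by
  refine Real.smoothTransition.one_of_one_le ?_
  rw [le_div_iff₀ (by positivity)]
  linarith

theorem cf_zero {ρ t : ℝ} (hρ : 0 < ρ) (ht : ρ / 2 ≤ t) : cf ρ t = 0 := by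
  refine Real.smoothTransition.zero_of_nonpos ?_
  exact div_nonpos_of_nonpos_of_nonneg (by linarith) (by positivity)

theorem dcf_lt {ρ t : ℝ} (hρ : 0 < ρ) (ht : t < ρ / 4) : deriv (cf ρ) t = 0 := by
  have h1 : cf ρ =ᶠ[𝓝 t] fun _ => (1 : ℝ) := by
    filter_upwards [Iio_mem_nhds ht] with s hs
    exact cf_one hρ (le_of_lt hs)
  rw [h1.deriv_eq, deriv_const]

theorem dcf_gt {ρ t : ℝ} (hρ : 0 < ρ) (ht : ρ / 2 < t) : deriv (cf ρ) t = 0 := by
  have h1 : cf ρ =ᶠ[𝓝 t] fun _ => (0 : ℝ) := by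
    filter_upwards [Ioi_mem_nhds ht] with s hs
    exact cf_zero hρ (le_of_lt hs)
  rw [h1.deriv_eq, deriv_const]

theorem dcf_smooth (ρ : ℝ) : ContDiff ℝ ∞ (fun t => Real.sqrt ρ * deriv (cf ρ) t) := by
  have h1 : ContDiff ℝ ∞ (deriv (cf ρ)) := ((contDiff_infty_iff_deriv).1 (cf_smooth ρ)).2
  exact contDiff_const.mul h1

/-! ### the pointwise inequality -/

section pt

variable [T2Space M] {q : ℕ} {u Φ : M → ℝ} (hu : A.Sm u) (hΦ : A.Sm Φ) {C3 δ : ℝ}
  (hq : C3 + 1 ≤ q * E.ε)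
  (h1 : ∀ i, ∀ x ∈ (A.e i).source, (cur E.h i x + hsf A u i x + (δ : ℂ) • K.g i x).PosSemidef)
  (h2 : ∀ i, ∀ x ∈ (A.e i).source, x ∈ E.U → sqw E.w x ≤ E.ρ →
    (cur E.h i x + hsf A u i x + (δ : ℂ) • K.g i x - (E.ε : ℂ) • hsf A (sqw E.w) i x).PosSemidef)
  (h3 : ∀ i, ∀ x ∈ (A.e i).source, x ∈ E.U → sqw E.w x ≤ E.ρ →
    (hsf A Φ i x + (C3 : ℂ) • hsf A (sqw E.w) i x).PosSemidef)
  (h4 : ∀ x, ¬ (x ∈ E.U ∧ sqw E.w x < E.ρ) → Φ x = 0)

include hq h1 h2 h3 h4 in
theorem psd_all (i : A.ι) (x : M) (hx : x ∈ (A.e i).source) :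
    (cur (mt E q hu hΦ) i x + ((q * δ : ℝ) : ℂ) • K.g i x).PosSemidef := by
  by_cases hT : x ∈ E.T
  · have h5 := psd_mt E hu hΦ hx hT hq (h2 i x hx hT.1 hT.2) (h3 i x hx hT.1 hT.2)
    have h6 := h5.add (E.psd_w hx hT.1)
    rwa [sub_add_cancel] at h6
  · exact psd_mt_off E hu hΦ hx hT (h1 i x hx) h4

include hq h1 h2 h3 h4 in
theorem pt_all (p : ℕ) (i : A.ι) (x : M) (hx : x ∈ (A.e i).source) (ξ : Fin n → ℂ) :
    ‖∑ a, A.db i a (cutS E (cf E.ρ) p i) x * conj (ξ a)‖ ^ 2 ≤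
      ‖cutS E (fun t => Real.sqrt E.ρ * deriv (cf E.ρ) t) p i x‖ ^ 2 *
        (∑ a, ∑ c, (cur (mt E q hu hΦ) i x + ((q * δ : ℝ) : ℂ) • K.g i x) a c * ξ a *
          conj (ξ c)).re := by
  have hpos := form_nonneg (psd_all E hu hΦ hq h1 h2 h3 h4 i x hx) ξ
  have hρ0 : ∀ t, E.ρ ≤ t → cf E.ρ t = 0 := fun t ht =>
    cf_zero E.ρ_pos (by linarith [E.ρ_pos])
  by_cases hT : x ∈ E.T
  · have e1 := cutS_pt E (p := p) (cf_smooth E.ρ) hx hT.1 ξ
    refine e1.trans ?_
    rw [cutS_eq E hx hT.1, norm_mul, mul_pow, Complex.norm_real, Real.norm_eq_abs, sq_abs, mul_pow,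
      Real.sq_sqrt E.ρ_pos.le]
    have e2 := form_mono (psd_mt E hu hΦ hx hT hq (h2 i x hx hT.1 hT.2) (h3 i x hx hT.1 hT.2)) ξ
    have e3 := form_nonneg (E.psd_w hx hT.1) ξ
    have e4 : sqw E.w x * (∑ a, ∑ b, hsf A (sqw E.w) i x a b * ξ a * conj (ξ b)).re ≤
        E.ρ * (∑ a, ∑ c, (cur (mt E q hu hΦ) i x + ((q * δ : ℝ) : ℂ) • K.g i x) a c * ξ a *
          conj (ξ c)).re := by
      refine mul_le_mul hT.2 e2 e3 E.ρ_pos.le
    calc deriv (cf E.ρ) (sqw E.w x) ^ 2 * ‖E.τ i x ^ p‖ ^ 2 *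
          (sqw E.w x * (∑ a, ∑ b, hsf A (sqw E.w) i x a b * ξ a * conj (ξ b)).re)
        ≤ deriv (cf E.ρ) (sqw E.w x) ^ 2 * ‖E.τ i x ^ p‖ ^ 2 * (E.ρ * _) :=
          mul_le_mul_of_nonneg_left e4 (by positivity)
      _ = _ := by ring
  · have e1 : ∑ a, A.db i a (cutS E (cf E.ρ) p i) x * conj (ξ a) = 0 :=
      Finset.sum_eq_zero fun a _ => by rw [db_cutS_off E hρ0 hx hT a, zero_mul]
    rw [e1, norm_zero]
    have : (0 : ℝ) ^ 2 = 0 := by norm_num
    rw [this]
    exact mul_nonneg (sq_nonneg _) hpos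

end pt

/-! ### the norm of `y1` -/

section norm

variable [T2Space M] [CompactSpace M] [Finite A.ι] (P : Part A)

theorem sn_y1 (hX : HM (KB A)) {q : ℕ} {u Φ : M → ℝ} (hu : A.Sm u) (hΦ : A.Sm Φ) {C4 : ℝ}
    (hC : ∀ x, |u x| ≤ E.C) (h5 : ∀ x, (x ∈ E.U → E.ρ / 8 ≤ sqw E.w x) → |Φ x| ≤ C4) (p : ℕ)
    {y : Sec (BN (L ^ q))}
    (hy : y.1 = embN (cutS E (fun t => Real.sqrt E.ρ * deriv (cf E.ρ) t) p)) :
    (HB K (mul (inv hX) (mt E q hu hΦ))).sn P y ^ 2 ≤
      Real.exp (q * E.C + C4) * (HB K (mul (inv hX) (pow E.h q))).sn P y ^ 2 := by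
  rw [HDen.sn_sq, HDen.sn_sq]
  have h1 : Real.exp (q * E.C + C4) * ((HB K (mul (inv hX) (pow E.h q))).ip P y.1 y.1).re =
      (IntP P (fun i x => ((Real.exp (q * E.C + C4) : ℝ) : ℂ) *
        (HB K (mul (inv hX) (pow E.h q))).hd y.1 y.1 i x)).re := by
    rw [IntP_const_mul, Complex.re_ofReal_mul]
    rfl
  rw [h1]
  refine IntP_re_mono P ((HB K _).isDn y.2 y.2) (((HB K _).isDn y.2 y.2).const_mul _) ?_
  intro i x hx
  rw [Complex.re_ofReal_mul]
  obtain ⟨r, hr0, hr, hr'⟩ := HB_hd_re K (mul (inv hX) (pow E.h q)) y hx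
  by_cases h0 : cutS E (fun t => Real.sqrt E.ρ * deriv (cf E.ρ) t) p i x = 0
  · have e1 : y.1 i x = 0 := by
      rw [hy]
      funext k
      show (if k.1 = ∅ then cutS E (fun t => Real.sqrt E.ρ * deriv (cf E.ρ) t) p i x else 0) = 0
      rw [h0]
      split_ifs <;> rfl
    rw [hd_of_zero K _ e1, hd_of_zero K _ e1]
    simp
  · have hU : x ∈ E.U := by
      by_contra hU
      exact h0 (cutS_offU E i hU)
    have e2 : Real.sqrt E.ρ * deriv (cf E.ρ) (sqw E.w x) ≠ 0 := by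
      intro h
      rw [cutS_eq E hx hU, h, ofReal_zero, zero_mul] at h0
      exact h0 rfl
    have e3 : E.ρ / 4 ≤ sqw E.w x := by
      by_contra h
      refine e2 ?_
      rw [dcf_lt E.ρ_pos (not_le.1 h), mul_zero]
    have e4 : |Φ x| ≤ C4 := h5 x fun _ => by linarith [E.ρ_pos]
    rw [hr, hr' (mul (inv hX) (mt E q hu hΦ))]
    have e5 : (mul (inv hX) (mt E q hu hΦ)).w i x =
        (mul (inv hX) (pow E.h q)).w i x * Real.exp (-(q * u x + Φ x)) := by
      show (hX.w i x)⁻¹ * ((mt E q hu hΦ).w i x) = (hX.w i x)⁻¹ * ((pow E.h q).w i x) * _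
      rw [mt_w, pow_w, mul_assoc]
    rw [e5]
    have e6 : Real.exp (-(q * u x + Φ x)) ≤ Real.exp (q * E.C + C4) := by
      refine Real.exp_le_exp.2 ?_
      have f1 := abs_le.1 (hC x)
      have f2 := abs_le.1 e4
      have f3 : (q : ℝ) * (-u x) ≤ q * E.C :=
        mul_le_mul_of_nonneg_left (by linarith) (Nat.cast_nonneg q)
      linarith
    have e7 : 0 ≤ (mul (inv hX) (pow E.h q)).w i x * r :=
      mul_nonneg ((mul (inv hX) (pow E.h q)).pos i x hx).le hr0
    calc (mul (inv hX) (pow E.h q)).w i x * Real.exp (-(q * u x + Φ x)) * r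
        = Real.exp (-(q * u x + Φ x)) * ((mul (inv hX) (pow E.h q)).w i x * r) := by ring
      _ ≤ _ := mul_le_mul_of_nonneg_right e6 e7

end norm

end

end Crest.Agent.R281.LEnd_10
end

-- ▼ part R281/LEnd7_10
section

/-!
# R281 (S0424), S6-L2END (helper10), part 7: the last step of division 6

`locGen`     : `EndIn K L x0`, a flat metric of the canonical bundle ⟹ `LocGen L x0`
`semiAmple`  : `EndIn` at every point ⟹ `SemiAmple L` (compact `M`)
-/

set_option autoImplicit false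
set_option linter.unusedSectionVars false

open Set Filter Topology Complex MeasureTheory Metric Asymptotics
open scoped ContDiff Matrix ComplexConjugate Kronecker ComplexOrder ENNReal

namespace Crest.Agent.R281.LEnd_10

open Crest.Agent.R275 Crest.Agent.R275.Geo Crest.Agent.R275.Core144 Crest.Agent.R275.Dg199
open Crest.Agent.R275.EDR890
open Crest.Agent.R273.Defs_333 Crest.Agent.R273.HM_333 Crest.Agent.R273.Kah_333
open Crest.Agent.R273.Hess_333 Crest.Agent.R273.HessB_333 Crest.Agent.R273.FS_333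
open Crest.Agent.R273.LamN127 Crest.Agent.R273.NormC_505 Crest.Agent.R273.DnInt_505
open Crest.Agent.R273.DVec_733 Crest.Agent.R273.DMet_733
open Crest.Agent.R273.HDN_505 (HB HB_pos)
open Crest.Agent.R273.SerA_945 Crest.Agent.R273.SerB_945
open Crest.Agent.R281.Defs_273
open Crest.Agent.R272.Kod5_410 (Yf)

noncomputable section

variable {n : ℕ} {M : Type} [TopologicalSpace M] {A : Atl n M}
variable {K : Kah A} {L : LB A} {x0 : M} (E : EndIn K L x0)

/-- the chart `i0` with coordinates in `Fin n → ℂ` -/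
def ch (i0 : A.ι) (ζ : Fin n → ℂ) : M := (A.e i0).symm (WithLp.toLp 2 ζ)

theorem tendsto_toLp (z : Cn n) : Tendsto (fun ζ : Fin n → ℂ => (WithLp.toLp 2 ζ : Cn n))
    (𝓝 (WithLp.ofLp z)) (𝓝 z) :=
  (PiLp.continuous_toLp 2 (fun _ : Fin n => ℂ)).continuousAt (x := WithLp.ofLp z)

/-- `|w|² = O(|ζ - ζ0|²)` at `x0` -/
theorem EndIn.exists_Cw {i0 : A.ι} (h0 : x0 ∈ (A.e i0).source) :
    ∃ Cw : ℝ, 0 ≤ Cw ∧ ∀ᶠ ζ in 𝓝 (WithLp.ofLp (A.e i0 x0)),
      sqw E.w (ch i0 ζ) ≤ Cw * ‖ζ - WithLp.ofLp (A.e i0 x0)‖ ^ 2 := by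
  set p0 : Fin n → ℂ := WithLp.ofLp (A.e i0 x0) with hp0
  have hk : ∀ k : Fin E.r, ∃ c : ℝ, 0 ≤ c ∧ ∀ᶠ ζ in 𝓝 p0,
      ‖E.w (ch i0 ζ) k‖ ≤ c * ‖ζ - p0‖ := by
    intro k
    have hd : DifferentiableAt ℂ (fun z => E.w ((A.e i0).symm z) k) (A.e i0 x0) :=
      (E.hol_wr i0 k).differentiableAt ((E.isOpen_V i0).mem_nhds (E.mem_V h0 E.mem_U))
    have hE : DifferentiableAt ℂ (fun ζ : Fin n → ℂ => (WithLp.toLp 2 ζ : Cn n)) p0 :=
      ((PiLp.continuousLinearEquiv 2 ℂ (fun _ : Fin n => ℂ)).symm : (Fin n → ℂ) →L[ℂ]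
        Cn n).differentiableAt
    have h1 : DifferentiableAt ℂ (fun ζ => E.w (ch i0 ζ) k) p0 :=
      DifferentiableAt.comp (g := fun z => E.w ((A.e i0).symm z) k) p0 hd hE
    obtain ⟨c, hc, h2⟩ := h1.hasFDerivAt.isBigO_sub.exists_nonneg
    refine ⟨c, hc, ?_⟩
    filter_upwards [h2.bound] with ζ hζ
    have h3 : E.w (ch i0 p0) k = 0 := by
      have : ch i0 p0 = x0 := (A.e i0).left_inv h0
      rw [this, E.w_zero]
    rwa [h3, sub_zero] at hζ
  choose c hc0 hc using hk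
  refine ⟨∑ k, c k ^ 2, Finset.sum_nonneg fun k _ => sq_nonneg _, ?_⟩
  filter_upwards [eventually_all.2 hc] with ζ hζ
  unfold sqw
  rw [Finset.sum_mul]
  refine Finset.sum_le_sum fun k _ => ?_
  rw [← mul_pow]
  exact pow_le_pow_left₀ (norm_nonneg _) (hζ k) 2

variable [T2Space M] [CompactSpace M] [Finite A.ι] (P : Part A)

include P in
/-- **the last step of division 6, at one point** -/
theorem locGen_of (hX : HM (KB A)) (hflat : ∀ i, ∀ x ∈ (A.e i).source, cur hX i x = 0)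
    (hWt : HasWt E (n + 2)) : LocGen L x0 := by
  obtain ⟨C3, C4, hWt⟩ := hWt
  obtain ⟨i0, hi0⟩ := A.cover x0
  -- the power
  obtain ⟨p, hp⟩ := exists_nat_ge (max 1 ((C3 + 1) / E.ε))
  have hp1 : (1 : ℝ) ≤ p := (le_max_left _ _).trans hp
  have hp0 : 0 < p := by exact_mod_cast lt_of_lt_of_le one_pos hp1
  have hp2 : C3 + 1 ≤ p * E.ε := by
    have := (le_max_right _ _).trans hp
    rwa [div_le_iff₀ E.ε_pos] at this
  set q : ℕ := E.k0 * p with hq
  have hqp : 0 < q := Nat.mul_pos E.k0_pos hp0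
  have hqR : (0 : ℝ) < q := by exact_mod_cast hqp
  have hqε : C3 + 1 ≤ q * E.ε := by
    refine hp2.trans ?_
    rw [hq, Nat.cast_mul]
    refine mul_le_mul_of_nonneg_right ?_ E.ε_pos.le
    have : (1 : ℝ) ≤ E.k0 := by exact_mod_cast E.k0_pos
    nlinarith
  have hL2 := l2User P K hX hflat
  set N : LB A := L ^ q with hN
  -- sections
  set φ1 : ℝ → ℝ := fun t => Real.sqrt E.ρ * deriv (cf E.ρ) t with hφ1
  have hz0 : ∀ t, E.ρ ≤ t → cf E.ρ t = 0 := fun t ht => cf_zero E.ρ_pos (by linarith [E.ρ_pos])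
  have hz1 : ∀ t, E.ρ ≤ t → φ1 t = 0 := fun t ht => by
    rw [hφ1]
    simp only
    rw [dcf_gt E.ρ_pos (by linarith [E.ρ_pos]), mul_zero]
  have hs0 : SmS N (cutS E (cf E.ρ) p) := smS_cutS E (cf_smooth E.ρ) hz0
  have hs1 : SmS N (cutS E φ1 p) := smS_cutS E (dcf_smooth E.ρ) hz1
  have ho0 := cutS_off E (φ := cf E.ρ) (p := p)
  have ho1 := cutS_off E (φ := φ1) (p := p)
  let u1 : Sec (BN N) := ⟨embN (cutS E φ1 p), (embN_mem hs1 ho1).1⟩
  set D : ℝ := Real.exp (q * E.C + C4) * (HB K (mul (inv hX) (pow E.h q))).sn P u1 ^ 2 with hD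
  have hD0 : 0 ≤ D := by positivity
  -- the metrics
  choose u huS huC hu1 hu2 using fun ν : ℕ => E.met (1 / ((ν : ℝ) + 1)) (by positivity)
  have hcS : A.Sm (fun _ : M => E.C) := fun _ => contDiffOn_const
  -- local constants
  obtain ⟨Cw, hCw0, hCw⟩ := E.exists_Cw hi0
  set W' : Set M := {x | x ∈ E.U ∧ sqw E.w x < E.ρ / 8} with hW'
  have hcont : ContinuousOn (sqw E.w) E.U := fun x hx =>
    (E.smN_sqw hx).continuousAt.continuousWithinAt
  have hW'o : IsOpen W' := hcont.isOpen_inter_preimage E.isOpen_U isOpen_Iio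
  have hx0W : x0 ∈ W' := by
    refine ⟨E.mem_U, ?_⟩
    have : sqw E.w x0 = 0 := Finset.sum_eq_zero fun k _ => by rw [E.w_zero, norm_zero]; norm_num
    rw [this]
    linarith [E.ρ_pos]
  obtain ⟨r0, hr0, hrW, hlow⟩ := lowerB P K N hi0 hW'o hx0W
  set p0 : Fin n → ℂ := WithLp.ofLp (A.e i0 x0) with hp0'
  set G : M → ℝ := fun x => (mul (inv hX) (pow E.h q)).w i0 x with hG
  have hGp : 0 < G x0 := (mul (inv hX) (pow E.h q)).pos i0 x0 hi0
  have hGc : ContinuousAt G x0 :=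
    (Dg199.SmAt.smN ((mul (inv hX) (pow E.h q)).sm i0) hi0).continuousAt
  have hGe : ∀ᶠ ζ in 𝓝 p0, G x0 / 2 < G (ch i0 ζ) :=
    (tendsto_toLp (A.e i0 x0)).eventually
      (ev_symm hi0 (hGc.eventually (lt_mem_nhds (by linarith : G x0 / 2 < G x0))))
  obtain ⟨r1, hr1, hball⟩ := Metric.eventually_nhds_iff_ball.1 (hCw.and hGe)
  set c : ℝ := G x0 / 2 * Real.exp (-(q * E.C)) with hc
  have hc0 : 0 < c := by positivity
  set B : ℝ := Real.sqrt (c⁻¹ * (Cw + 1) ^ (n + 2) * D) with hB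
  have hB0 : 0 ≤ B := Real.sqrt_nonneg _
  have hB2 : B ^ 2 = c⁻¹ * (Cw + 1) ^ (n + 2) * D := Real.sq_sqrt (by positivity)
  obtain ⟨CJ, hCJ0, hCJ⟩ := Crest.Agent.R272.Kod4_410.small_jet n
  have hτ : 0 < ‖E.τ i0 x0 ^ p‖ := by
    rw [norm_pos_iff]
    exact pow_ne_zero _ (E.ne i0 x0 hi0 E.mem_U)
  -- choice of the radius
  obtain ⟨s, hs, hs1', hsr0, hsr1, hs2⟩ : ∃ s : ℝ, 0 < s ∧ s ≤ 1 ∧ s ≤ r0 ∧ s < r1 ∧
      CJ * B * s ^ 2 < ‖E.τ i0 x0 ^ p‖ := by
    set t : ℝ := ‖E.τ i0 x0 ^ p‖ with ht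
    refine ⟨min (min 1 r0) (min (r1 / 2) (t / (2 * (CJ * B + 1)))), by positivity,
      (min_le_left _ _).trans (min_le_left _ _), (min_le_left _ _).trans (min_le_right _ _),
      lt_of_le_of_lt ((min_le_right _ _).trans (min_le_left _ _)) (by linarith), ?_⟩
    set s := min (min 1 r0) (min (r1 / 2) (t / (2 * (CJ * B + 1))))
    have h1 : s ≤ 1 := (min_le_left _ _).trans (min_le_left _ _)
    have h2 : s ≤ t / (2 * (CJ * B + 1)) := (min_le_right _ _).trans (min_le_right _ _)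
    have h0 : 0 < s := by positivity
    have hCB : 0 ≤ CJ * B := mul_nonneg hCJ0 hB0
    rw [le_div_iff₀ (by positivity)] at h2
    have h3 : s ^ 2 ≤ s := by nlinarith
    nlinarith
  set e : ℝ := s ^ 2 with he
  have he0 : 0 < e := by positivity
  have he1 : e ≤ 1 := by rw [he]; nlinarith
  obtain ⟨Φ, hΦS, hΦ1, hΦ2, hΦ3, hΦ4⟩ := hWt e he0 he1
  -- the `L²` theorem
  obtain ⟨σ, hσ, hσn⟩ := hL2 N (fun ν => mt E q (huS ν) hΦS) (mt E q hcS hΦS)
    (fun ν i x hx => by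
      rw [mt_w, mt_w]
      refine mul_le_mul_of_nonneg_left ?_ (pow_pos (E.h.pos i x hx) q).le
      refine Real.exp_le_exp.2 ?_
      have f1 := (abs_le.1 (huC ν x)).2
      have f2 := mul_le_mul_of_nonneg_left f1 hqR.le
      linarith)
    (fun ν => q * (1 / ((ν : ℝ) + 1))) (fun ν => by positivity)
    (by
      have := (tendsto_one_div_add_atTop_nhds_zero_nat (𝕜 := ℝ)).const_mul (q : ℝ)
      rwa [mul_zero] at this)
    (fun ν i x hx => psd_all E (huS ν) hΦS hqε (hu1 ν) (hu2 ν) hΦ1 hΦ2 i x hx)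
    (cutS E (cf E.ρ) p) (cutS E φ1 p) hs0 ho0 hs1 ho1 D
    (fun ν => sn_y1 E P hX (huS ν) hΦS (huC ν) hΦ3 p rfl)
    (fun ν i x hx ξ => pt_all E (huS ν) hΦS hqε (hu1 ν) (hu2 ν) hΦ1 hΦ2 p i x hx ξ)
  -- the difference
  have hmF := (FF N 0).sub_mem (embN_mem hs0 ho0) (embN_mem (IsHS.smS hσ) hσ.off)
  let y : Sec (BN N) := ⟨embN (cutS E (cf E.ρ) p) - embN σ, hmF.1⟩
  have hyn : (HB K (mul (inv hX) (mt E q hcS hΦS))).sn P y ^ 2 ≤ D := hσn y rfl
  set DL : ℝ := c * ((Cw * s ^ 2 + e) ^ (n + 2))⁻¹ with hDL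
  have hse : 0 < Cw * s ^ 2 + e := by positivity
  have hDL0 : 0 < DL := by positivity
  have hint := hlow (mul (inv hX) (mt E q hcS hΦS)) DL s hs hsr0 hDL0 (fun ζ hζ => by
    have hζW := hrW ζ (closedBall_subset_closedBall hsr0 hζ)
    have hζb : ζ ∈ ball p0 r1 := closedBall_subset_ball hsr1 hζ
    obtain ⟨g1, g2⟩ := hball ζ hζb
    have g3 : sqw E.w (ch i0 ζ) ≤ Cw * s ^ 2 := by
      refine g1.trans (mul_le_mul_of_nonneg_left ?_ hCw0)
      have : ‖ζ - p0‖ ≤ s := by rw [← dist_eq_norm]; exact mem_closedBall.1 hζ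
      exact pow_le_pow_left₀ (norm_nonneg _) this 2
    have g4 : Φ (ch i0 ζ) = ((n + 2 : ℕ) : ℝ) * Real.log (sqw E.w (ch i0 ζ) + e) :=
      hΦ4 _ hζW.2.1 hζW.2.2.le
    have g5 : 0 < sqw E.w (ch i0 ζ) + e := add_pos_of_nonneg_of_pos (sqw_nonneg _ _) he0
    have g6 : (mul (inv hX) (mt E q hcS hΦS)).w i0 (ch i0 ζ) =
        G (ch i0 ζ) * Real.exp (-(q * E.C)) * ((sqw E.w (ch i0 ζ) + e) ^ (n + 2))⁻¹ := by
      show (hX.w i0 (ch i0 ζ))⁻¹ * (mt E q hcS hΦS).w i0 (ch i0 ζ) =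
        (hX.w i0 (ch i0 ζ))⁻¹ * (pow E.h q).w i0 (ch i0 ζ) * _ * _
      rw [mt_w, pow_w, g4, neg_add, Real.exp_add, ← Real.log_pow, Real.exp_neg (Real.log _),
        Real.exp_log (pow_pos g5 _)]
      ring
    show DL ≤ (mul (inv hX) (mt E q hcS hΦS)).w i0 (ch i0 ζ)
    rw [g6, hDL, hc]
    refine mul_le_mul ?_ ?_ (by positivity) ?_
    · exact mul_le_mul_of_nonneg_right g2.le (Real.exp_pos _).le
    · refine inv_anti₀ (pow_pos g5 _) ?_
      exact pow_le_pow_left₀ g5.le (by linarith) _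
    · exact mul_nonneg (by linarith) (Real.exp_pos _).le) y
  have hint2 : ∫⁻ ζ in closedBall p0 s, ‖Yf i0 y.1 ζ‖ₑ ^ 2 ≤
      ENNReal.ofReal (B ^ 2 * s ^ (2 * n + 4)) := by
    refine hint.trans (ENNReal.ofReal_le_ofReal ?_)
    have h2 : (Cw * s ^ 2 + e) ^ (n + 2) = (Cw + 1) ^ (n + 2) * s ^ (2 * n + 4) := by
      rw [he, ← add_one_mul, mul_pow, ← pow_mul]
      congr 2
    have h3 : DL⁻¹ = c⁻¹ * ((Cw + 1) ^ (n + 2) * s ^ (2 * n + 4)) := by
      rw [hDL, _root_.mul_inv, inv_inv, h2]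
    rw [h3, hB2]
    calc c⁻¹ * ((Cw + 1) ^ (n + 2) * s ^ (2 * n + 4)) *
          (HB K (mul (inv hX) (mt E q hcS hΦS))).sn P y ^ 2
        ≤ c⁻¹ * ((Cw + 1) ^ (n + 2) * s ^ (2 * n + 4)) * D :=
          mul_le_mul_of_nonneg_left hyn (by positivity)
      _ = _ := by ring
  -- holomorphy
  set DD : Set (Fin n → ℂ) := {ζ | WithLp.toLp 2 ζ ∈ (A.e i0).target ∧
    (A.e i0).symm (WithLp.toLp 2 ζ) ∈ W'} with hDD
  have hcontL : Continuous (fun ζ : Fin n → ℂ => (WithLp.toLp 2 ζ : Cn n)) :=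
    PiLp.continuous_toLp 2 (fun _ : Fin n => ℂ)
  have hDDo : IsOpen DD := (isOpen_ti (A := A) (i := i0) hW'o).preimage hcontL
  have hYeq : ∀ ζ ∈ DD, Yf i0 y.1 ζ = E.τ i0 (ch i0 ζ) ^ p - σ i0 (ch i0 ζ) := by
    intro ζ hζ
    have e1 : Yf i0 y.1 ζ = cutS E (cf E.ρ) p i0 (ch i0 ζ) - σ i0 (ch i0 ζ) := by
      show embN (cutS E (cf E.ρ) p) i0 (ch i0 ζ) ((∅ : Finset (Fin n)), ()) -
        embN σ i0 (ch i0 ζ) ((∅ : Finset (Fin n)), ()) = _
      have a1 : ∀ f : Fn A, embN f i0 (ch i0 ζ) ((∅ : Finset (Fin n)), ()) = f i0 (ch i0 ζ) :=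
        fun f => if_pos rfl
      rw [a1, a1]
    have e2 : ch i0 ζ ∈ (A.e i0).source := (A.e i0).map_target hζ.1
    have e3 : ch i0 ζ ∈ W' := hζ.2
    rw [e1, cutS_eq E e2 e3.1, cf_one E.ρ_pos (by linarith [e3.2, E.ρ_pos]), ofReal_one, one_mul]
  have hYd : DifferentiableOn ℂ (Yf i0 y.1) DD := by
    intro ζ hζ
    have hE : DifferentiableAt ℂ (fun ζ : Fin n → ℂ => (WithLp.toLp 2 ζ : Cn n)) ζ :=
      ((PiLp.continuousLinearEquiv 2 ℂ (fun _ : Fin n => ℂ)).symm : (Fin n → ℂ) →L[ℂ]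
        Cn n).differentiableAt
    have h1 : DifferentiableAt ℂ (fun z => E.τ i0 ((A.e i0).symm z) ^ p) (WithLp.toLp 2 ζ) :=
      ((E.isHS.hol i0).differentiableAt ((E.isOpen_V i0).mem_nhds ⟨hζ.1, hζ.2.1⟩)).pow p
    have h2 : DifferentiableAt ℂ (fun z => σ i0 ((A.e i0).symm z)) (WithLp.toLp 2 ζ) :=
      DifferentiableOn.differentiableAt (hσ.hol i0)
        ((isOpen_ti (A := A) isOpen_univ).mem_nhds ⟨hζ.1, mem_univ _⟩)
    have h3 : DifferentiableAt ℂ (fun ζ => E.τ i0 (ch i0 ζ) ^ p - σ i0 (ch i0 ζ)) ζ :=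
      DifferentiableAt.comp (g := fun z => E.τ i0 ((A.e i0).symm z) ^ p -
        σ i0 ((A.e i0).symm z)) ζ (h1.sub h2) hE
    refine (h3.congr_of_eventuallyEq ?_).differentiableWithinAt
    filter_upwards [hDDo.mem_nhds hζ] with ξ hξ
    exact hYeq ξ hξ
  have hsub : closedBall p0 s ⊆ DD := fun ζ hζ =>
    hrW ζ (closedBall_subset_closedBall hsr0 hζ)
  obtain ⟨hj1, -⟩ := hCJ DD p0 s (Yf i0 y.1) B hDDo hYd hs hsub hB0 hint2
  have hch0 : ch i0 p0 = x0 := (A.e i0).left_inv hi0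
  have hY0 := hYeq p0 (hsub (mem_closedBall_self hs.le))
  rw [hch0] at hY0
  refine ⟨q, hqp, σ, hσ, i0, hi0, fun h0 => ?_⟩
  rw [h0, sub_zero] at hY0
  rw [hY0] at hj1
  exact absurd (hj1.trans_lt hs2) (lt_irrefl _)

include E P in
/-- **the last step of division 6** -/
theorem locGen (hX : HM (KB A)) (hflat : ∀ i, ∀ x ∈ (A.e i).source, cur hX i x = 0) :
    LocGen L x0 :=
  locGen_of E P hX hflat (Crest.Agent.R281.End_946.hasWt E (n + 2))


end

end Crest.Agent.R281.LEnd_10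
end

-- ▼ part R281/E6_373
section

/-!
# R281 (S0424), END6 (helper373, deputy of helper986): `END6` from the nodes

* `X6`        : the data of `END6K` (a hyperkaehler pair and the second hyperkaehler metric);
* `OmegaP`    : S6-OMEGA (524 / 854 / 980 / 331 / 677);
* `LeafVolP`  : S6-MASS (519);
* `SKP`       : S6-SK (507 / 163);
* `UPreP`     : the function `u` (425);
* `UOutP`     : `pos`, `strict` (986);
* `ContP`     : S6-CONT (166);
* `ContVolP`  : Hausdorff measure of the limit fibres (254);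
* `FrameP`    : S6-FRAME (316 / 941);
* `RichStmt`  : S6-RICH (710 / 791);
* `end6K_of`, `end6_of_nodes`.
-/

set_option autoImplicit false
set_option linter.unusedSectionVars false

open Set Filter Topology Complex
open scoped ContDiff Matrix ComplexConjugate ComplexOrder

namespace Crest.Agent.R281.E6_373

open Crest.Agent.R275.Geo Crest.Agent.R275.Core144 Crest.Agent.R275.GC293
open Crest.Agent.R273.Defs_333 Crest.Agent.R273.Kah_333 Crest.Agent.R273.HM_333
open Crest.Agent.R281.Defs_273 Crest.Agent.R281.HkP3_508 Crest.Agent.R281.Sk_474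
open Crest.Agent.R281.D6_986 Crest.Agent.R281.RF_373
open Crest.Agent.R281.S6D_664 (LFib)

noncomputable section

/-- the data of `END6K` -/
structure X6 where
  n : ℕ
  M : Type
  [top : TopologicalSpace M]
  [t2 : T2Space M]
  [cpt : CompactSpace M]
  [sc : SimplyConnectedSpace M]
  [snd : SecondCountableTopology M]
  A : Atl (2 * n) M
  [fin : Finite A.ι]
  hn : 1 ≤ n
  good : GoodA A
  P : Part A
  K : Kah A
  σ : HSymp A
  uniq : σ.Uniq
  hk : HK K σ
  L : LB A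
  nef : NefW K L
  iso : Isotropic P σ L
  rich : Rich A L
  h : HM L
  K' : Kah A
  r : ℝ
  hr : (r : ℂ) ≠ 0
  one_lt : 1 < r
  eqK : ∀ i, ∀ x ∈ (A.e i).source, K'.g i x = K.g i x + cur h i x
  hk' : HK K' (smulHS (r : ℂ) hr σ)

attribute [instance] X6.top X6.t2 X6.cpt X6.sc X6.snd X6.fin

/-- S6-OMEGA -/
def OmegaP : Prop := ∀ X : X6, Nonempty (OmOut X.σ X.L)

/-- S6-MASS: the leaves have bounded volume -/
def LeafVolP : Prop := ∀ (X : X6) (F : LFib X.A X.σ), ∃ v, LeafVol F X.K v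

/-- S6-SK -/
def SKP : Prop := ∀ (X : X6) (o : OmOut X.σ X.L), Nonempty (SKOut X.K o X.h)

/-- the function `u` -/
def UPreP : Prop := ∀ (X : X6) (o : OmOut X.σ X.L), Nonempty (SKOut X.K o X.h) → Harn o X.h →
  Nonempty (UPre X.K o X.h)

/-- `pos`, `strict` -/
def UOutP : Prop := ∀ (X : X6) (o : OmOut X.σ X.L), Nonempty (UPre X.K o X.h) →
  Nonempty (UOut X.K o X.h)

/-- S6-CONT -/
def ContP : Prop := ∀ (X : X6) (o : OmOut X.σ X.L), Nonempty (UPre X.K o X.h) →
  (∃ v, LeafVol o.F X.K v) → Nonempty (ContOut o.F)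

/-- Hausdorff measure of the limit fibres -/
def ContVolP : Prop := ∀ (X : X6) (F : LFib X.A X.σ) (c : ContOut F) (v : ℝ),
  LeafVol F X.K v → ContVol c

/-- S6-FRAME -/
def FrameP : Prop := ∀ (X : X6) (o : OmOut X.σ X.L) (c : ContOut o.F), Harn o X.h → ContVol c →
  ∀ x0, Nonempty (FrameAt o.F c X.L x0)

/-- the composition for one `X` -/
theorem semiAmple_X6 (h1 : OmegaP) (h2 : LeafVolP) (h3 : SKP) (h4 : UPreP) (h5 : UOutP)
    (h6 : ContP) (h7 : ContVolP) (h8 : FrameP) (h9 : RichStmt) (X : X6) : SemiAmple X.L := by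
  obtain ⟨o⟩ := h1 X
  obtain ⟨v, hv⟩ := h2 X o.F
  obtain ⟨c1, hc1, hlow⟩ := Hk_389.low_of X.K (pow X.h o.k) (d := X.n) X.hn
  have hH : Harn o X.h := N2_373.harn_of X.K X.h o X.nef hc1 hlow hv
  have hsk := h3 X o
  have hpre := h4 X o hsk hH
  obtain ⟨uo⟩ := h5 X o hpre
  obtain ⟨c⟩ := h6 X o hpre ⟨v, hv⟩
  have hcv := h7 X o.F c v hv
  exact semiAmple_of_nodes h9 X.P X.K
    (fun x0 hE => hE.elim fun E => LEnd_10.locGen E X.P (LEnd_10.flatKB X.σ)
      (fun i x hx => LEnd_10.cur_flatKB X.σ i hx)) o uo c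
    (fun x0 => h8 X o c hH hcv x0)

theorem end6K_of (h1 : OmegaP) (h2 : LeafVolP) (h3 : SKP) (h4 : UPreP) (h5 : UOutP)
    (h6 : ContP) (h7 : ContVolP) (h8 : FrameP) (h9 : RichStmt) : END6K := by
  intro n M _ _ _ _ A _ hn hA P K σ hu hK L hnef hiso hrich h K' r hr hr1 hg hK'
  have : SecondCountableTopology M := Crest.Agent.R273.AsmA_73.secM (A := A)
  exact semiAmple_X6 h1 h2 h3 h4 h5 h6 h7 h8 h9
    { n := n, M := M, A := A, hn := hn, good := hA, P := P, K := K, σ := σ, uniq := hu, hk := hK,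
      L := L, nef := hnef, iso := hiso, rich := hrich, h := h, K' := K', r := r, hr := hr,
      one_lt := hr1, eqK := hg, hk' := hK' }

/-- **division 6 from its nodes** -/
theorem end6_of_nodes (h1 : OmegaP) (h2 : LeafVolP) (h3 : SKP) (h4 : UPreP) (h5 : UOutP)
    (h6 : ContP) (h7 : ContVolP) (h8 : FrameP) (h9 : RichStmt) : END6 :=
  end6_of (end6K_of h1 h2 h3 h4 h5 h6 h7 h8 h9)

end

end Crest.Agent.R281.E6_373
end

-- ▼ part R281/D6g_986
section

/-!
# R281 (S0424), S6-ASM (helper986), part g: towards `UPre ⟹ UOut`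

* `det_sub_last`, `det_le_of_psd` : `B G ≥ t E_ll ⟹ t det(fb G) ≤ B det G`;
* `hf_pull`     : Hermitian forms and congruence;
* `blk_single`, `pull_sq` : the pull back of `∂∂̄|w|²` to a disc family;
* `LFib.tf_eq`, `leafy_of` : families from base maps are leafy;
* `exists_tangent` : transversal vectors are tangent to the disc family.
-/

set_option autoImplicit false
set_option linter.unusedSectionVars false

open Set Filter Topology Complex MeasureTheory
open scoped ContDiff Matrix ComplexConjugate Manifold ComplexOrder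

namespace Crest.Agent.R281.D6_986

open Crest.Agent.R275.Geo Crest.Agent.R275.Core144 Crest.Agent.R275.GC293
open Crest.Agent.R273.Defs_333 Crest.Agent.R273.Kah_333 Crest.Agent.R273.HM_333
open Crest.Agent.R273.Hess_333 Crest.Agent.R273.HessB_333 Crest.Agent.R273.KahI_645
open Crest.Agent.R273.Map_835 Crest.Agent.R275.EDR890
open Crest.Agent.R273.StokesV_332 (intD Den NonnegD)
open Crest.Agent.R275.Prod363 (sndL)
open Crest.Agent.R273.Sus_333 (blk)
open Crest.Agent.R281.Defs_273 Crest.Agent.R281.LEnd_10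
open Crest.Agent.R281.S6D_664 (LFib Fam fb)
open Crest.Agent.R281.S6V_664 (BM LineD)
open Crest.Agent.R281.Fib2_425 (push Prj)
open Crest.Agent.R281.Fib4_425 (Tst)

noncomputable section

section mat

variable {n : ℕ}

theorem det_sub_last (G : Matrix (Fin (n + 1)) (Fin (n + 1)) ℂ) (t : ℂ) :
    (G - t • Matrix.single (Fin.last n) (Fin.last n) (1 : ℂ)).det =
      G.det - t * (fb (d := n) (m := 1) G).det := by
  have hsub : ∀ j : Fin (n + 1), (G - t • Matrix.single (Fin.last n) (Fin.last n)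
      (1 : ℂ)).submatrix (Fin.last n).succAbove j.succAbove =
        G.submatrix (Fin.last n).succAbove j.succAbove := by
    intro j
    ext a b
    have h : ¬ (Fin.last n = (Fin.last n).succAbove a) := fun h =>
      (Fin.succAbove_ne _ _) h.symm
    simp only [Matrix.submatrix_apply, Matrix.sub_apply, Matrix.smul_apply, Matrix.single_apply,
      h, false_and, if_false, smul_zero, sub_zero]
  rw [Matrix.det_succ_row _ (Fin.last n), Matrix.det_succ_row G (Fin.last n)]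
  simp only [hsub]
  rw [Fin.sum_univ_castSucc, Fin.sum_univ_castSucc]
  have h1 : ∀ j : Fin n, (G - t • Matrix.single (Fin.last n) (Fin.last n) (1 : ℂ)) (Fin.last n)
      j.castSucc = G (Fin.last n) j.castSucc := by
    intro j
    have h : ¬ (Fin.last n = j.castSucc) := (Fin.castSucc_lt_last j).ne'
    simp only [Matrix.sub_apply, Matrix.smul_apply, Matrix.single_apply,
      h, and_false, if_false, smul_zero, sub_zero]
  simp only [h1]
  have h2 : (G - t • Matrix.single (Fin.last n) (Fin.last n) (1 : ℂ)) (Fin.last n) (Fin.last n) =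
      G (Fin.last n) (Fin.last n) - t := by
    simp [Matrix.sub_apply]
  have h3 : G.submatrix (Fin.last n).succAbove (Fin.last n).succAbove =
      fb (d := n) (m := 1) G := by
    ext a b
    simp only [Matrix.submatrix_apply, Fin.succAbove_last]
    rfl
  have h4 : ((-1 : ℂ)) ^ ((Fin.last n : ℕ) + (Fin.last n : ℕ)) = 1 := by
    rw [← two_mul, pow_mul]
    norm_num
  rw [h2, h3, h4]
  ring

theorem fb_smul (c : ℂ) (G : Matrix (Fin (n + 1)) (Fin (n + 1)) ℂ) :
    fb (d := n) (m := 1) (c • G) = c • fb (d := n) (m := 1) G := rfl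

theorem det_le_of_psd {G : Matrix (Fin (n + 1)) (Fin (n + 1)) ℂ} {B t : ℝ} (hB : 0 < B)
    (h : ((B : ℂ) • G - (t : ℂ) • Matrix.single (Fin.last n) (Fin.last n)
      (1 : ℂ)).PosSemidef) :
    t * (fb (d := n) (m := 1) G).det.re ≤ B * G.det.re := by
  have h1 := h.det_nonneg
  rw [det_sub_last, fb_smul, Matrix.det_smul, Matrix.det_smul, Fintype.card_fin,
    Fintype.card_fin] at h1
  have h2 := (Complex.le_def.1 h1).1
  rw [Complex.zero_re, ← ofReal_pow, ← ofReal_pow, Complex.sub_re, Complex.re_ofReal_mul,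
    Complex.re_ofReal_mul, Complex.re_ofReal_mul, pow_succ] at h2
  have h3 : 0 < B ^ n := pow_pos hB n
  have h4 : 0 ≤ B ^ n * (B * G.det.re - t * (fb (d := n) (m := 1) G).det.re) := by
    calc (0 : ℝ) ≤ _ := h2
      _ = _ := by ring
  have h5 := nonneg_of_mul_nonneg_right h4 h3
  linarith

theorem hf_pull {N k : ℕ} (J : Matrix (Fin N) (Fin k) ℂ) (H : Matrix (Fin N) (Fin N) ℂ)
    (η : Fin k → ℂ) : hf (Jᵀ * H * J.map conj) (star η) = hf H (star (J *ᵥ η)) := by
  unfold hf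
  congr 1
  have h1 : star (J *ᵥ η) = (J.map conj) *ᵥ star η := by
    ext a
    simp [Matrix.mulVec, dotProduct]
  rw [h1]
  have h2 : star (J.map conj *ᵥ star η) = J *ᵥ η := by
    rw [← h1, star_star]
  rw [h2, star_star, ← Matrix.mulVec_mulVec, ← Matrix.mulVec_mulVec, Matrix.dotProduct_mulVec,
    Matrix.vecMul_transpose]

theorem hf_single (c : ℝ) (v : Fin (n + 1) → ℂ) :
    hf ((c : ℂ) • Matrix.single (Fin.last n) (Fin.last n) (1 : ℂ)) v = c * ‖v (Fin.last n)‖ ^ 2 := by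
  unfold hf
  have h1 : ((c : ℂ) • Matrix.single (Fin.last n) (Fin.last n) (1 : ℂ)) *ᵥ v =
      Pi.single (Fin.last n) ((c : ℂ) * v (Fin.last n)) := by
    ext a
    rw [Matrix.smul_mulVec, Matrix.single_mulVec]
    by_cases h : a = Fin.last n
    · subst h; simp
    · simp [h]
  rw [h1, dotProduct_single]
  have h2 : star v (Fin.last n) * ((c : ℂ) * v (Fin.last n)) =
      ((c * ‖v (Fin.last n)‖ ^ 2 : ℝ) : ℂ) := by
    rw [ofReal_mul, ← Complex.normSq_eq_norm_sq, ← Complex.mul_conj, Pi.star_apply]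
    show conj (v (Fin.last n)) * _ = _
    ring
  rw [h2, ofReal_re]




theorem continuous_hf' (H : Matrix (Fin n) (Fin n) ℂ) : Continuous fun v => hf H v :=
  continuous_hf.comp (continuous_const.prodMk continuous_id)

theorem blk_single (X : Matrix (Fin 1) (Fin 1) ℂ) :
    blk (g := n) (d := 1) 0 X = X 0 0 • Matrix.single (Fin.last n) (Fin.last n) (1 : ℂ) := by
  symm
  refine Crest.Agent.R273.Sus_333.blk_ext _ _ (fun a b => ?_) (fun a b => ?_) (fun a b => ?_)
    (fun a b => ?_)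
  · have h : ¬ (Fin.last n = Fin.castAdd 1 a) := (Fin.castSucc_lt_last a).ne'
    simp [Matrix.single_apply, h]
  · have ha : (Fin.natAdd n a : Fin (n + 1)) = Fin.last n := by
      ext; simp
    have hb : (Fin.natAdd n b : Fin (n + 1)) = Fin.last n := by
      ext; simp
    rw [ha, hb, Subsingleton.elim a 0, Subsingleton.elim b 0]
    simp
  · have h : ¬ (Fin.last n = Fin.castAdd 1 a) := (Fin.castSucc_lt_last a).ne'
    simp [Matrix.single_apply, h]
  · have h : ¬ (Fin.last n = Fin.castAdd 1 b) := (Fin.castSucc_lt_last b).ne'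
    simp [Matrix.single_apply, h]

/-- forms which are nonnegative on transversal vectors -/
theorem psd_of_dense {H : Matrix (Fin n) (Fin n) ℂ} (hH : H.IsHermitian) {P : (Fin n → ℂ) → Prop}
    (h : ∀ v, P v → 0 ≤ hf H v) {v1 : Fin n → ℂ}
    (hP : ∀ v, ¬ P v → ∀ t : ℝ, t ≠ 0 → P (v + (t : ℂ) • v1)) : H.PosSemidef := by
  refine psd_of_hf hH fun v _ => ?_
  by_cases hv : P v
  · exact h v hv
  have hc : Continuous fun t : ℝ => hf H (v + (t : ℂ) • v1) :=
    (continuous_hf' H).comp (by fun_prop)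
  have h1 : ContinuousAt (fun t : ℝ => hf H (v + (t : ℂ) • v1)) 0 := hc.continuousAt
  have h2 : Tendsto (fun t : ℝ => hf H (v + (t : ℂ) • v1)) (𝓝[≠] 0) (𝓝 (hf H v)) := by
    have h3 := h1.tendsto
    simp only [ofReal_zero, zero_smul, add_zero] at h3
    exact h3.mono_left nhdsWithin_le_nhds
  refine ge_of_tendsto h2 ?_
  filter_upwards [self_mem_nhdsWithin] with t ht
  exact h _ (hP v hv t ht)

end mat

section leaf

variable {n : ℕ} {M : Type} [TopologicalSpace M] {A : Atl (2 * n) M} {σ : HSymp A}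

theorem tf_eq (F : LFib A σ) {x y : M} (hx : x ∈ F.Om) (hy : y ∈ F.Tf x) :
    y ∈ F.Om ∧ F.Tf y = F.Tf x := by
  obtain ⟨τ, h1, h2, -⟩ := F.tube x hx
  have h3 := hy
  rw [τ.fib x h1] at h3
  refine ⟨h2 h3.1, ?_⟩
  rw [τ.fib x h1, τ.fib y h3.1, h3.2]

theorem mem_tf (F : LFib A σ) {x : M} (hx : x ∈ F.Om) : x ∈ F.Tf x := by
  obtain ⟨τ, h1, h2, -⟩ := F.tube x hx
  rw [τ.fib x h1]
  exact ⟨h1, rfl⟩

/-- families from base maps are leafy -/
theorem leafy_of {F : LFib A σ} {m : ℕ} {D : Set (Cn m)} {Γ : Cn m → M} (F1 : Fam A n m D)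
    (h1 : ∀ v, F1.i v ∈ F.Tf (Γ (F1.y v)))
    (h2 : ∀ u ∈ D, ∀ x ∈ F.Tf (Γ u), ∃ v, F1.y v = u ∧ F1.i v = x)
    (hOm : ∀ u ∈ D, Γ u ∈ F.Om) : Leafy F F1 := by
  intro v
  obtain ⟨h3, h4⟩ := tf_eq F (hOm _ (F1.mem v)) (h1 v)
  refine ⟨h3, ?_⟩
  rw [h4]
  ext x
  constructor
  · intro hx
    obtain ⟨v', h5, h6⟩ := h2 _ (F1.mem v) x hx
    exact ⟨v', h5, h6⟩
  · rintro ⟨v', h5, rfl⟩
    have h6 : F1.y v' = F1.y v := h5
    rw [← h6]
    exact h1 v'

end leaf

end

end Crest.Agent.R281.D6_986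
end

-- ▼ part R281/D6h_986
section

/-!
# R281 (S0424), S6-ASM (helper986), part h: the disc families and `|w|²`

* `exists_tangent` : transversal vectors are tangent to the disc family;
* `pull_sq`        : the pull back of `∂∂̄|w|²` to a disc family;
* `den_fb`         : `det fb K` is a density.
-/

set_option autoImplicit false
set_option linter.unusedSectionVars false

open Set Filter Topology Complex MeasureTheory
open scoped ContDiff Matrix ComplexConjugate Manifold ComplexOrder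

namespace Crest.Agent.R281.D6_986

open Crest.Agent.R275.Geo Crest.Agent.R275.Core144 Crest.Agent.R275.GC293
open Crest.Agent.R273.Defs_333 Crest.Agent.R273.Kah_333 Crest.Agent.R273.HM_333
open Crest.Agent.R273.Hess_333 Crest.Agent.R273.HessB_333 Crest.Agent.R273.KahI_645
open Crest.Agent.R273.Map_835 Crest.Agent.R275.EDR890
open Crest.Agent.R273.StokesV_332 (intD Den NonnegD)
open Crest.Agent.R275.Prod363 (sndL app)
open Crest.Agent.R273.Sus_333 (blk)
open Crest.Agent.R281.Defs_273 Crest.Agent.R281.LEnd_10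
open Crest.Agent.R281.S6D_664 (LFib Fam fb)
open Crest.Agent.R281.S6V_664 (BM LineD)
open Crest.Agent.R281.Fib2_425 (push Prj)
open Crest.Agent.R281.Fib4_425 (Tst)

noncomputable section

section tan

variable {n : ℕ} {M : Type} [TopologicalSpace M] {A : Atl (2 * n) M} {Tf : M → Set M}

/-- the differential of the tube map along a disc family -/
theorem tube_disc (D : LineD A Tf n n) (F1 : Fam A n 1 D.UU)
    (h1 : ∀ v, F1.i v ∈ Tf (D.pt (D.cp (F1.y v))))
    {v : F1.V} {k : F1.B.ι} (hk : v ∈ (F1.B.e k).source) (hv : F1.i v = D.pt (D.cp (F1.y v)))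
    {τ : S6D_664.Tube A n Tf} (hτ : D.pt (D.cp (F1.y v)) ∈ τ.W) (ζ : Cn (n + 1)) :
    fderiv ℂ (fun z => τ.f ((A.e D.i).symm z)) (A.e D.i (F1.i v))
      (fderiv ℂ (rd F1.B A F1.i k D.i) (F1.B.e k v) ζ) =
    (((2 * D.R : ℝ) : ℂ) * ζ (Fin.last n)) •
      fderiv ℂ (fun z => τ.f ((A.e D.i).symm z)) (A.e D.i (F1.i v)) D.v := by
  set w0 := F1.B.e k v with hw0
  have hw0t : w0 ∈ (F1.B.e k).target := (F1.B.e k).map_source hk
  have hsy : (F1.B.e k).symm w0 = v := (F1.B.e k).left_inv hk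
  have hu : F1.y v ∈ D.UU := F1.mem v
  have hcR : ‖D.cp (F1.y v)‖ < D.R := D.cp_lt hu.1
  have hi : F1.i v ∈ (A.e D.i).source := by rw [hv]; exact D.pt_mem hcR.le
  have hdm : w0 ∈ dm F1.B A F1.i k D.i := mem_dm hk hi
  have h2 : DifferentiableAt ℂ (rd F1.B A F1.i k D.i) w0 := F1.hol.diffAt hdm
  have hy : ∀ w ∈ (F1.B.e k).target, F1.y ((F1.B.e k).symm w) = sndL n 1 w := by
    intro w hw
    ext b
    rw [← F1.last k _ ((F1.B.e k).map_target hw) b, (F1.B.e k).right_inv hw]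
    rfl
  have hyv : sndL n 1 w0 = F1.y v := by rw [← hy w0 hw0t, hsy]
  have hrd0 : rd F1.B A F1.i k D.i w0 = A.e D.i (F1.i v) := by
    show A.e D.i (F1.i ((F1.B.e k).symm w0)) = _
    rw [hsy]
  have hW0 : F1.i v ∈ τ.W := by rw [hv]; exact hτ
  have h3 : DifferentiableAt ℂ (fun z => τ.f ((A.e D.i).symm z)) (A.e D.i (F1.i v)) :=
    S6V_664.Tube.diffAt τ hi hW0
  have hez : A.e D.i (F1.i v) = D.z + D.cp (F1.y v) • D.v := by
    rw [hv]; exact D.e_pt hcR.le
  -- the composition is a function of the base coordinate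
  have h4 : (fun w => (fun z => τ.f ((A.e D.i).symm z)) (rd F1.B A F1.i k D.i w)) =ᶠ[𝓝 w0]
      fun w => (fun z => τ.f ((A.e D.i).symm z)) (D.z + D.cp (sndL n 1 w) • D.v) := by
    have h5 : dm F1.B A F1.i k D.i ∩ {w | sndL n 1 w ∈ D.UU ∩ {u | D.pt (D.cp u) ∈ τ.W}} ∈
        𝓝 w0 := by
      refine inter_mem ((F1.hol.isOpen_dm k D.i).mem_nhds hdm) ?_
      have h6 : D.UU ∩ {u | D.pt (D.cp u) ∈ τ.W} ∈ 𝓝 (sndL n 1 w0) := by
        rw [hyv]
        have h7 := (D.discBM.isOpen_pre τ.oW).mem_nhds (show F1.y v ∈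
          D.discBM.U ∩ D.discBM.Γ ⁻¹' τ.W from ⟨hu, hτ⟩)
        exact h7
      exact (sndL n 1).continuous.continuousAt.preimage_mem_nhds h6
    filter_upwards [h5] with w hw
    have hwt : w ∈ (F1.B.e k).target := hw.1.1
    show τ.f ((A.e D.i).symm (A.e D.i (F1.i ((F1.B.e k).symm w)))) =
      τ.f (D.pt (D.cp (sndL n 1 w)))
    rw [(A.e D.i).left_inv hw.1.2]
    have h6 := h1 ((F1.B.e k).symm w)
    rw [hy w hwt, τ.fib _ hw.2.2] at h6
    exact h6.2
  have h7 : HasFDerivAt (fun w => (fun z => τ.f ((A.e D.i).symm z)) (rd F1.B A F1.i k D.i w))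
      ((fderiv ℂ (fun z => τ.f ((A.e D.i).symm z)) (A.e D.i (F1.i v))).comp
        (fderiv ℂ (rd F1.B A F1.i k D.i) w0)) w0 := by
    have h8 := h3.hasFDerivAt
    rw [← hrd0] at h8
    have h9 := h8.comp w0 h2.hasFDerivAt
    rwa [hrd0] at h9
  have h10 : HasFDerivAt (fun w : Cn (n + 1) => D.z + D.cp (sndL n 1 w) • D.v)
      ((((((2 * D.R : ℝ) : ℂ)) • (EuclideanSpace.proj (Fin.last n) :
        Cn (n + 1) →L[ℂ] ℂ))).smulRight D.v) w0 := by
    have h11 : HasFDerivAt (fun w : Cn (n + 1) => w (Fin.last n))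
        (EuclideanSpace.proj (Fin.last n) : Cn (n + 1) →L[ℂ] ℂ) w0 :=
      (EuclideanSpace.proj (Fin.last n) : Cn (n + 1) →L[ℂ] ℂ).hasFDerivAt
    have h12 : HasFDerivAt (fun w : Cn (n + 1) => D.cp (sndL n 1 w))
        (((((2 * D.R : ℝ) : ℂ)) • (EuclideanSpace.proj (Fin.last n) :
        Cn (n + 1) →L[ℂ] ℂ))) w0 := by
      have h13 := (h11.sub_const LineD.kp).const_mul (((2 * D.R : ℝ) : ℂ))
      exact h13
    exact (h12.smul_const D.v).const_add _
  have h14 : HasFDerivAt (fun w => (fun z => τ.f ((A.e D.i).symm z))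
      (D.z + D.cp (sndL n 1 w) • D.v))
      ((fderiv ℂ (fun z => τ.f ((A.e D.i).symm z)) (A.e D.i (F1.i v))).comp
        ((((((2 * D.R : ℝ) : ℂ)) • (EuclideanSpace.proj (Fin.last n) :
        Cn (n + 1) →L[ℂ] ℂ))).smulRight D.v)) w0 := by
    have h15 : D.z + D.cp (sndL n 1 w0) • D.v = A.e D.i (F1.i v) := by rw [hyv, hez]
    have h16 := h3.hasFDerivAt
    rw [← h15] at h16
    have h17 := HasFDerivAt.comp w0 (g := fun z => τ.f ((A.e D.i).symm z)) h16 h10
    rwa [h15] at h17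
  have h18 := (h14.congr_of_eventuallyEq h4).unique h7
  have h19 := congrArg (fun L => L ζ) h18
  simp only [ContinuousLinearMap.comp_apply] at h19
  rw [← h19, ← map_smul]
  rfl

/-- transversal vectors are tangent to the disc family -/
theorem exists_tangent (D : LineD A Tf n n) (F1 : Fam A n 1 D.UU)
    (h1 : ∀ v, F1.i v ∈ Tf (D.pt (D.cp (F1.y v))))
    {v : F1.V} {k : F1.B.ι} (hk : v ∈ (F1.B.e k).source) (hv : F1.i v = D.pt (D.cp (F1.y v)))
    {τ : S6D_664.Tube A n Tf} (hτ : D.pt (D.cp (F1.y v)) ∈ τ.W) :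
    ∃ η : Cn (n + 1), fderiv ℂ (rd F1.B A F1.i k D.i) (F1.B.e k v) η = D.v := by
  have hu : F1.y v ∈ D.UU := F1.mem v
  have hcR : ‖D.cp (F1.y v)‖ < D.R := D.cp_lt hu.1
  have hi : F1.i v ∈ (A.e D.i).source := by rw [hv]; exact D.pt_mem hcR.le
  have hW0 : F1.i v ∈ τ.W := by rw [hv]; exact hτ
  have hRc : ((2 * D.R : ℝ) : ℂ) ≠ 0 := by
    have := D.R_pos
    exact_mod_cast (by positivity : (2 * D.R : ℝ) ≠ 0)
  have hinj := F1.imm k D.i v hk hi
  have hsur := τ.sub D.i (F1.i v) ⟨hi, hW0⟩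
  have htd := tube_disc D F1 h1 hk hv hτ
  set T : Cn (n + 1) →L[ℂ] Cn (2 * n) := fderiv ℂ (rd F1.B A F1.i k D.i) (F1.B.e k v) with hT
  set φ : Cn (2 * n) →L[ℂ] Cn n := fderiv ℂ (fun z => τ.f ((A.e D.i).symm z))
    (A.e D.i (F1.i v)) with hφ
  -- the fibre directions
  let ι0 : Cn n →ₗ[ℂ] Cn (n + 1) :=
    { toFun := fun ζ => app ζ 0
      map_add' := fun a b => by
        ext c
        induction c using Fin.addCases with
        | left c => simp
        | right c => simp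
      map_smul' := fun a b => by
        ext c
        induction c using Fin.addCases with
        | left c => simp
        | right c => simp }
  have hlast : ∀ ζ : Cn n, (ι0 ζ) (Fin.last n) = 0 := by
    intro ζ
    have : (Fin.last n : Fin (n + 1)) = Fin.natAdd n (0 : Fin 1) := by ext; simp
    show (app ζ (0 : Cn 1)) (Fin.last n) = 0
    rw [this]
    simp
  have hker : ∀ ζ : Cn n, (T.toLinearMap.comp ι0) ζ ∈ LinearMap.ker φ.toLinearMap := by
    intro ζ
    rw [LinearMap.mem_ker]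
    show φ (T (ι0 ζ)) = 0
    rw [htd, hlast, mul_zero, zero_smul]
  let T' : Cn n →ₗ[ℂ] LinearMap.ker φ.toLinearMap := (T.toLinearMap.comp ι0).codRestrict _ hker
  have hT'inj : Function.Injective T' := by
    intro a b hab
    have h3 : T (ι0 a) = T (ι0 b) := congrArg Subtype.val hab
    have h4 := hinj h3
    ext c
    have h5 := congrArg (fun z : Cn (n + 1) => z (Fin.castAdd 1 c)) h4
    simpa [ι0] using h5
  have hfr : Module.finrank ℂ (LinearMap.ker φ.toLinearMap) = n := by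
    have h3 := LinearMap.finrank_range_add_finrank_ker φ.toLinearMap
    rw [LinearMap.range_eq_top.2 hsur, finrank_top, finrank_euclideanSpace_fin,
      finrank_euclideanSpace_fin] at h3
    omega
  have hT'sur : Function.Surjective T' :=
    (LinearMap.injective_iff_surjective_of_finrank_eq_finrank
      (by rw [hfr, finrank_euclideanSpace_fin])).1 hT'inj
  -- the last coordinate vector
  set ε : Cn (n + 1) := EuclideanSpace.single (Fin.last n) (1 : ℂ) with hε
  have h6 : φ (D.v - (((2 * D.R : ℝ) : ℂ))⁻¹ • T ε) = 0 := by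
    rw [map_sub, map_smul, htd, hε]
    simp only [PiLp.single_apply, if_true, mul_one]
    rw [smul_smul, inv_mul_cancel₀ hRc, one_smul, sub_self]
  obtain ⟨ζ, hζ⟩ := hT'sur ⟨D.v - (((2 * D.R : ℝ) : ℂ))⁻¹ • T ε, h6⟩
  have h7 : T (ι0 ζ) = D.v - (((2 * D.R : ℝ) : ℂ))⁻¹ • T ε := congrArg Subtype.val hζ
  refine ⟨ι0 ζ + (((2 * D.R : ℝ) : ℂ))⁻¹ • ε, ?_⟩
  rw [map_add, map_smul, h7, sub_add_cancel]

end tan

section pull

variable {N n : ℕ} {M : Type} [TopologicalSpace M] {A : Atl N M}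

/-- the pull back of `∂∂̄|w|²` to a disc family -/
theorem pull_sq {U : Set M} (hU : IsOpen U) {w : M → ℂ} (hol : ∀ i, HolAt A i U w)
    {D1 : Set (Cn 1)} (hD : IsOpen D1) (F1 : Fam A n 1 D1) {W : Cn 1 → ℂ}
    (hW : DifferentiableOn ℂ W D1) (hWw : ∀ v, w (F1.i v) = W (F1.y v))
    {k : F1.B.ι} {v : F1.V} {i : A.ι} (hk : v ∈ (F1.B.e k).source)
    (hi : F1.i v ∈ (A.e i).source) (hvU : F1.i v ∈ U) :
    (Jp F1.B A F1.i k i v)ᵀ * hsf A (fun y => ‖w y‖ ^ 2) i (F1.i v) *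
      (Jp F1.B A F1.i k i v).map conj =
    hess (fun u => ‖W u‖ ^ 2) (F1.y v) 0 0 • Matrix.single (Fin.last n) (Fin.last n) (1 : ℂ) := by
  set w0 := F1.B.e k v with hw0
  have hw0t : w0 ∈ (F1.B.e k).target := (F1.B.e k).map_source hk
  have hsy : (F1.B.e k).symm w0 = v := (F1.B.e k).left_inv hk
  have hdm : w0 ∈ dm F1.B A F1.i k i := mem_dm hk hi
  have hy : ∀ w ∈ (F1.B.e k).target, F1.y ((F1.B.e k).symm w) = sndL n 1 w := by
    intro w hw
    ext b
    rw [← F1.last k _ ((F1.B.e k).map_target hw) b, (F1.B.e k).right_inv hw]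
    rfl
  have hyv : sndL n 1 w0 = F1.y v := by rw [← hy w0 hw0t, hsy]
  have hrd0 : rd F1.B A F1.i k i w0 = A.e i (F1.i v) := by
    show A.e i (F1.i ((F1.B.e k).symm w0)) = _
    rw [hsy]
  have hTa : AnalyticAt ℂ (rd F1.B A F1.i k i) w0 :=
    Crest.Agent.R266.SCV.analyticOnNhd_of_differentiableOn (F1.hol.isOpen_dm k i)
      (F1.hol.hol k i) _ hdm
  have ho : IsOpen ((A.e i).target ∩ (A.e i).symm ⁻¹' U) :=
    (A.e i).isOpen_inter_preimage_symm hU
  have h1 : ContDiffAt ℝ ∞ (fun z => ‖w ((A.e i).symm z)‖ ^ 2) (A.e i (F1.i v)) :=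
    (contDiffOn_nsq hU (hol i)).contDiffAt (ho.mem_nhds ⟨(A.e i).map_source hi, by
      rw [mem_preimage, (A.e i).left_inv hi]; exact hvU⟩)
  have h2 : ContDiffAt ℝ 2 (fun z => ‖w ((A.e i).symm z)‖ ^ 2) (rd F1.B A F1.i k i w0) := by
    rw [hrd0]
    exact h1.of_le (WithTop.coe_le_coe.2 (le_top : (2 : ℕ∞) ≤ ⊤))
  have h3 := Crest.Agent.R273.LeviR_155.hess_compR hTa h2
  rw [hrd0] at h3
  have h4 : (Jp F1.B A F1.i k i v)ᵀ * hsf A (fun y => ‖w y‖ ^ 2) i (F1.i v) *
      (Jp F1.B A F1.i k i v).map conj =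
      hess (fun z => ‖w ((A.e i).symm (rd F1.B A F1.i k i z))‖ ^ 2) w0 := by
    rw [h3]
    rfl
  rw [h4]
  have h5 : (fun z => ‖w ((A.e i).symm (rd F1.B A F1.i k i z))‖ ^ 2) =ᶠ[𝓝 w0]
      fun z => (fun u => ‖W u‖ ^ 2) (sndL n 1 z) := by
    filter_upwards [(F1.hol.isOpen_dm k i).mem_nhds hdm] with z hz
    show ‖w ((A.e i).symm (A.e i (F1.i ((F1.B.e k).symm z))))‖ ^ 2 = ‖W (sndL n 1 z)‖ ^ 2
    rw [(A.e i).left_inv hz.2, hWw, hy z hz.1]
  have h6 : ContDiffAt ℝ ∞ (fun u => ‖W u‖ ^ 2) (sndL n 1 w0) := by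
    rw [hyv]
    exact (Crest.Agent.R273.FS_333.contDiffAt_of_hol hD hW (F1.mem v)).norm_sq ℝ
  rw [hess_congr h5, Crest.Agent.R273.UpV_914.hess_snd h6, blk_single, hyv]

/-- `det fb K` is a density -/
theorem den_fb {d m : ℕ} {D1 : Set (Cn m)} (F1 : Fam A d m D1) (K : Kah A) :
    Den F1.B (fun k v => (fb ((F1.kah K).g k v)).det) where
  sm i := Fub5_163.smAt_fbD F1 K i
  tr i j x hx := by
    let D : SK1_507.Ada F1.B F1.y :=
      { r := fun _ => 1
        b := fun _ => 0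
        r_ne := fun _ => one_ne_zero
        eq := fun i x hx c => by
          rw [one_mul]
          show _ = _ + (0 : ℂ)
          rw [add_zero]
          exact (F1.last i x hx c).symm }
    have h1 := SK1_507.fib_tr D (g := (F1.kah K).g) hx ((F1.kah K).tr i j x hx)
    have h2 := SK1_507.det_Jm D hx
    have h3 : (D.r i / D.r j) ^ m = 1 := by
      show ((1 : ℂ) / 1) ^ m = 1
      simp
    rw [h3, mul_one] at h2
    have h4 : Crest.Agent.R275.SerG398.dens F1.B i j x =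
        (Jm F1.B i j x).det * conj (Jm F1.B i j x).det := by
      rw [Complex.mul_conj, Complex.normSq_eq_norm_sq]
      rfl
    show (SK1_507.fib (F1.kah K).g i x).det = Crest.Agent.R275.SerG398.dens F1.B i j x *
      (SK1_507.fib (F1.kah K).g j x).det
    rw [h1, Matrix.det_mul, Matrix.det_mul, Matrix.det_transpose, Fub5_163.det_conj_map, h4, h2]
    ring

end pull

end

end Crest.Agent.R281.D6_986
end

-- ▼ part R281/D6i_986

/-!
# R281 (S0424), S6-ASM (helper986), part i: `UPre ⟹ UOut`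

* `UPre.form` : the curvature on transversal vectors;
* `UPre.strict`, `UPre.out`.
-/

set_option autoImplicit false
set_option linter.unusedSectionVars false

open Set Filter Topology Complex MeasureTheory
open scoped ContDiff Matrix ComplexConjugate Manifold ComplexOrder

namespace Crest.Agent.R281.D6_986

open Crest.Agent.R275.Geo Crest.Agent.R275.Core144 Crest.Agent.R275.GC293
open Crest.Agent.R273.Defs_333 Crest.Agent.R273.Kah_333 Crest.Agent.R273.HM_333
open Crest.Agent.R273.Hess_333 Crest.Agent.R273.HessB_333 Crest.Agent.R273.KahI_645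
open Crest.Agent.R273.Map_835 Crest.Agent.R275.EDR890
open Crest.Agent.R273.StokesV_332 (intD Den NonnegD)
open Crest.Agent.R275.Prod363 (sndL app)
open Crest.Agent.R273.Sus_333 (blk)
open Crest.Agent.R281.Defs_273 Crest.Agent.R281.LEnd_10
open Crest.Agent.R281.S6D_664 (LFib Fam fb)
open Crest.Agent.R281.S6V_664 (BM LineD)
open Crest.Agent.R281.Fib2_425 (push Prj)
open Crest.Agent.R281.Fib4_425 (Tst)

noncomputable section

/-- congruence by a rectangular matrix -/
theorem psd_congr' {N k : ℕ} {J : Matrix (Fin N) (Fin k) ℂ} {H : Matrix (Fin N) (Fin N) ℂ}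
    (h : H.PosSemidef) : (Jᵀ * H * J.map conj).PosSemidef := by
  have h1 := h.conjTranspose_mul_mul_same (J.map conj)
  have h2 : (J.map conj)ᴴ = Jᵀ := by
    ext a b
    simp [Matrix.conjTranspose_apply]
  rwa [h2] at h1

theorem mt_mulVec' {N k : ℕ} (T : Cn k →L[ℂ] Cn N) (η : Cn k) :
    (Crest.Agent.R273.Map_835.mt T) *ᵥ (fun a => η a) = fun b => (T η) b := by
  have h1 : η = ∑ a, η a • (EuclideanSpace.single a (1 : ℂ) : Cn k) := by
    ext b
    rw [WithLp.ofLp_sum, Finset.sum_apply]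
    simp [PiLp.single_apply]
  funext b
  conv_rhs => rw [h1, map_sum]
  rw [WithLp.ofLp_sum, Finset.sum_apply]
  simp only [Matrix.mulVec, dotProduct, Crest.Agent.R273.Map_835.mt, Matrix.of_apply]
  refine Finset.sum_congr rfl fun a _ => ?_
  rw [map_smul, mul_comm]
  rfl

section main

variable {n : ℕ} {M : Type} [TopologicalSpace M] [T2Space M] [SecondCountableTopology M]
  {A : Atl (2 * n) M} {σ : HSymp A} {L : LB A} {K : Kah A} {o : OmOut σ L} {h : HM L}

theorem UPre.form (up : UPre K o h) {U : Set M} {w : M → ℂ} (hb : BasicOn o.F U w) {B : ℝ}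
    (hB : 0 < B)
    (hdom : ∀ i, ∀ x ∈ (A.e i).source, x ∈ U → x ∈ o.F.Om →
      ((B : ℂ) • K.g i x - hsf A (fun y => ‖w y‖ ^ 2) i x).PosSemidef)
    {i : A.ι} {x : M} (hx : x ∈ (A.e i).source) (hxU : x ∈ U) (hxO : x ∈ o.F.Om)
    {τ : S6D_664.Tube A n o.F.Tf} (hτ : x ∈ τ.W) (ξ : Cn (2 * n))
    (hξ : fderiv ℂ (fun z => τ.f ((A.e i).symm z)) (A.e i x) ξ ≠ 0) :
    0 ≤ hf (cur h i x + hsf A up.u i x - ((up.a * up.vol / B : ℝ) : ℂ) •
      hsf A (fun y => ‖w y‖ ^ 2) i x) (star fun a => ξ a) := by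
  -- the line
  obtain ⟨R, hR, hRt⟩ : ∃ R : ℝ, 0 < R ∧ ∀ c : ℂ, ‖c‖ ≤ R → A.e i x + c • ξ ∈ (A.e i).target := by
    have h1 : ContinuousAt (fun c : ℂ => A.e i x + c • ξ) 0 := by fun_prop
    have h2 : (A.e i).target ∈ 𝓝 (A.e i x + (0 : ℂ) • ξ) := by
      rw [zero_smul, add_zero]
      exact (A.e i).open_target.mem_nhds ((A.e i).map_source hx)
    obtain ⟨ε, hε, hball⟩ := Metric.eventually_nhds_iff_ball.1 (h1.eventually h2)
    refine ⟨ε / 2, half_pos hε, fun c hc => hball c ?_⟩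
    rw [mem_ball_zero_iff]
    linarith
  let D : LineD A o.F.Tf n n :=
    { hN := two_mul n
      Om := U ∩ o.F.Om
      oOm := hb.op.inter o.F.op
      tb := fun x hx => by
        obtain ⟨τ, h1, -⟩ := o.F.tube x hx.2
        exact ⟨τ, h1⟩
      i := i
      z := A.e i x
      v := ξ
      R := R
      R_pos := hR
      mem := hRt }
  have hpt0 : D.pt 0 = x := by
    show (A.e i).symm (A.e i x + (0 : ℂ) • ξ) = x
    rw [zero_smul, add_zero, (A.e i).left_inv hx]
  have hnb : (0 : ℂ) ∉ D.bad := by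
    rintro ⟨-, h1 | h1⟩
    · rw [hpt0] at h1
      exact h1 ⟨hxU, hxO⟩
    · have h2 := (D.kr_iff (c := 0) (by rw [norm_zero]; exact hR.le) (τ := τ)
        (by rw [hpt0]; exact hτ)).1 h1
      have h3 : D.z + (0 : ℂ) • D.v = A.e i x := by
        show A.e i x + (0 : ℂ) • ξ = _
        rw [zero_smul, add_zero]
      rw [h3] at h2
      exact hξ h2
  let u0 : Cn 1 := WithLp.toLp 2 fun _ => LineD.kp
  have hcp0 : D.cp u0 = 0 := by
    show ((2 * D.R : ℝ) : ℂ) * (LineD.kp - LineD.kp) = 0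
    rw [sub_self, mul_zero]
  have hu0 : u0 ∈ D.UU := by
    refine ⟨?_, ?_⟩
    · show ‖LineD.kp - LineD.kp‖ < 1 / 2
      rw [sub_self, norm_zero]; norm_num
    · rw [hcp0]; exact hnb
  have hgood : ∀ u ∈ D.UU, D.pt (D.cp u) ∈ U ∧ D.pt (D.cp u) ∈ o.F.Om := fun u hu =>
    (D.not_bad (D.cp_lt hu.1).le hu.2).1
  obtain ⟨F1, h1, h2⟩ := D.exists_disc ⟨u0, hu0⟩
  have hL : Leafy o.F F1 := leafy_of (Γ := fun u => D.pt (D.cp u)) F1 h1 h2
    fun u hu => (hgood u hu).2
  obtain ⟨v0, hy0, hv0⟩ := h2 u0 hu0 x (by rw [hcp0, hpt0]; exact mem_tf o.F hxO)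
  -- the function on the base
  let W : Cn 1 → ℂ := fun u => w (D.pt (D.cp u))
  have hWw : ∀ v, w (F1.i v) = W (F1.y v) := fun v =>
    hb.const _ (hgood _ (F1.mem v)).1 (hgood _ (F1.mem v)).2 _ (h1 v)
  have hFU : ∀ v, F1.i v ∈ U := fun v =>
    hb.sat _ (hgood _ (F1.mem v)).1 (hgood _ (F1.mem v)).2 (h1 v)
  have hWd : DifferentiableOn ℂ W D.UU := by
    intro u hu
    have h3 : DifferentiableAt ℂ (fun z => w ((A.e i).symm z)) (D.z + D.cp u • D.v) := by
      refine (hb.hol i).differentiableAt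
        (((A.e i).isOpen_inter_preimage_symm hb.op).mem_nhds ⟨?_, ?_⟩)
      · exact D.mem _ (D.cp_lt hu.1).le
      · exact (hgood u hu).1
    have h4 : DifferentiableAt ℂ (fun u : Cn 1 => D.z + D.cp u • D.v) u := by
      unfold LineD.cp
      fun_prop
    exact (DifferentiableAt.comp u (g := fun z => w ((A.e i).symm z)) h3
      h4).differentiableWithinAt
  have hWs : ContDiffOn ℝ ∞ (fun u => ‖W u‖ ^ 2) D.UU := fun u hu =>
    ((Crest.Agent.R273.FS_333.contDiffAt_of_hol D.isOpen_UU hWd hu).norm_sq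
      ℝ).contDiffWithinAt
  set t : Cn 1 → ℝ := fun u => (hess (fun u => ‖W u‖ ^ 2) u 0 0).re with ht
  have htc : ∀ u ∈ D.UU, hess (fun u => ‖W u‖ ^ 2) u 0 0 = (t u : ℂ) := by
    intro u hu
    have h3 := hess_herm (hWs.contDiffAt (D.isOpen_UU.mem_nhds hu))
    have h4 := h3.apply 0 0
    exact (Complex.conj_eq_iff_re.1 h4).symm
  have hprj : Prj F1.B F1.y D.UU := ⟨F1.last, F1.mem, F1.proper, D.isOpen_UU⟩
  -- the pull back
  obtain ⟨k, hk⟩ := F1.B.cover v0
  have hxv : F1.i v0 ∈ (A.e i).source := by rw [hv0]; exact hx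
  have hid := up.id D.UU D.isOpen_UU F1 hL k v0 hk i hxv
  have hsq := pull_sq hb.op hb.hol D.isOpen_UU F1 hWd hWw hk hxv (hFU v0)
  -- reality
  have hdet : ∀ k, ∀ v ∈ (F1.B.e k).source, 0 ≤ ((F1.kah K).g k v).det.re ∧
      ((F1.kah K).g k v).det.im = 0 := fun k v hv => Fub5_163.nonnegD_det (F1.kah K) k v hv
  have hPim : (push F1.P (fun k v => ((F1.kah K).g k v).det) (F1.y v0)).im = 0 :=
    Fib4_425.push_real hprj (F1.mem v0) fun k v hv _ => (hdet k v hv).2
  set P : ℝ := (push F1.P (fun k v => ((F1.kah K).g k v).det) (F1.y v0)).re with hP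
  have hPc : push F1.P (fun k v => ((F1.kah K).g k v).det) (F1.y v0) = (P : ℂ) := by
    apply Complex.ext
    · rw [ofReal_re]
    · rw [ofReal_im, hPim]
  -- the inequality
  have key : t (F1.y v0) * up.vol ≤ B * P := by
    have hφ : F1.B.Sm (fun v => ((t (F1.y v) : ℝ) : ℂ)) := by
      have h3 : ContDiffOn ℝ ∞ (fun u => ((t u : ℝ) : ℂ)) D.UU :=
        (contDiffOn_hess D.isOpen_UU hWs 0 0).congr fun u hu => (htc u hu).symm
      exact hprj.sm h3
    have h3 := Fib4_425.push_mono (P := F1.P) hprj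
      (η := fun k v => ((t (F1.y v) : ℝ) : ℂ) * (fb ((F1.kah K).g k v)).det)
      (θ := fun k v => (B : ℂ) * ((F1.kah K).g k v).det)
      ((den_fb F1 K).mulF hφ) ((Fub5_163.den_det (F1.kah K)).smul (B : ℂ))
      (fun k v hv => by
        have h4 := Fub5_163.fbD_re F1 K hv
        have h5 : (fb ((F1.kah K).g k v)).det.im = 0 := by
          have h6 : Fub5_163.fbD F1 K k v = (fb ((F1.kah K).g k v)).det := rfl
          rw [← h6, ← h4, ofReal_im]
        rw [Complex.im_ofReal_mul, Complex.im_ofReal_mul, h5, (hdet k v hv).2, mul_zero,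
          mul_zero]
        exact ⟨rfl, rfl⟩)
      (fun k v hv => by
        rw [Complex.re_ofReal_mul, Complex.re_ofReal_mul]
        refine det_le_of_psd hB ?_
        obtain ⟨j, hj⟩ := A.cover (F1.i v)
        have h4 := psd_congr' (J := Jp F1.B A F1.i k j v)
          (hdom j (F1.i v) hj (hFU v) (hL v).1)
        have h5 := pull_sq hb.op hb.hol D.isOpen_UU F1 hWd hWw hv hj (hFU v)
        have h6 : (F1.kah K).g k v = (Jp F1.B A F1.i k j v)ᵀ * K.g j (F1.i v) *
            (Jp F1.B A F1.i k j v).map conj := pullI_g K F1.hol F1.imm hv hj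
        rw [Matrix.mul_sub, Matrix.sub_mul, h5, Matrix.mul_smul, Matrix.smul_mul, ← h6,
          htc _ (F1.mem v)] at h4
        exact h4)
      (F1.y v0) (F1.mem v0)
    rw [Fib2_425.push_mul_base hprj (fun u => ((t u : ℝ) : ℂ)) (F1.mem v0),
      up.fvol D.UU D.isOpen_UU F1 hL _ (F1.mem v0), Fib2_425.push_smul hprj _ (F1.mem v0), hPc,
      ← ofReal_mul, ← ofReal_mul, ofReal_re, ofReal_re] at h3
    exact h3
  -- the tangent vector
  have hD0 : F1.i v0 = D.pt (D.cp (F1.y v0)) := by rw [hy0, hcp0, hpt0, hv0]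
  obtain ⟨η, hη⟩ := exists_tangent D F1 h1 hk hD0 (τ := τ) (by rw [← hD0, hv0]; exact hτ)
  have hJ : (Jp F1.B A F1.i k i v0) *ᵥ (fun a => η a) = fun a => ξ a := by
    have h3 := mt_mulVec' (fderiv ℂ (rd F1.B A F1.i k i) (F1.B.e k v0)) η
    have h4 : (fun b => (fderiv ℂ (rd F1.B A F1.i k i) (F1.B.e k v0) η) b) = fun a => ξ a := by
      have h5 : fderiv ℂ (rd F1.B A F1.i k i) (F1.B.e k v0) η = ξ := hη
      rw [h5]
    rw [← h4, ← h3]
    rfl
  rw [← hJ, ← hf_pull]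
  rw [hv0] at hid hsq
  rw [Matrix.mul_sub, Matrix.sub_mul, hid, Matrix.mul_smul, Matrix.smul_mul, hsq,
    htc _ (F1.mem v0), hPc, smul_smul, ← sub_smul]
  have h7 : (((up.a : ℂ) * (P : ℂ)) - ((up.a * up.vol / B : ℝ) : ℂ) * (t (F1.y v0) : ℂ)) =
      ((up.a * P - up.a * up.vol / B * t (F1.y v0) : ℝ) : ℂ) := by
    push_cast
    ring
  rw [h7, hf_single]
  refine mul_nonneg ?_ (by positivity)
  have h8 : up.a * up.vol / B * t (F1.y v0) = up.a / B * (t (F1.y v0) * up.vol) := by ring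
  have h9 : up.a / B * (t (F1.y v0) * up.vol) ≤ up.a / B * (B * P) :=
    mul_le_mul_of_nonneg_left key (div_nonneg up.a_pos.le hB.le)
  have h10 : up.a / B * (B * P) = up.a * P := by
    field_simp
  rw [h8]
  linarith

theorem UPre.strict (up : UPre K o h) (hn : 1 ≤ n) {U : Set M} {w : M → ℂ}
    (hb : BasicOn o.F U w) {B : ℝ} (hB : 0 < B)
    (hdom : ∀ i, ∀ x ∈ (A.e i).source, x ∈ U → x ∈ o.F.Om →
      ((B : ℂ) • K.g i x - hsf A (fun y => ‖w y‖ ^ 2) i x).PosSemidef)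
    {i : A.ι} {x : M} (hx : x ∈ (A.e i).source) (hxU : x ∈ U) (hxO : x ∈ o.F.Om) :
    (cur h i x + hsf A up.u i x - ((up.a * up.vol / B : ℝ) : ℂ) •
      hsf A (fun y => ‖w y‖ ^ 2) i x).PosSemidef := by
  obtain ⟨τ, hτ, hτO, -⟩ := o.F.tube x hxO
  have hsur := τ.sub i x ⟨hx, hτ⟩
  set φ : Cn (2 * n) →L[ℂ] Cn n := fderiv ℂ (fun z => τ.f ((A.e i).symm z)) (A.e i x) with hφ
  obtain ⟨ξ1, hξ1⟩ := hsur (EuclideanSpace.single ⟨0, hn⟩ (1 : ℂ))
  have hξ1' : φ ξ1 ≠ 0 := by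
    rw [hξ1]
    intro h0
    have h1 := congrArg (fun z : Cn n => z ⟨0, hn⟩) h0
    simp at h1
  have hH : (cur h i x + hsf A up.u i x - ((up.a * up.vol / B : ℝ) : ℂ) •
      hsf A (fun y => ‖w y‖ ^ 2) i x).IsHermitian := by
    refine ((cur_herm h i hx).add ?_).sub ?_
    · exact hess_herm (up.sm i _ ((A.e i).map_source hx) (by rw [(A.e i).left_inv hx]; exact hxO))
    · have h1 := hsf_herm (f := fun y => ‖w y‖ ^ 2) hb.op (contDiffOn_nsq hb.op (hb.hol i)) hx hxU
      unfold Matrix.IsHermitian at h1 ⊢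
      rw [Matrix.conjTranspose_smul, h1]
      congr 1
      exact Complex.conj_ofReal _
  refine psd_of_dense hH (P := fun v => φ (WithLp.toLp 2 (star v)) ≠ 0) (fun v hv => ?_)
    (v1 := star fun a => ξ1 a) (fun v hv t ht => ?_)
  · have h1 := up.form hb hB hdom hx hxU hxO hτ (WithLp.toLp 2 (star v)) hv
    have h2 : (star fun a => (WithLp.toLp 2 (star v) : Cn (2 * n)) a) = v := star_star v
    rwa [h2] at h1
  · show φ (WithLp.toLp 2 (star (v + (t : ℂ) • star fun a => ξ1 a))) ≠ 0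
    have h1 : (WithLp.toLp 2 (star (v + (t : ℂ) • star fun a => ξ1 a)) : Cn (2 * n)) =
        WithLp.toLp 2 (star v) + (t : ℂ) • ξ1 := by
      ext a
      simp
    have h2 : φ (WithLp.toLp 2 (star v)) = 0 := by
      by_contra h3
      exact hv h3
    rw [h1, map_add, map_smul, h2, zero_add]
    exact smul_ne_zero (by exact_mod_cast ht) hξ1'

/-- the node `UOut` from 425's output -/
def UPre.out (up : UPre K o h) (hn : 1 ≤ n) : UOut K o h where
  u := up.u
  B := up.B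
  bdd := up.bdd
  sm := up.sm
  pos := fun i x hx hxO => by
    have hb : BasicOn o.F univ (fun _ : M => (0 : ℂ)) :=
      ⟨isOpen_univ, fun _ _ _ => subset_univ _, fun i => differentiableOn_const _,
        fun _ _ _ _ _ => rfl⟩
    have h0 : ∀ i x, hsf A (fun _ : M => ‖(0 : ℂ)‖ ^ 2) i x = 0 := fun i x => by
      have : (fun _ : M => ‖(0 : ℂ)‖ ^ 2) = fun _ => (0 : ℝ) := by simp
      rw [this]
      exact hess_zero' _
    have h1 := up.strict hn hb one_pos (fun i x hx _ _ => by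
      rw [h0, sub_zero, ofReal_one, one_smul]
      exact (K.pos i x hx).posSemidef) hx (mem_univ x) hxO
    rwa [h0, smul_zero, sub_zero] at h1
  c := up.a * up.vol
  c_pos := mul_pos up.a_pos up.vol_pos
  strict := fun _ _ hb _ hB hdom i x hx hxU hxO => up.strict hn hb hB hdom hx hxU hxO

end main

end

end Crest.Agent.R281.D6_986
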