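import Crest.Agent.R281.D6c_986
import Crest.Agent.R281.Con3_166
import Crest.Agent.R281.Con5_166
import Crest.Agent.R281.Mv8_757

-- ▼ part R281/Con6_166
section

/-!
# R281 (S0424), DIV 6, S6-CONT part 6 (helper166): uniform charts on a compact Kaehler manifold

`exists_unif_chart` : for `ε > 0` there are `δ, C > 0` such that every point `q` has a chart `j` with
`closedBall (e_j q) δ` in the target, of diameter `< ε` in the metric of `M`, and `1 ≤ C K` there.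
-/

set_option autoImplicit false
set_option linter.unusedSectionVars false

open Set Filter Topology Complex Function
open scoped ContDiff Matrix ComplexConjugate ComplexOrder

namespace Crest.Agent.R281.Con_166

open Crest.Agent.R275.Geo Crest.Agent.R275.Core144
open Crest.Agent.R273.Defs_333 Crest.Agent.R273.Kah_333

noncomputable section

variable {N : ℕ} {M : Type} [MetricSpace M] {A : Atl N M}

/-- the statement at one point `q` -/
def UC (K : Kah A) (ε δ C : ℝ) (q : M) : Prop :=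
  ∃ j, q ∈ (A.e j).source ∧ Metric.closedBall (A.e j q) δ ⊆ (A.e j).target ∧
    ∀ z ∈ Metric.closedBall (A.e j q) δ, dist ((A.e j).symm z) q < ε ∧
      ((C : ℂ) • K.g j ((A.e j).symm z) - 1).PosSemidef

theorem UC.mono {K : Kah A} {ε δ C δ' C' : ℝ} {q : M} (h : UC K ε δ C q) (hδ : δ' ≤ δ)
    (hC : C ≤ C') : UC K ε δ' C' q := by
  obtain ⟨j, h1, h2, h3⟩ := h
  have h4 : Metric.closedBall (A.e j q) δ' ⊆ Metric.closedBall (A.e j q) δ :=
    Metric.closedBall_subset_closedBall hδ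
  refine ⟨j, h1, h4.trans h2, fun z hz => ⟨(h3 z (h4 hz)).1, ?_⟩⟩
  have h5 := (h3 z (h4 hz)).2
  have h6 : (K.g j ((A.e j).symm z)).PosSemidef :=
    (K.pos j _ ((A.e j).map_target (h2 (h4 hz)))).posSemidef
  have h7 : (((C' - C : ℝ) : ℂ) • K.g j ((A.e j).symm z)).PosSemidef :=
    h6.smul (by exact_mod_cast sub_nonneg.2 hC)
  have h8 := h5.add h7
  have e : (C : ℂ) • K.g j ((A.e j).symm z) - 1 + ((C' - C : ℝ) : ℂ) • K.g j ((A.e j).symm z) =
      (C' : ℂ) • K.g j ((A.e j).symm z) - 1 := by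
    push_cast
    rw [sub_smul]
    abel
  rwa [e] at h8

theorem uc_near (K : Kah A) {ε : ℝ} (hε : 0 < ε) (p : M) :
    ∃ δ > 0, ∃ C > 0, ∀ᶠ q in 𝓝 p, UC K ε δ C q := by
  obtain ⟨j, hj⟩ := A.cover p
  have ht : A.e j p ∈ (A.e j).target := (A.e j).map_source hj
  have hto : (A.e j).target ∈ 𝓝 (A.e j p) := (A.e j).open_target.mem_nhds ht
  have hKc : ContinuousAt (fun z => K.g j ((A.e j).symm z)) (A.e j p) := by
    refine continuousAt_pi.2 fun a => continuousAt_pi.2 fun b => ?_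
    exact ((K.sm j a b).continuousOn.continuousAt hto)
  obtain ⟨C, hC, h1⟩ := D6_986.dom_near (K := fun z => K.g j ((A.e j).symm z))
    (G := fun _ => (1 : Matrix (Fin N) (Fin N) ℂ)) hKc continuousAt_const
    (by filter_upwards [hto] with z hz using (K.pos j _ ((A.e j).map_target hz)).isHermitian)
    (Eventually.of_forall fun _ => Matrix.isHermitian_one)
    (K.pos j _ ((A.e j).map_target ht))
  have h2 : ∀ᶠ z in 𝓝 (A.e j p), dist ((A.e j).symm z) p < ε / 2 := by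
    have h3 : ContinuousAt (A.e j).symm (A.e j p) := (A.e j).continuousAt_symm ht
    have h4 := h3.eventually (Metric.ball_mem_nhds _ (half_pos hε))
    rw [(A.e j).left_inv hj] at h4
    exact h4
  obtain ⟨r, hr, hrs⟩ := Metric.eventually_nhds_iff.1 (h1.and (h2.and hto))
  refine ⟨r / 3, by positivity, C, hC, ?_⟩
  have h5 : ∀ᶠ q in 𝓝 p, A.e j q ∈ Metric.ball (A.e j p) (r / 3) :=
    ((A.e j).continuousAt hj).eventually (Metric.ball_mem_nhds _ (by positivity))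
  filter_upwards [h5, (A.e j).open_source.mem_nhds hj] with q hq hqs
  have h6 : ∀ z ∈ Metric.closedBall (A.e j q) (r / 3), dist z (A.e j p) < r := by
    intro z hz
    have := dist_triangle z (A.e j q) (A.e j p)
    rw [Metric.mem_closedBall] at hz
    rw [Metric.mem_ball] at hq
    linarith
  have h7 : dist q p < ε / 2 := by
    have := (hrs (y := A.e j q) (by rw [Metric.mem_ball] at hq; linarith)).2.1
    rwa [(A.e j).left_inv hqs] at this
  refine ⟨j, hqs, fun z hz => (hrs (h6 z hz)).2.2, fun z hz => ⟨?_, (hrs (h6 z hz)).1⟩⟩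
  have h8 := (hrs (h6 z hz)).2.1
  have h9 := dist_triangle_right ((A.e j).symm z) q p
  linarith

theorem exists_unif_chart [CompactSpace M] (K : Kah A) {ε : ℝ} (hε : 0 < ε) :
    ∃ δ > 0, ∃ C > 0, ∀ q : M, UC K ε δ C q := by
  have h : ∃ δ > 0, ∃ C > 0, ∀ q ∈ (univ : Set M), UC K ε δ C q := by
    refine isCompact_univ.induction_on (p := fun S => ∃ δ > 0, ∃ C > 0, ∀ q ∈ S, UC K ε δ C q)
      ⟨1, one_pos, 1, one_pos, fun q hq => hq.elim⟩ ?_ ?_ ?_
    · rintro s t hst ⟨δ, hδ, C, hC, h⟩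
      exact ⟨δ, hδ, C, hC, fun q hq => h q (hst hq)⟩
    · rintro s t ⟨δ, hδ, C, hC, h⟩ ⟨δ', hδ', C', hC', h'⟩
      refine ⟨min δ δ', lt_min hδ hδ', max C C', lt_max_of_lt_left hC, ?_⟩
      rintro q (hq | hq)
      · exact (h q hq).mono (min_le_left _ _) (le_max_left _ _)
      · exact (h' q hq).mono (min_le_right _ _) (le_max_right _ _)
    · intro p _
      obtain ⟨δ, hδ, C, hC, h⟩ := uc_near K hε p
      exact ⟨_, mem_nhdsWithin_of_mem_nhds h, δ, hδ, C, hC, fun q hq => hq⟩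
  obtain ⟨δ, hδ, C, hC, h'⟩ := h
  exact ⟨δ, hδ, C, hC, fun q => h' q (mem_univ q)⟩

end

end Crest.Agent.R281.Con_166
end

-- ▼ part R281/Con7_166
section

/-!
# R281 (S0424), DIV 6, S6-CONT part 7 (helper166): the weight, made smooth at the centre

`exists_weight'` : as `exists_weight`, but smooth at the centre and globally defined; subharmonic
for `|y| > r₁`, with compact support in `{|y| < 1} \ E`; the centre may be an isolated point of `E`.
-/

set_option autoImplicit false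

open Set Filter Topology Complex
open scoped ContDiff

namespace Crest.Agent.R281.Con_166

open Crest.Agent.R275.Geo
open Crest.Agent.R273 (Levi_145.lev Levi_145.lev_congr Levi_145.lev_const)

noncomputable section

/-- cut-off : `0` for `|y| ≤ a`, `1` for `b ≤ |y|` -/
theorem exists_cut {a b : ℝ} (ha : 0 < a) (hab : a < b) :
    ∃ η : Cn 1 → ℝ, ContDiff ℝ ∞ η ∧ (∀ y, 0 ≤ η y ∧ η y ≤ 1) ∧
      (∀ y : Cn 1, ‖y 0‖ ≤ a → η y = 0) ∧ (∀ y : Cn 1, b ≤ ‖y 0‖ → η y = 1) := by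
  refine ⟨fun y => Real.smoothTransition ((‖y 0‖ ^ 2 - a ^ 2) / (b ^ 2 - a ^ 2)), ?_, ?_, ?_, ?_⟩
  · have h1 : ContDiff ℝ ∞ fun y : Cn 1 => ‖y 0‖ ^ 2 := by
      have h2 : ContDiff ℝ ∞ fun y : Cn 1 => y 0 :=
        ((EuclideanSpace.proj (0 : Fin 1) : Cn 1 →L[ℂ] ℂ).restrictScalars ℝ).contDiff
      exact h2.norm_sq ℝ
    exact Real.smoothTransition.contDiff.comp ((h1.sub contDiff_const).div_const _)
  · intro y
    exact ⟨Real.smoothTransition.nonneg _, Real.smoothTransition.le_one _⟩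
  · intro y hy
    refine Real.smoothTransition.zero_of_nonpos ?_
    have h1 : ‖y 0‖ ^ 2 ≤ a ^ 2 := pow_le_pow_left₀ (norm_nonneg _) hy 2
    have h2 : a ^ 2 < b ^ 2 := pow_lt_pow_left₀ hab ha.le two_ne_zero
    exact div_nonpos_of_nonpos_of_nonneg (by linarith) (by linarith)
  · intro y hy
    refine Real.smoothTransition.one_of_one_le ?_
    have h1 : b ^ 2 ≤ ‖y 0‖ ^ 2 := pow_le_pow_left₀ (ha.trans hab).le hy 2
    have h2 : a ^ 2 < b ^ 2 := pow_lt_pow_left₀ hab ha.le two_ne_zero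
    rw [one_le_div (by linarith)]
    linarith

theorem exists_weight' {E : Set ℂ} (hE : IsCompact (E \ {0})) (hc : E.Countable)
    (hE1 : ∀ a ∈ E, ‖a‖ ≤ 1) {ζ : ℂ} (hζ : ζ ∉ E)
    (hζ1 : ‖ζ‖ < 1) {r : ℝ} (hr : 0 < r) (hrζ : r < ‖ζ‖) {τ : ℝ} (hτ : 0 < τ) :
    ∃ W : Cn 1 → ℝ,
      (∀ y : Cn 1, y 0 ∉ E → ContDiffAt ℝ ∞ W y) ∧
      (∀ y : Cn 1, y 0 ∉ E → r < ‖y 0‖ → ∀ v, 0 ≤ Levi_145.lev W y v) ∧
      (∀ y, 0 ≤ W y) ∧
      (∀ y : Cn 1, y 0 ∉ E → ‖y 0‖ < 1 → W y ≤ Real.log (1 / ‖y 0‖) / Real.log (1 / ‖ζ‖)) ∧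
      (∃ K : Set ℂ, IsCompact K ∧ (∀ y ∈ K, ‖y‖ < 1 ∧ y ∉ E) ∧
        ∀ y : Cn 1, y 0 ∉ E → y 0 ∉ K → W y = 0) ∧
      (∀ y : Cn 1, y 0 = ζ → Hs 1 - τ ≤ W y) := by
  have hζ0 : ζ ≠ 0 := norm_pos_iff.1 (hr.trans hrζ)
  have hr1 : r < 1 := hrζ.trans hζ1
  obtain ⟨W, w1, w2, w3, w4, ⟨O, hO, hEO, w5⟩, ⟨ρ, hρ, w6⟩, w7⟩ := exists_weight (E := E \ {0}) hE
    (hc.mono sdiff_subset) (fun a ha => hE1 a ha.1) (fun h => h.2 rfl) (ζ := ζ)
    (fun h => hζ h.1) hζ0 hζ1 hτ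
  obtain ⟨η, e1, e2, e3, e4⟩ := exists_cut (a := r / 2) (b := r) (by positivity) (by linarith)
  have hr2 : 0 < r / 2 := by positivity
  have hlog : 0 < Real.log (1 / ‖ζ‖) :=
    Real.log_pos (by rw [lt_div_iff₀ (norm_pos_iff.2 hζ0)]; linarith)
  have hW0 : ∀ y : Cn 1, ‖y 0‖ < r / 2 → (fun y : Cn 1 => if ‖y 0‖ < 1 then η y * W y else 0) =ᶠ[𝓝 y]
      fun _ => 0 := by
    intro y hy
    have : {y : Cn 1 | ‖y 0‖ < r / 2} ∈ 𝓝 y :=
      (isOpen_lt (by fun_prop) continuous_const).mem_nhds hy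
    filter_upwards [this] with y' hy'
    have h1 : ‖y' 0‖ < r / 2 := hy'
    rw [if_pos (by linarith), e3 y' h1.le, zero_mul]
  set ρ' := max ρ (r / 2) with hρ'
  have hρ1 : ρ' < 1 := max_lt hρ (by linarith)
  -- near the outer boundary
  have hout : ∀ y : Cn 1, y 0 ∉ E → ρ' < ‖y 0‖ →
      (fun y : Cn 1 => if ‖y 0‖ < 1 then η y * W y else 0) y = 0 := by
    intro y hy h1
    by_cases h2 : ‖y 0‖ < 1
    · simp only [if_pos h2]
      have h3 : ρ ≤ ‖y 0‖ := (le_max_left _ _).trans h1.le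
      have h4 : y 0 ≠ 0 := by
        intro h
        rw [h, norm_zero] at h1
        linarith [le_max_right ρ (r / 2)]
      rw [w6 y h3 (fun h => hy h.1) h4 h2, mul_zero]
    · simp only [if_neg h2]
  have hEcl : IsClosed (E \ {0}) := hE.isClosed
  have hopen : ∀ y : Cn 1, y 0 ∉ E → y 0 ≠ 0 → ∀ᶠ y' : Cn 1 in 𝓝 y, y' 0 ∉ E ∧ y' 0 ≠ 0 := by
    intro y hy h0
    have h1 : ∀ᶠ y' : Cn 1 in 𝓝 y, y' 0 ∉ E \ {0} :=
      (hEcl.isOpen_compl.preimage (by fun_prop : Continuous fun y : Cn 1 => y 0)).mem_nhds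
        (fun h => hy h.1)
    have h2 : ∀ᶠ y' : Cn 1 in 𝓝 y, y' 0 ≠ 0 :=
      (isOpen_ne.preimage (by fun_prop : Continuous fun y : Cn 1 => y 0)).mem_nhds h0
    filter_upwards [h1, h2] with y' h1 h2
    exact ⟨fun h => h1 ⟨h, h2⟩, h2⟩
  have houtev : ∀ y : Cn 1, y 0 ∉ E → ρ' < ‖y 0‖ →
      (fun y : Cn 1 => if ‖y 0‖ < 1 then η y * W y else 0) =ᶠ[𝓝 y] fun _ => 0 := by
    intro y hy h1
    have h4 : y 0 ≠ 0 := by
      intro h
      rw [h, norm_zero] at h1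
      linarith [le_max_right ρ (r / 2)]
    have h5 : {y : Cn 1 | ρ' < ‖y 0‖} ∈ 𝓝 y :=
      (isOpen_lt continuous_const (by fun_prop)).mem_nhds h1
    filter_upwards [hopen y hy h4, h5] with y' h6 h7
    exact hout y' h6.1 h7
  -- inside
  have hinev : ∀ y : Cn 1, ‖y 0‖ < 1 →
      (fun y : Cn 1 => if ‖y 0‖ < 1 then η y * W y else 0) =ᶠ[𝓝 y] fun y => η y * W y := by
    intro y hy
    have h5 : {y : Cn 1 | ‖y 0‖ < 1} ∈ 𝓝 y :=
      (isOpen_lt (by fun_prop) continuous_const).mem_nhds hy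
    filter_upwards [h5] with y' h6
    exact if_pos h6
  have hin1 : ∀ y : Cn 1, r < ‖y 0‖ → ‖y 0‖ < 1 →
      (fun y : Cn 1 => if ‖y 0‖ < 1 then η y * W y else 0) =ᶠ[𝓝 y] W := by
    intro y hy hy1
    have h5 : {y : Cn 1 | r < ‖y 0‖} ∈ 𝓝 y :=
      (isOpen_lt continuous_const (by fun_prop)).mem_nhds hy
    filter_upwards [h5, hinev y hy1] with y' h6 h7
    rw [h7, e4 y' (le_of_lt h6), one_mul]
  refine ⟨fun y => if ‖y 0‖ < 1 then η y * W y else 0, ?_, ?_, ?_, ?_, ?_, ?_⟩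
  · intro y hy
    rcases lt_or_ge (‖y 0‖) (r / 2) with h1 | h1
    · exact contDiffAt_const.congr_of_eventuallyEq (hW0 y h1)
    rcases lt_or_ge (‖y 0‖) 1 with h2 | h2
    · have h0 : y 0 ≠ 0 := by
        intro h
        rw [h, norm_zero] at h1
        linarith
      exact ((e1.contDiffAt).mul (w1 y h0 fun h => hy h.1)).congr_of_eventuallyEq (hinev y h2)
    · exact contDiffAt_const.congr_of_eventuallyEq (houtev y hy (hρ1.trans_le h2))
  · intro y hy hry v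
    rcases lt_or_ge (‖y 0‖) 1 with h2 | h2
    · have h0 : y 0 ≠ 0 := by
        intro h
        rw [h, norm_zero] at hry
        linarith
      rw [Levi_145.lev_congr (hin1 y hry h2)]
      exact w2 y h0 (fun h => hy h.1) v
    · rw [Levi_145.lev_congr (houtev y hy (hρ1.trans_le h2)), Levi_145.lev_const]
  · intro y
    show 0 ≤ if ‖y 0‖ < 1 then η y * W y else 0
    split_ifs
    · exact mul_nonneg (e2 y).1 (w3 y)
    · exact le_rfl
  · intro y hy h1
    show (if ‖y 0‖ < 1 then η y * W y else 0) ≤ _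
    rw [if_pos h1]
    by_cases h0 : y 0 = 0
    · have h3 : ‖y 0‖ ≤ r / 2 := by
        rw [h0, norm_zero]
        exact hr2.le
      rw [e3 y h3, zero_mul, h0, norm_zero, div_zero, Real.log_zero, zero_div]
    · have h4 := w4 y h0 (fun h => hy h.1) h1
      have h5 : η y * W y ≤ 1 * W y := mul_le_mul_of_nonneg_right (e2 y).2 (w3 y)
      linarith
  · refine ⟨{y | r / 2 ≤ ‖y‖ ∧ ‖y‖ ≤ ρ'} \ O, ?_, ?_, ?_⟩
    · refine IsCompact.diff ?_ hO
      refine (isCompact_closedBall (0 : ℂ) ρ').of_isClosed_subset ?_ ?_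
      · exact (isClosed_le continuous_const continuous_norm).inter
          (isClosed_le continuous_norm continuous_const)
      · intro y hy
        rw [mem_closedBall_zero_iff]
        exact hy.2
    · rintro y ⟨⟨h1, h2⟩, h3⟩
      refine ⟨h2.trans_lt hρ1, fun h => ?_⟩
      have h0 : y ≠ 0 := by
        intro h
        rw [h, norm_zero] at h1
        linarith
      exact h3 (hEO ⟨h, h0⟩)
    · intro y hy hK
      show (if ‖y 0‖ < 1 then η y * W y else 0) = 0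
      rcases lt_or_ge (‖y 0‖) (r / 2) with h1 | h1
      · rw [if_pos (by linarith), e3 y h1.le, zero_mul]
      rcases lt_or_ge ρ' (‖y 0‖) with h2 | h2
      · exact hout y hy h2
      have h3 : y 0 ∈ O := by
        by_contra h
        exact hK ⟨⟨h1, h2⟩, h⟩
      have h0 : y 0 ≠ 0 := by
        intro h
        rw [h, norm_zero] at h1
        linarith
      rw [if_pos (h2.trans_lt hρ1), w5 y h3 (fun h => hy h.1) h0 (h2.trans_lt hρ1), mul_zero]
  · intro y hy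
    show _ ≤ if ‖y 0‖ < 1 then η y * W y else 0
    rw [if_pos (by rw [hy]; exact hζ1), e4 y (by rw [hy]; exact hrζ.le), one_mul]
    exact w7 y hy

end

end Crest.Agent.R281.Con_166
end

-- ▼ part R281/Con8_166

/-!
# R281 (S0424), DIV 6, S6-CONT part 8 (helper166): the estimate for one pair of fibres

`pair_bound` : `F : Fam A d 1 U` a disc family (punctures allowed), `q ∈ T_ζ`, and `T_0` (hence the
fibres near the centre) misses the chart ball of radius `δ` at `q`; then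
`c_(d+1) Hs(1) δ^(2(d+1)) ≤ C^(d+1) C₀ / log (1/|ζ|)`,
`C₀` = bound of `∫ log (1/|y|) dμ_K`.
-/

set_option autoImplicit false
set_option linter.unusedSectionVars false

open Set Filter Topology Complex Function MeasureTheory
open scoped ContDiff Matrix ComplexConjugate ComplexOrder ENNReal

namespace Crest.Agent.R281.Con_166

open Crest.Agent.R275.Geo Crest.Agent.R275.Core144 Crest.Agent.R275.EDR890
open Crest.Agent.R273.Defs_333 Crest.Agent.R273.Kah_333 Crest.Agent.R273.Hess_333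
open Crest.Agent.R273.HessB_333
open Crest.Agent.R273.Map_835 Crest.Agent.R273.KahI_645 Crest.Agent.R273.Vol_333
open Crest.Agent.R273.Vm_333 Crest.Agent.R281.Defs_273 Crest.Agent.R281.S6D_664
open Crest.Agent.R281.Mv_757 Crest.Agent.R281.Fub_192
open Crest.Agent.R273 (Levi_145.lev)

noncomputable section

/-! ### the normalised base coordinate -/

/-- the normalised base coordinate -/
def bc (a₀ : ℂ) (R₀ : ℝ) (u : Cn 1) : ℂ := (u 0 - a₀) / R₀

/-- the same with values in `Cn 1` -/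
def bc1 (a₀ : ℂ) (R₀ : ℝ) (u : Cn 1) : Cn 1 :=
  ((R₀ : ℂ)⁻¹) • (u - EuclideanSpace.single 0 a₀)

@[simp] theorem bc1_zero (a₀ : ℂ) (R₀ : ℝ) (u : Cn 1) : bc1 a₀ R₀ u 0 = bc a₀ R₀ u := by
  simp [bc1, bc, div_eq_inv_mul]

theorem continuous_bc (a₀ : ℂ) (R₀ : ℝ) : Continuous (bc a₀ R₀) := by
  unfold bc
  fun_prop

theorem analyticAt_bc1 (a₀ : ℂ) (R₀ : ℝ) (u : Cn 1) : AnalyticAt ℂ (bc1 a₀ R₀) u := by
  unfold bc1
  fun_prop

theorem norm_cn1 (u : Cn 1) : ‖u‖ = ‖u 0‖ := by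
  rw [EuclideanSpace.norm_eq, Finset.univ_unique, Finset.sum_singleton,
    Real.sqrt_sq (norm_nonneg _)]
  rfl

theorem isCompact_bc {a₀ : ℂ} {R₀ : ℝ} (hR₀ : 0 < R₀) {K : Set ℂ} (hK : IsCompact K) :
    IsCompact (bc a₀ R₀ ⁻¹' K) := by
  obtain ⟨B, hB⟩ := hK.isBounded.exists_norm_le
  refine (isCompact_closedBall (0 : Cn 1) (‖a₀‖ + R₀ * B)).of_isClosed_subset
    (hK.isClosed.preimage (continuous_bc a₀ R₀)) fun u hu => ?_
  rw [mem_closedBall_zero_iff, norm_cn1]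
  have h1 : ‖bc a₀ R₀ u‖ ≤ B := hB _ hu
  have h2 : u 0 = a₀ + R₀ * bc a₀ R₀ u := by
    have : (R₀ : ℂ) ≠ 0 := by exact_mod_cast hR₀.ne'
    unfold bc
    field_simp
    ring
  rw [h2]
  refine (norm_add_le _ _).trans ?_
  rw [norm_mul, Complex.norm_real, Real.norm_of_nonneg hR₀.le]
  gcongr

variable {N d : ℕ} {M : Type} [TopologicalSpace M] [T2Space M] {A : Atl N M} {U : Set (Cn 1)}

section

variable (F : Fam A d 1 U) (K : Kah A) {a₀ : ℂ} {R₀ : ℝ} {E : Set ℂ}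

/-- the data of 757 -/
theorem exists_mdl (hR₀ : 0 < R₀) {W : Cn 1 → ℝ} {r : ℝ}
    (w1 : ∀ y : Cn 1, y 0 ∉ E → ContDiffAt ℝ ∞ W y)
    (w2 : ∀ y : Cn 1, y 0 ∉ E → r < ‖y 0‖ → ∀ v, 0 ≤ Levi_145.lev W y v)
    (w3 : ∀ y, 0 ≤ W y)
    {K' : Set ℂ} (hK' : IsCompact K') (hK1 : ∀ y ∈ K', ‖y‖ < 1 ∧ y ∉ E)
    (w5 : ∀ y : Cn 1, y 0 ∉ E → y 0 ∉ K' → W y = 0)
    (hU : ∀ u : Cn 1, ‖bc a₀ R₀ u‖ < 1 → bc a₀ R₀ u ∉ E → u ∈ U)
    (hU' : ∀ u ∈ U, bc a₀ R₀ u ∉ E)
    {j : A.ι} {q : M} {δ : ℝ} (hδ : 0 < δ)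
    (hball : Metric.closedBall (A.e j q) δ ⊆ (A.e j).target)
    (hmiss : ∀ v, F.i v ∈ (A.e j).symm '' Metric.ball (A.e j q) δ → r < ‖bc a₀ R₀ (F.y v)‖) :
    MDL F.B (F.i ⁻¹' (A.e j).source) (Phi F j q) (fun v => W (bc1 a₀ R₀ (F.y v))) (δ ^ 2) := by
  have hWU : ∀ u ∈ U, ContDiffAt ℝ ∞ (fun u => W (bc1 a₀ R₀ u)) u := by
    intro u hu
    have h1 : ContDiffAt ℝ ∞ W (bc1 a₀ R₀ u) := w1 _ (by rw [bc1_zero]; exact hU' u hu)
    have h2 : ContDiffAt ℝ ∞ (bc1 a₀ R₀) u := by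
      unfold bc1
      fun_prop
    exact h1.comp u h2
  refine ⟨(A.e j).open_source.preimage F.hol.cont, hol_Phi F j q, sm_base F hWU,
    fun v => w3 _, ?_, ?_⟩
  · intro k x hx hxW hxs
    refine psd_base F (W := fun u => W (bc1 a₀ R₀ u)) (hWU _ (F.mem x)) (fun ξ => ?_) hx
    have h1 : ContDiffAt ℝ 2 W (bc1 a₀ R₀ (F.y x)) := by
      have := w1 (bc1 a₀ R₀ (F.y x)) (by rw [bc1_zero]; exact hU' _ (F.mem x))
      exact_mod_cast contDiffAt_infty.1 this 2
    rw [Crest.Agent.R273.Levi_145.lev_comp (u := W) (T := bc1 a₀ R₀)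
      (analyticAt_bc1 a₀ R₀ _) h1 ξ]
    refine w2 _ (by rw [bc1_zero]; exact hU' _ (F.mem x)) ?_ _
    rw [bc1_zero]
    refine hmiss x ⟨A.e j (F.i x), ?_, (A.e j).left_inv hxW⟩
    rw [mem_ball_iff_norm]
    rw [sF_Phi] at hxs
    exact (pow_lt_pow_iff_left₀ (norm_nonneg _) hδ.le two_ne_zero).1 hxs
  · intro r' hr'
    have hc1 : IsCompact (F.y ⁻¹' (bc a₀ R₀ ⁻¹' K')) := by
      refine F.proper _ (fun u hu => ?_) (isCompact_bc hR₀ hK')
      exact hU u (hK1 _ hu).1 (hK1 _ hu).2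
    have hsub : tsupport (fun v => W (bc1 a₀ R₀ (F.y v))) ⊆ F.y ⁻¹' (bc a₀ R₀ ⁻¹' K') := by
      refine closure_minimal (fun v hv => ?_)
        (hK'.isClosed.preimage ((continuous_bc a₀ R₀).comp (continuous_y F)))
      by_contra h
      refine hv (w5 _ ?_ ?_)
      · rw [bc1_zero]
        exact hU' _ (F.mem v)
      · rw [bc1_zero]
        exact h
    have hcl : IsClosed {x | x ∈ F.i ⁻¹' (A.e j).source ∧ sF (Phi F j q) x ≤ r'} := by
      rcases lt_or_ge r' 0 with h0 | h0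
      · have : {x | x ∈ F.i ⁻¹' (A.e j).source ∧ sF (Phi F j q) x ≤ r'} = ∅ := by
          ext x
          simp only [mem_ofPred_eq, mem_empty_iff_false, iff_false, not_and, not_le]
          intro _
          exact h0.trans_le (sF_nonneg _ x)
        rw [this]
        exact isClosed_empty
      · have h1 : Real.sqrt r' ≤ δ := by
          rw [← Real.sqrt_sq hδ.le]
          exact Real.sqrt_le_sqrt hr'.le
        have h2 := closed_Phi F j (q := q) (Real.sqrt_nonneg r')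
          ((Metric.closedBall_subset_closedBall h1).trans hball)
        rwa [Real.sq_sqrt h0] at h2
    exact (hc1.of_isClosed_subset (isClosed_tsupport _) hsub).inter_right hcl

/-- the estimate for one pair -/
theorem pair_bound (hR₀ : 0 < R₀) (hE : IsCompact (E \ {0})) (hc : E.Countable)
    (hE1 : ∀ a ∈ E, ‖a‖ ≤ 1)
    (hU : ∀ u : Cn 1, ‖bc a₀ R₀ u‖ < 1 → bc a₀ R₀ u ∉ E → u ∈ U)
    (hU' : ∀ u ∈ U, bc a₀ R₀ u ∉ E)
    {j : A.ι} {q : M} (hq : q ∈ (A.e j).source) {δ C : ℝ} (hδ : 0 < δ) (hC : 0 ≤ C)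
    (hball : Metric.closedBall (A.e j q) δ ⊆ (A.e j).target)
    (hG : ∀ z ∈ Metric.closedBall (A.e j q) δ,
      ((C : ℂ) • K.g j ((A.e j).symm z) - 1).PosSemidef)
    {vq : F.V} (hvq : F.i vq = q) (hζ1 : ‖bc a₀ R₀ (F.y vq)‖ < 1)
    {r : ℝ} (hr : 0 < r)
    (hmiss : ∀ v, F.i v ∈ (A.e j).symm '' Metric.ball (A.e j q) δ → r < ‖bc a₀ R₀ (F.y v)‖)
    {C₀ : ℝ} (hC₀ : 0 ≤ C₀)
    (hν : ∫⁻ v in {v | ‖bc a₀ R₀ (F.y v)‖ < 1},
      ENNReal.ofReal (Real.log (1 / ‖bc a₀ R₀ (F.y v)‖)) ∂(F.mu K) ≤ ENNReal.ofReal C₀) :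
    bv (d + 1) * Hs 1 * δ ^ (2 * (d + 1)) ≤
      C ^ (d + 1) * C₀ / Real.log (1 / ‖bc a₀ R₀ (F.y vq)‖) := by
  set ζ : ℂ := bc a₀ R₀ (F.y vq) with hζ
  have hrζ : r < ‖ζ‖ := by
    refine hmiss vq ⟨A.e j q, Metric.mem_ball_self hδ, ?_⟩
    rw [(A.e j).left_inv hq, hvq]
  have hζ0 : 0 < ‖ζ‖ := hr.trans hrζ
  have hlog : 0 < Real.log (1 / ‖ζ‖) := Real.log_pos (by rw [lt_div_iff₀ hζ0]; linarith)
  let _ : MeasurableSpace F.V := borel F.V
  have _ : BorelSpace F.V := ⟨rfl⟩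
  -- for every `τ`
  have key : ∀ τ : ℝ, 0 < τ → bv (d + 1) * (Hs 1 - τ) * δ ^ (2 * (d + 1)) ≤
      C ^ (d + 1) * C₀ / Real.log (1 / ‖ζ‖) := by
    intro τ hτ
    obtain ⟨W, w1, w2, w3, w4, ⟨K', hK', hK1, w5⟩, w6⟩ := exists_weight' (E := E) hE hc hE1
      (ζ := ζ) (hU' _ (F.mem vq)) hζ1 hr hrζ hτ
    set w : F.V → ℝ := fun v => W (bc1 a₀ R₀ (F.y v)) with hw
    have D : MDL F.B (F.i ⁻¹' (A.e j).source) (Phi F j q) w (δ ^ 2) :=
      exists_mdl F hR₀ w1 w2 w3 hK' hK1 w5 hU hU' hδ hball hmiss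
    obtain ⟨k, hk⟩ := F.B.cover vq
    have hq0 : vq ∈ F.i ⁻¹' (A.e j).source := by
      show F.i vq ∈ (A.e j).source
      rw [hvq]
      exact hq
    have hPhi0 : Phi F j q vq = 0 := by
      funext b
      simp [Phi, hvq]
    have hd : (DF F.B (Phi F j q) k vq * (DF F.B (Phi F j q) k vq)ᴴ).det ≠ 0 := by
      refine det_ne_of_inj fun ξ hξ => inj_Phi F j q hk hq0 ?_
      funext b
      have := hξ b
      rw [Matrix.vecMul, dotProduct, Pi.zero_apply, ← this]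
      exact Finset.sum_congr rfl fun a _ => mul_comm _ _
    have hrho : ∀ x ∈ F.i ⁻¹' (A.e j).source, sF (Phi F j q) x < δ ^ 2 →
        rhoL (volK (F.kah K)) (F.i ⁻¹' (A.e j).source) (Phi F j q) x ≤ C ^ (d + 1) := by
      intro x hx hxs
      obtain ⟨l, hl⟩ := F.B.cover x
      have h1 := rhoL_mul (volK (F.kah K)) (W0 := F.i ⁻¹' (A.e j).source) (F := Phi F j q)
        D.hol D.op hl
      rw [dFL_on hx] at h1
      have h2 := (volK (F.kah K)).pos l x hl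
      have hxz : A.e j (F.i x) ∈ Metric.closedBall (A.e j q) δ := by
        rw [mem_closedBall_iff_norm]
        rw [sF_Phi] at hxs
        exact ((pow_lt_pow_iff_left₀ (norm_nonneg _) hδ.le two_ne_zero).1 hxs).le
      have h3 := hG _ hxz
      rw [(A.e j).left_inv hx] at h3
      have h4 := det_Phi_le F K (q := q) hl hx h3
      rw [← h1] at h4
      have h5 : (volK (F.kah K)).w l x * rhoL (volK (F.kah K)) (F.i ⁻¹' (A.e j).source)
          (Phi F j q) x ≤ (volK (F.kah K)).w l x * C ^ (d + 1) := by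
        rw [mul_comm _ (C ^ (d + 1))]
        exact h4
      exact le_of_mul_le_mul_left h5 h2
    have h1 := D.mvi_C (volK (F.kah K)) F.P (by positivity) (Nat.succ_pos d) hq0 hPhi0 hk hd
      hrho
    have h2 : ∫⁻ x in {x | x ∈ F.i ⁻¹' (A.e j).source ∧ sF (Phi F j q) x < δ ^ 2},
        ENNReal.ofReal (w x) ∂(vm (volK (F.kah K))) ≤
        ENNReal.ofReal (1 / Real.log (1 / ‖ζ‖)) * ENNReal.ofReal C₀ := by
      refine (setLIntegral_le_lintegral _ _).trans ?_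
      have hS : MeasurableSet {v : F.V | ‖bc a₀ R₀ (F.y v)‖ < 1} :=
        (isOpen_lt (((continuous_bc a₀ R₀).comp (continuous_y F)).norm)
          continuous_const).measurableSet
      have e1 : ∫⁻ x, ENNReal.ofReal (w x) ∂(vm (volK (F.kah K))) =
          ∫⁻ x in {v : F.V | ‖bc a₀ R₀ (F.y v)‖ < 1}, ENNReal.ofReal (w x)
            ∂(vm (volK (F.kah K))) := by
        rw [← lintegral_indicator hS]
        refine lintegral_congr fun x => ?_
        by_cases hx : x ∈ {v : F.V | ‖bc a₀ R₀ (F.y v)‖ < 1}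
        · rw [indicator_of_mem hx]
        · rw [indicator_of_notMem hx]
          have : w x = 0 := by
            refine w5 _ (by rw [bc1_zero]; exact hU' _ (F.mem x)) ?_
            rw [bc1_zero]
            exact fun h => hx (hK1 _ h).1
          rw [this, ENNReal.ofReal_zero]
      rw [e1]
      calc ∫⁻ x in {v : F.V | ‖bc a₀ R₀ (F.y v)‖ < 1}, ENNReal.ofReal (w x)
            ∂(vm (volK (F.kah K)))
          ≤ ∫⁻ x in {v : F.V | ‖bc a₀ R₀ (F.y v)‖ < 1},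
            ENNReal.ofReal (1 / Real.log (1 / ‖ζ‖)) *
              ENNReal.ofReal (Real.log (1 / ‖bc a₀ R₀ (F.y x)‖)) ∂(vm (volK (F.kah K))) := by
            refine setLIntegral_mono' hS fun x hx => ?_
            rw [← ENNReal.ofReal_mul (by positivity)]
            refine ENNReal.ofReal_le_ofReal ?_
            have h3 := w4 (bc1 a₀ R₀ (F.y x)) (by rw [bc1_zero]; exact hU' _ (F.mem x))
              (by rw [bc1_zero]; exact hx)
            rw [bc1_zero] at h3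
            refine h3.trans (le_of_eq ?_)
            ring
        _ = ENNReal.ofReal (1 / Real.log (1 / ‖ζ‖)) *
            ∫⁻ x in {v : F.V | ‖bc a₀ R₀ (F.y v)‖ < 1},
              ENNReal.ofReal (Real.log (1 / ‖bc a₀ R₀ (F.y x)‖)) ∂(vm (volK (F.kah K))) :=
            lintegral_const_mul' _ _ ENNReal.ofReal_ne_top
        _ ≤ _ := by
            gcongr
            exact hν
    have h3 : ENNReal.ofReal (bv (d + 1) * w vq * (δ ^ 2) ^ (d + 1)) ≤
        ENNReal.ofReal (C ^ (d + 1) * C₀ / Real.log (1 / ‖ζ‖)) := by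
      refine (h1.trans (mul_le_mul_right h2 _)).trans (le_of_eq ?_)
      rw [← ENNReal.ofReal_mul (by positivity), ← ENNReal.ofReal_mul (by positivity)]
      congr 1
      ring
    have h4 : bv (d + 1) * w vq * (δ ^ 2) ^ (d + 1) ≤
        C ^ (d + 1) * C₀ / Real.log (1 / ‖ζ‖) :=
      (ENNReal.ofReal_le_ofReal_iff (by positivity)).1 h3
    have h5 : Hs 1 - τ ≤ w vq := w6 _ (by rw [bc1_zero])
    refine le_trans ?_ h4
    rw [← pow_mul]
    have := bv_pos (n := d + 1)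
    gcongr
  have h6 : Tendsto (fun τ : ℝ => bv (d + 1) * (Hs 1 - τ) * δ ^ (2 * (d + 1))) (𝓝[>] 0)
      (𝓝 (bv (d + 1) * (Hs 1 - 0) * δ ^ (2 * (d + 1)))) := by
    have : Continuous fun τ : ℝ => bv (d + 1) * (Hs 1 - τ) * δ ^ (2 * (d + 1)) := by fun_prop
    exact this.continuousAt.tendsto.mono_left nhdsWithin_le_nhds
  rw [sub_zero] at h6
  refine le_of_tendsto h6 ?_
  filter_upwards [self_mem_nhdsWithin] with τ hτ
  exact key τ hτ

end

end

end Crest.Agent.R281.Con_166
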