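import Mathlib
import Crest.Agent.R281.Jen1_563

-- ▼ part R281/Jen2_563
section

/-! S6-JEN, part 2: calculus of radial functions `g (log ‖y - a‖²)`, logarithmic cut-offs (J3). -/

open MeasureTheory Set Filter Topology
open scoped ENNReal Real ContDiff

noncomputable section
namespace Crest.Agent.R281.Jen_563

/-! ### calculus -/

theorem D_congr {f g : ℂ → ℝ} {y : ℂ} (h : f =ᶠ[𝓝 y] g) (v : ℂ) : D v f y = D v g y := by
  unfold D; rw [h.fderiv_eq]

theorem D_eventuallyEq {f g : ℂ → ℝ} {y : ℂ} (h : f =ᶠ[𝓝 y] g) (v : ℂ) : D v f =ᶠ[𝓝 y] D v g := by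
  filter_upwards [eventually_eventually_nhds.2 h] with z hz
  exact D_congr hz v

theorem lap_congr {f g : ℂ → ℝ} {y : ℂ} (h : f =ᶠ[𝓝 y] g) : lap f y = lap g y := by
  unfold lap
  rw [D_congr (D_eventuallyEq h 1) 1, D_congr (D_eventuallyEq h Complex.I) Complex.I]

theorem D_add {f g : ℂ → ℝ} {y : ℂ} (hf : DifferentiableAt ℝ f y) (hg : DifferentiableAt ℝ g y) (v : ℂ) :
    D v (fun z => f z + g z) y = D v f y + D v g y := by
  unfold D; rw [fderiv_fun_add hf hg]; rfl

theorem D_mul {f g : ℂ → ℝ} {y : ℂ} (hf : DifferentiableAt ℝ f y) (hg : DifferentiableAt ℝ g y) (v : ℂ) :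
    D v (fun z => f z * g z) y = f y * D v g y + g y * D v f y := by
  unfold D; rw [fderiv_fun_mul hf hg]; simp

theorem D_comp {g : ℝ → ℝ} {f : ℂ → ℝ} {y : ℂ} (hg : DifferentiableAt ℝ g (f y))
    (hf : DifferentiableAt ℝ f y) (v : ℂ) : D v (fun z => g (f z)) y = deriv g (f y) * D v f y := by
  unfold D
  have : HasFDerivAt (fun z => g (f z)) (deriv g (f y) • fderiv ℝ f y) y :=
    hg.hasDerivAt.comp_hasFDerivAt y hf.hasFDerivAt
  rw [this.fderiv]; simp

theorem DD_mul {f g : ℂ → ℝ} {y : ℂ} (hf : ContDiffAt ℝ 2 f y) (hg : ContDiffAt ℝ 2 g y) (v : ℂ) :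
    D v (D v (fun z => f z * g z)) y
      = f y * D v (D v g) y + g y * D v (D v f) y + 2 * (D v f y * D v g y) := by
  have hev : D v (fun z => f z * g z) =ᶠ[𝓝 y] fun z => f z * D v g z + g z * D v f z := by
    filter_upwards [hf.eventually (by simp), hg.eventually (by simp)] with z hz hz'
    exact D_mul (hz.differentiableAt (by norm_num)) (hz'.differentiableAt (by norm_num)) v
  have df : DifferentiableAt ℝ f y := hf.differentiableAt (by norm_num)
  have dg : DifferentiableAt ℝ g y := hg.differentiableAt (by norm_num)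
  have dDf := D_differentiableAt hf v
  have dDg := D_differentiableAt hg v
  rw [D_congr hev, D_add (f := fun z => f z * D v g z) (g := fun z => g z * D v f z) (df.mul dDg)
    (dg.mul dDf), D_mul df dDg, D_mul dg dDf]
  ring

theorem lap_mul {f g : ℂ → ℝ} {y : ℂ} (hf : ContDiffAt ℝ 2 f y) (hg : ContDiffAt ℝ 2 g y) :
    lap (fun z => f z * g z) y = f y * lap g y + g y * lap f y
      + 2 * (D 1 f y * D 1 g y + D Complex.I f y * D Complex.I g y) := by
  unfold lap
  rw [DD_mul hf hg, DD_mul hf hg]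
  ring

theorem DD_comp {g : ℝ → ℝ} {f : ℂ → ℝ} {y : ℂ} (hg : ContDiff ℝ 2 g) (hf : ContDiffAt ℝ 2 f y) (v : ℂ) :
    D v (D v (fun z => g (f z))) y
      = deriv (deriv g) (f y) * D v f y ^ 2 + deriv g (f y) * D v (D v f) y := by
  have hg' : ContDiff ℝ 1 (deriv g) := by
    have : ContDiff ℝ (1 + 1) g := by simpa [one_add_one_eq_two] using hg
    exact (contDiff_succ_iff_deriv.1 this).2.2
  have hev : D v (fun z => g (f z)) =ᶠ[𝓝 y] fun z => deriv g (f z) * D v f z := by
    filter_upwards [hf.eventually (by simp)] with z hz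
    exact D_comp (hg.differentiable (by norm_num) _) (hz.differentiableAt (by norm_num)) v
  have df : DifferentiableAt ℝ f y := hf.differentiableAt (by norm_num)
  have dDf := D_differentiableAt hf v
  have dg' : DifferentiableAt ℝ (deriv g) (f y) := hg'.differentiable (by norm_num) _
  rw [D_congr hev, D_mul (f := fun z => deriv g (f z)) (dg'.comp y df) dDf, D_comp dg' df]
  ring

theorem lap_comp {g : ℝ → ℝ} {f : ℂ → ℝ} {y : ℂ} (hg : ContDiff ℝ 2 g) (hf : ContDiffAt ℝ 2 f y) :
    lap (fun z => g (f z)) y = deriv (deriv g) (f y) * (D 1 f y ^ 2 + D Complex.I f y ^ 2)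
      + deriv g (f y) * lap f y := by
  unfold lap
  rw [DD_comp hg hf, DD_comp hg hf]
  ring

/-! ### the logarithm -/

/-- `log ‖y - a‖²` -/
def lg (a y : ℂ) : ℝ := Real.log (‖y - a‖ ^ 2)

theorem lg_contDiffAt {a y : ℂ} (h : y ≠ a) (n : WithTop ℕ∞) : ContDiffAt ℝ n (lg a) y := by
  have h0 : ‖y - a‖ ^ 2 ≠ 0 := by simpa [sub_eq_zero] using h
  exact ((contDiffAt_id.sub contDiffAt_const).norm_sq ℝ).log h0

theorem D_lg {a y : ℂ} (h : y ≠ a) (v : ℂ) :
    D v (lg a) y = 2 * ((y - a).re * v.re + (y - a).im * v.im) / ‖y - a‖ ^ 2 := by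
  have h0 : ‖y - a‖ ^ 2 ≠ 0 := by simpa [sub_eq_zero] using h
  have h1 : HasFDerivAt (fun z : ℂ => ‖z - a‖ ^ 2) (2 • (innerSL ℝ (y - a)).comp (ContinuousLinearMap.id ℝ ℂ)) y :=
    ((hasFDerivAt_id y).sub_const a).norm_sq
  have h2 := h1.log h0
  unfold D lg
  rw [h2.fderiv]
  simp [Complex.inner, Complex.mul_re]
  field_simp
  ring

theorem grad_lg {a y : ℂ} (h : y ≠ a) :
    D 1 (lg a) y ^ 2 + D Complex.I (lg a) y ^ 2 = 4 * (‖y - a‖ ^ 2)⁻¹ := by
  have h0 : ‖y - a‖ ^ 2 ≠ 0 := by simpa [sub_eq_zero] using h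
  rw [D_lg h, D_lg h]
  have h3 : ‖y - a‖ ^ 2 = (y - a).re ^ 2 + (y - a).im ^ 2 := by
    rw [← Complex.normSq_eq_norm_sq, Complex.normSq_apply]; ring
  simp only [Complex.one_re, Complex.one_im, Complex.I_re, Complex.I_im, mul_one, mul_zero, add_zero,
    zero_add]
  rw [h3] at h0 ⊢
  field_simp
  ring


theorem lap_lg {a y : ℂ} (h : y ≠ a) : lap (lg a) y = 0 := by
  rw [← lap_eq_laplacian (lg_contDiffAt h 2)]
  have h1 : InnerProductSpace.HarmonicAt (fun z : ℂ => Real.log ‖z - a‖) y :=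
    AnalyticAt.harmonicAt_log_norm (f := fun z : ℂ => z - a) (by fun_prop) (by simpa [sub_eq_zero] using h)
  have h2 : lg a = (2 : ℝ) • fun z => Real.log ‖z - a‖ := by
    ext z; simp [lg, Real.log_pow]
  rw [h2]
  exact (h1.const_smul (c := (2 : ℝ))).2.self_of_nhds

/-- the radial function `g (log ‖y - a‖²)`, with value `c` at `a` -/
def rad (g : ℝ → ℝ) (c : ℝ) (a y : ℂ) : ℝ := if y = a then c else g (lg a y)

theorem rad_of_ne {g : ℝ → ℝ} {c : ℝ} {a y : ℂ} (h : y ≠ a) : rad g c a y = g (lg a y) := if_neg h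

theorem rad_eventually_of_ne {g : ℝ → ℝ} {c : ℝ} {a y : ℂ} (h : y ≠ a) :
    rad g c a =ᶠ[𝓝 y] fun z => g (lg a z) := by
  filter_upwards [isOpen_ne.mem_nhds h] with z hz
  exact rad_of_ne hz

theorem rad_eq_const {g : ℝ → ℝ} {s₀ c : ℝ} (h0 : ∀ s ≤ s₀, g s = c) {a y : ℂ}
    (h : ‖y - a‖ ^ 2 ≤ Real.exp s₀) : rad g c a y = c := by
  by_cases hy : y = a
  · exact if_pos hy
  · rw [rad_of_ne hy]
    have h1 : 0 < ‖y - a‖ ^ 2 := by
      have : 0 < ‖y - a‖ := norm_pos_iff.2 (sub_ne_zero.2 hy)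
      positivity
    exact h0 _ ((Real.log_le_iff_le_exp h1).2 h)

theorem rad_eventually_const {g : ℝ → ℝ} {s₀ c : ℝ} (h0 : ∀ s ≤ s₀, g s = c) (a : ℂ) :
    rad g c a =ᶠ[𝓝 a] fun _ => c := by
  have : {y : ℂ | ‖y - a‖ ^ 2 < Real.exp s₀} ∈ 𝓝 a := by
    refine (isOpen_lt (by fun_prop) (by fun_prop)).mem_nhds ?_
    simp [Real.exp_pos]
  filter_upwards [this] with y hy
  exact rad_eq_const h0 (le_of_lt hy)

theorem rad_contDiff {g : ℝ → ℝ} {s₀ c : ℝ} (h0 : ∀ s ≤ s₀, g s = c) {n : WithTop ℕ∞}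
    (hg : ContDiff ℝ n g) (a : ℂ) : ContDiff ℝ n (rad g c a) := by
  rw [contDiff_iff_contDiffAt]
  intro y
  by_cases hy : y = a
  · rw [hy]
    exact contDiffAt_const.congr_of_eventuallyEq (rad_eventually_const h0 a)
  · exact (hg.contDiffAt.comp y (lg_contDiffAt hy n)).congr_of_eventuallyEq (rad_eventually_of_ne hy)


theorem lap_rad {g : ℝ → ℝ} (hg : ContDiff ℝ 2 g) {c : ℝ} {a y : ℂ} (h : y ≠ a) :
    lap (rad g c a) y = 4 * deriv (deriv g) (lg a y) * (‖y - a‖ ^ 2)⁻¹ := by
  rw [lap_congr (rad_eventually_of_ne h), lap_comp (f := lg a) hg (lg_contDiffAt h 2), grad_lg h, lap_lg h]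
  ring

/-- radial integral, centred at `a`. -/
theorem lint_lg (a : ℂ) (h : ℝ → ℝ≥0∞) (hh : Measurable h) :
    ∫⁻ y : ℂ, ENNReal.ofReal (‖y - a‖ ^ 2)⁻¹ * h (lg a y) = ENNReal.ofReal π * ∫⁻ s, h s := by
  rw [← lint_log h hh]
  exact lintegral_sub_right_eq_self (fun y : ℂ => ENNReal.ofReal (‖y‖ ^ 2)⁻¹ * h (Real.log (‖y‖ ^ 2))) a

theorem ae_ne (a : ℂ) : ∀ᵐ y : ℂ, y ≠ a := by
  have : (volume : Measure ℂ) {a} = 0 := measure_singleton a
  filter_upwards [compl_mem_ae_iff.2 this] with y hy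
  exact hy

/-- `∫ |Δ rad g| = 4 π ∫ |g''|` -/
theorem lint_lap_rad {g : ℝ → ℝ} (hg : ContDiff ℝ 2 g) (c : ℝ) (a : ℂ) :
    ∫⁻ y, ENNReal.ofReal |lap (rad g c a) y|
      = ENNReal.ofReal (4 * π) * ∫⁻ s, ENNReal.ofReal |deriv (deriv g) s| := by
  have hg' : Continuous (deriv (deriv g)) := by
    have h1 : ContDiff ℝ (1 + 1) g := by simpa [one_add_one_eq_two] using hg
    have h2 : ContDiff ℝ (0 + 1) (deriv g) := by simpa using (contDiff_succ_iff_deriv.1 h1).2.2
    exact (contDiff_succ_iff_deriv.1 h2).2.2.continuous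
  have hm : Measurable fun s => ENNReal.ofReal (4 * |deriv (deriv g) s|) := by
    have := hg'.measurable
    fun_prop
  have e := lint_lg a (fun s => ENNReal.ofReal (4 * |deriv (deriv g) s|)) hm
  have e1 : ∫⁻ y, ENNReal.ofReal |lap (rad g c a) y|
      = ∫⁻ y : ℂ, ENNReal.ofReal (‖y - a‖ ^ 2)⁻¹ * ENNReal.ofReal (4 * |deriv (deriv g) (lg a y)|) := by
    refine lintegral_congr_ae ?_
    filter_upwards [ae_ne a] with y hy
    rw [lap_rad hg hy, ← ENNReal.ofReal_mul (by positivity), abs_mul, abs_mul,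
      abs_of_pos (by norm_num : (0 : ℝ) < 4), abs_of_nonneg (by positivity : (0 : ℝ) ≤ (‖y - a‖ ^ 2)⁻¹)]
    congr 1; ring
  rw [e1, e]
  simp_rw [ENNReal.ofReal_mul (by norm_num : (0 : ℝ) ≤ 4)]
  rw [lintegral_const_mul _ (by have := hg'.measurable; fun_prop)]
  rw [← mul_assoc, mul_comm (ENNReal.ofReal π)]

/-! ### the cut-offs -/

/-- the standard smooth transition -/
abbrev tau : ℝ → ℝ := Real.smoothTransition

theorem tau_contDiff (n : ℕ∞) : ContDiff ℝ n tau := Real.smoothTransition.contDiff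










end Crest.Agent.R281.Jen_563
end
end

-- ▼ part R281/Jen3_563

/-! S6-JEN, part 3: **Jensen's inequality with punctures (J1)**. -/

open MeasureTheory Set Filter Topology Metric
open scoped ENNReal Real ContDiff

noncomputable section
namespace Crest.Agent.R281.Jen_563

theorem lap_continuous {f : ℂ → ℝ} (hf : ContDiff ℝ 2 f) : Continuous (lap f) :=
  continuousOn_univ.1 (lap_continuousOn isOpen_univ hf.contDiffOn)

theorem D_continuous {f : ℂ → ℝ} (hf : ContDiff ℝ 2 f) (v : ℂ) : Continuous (D v f) :=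
  continuousOn_univ.1 (D_continuousOn isOpen_univ hf.contDiffOn v)

theorem tsupport_lap (ψ : ℂ → ℝ) : tsupport (lap ψ) ⊆ tsupport ψ := by
  have h1 : ∀ v, tsupport (D v (D v ψ)) ⊆ tsupport ψ := fun v => (tsupport_D _ v).trans (tsupport_D ψ v)
  intro y hy
  by_contra hc
  have e1 : D 1 (D 1 ψ) =ᶠ[𝓝 y] 0 := notMem_tsupport_iff_eventuallyEq.1 fun h => hc (h1 1 h)
  have e2 : D Complex.I (D Complex.I ψ) =ᶠ[𝓝 y] 0 :=
    notMem_tsupport_iff_eventuallyEq.1 fun h => hc (h1 Complex.I h)
  have e3 : lap ψ =ᶠ[𝓝 y] 0 := by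
    filter_upwards [e1, e2] with z h1 h2
    unfold lap
    rw [h1, h2]; simp
  exact notMem_tsupport_iff_eventuallyEq.2 e3 hy

theorem bdd_of_compact {f : ℂ → ℝ} (hf : Continuous f) (hc : HasCompactSupport f) : ∃ B, 0 ≤ B ∧ ∀ y, |f y| ≤ B := by
  obtain ⟨B, hB⟩ := hf.bounded_above_of_compact_support hc
  exact ⟨B, (norm_nonneg _).trans (hB 0), fun y => by simpa using hB y⟩


/-! ### the test functions -/

/-- `∫ |P'|` for a monotone `P`, constant at both ends. -/
theorem lint_mono_deriv {P : ℝ → ℝ} (hP : ContDiff ℝ 1 P) (hm : Monotone P) {a b p q : ℝ} (hab : a ≤ b)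
    (ha : ∀ s ≤ a, P s = p) (hb : ∀ s, b ≤ s → P s = q) :
    ∫⁻ s, ENNReal.ofReal |deriv P s| = ENNReal.ofReal (q - p) := by
  have hc : Continuous (deriv P) := hP.continuous_deriv (by norm_num)
  have h0 : ∀ s, s ∉ Ioc a b → s ≠ a → ENNReal.ofReal |deriv P s| = 0 := by
    intro s hs hsa
    have hz : deriv P s = 0 := by
      by_cases h : s ≤ a
      · have hlt : s < a := lt_of_le_of_ne h hsa
        have : P =ᶠ[𝓝 s] fun _ => p := by
          filter_upwards [Iio_mem_nhds hlt] with t ht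
          exact ha t (le_of_lt ht)
        rw [this.deriv_eq]; simp
      · push Not at h
        have hlt : b < s := by
          by_contra h'
          push Not at h'
          exact hs ⟨h, h'⟩
        have : P =ᶠ[𝓝 s] fun _ => q := by
          filter_upwards [Ioi_mem_nhds hlt] with t ht
          exact hb t (le_of_lt ht)
        rw [this.deriv_eq]; simp
    rw [hz]; simp
  have e1 : ∫⁻ s, ENNReal.ofReal |deriv P s| = ∫⁻ s in Ioc a b, ENNReal.ofReal |deriv P s| := by
    rw [← lintegral_indicator measurableSet_Ioc]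
    refine lintegral_congr_ae ?_
    have hne : ∀ᵐ s : ℝ, s ≠ a := by
      have : (volume : Measure ℝ) {a} = 0 := measure_singleton a
      filter_upwards [compl_mem_ae_iff.2 this] with y hy
      exact hy
    filter_upwards [hne] with s hs
    by_cases h1 : s ∈ Ioc a b
    · rw [indicator_of_mem h1]
    · rw [indicator_of_notMem h1, h0 s h1 hs]
  have hnn : ∀ s, 0 ≤ deriv P s := fun s => hm.deriv_nonneg
  have e2 : ∫ s in a..b, deriv P s = P b - P a :=
    intervalIntegral.integral_deriv_eq_sub' P rfl (fun s _ => hP.differentiable (by norm_num) s)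
      hc.continuousOn
  rw [e1]
  have e3 : ∫⁻ s in Ioc a b, ENNReal.ofReal |deriv P s| = ENNReal.ofReal (∫ s in Ioc a b, deriv P s) := by
    rw [ofReal_integral_eq_lintegral_ofReal]
    · refine lintegral_congr fun s => ?_
      rw [abs_of_nonneg (hnn s)]
    · exact (hc.integrableOn_Icc (a := a) (b := b)).mono_set Ioc_subset_Icc_self
    · exact Eventually.of_forall hnn
  rw [e3, ← intervalIntegral.integral_of_le hab, e2, ha a le_rfl, hb b le_rfl]

/-- the test functions: `g ≥ 0`, `g = 0` on `s ≥ -δ`, constant near `-∞`, `∫|g''| ≤ 1`, and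
`-s/2 - δ ≤ g s ≤ -s/2` for `-K ≤ s ≤ -2δ`. -/
theorem test_fun {K δ : ℝ} (_ : 0 ≤ K) (hδ : 0 < δ) : ∃ g : ℝ → ℝ, ContDiff ℝ 2 g ∧ (∀ s, 0 ≤ g s) ∧
    (∀ s, -δ ≤ s → g s = 0) ∧ (∀ s ≤ -K - 1 - 2 * δ, g s = g (-K - 1 - 2 * δ)) ∧
    (∫⁻ s, ENNReal.ofReal |deriv (deriv g) s|) ≤ 1 ∧
    (∀ s ≤ 0, g s ≤ -s / 2) ∧ (∀ s ≤ 0, -K ≤ s → -s / 2 - δ ≤ g s) := by
  set K' : ℝ := K + 2 * δ with hK'
  set κ : ℝ → ℝ := fun t => tau (t + K' + 1) * tau (-t / δ - 1) with hκ
  have κs : ContDiff ℝ 1 κ :=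
    ((tau_contDiff 1).comp (by fun_prop)).mul ((tau_contDiff 1).comp (by fun_prop))
  have κc : Continuous κ := κs.continuous
  have κ0 : ∀ t, 0 ≤ κ t := fun t => mul_nonneg (Real.smoothTransition.nonneg _) (Real.smoothTransition.nonneg _)
  have κ1 : ∀ t, κ t ≤ 1 := fun t => mul_le_one₀ (Real.smoothTransition.le_one _)
    (Real.smoothTransition.nonneg _) (Real.smoothTransition.le_one _)
  have κa : ∀ t, -δ ≤ t → κ t = 0 := by
    intro t ht
    have h1 : -t / δ - 1 ≤ 0 := by
      rw [sub_nonpos, div_le_one hδ]; linarith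
    have h2 : tau (-t / δ - 1) = 0 := Real.smoothTransition.zero_of_nonpos h1
    simp only [hκ, h2, mul_zero]
  have κb : ∀ t, t ≤ -K' - 1 → κ t = 0 := by
    intro t ht
    have h2 : tau (t + K' + 1) = 0 := Real.smoothTransition.zero_of_nonpos (by linarith)
    simp only [hκ, h2, zero_mul]
  have κm : ∀ t, -K' ≤ t → t ≤ -(2 * δ) → κ t = 1 := by
    intro t h1 h2
    have h3 : tau (t + K' + 1) = 1 := Real.smoothTransition.one_of_one_le (by linarith)
    have h4 : tau (-t / δ - 1) = 1 := by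
      refine Real.smoothTransition.one_of_one_le ?_
      have : 2 ≤ -t / δ := by rw [le_div_iff₀ hδ]; linarith
      linarith
    simp only [hκ, h3, h4, mul_one]
  have κi : ∀ a b, IntervalIntegrable κ volume a b := fun a b => κc.intervalIntegrable a b
  set g : ℝ → ℝ := fun s => -(1 / 2) * ∫ t in (0 : ℝ)..s, κ t with hg
  have hgd : ∀ s, HasDerivAt g (-(1 / 2) * κ s) s := fun s =>
    (intervalIntegral.integral_hasDerivAt_right (κi 0 s) (κc.stronglyMeasurableAtFilter _ _)
      κc.continuousAt).const_mul _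
  have hg' : deriv g = fun s => -(1 / 2) * κ s := funext fun s => (hgd s).deriv
  have hgC : ContDiff ℝ 2 g := by
    have : ContDiff ℝ (1 + 1) g := by
      rw [contDiff_succ_iff_deriv]
      refine ⟨fun s => (hgd s).differentiableAt, by simp, ?_⟩
      rw [hg']
      exact contDiff_const.mul κs
    simpa [one_add_one_eq_two] using this
  have hg0 : ∀ s, -δ ≤ s → g s = 0 := by
    intro s hs
    have : ∫ t in (0 : ℝ)..s, κ t = ∫ t in (0 : ℝ)..s, (0 : ℝ) := by
      refine intervalIntegral.integral_congr fun t ht => κa t ?_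
      have := ht.1
      rcases le_total 0 s with h | h
      · rw [uIcc_of_le h] at ht; linarith [ht.1]
      · rw [uIcc_of_ge h] at ht; linarith [ht.1]
    simp only [hg, this]; simp
  have hgneg : ∀ s, g s = (1 / 2) * ∫ t in s..(0 : ℝ), κ t := by
    intro s
    simp only [hg]
    rw [intervalIntegral.integral_symm s 0]; ring
  have hgnn : ∀ s, 0 ≤ g s := by
    intro s
    rcases le_total (-δ) s with h | h
    · rw [hg0 s h]
    · rw [hgneg]
      have := intervalIntegral.integral_nonneg (μ := volume) (f := κ) (a := s) (b := 0) (by linarith)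
        (fun t _ => κ0 t)
      positivity
  refine ⟨g, hgC, hgnn, hg0, ?_, ?_, ?_, ?_⟩
  · intro s hs
    rw [hgneg, hgneg (-K - 1 - 2 * δ),
      ← intervalIntegral.integral_add_adjacent_intervals (κi s (-K - 1 - 2 * δ)) (κi _ 0)]
    have : ∫ t in s..(-K - 1 - 2 * δ), κ t = ∫ t in s..(-K - 1 - 2 * δ), (0 : ℝ) := by
      refine intervalIntegral.integral_congr fun t ht => κb t ?_
      rw [uIcc_of_le hs] at ht
      linarith [ht.2]
    rw [this]; simp
  · -- the mass of g''
    set P : ℝ → ℝ := fun s => tau (s + K' + 1) with hP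
    set Q : ℝ → ℝ := fun s => -tau (-s / δ - 1) with hQ
    have Ps : ContDiff ℝ 1 P := (tau_contDiff 1).comp (by fun_prop)
    have Qs : ContDiff ℝ 1 Q := ((tau_contDiff 1).comp (by fun_prop)).neg
    have Pm : Monotone P := fun s t hst => Real.smoothTransition.monotone (by linarith)
    have Qm : Monotone Q := fun s t hst => by
      refine neg_le_neg (Real.smoothTransition.monotone ?_)
      have : -t / δ ≤ -s / δ := div_le_div_of_nonneg_right (by linarith) hδ.le
      linarith
    have iP : ∫⁻ s, ENNReal.ofReal |deriv P s| = ENNReal.ofReal (1 - 0) :=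
      lint_mono_deriv Ps Pm (a := -K' - 1) (b := -K') (by linarith)
        (fun s hs => Real.smoothTransition.zero_of_nonpos (by linarith))
        (fun s hs => Real.smoothTransition.one_of_one_le (by linarith))
    have iQ : ∫⁻ s, ENNReal.ofReal |deriv Q s| = ENNReal.ofReal (0 - -1) :=
      lint_mono_deriv Qs Qm (a := -(2 * δ)) (b := -δ) (by linarith)
        (fun s hs => by
          simp only [hQ]
          have : tau (-s / δ - 1) = 1 := by
            refine Real.smoothTransition.one_of_one_le ?_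
            have : 2 ≤ -s / δ := by rw [le_div_iff₀ hδ]; linarith
            linarith
          rw [this])
        (fun s hs => by
          simp only [hQ]
          have : tau (-s / δ - 1) = 0 := by
            refine Real.smoothTransition.zero_of_nonpos ?_
            rw [sub_nonpos, div_le_one hδ]; linarith
          rw [this]; simp)
    have hκPQ : κ = fun s => -(P s * Q s) := by
      ext s; simp only [hκ, hP, hQ]; ring
    have hdd : ∀ s, deriv (deriv g) s = (1 / 2) * (deriv P s * Q s + P s * deriv Q s) := by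
      intro s
      have h1 : HasDerivAt P (deriv P s) s := (Ps.differentiable (by norm_num) s).hasDerivAt
      have h2 : HasDerivAt Q (deriv Q s) s := (Qs.differentiable (by norm_num) s).hasDerivAt
      have h3 := ((h1.mul h2).neg).const_mul (-(1 / 2 : ℝ))
      rw [hg', hκPQ]
      have h4 : (fun s => -(1 / 2 : ℝ) * -(P s * Q s)) = fun y => -(1 / 2 : ℝ) * (-(P * Q)) y := by
        ext y; simp
      rw [h4, h3.deriv]; ring
    have hle : ∀ s, |deriv (deriv g) s| ≤ (1 / 2) * |deriv P s| + (1 / 2) * |deriv Q s| := by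
      intro s
      rw [hdd s, abs_mul, abs_of_pos (by norm_num : (0 : ℝ) < 1 / 2)]
      have h1 := abs_add_le (deriv P s * Q s) (P s * deriv Q s)
      rw [abs_mul, abs_mul] at h1
      have hPb : |P s| ≤ 1 := by
        rw [abs_of_nonneg (Real.smoothTransition.nonneg _)]; exact Real.smoothTransition.le_one _
      have hQb : |Q s| ≤ 1 := by
        simp only [hQ]
        rw [abs_neg, abs_of_nonneg (Real.smoothTransition.nonneg _)]; exact Real.smoothTransition.le_one _
      nlinarith [mul_le_mul_of_nonneg_left hQb (abs_nonneg (deriv P s)),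
        mul_le_mul_of_nonneg_right hPb (abs_nonneg (deriv Q s))]
    have mP : Measurable (deriv P) := (Ps.continuous_deriv (by norm_num)).measurable
    have mQ : Measurable (deriv Q) := (Qs.continuous_deriv (by norm_num)).measurable
    calc ∫⁻ s, ENNReal.ofReal |deriv (deriv g) s|
        ≤ ∫⁻ s, (ENNReal.ofReal (1 / 2) * ENNReal.ofReal |deriv P s|
            + ENNReal.ofReal (1 / 2) * ENNReal.ofReal |deriv Q s|) := by
          refine lintegral_mono fun s => ?_
          rw [← ENNReal.ofReal_mul (by norm_num), ← ENNReal.ofReal_mul (by norm_num),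
            ← ENNReal.ofReal_add (by positivity) (by positivity)]
          exact ENNReal.ofReal_le_ofReal (hle s)
      _ = ENNReal.ofReal (1 / 2) * (∫⁻ s, ENNReal.ofReal |deriv P s|)
            + ENNReal.ofReal (1 / 2) * ∫⁻ s, ENNReal.ofReal |deriv Q s| := by
          rw [lintegral_add_left (by fun_prop), lintegral_const_mul _ (by fun_prop),
            lintegral_const_mul _ (by fun_prop)]
      _ = 1 := by
          rw [iP, iQ, ← ENNReal.ofReal_mul (by norm_num), ← ENNReal.ofReal_mul (by norm_num),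
            ← ENNReal.ofReal_add (by norm_num) (by norm_num)]
          norm_num
  · intro s hs
    rw [hgneg]
    have h1 : ∫ t in s..(0 : ℝ), κ t ≤ ∫ t in s..(0 : ℝ), (1 : ℝ) :=
      intervalIntegral.integral_mono_on hs (κi s 0) (by simp) (fun t _ => κ1 t)
    rw [intervalIntegral.integral_const] at h1
    simp only [smul_eq_mul, mul_one] at h1
    linarith
  · intro s hs hKs
    rcases le_total (-(2 * δ)) s with h | h
    · have := hgnn s; linarith
    · rw [hgneg, ← intervalIntegral.integral_add_adjacent_intervals (κi s (-(2 * δ))) (κi _ 0)]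
      have h1 : ∫ t in s..(-(2 * δ)), κ t = ∫ t in s..(-(2 * δ)), (1 : ℝ) := by
        refine intervalIntegral.integral_congr fun t ht => ?_
        rw [uIcc_of_le h] at ht
        exact κm t (by linarith [ht.1]) ht.2
      have h2 : 0 ≤ ∫ t in (-(2 * δ))..(0 : ℝ), κ t :=
        intervalIntegral.integral_nonneg (by linarith) (fun t _ => κ0 t)
      rw [h1, intervalIntegral.integral_const]
      simp only [smul_eq_mul, mul_one]
      linarith


end Crest.Agent.R281.Jen_563
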