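import Crest.Agent.R281.S6D_664
import Crest.Agent.R281.Mass1_519
import Crest.Agent.R281.Fub5_163

-- ▼ part R281/Mass2_519
section

/-!
# R281 (S0424), leaf S6-MASS, part 2 (helper519): the closed fibre volume

* `det_block`, `alg`      : matrix algebra (alternating sums of adjugates);
* `AdL B y`               : adapted charts: the last `m` coordinates are `y`;
* `AdL.J_nat`, `AdL.fb_tr`, `AdL.det_J` : the Jacobians are block triangular;
* `stokesY`               : `∫ (∂_b χ)(y) det (fb g) = 0` for every closed field `g` of type (1,1).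
-/

set_option autoImplicit false
set_option linter.unusedSectionVars false

open Set Filter Topology Complex Function MeasureTheory
open scoped ContDiff Matrix ComplexConjugate ComplexOrder

namespace Crest.Agent.R281.Mass2_519

open Crest.Agent.R275 Crest.Agent.R275.Geo Crest.Agent.R275.Core144 Crest.Agent.R275.EDR890
open Crest.Agent.R275.SerG398 (lint dens)
open Crest.Agent.R273.Defs_333 Crest.Agent.R273.Kah_333 Crest.Agent.R273.Hess_333
open Crest.Agent.R273.HessB_333 Crest.Agent.R273.KahI_645
open Crest.Agent.R273.Green_5 Crest.Agent.R273.Vol_333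
open Crest.Agent.R273.StokesV_332 Crest.Agent.R281.S6D_664

noncomputable section

/-! ### algebra -/

section alg

variable {ι : Type*} [Fintype ι] [DecidableEq ι]

/-- the diagonal matrix of the indicator of `S` -/
def dg (S : Finset ι) : Matrix ι ι ℂ := Matrix.diagonal fun i => if i ∈ S then 1 else 0

/-- the rows in `S` replaced by unit rows -/
def rowE (S : Finset ι) (K : Matrix ι ι ℂ) : Matrix ι ι ℂ :=
  Matrix.of fun i j => if i ∈ S then (if i = j then 1 else 0) else K i j

theorem adj_add_single (M : Matrix ι ι ℂ) {r p : ι} (q : ι) :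
    (M + dg {r}).adjugate p q - M.adjugate p q =
      if q = r then 0 else (M.updateRow r (Pi.single r 1)).adjugate p q := by
  rw [Matrix.adjugate_apply, Matrix.adjugate_apply]
  by_cases hq : q = r
  · rw [if_pos hq, sub_eq_zero]
    congr 1
    ext i j
    by_cases hi : i = q
    · subst hi; simp
    · rw [Matrix.updateRow_ne hi, Matrix.updateRow_ne hi, Matrix.add_apply, dg,
        Matrix.diagonal_apply]
      have : i ∉ ({r} : Finset ι) := by
        rw [Finset.mem_singleton]; rintro rfl; exact hi hq.symm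
      simp [this]
  · rw [if_neg hq, Matrix.adjugate_apply]
    set M' := M.updateRow q (Pi.single p 1) with hM'
    have e1 : (M + dg {r}).updateRow q (Pi.single p 1) =
        M'.updateRow r (M' r + Pi.single r 1) := by
      ext i j
      by_cases hi : i = r
      · subst hi
        rw [Matrix.updateRow_self, Matrix.updateRow_ne (Ne.symm hq), hM', Pi.add_apply,
          Matrix.updateRow_ne (Ne.symm hq), Matrix.add_apply, dg, Matrix.diagonal_apply]
        by_cases hj : i = j
        · subst hj; simp
        · simp [hj, Ne.symm hj]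
      · rw [Matrix.updateRow_ne hi]
        by_cases hi' : i = q
        · subst hi'; simp [hM']
        · rw [Matrix.updateRow_ne hi', hM', Matrix.updateRow_ne hi', Matrix.add_apply, dg,
            Matrix.diagonal_apply]
          simp [hi]
    have e2 : (M.updateRow r (Pi.single r 1)).updateRow q (Pi.single p 1) =
        M'.updateRow r (Pi.single r 1) := by
      rw [hM']
      exact Matrix.updateRow_comm _ (Ne.symm hq) _ _
    rw [e1, e2, Matrix.det_updateRow_add, Matrix.updateRow_eq_self]
    ring

theorem alg (S₀ : Finset ι) {p : ι} (q : ι) : ∀ K : Matrix ι ι ℂ,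
    ∑ S ∈ S₀.powerset, (-1 : ℂ) ^ S.card * (K + dg S).adjugate p q =
      (-1 : ℂ) ^ S₀.card * if q ∈ S₀ then 0 else (rowE S₀ K).adjugate p q := by
  induction S₀ using Finset.induction_on with
  | empty =>
    intro K
    have h1 : dg (∅ : Finset ι) = 0 := by
      ext i j
      simp [dg, Matrix.diagonal_apply]
    have h2 : rowE ∅ K = K := by
      ext i j
      simp [rowE]
    simp [h1, h2]
  | insert r S₁ hr ih =>
    intro K
    rw [Finset.sum_powerset_insert hr, ← Finset.sum_add_distrib]
    have h1 : ∀ S ∈ S₁.powerset, (-1 : ℂ) ^ S.card * (K + dg S).adjugate p q +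
        (-1 : ℂ) ^ (insert r S).card * (K + dg (insert r S)).adjugate p q =
        - ((-1 : ℂ) ^ S.card * if q = r then 0 else
          ((K.updateRow r (Pi.single r 1)) + dg S).adjugate p q) := by
      intro S hS
      have hrS : r ∉ S := fun h => hr (Finset.mem_powerset.1 hS h)
      have e1 : K + dg (insert r S) = (K + dg S) + dg {r} := by
        rw [add_assoc]
        congr 1
        ext i j
        rw [Matrix.add_apply, dg, dg, dg, Matrix.diagonal_apply, Matrix.diagonal_apply,
          Matrix.diagonal_apply]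
        by_cases hij : i = j
        · simp only [if_pos hij, Finset.mem_insert, Finset.mem_singleton]
          by_cases h : i = r
          · subst h; simp [hrS]
          · simp [h]
        · simp [hij]
      have e2 : (K + dg S).updateRow r (Pi.single r 1) = K.updateRow r (Pi.single r 1) + dg S := by
        ext i j
        rw [Matrix.add_apply]
        by_cases hi : i = r
        · subst hi
          rw [Matrix.updateRow_self, Matrix.updateRow_self, dg, Matrix.diagonal_apply]
          simp [hrS]
        · rw [Matrix.updateRow_ne hi, Matrix.updateRow_ne hi, Matrix.add_apply]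
      have e3 := adj_add_single (K + dg S) (r := r) (p := p) q
      rw [Finset.card_insert_of_notMem hrS, e1, pow_succ]
      rw [e2] at e3
      rw [← e3]
      ring
    rw [Finset.sum_congr rfl h1, Finset.sum_neg_distrib, Finset.card_insert_of_notMem hr, pow_succ]
    by_cases hq : q = r
    · simp [hq]
    · simp only [if_neg hq]
      rw [ih]
      have e4 : rowE S₁ (K.updateRow r (Pi.single r 1)) = rowE (insert r S₁) K := by
        ext i j
        simp only [rowE, Matrix.of_apply, Finset.mem_insert]
        by_cases hi : i = r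
        · subst hi
          simp only [hr, if_false, Matrix.updateRow_self, true_or, if_true]
          rw [Pi.single_apply]
          by_cases hj : i = j
          · simp [hj]
          · simp [hj, Ne.symm hj]
        · simp [hi]
      rw [e4]
      simp only [Finset.mem_insert, hq, false_or]
      ring

end alg

variable {d m : ℕ}

theorem det_block {N : Matrix (Fin (d + m)) (Fin (d + m)) ℂ}
    (h0 : ∀ a b, N (Fin.natAdd d a) (Fin.castAdd m b) = 0)
    (h1 : ∀ a b, N (Fin.natAdd d a) (Fin.natAdd d b) = if a = b then 1 else 0) :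
    N.det = (fb N).det := by
  have e : N.submatrix finSumFinEquiv finSumFinEquiv =
      Matrix.fromBlocks (fb N) (N.submatrix (Fin.castAdd m) (Fin.natAdd d)) 0 1 := by
    ext i j
    rcases i with i | i <;> rcases j with j | j
    · rfl
    · rfl
    · simp [h0]
    · simp [h1, Matrix.one_apply]
  rw [← Matrix.det_submatrix_equiv_self finSumFinEquiv N, e, Matrix.det_fromBlocks_zero₂₁,
    Matrix.det_one, mul_one]

/-- the base indices different from `b` -/
def bs (d : ℕ) (b : Fin m) : Finset (Fin (d + m)) :=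
  (Finset.univ.erase b).map ⟨Fin.natAdd d, Fin.natAdd_injective m d⟩

theorem mem_bs {b c : Fin m} : Fin.natAdd d c ∈ bs d b ↔ c ≠ b := by
  unfold bs
  rw [Finset.mem_map]
  constructor
  · rintro ⟨c', hc', h⟩
    have : c' = c := Fin.natAdd_injective m d h
    subst this
    exact (Finset.mem_erase.1 hc').1
  · intro h
    exact ⟨c, Finset.mem_erase.2 ⟨h, Finset.mem_univ _⟩, rfl⟩

theorem castAdd_notMem_bs {b : Fin m} {c : Fin d} : Fin.castAdd m c ∉ bs d b := by
  unfold bs
  rw [Finset.mem_map]
  rintro ⟨c', _, h⟩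
  have := congrArg Fin.val h
  simp only [Function.Embedding.coeFn_mk, Fin.val_natAdd, Fin.val_castAdd] at this
  have := c.2
  omega

theorem adj_rowE (K : Matrix (Fin (d + m)) (Fin (d + m)) ℂ) (b : Fin m) :
    (rowE (bs d b) K).adjugate (Fin.natAdd d b) (Fin.natAdd d b) = (fb K).det := by
  rw [Matrix.adjugate_apply, det_block]
  · congr 1
    ext i j
    have h1 : Fin.castAdd m i ≠ Fin.natAdd d b := by
      intro h
      have := congrArg Fin.val h
      simp only [Fin.val_natAdd, Fin.val_castAdd] at this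
      have := i.2
      omega
    simp only [fb, Matrix.submatrix_apply]
    rw [Matrix.updateRow_ne h1]
    simp only [rowE, Matrix.of_apply, castAdd_notMem_bs, if_false]
  · intro a c
    by_cases hab : a = b
    · subst hab
      rw [Matrix.updateRow_self, Pi.single_apply, if_neg]
      intro h
      have := congrArg Fin.val h
      simp only [Fin.val_natAdd, Fin.val_castAdd] at this
      have := c.2
      omega
    · rw [Matrix.updateRow_ne fun h => hab (Fin.natAdd_injective m d h)]
      simp only [rowE, Matrix.of_apply, mem_bs.2 hab, if_true]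
      rw [if_neg]
      intro h
      have := congrArg Fin.val h
      simp only [Fin.val_natAdd, Fin.val_castAdd] at this
      have := c.2
      omega
  · intro a c
    by_cases hab : a = b
    · subst hab
      rw [Matrix.updateRow_self, Pi.single_apply]
      by_cases h : a = c
      · subst h; simp
      · rw [if_neg h, if_neg fun h' => h (Fin.natAdd_injective m d h').symm]
    · rw [Matrix.updateRow_ne fun h => hab (Fin.natAdd_injective m d h)]
      simp only [rowE, Matrix.of_apply, mem_bs.2 hab, if_true]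
      by_cases h : a = c
      · subst h; simp
      · rw [if_neg h, if_neg fun h' => h (Fin.natAdd_injective m d h')]

/-- the pointwise identity -/
theorem alg_fb (K : Matrix (Fin (d + m)) (Fin (d + m)) ℂ) (b : Fin m) (c : Fin m → ℂ) :
    ∑ S ∈ (bs d b).powerset, (-1 : ℂ) ^ S.card *
      ∑ a, (K + dg S).adjugate (Fin.natAdd d b) (Fin.natAdd d a) * c a =
      (-1 : ℂ) ^ (bs d b).card * (c b * (fb K).det) := by
  have h1 : ∀ a : Fin m, ∑ S ∈ (bs d b).powerset, (-1 : ℂ) ^ S.card *
      (K + dg S).adjugate (Fin.natAdd d b) (Fin.natAdd d a) =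
      (-1 : ℂ) ^ (bs d b).card * if a = b then (fb K).det else 0 := by
    intro a
    rw [alg]
    by_cases hab : a = b
    · subst hab
      rw [if_neg (by rw [mem_bs]; simp), if_pos rfl, adj_rowE]
    · rw [if_pos (mem_bs.2 hab), if_neg hab]
  calc ∑ S ∈ (bs d b).powerset, (-1 : ℂ) ^ S.card *
      ∑ a, (K + dg S).adjugate (Fin.natAdd d b) (Fin.natAdd d a) * c a
      = ∑ a, (∑ S ∈ (bs d b).powerset, (-1 : ℂ) ^ S.card *
          (K + dg S).adjugate (Fin.natAdd d b) (Fin.natAdd d a)) * c a := by
        simp only [Finset.mul_sum, Finset.sum_mul]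
        rw [Finset.sum_comm]
        refine Finset.sum_congr rfl fun a _ => Finset.sum_congr rfl fun S _ => by ring
    _ = _ := by
        simp only [h1]
        rw [Finset.sum_eq_single b]
        · rw [if_pos rfl]; ring
        · intro a _ hab
          rw [if_neg hab]; ring
        · intro h; exact absurd (Finset.mem_univ b) h

/-! ### adapted charts -/

/-- the last coordinates -/
def prB (d m : ℕ) : Cn (d + m) →L[ℂ] Cn m := LinearMap.toContinuousLinearMap
  { toFun := fun z => WithLp.toLp 2 fun a => z (Fin.natAdd d a)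
    map_add' := fun x y => by ext a; simp
    map_smul' := fun c x => by ext a; simp }

@[simp] theorem prB_apply (z : Cn (d + m)) (a : Fin m) : prB d m z a = z (Fin.natAdd d a) := rfl

section ad

variable {V : Type} [TopologicalSpace V] {B : Atl (d + m) V} {y : V → Cn m}

/-- adapted charts: the last `m` coordinates are `y` -/
def AdL (B : Atl (d + m) V) (y : V → Cn m) : Prop :=
  ∀ k, ∀ v ∈ (B.e k).source, ∀ a, B.e k v (Fin.natAdd d a) = y v a

theorem AdL.read (hy : AdL B y) (k : B.ι) {z : Cn (d + m)} (hz : z ∈ (B.e k).target) :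
    y ((B.e k).symm z) = prB d m z := by
  ext a
  rw [← hy k _ ((B.e k).map_target hz), (B.e k).right_inv hz]
  rfl

theorem AdL.read' (hy : AdL B y) (k : B.ι) {v : V} (hv : v ∈ (B.e k).source) :
    y v = prB d m (B.e k v) := by
  rw [← hy.read k ((B.e k).map_source hv), (B.e k).left_inv hv]

theorem AdL.cont (hy : AdL B y) : Continuous y := by
  rw [continuous_iff_continuousAt]
  intro v
  obtain ⟨k, hk⟩ := B.cover v
  have h1 : ContinuousAt (fun v => prB d m (B.e k v)) v :=
    (prB d m).continuous.continuousAt.comp ((B.e k).continuousAt hk)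
  refine h1.congr ?_
  filter_upwards [(B.e k).open_source.mem_nhds hk] with w hw
  exact (hy.read' k hw).symm

theorem AdL.J_nat (hy : AdL B y) {i j : B.ι} {x : V}
    (hx : x ∈ (B.e i).source ∩ (B.e j).source) (a : Fin m) (p : Fin (d + m)) :
    B.J i j x (Fin.natAdd d a) p = if Fin.natAdd d a = p then 1 else 0 := by
  have hd := Atl.diff_trans hx
  have h1 : (fun z => (B.e j ((B.e i).symm z)) (Fin.natAdd d a)) =ᶠ[𝓝 (B.e i x)]
      fun z => (EuclideanSpace.proj (Fin.natAdd d a) : Cn (d + m) →L[ℂ] ℂ) z := by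
    filter_upwards [(isOpen_ov i j).mem_nhds (mem_ov hx)] with z hz
    rw [hy j _ hz.2, hy.read i hz.1]
    rfl
  have h2 : HasFDerivAt (fun z => (B.e j ((B.e i).symm z)) (Fin.natAdd d a))
      ((EuclideanSpace.proj (Fin.natAdd d a) : Cn (d + m) →L[ℂ] ℂ).comp
        (fderiv ℂ (fun z => B.e j ((B.e i).symm z)) (B.e i x))) (B.e i x) :=
    (EuclideanSpace.proj (Fin.natAdd d a) : Cn (d + m) →L[ℂ] ℂ).hasFDerivAt.comp _ hd.hasFDerivAt
  have h3 := h2.fderiv
  rw [h1.fderiv_eq, ContinuousLinearMap.fderiv] at h3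
  have h4 := congrArg (fun L : Cn (d + m) →L[ℂ] ℂ => L (EuclideanSpace.single p 1)) h3
  show (fderiv ℂ (fun z => B.e j ((B.e i).symm z)) (B.e i x) (EuclideanSpace.single p 1))
    (Fin.natAdd d a) = _
  refine Eq.trans (Eq.symm h4) ?_
  show (EuclideanSpace.single p (1 : ℂ) : Cn (d + m)) (Fin.natAdd d a) = _
  simp only [PiLp.single_apply, eq_comm]

theorem AdL.det_J (hy : AdL B y) {i j : B.ι} {x : V}
    (hx : x ∈ (B.e i).source ∩ (B.e j).source) : (Jm B i j x).det = (fb (Jm B i j x)).det := by
  refine det_block (fun a b => ?_) fun a b => ?_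
  · rw [Jm_apply, hy.J_nat hx, if_neg]
    intro h
    have := congrArg Fin.val h
    simp only [Fin.val_natAdd, Fin.val_castAdd] at this
    have := b.2
    omega
  · rw [Jm_apply, hy.J_nat hx]
    by_cases h : a = b
    · subst h; simp
    · rw [if_neg h, if_neg fun h' => h (Fin.natAdd_injective m d h')]

theorem AdL.fb_tr (hy : AdL B y) {i j : B.ι} {x : V}
    (hx : x ∈ (B.e i).source ∩ (B.e j).source) {G G' : Matrix (Fin (d + m)) (Fin (d + m)) ℂ}
    (h : G = (Jm B i j x)ᵀ * G' * (Jm B i j x).map conj) :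
    fb G = (fb (Jm B i j x))ᵀ * fb G' * (fb (Jm B i j x)).map conj := by
  have h0 : ∀ (a : Fin m) (b : Fin d), B.J i j x (Fin.natAdd d a) (Fin.castAdd m b) = 0 := by
    intro a b
    rw [hy.J_nat hx, if_neg]
    intro h
    have := congrArg Fin.val h
    simp only [Fin.val_natAdd, Fin.val_castAdd] at this
    have := b.2
    omega
  ext a b
  simp only [fb, Matrix.submatrix_apply, Matrix.mul_apply, Matrix.transpose_apply,
    Matrix.map_apply, h, Fin.sum_univ_add, Jm_apply, h0, map_zero, mul_zero, zero_mul,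
    Finset.sum_const_zero, add_zero]

theorem AdL.fb_den (hy : AdL B y) {i j : B.ι} {x : V}
    (hx : x ∈ (B.e i).source ∩ (B.e j).source) {G G' : Matrix (Fin (d + m)) (Fin (d + m)) ℂ}
    (h : G = (Jm B i j x)ᵀ * G' * (Jm B i j x).map conj) :
    (fb G).det = dens B i j x * (fb G').det := by
  have h2 : ((fb (Jm B i j x)).map conj).det = conj (Jm B i j x).det := by
    rw [hy.det_J hx, ← RingHom.mapMatrix_apply, ← RingHom.map_det]
  rw [hy.fb_tr hx h, Matrix.det_mul, Matrix.det_mul, Matrix.det_transpose, h2, ← hy.det_J hx,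
    SerG398.dens_eq]
  unfold SerG398.detJ
  show (Jm B i j x).det * (fb G').det * conj (Jm B i j x).det =
    (Jm B i j x).det * conj (Jm B i j x).det * (fb G').det
  ring

/-- the fibre volume is a density -/
theorem AdL.den_fb (hy : AdL B y) {g : B.ι → V → Matrix (Fin (d + m)) (Fin (d + m)) ℂ}
    (hg : CF B g) : Den B (fun k x => (fb (g k x)).det) where
  sm i := by
    have h1 : ContDiffOn ℝ ∞ (fun z => (fb (g i ((B.e i).symm z))).det) (B.e i).target := by
      simp only [Matrix.det_apply]
      refine ContDiffOn.sum fun σ _ => ?_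
      refine ContDiffOn.const_smul _ ?_
      exact contDiffOn_prod fun b _ => hg.sm i _ _
    exact h1
  tr i j x hx := hy.fb_den hx (hg.tr i j x hx)

/-! ### Stokes -/

/-- adding the square of base coordinates -/
theorem AdL.cf_dg (hy : AdL B y) {g : B.ι → V → Matrix (Fin (d + m)) (Fin (d + m)) ℂ}
    (hg : CF B g) {b : Fin m} {S : Finset (Fin (d + m))} (hS : S ⊆ bs d b) :
    CF B (fun k x => g k x + dg S) where
  sm i p q := (hg.sm i p q).add contDiffOn_const
  tr i j x hx := by
    have h1 : dg S = (Jm B i j x)ᵀ * dg S * (Jm B i j x).map conj := by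
      ext p q
      rw [Matrix.mul_apply]
      have e : ∀ r ∈ S, ∀ t, B.J i j x r t = if r = t then 1 else 0 := by
        intro r hr t
        have h2 := hS hr
        unfold bs at h2
        obtain ⟨c, _, hc⟩ := Finset.mem_map.1 h2
        rw [← hc]
        exact hy.J_nat hx c t
      have e2 : ∀ r, ((Jm B i j x)ᵀ * dg S) p r = if r ∈ S ∧ r = p then 1 else 0 := by
        intro r
        rw [dg, Matrix.mul_diagonal, Matrix.transpose_apply, Jm_apply]
        by_cases hr : r ∈ S
        · rw [e r hr]
          by_cases h : r = p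
          · simp [h, h ▸ hr]
          · simp [h]
        · simp [hr]
      simp only [e2, Matrix.map_apply, Jm_apply]
      rw [Finset.sum_eq_single p]
      · by_cases hp : p ∈ S
        · rw [e p hp, dg, Matrix.diagonal_apply]
          by_cases h : p = q
          · subst h; simp [hp]
          · simp [h]
        · rw [dg, Matrix.diagonal_apply]
          by_cases h : p = q
          · subst h; simp [hp]
          · simp [h, hp]
      · intro r _ hr
        simp [hr]
      · intro h; exact absurd (Finset.mem_univ p) h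
    rw [Matrix.mul_add, Matrix.add_mul, ← h1, ← hg.tr i j x hx]
  closed i z hz a b c := by
    have e : ∀ a c, wd (false, c) (fun w => (g i ((B.e i).symm w) + dg S) a b) z =
        wd (false, c) (fun w => g i ((B.e i).symm w) a b) z := by
      intro a c
      have h1 := wd_add (hg.diffAt hz a b) (differentiableAt_const (dg S a b)) (false, c)
      rw [wd_const, add_zero] at h1
      exact h1
    rw [e a c, e c a, hg.closed i z hz]

/-- `conj y_b` as a function -/
def cy (y : V → Cn m) (b : Fin m) : V → ℂ := fun x => conj (y x b)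

theorem AdL.sm_comp (hy : AdL B y) {W : Type*} [NormedAddCommGroup W] [NormedSpace ℝ W]
    {χ : Cn m → W} (hχ : ContDiff ℝ ∞ χ) (i : B.ι) : B.SmAt i (fun x => χ (y x)) := by
  have h1 : ContDiffOn ℝ ∞ (fun z => χ (prB d m z)) (B.e i).target :=
    (hχ.comp ((prB d m).restrictScalars ℝ).contDiff).contDiffOn
  refine h1.congr fun z hz => ?_
  show χ (y ((B.e i).symm z)) = χ (prB d m z)
  rw [hy.read i hz]

theorem AdL.sm_cy (hy : AdL B y) (b : Fin m) (i : B.ι) : B.SmAt i (cy y b) := by
  refine hy.sm_comp (χ := fun w : Cn m => conj (w b)) ?_ i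
  exact (conjCLE : ℂ →L[ℝ] ℂ).contDiff.comp
    ((EuclideanSpace.proj b : Cn m →L[ℂ] ℂ).restrictScalars ℝ).contDiff

theorem AdL.db_cy (hy : AdL B y) (b : Fin m) (i : B.ι) (p : Fin (d + m)) {x : V}
    (hx : x ∈ (B.e i).source) : B.db i p (cy y b) x = if p = Fin.natAdd d b then 1 else 0 := by
  have hz := (B.e i).map_source hx
  have h1 := db_read (A := B) (cy y b) i p hz
  rw [(B.e i).left_inv hx] at h1
  rw [h1]
  have h2 : (fun w => cy y b ((B.e i).symm w)) =ᶠ[𝓝 (B.e i x)]
      fun w => conj ((EuclideanSpace.proj (Fin.natAdd d b) : Cn (d + m) →L[ℂ] ℂ) w) := by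
    filter_upwards [(B.e i).open_target.mem_nhds hz] with w hw
    unfold cy
    rw [hy.read i hw]
    rfl
  rw [wd_congr h2]
  have hd : DifferentiableAt ℂ (fun w =>
      (EuclideanSpace.proj (Fin.natAdd d b) : Cn (d + m) →L[ℂ] ℂ) w) (B.e i x) :=
    (EuclideanSpace.proj (Fin.natAdd d b) : Cn (d + m) →L[ℂ] ℂ).differentiableAt
  have h3 := conj_wd (false, p) (hd.restrictScalars ℝ)
  rw [wd_hol' hd, ContinuousLinearMap.fderiv] at h3
  simp only [Bool.not_false] at h3
  rw [← h3]
  show conj ((EuclideanSpace.single p (1 : ℂ) : Cn (d + m)) (Fin.natAdd d b)) = _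
  simp only [PiLp.single_apply, eq_comm]
  split_ifs <;> simp

theorem AdL.hm_cy (hy : AdL B y) (b : Fin m) (i : B.ι) {x : V} (hx : x ∈ (B.e i).source) :
    hm B (cy y b) i x = 0 := by
  have hz := (B.e i).map_source hx
  ext p q
  have h1 := hm_read (A := B) (cy y b) i hz p q
  rw [(B.e i).left_inv hx] at h1
  rw [h1, Matrix.zero_apply]
  have h2 : wd (true, q) (fun w => cy y b ((B.e i).symm w)) =ᶠ[𝓝 (B.e i x)]
      fun _ => (if q = Fin.natAdd d b then (1:ℂ) else 0) := by
    filter_upwards [(B.e i).open_target.mem_nhds hz] with w hw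
    rw [← db_read (A := B) (cy y b) i q hw]
    exact hy.db_cy b i q ((B.e i).map_target hw)
  rw [wd_congr h2, wd_const]

theorem AdL.dl_comp (hy : AdL B y) {χ : Cn m → ℂ} (hχ : ContDiff ℝ ∞ χ) (i : B.ι)
    (p : Fin (d + m)) {x : V} (hx : x ∈ (B.e i).source) :
    OmT75.dl B i p (fun x => χ (y x)) x =
      ∑ c, (if Fin.natAdd d c = p then 1 else 0) * wd (false, c) χ (y x) := by
  have hz := (B.e i).map_source hx
  have h1 := dl_read (A := B) (fun x => χ (y x)) i p hz
  rw [(B.e i).left_inv hx] at h1
  rw [h1]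
  have h2 : (fun w => χ (y ((B.e i).symm w))) =ᶠ[𝓝 (B.e i x)] fun w => χ (prB d m w) := by
    filter_upwards [(B.e i).open_target.mem_nhds hz] with w hw
    rw [hy.read i hw]
  rw [wd_congr h2, wd_comp' (f := χ) (φ := prB d m)
    (hχ.differentiable (by simp) _) (prB d m).differentiableAt, ← hy.read' i hx]
  refine Finset.sum_congr rfl fun c _ => ?_
  rw [ContinuousLinearMap.fderiv, cj_false, smul_eq_mul, prB_apply]
  simp only [PiLp.single_apply]

/-- the divergence of the cofactor field -/
theorem AdL.div (hy : AdL B y) {g : B.ι → V → Matrix (Fin (d + m)) (Fin (d + m)) ℂ}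
    (hg : CF B g) (b : Fin m) {χ : Cn m → ℂ} (hχ : ContDiff ℝ ∞ χ) {i : B.ι} {x : V}
    (hx : x ∈ (B.e i).source) :
    ∑ a, OmT75.dl B i a (fun v => adjY B g (fun v => χ (y v)) (cy y b) i v a) x =
      ∑ a, (g i x).adjugate (Fin.natAdd d b) (Fin.natAdd d a) * wd (false, a) χ (y x) := by
  rw [div_adjY hg (hy.sm_comp hχ i) (hy.sm_cy b i) hx, hy.hm_cy b i hx, Matrix.mul_zero,
    Matrix.trace_zero, mul_zero, zero_add]
  have h1 : ∀ p, ∑ q, (g i x).adjugate q p * OmT75.dl B i p (fun x => χ (y x)) x *
      B.db i q (cy y b) x = (g i x).adjugate (Fin.natAdd d b) p *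
        OmT75.dl B i p (fun x => χ (y x)) x := by
    intro p
    rw [Finset.sum_eq_single (Fin.natAdd d b)]
    · rw [hy.db_cy b i _ hx, if_pos rfl, mul_one]
    · intro q _ hq
      rw [hy.db_cy b i _ hx, if_neg hq, mul_zero]
    · intro h; exact absurd (Finset.mem_univ _) h
  rw [Finset.sum_congr rfl fun p _ => h1 p]
  simp only [hy.dl_comp hχ i _ hx, Finset.mul_sum]
  rw [Finset.sum_comm]
  refine Finset.sum_congr rfl fun c _ => ?_
  rw [Finset.sum_eq_single (Fin.natAdd d c)]
  · simp
  · intro p _ hp
    simp [Ne.symm hp]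
  · intro h; exact absurd (Finset.mem_univ _) h

variable [T2Space V]

/-- **the fibre volume is closed**: `∫ (∂_b χ)(y) det (fb g) = 0` -/
theorem stokesY (P : Part B) (hy : AdL B y)
    {g : B.ι → V → Matrix (Fin (d + m)) (Fin (d + m)) ℂ} (hg : CF B g) (b : Fin m)
    {χ : Cn m → ℂ} (hχ : ContDiff ℝ ∞ χ) (hc : IsCompact (y ⁻¹' tsupport χ)) :
    intD P (fun k x => wd (false, b) χ (y x) * (fb (g k x)).det) = 0 := by
  have hoff : ∀ f : B.ι → V → ℂ, (∀ k, ∀ x ∈ (B.e k).source, y x ∉ tsupport χ → f k x = 0) →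
      OffK B f (y ⁻¹' tsupport χ) := fun f h i x hx hxK => h i x hx hxK
  have hwd0 : ∀ a, ∀ x, y x ∉ tsupport χ → wd (false, a) χ (y x) = 0 := by
    intro a x hx
    have h1 : χ =ᶠ[𝓝 (y x)] fun _ => (0 : ℂ) := notMem_tsupport_iff_eventuallyEq.1 hx
    rw [wd_congr h1, wd_const]
  have key : ∀ S ∈ (bs d b).powerset, intD P (fun k x => ∑ a,
      (g k x + dg S).adjugate (Fin.natAdd d b) (Fin.natAdd d a) * wd (false, a) χ (y x)) = 0 := by
    intro S hS
    have hgS := hy.cf_dg hg (Finset.mem_powerset.1 hS)
    have hv := v10_adj hgS (φ := fun v => χ (y v)) (u := cy y b) (hy.sm_comp hχ) (hy.sm_cy b)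
    have hvd : VD10 B (fun i a x => adjY B (fun k x => g k x + dg S) (fun v => χ (y v)) (cy y b)
        i x a) := ⟨hv.sm, hv.tr⟩
    have h1 := stokes10 P hvd hc fun a i x hx hxK => by
      have h2 : χ (y x) = 0 := image_eq_zero_of_notMem_tsupport hxK
      show χ (y x) * _ = 0
      rw [h2, zero_mul]
    rw [← h1]
    exact intD_congr P fun i x hx => (hy.div hgS b hχ hx).symm
  have hsm : ∀ S ∈ (bs d b).powerset, ∀ i, B.SmAt i (fun x => ∑ a,
      (g i x + dg S).adjugate (Fin.natAdd d b) (Fin.natAdd d a) * wd (false, a) χ (y x)) := by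
    intro S hS i
    have hgS := hy.cf_dg hg (Finset.mem_powerset.1 hS)
    refine ContDiffOn.sum fun a _ => (smAt_adj hgS i (Fin.natAdd d a) (Fin.natAdd d b)).mul ?_
    refine hy.sm_comp (χ := wd (false, a) χ) ?_ i
    rw [contDiff_iff_contDiffAt]
    intro z
    exact contDiffAt_wd hχ.contDiffAt _
  have h1 : intD P (fun k x => ∑ S ∈ (bs d b).powerset, (-1 : ℂ) ^ S.card * ∑ a,
      (g k x + dg S).adjugate (Fin.natAdd d b) (Fin.natAdd d a) * wd (false, a) χ (y x)) = 0 := by
    have hF : ∀ S ∈ (bs d b).powerset, OffK B (fun k x => (-1 : ℂ) ^ S.card * ∑ a,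
        (g k x + dg S).adjugate (Fin.natAdd d b) (Fin.natAdd d a) * wd (false, a) χ (y x))
        (y ⁻¹' tsupport χ) := fun S _ => hoff _ fun k x _ h => by
      rw [Finset.sum_eq_zero fun a _ => by rw [hwd0 a x h, mul_zero], mul_zero]
    rw [intD_sum P (bs d b).powerset (F := fun S k x => (-1 : ℂ) ^ S.card * ∑ a,
      (g k x + dg S).adjugate (Fin.natAdd d b) (Fin.natAdd d a) * wd (false, a) χ (y x))
      (fun S hS i => contDiffOn_const.mul (hsm S hS i)) hc hF]
    refine Finset.sum_eq_zero fun S hS => ?_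
    rw [intD_smul P _ hc (hoff _ fun k x _ h =>
      Finset.sum_eq_zero fun a _ => by rw [hwd0 a x h, mul_zero]), key S hS, mul_zero]
  have h2 : intD P (fun k x => (-1 : ℂ) ^ (bs d b).card *
      (wd (false, b) χ (y x) * (fb (g k x)).det)) = 0 := by
    rw [← h1]
    refine intD_congr P fun i x _ => ?_
    exact (alg_fb (g i x) b fun a => wd (false, a) χ (y x)).symm
  rw [intD_smul P _ hc (hoff _ fun k x _ h => by rw [hwd0 b x h, zero_mul])] at h2
  exact (mul_eq_zero.1 h2).resolve_left (pow_ne_zero _ (by norm_num))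

end ad

end

end Crest.Agent.R281.Mass2_519
end

-- ▼ part R281/Mass3_519
section

/-!
# R281 (S0424), leaf S6-MASS, part 3 (helper519): the mass of the fibres is constant

* `volF hy K : HM (KB B)⁻¹` : the fibre volume `det (fb K)`, a smooth positive density on `V`;
* `integral_vm_intD`        : `∫ f d(vm h) = intD P (w f)`, `f` with compact support (from 822);
* `mass_abs`                : the push forward of `vm (volF hy K)` by `y` is `v · Lebesgue` on `U`;
* `Fam.nu F K`, `Fam.mass`, `Fam.mass_lint`, `Fam.mass_int`, `Fam.mass_intD`.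
-/

set_option autoImplicit false
set_option linter.unusedSectionVars false
set_option linter.style.haveILetI false

open Set Filter Topology Complex Function MeasureTheory
open scoped ContDiff Matrix ComplexConjugate ComplexOrder ENNReal

namespace Crest.Agent.R281.Mass3_519

open Crest.Agent.R275 Crest.Agent.R275.Geo Crest.Agent.R275.Core144 Crest.Agent.R275.EDR890
open Crest.Agent.R275.SerG398 (lint dens)
open Crest.Agent.R275.Pai323 Crest.Agent.R275.C1d194
open Crest.Agent.R273.Defs_333 Crest.Agent.R273.Kah_333 Crest.Agent.R273.Hess_333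
open Crest.Agent.R273.HessB_333 Crest.Agent.R273.KahI_645
open Crest.Agent.R273.Green_5 Crest.Agent.R273.Vol_333 Crest.Agent.R273.Vm_333
open Crest.Agent.R273.StokesV_332 Crest.Agent.R281.S6D_664
open Crest.Agent.R281.Mass1_519 Crest.Agent.R281.Mass2_519

noncomputable section

variable {d m : ℕ} {V : Type} [TopologicalSpace V] {B : Atl (d + m) V} {y : V → Cn m}

theorem fb_posDef {G : Matrix (Fin (d + m)) (Fin (d + m)) ℂ} (h : G.PosDef) : (fb G).PosDef :=
  h.submatrix (Fin.castAdd_injective d m)

/-- the fibre volume as a metric of the anticanonical bundle -/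
def volF (hy : AdL B y) (K : Kah B) : HM (KB B)⁻¹ where
  w k x := (fb (K.g k x)).det.re
  pos k x hx := det_re_pos (fb_posDef (K.pos k x hx))
  sm i := Complex.reCLM.contDiff.comp_contDiffOn ((hy.den_fb (kah_cf K)).sm i)
  tr i j x hx := by
    have h1 := (hy.den_fb (kah_cf K)).tr i j x hx
    have h4 : (Jm B i j x).det ≠ 0 := by
      rw [← KB_g hx]; exact (KB B).ne_zero i j x
    have h2 : dens B i j x = ((‖(Jm B i j x).det‖ ^ 2 : ℝ) : ℂ) := rfl
    rw [h1, h2, LB.inv_g, KB_g hx, Complex.re_ofReal_mul, norm_inv, ← mul_assoc, inv_pow,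
      inv_mul_cancel₀ (by positivity), one_mul]

theorem volF_w (hy : AdL B y) (K : Kah B) (i : B.ι) {x : V} (hx : x ∈ (B.e i).source) :
    (((volF hy K).w i x : ℝ) : ℂ) = (fb (K.g i x)).det :=
  det_real (fb_posDef (K.pos i x hx)).1

/-! ### the measure of `h` and `intD` (helper822, Bridge_822) -/

section abs

variable {n : ℕ} {M : Type} [TopologicalSpace M] [T2Space M] [MeasurableSpace M] [BorelSpace M]
  {A : Atl n M} [Countable A.ι] (h : HM (KB A)⁻¹)

theorem integral_vm_intD (P : Part A) {f : M → ℂ} (hf : Integrable f (vm h)) {K : Set M}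
    (hK : IsCompact K) (h0 : ∀ x, x ∉ K → f x = 0) :
    ∫ x, f x ∂(vm h) = intD P (fun i x => (h.w i x : ℂ) * f x) := by
  have hoff : OffK A (fun i x => (h.w i x : ℂ) * f x) K := fun i x _ hx => by
    show (h.w i x : ℂ) * f x = 0
    rw [h0 x hx, mul_zero]
  rw [intD_eq_sum P hK (Finset.Subset.refl _) hoff]
  have hint : ∀ i, Integrable (fun x => (P.ψ i x : ℂ) * f x) (vm h) := by
    intro i
    have hc : Continuous fun x => (P.ψ i x : ℂ) :=
      Complex.continuous_ofReal.comp (sm_continuous (P.ψ_sm i))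
    obtain ⟨C, hC⟩ := (P.χ_cpt i).exists_bound_of_continuousOn hc.continuousOn
    refine hf.bdd_mul (c := max C 0) hc.measurable.aestronglyMeasurable
      (Eventually.of_forall fun x => ?_)
    by_cases hx : x ∈ tsupport (P.χ i)
    · exact (hC x hx).trans (le_max_left _ _)
    · rw [psi_zero_off P i hx]
      simp
  have h1 : (fun x => f x) = fun x => ∑ i ∈ Fn P hK, (P.ψ i x : ℂ) * f x := by
    funext x
    rw [← Finset.sum_mul]
    by_cases hx : x ∈ K
    · rw [sum_psiC P hK (Finset.Subset.refl _) hx, one_mul]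
    · rw [h0 x hx, mul_zero]
  calc ∫ x, f x ∂(vm h) = ∫ x, ∑ i ∈ Fn P hK, (P.ψ i x : ℂ) * f x ∂(vm h) := by rw [← h1]
    _ = ∑ i ∈ Fn P hK, ∫ x, (P.ψ i x : ℂ) * f x ∂(vm h) :=
        integral_finsetSum _ fun i _ => hint i
    _ = _ := by
      refine Finset.sum_congr rfl fun i _ => ?_
      have h3 : ∫ x, (P.ψ i x : ℂ) * f x ∂(vm h) =
          ∫ x in (A.e i).source, (P.ψ i x : ℂ) * f x ∂(vm h) := by
        symm
        refine setIntegral_eq_integral_of_forall_compl_eq_zero fun x hx => ?_
        rw [psi_off P hx, Complex.ofReal_zero, zero_mul]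
      rw [h3, setIntegral_vm h i (hint i).aestronglyMeasurable]
      unfold Crest.Agent.R275.SerG398.lint
      symm
      rw [← setIntegral_eq_integral_of_forall_compl_eq_zero (s := Ui A i)
        (fun y hy => rd_off hy)]
      refine setIntegral_congr_fun (Crest.Agent.R273.Vm_333.isOpen_Ui i).measurableSet
        fun y hy => ?_
      rw [rd_of_mem hy]
      change (P.ψ i (sg A i y) : ℂ) * ((h.w i (sg A i y) : ℂ) * f (sg A i y)) =
        (h.w i (sg A i y)) • ((P.ψ i (sg A i y) : ℂ) * f (sg A i y))
      rw [Complex.real_smul]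
      ring

end abs

/-! ### the mass -/

section mass

variable [T2Space V] [MeasurableSpace V] [BorelSpace V] [Countable B.ι]

theorem int_fb (P : Part B) (hy : AdL B y) (K : Kah B) {f : V → ℂ}
    (hf : Integrable f (vm (volF hy K))) {C : Set V} (hC : IsCompact C)
    (h0 : ∀ x, x ∉ C → f x = 0) :
    intD P (fun k x => f x * (fb (K.g k x)).det) = ∫ x, f x ∂(vm (volF hy K)) := by
  rw [integral_vm_intD _ P hf hC h0]
  refine intD_congr P fun i x hx => ?_
  rw [volF_w hy K i hx, mul_comm]

theorem integrable_cc (h : HM (KB B)⁻¹) {f : V → ℂ} (hf : Continuous f) {C : Set V}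
    (hC : IsCompact C) (h0 : ∀ x, x ∉ C → f x = 0) : Integrable f (vm h) := by
  have := isLocallyFinite_vm h
  exact hf.integrable_of_hasCompactSupport (HasCompactSupport.intro hC h0)

/-- **constancy of the mass, measure form** -/
theorem mass_abs (P : Part B) (hy : AdL B y) (K : Kah B) {U : Set (Cn m)} (hU : IsOpen U)
    (hc : IsPreconnected U) (proper : ∀ C ⊆ U, IsCompact C → IsCompact (y ⁻¹' C)) :
    ∃ v : ℝ, 0 ≤ v ∧ (Measure.map (fun x => rc (y x)) (vm (volF hy K))).restrict (cc ⁻¹' U) =
      ENNReal.ofReal v • volume.restrict (cc ⁻¹' U) := by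
  have hlf := isLocallyFinite_vm (volF hy K)
  have hyc : Continuous y := hy.cont
  have hry : Continuous fun x => rc (y x) := continuous_rc.comp hyc
  have hinj : Function.Injective (rc : Cn m → RI m → ℝ) := fun a b h => by
    rw [← cc_rc a, h, cc_rc]
  have hcU : cc ⁻¹' U = (rc : Cn m → RI m → ℝ) '' U := by
    ext z
    constructor
    · intro hz
      exact ⟨cc z, hz, rc_cc z⟩
    · rintro ⟨w, hw, rfl⟩
      show cc (rc w) ∈ U
      rwa [cc_rc]
  refine exists_const volume (hU.preimage continuous_cc) ?_ ?_ ?_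
  · rw [hcU]
    exact hc.image _ continuous_rc.continuousOn
  · intro C hCU hC
    rw [Measure.map_apply hry.measurable hC.measurableSet]
    have h1 : (fun x => rc (y x)) ⁻¹' C = y ⁻¹' (cc '' C) := by
      ext x
      constructor
      · intro hx
        exact ⟨rc (y x), hx, cc_rc _⟩
      · rintro ⟨z, hz, hzx⟩
        show rc (y x) ∈ C
        rw [← hzx, rc_cc]
        exact hz
    rw [h1]
    refine (proper _ ?_ (hC.image continuous_cc)).measure_lt_top
    rintro _ ⟨z, hz, rfl⟩
    exact hCU hz
  · intro χ hχ hχc hχU w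
    -- the test function on `Cn m`
    set X : Cn m → ℝ := fun z => χ (rc z) with hX
    have hXs : ContDiff ℝ ∞ X := hχ.comp contDiff_rc
    have hcX : ContDiff ℝ ∞ (cu X) := Complex.ofRealCLM.contDiff.comp hXs
    have hts : tsupport (cu X) ⊆ cc '' tsupport χ := by
      refine closure_minimal ?_ (hχc.isCompact.image continuous_cc).isClosed
      intro z hz
      refine ⟨rc z, subset_tsupport _ ?_, cc_rc z⟩
      intro h0
      apply hz
      show ((χ (rc z) : ℝ) : ℂ) = 0
      rw [h0, Complex.ofReal_zero]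
    have hcc : IsCompact (tsupport (cu X)) :=
      (hχc.isCompact.image continuous_cc).of_isClosed_subset (isClosed_tsupport _) hts
    have htU : tsupport (cu X) ⊆ U := by
      intro z hz
      obtain ⟨t, ht, rfl⟩ := hts hz
      exact hχU ht
    have hpc : IsCompact (y ⁻¹' tsupport (cu X)) := proper _ htU hcc
    have hwd0 : ∀ (s : WI m) x, x ∉ y ⁻¹' tsupport (cu X) → wd s (cu X) (y x) = 0 := by
      intro s x hx
      have h1 : cu X =ᶠ[𝓝 (y x)] fun _ => (0 : ℂ) := notMem_tsupport_iff_eventuallyEq.1 hx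
      rw [wd_congr h1, wd_const]
    have hwc : ∀ s : WI m, Continuous fun x => wd s (cu X) (y x) := by
      intro s
      have : ContDiff ℝ ∞ (wd s (cu X)) := by
        rw [contDiff_iff_contDiffAt]
        intro z
        exact contDiffAt_wd hcX.contDiffAt _
      exact this.continuous.comp hyc
    have hwi : ∀ s : WI m, Integrable (fun x => wd s (cu X) (y x)) (vm (volF hy K)) := fun s =>
      integrable_cc _ (hwc s) hpc (hwd0 s)
    have hz1 : ∀ b : Fin m, ∫ x, wd (false, b) (cu X) (y x) ∂(vm (volF hy K)) = 0 := by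
      intro b
      rw [← int_fb P hy K (hwi _) hpc (hwd0 _)]
      exact stokesY P hy (kah_cf K) b hcX hpc
    have hz2 : ∀ b : Fin m, ∫ x, wd (true, b) (cu X) (y x) ∂(vm (volF hy K)) = 0 := by
      intro b
      have h1 : ∀ x, wd (true, b) (cu X) (y x) = conj (wd (false, b) (cu X) (y x)) := fun x =>
        (conj_wd_real (false, b) (hXs.differentiable (by simp) _)).symm
      simp only [h1]
      rw [integral_conj, hz1 b, map_zero]
    have hzs : ∀ s : WI m, ∫ x, wd s (cu X) (y x) ∂(vm (volF hy K)) = 0 := by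
      rintro ⟨s, b⟩
      cases s
      · exact hz1 b
      · exact hz2 b
    have hfd : ∀ z : Cn m, ((fderiv ℝ χ (rc z) w : ℝ) : ℂ) =
        ∑ s : WI m, ze s (cc w) * wd s (cu X) z := by
      intro z
      have h1 : HasFDerivAt χ (fderiv ℝ χ (rc z)) (rc z) :=
        (hχ.differentiable (by simp) _).hasFDerivAt
      have h2 : HasFDerivAt (rc : Cn m → RI m → ℝ) (rcL m) z := by
        rw [rc_eq]; exact (rcL m).hasFDerivAt
      have h3 : HasFDerivAt (cu X) (Complex.ofRealCLM.comp ((fderiv ℝ χ (rc z)).comp (rcL m))) z :=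
        Complex.ofRealCLM.hasFDerivAt.comp z (h1.comp z h2)
      have h4 := apply_eq_sum (fderiv ℝ (cu X) z) (cc w)
      rw [h3.fderiv] at h4
      have h5 : (Complex.ofRealCLM.comp ((fderiv ℝ χ (rc z)).comp (rcL m))) (cc w) =
          ((fderiv ℝ χ (rc z) w : ℝ) : ℂ) := by
        show ((fderiv ℝ χ (rc z) (rcL m (cc w)) : ℝ) : ℂ) = _
        rw [rcL_apply, rc_cc]
      rw [← h5, h4]
      refine Finset.sum_congr rfl fun s _ => ?_
      rw [wd, h3.fderiv, smul_eq_mul]
    have hdc : Continuous fun z => fderiv ℝ χ z w :=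
      (hχ.continuous_fderiv (by simp)).clm_apply continuous_const
    rw [integral_map hry.aemeasurable hdc.aestronglyMeasurable]
    have h6 : ((∫ x, fderiv ℝ χ (rc (y x)) w ∂(vm (volF hy K)) : ℝ) : ℂ) = 0 := by
      have h8 : ∫ x, ((fderiv ℝ χ (rc (y x)) w : ℝ) : ℂ) ∂(vm (volF hy K)) =
          ((∫ x, fderiv ℝ χ (rc (y x)) w ∂(vm (volF hy K)) : ℝ) : ℂ) := integral_ofReal (𝕜 := ℂ)
      have h7 : ∀ x, ((fderiv ℝ χ (rc (y x)) w : ℝ) : ℂ) =
          ∑ s : WI m, ze s (cc w) * wd s (cu X) (y x) := fun x => hfd (y x)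
      rw [← h8]
      simp only [h7]
      rw [integral_finsetSum _ fun s _ => (hwi s).const_mul _]
      refine Finset.sum_eq_zero fun s _ => ?_
      rw [integral_const_mul, hzs s, mul_zero]
    exact_mod_cast h6

end mass

/-! ### families -/

section fam

variable {N : ℕ} {M : Type} [TopologicalSpace M] {A : Atl N M} {U : Set (Cn m)}

theorem adl (F : Fam A d m U) : AdL F.B F.y := F.last

/-- the measure `ω_V^d ∧ dLeb(y)` on `V` -/
def nu (F : Fam A d m U) (K : Kah A) [MeasurableSpace F.V] [BorelSpace F.V] : Measure F.V :=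
  vm (volF (adl F) (F.kah K))

/-- the fibres have mass `v` -/
structure Mass (F : Fam A d m U) (K : Kah A) (v : ℝ) : Prop where
  nonneg : 0 ≤ v
  pos : U.Nonempty → 0 < v
  map : ∀ [MeasurableSpace F.V] [BorelSpace F.V],
    Measure.map (fun x => rc (F.y x)) (nu F K) = ENNReal.ofReal v • volume.restrict (cc ⁻¹' U)

theorem cont_y (F : Fam A d m U) : Continuous F.y := (adl F).cont

theorem cont_ry (F : Fam A d m U) : Continuous fun x => rc (F.y x) :=
  continuous_rc.comp (cont_y F)

/-- **the mass of the fibres is constant** -/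
theorem exists_mass (F : Fam A d m U) (K : Kah A) (hU : IsOpen U) (hc : IsPreconnected U) :
    ∃ v, Mass F K v := by
  letI : MeasurableSpace F.V := borel F.V
  haveI : BorelSpace F.V := ⟨rfl⟩
  obtain ⟨v, hv, h1⟩ := mass_abs F.P (adl F) (F.kah K) hU hc F.proper
  have h2 : Measure.map (fun x => rc (F.y x)) (nu F K) =
      ENNReal.ofReal v • volume.restrict (cc ⁻¹' U) := by
    rw [← h1]
    symm
    refine Measure.restrict_eq_self_of_ae_mem ?_
    refine (ae_map_iff (p := fun z => z ∈ cc ⁻¹' U) (cont_ry F).aemeasurable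
      (hU.preimage continuous_cc).measurableSet).2 (Eventually.of_forall fun x => ?_)
    show cc (rc (F.y x)) ∈ U
    rw [cc_rc]
    exact F.mem x
  refine ⟨v, hv, fun hne => ?_, ?_⟩
  · refine lt_of_le_of_ne hv fun h0 => ?_
    obtain ⟨u, hu⟩ := hne
    obtain ⟨x, _⟩ := (F.conn u hu).nonempty
    have := isOpenPos_vm (volF (adl F) (F.kah K))
    have h3 := congrArg (fun μ : Measure (RI m → ℝ) => μ univ) h2
    rw [Measure.map_apply (cont_ry F).measurable MeasurableSet.univ, preimage_univ, ← h0] at h3
    have h4 : nu F K univ = 0 := by simpa using h3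
    exact (isOpen_univ.measure_pos (vm (volF (adl F) (F.kah K))) ⟨x, mem_univ x⟩).ne' h4
  · intro i1 i2
    have h3 : i1 = borel F.V := i2.measurable_eq
    subst h3
    exact h2

namespace Mass

variable {F : Fam A d m U} {K : Kah A} {v : ℝ}


theorem int (h : Mass F K v) [MeasurableSpace F.V] [BorelSpace F.V] {W : Type*}
    [NormedAddCommGroup W] [NormedSpace ℝ W] {a : (RI m → ℝ) → W}
    (ha : AEStronglyMeasurable a (volume.restrict (cc ⁻¹' U))) :
    ∫ x, a (rc (F.y x)) ∂(nu F K) = v • ∫ z in cc ⁻¹' U, a z := by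
  have h1 : AEStronglyMeasurable a (Measure.map (fun x => rc (F.y x)) (nu F K)) := by
    rw [h.map]
    exact ha.smul_measure _
  rw [← integral_map (cont_ry F).aemeasurable h1, h.map, integral_smul_measure,
    ENNReal.toReal_ofReal h.nonneg]

theorem integrable (h : Mass F K v) [MeasurableSpace F.V] [BorelSpace F.V] {W : Type*}
    [NormedAddCommGroup W] {a : (RI m → ℝ) → W} (ha : IntegrableOn a (cc ⁻¹' U)) :
    Integrable (fun x => a (rc (F.y x))) (nu F K) := by
  have h1 : Integrable a (Measure.map (fun x => rc (F.y x)) (nu F K)) := by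
    rw [h.map]
    exact ha.smul_measure ENNReal.ofReal_ne_top
  exact h1.comp_measurable (cont_ry F).measurable

/-- the form with `intD` -/
theorem intD_eq (h : Mass F K v) {a : Cn m → ℂ}
    (ha : IntegrableOn (fun z : RI m → ℝ => a (cc z)) (cc ⁻¹' U)) {C : Set (Cn m)}
    (hC : IsCompact C) (hCU : C ⊆ U) (h0 : ∀ z, z ∉ C → a z = 0) :
    intD F.P (fun k x => a (F.y x) * (fb ((F.kah K).g k x)).det) =
      v * ∫ z : RI m → ℝ, a (cc z) := by
  letI : MeasurableSpace F.V := borel F.V
  haveI : BorelSpace F.V := ⟨rfl⟩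
  have h1 : Integrable (fun x => a (F.y x)) (nu F K) := by
    have := h.integrable ha
    simpa only [cc_rc] using this
  have h2 := int_fb F.P (adl F) (F.kah K) (f := fun x => a (F.y x)) h1
    (F.proper C hCU hC) fun x hx => h0 _ hx
  rw [h2]
  have h3 := h.int ha.aestronglyMeasurable
  simp only [cc_rc] at h3
  refine h3.trans ?_
  have h4 : ∫ z in cc ⁻¹' U, a (cc z) = ∫ z : RI m → ℝ, a (cc z) :=
    setIntegral_eq_integral_of_forall_compl_eq_zero fun z hz => h0 _ fun h => hz (hCU h)
  rw [h4, Complex.real_smul]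

theorem intD_cont (h : Mass F K v) {a : Cn m → ℂ} (ha : Continuous a) (hc : HasCompactSupport a)
    (hs : tsupport a ⊆ U) :
    intD F.P (fun k x => a (F.y x) * (fb ((F.kah K).g k x)).det) =
      v * ∫ z : RI m → ℝ, a (cc z) := by
  refine h.intD_eq ?_ hc.isCompact hs fun z hz => image_eq_zero_of_notMem_tsupport hz
  refine Integrable.integrableOn ?_
  refine (ha.comp continuous_cc).integrable_of_hasCompactSupport ?_
  refine HasCompactSupport.intro (hc.isCompact.image continuous_rc) fun z hz => ?_
  have h1 : cc z ∉ tsupport a := fun h' => hz ⟨cc z, h', rc_cc z⟩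
  show a (cc z) = 0
  exact image_eq_zero_of_notMem_tsupport h1


end Mass


end fam

end

end Crest.Agent.R281.Mass3_519
end

-- ▼ part R281/Mass4_519

/-!
# R281 (S0424), leaf S6-MASS, part 4 (helper519): all leaves of a family have the same volume

`F : Fam A d m U`, `K : Kah A`, `U` open and preconnected.
* `mass_leaf`  : `∃ v, Mass F K v ∧ (∀ u ∈ U, mass F K u = v)` (`mass` of helper163's Fub5);
* `mu_univ`    : `F.mu K univ = ofReal (intD F.P det)`, `F.V` compact;
* `leaf_mu`    : `(leaf F hu).mu K univ = ofReal (mass F K u)`;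
* `leaf_mu_const` : `∃ v > 0, ∀ u hu, (leaf F hu).mu K univ = ofReal v`;
* `mapC`, `lintC`, `intC` : the case `m = 1` with integrals over `ℂ`.
-/

set_option autoImplicit false
set_option linter.unusedSectionVars false
set_option linter.style.haveILetI false

open Set Filter Topology Complex Function MeasureTheory
open scoped ContDiff Matrix ComplexConjugate ComplexOrder ENNReal

namespace Crest.Agent.R281.Mass4_519

open Crest.Agent.R275 Crest.Agent.R275.Geo Crest.Agent.R275.Core144 Crest.Agent.R275.EDR890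
open Crest.Agent.R275.Pai323 Crest.Agent.R275.C1d194
open Crest.Agent.R273.Defs_333 Crest.Agent.R273.Kah_333 Crest.Agent.R273.Hess_333
open Crest.Agent.R273.Vol_333 Crest.Agent.R273.Vm_333
open Crest.Agent.R273.StokesV_332 Crest.Agent.R281.S6D_664
open Crest.Agent.R281.Mass2_519 Crest.Agent.R281.Mass3_519
open Crest.Agent.R281.Fub_192 (leaf)
open Crest.Agent.R281.Fub5_163 (mass mass_const_of mass_eq_leaf mass_pos)

noncomputable section

variable {N d m : ℕ} {M : Type} [TopologicalSpace M] {A : Atl N M} {U : Set (Cn m)}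

/-- **all leaves have the same volume** -/
theorem mass_leaf (F : Fam A d m U) (K : Kah A) (hU : IsOpen U) (hc : IsPreconnected U) :
    ∃ v, Mass F K v ∧ ∀ u ∈ U, mass F K u = v := by
  obtain ⟨v, hv⟩ := exists_mass F K hU hc
  refine ⟨v, hv, mass_const_of F hU K fun χ h1 h2 h3 => ?_⟩
  have hs : tsupport (fun u : Cn m => (χ u : ℂ)) ⊆ tsupport χ :=
    closure_mono fun u hu => by
      rw [Function.mem_support] at hu ⊢
      intro h0
      exact hu (by rw [h0, ofReal_zero])
  exact hv.intD_cont (a := fun u => (χ u : ℂ)) (continuous_ofReal.comp h1.continuous)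
    (h2.of_isClosed_subset (isClosed_tsupport _) hs) (hs.trans h3)

/-- the volume of a compact family is the total integral of `det` -/
theorem mu_univ (F : Fam A d m U) [CompactSpace F.V] (K : Kah A) :
    F.mu K univ = ENNReal.ofReal (intD F.P (fun k v => ((F.kah K).g k v).det)).re := by
  letI : MeasurableSpace F.V := borel F.V
  haveI : BorelSpace F.V := ⟨rfl⟩
  have hfin := isFinite_vm (volK (F.kah K))
  have h1 := integral_vm_intD (volK (F.kah K)) F.P (f := fun _ => (1 : ℂ)) (integrable_const _)
    isCompact_univ fun x hx => absurd (mem_univ x) hx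
  have h2 : intD F.P (fun i x => ((volK (F.kah K)).w i x : ℂ) * (1 : ℂ)) =
      intD F.P (fun k v => ((F.kah K).g k v).det) := by
    refine intD_congr F.P fun i x hx => ?_
    rw [mul_one, volK_w (F.kah K) i hx]
  rw [h2, integral_const, Complex.real_smul, mul_one] at h1
  rw [← h1, Complex.ofReal_re, ofReal_measureReal]
  rfl

theorem leaf_mu (F : Fam A d m U) (K : Kah A) {u : Cn m} (hu : u ∈ U) :
    (leaf F hu).mu K univ = ENNReal.ofReal (mass F K u) := by
  rw [mu_univ, ← mass_eq_leaf F K hu, Complex.ofReal_re]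

/-- the volumes of the leaves, in measure form -/
theorem leaf_mu_const (F : Fam A d m U) (K : Kah A) (hU : IsOpen U) (hc : IsPreconnected U)
    (hne : U.Nonempty) :
    ∃ v : ℝ, 0 < v ∧ Mass F K v ∧ (∀ u ∈ U, mass F K u = v) ∧
      ∀ u, ∀ hu : u ∈ U, (leaf F hu).mu K univ = ENNReal.ofReal v := by
  obtain ⟨v, hv, h1⟩ := mass_leaf F K hU hc
  refine ⟨v, hv.pos hne, hv, h1, fun u hu => ?_⟩
  rw [leaf_mu F K hu, h1 u hu]

/-! ### one parameter: integrals over `ℂ` -/

section one

open Crest.Agent.R281.Fub4_163 (ofC mp_ofC ofC_zero_apply integral_ofC)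

variable {U : Set (Cn 1)} {F : Fam A d 1 U} {K : Kah A} {v : ℝ}








end one

end

end Crest.Agent.R281.Mass4_519
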