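import Mathlib
import Crest.Agent.R281.Jen3_563
import Crest.Agent.R281.Pol1_967
import Crest.Agent.R281.S6D_664
import Crest.Agent.R281.D6f_986
import Crest.Agent.R281.S6V7_664
import Crest.Agent.R281.Con5_166
import Crest.Agent.R281.Con1_166
import Crest.Agent.R281.S6V6_664
import Crest.Agent.R281.Fub4_163
import Crest.Agent.R281.Con8_166_Mg
import Crest.Agent.R281.Mass4_519
import Crest.Agent.R281.Fib4_425

-- ▼ part R281/Pol2_967
section

/-!
# R281, DIV 6, (J0) of helper664 #7270 (helper967), part 2: one point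

`exists_pt`: for every point `a`, neighbourhood `W` and `δ > 0` a smooth `p` with compact support in `W`,
`0 ≤ p ≤ 2`, `p ≥ 1` near `a`, `∫ |Δ p| ≤ δ`, `∫ |∇ p|² ≤ δ`.
-/

set_option autoImplicit false

open MeasureTheory Set Filter Topology Metric
open scoped Real ContDiff

noncomputable section
namespace Crest.Agent.R281.Pol_967

open Crest.Agent.R281.Jen_563

/-- the logarithmic potential `(2/T) log (1/(|y-a|² + e^{-T}))` -/
def u (a : ℂ) (T : ℝ) (y : ℂ) : ℝ := -(2 / T) * Real.log (s a (Real.exp (-T / 2)) y)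

section pot

variable {a : ℂ} {T : ℝ}

theorem exp_sq (T : ℝ) : Real.exp (-T / 2) ^ 2 = Real.exp (-T) := by
  rw [← Real.exp_nat_mul]
  congr 1
  push_cast
  ring

theorem smooth_u : ContDiff ℝ ∞ (u a T) := by
  unfold u
  exact contDiff_const.mul ((smooth_s a _).log fun y => (s_pos (Real.exp_pos _) y).ne')

theorem D_const_mul (c : ℝ) {f : ℂ → ℝ} {y : ℂ} (hf : DifferentiableAt ℝ f y) (v : ℂ) :
    D v (fun z => c * f z) y = c * D v f y := by
  have := D_mulAt (f := fun _ => c) (differentiableAt_const c) hf v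
  rw [this, D_const]
  ring

theorem D_u (v y : ℂ) : D v (u a T) y = -(2 / T) * (l a v y / s a (Real.exp (-T / 2)) y) := by
  have hd : DifferentiableAt ℝ (fun z => Real.log (s a (Real.exp (-T / 2)) z)) y :=
    (((smooth_s a _).log fun y => (s_pos (Real.exp_pos _) y).ne').differentiable (by simp)) y
  have h := D_const_mul (-(2 / T)) hd v
  rw [D_log (Real.exp_pos _)] at h
  exact h

theorem lap_const_mul (c : ℝ) {f : ℂ → ℝ} (hf : ContDiff ℝ ∞ f) (y : ℂ) :
    lap (fun z => c * f z) y = c * lap f y := by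
  have h := lap_mulAt (f := fun _ => c) isOpen_univ contDiffOn_const hf.contDiffOn (mem_univ y)
  rw [h, lap_const, D_const, D_const]
  ring

theorem lap_u (y : ℂ) : lap (u a T) y =
    -(2 / T) * (4 * Real.exp (-T / 2) ^ 2 / (s a (Real.exp (-T / 2)) y) ^ 2) := by
  have h := lap_const_mul (-(2 / T)) (f := fun z => Real.log (s a (Real.exp (-T / 2)) z))
    ((smooth_s a _).log fun y => (s_pos (Real.exp_pos _) y).ne') y
  rw [lap_log (Real.exp_pos _)] at h
  exact h

theorem lap_u_nonpos (hT : 0 < T) (y : ℂ) : lap (u a T) y ≤ 0 := by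
  rw [lap_u]
  have h : 0 ≤ 4 * Real.exp (-T / 2) ^ 2 / (s a (Real.exp (-T / 2)) y) ^ 2 := by positivity
  have h2 : 0 ≤ 2 / T := by positivity
  nlinarith [mul_nonneg h2 h]

theorem u_le (hT : 0 < T) (y : ℂ) : u a T y ≤ 2 := by
  unfold u
  have h1 : Real.exp (-T) ≤ s a (Real.exp (-T / 2)) y := by
    rw [s_eq, exp_sq]
    nlinarith [sq_nonneg ‖y - a‖]
  have h2 : -T ≤ Real.log (s a (Real.exp (-T / 2)) y) := by
    have := Real.log_le_log (Real.exp_pos _) h1
    rwa [Real.log_exp] at this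
  have h3 : (2 / T) * (-T) ≤ (2 / T) * Real.log (s a (Real.exp (-T / 2)) y) :=
    mul_le_mul_of_nonneg_left h2 (by positivity)
  have h4 : (2 / T) * (-T) = -2 := by field_simp
  linarith

theorem exp_half_lt (hT : 2 ≤ T) : Real.exp (-T / 2) < 1 / 2 := by
  have h1 : Real.exp (-T / 2) ≤ Real.exp (-1) := Real.exp_le_exp.2 (by linarith)
  have h2 := Real.exp_neg_one_lt_d9
  linarith

theorem exp_lt (hT : 2 ≤ T) : Real.exp (-T) < 1 / 4 := by
  rw [← exp_sq]
  have h1 := exp_half_lt hT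
  have h2 : 0 < Real.exp (-T / 2) := Real.exp_pos _
  nlinarith

theorem u_nonneg (hT : 2 ≤ T) {y : ℂ} (hy : ‖y - a‖ ≤ 1 / 2) : 0 ≤ u a T y := by
  unfold u
  have h1 : s a (Real.exp (-T / 2)) y ≤ 1 := by
    rw [s_eq, exp_sq]
    have := exp_lt hT
    nlinarith [norm_nonneg (y - a)]
  have h2 : Real.log (s a (Real.exp (-T / 2)) y) ≤ 0 :=
    Real.log_nonpos (s_pos (Real.exp_pos _) y).le h1
  have h3 : 0 ≤ 2 / T := by positivity
  nlinarith [mul_nonneg h3 (neg_nonneg.2 h2)]

theorem one_le_u (hT : 2 ≤ T) {y : ℂ} (hy : ‖y - a‖ ≤ Real.exp (-T / 2)) : 1 ≤ u a T y := by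
  unfold u
  have h1 : s a (Real.exp (-T / 2)) y ≤ 2 * Real.exp (-T) := by
    rw [s_eq, exp_sq]
    have := pow_le_pow_left₀ (norm_nonneg (y - a)) hy 2
    rw [exp_sq] at this
    linarith
  have h2 : Real.log (s a (Real.exp (-T / 2)) y) ≤ Real.log 2 + -T := by
    rw [← Real.log_exp (-T), ← Real.log_mul (by norm_num) (Real.exp_pos _).ne']
    simpa using Real.log_le_log (s_pos (Real.exp_pos _) y) h1
  have h3 : Real.log 2 < 1 := by have := Real.log_two_lt_d9; linarith
  have h5 : Real.log (s a (Real.exp (-T / 2)) y) ≤ -(T / 2) := by linarith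
  have h6 : (2 / T) * Real.log (s a (Real.exp (-T / 2)) y) ≤ (2 / T) * (-(T / 2)) :=
    mul_le_mul_of_nonneg_left h5 (by positivity)
  have h4 : (2 / T) * (-(T / 2)) = -1 := by field_simp
  linarith

theorem abs_u_le (hT : 2 ≤ T) {ρ : ℝ} (hρ : 0 < ρ) {y : ℂ} (h0 : ρ / 2 ≤ ‖y - a‖)
    (h1 : ‖y - a‖ ≤ 1 / 2) : |u a T y| ≤ 2 * Real.log (4 / ρ ^ 2) / T := by
  rw [abs_of_nonneg (u_nonneg hT h1)]
  unfold u
  have h2 : ρ ^ 2 / 4 ≤ s a (Real.exp (-T / 2)) y := by
    rw [s_eq]
    have := pow_le_pow_left₀ (by positivity) h0 2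
    have h3 : (ρ / 2) ^ 2 = ρ ^ 2 / 4 := by ring
    nlinarith [sq_nonneg (Real.exp (-T / 2))]
  have h3 : Real.log (ρ ^ 2 / 4) ≤ Real.log (s a (Real.exp (-T / 2)) y) :=
    Real.log_le_log (by positivity) h2
  have h4 : Real.log (ρ ^ 2 / 4) = -Real.log (4 / ρ ^ 2) := by
    rw [← Real.log_inv]
    congr 1
    field_simp
  have h5 : (2 / T) * Real.log (ρ ^ 2 / 4) ≤ (2 / T) * Real.log (s a (Real.exp (-T / 2)) y) :=
    mul_le_mul_of_nonneg_left h3 (by positivity)
  rw [h4] at h5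
  have h6 : 2 * Real.log (4 / ρ ^ 2) / T = (2 / T) * Real.log (4 / ρ ^ 2) := by ring
  linarith

theorem abs_l_le {v : ℂ} (hv : ‖v‖ ≤ 1) (y : ℂ) : |l a v y| ≤ 2 * ‖y - a‖ := by
  have h : l a v y = 2 * ((y - a) * (starRingEnd ℂ) v).re := by
    unfold l
    simp
  rw [h, abs_mul]
  have h1 : |((y - a) * (starRingEnd ℂ) v).re| ≤ ‖y - a‖ * ‖v‖ := by
    refine (Complex.abs_re_le_norm _).trans ?_
    rw [norm_mul]
    simp
  have h2 : ‖y - a‖ * ‖v‖ ≤ ‖y - a‖ := mul_le_of_le_one_right (norm_nonneg _) hv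
  have h3 : |(2 : ℝ)| = 2 := by norm_num
  rw [h3]
  linarith

theorem abs_D_u_le (hT : 2 ≤ T) {ρ : ℝ} (hρ : 0 < ρ) {v y : ℂ} (hv : ‖v‖ ≤ 1)
    (h0 : ρ / 2 ≤ ‖y - a‖) : |D v (u a T) y| ≤ 8 / ρ / T := by
  have hn : 0 < ‖y - a‖ := lt_of_lt_of_le (by positivity) h0
  rw [D_u, abs_mul, abs_div, abs_neg, abs_of_nonneg (show (0 : ℝ) ≤ 2 / T by positivity),
    abs_of_pos (s_pos (Real.exp_pos _) y)]
  have h1 : ‖y - a‖ ^ 2 ≤ s a (Real.exp (-T / 2)) y := by
    rw [s_eq]; nlinarith [sq_nonneg (Real.exp (-T / 2))]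
  have h2 : |l a v y| / s a (Real.exp (-T / 2)) y ≤ 4 / ρ := by
    rw [div_le_div_iff₀ (s_pos (Real.exp_pos _) y) hρ]
    have h3 := abs_l_le (a := a) hv y
    have h4 : ‖y - a‖ * ρ ≤ 2 * ‖y - a‖ ^ 2 := by nlinarith
    have h5 : |l a v y| * ρ ≤ 2 * ‖y - a‖ * ρ := mul_le_mul_of_nonneg_right h3 hρ.le
    linarith
  calc 2 / T * (|l a v y| / s a (Real.exp (-T / 2)) y) ≤ 2 / T * (4 / ρ) :=
        mul_le_mul_of_nonneg_left h2 (by positivity)
    _ = 8 / ρ / T := by ring

end pot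

/-- **one point** -/
theorem exists_pt (a : ℂ) {W : Set ℂ} (hW : IsOpen W) (ha : a ∈ W) {δ : ℝ} (hδ : 0 < δ) :
    ∃ p : ℂ → ℝ, ContDiff ℝ ∞ p ∧ HasCompactSupport p ∧ tsupport p ⊆ W ∧ (∀ y, 0 ≤ p y) ∧
      (∀ y, p y ≤ 2) ∧ (∀ᶠ y in 𝓝 a, 1 ≤ p y) ∧ ∫ y, |lap p y| ≤ δ ∧ ∫ y, gs p y ≤ δ := by
  obtain ⟨ρ₀, hρ₀, hρW⟩ := Metric.isOpen_iff.1 hW a ha
  set ρ : ℝ := min (ρ₀ / 2) (1 / 2) with hρd
  have hρ : 0 < ρ := by positivity
  have hρ2 : ρ ≤ 1 / 2 := min_le_right _ _
  have hρW' : closedBall a ρ ⊆ W :=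
    (closedBall_subset_ball (lt_of_le_of_lt (min_le_left _ _) (by linarith))).trans hρW
  let χ : ContDiffBump a := ⟨ρ / 2, ρ, by positivity, by linarith⟩
  have hχ : ContDiff ℝ ∞ (χ : ℂ → ℝ) := χ.contDiff
  have hχc : HasCompactSupport (χ : ℂ → ℝ) := χ.hasCompactSupport
  have hχt : tsupport (χ : ℂ → ℝ) = closedBall a ρ := χ.tsupport_eq
  have hχ0 : ∀ y, 0 ≤ χ y := fun y => χ.nonneg
  have hχ1 : ∀ y, χ y ≤ 1 := fun y => χ.le_one
  -- bounds
  obtain ⟨A1, hA1⟩ := (cpt_D hχc 1).exists_bound_of_continuous (smooth_D hχ 1).continuous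
  obtain ⟨A2, hA2⟩ := (cpt_D hχc Complex.I).exists_bound_of_continuous
    (smooth_D hχ Complex.I).continuous
  obtain ⟨A3, hA3⟩ := (cpt_lap hχc).exists_bound_of_continuous (smooth_lap hχ).continuous
  set A : ℝ := max A1 (max A2 A3) with hA
  have hA1' : ∀ y, |D 1 χ y| ≤ A := fun y => (hA1 y).trans (le_max_left _ _)
  have hA2' : ∀ y, |D Complex.I χ y| ≤ A := fun y =>
    (hA2 y).trans ((le_max_left _ _).trans (le_max_right _ _))
  have hA3' : ∀ y, |lap χ y| ≤ A := fun y =>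
    (hA3 y).trans ((le_max_right _ _).trans (le_max_right _ _))
  have hA0 : 0 ≤ A := (abs_nonneg _).trans (hA1' a)
  set B : ℝ := Real.log (4 / ρ ^ 2) with hB
  have hB0 : 0 ≤ B := Real.log_nonneg (by
    rw [le_div_iff₀ (by positivity)]
    nlinarith)
  set V : ℝ := volume.real (closedBall a ρ) with hV
  have hV0 : 0 ≤ V := measureReal_nonneg
  set C : ℝ := (32 * A / ρ + 2 * A * B) + 2 * A * B with hC
  have hC0 : 0 ≤ C := by positivity
  -- the parameter
  set T : ℝ := max 2 (2 * (C * V) / δ) with hTd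
  have hT2 : 2 ≤ T := le_max_left _ _
  have hT0 : 0 < T := by linarith
  have hTδ : 2 * (C * V / T) ≤ δ := by
    have h1 : 2 * (C * V) / δ ≤ T := le_max_right _ _
    rw [div_le_iff₀ hδ] at h1
    have h2 : 2 * (C * V / T) = 2 * (C * V) / T := by ring
    rw [h2, div_le_iff₀ hT0]
    linarith
  have hu := smooth_u (a := a) (T := T)
  set p : ℂ → ℝ := fun y => χ y * u a T y with hp
  have hps : ContDiff ℝ ∞ p := hχ.mul hu
  have hpc : HasCompactSupport p := hχc.mul_right
  have hpt : tsupport p ⊆ closedBall a ρ := by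
    rw [← hχt]
    exact tsupport_mul_subset_left
  have near0 : ∀ y, y ∈ closedBall a ρ → ‖y - a‖ ≤ 1 / 2 := fun y hy => by
    have : ‖y - a‖ ≤ ρ := by simpa [dist_eq_norm] using hy
    linarith
  have hp0 : ∀ y, 0 ≤ p y := by
    intro y
    by_cases hy : y ∈ closedBall a ρ
    · exact mul_nonneg (hχ0 y) (u_nonneg hT2 (near0 y hy))
    · have : χ y = 0 := image_eq_zero_of_notMem_tsupport (by rw [hχt]; exact hy)
      simp [hp, this]
  have hp2 : ∀ y, p y ≤ 2 := by
    intro y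
    by_cases hy : y ∈ closedBall a ρ
    · calc χ y * u a T y ≤ 1 * u a T y :=
            mul_le_mul_of_nonneg_right (hχ1 y) (u_nonneg hT2 (near0 y hy))
        _ ≤ 2 := by rw [one_mul]; exact u_le hT0 y
    · have : χ y = 0 := image_eq_zero_of_notMem_tsupport (by rw [hχt]; exact hy)
      simp [hp, this]
  have hp1 : ∀ᶠ y in 𝓝 a, 1 ≤ p y := by
    have h1 : ∀ᶠ y in 𝓝 a, y ∈ closedBall a (ρ / 2) :=
      closedBall_mem_nhds a (by positivity)
    have h2 : ∀ᶠ y in 𝓝 a, y ∈ closedBall a (Real.exp (-T / 2)) :=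
      closedBall_mem_nhds a (Real.exp_pos _)
    filter_upwards [h1, h2] with y hy1 hy2
    have h3 : χ y = 1 := χ.one_of_mem_closedBall hy1
    have h4 : ‖y - a‖ ≤ Real.exp (-T / 2) := by simpa [dist_eq_norm] using hy2
    simp only [hp, h3, one_mul]
    exact one_le_u hT2 h4
  -- the annulus
  have ann : ∀ y, |2 * (D 1 χ y * D 1 (u a T) y + D Complex.I χ y * D Complex.I (u a T) y) +
      lap χ y * u a T y| ≤ (closedBall a ρ).indicator (fun _ => (32 * A / ρ + 2 * A * B) / T) y := by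
    intro y
    by_cases hy : y ∈ closedBall a ρ
    · rw [indicator_of_mem hy]
      by_cases hy2 : y ∈ ball a (ρ / 2)
      · have e : (χ : ℂ → ℝ) =ᶠ[𝓝 y] fun _ => 1 := by
          filter_upwards [isOpen_ball.mem_nhds hy2] with z hz
          exact χ.one_of_mem_closedBall (ball_subset_closedBall hz)
        rw [D_congr e, D_congr e, lap_congr e, D_const, D_const, lap_const]
        simp only [zero_mul, add_zero, mul_zero, abs_zero]
        positivity
      · have h0 : ρ / 2 ≤ ‖y - a‖ := by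
          by_contra h
          exact hy2 (by simpa [dist_eq_norm] using not_le.1 h)
        have k1 := abs_D_u_le (a := a) hT2 hρ (v := 1) (by simp) h0
        have k2 := abs_D_u_le (a := a) hT2 hρ (v := Complex.I) (by simp) h0
        have k3 := abs_u_le (a := a) hT2 hρ h0 (near0 y hy)
        have m1 : |D 1 χ y * D 1 (u a T) y| ≤ A * (8 / ρ / T) := by
          rw [abs_mul]; exact mul_le_mul (hA1' y) k1 (abs_nonneg _) hA0
        have m2 : |D Complex.I χ y * D Complex.I (u a T) y| ≤ A * (8 / ρ / T) := by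
          rw [abs_mul]; exact mul_le_mul (hA2' y) k2 (abs_nonneg _) hA0
        have m3 : |lap χ y * u a T y| ≤ A * (2 * B / T) := by
          rw [abs_mul]; exact mul_le_mul (hA3' y) k3 (abs_nonneg _) hA0
        have e : (32 * A / ρ + 2 * A * B) / T =
            2 * (A * (8 / ρ / T) + A * (8 / ρ / T)) + A * (2 * B / T) := by ring
        rw [e]
        refine (abs_add_le _ _).trans (add_le_add ?_ m3)
        rw [abs_mul, abs_of_pos (show (0 : ℝ) < 2 by norm_num)]
        exact mul_le_mul_of_nonneg_left ((abs_add_le _ _).trans (add_le_add m1 m2)) (by norm_num)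
    · have hy' : y ∉ tsupport (χ : ℂ → ℝ) := by rw [hχt]; exact hy
      rw [D_zero_off hy', D_zero_off hy', lap_zero_off hy', indicator_of_notMem hy]
      simp
  have hfin : volume (closedBall a ρ) ≠ ⊤ := measure_closedBall_lt_top.ne
  have iind : ∀ c : ℝ, Integrable ((closedBall a ρ).indicator fun _ : ℂ => c) := fun c =>
    (integrable_indicator_iff measurableSet_closedBall).2
      (integrableOn_const hfin)
  have cind : ∀ c : ℝ, ∫ y, (closedBall a ρ).indicator (fun _ : ℂ => c) y = V * c := fun c => by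
    rw [integral_indicator measurableSet_closedBall, setIntegral_const, smul_eq_mul]
  have ilu : Integrable fun y => lap (u a T) y * χ y :=
    ((smooth_lap hu).mul hχ).continuous.integrable_of_hasCompactSupport hχc.mul_left
  have ilun : Integrable fun y => -(lap (u a T) y * χ y) := ilu.neg
  -- the main term
  have hmain : -∫ y, lap (u a T) y * χ y ≤ V * (2 * A * B / T) := by
    rw [green (U := univ) isOpen_univ (G := u a T) (ψ := χ) ((hu.of_le two_le).contDiffOn)
      (hχ.of_le two_le) hχc (subset_univ _), ← integral_neg, ← cind]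
    refine integral_mono ?_ (iind _) fun y => ?_
    · exact ((hu.mul (smooth_lap hχ)).continuous.integrable_of_hasCompactSupport
        (cpt_lap hχc).mul_left).neg
    · show -(u a T y * lap χ y) ≤ _
      by_cases hy : y ∈ closedBall a ρ
      · rw [indicator_of_mem hy]
        by_cases hy2 : y ∈ ball a (ρ / 2)
        · have e : (χ : ℂ → ℝ) =ᶠ[𝓝 y] fun _ => 1 := by
            filter_upwards [isOpen_ball.mem_nhds hy2] with z hz
            exact χ.one_of_mem_closedBall (ball_subset_closedBall hz)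
          rw [lap_congr e, lap_const]
          simp only [mul_zero, neg_zero]
          positivity
        · have h0 : ρ / 2 ≤ ‖y - a‖ := by
            by_contra h
            exact hy2 (by simpa [dist_eq_norm] using not_le.1 h)
          have k3 := abs_u_le (a := a) hT2 hρ h0 (near0 y hy)
          calc -(u a T y * lap χ y) ≤ |u a T y * lap χ y| := neg_le_abs _
            _ = |u a T y| * |lap χ y| := abs_mul _ _
            _ ≤ (2 * B / T) * A := mul_le_mul k3 (hA3' y) (abs_nonneg _) (by positivity)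
            _ = 2 * A * B / T := by ring
      · have hy' : y ∉ tsupport (χ : ℂ → ℝ) := by rw [hχt]; exact hy
        rw [lap_zero_off hy', indicator_of_notMem hy]
        simp
  have hlap : ∫ y, |lap p y| ≤ C * V / T := by
    have hpt' : ∀ y, |lap p y| ≤ -(lap (u a T) y * χ y) +
        (closedBall a ρ).indicator (fun _ => (32 * A / ρ + 2 * A * B) / T) y := by
      intro y
      have h1 : lap p y = χ y * lap (u a T) y +
          (2 * (D 1 χ y * D 1 (u a T) y + D Complex.I χ y * D Complex.I (u a T) y) +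
            lap χ y * u a T y) := by
        rw [hp, lap_mulAt isOpen_univ hχ.contDiffOn hu.contDiffOn (mem_univ y)]
        ring
      rw [h1]
      refine (abs_add_le _ _).trans (add_le_add ?_ (ann y))
      rw [abs_mul, abs_of_nonneg (hχ0 y), abs_of_nonpos (lap_u_nonpos hT0 y)]
      apply le_of_eq
      ring
    calc ∫ y, |lap p y| ≤ ∫ y, (-(lap (u a T) y * χ y) +
        (closedBall a ρ).indicator (fun _ => (32 * A / ρ + 2 * A * B) / T) y) :=
          integral_mono (int_lap hps hpc).abs (ilun.add (iind _)) hpt'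
      _ = (-∫ y, lap (u a T) y * χ y) + V * ((32 * A / ρ + 2 * A * B) / T) := by
          rw [integral_add ilun (iind _), cind, integral_neg]
      _ ≤ V * (2 * A * B / T) + V * ((32 * A / ρ + 2 * A * B) / T) := by linarith
      _ = C * V / T := by rw [hC]; ring
  refine ⟨p, hps, hpc, hpt.trans hρW', hp0, hp2, hp1, ?_, ?_⟩
  · have : 0 ≤ C * V / T := by positivity
    linarith
  · have h := int_gs_le hps hpc (B := 2) fun y => by rw [abs_of_nonneg (hp0 y)]; exact hp2 y
    linarith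

end Crest.Agent.R281.Pol_967
end
end

-- ▼ part R281/Pol3_967
section

/-!
# R281, DIV 6, (J0) of helper664 #7270 (helper967), part 3: compact countable sets are polar

`Pol E`: for every `ε > 0` and every neighbourhood `W` of `E` there is a smooth `η` with compact support in `W`,
`0 ≤ η ≤ 1`, `η = 1` near `E`, `∫ |Δ η| ≤ ε`, `∫ |∇ η|² ≤ ε`, `∫ η ≤ ε`.
`pol_of_countable`: compact countable sets are `Pol`.
-/

set_option autoImplicit false

open MeasureTheory Set Filter Topology Metric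
open scoped Real ContDiff

noncomputable section
namespace Crest.Agent.R281.Pol_967

open Crest.Agent.R281.Jen_563

/-- cut-offs with small energy and small Laplacian (in `L¹`) at `E`; `gs η = |∇ η|²` -/
def Pol (E : Set ℂ) : Prop :=
  ∀ ε : ℝ, 0 < ε → ∀ W : Set ℂ, IsOpen W → E ⊆ W → ∃ η : ℂ → ℝ, ContDiff ℝ ∞ η ∧ HasCompactSupport η ∧
    tsupport η ⊆ W ∧ (∀ y, 0 ≤ η y) ∧ (∀ y, η y ≤ 1) ∧ (∀ᶠ y in 𝓝ˢ E, η y = 1) ∧
    ∫ y, |lap η y| ≤ ε ∧ ∫ y, gs η y ≤ ε ∧ ∫ y, η y ≤ ε

theorem Pol.mono {E E' : Set ℂ} (h : Pol E) (hE : E' ⊆ E) (hW : ∀ W, IsOpen W → E' ⊆ W → E ⊆ W) :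
    Pol E' := fun ε hε W hW1 hW2 => by
  obtain ⟨η, h1, h2, h3, h4, h5, h6, h7⟩ := h ε hε W hW1 (hW W hW1 hW2)
  exact ⟨η, h1, h2, h3, h4, h5, h6.filter_mono (nhdsSet_mono hE), h7⟩

section comp

variable {f : ℂ → ℝ} {Φ : ℝ → ℝ}

theorem D_compAt {y : ℂ} (hΦ : DifferentiableAt ℝ Φ (f y)) (hf : DifferentiableAt ℝ f y) (v : ℂ) :
    D v (fun z => Φ (f z)) y = deriv Φ (f y) * D v f y := by
  unfold D
  have h : HasFDerivAt (fun z => Φ (f z)) (deriv Φ (f y) • fderiv ℝ f y) y :=
    hΦ.hasDerivAt.comp_hasFDerivAt y hf.hasFDerivAt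
  rw [h.fderiv]
  simp

theorem smooth_deriv (hΦ : ContDiff ℝ ∞ Φ) : ContDiff ℝ ∞ (deriv Φ) := by
  have h : ContDiff ℝ (∞ + 1) Φ := by simpa using hΦ
  exact ((contDiff_succ_iff_deriv (n := ∞)).1 h).2.2

theorem lap_comp (hΦ : ContDiff ℝ ∞ Φ) (hf : ContDiff ℝ ∞ f) (y : ℂ) :
    lap (fun z => Φ (f z)) y = deriv Φ (f y) * lap f y + deriv (deriv Φ) (f y) * gs f y := by
  have hΦ' := smooth_deriv hΦ
  have key : ∀ v, D v (D v (fun z => Φ (f z))) y =
      deriv Φ (f y) * D v (D v f) y + deriv (deriv Φ) (f y) * D v f y ^ 2 := by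
    intro v
    have e : D v (fun z => Φ (f z)) = fun z => deriv Φ (f z) * D v f z := by
      funext z
      exact D_compAt (hΦ.differentiable (by simp) _) (hf.differentiable (by simp) z) v
    have hd : Differentiable ℝ (fun z => deriv Φ (f z)) :=
      (hΦ'.differentiable (by simp)).comp (hf.differentiable (by simp))
    rw [e, D_mulAt (hd y) ((smooth_D hf v).differentiable (by simp) y),
      D_compAt (hΦ'.differentiable (by simp) _) (hf.differentiable (by simp) y)]
    ring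
  unfold lap gs
  rw [key 1, key Complex.I]
  ring

theorem gs_comp (hΦ : ContDiff ℝ ∞ Φ) (hf : ContDiff ℝ ∞ f) (y : ℂ) :
    gs (fun z => Φ (f z)) y = deriv Φ (f y) ^ 2 * gs f y := by
  unfold gs
  rw [D_compAt (hΦ.differentiable (by simp) _) (hf.differentiable (by simp) y),
    D_compAt (hΦ.differentiable (by simp) _) (hf.differentiable (by simp) y)]
  ring

/-- the transition function has bounded derivatives -/
theorem exists_bound_trans : ∃ M : ℝ, 1 ≤ M ∧ (∀ t, |deriv Real.smoothTransition t| ≤ M) ∧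
    ∀ t, |deriv (deriv Real.smoothTransition) t| ≤ M := by
  have h0 : ContDiff ℝ ∞ Real.smoothTransition := Real.smoothTransition.contDiff
  have h1 := smooth_deriv h0
  have h2 := smooth_deriv h1
  have z1 : ∀ t, t ∉ Icc (0 : ℝ) 1 → deriv Real.smoothTransition t = 0 := by
    intro t ht
    rcases lt_or_ge t 0 with h | h
    · have e : Real.smoothTransition =ᶠ[𝓝 t] fun _ => 0 := by
        filter_upwards [gt_mem_nhds h] with x hx
        exact Real.smoothTransition.zero_of_nonpos hx.le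
      rw [e.deriv_eq]
      simp
    · have h' : 1 < t := by
        by_contra h3
        exact ht ⟨h, not_lt.1 h3⟩
      have e : Real.smoothTransition =ᶠ[𝓝 t] fun _ => 1 := by
        filter_upwards [lt_mem_nhds h'] with x hx
        exact Real.smoothTransition.one_of_one_le hx.le
      rw [e.deriv_eq]
      simp
  have t1 : tsupport (deriv Real.smoothTransition) ⊆ Icc (0 : ℝ) 1 :=
    closure_minimal (fun t ht => by
      by_contra h
      exact ht (z1 t h)) isClosed_Icc
  have c1 : HasCompactSupport (deriv Real.smoothTransition) :=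
    IsCompact.of_isClosed_subset isCompact_Icc (isClosed_tsupport _) t1
  have c2 : HasCompactSupport (deriv (deriv Real.smoothTransition)) := c1.deriv
  obtain ⟨M1, hM1⟩ := c1.exists_bound_of_continuous h1.continuous
  obtain ⟨M2, hM2⟩ := c2.exists_bound_of_continuous h2.continuous
  exact ⟨max 1 (max M1 M2), le_max_left _ _,
    fun t => (hM1 t).trans ((le_max_left _ _).trans (le_max_right _ _)),
    fun t => (hM2 t).trans ((le_max_right _ _).trans (le_max_right _ _))⟩

end comp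

section sums

variable {ι : Type*} (F : Finset ι) (p : ι → ℂ → ℝ)

theorem smooth_sum (hp : ∀ i, ContDiff ℝ ∞ (p i)) : ContDiff ℝ ∞ fun y => ∑ i ∈ F, p i y :=
  ContDiff.sum fun i _ => hp i

theorem D_sum (hp : ∀ i, ContDiff ℝ ∞ (p i)) (v y : ℂ) :
    D v (fun z => ∑ i ∈ F, p i z) y = ∑ i ∈ F, D v (p i) y := by
  unfold D
  have h : HasFDerivAt (fun z => ∑ i ∈ F, p i z) (∑ i ∈ F, fderiv ℝ (p i) y) y :=
    HasFDerivAt.fun_sum fun i _ => ((hp i).differentiable (by simp) y).hasFDerivAt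
  rw [h.fderiv]
  simp

theorem lap_sum (hp : ∀ i, ContDiff ℝ ∞ (p i)) (y : ℂ) :
    lap (fun z => ∑ i ∈ F, p i z) y = ∑ i ∈ F, lap (p i) y := by
  unfold lap
  have e : ∀ v, D v (fun z => ∑ i ∈ F, p i z) = fun z => ∑ i ∈ F, D v (p i) z := fun v =>
    funext fun z => D_sum F p hp v z
  rw [e, e, D_sum F _ (fun i => smooth_D (hp i) 1), D_sum F _ (fun i => smooth_D (hp i) Complex.I),
    ← Finset.sum_add_distrib]

theorem gs_sum_le (hp : ∀ i, ContDiff ℝ ∞ (p i)) {w : ι → ℝ} (hw : ∀ i, 0 < w i)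
    (hw1 : ∑ i ∈ F, w i ≤ 1) (y : ℂ) :
    gs (fun z => ∑ i ∈ F, p i z) y ≤ ∑ i ∈ F, (w i)⁻¹ * gs (p i) y := by
  have key : ∀ v, D v (fun z => ∑ i ∈ F, p i z) y ^ 2 ≤ ∑ i ∈ F, (w i)⁻¹ * D v (p i) y ^ 2 := by
    intro v
    rw [D_sum F p hp]
    have h := Finset.sum_sq_le_sum_mul_sum_of_sq_le_mul F (r := fun i => D v (p i) y)
      (f := w) (g := fun i => (w i)⁻¹ * D v (p i) y ^ 2) (fun i _ => (hw i).le)
      (fun i _ => mul_nonneg (inv_nonneg.2 (hw i).le) (sq_nonneg _)) (fun i _ => by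
        have := (hw i).ne'
        apply le_of_eq
        field_simp)
    refine h.trans ?_
    exact mul_le_of_le_one_left (Finset.sum_nonneg fun i _ =>
      mul_nonneg (inv_nonneg.2 (hw i).le) (sq_nonneg _)) hw1
  unfold gs
  refine (add_le_add (key 1) (key Complex.I)).trans (le_of_eq ?_)
  rw [← Finset.sum_add_distrib]
  refine Finset.sum_congr rfl fun i _ => ?_
  ring

theorem sum_half_le {ι : Type*} (F : Finset ι) {n : ι → ℕ} (hn : Function.Injective n) :
    ∑ i ∈ F, (1 / 2 : ℝ) ^ (n i + 1) ≤ 1 := by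
  have h1 : ∑ i ∈ F, (1 / 2 : ℝ) ^ (n i + 1) = ∑ k ∈ F.map ⟨n, hn⟩, (1 / 2 : ℝ) ^ (k + 1) := by
    rw [Finset.sum_map]
    rfl
  have h2 : ∑ k ∈ F.map ⟨n, hn⟩, (1 / 2 : ℝ) ^ (k + 1) =
      (1 / 2) * ∑ k ∈ F.map ⟨n, hn⟩, (1 / 2 : ℝ) ^ k := by
    rw [Finset.mul_sum]
    refine Finset.sum_congr rfl fun k _ => ?_
    rw [pow_succ]
    ring
  have h3 : ∑ k ∈ F.map ⟨n, hn⟩, (1 / 2 : ℝ) ^ k ≤ 2 := by
    have h4 := summable_geometric_two.sum_le_tsum (F.map ⟨n, hn⟩) fun k _ => by positivity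
    rwa [tsum_geometric_two] at h4
  rw [h1, h2]
  linarith

end sums

/-- **compact countable sets are polar** -/
theorem pol_of_countable {E : Set ℂ} (hE : IsCompact E) (hc : E.Countable) : Pol E := by
  intro ε hε W hW hEW
  obtain ⟨R, hR0, hR⟩ : ∃ R : ℝ, 0 < R ∧ E ⊆ ball 0 R := by
    obtain ⟨R, hR⟩ := hE.isBounded.subset_ball 0
    exact ⟨max R 1, by positivity, hR.trans (ball_subset_ball (le_max_left _ _))⟩
  obtain ⟨M, hM1, hMa, hMb⟩ := exists_bound_trans
  have hM0 : 0 < M := by linarith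
  set K : ℝ := 2 * M + M ^ 2 + R ^ 2 / 4 * (2 * M) with hK
  have hK0 : 0 < K := by positivity
  set δ : ℝ := ε / K with hδd
  have hδ : 0 < δ := by positivity
  have hδK : K * δ = ε := by rw [hδd]; field_simp
  let _ : Encodable E := hc.toEncodable
  have hWR : IsOpen (W ∩ ball 0 R) := hW.inter isOpen_ball
  choose p hps hpc hpt hp0 hp2 hp1 hpl hpg using fun a : E =>
    exists_pt (a : ℂ) hWR ⟨hEW a.2, hR a.2⟩ (δ := δ * (1 / 4) ^ (Encodable.encode a + 1)) (by positivity)
  -- finite subcover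
  obtain ⟨F, hF⟩ : ∃ F : Finset E, E ⊆ ⋃ a ∈ F, interior {y | 1 ≤ p a y} := by
    refine hE.elim_finite_subcover (fun a : E => interior {y | 1 ≤ p a y}) (fun a => isOpen_interior) ?_
    intro x hx
    exact mem_iUnion.2 ⟨⟨x, hx⟩, mem_interior_iff_mem_nhds.2 (hp1 ⟨x, hx⟩)⟩
  set P : ℂ → ℝ := fun y => ∑ a ∈ F, p a y with hP
  have hPs : ContDiff ℝ ∞ P := smooth_sum F p hps
  have hPt : tsupport P ⊆ ⋃ a ∈ F, tsupport (p a) := by
    refine closure_minimal ?_ (isClosed_biUnion_finset fun a _ => isClosed_tsupport _)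
    intro y hy
    by_contra h
    refine hy (Finset.sum_eq_zero fun a ha => ?_)
    exact image_eq_zero_of_notMem_tsupport fun h' => h (mem_biUnion ha h')
  have hPt' : tsupport P ⊆ W ∩ ball 0 R := hPt.trans (iUnion₂_subset fun a _ => hpt a)
  have hPc : HasCompactSupport P :=
    IsCompact.of_isClosed_subset (F.isCompact_biUnion fun a _ => hpc a) (isClosed_tsupport _) hPt
  have hP0 : ∀ y, 0 ≤ P y := fun y => Finset.sum_nonneg fun a _ => hp0 a y
  set w : E → ℝ := fun a => (1 / 2) ^ (Encodable.encode a + 1) with hwd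
  have hw : ∀ a, 0 < w a := fun a => by positivity
  have hw1 : ∑ a ∈ F, w a ≤ 1 := sum_half_le F Encodable.encode_injective
  have hw4 : ∀ a : E, (1 / 4 : ℝ) ^ (Encodable.encode a + 1) = w a ^ 2 := fun a => by
    rw [hwd]
    simp only
    rw [← pow_mul, mul_comm, pow_mul]
    norm_num
  have hwle : ∀ a, w a ≤ 1 := fun a => pow_le_one₀ (by norm_num) (by norm_num)
  have hPlap : ∫ y, |lap P y| ≤ δ := by
    calc ∫ y, |lap P y| ≤ ∫ y, ∑ a ∈ F, |lap (p a) y| := by
          refine integral_mono (int_lap hPs hPc).abs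
            (integrable_finsetSum _ fun a _ => (int_lap (hps a) (hpc a)).abs) fun y => ?_
          simp only [hP]
          rw [lap_sum F p hps]
          exact Finset.abs_sum_le_sum_abs _ _
      _ = ∑ a ∈ F, ∫ y, |lap (p a) y| :=
          integral_finsetSum _ fun a _ => (int_lap (hps a) (hpc a)).abs
      _ ≤ ∑ a ∈ F, δ * w a := by
          refine Finset.sum_le_sum fun a _ => (hpl a).trans ?_
          rw [hw4]
          refine mul_le_mul_of_nonneg_left ?_ hδ.le
          rw [sq]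
          exact mul_le_of_le_one_left (hw a).le (hwle a)
      _ = δ * ∑ a ∈ F, w a := by rw [Finset.mul_sum]
      _ ≤ δ := mul_le_of_le_one_right hδ.le hw1
  have hPgs : ∫ y, gs P y ≤ δ := by
    calc ∫ y, gs P y ≤ ∫ y, ∑ a ∈ F, (w a)⁻¹ * gs (p a) y := by
          refine integral_mono (int_gs hPs hPc)
            (integrable_finsetSum _ fun a _ => (int_gs (hps a) (hpc a)).const_mul _) fun y => ?_
          exact gs_sum_le F p hps hw hw1 y
      _ = ∑ a ∈ F, (w a)⁻¹ * ∫ y, gs (p a) y := by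
          rw [integral_finsetSum _ fun a _ => (int_gs (hps a) (hpc a)).const_mul _]
          refine Finset.sum_congr rfl fun a _ => ?_
          rw [integral_const_mul]
      _ ≤ ∑ a ∈ F, δ * w a := by
          refine Finset.sum_le_sum fun a _ => ?_
          have h1 := mul_le_mul_of_nonneg_left (hpg a) (inv_nonneg.2 (hw a).le)
          refine h1.trans (le_of_eq ?_)
          rw [hw4]
          have := (hw a).ne'
          field_simp
      _ = δ * ∑ a ∈ F, w a := by rw [Finset.mul_sum]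
      _ ≤ δ := mul_le_of_le_one_right hδ.le hw1
  -- the cut-off
  have hT : ContDiff ℝ ∞ Real.smoothTransition := Real.smoothTransition.contDiff
  set η : ℂ → ℝ := fun y => Real.smoothTransition (P y) with hη
  have hηs : ContDiff ℝ ∞ η := hT.comp hPs
  have hηt : tsupport η ⊆ tsupport P := by
    refine closure_mono fun y hy => ?_
    intro h
    exact hy (by simp only [hη, h]; exact Real.smoothTransition.zero_of_nonpos le_rfl)
  have hηc : HasCompactSupport η := IsCompact.of_isClosed_subset hPc (isClosed_tsupport _) hηt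
  have hηlap : ∫ y, |lap η y| ≤ 2 * M * δ := by
    calc ∫ y, |lap η y| ≤ ∫ y, (M * |lap P y| + M * gs P y) := by
          refine integral_mono (int_lap hηs hηc).abs
            (((int_lap hPs hPc).abs.const_mul M).add ((int_gs hPs hPc).const_mul M)) fun y => ?_
          simp only [hη]
          rw [lap_comp hT hPs]
          refine (abs_add_le _ _).trans (add_le_add ?_ ?_)
          · rw [abs_mul]
            exact mul_le_mul_of_nonneg_right (hMa _) (abs_nonneg _)
          · rw [abs_mul, abs_of_nonneg (gs_nonneg P y)]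
            exact mul_le_mul_of_nonneg_right (hMb _) (gs_nonneg P y)
      _ = M * (∫ y, |lap P y|) + M * (∫ y, gs P y) := by
          rw [integral_add ((int_lap hPs hPc).abs.const_mul M) ((int_gs hPs hPc).const_mul M),
            integral_const_mul, integral_const_mul]
      _ ≤ 2 * M * δ := by nlinarith
  have hηgs : ∫ y, gs η y ≤ M ^ 2 * δ := by
    calc ∫ y, gs η y ≤ ∫ y, M ^ 2 * gs P y := by
          refine integral_mono (int_gs hηs hηc) ((int_gs hPs hPc).const_mul _) fun y => ?_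
          simp only [hη]
          rw [gs_comp hT hPs]
          refine mul_le_mul_of_nonneg_right ?_ (gs_nonneg P y)
          rw [← sq_abs]
          exact pow_le_pow_left₀ (abs_nonneg _) (hMa _) 2
      _ = M ^ 2 * ∫ y, gs P y := integral_const_mul _ _
      _ ≤ M ^ 2 * δ := mul_le_mul_of_nonneg_left hPgs (by positivity)
  have hηint : ∫ y, η y ≤ R ^ 2 / 4 * (2 * M) * δ := by
    have h := int_le_lap hηs hηc (a := 0) (R := R)
      ((hηt.trans hPt').trans (inter_subset_right.trans ball_subset_closedBall))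
    refine h.trans ?_
    rw [mul_assoc]
    exact mul_le_mul_of_nonneg_left hηlap (by positivity)
  have hle : ∀ c : ℝ, c ≤ K → c * δ ≤ ε := fun c hcK => by
    rw [← hδK]
    exact mul_le_mul_of_nonneg_right hcK hδ.le
  refine ⟨η, hηs, hηc, (hηt.trans hPt').trans inter_subset_left,
    fun y => Real.smoothTransition.nonneg _, fun y => Real.smoothTransition.le_one _, ?_, ?_, ?_, ?_⟩
  · have hO : IsOpen (⋃ a ∈ F, interior {y | 1 ≤ p a y}) :=
      isOpen_biUnion fun a _ => isOpen_interior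
    filter_upwards [hO.mem_nhdsSet.2 hF] with y hy
    obtain ⟨a, haF, hya⟩ := mem_iUnion₂.1 hy
    refine Real.smoothTransition.one_of_one_le ?_
    have h1 : y ∈ {y | 1 ≤ p a y} := interior_subset hya
    exact le_trans h1 (Finset.single_le_sum (f := fun a => p a y) (fun b _ => hp0 b y) haF)
  · exact hηlap.trans (hle _ (by rw [hK]; nlinarith [sq_nonneg M, mul_nonneg (sq_nonneg R) hM0.le]))
  · exact hηgs.trans (hle _ (by rw [hK]; nlinarith [sq_nonneg M, mul_nonneg (sq_nonneg R) hM0.le]))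
  · exact hηint.trans (hle _ (by rw [hK]; nlinarith [sq_nonneg M, mul_nonneg (sq_nonneg R) hM0.le]))

end Crest.Agent.R281.Pol_967
end
end

-- ▼ part R281/Pol4_967
section

/-!
# R281, DIV 6, (P1) of helper664 #7402 (helper967): calculus of `S6D_664.Pol`

* `lapC_eq`, `grC_eq`, `pol_iff` : `S6D_664.Pol = Pol_967.Pol`
* `pol_countable`     : compact countable sets
* `Pol.union`, `Pol.mono_compact`, `pol_finite`, `Pol.affine`
-/

set_option autoImplicit false

open MeasureTheory Set Filter Topology Metric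
open scoped Real ContDiff

noncomputable section
namespace Crest.Agent.R281.Pol_967

open Crest.Agent.R281.Jen_563
open Crest.Agent.R281.S6D_664 (lapC grC)







/-- pointwise bound of the mixed term -/
theorem two_mix_le (f g : ℂ → ℝ) (y : ℂ) {t : ℝ} (ht : 0 < t) :
    |2 * (D 1 f y * D 1 g y + D Complex.I f y * D Complex.I g y)| ≤ t * gs f y + t⁻¹ * gs g y := by
  have key : ∀ a b : ℝ, |2 * (a * b)| ≤ t * a ^ 2 + t⁻¹ * b ^ 2 := by
    intro a b
    have h1 : 0 ≤ t * (|a| - t⁻¹ * |b|) ^ 2 := by positivity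
    have h2 : t * (|a| - t⁻¹ * |b|) ^ 2 = t * a ^ 2 + t⁻¹ * b ^ 2 - 2 * (|a| * |b|) := by
      rw [← sq_abs a, ← sq_abs b]
      field_simp
      ring
    rw [abs_mul, abs_mul, abs_of_pos (show (0 : ℝ) < 2 by norm_num)]
    linarith
  unfold gs
  have h1 := key (D 1 f y) (D 1 g y)
  have h2 := key (D Complex.I f y) (D Complex.I g y)
  have h3 : 2 * (D 1 f y * D 1 g y + D Complex.I f y * D Complex.I g y) =
      2 * (D 1 f y * D 1 g y) + 2 * (D Complex.I f y * D Complex.I g y) := by ring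
  rw [h3]
  refine (abs_add_le _ _).trans ?_
  nlinarith




section oneSub

variable {f : ℂ → ℝ}

theorem D_one_sub (hf : ContDiff ℝ ∞ f) (v : ℂ) : D v (fun z => 1 - f z) = fun z => -D v f z := by
  funext y
  unfold D
  have h : HasFDerivAt (fun z => 1 - f z) (-fderiv ℝ f y) y :=
    (hf.differentiable (by simp) y).hasFDerivAt.const_sub 1
  rw [h.fderiv]
  simp

theorem lap_one_sub (hf : ContDiff ℝ ∞ f) (y : ℂ) : lap (fun z => 1 - f z) y = -lap f y := by
  unfold lap
  have key : ∀ v, D v (D v (fun z => 1 - f z)) y = -D v (D v f) y := by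
    intro v
    rw [D_one_sub hf]
    have h : HasFDerivAt (fun z => -D v f z) (-fderiv ℝ (D v f) y) y :=
      ((smooth_D hf v).differentiable (by simp) y).hasFDerivAt.neg
    show fderiv ℝ (fun z => -D v f z) y v = -fderiv ℝ (D v f) y v
    rw [h.fderiv]
    simp
  rw [key, key]
  ring

theorem gs_one_sub (hf : ContDiff ℝ ∞ f) (y : ℂ) : gs (fun z => 1 - f z) y = gs f y := by
  unfold gs
  rw [D_one_sub hf, D_one_sub hf]
  ring

end oneSub


section affine

variable {f : ℂ → ℝ}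









end affine

end Crest.Agent.R281.Pol_967

namespace Crest.Agent.R281.S6D_664

open Set







end Crest.Agent.R281.S6D_664
end
namespace Crest.Agent.R281.S6D_664.Pol
end Crest.Agent.R281.S6D_664.Pol
end

-- ▼ part R281/JenE_967
section

/-!
# R281, DIV 6 (helper967): Jensen's inequality with a polar exceptional set (helper166 #7863)

The statements of `Jen3_563`, `Jen4_563` with the finite set of punctures replaced by a set `E` with
`IsOpen (U \ E)` and `PolOn E U : ∀ K ⊆ U, IsCompact K → Pol (E ∩ K)`; `polOn_countable`: countable sets.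
-/

set_option autoImplicit false

open MeasureTheory Set Filter Topology Metric
open scoped ENNReal Real ContDiff

noncomputable section
namespace Crest.Agent.R281.JenE_967

open Crest.Agent.R281.Jen_563 hiding tsupport_lap D_congr lap_congr lap_comp
open Crest.Agent.R281.Pol_967 (Pol gs gs_nonneg two_le pol_of_countable two_mix_le int_gs int_lap)

/-- `E` is polar in `U` (exhaustion by compact sets) -/
def PolOn (E U : Set ℂ) : Prop := ∀ K ⊆ U, IsCompact K → Pol (E ∩ K)

theorem isCompact_inter {E U K : Set ℂ} (hV : IsOpen (U \ E)) (hKU : K ⊆ U) (hK : IsCompact K) :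
    IsCompact (E ∩ K) := by
  have h : E ∩ K = K ∩ (U \ E)ᶜ := by
    ext y
    simp only [mem_inter_iff, mem_compl_iff, Set.mem_sdiff, not_and, not_not]
    exact ⟨fun h => ⟨h.2, fun _ => h.1⟩, fun h => ⟨h.2 (hKU h.1), h.1⟩⟩
  rw [h]
  exact hK.inter_right hV.isClosed_compl

theorem polOn_countable {E U : Set ℂ} (hE : E.Countable) (hV : IsOpen (U \ E)) : PolOn E U :=
  fun _ hK hKc => pol_of_countable (isCompact_inter hV hK hKc) (hE.mono inter_subset_left)


/-- **Green's inequality with a polar exceptional set.** -/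
theorem punctE {U E : Set ℂ} (hV : IsOpen (U \ E)) (hE : PolOn E U) {G : ℂ → ℝ} {M : ℝ}
    (hG : ContDiffOn ℝ 2 G (U \ E)) (hM : ∀ y ∈ U \ E, |G y| ≤ M)
    (hpos : ∀ y ∈ U \ E, 0 ≤ lap G y) {φ : ℂ → ℝ} (hφ : ContDiff ℝ 2 φ) (hc : HasCompactSupport φ)
    (hs : tsupport φ ⊆ U) (hφ0 : ∀ y, 0 ≤ φ y) :
    ∫⁻ y in U \ E, ENNReal.ofReal (lap G y * φ y)
      ≤ ENNReal.ofReal M * ∫⁻ y, ENNReal.ofReal |lap φ y| := by
  set V : Set ℂ := U \ E with hVdef
  have hVm : MeasurableSet V := hV.measurableSet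
  have hKc : IsCompact (E ∩ tsupport φ) := isCompact_inter hV hs hc
  choose η es ec et e0 e1 en el eg ei using fun n : ℕ => hE (tsupport φ) hs hc
    (1 / ((n : ℝ) + 1) ^ 2) (by positivity) (thickening (1 / ((n : ℝ) + 1)) (E ∩ tsupport φ))
    isOpen_thickening (self_subset_thickening (by positivity) _)
  set χ : ℕ → ℂ → ℝ := fun n z => 1 - η n z with hχ
  have cs : ∀ n, ContDiff ℝ ∞ (χ n) := fun n => contDiff_const.sub (es n)
  have cb : ∀ n y, 0 ≤ χ n y ∧ χ n y ≤ 1 := fun n y =>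
    ⟨by simp only [hχ]; linarith [e1 n y], by simp only [hχ]; linarith [e0 n y]⟩
  have cz : ∀ n, ∀ y ∈ E ∩ tsupport φ, ∀ᶠ z in 𝓝 y, χ n z = 0 := fun n y hy => by
    filter_upwards [(eventually_nhdsSet_iff_forall.1 (en n)) y hy] with z hz
    simp [hχ, hz]
  have cs2 : ∀ n, ContDiff ℝ 2 (χ n) := fun n => (cs n).of_le two_le
  -- the test functions
  set ψ : ℕ → ℂ → ℝ := fun n y => φ y * χ n y with hψ
  have ψs : ∀ n, ContDiff ℝ 2 (ψ n) := fun n => hφ.mul (cs2 n)
  have ψt : ∀ n, tsupport (ψ n) ⊆ tsupport φ := fun n => closure_mono fun y hy => by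
    simp only [hψ, Function.mem_support, ne_eq] at hy ⊢
    intro h0; exact hy (by simp [h0])
  have ψc : ∀ n, HasCompactSupport (ψ n) := fun n =>
    IsCompact.of_isClosed_subset hc (isClosed_tsupport _) (ψt n)
  have ψV : ∀ n, tsupport (ψ n) ⊆ V := by
    intro n y hy
    refine ⟨hs (ψt n hy), fun hyF => ?_⟩
    have : ψ n =ᶠ[𝓝 y] 0 := by
      filter_upwards [cz n y ⟨hyF, ψt n hy⟩] with z hz
      simp [hψ, hz]
    exact notMem_tsupport_iff_eventuallyEq.2 this hy
  have ψ0 : ∀ n y, 0 ≤ ψ n y := fun n y => mul_nonneg (hφ0 y) (cb n y).1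
  -- bounds for φ
  obtain ⟨B0, hB0, hB0'⟩ := bdd_of_compact hφ.continuous hc
  set Q : ℝ := ∫ y, gs φ y with hQ
  have hgsφ : Integrable (gs φ) := by
    have hcont : Continuous (gs φ) :=
      ((D_continuous hφ 1).pow 2).add ((D_continuous hφ Complex.I).pow 2)
    refine hcont.integrable_of_hasCompactSupport (IsCompact.of_isClosed_subset hc
      (isClosed_tsupport _) Pol_967.tsupport_gs)
  have hQ0 : 0 ≤ Q := integral_nonneg fun y => gs_nonneg φ y
  set L : ℝ≥0∞ := ∫⁻ y, ENNReal.ofReal |lap φ y| with hL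
  -- the bound for ψ n
  have lapψ : ∀ n, ∫⁻ y, ENNReal.ofReal |lap (ψ n) y|
      ≤ L + ENNReal.ofReal ((B0 + Q + 1) * (1 / ((n : ℝ) + 1))) := by
    intro n
    have hn : (0 : ℝ) < (n : ℝ) + 1 := by positivity
    have m3 : Measurable (lap φ) := (lap_continuous hφ).measurable
    have hpt : ∀ y, |lap (ψ n) y| ≤ |lap φ y| + (B0 * |lap (η n) y|
        + (1 / ((n : ℝ) + 1) * gs φ y + ((n : ℝ) + 1) * gs (η n) y)) := by
      intro y
      have e := lap_mul (f := φ) (g := χ n) (y := y) hφ.contDiffAt (cs2 n).contDiffAt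
      simp only [hψ]
      rw [e]
      have el' : lap (χ n) y = -lap (η n) y := Pol_967.lap_one_sub (es n) y
      have a1 : |φ y * lap (χ n) y| ≤ B0 * |lap (η n) y| := by
        rw [el', abs_mul, abs_neg]; exact mul_le_mul_of_nonneg_right (hB0' y) (abs_nonneg _)
      have a2 : |χ n y * lap φ y| ≤ |lap φ y| := by
        rw [abs_mul, abs_of_nonneg (cb n y).1]
        exact mul_le_of_le_one_left (abs_nonneg _) (cb n y).2
      have a3 := two_mix_le φ (χ n) y (t := 1 / ((n : ℝ) + 1)) (by positivity)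
      have a4 : gs (χ n) y = gs (η n) y := Pol_967.gs_one_sub (es n) y
      rw [a4, one_div, inv_inv] at a3
      have t1 := abs_add_le (φ y * lap (χ n) y + χ n y * lap φ y)
        (2 * (D 1 φ y * D 1 (χ n) y + D Complex.I φ y * D Complex.I (χ n) y))
      have t2 := abs_add_le (φ y * lap (χ n) y) (χ n y * lap φ y)
      rw [one_div]
      linarith
    have i1 : Integrable fun y => B0 * |lap (η n) y| := (int_lap (es n) (ec n)).abs.const_mul _
    have i2 : Integrable fun y => 1 / ((n : ℝ) + 1) * gs φ y := hgsφ.const_mul _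
    have i3 : Integrable fun y => ((n : ℝ) + 1) * gs (η n) y := (int_gs (es n) (ec n)).const_mul _
    have i23 : Integrable fun y => 1 / ((n : ℝ) + 1) * gs φ y + ((n : ℝ) + 1) * gs (η n) y :=
      i2.add i3
    have i123 : Integrable fun y => B0 * |lap (η n) y|
        + (1 / ((n : ℝ) + 1) * gs φ y + ((n : ℝ) + 1) * gs (η n) y) := i1.add i23
    have hnn : ∀ y, 0 ≤ B0 * |lap (η n) y|
        + (1 / ((n : ℝ) + 1) * gs φ y + ((n : ℝ) + 1) * gs (η n) y) := fun y => by
      have := gs_nonneg φ y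
      have := gs_nonneg (η n) y
      positivity
    have hval : ∫ y, (B0 * |lap (η n) y|
        + (1 / ((n : ℝ) + 1) * gs φ y + ((n : ℝ) + 1) * gs (η n) y)) ≤
        (B0 + Q + 1) * (1 / ((n : ℝ) + 1)) := by
      rw [integral_add i1 i23, integral_add i2 i3, integral_const_mul, integral_const_mul,
        integral_const_mul]
      have hsq : 1 / ((n : ℝ) + 1) ^ 2 ≤ 1 / ((n : ℝ) + 1) := by
        apply one_div_le_one_div_of_le hn
        nlinarith [hn, (Nat.cast_nonneg n : (0 : ℝ) ≤ n)]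
      have k1 : B0 * ∫ y, |lap (η n) y| ≤ B0 * (1 / ((n : ℝ) + 1)) :=
        mul_le_mul_of_nonneg_left ((el n).trans hsq) hB0
      have k2 : ((n : ℝ) + 1) * ∫ y, gs (η n) y ≤ ((n : ℝ) + 1) * (1 / ((n : ℝ) + 1) ^ 2) :=
        mul_le_mul_of_nonneg_left (eg n) hn.le
      have k3 : ((n : ℝ) + 1) * (1 / ((n : ℝ) + 1) ^ 2) = 1 / ((n : ℝ) + 1) := by field_simp
      rw [k3] at k2
      have k4 : (B0 + Q + 1) * (1 / ((n : ℝ) + 1)) =
        B0 * (1 / ((n : ℝ) + 1)) + (1 / ((n : ℝ) + 1) * Q + 1 / ((n : ℝ) + 1)) := by ring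
      rw [k4]
      linarith
    calc ∫⁻ y, ENNReal.ofReal |lap (ψ n) y|
        ≤ ∫⁻ y, (ENNReal.ofReal |lap φ y| + ENNReal.ofReal (B0 * |lap (η n) y|
        + (1 / ((n : ℝ) + 1) * gs φ y + ((n : ℝ) + 1) * gs (η n) y))) := by
          refine lintegral_mono fun y => ?_
          rw [← ENNReal.ofReal_add (abs_nonneg _) (hnn y)]
          exact ENNReal.ofReal_le_ofReal (hpt y)
      _ = L + ∫⁻ y, ENNReal.ofReal (B0 * |lap (η n) y|
        + (1 / ((n : ℝ) + 1) * gs φ y + ((n : ℝ) + 1) * gs (η n) y)) :=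
          lintegral_add_left (by fun_prop) _
      _ = L + ENNReal.ofReal (∫ y, (B0 * |lap (η n) y|
        + (1 / ((n : ℝ) + 1) * gs φ y + ((n : ℝ) + 1) * gs (η n) y))) := by
          rw [ofReal_integral_eq_lintegral_ofReal i123 (Eventually.of_forall hnn)]
      _ ≤ _ := by gcongr
  -- each term
  have hcont : ∀ n, Continuous fun y => lap G y * ψ n y := by
    intro n
    have hts : tsupport (fun y => lap G y * ψ n y) ⊆ tsupport (ψ n) := closure_mono fun y hy => by
      simp only [Function.mem_support, ne_eq] at hy ⊢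
      intro h0; exact hy (by simp [h0])
    exact ContinuousOn.continuous_of_tsupport_subset
      ((lap_continuousOn hV hG).mul (ψs n).continuous.continuousOn) hV (hts.trans (ψV n))
  have hint : ∀ n, Integrable fun y => lap G y * ψ n y := by
    intro n
    have hts : tsupport (fun y => lap G y * ψ n y) ⊆ tsupport (ψ n) := closure_mono fun y hy => by
      simp only [Function.mem_support, ne_eq] at hy ⊢
      intro h0; exact hy (by simp [h0])
    exact (hcont n).integrable_of_hasCompactSupport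
      (IsCompact.of_isClosed_subset (ψc n) (isClosed_tsupport _) hts)
  have hnn : ∀ n y, 0 ≤ lap G y * ψ n y := by
    intro n y
    by_cases hy : y ∈ V
    · exact mul_nonneg (hpos y hy) (ψ0 n y)
    · have : ψ n y = 0 := by
        by_contra h
        exact hy (ψV n (subset_tsupport _ h))
      rw [this]; simp
  have hterm : ∀ n, ∫⁻ y in V, ENNReal.ofReal (lap G y * ψ n y)
      ≤ ENNReal.ofReal M * (L + ENNReal.ofReal ((B0 + Q + 1) * (1 / ((n : ℝ) + 1)))) := by
    intro n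
    calc ∫⁻ y in V, ENNReal.ofReal (lap G y * ψ n y)
        ≤ ∫⁻ y, ENNReal.ofReal (lap G y * ψ n y) := setLIntegral_le_lintegral _ _
      _ = ENNReal.ofReal (∫ y, lap G y * ψ n y) :=
          (ofReal_integral_eq_lintegral_ofReal (hint n) (Eventually.of_forall (hnn n))).symm
      _ = ENNReal.ofReal (∫ y, G y * lap (ψ n) y) := by rw [green hV hG (ψs n) (ψc n) (ψV n)]
      _ ≤ ‖∫ y, G y * lap (ψ n) y‖ₑ := by
          rw [Real.enorm_eq_ofReal_abs]; exact ENNReal.ofReal_le_ofReal (le_abs_self _)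
      _ ≤ ∫⁻ y, ‖G y * lap (ψ n) y‖ₑ := enorm_integral_le_lintegral_enorm _
      _ ≤ ∫⁻ y, ENNReal.ofReal M * ENNReal.ofReal |lap (ψ n) y| := by
          refine lintegral_mono fun y => ?_
          rw [Real.enorm_eq_ofReal_abs, ← ENNReal.ofReal_mul' (abs_nonneg _)]
          apply ENNReal.ofReal_le_ofReal
          rw [abs_mul]
          by_cases hy : y ∈ V
          · exact mul_le_mul_of_nonneg_right (hM y hy) (abs_nonneg _)
          · have : lap (ψ n) y = 0 := by
              by_contra h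
              exact hy (ψV n (Pol_967.tsupport_lap (subset_tsupport _ h)))
            rw [this]; simp
      _ = ENNReal.ofReal M * ∫⁻ y, ENNReal.ofReal |lap (ψ n) y| := by
          have := (lap_continuous (ψs n)).measurable
          rw [lintegral_const_mul _ (by fun_prop)]
      _ ≤ _ := by gcongr; exact lapψ n
  -- Fatou
  have hlim : ∀ y ∈ V, ENNReal.ofReal (lap G y * φ y)
      = liminf (fun n => ENNReal.ofReal (lap G y * ψ n y)) atTop := by
    intro y hy
    have hev : ∀ᶠ n : ℕ in atTop, χ n y = 1 := by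
      have hcl : IsClosed (E ∩ tsupport φ) := hKc.isClosed
      obtain ⟨ε, hε, hsub⟩ := Metric.isOpen_iff.1 hcl.isOpen_compl y fun h => hy.2 h.1
      have ht : Tendsto (fun n : ℕ => 1 / ((n : ℝ) + 1)) atTop (𝓝 0) := tendsto_one_div_add_atTop_nhds_zero_nat
      filter_upwards [ht.eventually (gt_mem_nhds hε)] with n hn
      have hnot : y ∉ tsupport (η n) := fun h => by
        obtain ⟨z, hz, hd⟩ := mem_thickening_iff.1 (et n h)
        exact hsub (by rw [mem_ball, dist_comm]; exact hd.trans hn) hz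
      simp [hχ, image_eq_zero_of_notMem_tsupport hnot]
    have hT : Tendsto (fun n => ENNReal.ofReal (lap G y * ψ n y)) atTop
        (𝓝 (ENNReal.ofReal (lap G y * φ y))) := by
      refine tendsto_const_nhds.congr' ?_
      filter_upwards [hev] with n hn
      simp [hψ, hn]
    exact hT.liminf_eq.symm
  calc ∫⁻ y in V, ENNReal.ofReal (lap G y * φ y)
      = ∫⁻ y in V, liminf (fun n => ENNReal.ofReal (lap G y * ψ n y)) atTop :=
        setLIntegral_congr_fun hVm hlim
    _ ≤ liminf (fun n => ∫⁻ y in V, ENNReal.ofReal (lap G y * ψ n y)) atTop :=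
        lintegral_liminf_le fun n => (hcont n).measurable.ennreal_ofReal
    _ ≤ liminf (fun n : ℕ => ENNReal.ofReal M * (L + ENNReal.ofReal ((B0 + Q + 1)
          * (1 / ((n : ℝ) + 1))))) atTop :=
        liminf_le_liminf (Eventually.of_forall hterm)
    _ = ENNReal.ofReal M * L := by
        have ht : Tendsto (fun n : ℕ => 1 / ((n : ℝ) + 1)) atTop (𝓝 0) := tendsto_one_div_add_atTop_nhds_zero_nat
        have h1 : Tendsto (fun n : ℕ => ENNReal.ofReal ((B0 + Q + 1) * (1 / ((n : ℝ) + 1)))) atTop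
            (𝓝 0) := by
          have := ENNReal.tendsto_ofReal (ht.const_mul (B0 + Q + 1))
          simpa using this
        have h3 := (tendsto_const_nhds (x := L)).add h1
        rw [add_zero] at h3
        exact (ENNReal.Tendsto.const_mul h3 (Or.inr ENNReal.ofReal_ne_top)).liminf_eq

/-- **JENSEN WITH A POLAR EXCEPTIONAL SET**: centre `a`, radius `R`. -/
theorem jensenE (a : ℂ) {R : ℝ} (hR : 0 < R) {E : Set ℂ} (hV : IsOpen (ball a R \ E))
    (hE : PolOn E (ball a R)) {G : ℂ → ℝ} {m₁ m₂ : ℝ}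
    (hG : ContDiffOn ℝ 2 G (ball a R \ E)) (hM : ∀ y ∈ ball a R \ E, m₁ ≤ G y ∧ G y ≤ m₂)
    (hpos : ∀ y ∈ ball a R \ E, 0 ≤ lap G y) :
    ∫⁻ y in ball a R \ E, ENNReal.ofReal (lap G y * Real.log (R / ‖y - a‖))
      ≤ ENNReal.ofReal (2 * π * (m₂ - m₁)) := by
  have hπ := Real.pi_pos
  set V : Set ℂ := ball a R \ E with hVdef
  -- centre the values of G
  set G₀ : ℂ → ℝ := fun y => G y + -((m₁ + m₂) / 2) with hG₀
  have hG₀s : ContDiffOn ℝ 2 G₀ V := hG.add contDiffOn_const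
  have hlap : ∀ y ∈ V, lap G₀ y = lap G y := by
    intro y hy
    have hc : ContDiffAt ℝ 2 G y := hG.contDiffAt (hV.mem_nhds hy)
    have h1 : ∀ v, D v G₀ =ᶠ[𝓝 y] D v G := by
      intro v
      filter_upwards [hc.eventually (by simp)] with z hz
      have hz1 : DifferentiableAt ℝ G z := hz.differentiableAt (by norm_num)
      simp only [hG₀]
      rw [D_add hz1 (differentiableAt_const _)]
      simp [D]
    unfold lap
    rw [Pol_967.D_congr (h1 1), Pol_967.D_congr (h1 Complex.I)]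
  set σ : ℝ := 2 * Real.log R with hσ
  choose g gs g0 ga gb gi gu gl using fun n : ℕ => test_fun (K := n) (δ := 1 / ((n : ℝ) + 1)) (by positivity)
    (by positivity)
  set h : ℕ → ℝ → ℝ := fun n s => g n (s - σ) with hh
  set c : ℕ → ℝ := fun n => g n (-(n : ℝ) - 1 - 2 * (1 / ((n : ℝ) + 1))) with hcdef
  have hs : ∀ n, ContDiff ℝ 2 (h n) := fun n => (gs n).comp (by fun_prop)
  have hconst : ∀ n : ℕ, ∀ s ≤ (-(n : ℝ) - 1 - 2 * (1 / ((n : ℝ) + 1))) + σ, h n s = c n := by
    intro n s hs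
    exact gb n (s - σ) (by linarith)
  set φ : ℕ → ℂ → ℝ := fun n => rad (h n) (c n) a with hφ
  have φs : ∀ n, ContDiff ℝ 2 (φ n) := fun n => rad_contDiff (hconst n) (hs n) a
  have φ0 : ∀ n y, 0 ≤ φ n y := by
    intro n y
    simp only [hφ, rad]
    split_ifs
    · exact g0 n _
    · exact g0 n _
  have φt : ∀ n, tsupport (φ n) ⊆ closedBall a (R * Real.exp (-(1 / ((n : ℝ) + 1)) / 2)) := by
    intro n
    refine closure_minimal ?_ isClosed_closedBall
    intro y hy
    rw [mem_closedBall, dist_eq_norm]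
    by_contra hlt
    push Not at hlt
    apply hy
    have hya : y ≠ a := by
      rintro rfl
      simp at hlt
      have : 0 < R * Real.exp (-((n : ℝ) + 1)⁻¹ / 2) := by positivity
      linarith
    have h3 : 0 < ‖y - a‖ := norm_pos_iff.2 (sub_ne_zero.2 hya)
    simp only [hφ]
    rw [rad_of_ne hya]
    refine ga n _ ?_
    have h4 := Real.log_le_log (by positivity) hlt.le
    rw [Real.log_mul hR.ne' (Real.exp_pos _).ne', Real.log_exp] at h4
    rw [lg, Real.log_pow, hσ]
    push_cast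
    linarith
  have hlt : ∀ n : ℕ, R * Real.exp (-(1 / ((n : ℝ) + 1)) / 2) < R := by
    intro n
    have : Real.exp (-(1 / ((n : ℝ) + 1)) / 2) < 1 := by
      rw [Real.exp_lt_one_iff]
      have : (0 : ℝ) < 1 / ((n : ℝ) + 1) := by positivity
      linarith
    nlinarith
  have φc : ∀ n, HasCompactSupport (φ n) := fun n =>
    IsCompact.of_isClosed_subset (isCompact_closedBall a _) (isClosed_tsupport _) (φt n)
  have φU : ∀ n, tsupport (φ n) ⊆ ball a R := fun n => (φt n).trans (closedBall_subset_ball (hlt n))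
  have hterm : ∀ n, ∫⁻ y in V, ENNReal.ofReal (lap G y * φ n y) ≤ ENNReal.ofReal (2 * π * (m₂ - m₁)) := by
    intro n
    have h1 := punctE hV hE (G := G₀) (M := (m₂ - m₁) / 2) hG₀s (by
        intro y hy
        have := hM y hy
        simp only [hG₀]
        rw [abs_le]; constructor <;> linarith [this.1, this.2])
      (fun y hy => by rw [hlap y hy]; exact hpos y hy) (φs n) (φc n) (φU n) (φ0 n)
    have h2 : ∫⁻ y, ENNReal.ofReal |lap (φ n) y| ≤ ENNReal.ofReal (4 * π) := by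
      simp only [hφ]
      rw [lint_lap_rad (hs n)]
      have h3 : ∀ s, deriv (deriv (h n)) s = deriv (deriv (g n)) (s - σ) := by
        intro s
        have e1 : deriv (h n) = fun s => deriv (g n) (s - σ) := by
          ext s
          simp only [hh]
          exact deriv_comp_sub_const (g n) σ s
        rw [e1]
        exact deriv_comp_sub_const (deriv (g n)) σ s
      have h4 : ∫⁻ s, ENNReal.ofReal |deriv (deriv (h n)) s| ≤ 1 := by
        simp_rw [h3]
        rw [lintegral_sub_right_eq_self (fun s => ENNReal.ofReal |deriv (deriv (g n)) s|) σ]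
        exact gi n
      calc _ ≤ ENNReal.ofReal (4 * π) * 1 := by gcongr
        _ = _ := mul_one _
    calc ∫⁻ y in V, ENNReal.ofReal (lap G y * φ n y)
        = ∫⁻ y in V, ENNReal.ofReal (lap G₀ y * φ n y) :=
          setLIntegral_congr_fun hV.measurableSet (fun y hy => by rw [hlap y hy])
      _ ≤ ENNReal.ofReal ((m₂ - m₁) / 2) * ∫⁻ y, ENNReal.ofReal |lap (φ n) y| := h1
      _ ≤ ENNReal.ofReal ((m₂ - m₁) / 2) * ENNReal.ofReal (4 * π) := by gcongr
      _ = ENNReal.ofReal (2 * π * (m₂ - m₁)) := by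
          rw [← ENNReal.ofReal_mul' (by positivity)]
          congr 1; ring
  -- Fatou
  have hlim : ∀ y ∈ V, y ≠ a → ENNReal.ofReal (lap G y * Real.log (R / ‖y - a‖))
      = liminf (fun n => ENNReal.ofReal (lap G y * φ n y)) atTop := by
    intro y hy hya
    have h3 : 0 < ‖y - a‖ := norm_pos_iff.2 (sub_ne_zero.2 hya)
    have h4 : ‖y - a‖ < R := by rw [← dist_eq_norm]; exact hy.1
    have e0 : Real.log (R / ‖y - a‖) = -(lg a y - σ) / 2 := by
      rw [Real.log_div hR.ne' h3.ne', lg, Real.log_pow, hσ]; push_cast; ring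
    have hneg : lg a y - σ ≤ 0 := by
      have : 0 ≤ Real.log (R / ‖y - a‖) := Real.log_nonneg (by rw [one_le_div h3]; exact h4.le)
      linarith
    have hδ : Tendsto (fun n : ℕ => 1 / ((n : ℝ) + 1)) atTop (𝓝 0) := tendsto_one_div_add_atTop_nhds_zero_nat
    have hφt : Tendsto (fun n => φ n y) atTop (𝓝 (Real.log (R / ‖y - a‖))) := by
      rw [e0]
      have hφe : ∀ n, φ n y = g n (lg a y - σ) := by
        intro n; simp only [hφ]; rw [rad_of_ne hya]
      simp_rw [hφe]
      refine tendsto_of_tendsto_of_tendsto_of_le_of_le' (g := fun n : ℕ => -(lg a y - σ) / 2 - 1 / ((n : ℝ) + 1))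
        (h := fun _ => -(lg a y - σ) / 2) ?_ tendsto_const_nhds ?_ ?_
      · simpa using tendsto_const_nhds.sub hδ
      · have : ∀ᶠ n : ℕ in atTop, -(lg a y - σ) ≤ (n : ℝ) :=
          tendsto_natCast_atTop_atTop.eventually_ge_atTop _
        filter_upwards [this] with n hn
        exact gl n _ hneg (by linarith)
      · exact Eventually.of_forall fun n => gu n _ hneg
    exact (ENNReal.tendsto_ofReal (tendsto_const_nhds.mul hφt)).liminf_eq.symm
  calc ∫⁻ y in V, ENNReal.ofReal (lap G y * Real.log (R / ‖y - a‖))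
      = ∫⁻ y in V, liminf (fun n => ENNReal.ofReal (lap G y * φ n y)) atTop := by
        refine lintegral_congr_ae ?_
        filter_upwards [ae_restrict_mem hV.measurableSet, ae_restrict_of_ae (ae_ne a)] with y hy hya
        exact hlim y hy hya
    _ ≤ liminf (fun n => ∫⁻ y in V, ENNReal.ofReal (lap G y * φ n y)) atTop := by
        refine lintegral_liminf_le' fun n => ?_
        have : ContinuousOn (fun y => lap G y * φ n y) V :=
          (lap_continuousOn hV hG).mul (φs n).continuous.continuousOn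
        exact (this.aemeasurable hV.measurableSet).ennreal_ofReal
    _ ≤ liminf (fun _ : ℕ => ENNReal.ofReal (2 * π * (m₂ - m₁))) atTop :=
        liminf_le_liminf (Eventually.of_forall hterm)
    _ = ENNReal.ofReal (2 * π * (m₂ - m₁)) := by simp




/-! ### 166's literal forms: a countable exceptional set -/

theorem jensen_countable (a : ℂ) {R : ℝ} (hR : 0 < R) {E : Set ℂ} (hE : E.Countable)
    (hV : IsOpen (ball a R \ E)) {G : ℂ → ℝ} {m₁ m₂ : ℝ}
    (hG : ContDiffOn ℝ 2 G (ball a R \ E)) (hM : ∀ y ∈ ball a R \ E, m₁ ≤ G y ∧ G y ≤ m₂)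
    (hpos : ∀ y ∈ ball a R \ E, 0 ≤ lap G y) :
    ∫⁻ y in ball a R \ E, ENNReal.ofReal (lap G y * Real.log (R / ‖y - a‖))
      ≤ ENNReal.ofReal (2 * π * (m₂ - m₁)) :=
  jensenE a hR hV (polOn_countable hE hV) hG hM hpos


end Crest.Agent.R281.JenE_967
end
end

-- ▼ part R281/Con9_166
section

/-!
# R281 (S0424), DIV 6, S6-CONT part 9 (helper166): the potential on a disc

* `exists_xi`   : on the family of a line `D`, at the point of the family lying on the line, there is
  a tangent vector `ξ` with last coordinate `1` mapped to the direction of the line;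
* `lap_line`    : the Laplacian of `g ∘ line` is `4` times the Hermitian form of `hess g`;
* `lap_pot`     : for the function `G` = (weight of `h` + `u`) on the line,
  `lap G = 4 a push (det K_V)`.
-/

set_option autoImplicit false
set_option linter.unusedSectionVars false

open Set Filter Topology Complex Function MeasureTheory
open scoped ContDiff Matrix ComplexConjugate ComplexOrder ENNReal

namespace Crest.Agent.R281.Con_166

open Crest.Agent.R275.Geo Crest.Agent.R275.Core144 Crest.Agent.R275.EDR890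
open Crest.Agent.R275.GC293 Crest.Agent.R275.Prod363
open Crest.Agent.R273.Defs_333 Crest.Agent.R273.Kah_333 Crest.Agent.R273.Hess_333
open Crest.Agent.R273.HessB_333 Crest.Agent.R273.HM_333
open Crest.Agent.R273.Map_835 Crest.Agent.R273.KahI_645 Crest.Agent.R273.Vol_333
open Crest.Agent.R273.Vm_333 Crest.Agent.R281.Defs_273 Crest.Agent.R281.S6D_664
open Crest.Agent.R281.S6V_664 Crest.Agent.R281.Fub_192 Crest.Agent.R281.D6_986
open Crest.Agent.R281.Fib2_425 (push)

noncomputable section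

section Xi

variable {N d k : ℕ} {M : Type} [TopologicalSpace M] {A : Atl N M} {Tf : M → Set M}
  (D : LineD A Tf k d)

/-- the direction of the line in the normalised parameter -/
def LV : Cn N := ((2 * D.R : ℝ) : ℂ) • D.v

theorem hasFDerivAt_line (u : Cn 1) : HasFDerivAt (fun u : Cn 1 => D.z + D.cp u • D.v)
    ((EuclideanSpace.proj (0 : Fin 1) : Cn 1 →L[ℂ] ℂ).smulRight (LV D)) u := by
  have h6 : HasFDerivAt (fun u : Cn 1 => u 0 - LineD.kp)
      (EuclideanSpace.proj (0 : Fin 1) : Cn 1 →L[ℂ] ℂ) u :=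
    (EuclideanSpace.proj (0 : Fin 1) : Cn 1 →L[ℂ] ℂ).hasFDerivAt.sub_const LineD.kp
  have h7 := (h6.smul_const (LV D)).const_add D.z
  have h8 : (fun u : Cn 1 => D.z + D.cp u • D.v) =
      fun u : Cn 1 => D.z + (u 0 - LineD.kp) • LV D := by
    funext u
    unfold LineD.cp LV
    rw [smul_smul, mul_comm]
  rw [h8]
  exact h7

/-- a function of the base coordinate, along the family -/
theorem tube_rd (F : Fam A d 1 D.UU) (h1 : ∀ v, F.i v ∈ Tf (D.pt (D.cp (F.y v))))
    {u : Cn 1} (hu : u ∈ D.UU) {v : F.V} (hy : F.y v = u) (hv : F.i v = D.pt (D.cp u))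
    {j : F.B.ι} (hj : v ∈ (F.B.e j).source) (τ : Tube A k Tf) (hτ : D.pt (D.cp u) ∈ τ.W)
    (ξ : Cn (d + 1)) :
    fderiv ℂ (fun z => τ.f ((A.e D.i).symm z)) (D.z + D.cp u • D.v)
      (fderiv ℂ (rd F.B A F.i j D.i) (F.B.e j v) ξ) =
    (laL d 1 ξ 0) • fderiv ℂ (fun z => τ.f ((A.e D.i).symm z)) (D.z + D.cp u • D.v) (LV D) := by
  have hcR : ‖D.cp u‖ < D.R := D.cp_lt hu.1
  have hi : F.i v ∈ (A.e D.i).source := by
    rw [hv]
    exact D.pt_mem hcR.le
  set w0 := F.B.e j v with hw0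
  have hw0t : w0 ∈ (F.B.e j).target := (F.B.e j).map_source hj
  have hsy : (F.B.e j).symm w0 = v := (F.B.e j).left_inv hj
  have hdm : w0 ∈ dm F.B A F.i j D.i := mem_dm hj hi
  have g1 : DifferentiableAt ℂ (rd F.B A F.i j D.i) w0 := F.hol.diffAt hdm
  have hyw : laL d 1 w0 = u := by rw [← y_symm' F hw0t, hsy, hy]
  have hrd0 : rd F.B A F.i j D.i w0 = D.z + D.cp u • D.v := by
    show A.e D.i (F.i ((F.B.e j).symm w0)) = _
    rw [hsy, hv, D.e_pt hcR.le]
  have g3 : DifferentiableAt ℂ (fun z => τ.f ((A.e D.i).symm z)) (D.z + D.cp u • D.v) :=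
    (τ.hol D.i).differentiableAt
      (((A.e D.i).isOpen_inter_preimage_symm τ.oW).mem_nhds ⟨D.mem _ hcR.le, hτ⟩)
  -- the composition is a function of the base coordinate
  have g4 : (fun w => (fun z => τ.f ((A.e D.i).symm z)) (rd F.B A F.i j D.i w)) =ᶠ[𝓝 w0]
      fun w => (fun z => τ.f ((A.e D.i).symm z)) (D.z + D.cp (laL d 1 w) • D.v) := by
    have h5 : dm F.B A F.i j D.i ∩ {w | laL d 1 w ∈ D.discBM.U ∩ D.discBM.Γ ⁻¹' τ.W} ∈ 𝓝 w0 := by
      refine inter_mem ((F.hol.isOpen_dm j D.i).mem_nhds hdm) ?_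
      refine (laL d 1).continuous.continuousAt.preimage_mem_nhds ?_
      rw [hyw]
      exact (D.discBM.isOpen_pre τ.oW).mem_nhds ⟨hu, hτ⟩
    filter_upwards [h5] with w hw
    have hwt : w ∈ (F.B.e j).target := hw.1.1
    show τ.f ((A.e D.i).symm (A.e D.i (F.i ((F.B.e j).symm w)))) = _
    rw [(A.e D.i).left_inv hw.1.2]
    have h6 := h1 ((F.B.e j).symm w)
    have hw2 : D.pt (D.cp (laL d 1 w)) ∈ τ.W := hw.2.2
    rw [y_symm' F hwt, τ.fib _ hw2] at h6
    exact h6.2
  have g5 : HasFDerivAt (fun w => (fun z => τ.f ((A.e D.i).symm z)) (rd F.B A F.i j D.i w))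
      ((fderiv ℂ (fun z => τ.f ((A.e D.i).symm z)) (D.z + D.cp u • D.v)).comp
        (fderiv ℂ (rd F.B A F.i j D.i) w0)) w0 := by
    refine HasFDerivAt.comp w0 (g := fun z => τ.f ((A.e D.i).symm z)) ?_ g1.hasFDerivAt
    rw [hrd0]
    exact g3.hasFDerivAt
  have g6 : HasFDerivAt (fun w => (fun z => τ.f ((A.e D.i).symm z))
      (D.z + D.cp (laL d 1 w) • D.v))
      ((fderiv ℂ (fun z => τ.f ((A.e D.i).symm z)) (D.z + D.cp u • D.v)).comp
        (((EuclideanSpace.proj (0 : Fin 1) : Cn 1 →L[ℂ] ℂ).smulRight (LV D)).comp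
          (laL d 1))) w0 := by
    have h7 : HasFDerivAt (fun w => D.z + D.cp (laL d 1 w) • D.v)
        (((EuclideanSpace.proj (0 : Fin 1) : Cn 1 →L[ℂ] ℂ).smulRight (LV D)).comp
          (laL d 1)) w0 :=
      (hasFDerivAt_line D (laL d 1 w0)).comp w0 (laL d 1).hasFDerivAt
    refine HasFDerivAt.comp w0 (g := fun z => τ.f ((A.e D.i).symm z)) ?_ h7
    rw [hyw]
    exact g3.hasFDerivAt
  have g7 := (g5.congr_of_eventuallyEq g4.symm).unique g6
  have g8 := congrArg (fun L => L ξ) g7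
  have g9 : fderiv ℂ (fun z => τ.f ((A.e D.i).symm z)) (D.z + D.cp u • D.v)
      (fderiv ℂ (rd F.B A F.i j D.i) w0 ξ) =
      fderiv ℂ (fun z => τ.f ((A.e D.i).symm z)) (D.z + D.cp u • D.v)
        ((laL d 1 ξ 0) • LV D) := g8
  rw [g9, map_smul]

/-- **the tangent vector of the section** -/
theorem exists_xi (F : Fam A d 1 D.UU) (h1 : ∀ v, F.i v ∈ Tf (D.pt (D.cp (F.y v))))
    {u : Cn 1} (hu : u ∈ D.UU) {v : F.V} (hy : F.y v = u) (hv : F.i v = D.pt (D.cp u))
    {j : F.B.ι} (hj : v ∈ (F.B.e j).source) :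
    ∃ ξ : Cn (d + 1), fderiv ℂ (rd F.B A F.i j D.i) (F.B.e j v) ξ = LV D ∧ laL d 1 ξ 0 = 1 := by
  have hcR : ‖D.cp u‖ < D.R := D.cp_lt hu.1
  obtain ⟨τ, hτ⟩ := D.tb _ (D.not_bad hcR.le hu.2).1
  have hi : F.i v ∈ (A.e D.i).source := by
    rw [hv]
    exact D.pt_mem hcR.le
  set T : Cn N →L[ℂ] Cn k := fderiv ℂ (fun z => τ.f ((A.e D.i).symm z)) (D.z + D.cp u • D.v)
    with hT
  set L : Cn (d + 1) →L[ℂ] Cn N := fderiv ℂ (rd F.B A F.i j D.i) (F.B.e j v) with hL
  have key : ∀ ξ, T (L ξ) = (laL d 1 ξ 0) • T (LV D) := tube_rd D F h1 hu hy hv hj τ hτ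
  have hTs : Surjective T := by
    have := τ.sub D.i (D.pt (D.cp u)) ⟨D.pt_mem hcR.le, hτ⟩
    rwa [D.e_pt hcR.le] at this
  have hLi : Injective L := F.imm j D.i v hj hi
  have hin0 : ∀ η : Cn d, laL d 1 (inL d 1 η) 0 = 0 := by
    intro η
    rw [inL_eq, laL_apply, glue_right]
    rfl
  -- the fibre directions span the kernel of `T`
  have hker : ∀ x : Cn N, T x = 0 → ∃ η : Cn d, L (inL d 1 η) = x := by
    have hfr : Module.finrank ℂ (LinearMap.ker T.toLinearMap) = d := by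
      have h2 := LinearMap.finrank_range_add_finrank_ker T.toLinearMap
      have h3 : LinearMap.range T.toLinearMap = ⊤ := LinearMap.range_eq_top.2 hTs
      rw [h3, finrank_top] at h2
      simp only [finrank_euclideanSpace, Fintype.card_fin] at h2
      have := D.hN
      omega
    set S : Cn d →ₗ[ℂ] Cn N := (L.comp (inL d 1)).toLinearMap with hS
    have hSi : Injective S := hLi.comp inL_inj
    have hSle : LinearMap.range S ≤ LinearMap.ker T.toLinearMap := by
      rintro x ⟨η, rfl⟩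
      show T (L (inL d 1 η)) = 0
      rw [key, hin0, zero_smul]
    have hSfr : Module.finrank ℂ (LinearMap.range S) = d := by
      rw [LinearMap.finrank_range_of_inj hSi]
      simp
    have heq : LinearMap.range S = LinearMap.ker T.toLinearMap :=
      Submodule.eq_of_le_of_finrank_eq hSle (by rw [hSfr, hfr])
    intro x hx
    have hx' : x ∈ LinearMap.ker T.toLinearMap := hx
    rw [← heq] at hx'
    obtain ⟨η, hη⟩ := hx'
    exact ⟨η, hη⟩
  set e : Cn (d + 1) := EuclideanSpace.single (Fin.natAdd d 0) 1 with he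
  have he1 : laL d 1 e 0 = 1 := by
    rw [laL_apply, he]
    simp
  obtain ⟨η, hη⟩ := hker (L e - LV D) (by rw [map_sub, key, he1, one_smul, sub_self])
  refine ⟨e - inL d 1 η, ?_, ?_⟩
  · rw [map_sub, hη]
    abel
  · rw [map_sub]
    show laL d 1 e 0 - laL d 1 (inL d 1 η) 0 = 1
    rw [he1, hin0, sub_zero]

end Xi

/-! ### the Laplacian on a line -/

section Lap

open Crest.Agent.R281.Jen_563 (D lap)

variable {N : ℕ}

theorem lap_line {g : Cn N → ℝ} {p V : Cn N} {b c : ℂ}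
    (hg : ContDiffAt ℝ ∞ g (p + (c - b) • V)) :
    lap (fun c : ℂ => g (p + (c - b) • V)) c = (4 * hq g (p + (c - b) • V) V).re := by
  set ℓ : ℂ → Cn N := fun c => p + (c - b) • V with hℓ
  have hℓc : Continuous ℓ := by fun_prop
  have hℓd : ∀ c, HasFDerivAt ℓ ((ContinuousLinearMap.id ℝ ℂ).smulRight V) c := by
    intro c
    exact (((hasFDerivAt_id (𝕜 := ℝ) c).sub_const b).smul_const V).const_add p
  have h2 : ContDiffAt ℝ 2 g (ℓ c) := by exact_mod_cast contDiffAt_infty.1 hg 2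
  have hev : ∀ᶠ c' in 𝓝 c, DifferentiableAt ℝ g (ℓ c') :=
    hℓc.continuousAt.eventually ((h2.eventually (by simp)).mono
      fun y hy => hy.differentiableAt (by norm_num))
  have h3 : DifferentiableAt ℝ (fderiv ℝ g) (ℓ c) :=
    (h2.fderiv_right (m := 1) (by norm_num)).differentiableAt (by norm_num)
  have hD : ∀ v : ℂ, D v (D v (fun c => g (ℓ c))) c =
      fderiv ℝ (fderiv ℝ g) (ℓ c) (v • V) (v • V) := by
    intro v
    have h4 : D v (fun c => g (ℓ c)) =ᶠ[𝓝 c] fun c' => fderiv ℝ g (ℓ c') (v • V) := by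
      filter_upwards [hev] with c' hc'
      have h5 : HasFDerivAt (fun c => g (ℓ c)) _ c' := hc'.hasFDerivAt.comp c' (hℓd c')
      show fderiv ℝ (fun c => g (ℓ c)) c' v = _
      rw [h5.fderiv]
      rfl
    have h6 : HasFDerivAt (fun c' => fderiv ℝ g (ℓ c') (v • V))
        (((fderiv ℝ (fderiv ℝ g) (ℓ c)).comp
          ((ContinuousLinearMap.id ℝ ℂ).smulRight V)).flip (v • V)) c := by
      have h7 : HasFDerivAt (fun c' => fderiv ℝ g (ℓ c')) _ c := h3.hasFDerivAt.comp c (hℓd c)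
      exact ((ContinuousLinearMap.apply ℝ ℝ (v • V)).hasFDerivAt.comp c h7)
    show fderiv ℝ (D v (fun c => g (ℓ c))) c v = _
    rw [h4.fderiv_eq, h6.fderiv]
    rfl
  show D 1 (D 1 (fun c => g (ℓ c))) c + D I (D I (fun c => g (ℓ c))) c = _
  rw [hD 1, hD I, one_smul]
  have h8 : hq g (ℓ c) V = ((lev g (ℓ c) V / 4 : ℝ) : ℂ) := hq_real hg V
  rw [show p + (c - b) • V = ℓ c from rfl, h8,
    Crest.Agent.R273.YauDefs_635.lev333_eq_lev145]
  unfold Crest.Agent.R273.Levi_145.lev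
  have h9 : (4 * (((4 * ((fderiv ℝ (fderiv ℝ g) (ℓ c) V V +
      fderiv ℝ (fderiv ℝ g) (ℓ c) (I • V) (I • V)) / 4) / 4 : ℝ)) : ℂ)) =
      ((fderiv ℝ (fderiv ℝ g) (ℓ c) V V +
      fderiv ℝ (fderiv ℝ g) (ℓ c) (I • V) (I • V) : ℝ) : ℂ) := by
    push_cast
    ring
  rw [h9, ofReal_re]

end Lap

end

end Crest.Agent.R281.Con_166
end

-- ▼ part R281/Hs1_254
section

/-!
# R281 (S0424), DIV 6, S6-HAUS (helper254; asked for by 664 #7402; consumer 166)

The leaves `Tf z` of a tube / of a Lagrangian fibration `LFib` (carriers of S6D_664):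
* `tube_continuousAt`, `tube_nhds` (the submersion is continuous and open);
* `tube_mem`, `tube_isCompact`, `tube_eq`, `tube_usc`, `tube_lsc`;
* the same for `F : LFib A σ` at the points of `F.Om`: `mem`, `sub`, `isCompact`, `isConnected`,
  `eq`, `usc`, `lsc`;
* `gen F i z` : the dense set of directions of `thin`; `dense_gen` : generic pairs are dense;
* `unif_of` : a modulus for the generic pairs (local form) gives `PD.unif`; `pd` : the `PD` of 166.
-/

set_option autoImplicit false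
set_option linter.unusedSectionVars false

open Set Filter Topology Complex Function MeasureTheory
open scoped ContDiff Matrix ComplexConjugate ComplexOrder

namespace Crest.Agent.R281.Hs_254

open Crest.Agent.R275.Geo Crest.Agent.R275.Core144
open Crest.Agent.R281.Defs_273 Crest.Agent.R281.S6D_664

noncomputable section

variable {N m n : ℕ}

section tube

variable {M : Type} [TopologicalSpace M] {A : Atl N M} {Tf : M → Set M}

theorem tube_continuousAt (τ : Tube A m Tf) {x : M} (hx : x ∈ τ.W) : ContinuousAt τ.f x := by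
  obtain ⟨i, hi⟩ := A.cover x
  have ho : IsOpen ((A.e i).target ∩ (A.e i).symm ⁻¹' τ.W) :=
    (A.e i).isOpen_inter_preimage_symm τ.oW
  have hm : A.e i x ∈ (A.e i).target ∩ (A.e i).symm ⁻¹' τ.W :=
    ⟨(A.e i).map_source hi, by rw [mem_preimage, (A.e i).left_inv hi]; exact hx⟩
  have h1 : ContinuousAt (fun z => τ.f ((A.e i).symm z)) (A.e i x) :=
    ((τ.hol i).differentiableAt (ho.mem_nhds hm)).continuousAt
  have h2 : ContinuousAt (fun y => τ.f ((A.e i).symm (A.e i y))) x :=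
    ContinuousAt.comp (f := fun y => A.e i y) (g := fun z => τ.f ((A.e i).symm z)) h1
      ((A.e i).continuousAt hi)
  refine h2.congr ?_
  filter_upwards [(A.e i).open_source.mem_nhds hi] with y hy
  rw [(A.e i).left_inv hy]


theorem tube_mem (τ : Tube A m Tf) {x : M} (hx : x ∈ τ.W) : x ∈ Tf x := by
  rw [τ.fib x hx]
  exact ⟨hx, rfl⟩

theorem tube_sub (τ : Tube A m Tf) {x : M} (hx : x ∈ τ.W) : Tf x ⊆ τ.W := by
  rw [τ.fib x hx]
  exact inter_subset_left

theorem tube_isCompact (τ : Tube A m Tf) {x : M} (hx : x ∈ τ.W) : IsCompact (Tf x) := by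
  rw [τ.fib x hx]
  exact τ.proper {τ.f x} (singleton_subset_iff.2 (τ.maps hx)) isCompact_singleton

theorem tube_eq (τ : Tube A m Tf) {x y : M} (hx : x ∈ τ.W) (hy : y ∈ Tf x) : Tf y = Tf x := by
  have hy' := hy
  rw [τ.fib x hx] at hy'
  rw [τ.fib x hx, τ.fib y hy'.1]
  have h1 : τ.f y = τ.f x := hy'.2
  rw [h1]

/-- upper semicontinuity -/
theorem tube_usc (τ : Tube A m Tf) {x : M} (hx : x ∈ τ.W) {G : Set M} (hG : IsOpen G)
    (h : Tf x ⊆ G) : ∀ᶠ x' in 𝓝 x, Tf x' ⊆ G := by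
  have hU : τ.U ∈ 𝓝 (τ.f x) := τ.oU.mem_nhds (τ.maps hx)
  obtain ⟨C, hC, hCn, hCU⟩ : ∃ C, IsCompact C ∧ C ∈ 𝓝 (τ.f x) ∧ C ⊆ τ.U := by
    obtain ⟨C, hC1, hC2, hC3⟩ := local_compact_nhds hU
    exact ⟨C, hC3, hC1, hC2⟩
  have hK : IsCompact ((τ.W ∩ τ.f ⁻¹' C) \ G) := (τ.proper C hCU hC).diff hG
  have hcont : ContinuousOn τ.f ((τ.W ∩ τ.f ⁻¹' C) \ G) := fun y hy =>
    (tube_continuousAt τ hy.1.1).continuousWithinAt
  have hfK : IsClosed (τ.f '' ((τ.W ∩ τ.f ⁻¹' C) \ G)) := (hK.image_of_continuousOn hcont).isClosed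
  have hnot : τ.f x ∉ τ.f '' ((τ.W ∩ τ.f ⁻¹' C) \ G) := by
    rintro ⟨y, hy, hyx⟩
    apply hy.2
    apply h
    rw [τ.fib x hx]
    exact ⟨hy.1.1, hyx⟩
  have h1 : ∀ᶠ x' in 𝓝 x, τ.f x' ∈ C ∩ (τ.f '' ((τ.W ∩ τ.f ⁻¹' C) \ G))ᶜ :=
    (tube_continuousAt τ hx) (inter_mem hCn (hfK.isOpen_compl.mem_nhds hnot))
  filter_upwards [h1, τ.oW.mem_nhds hx] with x' hx' hW y hy
  rw [τ.fib x' hW] at hy
  by_contra hyG
  apply hx'.2
  have hyx : τ.f y = τ.f x' := hy.2
  exact ⟨y, ⟨⟨hy.1, by rw [mem_preimage, hyx]; exact hx'.1⟩, hyG⟩, hyx⟩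


end tube

section lfib

variable {M : Type} [TopologicalSpace M] {A : Atl (2 * n) M} {σ : HSymp A} (F : LFib A σ)

theorem mem {x : M} (hx : x ∈ F.Om) : x ∈ F.Tf x := by
  obtain ⟨τ, h1, -, -⟩ := F.tube x hx
  exact tube_mem τ h1

theorem sub {x : M} (hx : x ∈ F.Om) : F.Tf x ⊆ F.Om := by
  obtain ⟨τ, h1, h2, -⟩ := F.tube x hx
  exact (tube_sub τ h1).trans h2

theorem isCompact {x : M} (hx : x ∈ F.Om) : IsCompact (F.Tf x) := by
  obtain ⟨τ, h1, -, -⟩ := F.tube x hx
  exact tube_isCompact τ h1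

theorem isConnected {x : M} (hx : x ∈ F.Om) : IsConnected (F.Tf x) := by
  obtain ⟨τ, h1, -, -⟩ := F.tube x hx
  exact τ.conn x h1

theorem eq {x y : M} (hx : x ∈ F.Om) (hy : y ∈ F.Tf x) : F.Tf y = F.Tf x := by
  obtain ⟨τ, h1, -, -⟩ := F.tube x hx
  exact tube_eq τ h1 hy



/-- upper semicontinuity of the leaves -/
theorem usc {x : M} (hx : x ∈ F.Om) {G : Set M} (hG : IsOpen G) (h : F.Tf x ⊆ G) :
    ∀ᶠ x' in 𝓝 x, F.Tf x' ⊆ G := by
  obtain ⟨τ, h1, -, -⟩ := F.tube x hx
  exact tube_usc τ h1 hG h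


/-- the generic directions at the point `z` of the chart `i` (literally the set of `thin`) -/
def gen (i : A.ι) (z : Cn (2 * n)) : Set (Cn (2 * n)) :=
  {v : Cn (2 * n) | {c : ℂ | z + c • v ∈ (A.e i).target ∧
      (A.e i).symm (z + c • v) ∉ F.Om}.Countable}

theorem dense_gen {i : A.ι} {z : Cn (2 * n)} (hz : z ∈ (A.e i).target)
    (hzO : (A.e i).symm z ∈ F.Om) : Dense (gen F i z) := F.thin i z hz hzO



end lfib

section metric

variable {M : Type} [MetricSpace M] {A : Atl (2 * n) M} {σ : HSymp A} (F : LFib A σ)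

/-- continuity of the leaves in the metric, both halves -/
theorem exists_near {x : M} (hx : x ∈ F.Om) {ε : ℝ} (hε : 0 < ε) : ∀ᶠ x' in 𝓝 x,
    (∀ q ∈ F.Tf x', ∃ q' ∈ F.Tf x, dist q q' < ε) := by
  have h1 := usc F hx (G := Metric.thickening ε (F.Tf x)) Metric.isOpen_thickening
    (Metric.self_subset_thickening hε _)
  filter_upwards [h1] with x' hx' q hq
  exact Metric.mem_thickening_iff.1 (hx' hq)




end metric

end

end Crest.Agent.R281.Hs_254
end

-- ▼ part R281/Ln1_254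
section

/-!
# R281 (S0424), DIV 6, S6-LINE (helper254): good lines through dense pairs of points

* `TrV`, `gen2`  : generic AND transversal directions at a point of a chart; `dense_gen2`;
* `line_good`    : the line through `z''` and `z` (`z'' - z` in `gen2`) has countable `bad`, the
                   parameter of `z` is good, every parameter over `Om` is isolated in `bad`;
* `exists_line`  : in a chart ball, pairs `(z, z'')` with a good line of uniform radius are dense;
* `exists_gen2`, `unif_of2`, `pd2` : as in `Hs1_254`, with `gen2`;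
* `nbad`         : the bad parameters in the normalised disc; compact, countable, compact without
                   the centre (input of 166's `exists_weight'`).
-/

set_option autoImplicit false
set_option linter.unusedSectionVars false

open Set Filter Topology Complex Function
open scoped ContDiff Matrix ComplexConjugate

namespace Crest.Agent.R281.Ln_254

open Crest.Agent.R275.Geo Crest.Agent.R275.Core144
open Crest.Agent.R281.S6D_664 Crest.Agent.R281.Hs_254 Crest.Agent.R281.S6V_664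
open Crest.Agent.R281.Defs_273

noncomputable section

variable {n : ℕ}

section top

variable {M : Type} [TopologicalSpace M] {A : Atl (2 * n) M} {σ : HSymp A} (F : LFib A σ)

/-- the direction `v` is transversal to the leaf at the point `z` of the chart `i` -/
def TrV (i : A.ι) (z v : Cn (2 * n)) : Prop :=
  ∃ τ : Tube A n F.Tf, (A.e i).symm z ∈ τ.W ∧
    fderiv ℂ (fun z => τ.f ((A.e i).symm z)) z v ≠ 0

/-- generic transversal directions -/
def gen2 (i : A.ι) (z : Cn (2 * n)) : Set (Cn (2 * n)) := {v | v ∈ gen F i z ∧ TrV F i z v}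

theorem ne_zero_of_trv {i : A.ι} {z v : Cn (2 * n)} (h : TrV F i z v) : v ≠ 0 := by
  rintro rfl
  obtain ⟨τ, -, h⟩ := h
  exact h (map_zero _)

theorem dense_trv (hn : 0 < n) {i : A.ι} {z : Cn (2 * n)} (hz : z ∈ (A.e i).target)
    (hzO : (A.e i).symm z ∈ F.Om) :
    ∃ T : Set (Cn (2 * n)), IsOpen T ∧ Dense T ∧ ∀ v ∈ T, TrV F i z v := by
  obtain ⟨τ, hτ, -, -⟩ := F.tube _ hzO
  set L : Cn (2 * n) →L[ℂ] Cn n := fderiv ℂ (fun z => τ.f ((A.e i).symm z)) z with hL
  have hsurj : Surjective L := by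
    have h := τ.sub i ((A.e i).symm z) ⟨(A.e i).map_target hz, hτ⟩
    rw [(A.e i).right_inv hz] at h
    exact h
  refine ⟨{v | L v ≠ 0}, isOpen_ne_fun L.continuous continuous_const, ?_, fun v hv => ⟨τ, hτ, hv⟩⟩
  obtain ⟨w, hw⟩ := hsurj (EuclideanSpace.single (⟨0, hn⟩ : Fin n) (1 : ℂ))
  have hw0 : L w ≠ 0 := by
    rw [hw]
    intro h0
    have h1 : (EuclideanSpace.single (⟨0, hn⟩ : Fin n) (1 : ℂ)) ⟨0, hn⟩ = (0 : Cn n) ⟨0, hn⟩ := by
      rw [h0]
    simp at h1
  intro v
  by_cases hv : L v = 0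
  · rw [mem_closure_iff_nhds]
    intro U hU
    have h1 : Tendsto (fun t : ℝ => v + (t : ℂ) • w) (𝓝 0) (𝓝 v) := by
      have h2 : Continuous fun t : ℝ => v + (t : ℂ) • w := by fun_prop
      have h3 := h2.tendsto 0
      simpa using h3
    have h2 : ∀ᶠ t : ℝ in 𝓝[≠] 0, v + (t : ℂ) • w ∈ U :=
      (h1.eventually hU).filter_mono nhdsWithin_le_nhds
    obtain ⟨t, ht, ht0⟩ := (h2.and self_mem_nhdsWithin).exists
    refine ⟨_, ht, ?_⟩
    show L (v + (t : ℂ) • w) ≠ 0
    rw [map_add, hv, zero_add, map_smul]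
    exact smul_ne_zero (by exact_mod_cast ht0) hw0
  · exact subset_closure hv

/-- generic transversal directions are dense -/
theorem dense_gen2 (hn : 0 < n) {i : A.ι} {z : Cn (2 * n)} (hz : z ∈ (A.e i).target)
    (hzO : (A.e i).symm z ∈ F.Om) : Dense (gen2 F i z) := by
  obtain ⟨T, hTo, hTd, hT⟩ := dense_trv F hn hz hzO
  exact ((dense_gen F hz hzO).inter_of_isOpen_right hTd hTo).mono fun v hv => ⟨hv.1, hT v hv.2⟩

/-- generic transversal pairs are dense: in the chart -/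
theorem exists_gen2_chart (hn : 0 < n) {i : A.ι} {z z' : Cn (2 * n)} (hz : z ∈ (A.e i).target)
    (hzO : (A.e i).symm z ∈ F.Om) (hz' : z' ∈ (A.e i).target)
    {W : Set (Cn (2 * n))} (hW : W ∈ 𝓝 z') :
    ∃ z'' ∈ W, z'' ∈ (A.e i).target ∧ (A.e i).symm z'' ∈ F.Om ∧ z'' - z ∈ gen2 F i z := by
  have ho : IsOpen ((A.e i).target ∩ (A.e i).symm ⁻¹' F.Om) :=
    (A.e i).isOpen_inter_preimage_symm F.op
  -- a point of `Om` near `z'`
  have h0 : W ∩ (A.e i).target ∈ 𝓝 z' := inter_mem hW ((A.e i).open_target.mem_nhds hz')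
  obtain ⟨O, hOs, hO, hzO'⟩ := mem_nhds_iff.1 h0
  have h5 : IsOpen ((A.e i).source ∩ A.e i ⁻¹' O) := (A.e i).isOpen_inter_preimage hO
  obtain ⟨p, hp, hpO⟩ := F.dns.inter_open_nonempty _ h5
    ⟨(A.e i).symm z', (A.e i).map_target hz', by
      show A.e i ((A.e i).symm z') ∈ O
      rw [(A.e i).right_inv hz']
      exact hzO'⟩
  have hpW : A.e i p ∈ W := (hOs hp.2).1
  have h1 : O ∩ ((A.e i).target ∩ (A.e i).symm ⁻¹' F.Om) ∈ 𝓝 (A.e i p) :=
    (hO.inter ho).mem_nhds ⟨hp.2, (A.e i).map_source hp.1, by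
      show (A.e i).symm (A.e i p) ∈ F.Om
      rw [(A.e i).left_inv hp.1]
      exact hpO⟩
  have h2 : (fun v => z + v) ⁻¹' (O ∩ ((A.e i).target ∩ (A.e i).symm ⁻¹' F.Om)) ∈
      𝓝 (A.e i p - z) := by
    have h3 : ContinuousAt (fun v => z + v) (A.e i p - z) := by fun_prop
    apply h3
    show _ ∈ 𝓝 (z + (A.e i p - z))
    rw [add_sub_cancel]
    exact h1
  obtain ⟨v, hvg, hv⟩ := (dense_gen2 F hn hz hzO).inter_nhds_nonempty h2
  exact ⟨z + v, (hOs hv.1).1, hv.2.1, hv.2.2, by rwa [add_sub_cancel_left]⟩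

/-- **the line through a generic transversal pair** -/
theorem line_good {i : A.ι} {z p w : Cn (2 * n)} {c0 : ℂ} {R : ℝ} (hR : 0 < R)
    (h : ∀ c : ℂ, ‖c‖ ≤ R → p + c • w ∈ (A.e i).target) (hz : p + c0 • w = z) (hc0 : ‖c0‖ < R)
    (hzO : (A.e i).symm z ∈ F.Om) (hg : p - z ∈ gen2 F i z) :
    ((lineD F i p w hR h).bad ∩ Metric.ball 0 R).Countable ∧ c0 ∉ (lineD F i p w hR h).bad ∧
      ∀ c : ℂ, ‖c‖ < R → (A.e i).symm (p + c • w) ∈ F.Om →
        ∀ᶠ c' in 𝓝[≠] c, c' ∉ (lineD F i p w hR h).bad := by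
  set D := lineD F i p w hR h with hD
  have hv0 : p - z ≠ 0 := ne_zero_of_trv F hg.2
  have hv : p - z = (-c0) • w := by
    rw [← hz]
    module
  have hc00 : c0 ≠ 0 := by
    rintro rfl
    apply hv0
    rw [hv]
    simp
  -- the reparametrisation
  have hrep : ∀ c : ℂ, p + c • w = z + (1 - c / c0) • (p - z) := by
    intro c
    rw [hv, smul_smul, ← hz]
    have : (1 - c / c0) * -c0 = -c0 + c := by
      field_simp
      ring
    rw [this]
    module
  have hcount : {c : ℂ | ‖c‖ ≤ D.R ∧ D.pt c ∉ D.Om}.Countable := by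
    have h1 : ((fun c : ℂ => 1 - c / c0) ⁻¹' {c : ℂ | z + c • (p - z) ∈ (A.e i).target ∧
        (A.e i).symm (z + c • (p - z)) ∉ F.Om}).Countable := by
      refine (show ({c : ℂ | z + c • (p - z) ∈ (A.e i).target ∧
        (A.e i).symm (z + c • (p - z)) ∉ F.Om}).Countable from hg.1).preimage ?_
      intro a b hab
      have h2 : a / c0 = b / c0 := by
        have h3 : (1 : ℂ) - a / c0 = 1 - b / c0 := hab
        linear_combination -h3
      exact (div_left_inj' hc00).1 h2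
    refine h1.mono ?_
    rintro c ⟨h2, h3⟩
    have h4 : p + c • w ∈ (A.e i).target := h c h2
    have h5 : (A.e i).symm (p + c • w) ∉ F.Om := h3
    rw [hrep] at h4 h5
    exact ⟨h4, h5⟩
  have hc0b : c0 ∉ D.bad := by
    rintro ⟨h1, h2 | h2⟩
    · apply h2
      show (A.e i).symm (p + c0 • w) ∈ F.Om
      rw [hz]
      exact hzO
    · obtain ⟨τ, hτ, hτv⟩ := hg.2
      have h3 : D.pt c0 ∈ τ.W := by
        show (A.e i).symm (p + c0 • w) ∈ τ.W
        rw [hz]
        exact hτ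
      rw [D.kr_iff h1 h3] at h2
      have h4 : fderiv ℂ (fun z => τ.f ((A.e i).symm z)) (p + c0 • w) w = 0 := h2
      rw [hz] at h4
      apply hτv
      rw [hv, map_smul, h4, smul_zero]
  refine ⟨D.bad_countable hcount hc0 hc0b, hc0b, fun c hc hcO => ?_⟩
  have h1 := D.isolated hcount hc0 hc0b hc hcO
  have h2 : ∀ᶠ c' in 𝓝[≠] c, ‖c'‖ < D.R ∧ D.pt c' ∈ D.Om :=
    (D.ev_tube hc D.oOm hcO).filter_mono nhdsWithin_le_nhds
  filter_upwards [h1, h2] with c' h3 h4
  rintro ⟨-, h5 | h5⟩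
  · exact h5 h4.2
  · exact h3 h5


/-- generic transversal pairs are dense: in `M` -/
theorem exists_gen2 (hn : 0 < n) {i : A.ι} {x x' : M} (hx : x ∈ (A.e i).source)
    (hxO : x ∈ F.Om) (hx' : x' ∈ (A.e i).source) {W : Set M} (hW : W ∈ 𝓝 x') :
    ∃ x'' ∈ W, x'' ∈ (A.e i).source ∧ x'' ∈ F.Om ∧
      A.e i x'' - A.e i x ∈ gen2 F i (A.e i x) := by
  have h1 : (A.e i).symm ⁻¹' W ∈ 𝓝 (A.e i x') := by
    have h4 := (A.e i).continuousAt_symm ((A.e i).map_source hx')
    have h5 : W ∈ 𝓝 ((A.e i).symm (A.e i x')) := by rw [(A.e i).left_inv hx']; exact hW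
    exact h4 h5
  obtain ⟨z, hz, hzt, hzO, hzg⟩ := exists_gen2_chart F hn ((A.e i).map_source hx)
    (by rw [(A.e i).left_inv hx]; exact hxO) ((A.e i).map_source hx') h1
  refine ⟨(A.e i).symm z, hz, (A.e i).map_target hzt, hzO, ?_⟩
  rwa [(A.e i).right_inv hzt]

end top

section norm

variable {N d k : ℕ} {M : Type} [TopologicalSpace M] {A : Atl N M} {Tf : M → Set M}
variable (D : LineD A Tf k d)

/-- the bad parameters in a smaller closed disc form a compact set -/
theorem isCompact_bad {R' : ℝ} (hR' : R' < D.R) : IsCompact (D.bad ∩ Metric.closedBall 0 R') := by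
  refine Metric.isCompact_of_isClosed_isBounded ?_ (Metric.isBounded_closedBall.subset
    inter_subset_right)
  rw [← isOpen_compl_iff, isOpen_iff_mem_nhds]
  intro c hc
  by_cases h : ‖c‖ ≤ R'
  · have h1 : c ∉ D.bad := fun h2 => hc ⟨h2, by simpa using h⟩
    filter_upwards [D.good_ev (h.trans_lt hR') h1] with c' h2 h3
    exact h2 h3.1
  · have h1 : ∀ᶠ c' : ℂ in 𝓝 c, R' < ‖c'‖ :=
      continuousAt_const.eventually_lt continuous_norm.continuousAt (not_le.1 h)
    filter_upwards [h1] with c' h2 h3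
    have h4 := h3.2
    rw [mem_closedBall_zero_iff] at h4
    linarith

/-- the bad parameters in the normalised coordinate `y = c / R0`, `‖y‖ ≤ 1` -/
def nbad (R0 : ℝ) : Set ℂ := {y | ‖y‖ ≤ 1 ∧ (R0 : ℂ) * y ∈ D.bad}

theorem isCompact_nbad {R0 : ℝ} (h0 : 0 < R0) (hR : R0 < D.R) : IsCompact (nbad D R0) := by
  have h1 : nbad D R0 = (fun c : ℂ => (R0 : ℂ)⁻¹ * c) '' (D.bad ∩ Metric.closedBall 0 R0) := by
    have h2 : (R0 : ℂ) ≠ 0 := by exact_mod_cast h0.ne'
    ext y
    constructor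
    · rintro ⟨h3, h4⟩
      refine ⟨(R0 : ℂ) * y, ⟨h4, ?_⟩, ?_⟩
      · rw [mem_closedBall_zero_iff, norm_mul, Complex.norm_real, Real.norm_of_nonneg h0.le]
        exact mul_le_of_le_one_right h0.le h3
      · show (R0 : ℂ)⁻¹ * ((R0 : ℂ) * y) = y
        rw [← mul_assoc, inv_mul_cancel₀ h2, one_mul]
    · rintro ⟨c, ⟨h3, h4⟩, rfl⟩
      rw [mem_closedBall_zero_iff] at h4
      refine ⟨?_, ?_⟩
      · rw [norm_mul, norm_inv, Complex.norm_real, Real.norm_of_nonneg h0.le]
        exact inv_mul_le_one_of_le₀ h4 h0.le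
      · show (R0 : ℂ) * ((R0 : ℂ)⁻¹ * c) ∈ D.bad
        rw [← mul_assoc, mul_inv_cancel₀ h2, one_mul]
        exact h3
  rw [h1]
  exact (isCompact_bad D hR).image (by fun_prop)

theorem isCompact_nbad_sdiff {R0 : ℝ} (h0 : 0 < R0) (hR : R0 < D.R)
    (hi : ∀ᶠ c in 𝓝[≠] (0 : ℂ), c ∉ D.bad) : IsCompact (nbad D R0 \ {0}) := by
  have h2 : (R0 : ℂ) ≠ 0 := by exact_mod_cast h0.ne'
  have h1 : ∀ᶠ y in 𝓝[≠] (0 : ℂ), (R0 : ℂ) * y ∉ D.bad := by
    have h3 : Tendsto (fun y : ℂ => (R0 : ℂ) * y) (𝓝[≠] 0) (𝓝[≠] 0) := by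
      refine tendsto_nhdsWithin_iff.2 ⟨?_, ?_⟩
      · have h4 : Continuous fun y : ℂ => (R0 : ℂ) * y := by fun_prop
        have h5 := h4.tendsto 0
        rw [mul_zero] at h5
        exact h5.mono_left nhdsWithin_le_nhds
      · filter_upwards [self_mem_nhdsWithin] with y hy
        exact mul_ne_zero h2 hy
    exact h3.eventually hi
  obtain ⟨O, h0O, hO, hOs⟩ := mem_nhdsWithin.1 h1
  have h3 : nbad D R0 \ {0} = nbad D R0 \ O := by
    ext y
    constructor
    · rintro ⟨h4, h5⟩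
      exact ⟨h4, fun h6 => hOs ⟨h6, h5⟩ h4.2⟩
    · rintro ⟨h4, h5⟩
      refine ⟨h4, ?_⟩
      rintro rfl
      exact h5 hO
  rw [h3]
  exact (isCompact_nbad D h0 hR).diff h0O

theorem countable_nbad {R0 : ℝ} (h0 : 0 < R0) (hR : R0 < D.R)
    (hc : (D.bad ∩ Metric.ball 0 D.R).Countable) : (nbad D R0).Countable := by
  have h2 : (R0 : ℂ) ≠ 0 := by exact_mod_cast h0.ne'
  refine (hc.preimage (f := fun y : ℂ => (R0 : ℂ) * y) (mul_right_injective₀ h2)).mono ?_
  rintro y ⟨h3, h4⟩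
  refine ⟨h4, ?_⟩
  rw [mem_ball_zero_iff, norm_mul, Complex.norm_real, Real.norm_of_nonneg h0.le]
  exact (mul_le_of_le_one_right h0.le h3).trans_lt hR

end norm

section metric

variable {M : Type} [MetricSpace M] {A : Atl (2 * n) M} {σ : HSymp A} (F : LFib A σ)

/-- a local modulus for the generic transversal pairs gives the uniform modulus for all pairs -/
theorem unif_of2 [CompactSpace M] (hn : 0 < n)
    (h : ∀ x₀ : M, ∀ ε : ℝ, 0 < ε → ∃ i, ∃ W ∈ 𝓝 x₀, W ⊆ (A.e i).source ∧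
      ∀ z ∈ W ∩ F.Om, ∀ z' ∈ W ∩ F.Om, A.e i z' - A.e i z ∈ gen2 F i (A.e i z) →
        ∀ q ∈ F.Tf z, ∃ q' ∈ F.Tf z', dist q q' < ε) :
    ∀ ε : ℝ, 0 < ε → ∃ η : ℝ, 0 < η ∧ ∀ z ∈ F.Om, ∀ z' ∈ F.Om, dist z z' < η →
      ∀ q ∈ F.Tf z, ∃ q' ∈ F.Tf z', dist q q' < ε := by
  intro ε hε
  choose i W hW hWs hWm using fun x₀ => h x₀ (ε / 2) (half_pos hε)
  obtain ⟨η, hη, hL⟩ := lebesgue_number_lemma_of_metric (s := (univ : Set M)) isCompact_univ
    (c := fun x₀ => interior (W x₀)) (fun x₀ => isOpen_interior)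
    (fun x _ => mem_iUnion.2 ⟨x, mem_interior_iff_mem_nhds.2 (hW x)⟩)
  refine ⟨η, hη, fun z hz z' hz' hd q hq => ?_⟩
  obtain ⟨x₀, hx₀⟩ := hL z (mem_univ z)
  have hzW : z ∈ interior (W x₀) := hx₀ (Metric.mem_ball_self hη)
  have hzW' : z' ∈ interior (W x₀) := hx₀ (by rw [Metric.mem_ball, dist_comm]; exact hd)
  obtain ⟨z'', hz'', h1, h2, h3⟩ := exists_gen2 F hn (hWs x₀ (interior_subset hzW)) hz
    (hWs x₀ (interior_subset hzW'))
    (inter_mem (mem_interior_iff_mem_nhds.1 hzW') (exists_near F hz' (half_pos hε)))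
  obtain ⟨q1, hq1, hd1⟩ := hWm x₀ z ⟨interior_subset hzW, hz⟩ z'' ⟨hz''.1, h2⟩ h3 q hq
  obtain ⟨q', hq', hd'⟩ := hz''.2 q1 hq1
  refine ⟨q', hq', ?_⟩
  have := dist_triangle q q1 q'
  linarith

/-- the partition data of helper166, from a local modulus on the generic transversal pairs -/
def pd2 [CompactSpace M] (hn : 0 < n)
    (h : ∀ x₀ : M, ∀ ε : ℝ, 0 < ε → ∃ i, ∃ W ∈ 𝓝 x₀, W ⊆ (A.e i).source ∧
      ∀ z ∈ W ∩ F.Om, ∀ z' ∈ W ∩ F.Om, A.e i z' - A.e i z ∈ gen2 F i (A.e i z) →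
        ∀ q ∈ F.Tf z, ∃ q' ∈ F.Tf z', dist q q' < ε) : Con_166.PD M where
  Om := F.Om
  dense := F.dns
  T := F.Tf
  mem _ hz := mem F hz
  sub _ hz := sub F hz
  cpt _ hz := isCompact F hz
  conn _ hz := (isConnected F hz).isPreconnected
  eq _ hz _ hy := eq F hz hy
  unif := unif_of2 F hn h

end metric

end

end Crest.Agent.R281.Ln_254
end

-- ▼ part R281/Con10_166
section

/-!
# R281 (S0424), DIV 6, S6-CONT part 10 (helper166): the Laplacian of the potential on a disc

`lap_pot` : `F1` the disc family of a line of the fibration `o.F`; for the function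
`pot c = (weight of h + u)(line c) / (4 a)` one has `lap pot = push (det K_V)`.
-/

set_option autoImplicit false
set_option linter.unusedSectionVars false

open Set Filter Topology Complex Function MeasureTheory
open scoped ContDiff Matrix ComplexConjugate ComplexOrder ENNReal

namespace Crest.Agent.R281.Con_166

open Crest.Agent.R275.Geo Crest.Agent.R275.Core144 Crest.Agent.R275.EDR890
open Crest.Agent.R275.GC293 Crest.Agent.R275.Prod363
open Crest.Agent.R273.Defs_333 Crest.Agent.R273.Kah_333 Crest.Agent.R273.Hess_333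
open Crest.Agent.R273.HessB_333 Crest.Agent.R273.HM_333
open Crest.Agent.R273.Map_835 Crest.Agent.R273.KahI_645 Crest.Agent.R273.Vol_333
open Crest.Agent.R273.Vm_333 Crest.Agent.R281.Defs_273 Crest.Agent.R281.S6D_664
open Crest.Agent.R281.S6V_664 Crest.Agent.R281.Fub_192 Crest.Agent.R281.D6_986
open Crest.Agent.R281.Fib2_425 (push)
open Crest.Agent.R281.Fub4_163 (ofC ofC_apply)
open Crest.Agent.R281.Jen_563 (lap)

noncomputable section

/-! ### Hermitian forms -/

section Quad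

variable {N p : ℕ}

/-- `∑ H_ab v_a conj v_b` -/
def qf (H : Matrix (Fin N) (Fin N) ℂ) (v : Cn N) : ℂ := ∑ a, ∑ b, H a b * v a * conj (v b)

theorem hq_eq_qf (u : Cn N → ℝ) (z v : Cn N) : hq u z v = qf (hess u z) v := rfl

theorem qf_smul (c : ℂ) (H : Matrix (Fin N) (Fin N) ℂ) (v : Cn N) : qf (c • H) v = c * qf H v := by
  simp only [qf, Matrix.smul_apply, smul_eq_mul, Finset.mul_sum, mul_assoc]

theorem qf_eq_dot (H : Matrix (Fin N) (Fin N) ℂ) (v : Cn N) :
    qf H v = (fun a => v a) ⬝ᵥ (H *ᵥ fun b => conj (v b)) := by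
  simp only [qf, dotProduct, Matrix.mulVec, Finset.mul_sum]
  refine Finset.sum_congr rfl fun a _ => Finset.sum_congr rfl fun b _ => ?_
  ring

theorem qf_pull (H : Matrix (Fin N) (Fin N) ℂ) (L : Cn p →L[ℂ] Cn N) (ξ : Cn p) :
    qf ((mt L)ᵀ * H * (mt L).map conj) ξ = qf H (L ξ) := by
  have h1 : (fun a => (L ξ) a) = mt L *ᵥ (fun a => ξ a) := by
    funext a
    rw [mt_apply]
    rfl
  have h2 : (fun b => conj ((L ξ) b)) = (mt L).map conj *ᵥ (fun b => conj (ξ b)) := by
    funext b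
    rw [mt_apply, map_sum]
    simp only [Matrix.mulVec, dotProduct, Matrix.map_apply, map_mul]
  rw [qf_eq_dot, qf_eq_dot, h1, h2, Matrix.mulVec_mulVec, Matrix.mul_assoc,
    ← Matrix.mulVec_mulVec, Matrix.dotProduct_mulVec, Matrix.vecMul_transpose]

theorem qf_single (c : ℂ) (l : Fin N) (v : Cn N) :
    qf (c • Matrix.single l l (1 : ℂ)) v = c * (v l * conj (v l)) := by
  rw [qf_smul]
  congr 1
  unfold qf
  rw [Finset.sum_eq_single l, Finset.sum_eq_single l]
  · simp
  · intro b _ hb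
    simp [Ne.symm hb]
  · intro h
    exact absurd (Finset.mem_univ _) h
  · intro a _ ha
    refine Finset.sum_eq_zero fun b _ => ?_
    simp [Ne.symm ha]
  · intro h
    exact absurd (Finset.mem_univ _) h

end Quad

/-! ### the potential -/

section Pot

variable {n : ℕ} {M : Type} [TopologicalSpace M] [T2Space M] {A : Atl (2 * n) M} {σ : HSymp A}
  {L : LB A} {K : Kah A} {o : OmOut σ L} {h : HM L}

/-- weight of `h` + `u`, normalised -/
def gp (up : UPre K o h) (i : A.ι) (w : Cn (2 * n)) : ℝ :=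
  (4 * up.a)⁻¹ * (h.wt i w + up.u ((A.e i).symm w))

theorem gp_smooth (up : UPre K o h) (i : A.ι) {w : Cn (2 * n)} (hw : w ∈ (A.e i).target)
    (hO : (A.e i).symm w ∈ o.F.Om) : ContDiffAt ℝ ∞ (gp up i) w :=
  contDiffAt_const.mul (((wt_smooth h i).contDiffAt ((A.e i).open_target.mem_nhds hw)).add
    (up.sm i w hw hO))

theorem hess_gp (up : UPre K o h) (i : A.ι) {w : Cn (2 * n)} (hw : w ∈ (A.e i).target)
    (hO : (A.e i).symm w ∈ o.F.Om) : hess (gp up i) w =
      (((4 * up.a)⁻¹ : ℝ) : ℂ) • (cur h i ((A.e i).symm w) + hsf A up.u i ((A.e i).symm w)) := by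
  have h1 : ContDiffAt ℝ ∞ (h.wt i) w :=
    (wt_smooth h i).contDiffAt ((A.e i).open_target.mem_nhds hw)
  have h2 := up.sm i w hw hO
  have h3 : hess (gp up i) w = (((4 * up.a)⁻¹ : ℝ) : ℂ) •
      hess (fun w => h.wt i w + up.u ((A.e i).symm w)) w := hess_const_mul _ (h1.add h2)
  rw [h3, hess_add h1 h2]
  unfold cur hsf
  rw [(A.e i).right_inv hw]

/-- the potential on the disc of a line -/
def potD (up : UPre K o h) (D : LineD A o.F.Tf n n) (c : ℂ) : ℝ :=
  gp up D.i (D.z + (c - LineD.kp) • LV D)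

theorem line_eq (D : LineD A o.F.Tf n n) (c : ℂ) :
    D.z + (c - LineD.kp) • LV D = D.z + D.cp (ofC c) • D.v := by
  unfold LineD.cp LV
  rw [smul_smul, mul_comm (c - LineD.kp), ofC_apply]

/-- **the Laplacian of the potential is the density of the pushed forward volume** -/
theorem lap_pot (up : UPre K o h) (D : LineD A o.F.Tf n n) (hDO : D.Om ⊆ o.F.Om)
    (F1 : Fam A n 1 D.UU) (h1 : ∀ w, F1.i w ∈ o.F.Tf (D.pt (D.cp (F1.y w))))
    (h2 : ∀ u ∈ D.UU, ∀ x ∈ o.F.Tf (D.pt (D.cp u)), ∃ w, F1.y w = u ∧ F1.i w = x)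
    (hL : Leafy o.F F1) {c : ℂ} (hc : ofC c ∈ D.UU) :
    ContDiffAt ℝ ∞ (potD up D) c ∧
    (push F1.P (fun k v => ((F1.kah K).g k v).det) (ofC c)).re = lap (potD up D) c := by
  have hcR : ‖D.cp (ofC c)‖ < D.R := D.cp_lt hc.1
  have hOm : D.pt (D.cp (ofC c)) ∈ o.F.Om := hDO (D.not_bad hcR.le hc.2).1
  obtain ⟨v0, hy0, hv0⟩ := h2 _ hc _ (Hs_254.mem o.F hOm)
  obtain ⟨k, hk⟩ := F1.B.cover v0
  obtain ⟨ξ, hξ1, hξ2⟩ := exists_xi D F1 h1 hc hy0 hv0 hk
  have hi0 : F1.i v0 ∈ (A.e D.i).source := by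
    rw [hv0]
    exact D.pt_mem hcR.le
  have hid := up.id D.UU D.isOpen_UU F1 hL k v0 hk D.i hi0
  have hwt : D.z + D.cp (ofC c) • D.v ∈ (A.e D.i).target := D.mem _ hcR.le
  have hsm := gp_smooth up D.i hwt hOm
  have hhs := hess_gp up D.i hwt hOm
  have hpt : (A.e D.i).symm (D.z + D.cp (ofC c) • D.v) = F1.i v0 := hv0.symm
  rw [hpt] at hhs
  have e1 : lap (potD up D) c = (4 * hq (gp up D.i) (D.z + (c - LineD.kp) • LV D) (LV D)).re :=
    lap_line (g := gp up D.i) (by rw [line_eq]; exact hsm)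
  refine ⟨?_, ?_⟩
  · have h3 : ContDiffAt ℝ ∞ (gp up D.i) (D.z + (c - LineD.kp) • LV D) := by
      rw [line_eq]
      exact hsm
    have h4 : ContDiffAt ℝ ∞ (fun c : ℂ => D.z + (c - LineD.kp) • LV D) c := by fun_prop
    exact h3.comp c h4
  · rw [e1, line_eq, hq_eq_qf, hhs, qf_smul, ← hξ1]
    have h5 := qf_pull (cur h D.i (F1.i v0) + hsf A up.u D.i (F1.i v0))
      (fderiv ℂ (rd F1.B A F1.i k D.i) (F1.B.e k v0)) ξ
    have h6 : mt (fderiv ℂ (rd F1.B A F1.i k D.i) (F1.B.e k v0)) = Jp F1.B A F1.i k D.i v0 :=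
      (Jp_eq k D.i v0).symm
    rw [← h5, h6, hid, qf_single]
    have h7 : ξ (Fin.last n) = 1 := by
      have h9 : laL n 1 ξ 0 = ξ (Fin.natAdd n 0) := laL_apply ξ 0
      rw [h9] at hξ2
      exact hξ2
    rw [h7, hy0, map_one, mul_one, mul_one]
    have h8 : (4 : ℂ) * ((((4 * up.a)⁻¹ : ℝ) : ℂ) * ((up.a : ℂ) *
        push F1.P (fun k v => ((F1.kah K).g k v).det) (ofC c))) =
        push F1.P (fun k v => ((F1.kah K).g k v).det) (ofC c) := by
      have : (up.a : ℂ) ≠ 0 := by exact_mod_cast up.a_pos.ne'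
      push_cast
      field_simp
    rw [h8]

/-- the family of a line is leafy -/
theorem leafy_line (D : LineD A o.F.Tf n n) (hDO : D.Om ⊆ o.F.Om)
    (F1 : Fam A n 1 D.UU) (h1 : ∀ w, F1.i w ∈ o.F.Tf (D.pt (D.cp (F1.y w))))
    (h2 : ∀ u ∈ D.UU, ∀ x ∈ o.F.Tf (D.pt (D.cp u)), ∃ w, F1.y w = u ∧ F1.i w = x) :
    Leafy o.F F1 := by
  intro w
  have hu := F1.mem w
  have hOm : D.pt (D.cp (F1.y w)) ∈ o.F.Om := hDO (D.not_bad (D.cp_lt hu.1).le hu.2).1
  refine ⟨Hs_254.sub o.F hOm (h1 w), ?_⟩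
  rw [Hs_254.eq o.F hOm (h1 w)]
  ext x
  constructor
  · intro hx
    obtain ⟨w', hw', hx'⟩ := h2 _ hu x hx
    exact ⟨w', hw', hx'⟩
  · rintro ⟨w', hw', rfl⟩
    have h3 := h1 w'
    have h4 : F1.y w' = F1.y w := hw'
    rwa [h4] at h3

end Pot

end

end Crest.Agent.R281.Con_166
end

-- ▼ part R281/Con11_166
section

/-!
# R281 (S0424), DIV 6, S6-CONT part 11 (helper166): uniform continuity of the leaves

`local_modulus` : the hypothesis of `Ln_254.pd2`; `exists_pd` : the partition `PD M`.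
-/

set_option autoImplicit false
set_option linter.unusedSectionVars false

open Set Filter Topology Complex Function MeasureTheory
open scoped ContDiff Matrix ComplexConjugate ComplexOrder ENNReal Real

namespace Crest.Agent.R281.Con_166

open Crest.Agent.R275.Geo Crest.Agent.R275.Core144 Crest.Agent.R275.EDR890
open Crest.Agent.R275.GC293 Crest.Agent.R275.Prod363
open Crest.Agent.R273.Defs_333 Crest.Agent.R273.Kah_333 Crest.Agent.R273.Hess_333
open Crest.Agent.R273.HessB_333 Crest.Agent.R273.HM_333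
open Crest.Agent.R273.Map_835 Crest.Agent.R273.KahI_645 Crest.Agent.R273.Vol_333
open Crest.Agent.R273.Vm_333 Crest.Agent.R281.Defs_273 Crest.Agent.R281.S6D_664
open Crest.Agent.R281.S6V_664 Crest.Agent.R281.Fub_192 Crest.Agent.R281.D6_986
open Crest.Agent.R281.Mv_757 (bv bv_pos)
open Crest.Agent.R281.Fib2_425 (push)
open Crest.Agent.R281.Fub4_163 (ofC ofC_apply)
open Crest.Agent.R281.Jen_563 (lap)
open Crest.Agent.R281.Ln_254

noncomputable section

/-- the mass bound (`nu_bound`) for one family -/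
def NUB {N d : ℕ} {M : Type} [TopologicalSpace M] {A : Atl N M} {U : Set (Cn 1)}
    (F : Fam A d 1 U) (K : Kah A) (a0 : ℂ) (R : ℝ) : Prop :=
  ∀ (E : Set ℂ) (G : ℂ → ℝ) (m1 m2 : ℝ), E.Countable → IsOpen (Metric.ball a0 R \ E) →
    (∀ c ∈ Metric.ball a0 R, ofC c ∈ U ↔ c ∉ E) → ContDiffOn ℝ 2 G (Metric.ball a0 R \ E) →
    (∀ c ∈ Metric.ball a0 R \ E, m1 ≤ G c ∧ G c ≤ m2) →
    (∀ c ∈ Metric.ball a0 R \ E,
      (push F.P (fun k v => ((F.kah K).g k v).det) (ofC c)).re = lap G c) →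
    ∫⁻ v in {v | ‖F.y v 0 - a0‖ < R}, ENNReal.ofReal (Real.log (R / ‖F.y v 0 - a0‖)) ∂(F.mu K) ≤
      ENNReal.ofReal (2 * π * (m2 - m1))

section Norm

variable {N d k : ℕ} {M : Type} [TopologicalSpace M] {A : Atl N M} {Tf : M → Set M}
  (D : LineD A Tf k d)

theorem cp_eq_bc {ρ : ℝ} (hρ : D.R = 2 * ρ) (u : Cn 1) :
    D.cp u = (ρ : ℂ) * bc LineD.kp (1 / 4) u := by
  unfold LineD.cp bc
  rw [hρ]
  push_cast
  field_simp
  ring

theorem mem_UU_iff {ρ : ℝ} (hρ : D.R = 2 * ρ) (u : Cn 1) (h1 : ‖bc LineD.kp (1 / 4) u‖ < 1) :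
    u ∈ D.UU ↔ bc LineD.kp (1 / 4) u ∉ nbad D ρ := by
  have h2 : ‖u 0 - LineD.kp‖ < 1 / 2 := by
    have h3 : ‖bc LineD.kp (1 / 4) u‖ = 4 * ‖u 0 - LineD.kp‖ := by
      unfold bc
      rw [norm_div, Complex.norm_real, Real.norm_of_nonneg (by norm_num)]
      ring
    rw [h3] at h1
    linarith
  constructor
  · rintro ⟨-, h4⟩ ⟨-, h5⟩
    rw [cp_eq_bc D hρ] at h4
    exact h4 h5
  · intro h4
    refine ⟨h2, fun h5 => h4 ⟨h1.le, ?_⟩⟩
    rwa [cp_eq_bc D hρ] at h5

theorem not_nbad_of_UU {ρ : ℝ} (hρ : D.R = 2 * ρ) {u : Cn 1} (hu : u ∈ D.UU) :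
    bc LineD.kp (1 / 4) u ∉ nbad D ρ := by
  rintro ⟨-, h5⟩
  have h4 := hu.2
  rw [cp_eq_bc D hρ] at h4
  exact h4 h5

end Norm

variable {n : ℕ} {M : Type} [MetricSpace M] [CompactSpace M] {A : Atl (2 * n) M} {σ : HSymp A}
  {L : LB A} {K : Kah A} {o : OmOut σ L} {h : HM L}

/-- the mass bound for the disc family of a line -/
theorem mass_line (up : UPre K o h) (D : LineD A o.F.Tf n n) (hDO : D.Om ⊆ o.F.Om)
    (hcb : (D.bad ∩ Metric.ball 0 D.R).Countable) {m : ℝ}
    (hm : ∀ c : ℂ, ‖c‖ < D.R → |gp up D.i (D.z + c • D.v)| ≤ m)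
    (F1 : Fam A n 1 D.UU) (h1 : ∀ w, F1.i w ∈ o.F.Tf (D.pt (D.cp (F1.y w))))
    (h2 : ∀ u ∈ D.UU, ∀ x ∈ o.F.Tf (D.pt (D.cp u)), ∃ w, F1.y w = u ∧ F1.i w = x)
    (hNU : NUB F1 K LineD.kp (1 / 4)) :
    ∫⁻ v in {v | ‖bc LineD.kp (1 / 4) (F1.y v)‖ < 1},
      ENNReal.ofReal (Real.log (1 / ‖bc LineD.kp (1 / 4) (F1.y v)‖)) ∂(F1.mu K) ≤
      ENNReal.ofReal (2 * π * (m - -m)) := by
  have hR := D.R_pos
  have hL := leafy_line D hDO F1 h1 h2
  have hnb : ∀ u : Cn 1, ‖bc LineD.kp (1 / 4) u‖ = 4 * ‖u 0 - LineD.kp‖ := by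
    intro u
    unfold bc
    rw [norm_div, Complex.norm_real, Real.norm_of_nonneg (by norm_num)]
    ring
  have hcpc : Continuous fun c : ℂ => D.cp (ofC c) := by
    unfold LineD.cp
    simp only [ofC_apply]
    fun_prop
  set E : Set ℂ := {c | ‖c - LineD.kp‖ < 1 / 4 ∧ D.cp (ofC c) ∈ D.bad} with hE
  have hUE : ∀ c ∈ Metric.ball LineD.kp (1 / 4 : ℝ), ofC c ∈ D.UU ↔ c ∉ E := by
    intro c hc
    rw [mem_ball_iff_norm] at hc
    constructor
    · rintro ⟨-, h3⟩ ⟨-, h4⟩
      exact h3 h4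
    · intro h3
      refine ⟨?_, fun h4 => h3 ⟨hc, h4⟩⟩
      show ‖c - LineD.kp‖ < 1 / 2
      linarith
  have hEc : E.Countable := by
    have hinj : Injective fun c : ℂ => D.cp (ofC c) := by
      intro c c' hcc
      have h3 : ((2 * D.R : ℝ) : ℂ) * (c - LineD.kp) = ((2 * D.R : ℝ) : ℂ) * (c' - LineD.kp) := hcc
      have h4 : ((2 * D.R : ℝ) : ℂ) ≠ 0 := by exact_mod_cast (by positivity : (2 * D.R : ℝ) ≠ 0)
      exact sub_left_injective (mul_left_cancel₀ h4 h3)
    refine (hcb.preimage hinj).mono ?_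
    rintro c ⟨h3, h4⟩
    refine ⟨h4, ?_⟩
    rw [mem_ball_zero_iff]
    exact D.cp_lt (u := ofC c) (by show ‖c - LineD.kp‖ < 1 / 2; linarith)
  have hofC : Continuous ofC := by
    unfold ofC
    fun_prop
  have hset : Metric.ball LineD.kp (1 / 4 : ℝ) \ E = Metric.ball LineD.kp (1 / 4 : ℝ) ∩
      ofC ⁻¹' D.UU := by
    ext c
    constructor
    · rintro ⟨h3, h4⟩
      exact ⟨h3, (hUE c h3).2 h4⟩
    · rintro ⟨h3, h4⟩
      exact ⟨h3, (hUE c h3).1 h4⟩
  have hop : IsOpen (Metric.ball LineD.kp (1 / 4 : ℝ) \ E) := by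
    rw [hset]
    exact Metric.isOpen_ball.inter (D.isOpen_UU.preimage hofC)
  have key := hNU E (potD up D) (-m) m hEc hop hUE (fun c hc => ?_) (fun c hc => ?_)
    (fun c hc => ?_)
  · have e1 : {v : F1.V | ‖F1.y v 0 - LineD.kp‖ < (1 / 4 : ℝ)} =
        {v | ‖bc LineD.kp (1 / 4) (F1.y v)‖ < 1} := by
      ext v
      simp only [mem_ofPred_eq, hnb]
      constructor <;> intro h3 <;> linarith
    have e2 : ∀ v : F1.V, (1 / 4 : ℝ) / ‖F1.y v 0 - LineD.kp‖ =
        1 / ‖bc LineD.kp (1 / 4) (F1.y v)‖ := by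
      intro v
      rw [hnb]
      field_simp
    rw [e1] at key
    simp only [e2] at key
    exact key
  · have h3 := (lap_pot up D hDO F1 h1 h2 hL (c := c) ((hUE c hc.1).2 hc.2)).1
    have h4 : ContDiffAt ℝ 2 (potD up D) c := by exact_mod_cast contDiffAt_infty.1 h3 2
    exact h4.contDiffWithinAt
  · have h3 : |potD up D c| ≤ m := by
      unfold potD
      rw [line_eq]
      refine hm _ (D.cp_lt ?_)
      show ‖c - LineD.kp‖ < 1 / 2
      have := mem_ball_iff_norm.1 hc.1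
      linarith
    exact abs_le.1 h3
  · exact (lap_pot up D hDO F1 h1 h2 hL (c := c) ((hUE c hc.1).2 hc.2)).2

/-- `NUB` for all disc families -/
def NUall (A : Atl (2 * n) M) (K : Kah A) : Prop :=
  ∀ (U : Set (Cn 1)), IsOpen U → ∀ F : Fam A n 1 U, ∀ (a0 : ℂ) (R : ℝ), 0 < R → NUB F K a0 R

/-- **the local modulus for generic pairs** -/
theorem local_modulus (up : UPre K o h) (hNU : NUall A K) (x₀ : M) (ε : ℝ)
    (hε : 0 < ε) : ∃ i, ∃ W ∈ 𝓝 x₀, W ⊆ (A.e i).source ∧
      ∀ z ∈ W ∩ o.F.Om, ∀ z' ∈ W ∩ o.F.Om, A.e i z' - A.e i z ∈ gen2 o.F i (A.e i z) →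
        ∀ q ∈ o.F.Tf z, ∃ q' ∈ o.F.Tf z', dist q q' < ε := by
  obtain ⟨i, hi⟩ := A.cover x₀
  have ht : A.e i x₀ ∈ (A.e i).target := (A.e i).map_source hi
  obtain ⟨r0, hr0, hball0⟩ := Metric.isOpen_iff.1 (A.e i).open_target _ ht
  set ρ : ℝ := r0 / 4 with hρ
  have hρ0 : 0 < ρ := by positivity
  have hball : Metric.closedBall (A.e i x₀) (3 * ρ) ⊆ (A.e i).target :=
    (Metric.closedBall_subset_ball (by rw [hρ]; linarith)).trans hball0
  -- the bound of the potential
  obtain ⟨Cw, hCw⟩ := (isCompact_closedBall (A.e i x₀) (3 * ρ)).exists_bound_of_continuousOn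
    ((wt_smooth h i).continuousOn.mono hball)
  have ha := up.a_pos
  set m : ℝ := (4 * up.a)⁻¹ * (Cw + up.B) with hm
  have hgp : ∀ w ∈ Metric.closedBall (A.e i x₀) (3 * ρ), |gp up i w| ≤ m := by
    intro w hw
    unfold gp
    rw [abs_mul, abs_of_pos (by positivity : (0 : ℝ) < (4 * up.a)⁻¹), hm]
    refine mul_le_mul_of_nonneg_left ?_ (by positivity)
    have h1 := hCw w hw
    rw [Real.norm_eq_abs] at h1
    exact (abs_add_le _ _).trans (add_le_add h1 (up.bdd _))
  have hm0 : 0 ≤ m := (abs_nonneg _).trans (hgp (A.e i x₀) (Metric.mem_closedBall_self (by positivity)))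
  obtain ⟨δ, hδ, C, hC, hUC⟩ := exists_unif_chart K hε
  have hbv := bv_pos (n := n + 1)
  have hHs : 0 < Hs 1 := Hs_pos one_pos
  set C₀ : ℝ := 2 * π * (m - -m) with hC₀
  have hC₀0 : 0 ≤ C₀ := by
    have := Real.pi_pos
    rw [hC₀]
    have : 0 ≤ m - -m := by linarith
    positivity
  set c₁ : ℝ := bv (n + 1) * Hs 1 * δ ^ (2 * (n + 1)) with hc₁
  have hc₁0 : 0 < c₁ := by positivity
  set X : ℝ := C ^ (n + 1) * C₀ / c₁ with hX
  have hX0 : 0 ≤ X := by positivity
  set r₁ : ℝ := ρ * Real.exp (-X) / 2 with hr₁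
  have hexp1 : Real.exp (-X) ≤ 1 := by
    rw [Real.exp_le_one_iff]
    linarith
  have hexp0 := Real.exp_pos (-X)
  have hr₁0 : 0 < r₁ := by positivity
  have hr₁ρ : r₁ ≤ ρ / 2 := by
    rw [hr₁]
    have := mul_le_mul_of_nonneg_left hexp1 hρ0.le
    linarith
  refine ⟨i, (A.e i).source ∩ A.e i ⁻¹' Metric.ball (A.e i x₀) r₁,
    ((A.e i).isOpen_inter_preimage Metric.isOpen_ball).mem_nhds
      ⟨hi, Metric.mem_ball_self hr₁0⟩, inter_subset_left, ?_⟩
  rintro z ⟨⟨hzs, hzb⟩, hzO⟩ z' ⟨⟨hzs', hzb'⟩, hzO'⟩ hgen q hq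
  by_contra hcon
  push Not at hcon
  -- the line
  set p := A.e i z' with hp
  set zz := A.e i z with hzz
  have hzzO : (A.e i).symm zz ∈ o.F.Om := by
    rw [hzz, (A.e i).left_inv hzs]
    exact hzO
  have hpO : (A.e i).symm p ∈ o.F.Om := by
    rw [hp, (A.e i).left_inv hzs']
    exact hzO'
  have hne : zz - p ≠ 0 := by
    intro h0
    apply ne_zero_of_trv o.F hgen.2
    rw [← neg_sub, h0, neg_zero]
  set t : ℝ := ‖zz - p‖ with ht'
  have ht0 : 0 < t := norm_pos_iff.2 hne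
  have htr : t < 2 * r₁ := by
    have h1 : dist zz (A.e i x₀) < r₁ := hzb
    have h2 : dist p (A.e i x₀) < r₁ := hzb'
    have h3 := dist_triangle_right zz p (A.e i x₀)
    rw [ht', ← dist_eq_norm]
    linarith
  have htρ : t < ρ := by linarith
  set w : Cn (2 * n) := ((t : ℂ)⁻¹) • (zz - p) with hw
  have htC : (t : ℂ) ≠ 0 := by exact_mod_cast ht0.ne'
  have hwn : ‖w‖ = 1 := by
    rw [hw, norm_smul, norm_inv, Complex.norm_real, Real.norm_of_nonneg ht0.le, ← ht',
      inv_mul_cancel₀ ht0.ne']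
  have hpz : p + (t : ℂ) • w = zz := by
    rw [hw, smul_smul, mul_inv_cancel₀ htC, one_smul]
    abel
  have hR : (0 : ℝ) < 2 * ρ := by positivity
  have hmem : ∀ c : ℂ, ‖c‖ ≤ 2 * ρ → p + c • w ∈ Metric.closedBall (A.e i x₀) (3 * ρ) := by
    intro c hc
    rw [mem_closedBall_iff_norm]
    have h2 : ‖p - A.e i x₀‖ < r₁ := mem_ball_iff_norm.1 hzb'
    have h3 : p + c • w - A.e i x₀ = (p - A.e i x₀) + c • w := by abel
    rw [h3]
    refine (norm_add_le _ _).trans ?_
    rw [norm_smul, hwn]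
    linarith
  have hmt : ∀ c : ℂ, ‖c‖ ≤ 2 * ρ → p + c • w ∈ (A.e i).target := fun c hc => hball (hmem c hc)
  obtain ⟨hcb, htb, hiso⟩ := line_good o.F hR hmt hpz
    (by rw [Complex.norm_real, Real.norm_of_nonneg ht0.le]; linarith) hzzO hgen
  set D : LineD A o.F.Tf n n := lineD o.F i p w hR hmt with hD
  have hDR : D.R = 2 * ρ := rfl
  have hDO : D.Om ⊆ o.F.Om := fun x hx => hx
  -- the point of the base over `z`
  set u₁ : Cn 1 := ofC (LineD.kp + (t : ℂ) / (4 * ρ)) with hu₁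
  have hρC : (ρ : ℂ) ≠ 0 := by exact_mod_cast hρ0.ne'
  have hcp1 : D.cp u₁ = t := by
    show ((2 * D.R : ℝ) : ℂ) * (LineD.kp + (t : ℂ) / (4 * ρ) - LineD.kp) = t
    rw [hDR]
    push_cast
    field_simp
    ring
  have hbc1 : bc LineD.kp (1 / 4) u₁ = (t : ℂ) / ρ := by
    have := cp_eq_bc D hDR u₁
    rw [hcp1] at this
    rw [this]
    field_simp
  have hζn : ‖bc LineD.kp (1 / 4) u₁‖ = t / ρ := by
    rw [hbc1, norm_div, Complex.norm_real, Complex.norm_real, Real.norm_of_nonneg ht0.le,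
      Real.norm_of_nonneg hρ0.le]
  have hζ1 : ‖bc LineD.kp (1 / 4) u₁‖ < 1 := by
    rw [hζn, div_lt_one hρ0]
    exact htρ
  have hu₁U : u₁ ∈ D.UU := by
    rw [mem_UU_iff D hDR u₁ hζ1]
    rintro ⟨-, h3⟩
    rw [hbc1] at h3
    have h4 : (ρ : ℂ) * ((t : ℂ) / ρ) = t := by field_simp
    rw [h4] at h3
    exact htb h3
  obtain ⟨F1, h1, h2⟩ := D.exists_disc ⟨u₁, hu₁U⟩
  have hmass := mass_line up D hDO hcb (m := m) (fun c hc => hgp _ (hmem c hc.le)) F1 h1 h2
    (hNU _ D.isOpen_UU F1 _ _ (by norm_num))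
  -- the point over `q`
  have hptt : D.pt (D.cp u₁) = z := by
    rw [hcp1]
    show (A.e i).symm (p + (t : ℂ) • w) = z
    rw [hpz, hzz, (A.e i).left_inv hzs]
  obtain ⟨vq, hvy, hvq⟩ := h2 u₁ hu₁U q (by rw [hptt]; exact hq)
  obtain ⟨j, hqj, hjb, hjU⟩ := hUC q
  -- the fibre over the centre misses the chart ball
  have hGc : IsCompact ((A.e j).symm '' Metric.closedBall (A.e j q) δ) :=
    (isCompact_closedBall _ _).image_of_continuousOn ((A.e j).continuousOn_symm.mono hjb)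
  have hTG : o.F.Tf z' ⊆ ((A.e j).symm '' Metric.closedBall (A.e j q) δ)ᶜ := by
    rintro x hx ⟨y, hy, hyx⟩
    have h3 := (hjU y hy).1
    rw [hyx] at h3
    have h4 := hcon x hx
    rw [dist_comm] at h4
    exact absurd h3 (not_lt.2 h4)
  have husc := Hs_254.usc o.F hzO' hGc.isClosed.isOpen_compl hTG
  have hpt0 : D.pt 0 = z' := by
    show (A.e i).symm (p + (0 : ℂ) • w) = z'
    rw [zero_smul, add_zero, hp, (A.e i).left_inv hzs']
  have hev : ∀ᶠ c in 𝓝 (0 : ℂ), o.F.Tf (D.pt c) ⊆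
      ((A.e j).symm '' Metric.closedBall (A.e j q) δ)ᶜ := by
    have h3 : ContinuousAt D.pt 0 := D.cont_pt.continuousAt
      (mem_of_superset (Metric.isOpen_ball.mem_nhds (by simpa [hDR] using hρ0))
        Metric.ball_subset_closedBall)
    rw [← hpt0] at husc
    exact h3.eventually husc
  obtain ⟨r₂, hr₂, hr₂'⟩ := Metric.eventually_nhds_iff.1 hev
  have hmiss : ∀ v, F1.i v ∈ (A.e j).symm '' Metric.ball (A.e j q) δ →
      r₂ / (2 * ρ) < ‖bc LineD.kp (1 / 4) (F1.y v)‖ := by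
    rintro v ⟨y, hy, hyv⟩
    by_contra h3
    rw [not_lt, le_div_iff₀ hR] at h3
    have h4 : dist (D.cp (F1.y v)) 0 < r₂ := by
      rw [dist_zero_right, cp_eq_bc D hDR, norm_mul, Complex.norm_real,
        Real.norm_of_nonneg hρ0.le]
      have h5 : 0 ≤ ‖bc LineD.kp (1 / 4) (F1.y v)‖ := norm_nonneg _
      have h6 : ‖bc LineD.kp (1 / 4) (F1.y v)‖ * (2 * ρ) =
        2 * (ρ * ‖bc LineD.kp (1 / 4) (F1.y v)‖) := by ring
      rw [h6] at h3
      rcases eq_or_lt_of_le (mul_nonneg hρ0.le h5) with h7 | h7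
      · rw [← h7]
        exact hr₂
      · linarith
    exact hr₂' h4 (h1 v) ⟨y, Metric.ball_subset_closedBall hy, hyv⟩
  have hρR : ρ < D.R := by rw [hDR]; linarith
  have hpair := pair_bound F1 K (a₀ := LineD.kp) (R₀ := 1 / 4) (E := nbad D ρ) (by norm_num)
    (isCompact_nbad_sdiff D hρ0 hρR (hiso 0 (by simpa using hρ0) (by simpa using hpO)))
    (countable_nbad D hρ0 hρR hcb) (fun a ha => ha.1)
    (fun u hu hub => (mem_UU_iff D hDR u hu).2 hub) (fun u hu => not_nbad_of_UU D hDR hu)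
    hqj hδ hC.le hjb (fun y hy => (hjU y hy).2) hvq (by rw [hvy]; exact hζ1)
    (by positivity : 0 < r₂ / (2 * ρ)) hmiss hC₀0 hmass
  rw [hvy, hζn, ← hc₁] at hpair
  -- the contradiction
  have hlog : X < Real.log (1 / (t / ρ)) := by
    rw [Real.lt_log_iff_exp_lt (by positivity), one_div_div, lt_div_iff₀ ht0]
    have h3 : t < ρ * Real.exp (-X) := by linarith
    have h4 : Real.exp X * t < Real.exp X * (ρ * Real.exp (-X)) :=
      mul_lt_mul_of_pos_left h3 (Real.exp_pos X)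
    have h5 : Real.exp X * (ρ * Real.exp (-X)) = ρ := by
      rw [mul_left_comm, ← Real.exp_add, add_neg_cancel, Real.exp_zero, mul_one]
    linarith
  have hlog0 : 0 < Real.log (1 / (t / ρ)) := hX0.trans_lt hlog
  rw [le_div_iff₀ hlog0] at hpair
  have h6 : X * c₁ = C ^ (n + 1) * C₀ := by
    rw [hX]
    field_simp
  nlinarith [mul_lt_mul_of_pos_left hlog hc₁0]

/-- **the partition** -/
theorem exists_pd (hn : 0 < n) (up : UPre K o h) (hNU : NUall A K) :
    ∃ P : PD M, P.Om = o.F.Om ∧ ∀ x ∈ o.F.Om, P.T x = o.F.Tf x :=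
  ⟨pd2 o.F hn (local_modulus up hNU), rfl, fun _ _ => rfl⟩

end

end Crest.Agent.R281.Con_166
end

-- ▼ part R281/Nu1_967

/-!
# R281 (S0424), DIV 6, (C) (helper967, for helper166 #8533): the mass bound of a disc family

* `jensen_of_test` : Jensen's bound for a measure `μ` with a map `b` to `ℂ` which is only known
  through test functions;
* `fib_eq_push`    : helper163's `fib` is helper425's `push`;
* `integral_muC`   : `∫ χ(y) dμ_K = ∫ χ(c) Re (push det (c)) dc`;
* `nu_bound`       : `∫_{|y - a₀| < R} log (R / |y - a₀|) dμ_K ≤ 2π (m₂ - m₁)`.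
-/

set_option autoImplicit false
set_option linter.unusedSectionVars false
set_option linter.style.haveILetI false

open Set Filter Topology Complex Function MeasureTheory Metric
open scoped ContDiff Matrix ComplexConjugate ComplexOrder ENNReal Real

namespace Crest.Agent.R281.Nu_967

open Crest.Agent.R281.Jen_563 Crest.Agent.R281.JenE_967

noncomputable section

/-! ### measure theory in the plane -/

section plane

variable {V : Set ℂ}

/-- cut-off functions of a bounded open set -/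
def cutV (V : Set ℂ) (n : ℕ) (y : ℂ) : ℝ := min 1 (max 0 (n * infDist y Vᶜ - 1))

theorem continuous_cutV (V : Set ℂ) (n : ℕ) : Continuous (cutV V n) := by
  unfold cutV
  have := continuous_infDist_pt Vᶜ
  fun_prop

theorem cutV_nonneg (n : ℕ) (y : ℂ) : 0 ≤ cutV V n y := by
  unfold cutV
  exact le_min zero_le_one (le_max_left _ _)

theorem cutV_le_one (n : ℕ) (y : ℂ) : cutV V n y ≤ 1 := min_le_left _ _

theorem tsupport_cutV (n : ℕ) : tsupport (cutV V n) ⊆ V := by
  have h1 : tsupport (cutV V n) ⊆ {y | 1 ≤ (n : ℝ) * infDist y Vᶜ} := by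
    refine closure_minimal (fun y hy => ?_) (isClosed_le continuous_const
      (continuous_const.mul (continuous_infDist_pt Vᶜ)))
    by_contra h
    apply hy
    have h' : (n : ℝ) * infDist y Vᶜ < 1 := not_le.1 h
    unfold cutV
    rw [max_eq_left (by linarith), min_eq_right zero_le_one]
  refine h1.trans fun y hy => ?_
  by_contra h
  have h2 : infDist y Vᶜ = 0 := infDist_zero_of_mem h
  have h3 : (1 : ℝ) ≤ n * infDist y Vᶜ := hy
  rw [h2, mul_zero] at h3
  linarith

theorem tendsto_cutV (hV : IsOpen V) (hne : (Vᶜ).Nonempty) {y : ℂ} (hy : y ∈ V) :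
    ∀ᶠ n in atTop, cutV V n y = 1 := by
  have h1 : 0 < infDist y Vᶜ := (hV.isClosed_compl.notMem_iff_infDist_pos hne).1 fun h => h hy
  have h2 : Tendsto (fun n : ℕ => (n : ℝ) * infDist y Vᶜ) atTop atTop :=
    tendsto_natCast_atTop_atTop.atTop_mul_const h1
  filter_upwards [h2.eventually_ge_atTop 2] with n hn
  unfold cutV
  rw [max_eq_right (by linarith), min_eq_left (by linarith)]

/-- **Jensen's bound through test functions** -/
theorem jensen_of_test {α : Type*} [MeasurableSpace α] (μ : Measure α) {b : α → ℂ}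
    (hb : Measurable b) (a : ℂ) {R : ℝ} (hR : 0 < R) {E : Set ℂ}
    (hE : E.Countable) (hV : IsOpen (ball a R \ E)) {G : ℂ → ℝ} {m₁ m₂ : ℝ}
    (hG : ContDiffOn ℝ 2 G (ball a R \ E)) (hM : ∀ y ∈ ball a R \ E, m₁ ≤ G y ∧ G y ≤ m₂)
    (hpos : ∀ y ∈ ball a R \ E, 0 ≤ lap G y)
    (ht : ∀ χ : ℂ → ℝ, Continuous χ → HasCompactSupport χ → tsupport χ ⊆ ball a R \ E →
      (∀ y, 0 ≤ χ y) → ∫⁻ x, ENNReal.ofReal (χ (b x)) ∂μ ≤
        ∫⁻ y in ball a R \ E, ENNReal.ofReal (lap G y * χ y)) :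
    ∫⁻ x in b ⁻¹' (ball a R \ E), ENNReal.ofReal (Real.log (R / ‖b x - a‖)) ∂μ
      ≤ ENNReal.ofReal (2 * π * (m₂ - m₁)) := by
  set V : Set ℂ := ball a R \ E with hVdef
  have hVm : MeasurableSet V := hV.measurableSet
  have hVb : V ⊆ ball a R := Set.sdiff_subset
  have hne : (Vᶜ).Nonempty := by
    refine ⟨a + R, fun h => ?_⟩
    have h1 := hVb h
    rw [mem_ball, dist_eq_norm, add_sub_cancel_left, Complex.norm_real, Real.norm_eq_abs,
      abs_of_pos hR] at h1
    exact lt_irrefl _ h1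
  set h : ℕ → ℂ → ℝ := fun n y => Real.log (R / max ‖y - a‖ (R / (n + 1))) with hh
  have hd : ∀ (n : ℕ) (y : ℂ), 0 < max ‖y - a‖ (R / (n + 1)) := fun n y =>
    lt_max_of_lt_right (by positivity)
  have hhc : ∀ n, Continuous (h n) := by
    intro n
    refine Continuous.log ?_ fun y => (div_pos hR (hd n y)).ne'
    exact continuous_const.div (by fun_prop) fun y => (hd n y).ne'
  have hh0 : ∀ n, ∀ y ∈ ball a R, 0 ≤ h n y := by
    intro n y hy
    refine Real.log_nonneg ?_
    rw [one_le_div (hd n y)]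
    rw [mem_ball, dist_eq_norm] at hy
    refine max_le hy.le ?_
    exact div_le_self hR.le (by linarith [(Nat.cast_nonneg n : (0 : ℝ) ≤ n)])
  have hhle : ∀ n, ∀ y, y ≠ a → h n y ≤ Real.log (R / ‖y - a‖) := by
    intro n y hy
    have h1 : 0 < ‖y - a‖ := norm_pos_iff.2 (sub_ne_zero.2 hy)
    refine Real.log_le_log (div_pos hR (hd n y)) ?_
    exact div_le_div_of_nonneg_left hR.le h1 (le_max_left _ _)
  have hhlim : ∀ y, y ≠ a → ∀ᶠ n in atTop, h n y = Real.log (R / ‖y - a‖) := by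
    intro y hy
    have h1 : 0 < ‖y - a‖ := norm_pos_iff.2 (sub_ne_zero.2 hy)
    have h2 : Tendsto (fun n : ℕ => R / ((n : ℝ) + 1)) atTop (𝓝 0) :=
      (tendsto_const_div_atTop_nhds_zero_nat R).comp (tendsto_add_atTop_nat 1) |>.congr fun n => by
        simp
    filter_upwards [h2.eventually_le_const h1] with n hn
    show Real.log (R / max ‖y - a‖ (R / (n + 1))) = _
    rw [max_eq_left hn]
  set g : ℕ → ℂ → ℝ := fun n y => cutV V n y * h n y with hg
  have hgc : ∀ n, Continuous (g n) := fun n => (continuous_cutV V n).mul (hhc n)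
  have hgt : ∀ n, tsupport (g n) ⊆ V := fun n =>
    (tsupport_mul_subset_left).trans (tsupport_cutV n)
  have hgcc : ∀ n, HasCompactSupport (g n) := by
    intro n
    refine (isCompact_closedBall a R).of_isClosed_subset (isClosed_tsupport _) ?_
    exact (hgt n).trans (hVb.trans ball_subset_closedBall)
  have hg0 : ∀ n y, 0 ≤ g n y := by
    intro n y
    by_cases hy : y ∈ V
    · exact mul_nonneg (cutV_nonneg n y) (hh0 n y (hVb hy))
    · have h1 : cutV V n y = 0 :=
        image_eq_zero_of_notMem_tsupport fun h' => hy (tsupport_cutV n h')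
      show 0 ≤ cutV V n y * h n y
      rw [h1, zero_mul]
  -- Fatou
  have hbV : MeasurableSet (b ⁻¹' V) := hb hVm
  have hlim : ∀ y ∈ V, ENNReal.ofReal (Real.log (R / ‖y - a‖)) ≤
      liminf (fun n => ENNReal.ofReal (g n y)) atTop := by
    intro y hy
    by_cases hya : y = a
    · rw [hya, sub_self, norm_zero, div_zero, Real.log_zero, ENNReal.ofReal_zero]
      exact bot_le
    · have h1 : ∀ᶠ n in atTop, g n y = Real.log (R / ‖y - a‖) := by
        filter_upwards [tendsto_cutV hV hne hy, hhlim y hya] with n h2 h3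
        show cutV V n y * h n y = _
        rw [h2, h3, one_mul]
      have h2 : Tendsto (fun n => ENNReal.ofReal (g n y)) atTop
          (𝓝 (ENNReal.ofReal (Real.log (R / ‖y - a‖)))) :=
        tendsto_const_nhds.congr' (h1.mono fun n hn => (congrArg ENNReal.ofReal hn).symm)
      exact h2.liminf_eq.ge
  have hbd : ∀ n, ∫⁻ x in b ⁻¹' V, ENNReal.ofReal (g n (b x)) ∂μ ≤
      ENNReal.ofReal (2 * π * (m₂ - m₁)) := by
    intro n
    calc ∫⁻ x in b ⁻¹' V, ENNReal.ofReal (g n (b x)) ∂μ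
        ≤ ∫⁻ x, ENNReal.ofReal (g n (b x)) ∂μ := setLIntegral_le_lintegral _ _
      _ ≤ ∫⁻ y in V, ENNReal.ofReal (lap G y * g n y) := ht _ (hgc n) (hgcc n) (hgt n) (hg0 n)
      _ ≤ ∫⁻ y in V, ENNReal.ofReal (lap G y * Real.log (R / ‖y - a‖)) := by
          refine lintegral_mono_ae ?_
          have h1 : ∀ᵐ y ∂(volume.restrict V), y ≠ a :=
            ae_restrict_of_ae (measure_eq_zero_iff_ae_notMem.1 (measure_singleton a))
          filter_upwards [h1, ae_restrict_mem hVm] with y hy hyV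
          refine ENNReal.ofReal_le_ofReal (mul_le_mul_of_nonneg_left ?_ (hpos y hyV))
          calc g n y = cutV V n y * h n y := rfl
            _ ≤ 1 * h n y := mul_le_mul_of_nonneg_right (cutV_le_one n y) (hh0 n y (hVb hyV))
            _ ≤ _ := by rw [one_mul]; exact hhle n y hy
      _ ≤ _ := jensen_countable a hR hE hV hG hM hpos
  calc ∫⁻ x in b ⁻¹' V, ENNReal.ofReal (Real.log (R / ‖b x - a‖)) ∂μ
      ≤ ∫⁻ x in b ⁻¹' V, liminf (fun n => ENNReal.ofReal (g n (b x))) atTop ∂μ := by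
        refine setLIntegral_mono' hbV fun x hx => hlim (b x) hx
    _ ≤ liminf (fun n => ∫⁻ x in b ⁻¹' V, ENNReal.ofReal (g n (b x)) ∂μ) atTop :=
        lintegral_liminf_le fun n => ((hgc n).measurable.comp hb).ennreal_ofReal
    _ ≤ _ := by
        refine (liminf_le_liminf (Eventually.of_forall hbd)).trans ?_
        exact (liminf_const _).le

end plane

/-! ### families -/

section fam

open Crest.Agent.R275 Crest.Agent.R275.Geo Crest.Agent.R275.Core144 Crest.Agent.R275.EDR890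
open Crest.Agent.R275.Pai323 Crest.Agent.R275.C1d194
open Crest.Agent.R273.Defs_333 Crest.Agent.R273.Kah_333 Crest.Agent.R273.Hess_333
open Crest.Agent.R273.Vol_333 Crest.Agent.R273.Vm_333
open Crest.Agent.R273.StokesV_332 Crest.Agent.R281.S6D_664
open Crest.Agent.R281.Mass3_519 Crest.Agent.R281.Fib2_425 Crest.Agent.R281.Fib4_425
open Crest.Agent.R281.Fub4_163 Crest.Agent.R281.Fub5_163

variable {N d m : ℕ} {M : Type} [TopologicalSpace M] {A : Atl N M}

theorem prj {U : Set (Cn m)} (F : Fam A d m U) (hU : IsOpen U) : Prj F.B F.y U :=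
  ⟨F.last, F.mem, F.proper, hU⟩

/-- helper163's `fib` is helper425's `push` -/
theorem fib_eq_push {U : Set (Cn m)} (F : Fam A d m U) (hU : IsOpen U) {η : F.B.ι → F.V → ℂ}
    (hη : ∀ i, F.B.SmAt i (η i)) : ∀ u ∈ U, fib F η u = push F.P η u := by
  have h := prj F hU
  have hc : ∀ i, ContinuousOn (η i) (F.B.e i).source := fun i => contOn_of_smAt F (hη i)
  have hp := continuousOn_push (P := F.P) h hη
  have h1 := zero_of_test hU (g := fun u => fib F η u - push F.P η u)
    ((fib_continuousOn F hU hc).sub hp) ?_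
  · intro u hu
    exact sub_eq_zero.1 (h1 u hu)
  · intro χ h1 h2 h3
    have hs : tsupport (fun u : Cn m => (χ u : ℂ)) ⊆ tsupport χ :=
      closure_mono fun u hu => by
        rw [Function.mem_support] at hu ⊢
        intro h0
        exact hu (by rw [h0, ofReal_zero])
    have hcs : HasCompactSupport (fun u : Cn m => (χ u : ℂ)) :=
      h2.of_isClosed_subset (isClosed_tsupport _) hs
    have hcont : Continuous (fun u : Cn m => (χ u : ℂ)) :=
      continuous_ofReal.comp h1.continuous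
    have hsm : ContDiff ℝ ∞ (fun u : Cn m => (χ u : ℂ)) := Complex.ofRealCLM.contDiff.comp h1
    have e1 := intD_base F hcont hcs (hs.trans h3) hc
    have e2 := intD_pushC (P := F.P) h hη hsm hcs (hs.trans h3)
    have i1 : Integrable (fun x : RI m → ℝ => (χ (cc x) : ℂ) * fib F η (cc x)) := by
      have := fib_integrable F (f := fun k v => (χ (F.y v) : ℂ) * η k v)
        (fun k => ((hcont.comp (Fub_192.continuous_y F)).continuousOn).mul (hc k))
        (cpt_base F hcs (hs.trans h3)) (offK_base F (fun u => (χ u : ℂ)) η)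
      refine this.congr (Filter.Eventually.of_forall fun x => ?_)
      exact fib_base F (fun u => (χ u : ℂ)) η (cc x)
    have i2 : Integrable (fun x : RI m → ℝ => (χ (cc x) : ℂ) * push F.P η (cc x)) := by
      have hK : IsCompact (rc '' tsupport χ) := h2.isCompact.image continuous_rc
      have hK' : ∀ x, x ∉ (rc '' tsupport χ : Set (RI m → ℝ)) → cc x ∉ tsupport χ :=
        fun x hx h' => hx ⟨cc x, h', rc_cc x⟩
      refine IntegrableOn.integrable_of_forall_notMem_eq_zero (s := rc '' tsupport χ) ?_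
        fun x hx => ?_
      · refine ContinuousOn.integrableOn_compact hK ?_
        refine ((hcont.comp continuous_cc).continuousOn).mul (hp.comp continuous_cc.continuousOn ?_)
        rintro _ ⟨u, hu, rfl⟩
        rw [cc_rc]
        exact h3 hu
      · rw [image_eq_zero_of_notMem_tsupport (hK' x hx), ofReal_zero, zero_mul]
    have e3 : ∫ x : RI m → ℝ, (χ (cc x) : ℂ) * (fib F η (cc x) - push F.P η (cc x)) =
        (∫ x : RI m → ℝ, (χ (cc x) : ℂ) * fib F η (cc x)) -
          ∫ x : RI m → ℝ, (χ (cc x) : ℂ) * push F.P η (cc x) := by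
      rw [← integral_sub i1 i2]
      refine integral_congr_ae (Filter.Eventually.of_forall fun x => ?_)
      show (χ (cc x) : ℂ) * (fib F η (cc x) - push F.P η (cc x)) = _ - _
      ring
    rw [e3, ← e1, ← e2, sub_self]

variable {U : Set (Cn 1)}


theorem continuous_ofC : Continuous ofC := by
  unfold ofC
  fun_prop

theorem continuous_ev : Continuous fun u : Cn 1 => u 0 := by fun_prop

/-- **`μ_K` tested against a function of the base coordinate** -/
theorem integral_muC (F : Fam A d 1 U) (K : Kah A) [MeasurableSpace F.V] [BorelSpace F.V]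
    {χ : ℂ → ℝ} (h0 : Continuous χ) (hc : HasCompactSupport χ)
    (hχ : tsupport χ ⊆ {c : ℂ | ofC c ∈ U}) :
    ∫ v, χ (F.y v 0) ∂(vm (volK (F.kah K))) =
      ∫ c : ℂ, χ c * (fib F (fun k v => ((F.kah K).g k v).det) (ofC c)).re ∧
    Integrable (fun v => χ (F.y v 0)) (vm (volK (F.kah K))) ∧
    Integrable (fun c : ℂ => χ c * (fib F (fun k v => ((F.kah K).g k v).det) (ofC c)).re) := by
  set X : Cn 1 → ℂ := fun u => (χ (u 0) : ℂ) with hX
  have hXc : Continuous X := continuous_ofReal.comp (h0.comp continuous_ev)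
  have hts : tsupport X ⊆ ofC '' tsupport χ := by
    refine closure_minimal ?_ (hc.isCompact.image continuous_ofC).isClosed
    intro u hu
    refine ⟨u 0, subset_tsupport _ ?_, ofC_zero_apply u⟩
    intro h1
    apply hu
    show ((χ (u 0) : ℝ) : ℂ) = 0
    rw [h1, ofReal_zero]
  have hXcs : HasCompactSupport X :=
    (hc.isCompact.image continuous_ofC).of_isClosed_subset (isClosed_tsupport _) hts
  have hXU : tsupport X ⊆ U := by
    intro u hu
    obtain ⟨c, hc', rfl⟩ := hts hu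
    exact hχ hc'
  have hsm : ∀ k, ContinuousOn (fun v => ((F.kah K).g k v).det) (F.B.e k).source := fun k =>
    contOn_of_smAt F ((den_det (F.kah K)).sm k)
  have hyc : Continuous fun v : F.V => X (F.y v) := hXc.comp (Fub_192.continuous_y F)
  have hcpt : IsCompact (F.y ⁻¹' tsupport X) := cpt_base F hXcs hXU
  have hoff : ∀ v, v ∉ F.y ⁻¹' tsupport X → X (F.y v) = 0 := fun v hv =>
    image_eq_zero_of_notMem_tsupport hv
  have hi : Integrable (fun v : F.V => X (F.y v)) (vm (volK (F.kah K))) :=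
    integrable_cc _ hyc hcpt hoff
  have e1 := integral_vm_intD (volK (F.kah K)) F.P hi hcpt hoff
  have e2 : intD F.P (fun i x => ((volK (F.kah K)).w i x : ℂ) * X (F.y x)) =
      intD F.P (fun k v => X (F.y v) * ((F.kah K).g k v).det) := by
    refine intD_congr F.P fun i x hx => ?_
    rw [volK_w (F.kah K) i hx, mul_comm]
  have e3 := intD_base F hXc hXcs hXU hsm
  have e4 : ∫ x : RI 1 → ℝ, X (cc x) * fib F (fun k v => ((F.kah K).g k v).det) (cc x) =
      ∫ c : ℂ, X (ofC c) * fib F (fun k v => ((F.kah K).g k v).det) (ofC c) :=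
    integral_ofC fun u => X u * fib F (fun k v => ((F.kah K).g k v).det) u
  rw [e2, e3, e4] at e1
  have i1 : Integrable (fun x : RI 1 → ℝ => X (cc x) *
      fib F (fun k v => ((F.kah K).g k v).det) (cc x)) := by
    have := fib_integrable F (f := fun k v => X (F.y v) * ((F.kah K).g k v).det)
      (fun k => (hyc.continuousOn).mul (hsm k)) hcpt (offK_base F X _)
    refine this.congr (Filter.Eventually.of_forall fun x => ?_)
    exact fib_base F X _ (cc x)
  have i2 : Integrable (fun c : ℂ => X (ofC c) *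
      fib F (fun k v => ((F.kah K).g k v).det) (ofC c)) := by
    have := mp_ofC.integrable_comp_of_integrable i1
    refine this.congr (Filter.Eventually.of_forall fun c => ?_)
    show X (cc (rc (ofC c))) * fib F _ (cc (rc (ofC c))) = _
    rw [cc_rc]
  have hre : ∀ c : ℂ, (X (ofC c) * fib F (fun k v => ((F.kah K).g k v).det) (ofC c)).re =
      χ c * (fib F (fun k v => ((F.kah K).g k v).det) (ofC c)).re := fun c =>
    Complex.re_ofReal_mul _ _
  refine ⟨?_, ?_, ?_⟩
  · have h1 : ∫ v, X (F.y v) ∂(vm (volK (F.kah K))) =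
        ((∫ v, χ (F.y v 0) ∂(vm (volK (F.kah K))) : ℝ) : ℂ) := integral_ofReal (𝕜 := ℂ)
    have h2 := congrArg Complex.re (h1.symm.trans e1)
    rw [Complex.ofReal_re] at h2
    rw [h2]
    have h3 := integral_re i2
    refine h3.symm.trans ?_
    exact integral_congr_ae (Filter.Eventually.of_forall fun c => hre c)
  · have h1 := hi.re
    exact h1.congr (Filter.Eventually.of_forall fun v => rfl)
  · have h1 := i2.re
    exact h1.congr (Filter.Eventually.of_forall fun c => hre c)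

/-- the fibre integral of `det K_V` is nonnegative -/
theorem fib_det_nonneg (F : Fam A d 1 U) (hU : IsOpen U) (K : Kah A) (u : Cn 1) :
    0 ≤ (fib F (fun k v => ((F.kah K).g k v).det) u).re := by
  by_cases hu : u ∈ U
  · rw [fib_eq_push F hU (den_det (F.kah K)).sm u hu]
    exact (push_nonneg (prj F hU) (den_det (F.kah K)) (nonnegD_det (F.kah K)) u hu).1
  · rw [fib_off F hu]
    exact le_rfl

/-- **the test inequality of `jensen_of_test`** -/
theorem lintegral_muC (F : Fam A d 1 U) (hU : IsOpen U) (K : Kah A) [MeasurableSpace F.V]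
    [BorelSpace F.V] {χ : ℂ → ℝ} (h0 : Continuous χ) (hc : HasCompactSupport χ)
    (hχ : tsupport χ ⊆ {c : ℂ | ofC c ∈ U}) (hn : ∀ c, 0 ≤ χ c) :
    ∫⁻ v, ENNReal.ofReal (χ (F.y v 0)) ∂(vm (volK (F.kah K))) =
      ∫⁻ c : ℂ, ENNReal.ofReal
        (χ c * (fib F (fun k v => ((F.kah K).g k v).det) (ofC c)).re) := by
  obtain ⟨h1, h2, h3⟩ := integral_muC F K h0 hc hχ
  rw [← ofReal_integral_eq_lintegral_ofReal h2 (Filter.Eventually.of_forall fun v => hn _),
    ← ofReal_integral_eq_lintegral_ofReal h3 (Filter.Eventually.of_forall fun c =>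
      mul_nonneg (hn c) (fib_det_nonneg F hU K _)), h1]

/-- **(NU): from (S) pointwise to the mass bound** (any Borel structure on `V`) -/
theorem nu_bound' (F : Fam A d 1 U) (hU : IsOpen U) (K : Kah A) [MeasurableSpace F.V]
    [BorelSpace F.V] (a₀ : ℂ) {R : ℝ} (hR : 0 < R) {E : Set ℂ} (hE : E.Countable)
    (hV : IsOpen (ball a₀ R \ E)) (hUE : ∀ c ∈ ball a₀ R, ofC c ∈ U ↔ c ∉ E) {G : ℂ → ℝ}
    {m₁ m₂ : ℝ} (hG2 : ContDiffOn ℝ 2 G (ball a₀ R \ E))
    (hM : ∀ c ∈ ball a₀ R \ E, m₁ ≤ G c ∧ G c ≤ m₂)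
    (hG : ∀ c ∈ ball a₀ R \ E,
      (push F.P (fun k v => ((F.kah K).g k v).det) (ofC c)).re = lap G c) :
    ∫⁻ v in {v | ‖F.y v 0 - a₀‖ < R},
      ENNReal.ofReal (Real.log (R / ‖F.y v 0 - a₀‖)) ∂(vm (volK (F.kah K))) ≤
      ENNReal.ofReal (2 * π * (m₂ - m₁)) := by
  set V : Set ℂ := ball a₀ R \ E with hVdef
  have hVU : V ⊆ {c : ℂ | ofC c ∈ U} := fun c hc => (hUE c hc.1).2 hc.2
  have hfib : ∀ c ∈ V, (fib F (fun k v => ((F.kah K).g k v).det) (ofC c)).re = lap G c := by
    intro c hc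
    rw [fib_eq_push F hU (den_det (F.kah K)).sm (ofC c) (hVU hc), hG c hc]
  have hpos : ∀ c ∈ V, 0 ≤ lap G c := fun c hc => by
    rw [← hfib c hc]
    exact fib_det_nonneg F hU K _
  have hb : Measurable fun v : F.V => F.y v 0 :=
    (continuous_ev.comp (Fub_192.continuous_y F)).measurable
  have hset : {v : F.V | ‖F.y v 0 - a₀‖ < R} = (fun v : F.V => F.y v 0) ⁻¹' V := by
    ext v
    have h1 : ofC (F.y v 0) ∈ U := by
      rw [ofC_zero_apply]
      exact F.mem v
    constructor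
    · intro hv
      have h2 : F.y v 0 ∈ ball a₀ R := by
        rw [mem_ball, dist_eq_norm]
        exact hv
      exact ⟨h2, (hUE _ h2).1 h1⟩
    · intro hv
      have h2 : F.y v 0 ∈ ball a₀ R := hv.1
      rw [mem_ball, dist_eq_norm] at h2
      exact h2
  rw [hset]
  refine jensen_of_test (vm (volK (F.kah K))) hb a₀ hR hE hV hG2 hM hpos fun χ h0 hc hχ hn => ?_
  rw [lintegral_muC F hU K h0 hc (hχ.trans hVU) hn]
  refine le_of_eq ?_
  rw [← lintegral_indicator hV.measurableSet]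
  refine lintegral_congr fun c => ?_
  by_cases hcV : c ∈ V
  · rw [Set.indicator_of_mem hcV, hfib c hcV, mul_comm]
  · rw [Set.indicator_of_notMem hcV, image_eq_zero_of_notMem_tsupport fun h => hcV (hχ h),
      zero_mul, ENNReal.ofReal_zero]

/-- **(NU), literal form of helper166 #8533** -/
theorem nu_bound (F : Fam A d 1 U) (hU : IsOpen U) (K : Kah A) (a₀ : ℂ) {R : ℝ} (hR : 0 < R)
    {E : Set ℂ} (hE : E.Countable) (hV : IsOpen (ball a₀ R \ E))
    (hUE : ∀ c ∈ ball a₀ R, ofC c ∈ U ↔ c ∉ E) {G : ℂ → ℝ} {m₁ m₂ : ℝ}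
    (hG2 : ContDiffOn ℝ 2 G (ball a₀ R \ E))
    (hM : ∀ c ∈ ball a₀ R \ E, m₁ ≤ G c ∧ G c ≤ m₂)
    (hG : ∀ c ∈ ball a₀ R \ E,
      (push F.P (fun k v => ((F.kah K).g k v).det) (ofC c)).re = lap G c) :
    ∫⁻ v in {v | ‖F.y v 0 - a₀‖ < R},
      ENNReal.ofReal (Real.log (R / ‖F.y v 0 - a₀‖)) ∂(F.mu K) ≤
      ENNReal.ofReal (2 * π * (m₂ - m₁)) := by
  letI : MeasurableSpace F.V := borel F.V
  haveI : BorelSpace F.V := ⟨rfl⟩
  exact nu_bound' F hU K a₀ hR hE hV hUE hG2 hM hG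

end fam

end

end Crest.Agent.R281.Nu_967
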