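import Crest.Agent.R281.Defs_273
import Crest.Agent.R272.PosCl1_732
import Crest.Agent.R273.BKNe_37
import Crest.Agent.R273.GreenM_5
import Crest.Agent.R281.OmB_524

-- ▼ part R281/OmL1_677
section

/-!
# R281 (S0424), OM-LAG (helper677), part 1: matrix algebra of `qm`

`qm S G H = - |det S| tr (S⁻¹ G conj(S)⁻¹ Hᵀ)` for an antisymmetric `S`.
* `qm_eq`      : `qm S G H = |det S| tr (S⁻¹ G (S⁻¹)ᴴ Hᵀ)`
* `qm_nonneg`  : `0 ≤ qm S G H` for positive semidefinite `G`, `H`
* `qm_mono`    : monotonicity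
* `qm_rank`    : value on rank one matrices
* `tr_smul_sub`: `S ≤ tr (K⁻¹ S) K`
* `isotropic_of` : rank `m` brackets vanish in dimension `2 m` ==> the common kernel is isotropic
-/

set_option autoImplicit false
set_option linter.unusedSectionVars false

open Matrix
open scoped ComplexConjugate ComplexOrder

namespace Crest.Agent.R281.OmL_677

open Crest.Agent.R281.Defs_273

noncomputable section

variable {n : ℕ} {S G H G' H' : Matrix (Fin n) (Fin n) ℂ}

theorem map_conj_inv (S : Matrix (Fin n) (Fin n) ℂ) : (S.map conj)⁻¹ = (S⁻¹).map conj := by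
  have h1 : S.map conj = (Sᵀ)ᴴ := by
    ext a b; simp [Matrix.conjTranspose_apply]
  have h2 : (S⁻¹).map conj = ((S⁻¹)ᵀ)ᴴ := by
    ext a b; simp [Matrix.conjTranspose_apply]
  rw [h1, h2, ← Matrix.conjTranspose_nonsing_inv, Matrix.transpose_nonsing_inv]

theorem inv_neg' (S : Matrix (Fin n) (Fin n) ℂ) : (-S)⁻¹ = -S⁻¹ := by
  by_cases h : IsUnit S.det
  · refine Matrix.inv_eq_right_inv ?_
    rw [Matrix.neg_mul, Matrix.mul_neg, neg_neg, Matrix.mul_nonsing_inv _ h]
  · have h' : ¬ IsUnit (-S).det := by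
      rw [Matrix.det_neg, isUnit_iff_ne_zero, not_not]
      rw [isUnit_iff_ne_zero, not_not] at h
      rw [h, mul_zero]
    rw [Matrix.nonsing_inv_apply_not_isUnit _ h, Matrix.nonsing_inv_apply_not_isUnit _ h', neg_zero]

theorem inv_alt (hS : Sᵀ = -S) : (S⁻¹)ᵀ = -S⁻¹ := by
  rw [Matrix.transpose_nonsing_inv, hS]
  exact inv_neg' S

theorem map_conj_alt (hS : Sᵀ = -S) : (S⁻¹).map conj = -(S⁻¹)ᴴ := by
  have h := inv_alt hS
  ext a b
  have h1 := congrFun (congrFun h b) a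
  simp only [Matrix.transpose_apply, Matrix.neg_apply] at h1
  simp only [Matrix.map_apply, Matrix.neg_apply, Matrix.conjTranspose_apply, RCLike.star_def]
  rw [h1, map_neg]

theorem qm_eq (hS : Sᵀ = -S) (G H : Matrix (Fin n) (Fin n) ℂ) :
    qm S G H = ((‖S.det‖ : ℝ) : ℂ) * (S⁻¹ * G * (S⁻¹)ᴴ * Hᵀ).trace := by
  unfold qm
  rw [map_conj_inv, map_conj_alt hS, Matrix.mul_neg, Matrix.neg_mul, Matrix.trace_neg]
  ring

theorem qm_add_left (S G G' H : Matrix (Fin n) (Fin n) ℂ) :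
    qm S (G + G') H = qm S G H + qm S G' H := by
  unfold qm
  rw [Matrix.mul_add, Matrix.add_mul, Matrix.add_mul, Matrix.trace_add]
  ring

theorem qm_add_right (S G H H' : Matrix (Fin n) (Fin n) ℂ) :
    qm S G (H + H') = qm S G H + qm S G H' := by
  unfold qm
  rw [Matrix.transpose_add, Matrix.mul_add, Matrix.trace_add]
  ring

theorem qm_smul_left (c : ℂ) (S G H : Matrix (Fin n) (Fin n) ℂ) :
    qm S (c • G) H = c * qm S G H := by
  unfold qm
  rw [Matrix.mul_smul, Matrix.smul_mul, Matrix.smul_mul, Matrix.trace_smul, smul_eq_mul]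
  ring

theorem qm_smul_right (c : ℂ) (S G H : Matrix (Fin n) (Fin n) ℂ) :
    qm S G (c • H) = c * qm S G H := by
  unfold qm
  rw [Matrix.transpose_smul, Matrix.mul_smul, Matrix.trace_smul, smul_eq_mul]
  ring

theorem qm_sub_left (S G G' H : Matrix (Fin n) (Fin n) ℂ) :
    qm S (G - G') H = qm S G H - qm S G' H := by
  unfold qm
  rw [Matrix.mul_sub, Matrix.sub_mul, Matrix.sub_mul, Matrix.trace_sub]
  ring

theorem qm_sub_right (S G H H' : Matrix (Fin n) (Fin n) ℂ) :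
    qm S G (H - H') = qm S G H - qm S G H' := by
  unfold qm
  rw [Matrix.transpose_sub, Matrix.mul_sub, Matrix.trace_sub]
  ring

theorem qm_symm (hS : Sᵀ = -S) (G H : Matrix (Fin n) (Fin n) ℂ) : qm S G H = qm S H G := by
  have h1 := inv_alt hS
  have h2 : ((S⁻¹).map conj)ᵀ = -(S⁻¹).map conj := by
    ext a b
    have := congrFun (congrFun h1 a) b
    simp only [Matrix.transpose_apply, Matrix.neg_apply] at this
    simp only [Matrix.map_apply, Matrix.transpose_apply, Matrix.neg_apply]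
    rw [this, map_neg]
  unfold qm
  rw [map_conj_inv]
  congr 1
  rw [← Matrix.trace_transpose, Matrix.transpose_mul, Matrix.transpose_mul, Matrix.transpose_mul,
    Matrix.transpose_transpose, h1, h2]
  simp only [Matrix.mul_neg, Matrix.neg_mul, neg_neg]
  rw [← Matrix.mul_assoc, ← Matrix.mul_assoc, Matrix.trace_mul_comm]
  simp only [Matrix.mul_assoc]

open scoped MatrixOrder in
theorem exists_msqrt {S : Matrix (Fin n) (Fin n) ℂ} (hS : S.PosSemidef) :
    ∃ B : Matrix (Fin n) (Fin n) ℂ, S = Bᴴ * B := by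
  obtain ⟨B, hB⟩ := CStarAlgebra.nonneg_iff_eq_star_mul_self.mp hS.nonneg
  exact ⟨B, by rw [hB, Matrix.star_eq_conjTranspose]⟩

/-- the trace of a product of positive semidefinite matrices -/
theorem trace_mul_nonneg {X Y : Matrix (Fin n) (Fin n) ℂ} (hX : X.PosSemidef)
    (hY : Y.PosSemidef) : 0 ≤ (X * Y).trace := by
  obtain ⟨B, rfl⟩ := exists_msqrt hY
  rw [← Matrix.mul_assoc, Matrix.trace_mul_comm, ← Matrix.mul_assoc]
  exact (hX.mul_mul_conjTranspose_same B).trace_nonneg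

theorem qm_nonneg (hS : Sᵀ = -S) (hG : G.PosSemidef) (hH : H.PosSemidef) : 0 ≤ qm S G H := by
  rw [qm_eq hS]
  refine mul_nonneg (by exact_mod_cast norm_nonneg _) ?_
  exact trace_mul_nonneg (hG.mul_mul_conjTranspose_same S⁻¹) hH.transpose

/-- monotonicity -/
theorem qm_mono (hS : Sᵀ = -S) {F G₁ G₂ : Matrix (Fin n) (Fin n) ℂ} (h1 : (F - G₁).PosSemidef)
    (h2 : (F - G₂).PosSemidef) (hG : G₁.PosSemidef) (hF : F.PosSemidef) :
    qm S G₁ G₂ ≤ qm S F F := by
  have e1 := qm_nonneg hS h1 hF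
  have e2 := qm_nonneg hS hG h2
  rw [qm_sub_left] at e1
  rw [qm_sub_right] at e2
  exact (sub_nonneg.1 e2).trans (sub_nonneg.1 e1)


theorem trace_vecMulVec' (a b c d : Fin n → ℂ) :
    (vecMulVec a b * vecMulVec c d).trace = (b ⬝ᵥ c) * (a ⬝ᵥ d) := by
  simp only [Matrix.trace, Matrix.diag_apply, Matrix.mul_apply, vecMulVec_apply, dotProduct,
    Finset.sum_mul, Finset.mul_sum]
  refine Finset.sum_congr rfl fun i _ => Finset.sum_congr rfl fun j _ => by ring

/-- **rank one matrices** -/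
theorem qm_rank (hS : Sᵀ = -S) (g h : Fin n → ℂ) :
    qm S (vecMulVec g (star g)) (vecMulVec h (star h)) =
      ((‖S.det‖ * ‖h ⬝ᵥ (S⁻¹ *ᵥ g)‖ ^ 2 : ℝ) : ℂ) := by
  rw [qm_eq hS]
  have e1 : S⁻¹ * vecMulVec g (star g) * (S⁻¹)ᴴ * (vecMulVec h (star h))ᵀ =
      vecMulVec (S⁻¹ *ᵥ g) (star (S⁻¹ *ᵥ g)) * vecMulVec (star h) h := by
    rw [Matrix.transpose_vecMulVec, Matrix.mul_vecMulVec S⁻¹, Matrix.vecMulVec_mul _ _ (S⁻¹)ᴴ,
      Matrix.star_mulVec]
  rw [e1, trace_vecMulVec']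
  have e2 : star (S⁻¹ *ᵥ g) ⬝ᵥ star h = star (h ⬝ᵥ (S⁻¹ *ᵥ g)) := by
    rw [Matrix.star_dotProduct_star, dotProduct_comm]
  rw [e2, dotProduct_comm (S⁻¹ *ᵥ g) h]
  push_cast
  rw [RCLike.star_def, Complex.conj_mul']

/-- `X ≤ tr X` -/
theorem trace_smul_one_sub {X : Matrix (Fin n) (Fin n) ℂ} (hX : X.PosSemidef) :
    (X.trace • (1 : Matrix (Fin n) (Fin n) ℂ) - X).PosSemidef := by
  have htr : star X.trace = X.trace := by
    rw [← Matrix.trace_conjTranspose, hX.1.eq]
  refine Matrix.PosSemidef.of_dotProduct_mulVec_nonneg ?_ fun x => ?_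
  · refine Matrix.IsHermitian.sub ?_ hX.1
    rw [Matrix.IsHermitian, Matrix.conjTranspose_smul, Matrix.conjTranspose_one, htr]
  · obtain ⟨C, rfl⟩ := exists_msqrt hX
    have e1 : (Cᴴ * C).trace = ((∑ a, ∑ b, ‖C a b‖ ^ 2 : ℝ) : ℂ) := by
      simp only [Matrix.trace, Matrix.diag_apply, Matrix.mul_apply, Matrix.conjTranspose_apply,
        RCLike.star_def]
      push_cast
      rw [Finset.sum_comm]
      exact Finset.sum_congr rfl fun a _ => Finset.sum_congr rfl fun b _ => Complex.conj_mul' _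
    have e2 : ∀ y : Fin n → ℂ, star y ⬝ᵥ y = ((∑ b, ‖y b‖ ^ 2 : ℝ) : ℂ) := by
      intro y
      simp only [dotProduct, Pi.star_apply, RCLike.star_def]
      push_cast
      exact Finset.sum_congr rfl fun a _ => Complex.conj_mul' _
    have e3 : star x ⬝ᵥ ((Cᴴ * C) *ᵥ x) = ((∑ a, ‖(C *ᵥ x) a‖ ^ 2 : ℝ) : ℂ) := by
      rw [← e2, ← Matrix.mulVec_mulVec, Matrix.dotProduct_mulVec, Matrix.star_mulVec]
    rw [Matrix.sub_mulVec, dotProduct_sub, Matrix.smul_mulVec, Matrix.one_mulVec,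
      dotProduct_smul, e3, e2, e1, smul_eq_mul, ← Complex.ofReal_mul, ← Complex.ofReal_sub]
    rw [Complex.zero_le_real, sub_nonneg, Finset.sum_mul]
    refine Finset.sum_le_sum fun a _ => ?_
    have h1 : ‖(C *ᵥ x) a‖ ≤ ∑ b, ‖C a b‖ * ‖x b‖ := by
      simp only [Matrix.mulVec, dotProduct]
      refine (norm_sum_le _ _).trans (Finset.sum_le_sum fun b _ => (norm_mul _ _).le)
    calc ‖(C *ᵥ x) a‖ ^ 2 ≤ (∑ b, ‖C a b‖ * ‖x b‖) ^ 2 := by
          exact pow_le_pow_left₀ (norm_nonneg _) h1 2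
      _ ≤ _ := Finset.sum_mul_sq_le_sq_mul_sq _ _ _

/-- `F ≤ tr (K⁻¹ F) K` -/
theorem tr_smul_sub {K F : Matrix (Fin n) (Fin n) ℂ} (hK : K.PosDef) (hF : F.PosSemidef) :
    ((K⁻¹ * F).trace • K - F).PosSemidef := by
  obtain ⟨B, hB⟩ := exists_msqrt hK.posSemidef
  have hKu : IsUnit K.det := (Matrix.isUnit_iff_isUnit_det _).1 hK.isUnit
  have hBu : IsUnit B.det := by
    rw [hB, Matrix.det_mul] at hKu
    exact isUnit_of_mul_isUnit_right hKu
  have hBhu : IsUnit (Bᴴ).det := by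
    rw [hB, Matrix.det_mul] at hKu
    exact isUnit_of_mul_isUnit_left hKu
  have h1 := trace_smul_one_sub (hF.mul_mul_conjTranspose_same (B⁻¹)ᴴ)
  have h2 := h1.mul_mul_conjTranspose_same Bᴴ
  rw [Matrix.conjTranspose_conjTranspose] at h1 h2
  rw [Matrix.conjTranspose_conjTranspose, Matrix.mul_sub, Matrix.sub_mul] at h2
  have e1 : Bᴴ * ((B⁻¹)ᴴ * F * B⁻¹) * B = F := by
    have a1 : Bᴴ * (B⁻¹)ᴴ = 1 := by
      rw [← Matrix.conjTranspose_mul, Matrix.nonsing_inv_mul _ hBu, Matrix.conjTranspose_one]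
    calc Bᴴ * ((B⁻¹)ᴴ * F * B⁻¹) * B = (Bᴴ * (B⁻¹)ᴴ) * F * (B⁻¹ * B) := by
          simp only [Matrix.mul_assoc]
      _ = F := by rw [a1, Matrix.nonsing_inv_mul _ hBu, Matrix.one_mul, Matrix.mul_one]
  have e2 : ((B⁻¹)ᴴ * F * B⁻¹).trace = (K⁻¹ * F).trace := by
    rw [hB, Matrix.mul_inv_rev, Matrix.trace_mul_comm, ← Matrix.mul_assoc,
      Matrix.conjTranspose_nonsing_inv]
  rw [e1, e2, Matrix.mul_smul, Matrix.smul_mul, Matrix.mul_one, ← hB] at h2
  exact h2



end

end Crest.Agent.R281.OmL_677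
end

-- ▼ part R281/OmL2_677
section

/-!
# R281 (S0424), OM-LAG (helper677), part 2: the pointwise inequality

* `lsf s φ d` : `log (d + ∑ |s_a|² e^{-φ})`
* `lev_lsf_ge`: lower bound of its Levi form
* `low_psd`   : `∂∂̄ w + k⁻¹ ∂∂̄ lsf + e K ≥ c W W^*`, `W = s_p ∂s_q - s_q ∂s_p`
-/

set_option autoImplicit false
set_option linter.unusedSectionVars false

open Set Filter Topology Complex
open scoped ContDiff Matrix ComplexConjugate Manifold ComplexOrder

namespace Crest.Agent.R281.OmL_677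

open Crest.Agent.R275.Geo Crest.Agent.R275.Core144 Crest.Agent.R275.EDR890
open Crest.Agent.R273.Hess_333 Crest.Agent.R273.HessB_333
open Crest.Agent.R273.Levi_145 Crest.Agent.R272.PosCl1_732
open Matrix (vecMulVec)

noncomputable section

variable {n : ℕ} {z : Cn n}

theorem lev4 (u : Cn n → ℝ) (z v : Cn n) :
    Crest.Agent.R273.Defs_333.lev u z v = 4 * lev u z v := by
  unfold Crest.Agent.R273.Defs_333.lev lev
  rw [iteratedFDeriv_two_apply, iteratedFDeriv_two_apply]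
  simp only [Matrix.cons_val_zero, Matrix.cons_val_one]
  ring

theorem hess_dot {u : Cn n → ℝ} (hu : ContDiffAt ℝ ∞ u z) (y : Fin n → ℂ) :
    star y ⬝ᵥ ((hess u z) *ᵥ y) =
      ((lev u z (WithLp.toLp 2 fun a => conj (y a)) : ℝ) : ℂ) := by
  rw [hq_eq_dot, hq_real hu, lev4]
  push_cast
  ring

/-- the differential of a holomorphic function -/
def df (f : Cn n → ℂ) (z : Cn n) (b : Fin n) : ℂ := fderiv ℂ f z (EuclideanSpace.single b 1)

theorem fderiv_df (f : Cn n → ℂ) (z v : Cn n) : fderiv ℂ f z v = ∑ b, df f z b * v b := by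
  have h : v = ∑ b, (v b) • EuclideanSpace.single b (1 : ℂ) := by
    ext c
    simp [Pi.single_apply]
  conv_lhs => rw [h]
  rw [map_sum]
  refine Finset.sum_congr rfl fun b _ => ?_
  rw [map_smul, smul_eq_mul, mul_comm]
  rfl

variable {α : Type*} [Fintype α] [DecidableEq α]

/-- `log (d + ∑ |s_a|² e^{-φ})` -/
def lsf (s : α → Cn n → ℂ) (φ : Cn n → ℝ) (d : ℝ) (w : Cn n) : ℝ :=
  Real.log (d + ∑ a, ‖s a w‖ ^ 2 * Real.exp (-φ w))

/-- the functions of `lsf` -/
def fo (s : α → Cn n → ℂ) : Option α → Cn n → ℂ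
  | none => fun _ => 1
  | some a => s a

/-- the weights of `lsf` -/
def uo (α : Type*) (φ : Cn n → ℝ) (d : ℝ) : Option α → Cn n → ℝ
  | none => fun _ => Real.log d
  | some _ => fun w => -φ w

theorem se_fo (s : α → Cn n → ℂ) (φ : Cn n → ℝ) {d : ℝ} (hd : 0 < d) (w : Cn n) :
    se (fo s) (uo α φ d) w = d + ∑ a, ‖s a w‖ ^ 2 * Real.exp (-φ w) := by
  unfold se
  rw [Fintype.sum_option]
  simp [fo, uo, Real.exp_log hd]

theorem lsf_eq (s : α → Cn n → ℂ) (φ : Cn n → ℝ) {d : ℝ} (hd : 0 < d) :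
    lsf s φ d = fun w => Real.log (se (fo s) (uo α φ d) w) := by
  funext w
  rw [se_fo s φ hd]
  rfl

theorem lev_lsf_ge {s : α → Cn n → ℂ} {φ : Cn n → ℝ} {d : ℝ} (hs : ∀ a, AnalyticAt ℂ (s a) z)
    (hφ : ContDiffAt ℝ 2 φ z) (hd : 0 < d) (p q : α) (v : Cn n) :
    (Real.exp (-φ z) / (d + ∑ a, ‖s a z‖ ^ 2 * Real.exp (-φ z))) ^ 2 *
        ‖s p z * fderiv ℂ (s q) z v - s q z * fderiv ℂ (s p) z v‖ ^ 2 -
      (∑ a, ‖s a z‖ ^ 2 * Real.exp (-φ z)) / (d + ∑ a, ‖s a z‖ ^ 2 * Real.exp (-φ z)) *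
        lev φ z v ≤ lev (lsf s φ d) z v := by
  have hf : ∀ o, AnalyticAt ℂ (fo s o) z := by
    rintro (_ | a)
    · exact analyticAt_const
    · exact hs a
  have hu : ∀ o, ContDiffAt ℝ 2 (uo α φ d o) z := by
    rintro (_ | a)
    · exact contDiffAt_const
    · exact hφ.neg
  have h0 : ∃ o, fo s o z ≠ 0 := ⟨none, one_ne_zero⟩
  rw [lsf_eq s φ hd, lse_eq hf hu h0]
  set T : ℝ := ∑ a, ‖s a z‖ ^ 2 * Real.exp (-φ z) with hT
  have hse : se (fo s) (uo α φ d) z = d + T := se_fo s φ hd z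
  have hT0 : 0 ≤ T := Finset.sum_nonneg fun a _ => by positivity
  have hp : 0 < d + T := by linarith
  rw [hse]
  have hneg : lev (fun w => -φ w) z v = - lev φ z v := lev_neg hφ v
  -- the second sum
  have e2 : ∑ o, Real.exp (uo α φ d o z) * (‖fo s o z‖ ^ 2 * lev (uo α φ d o) z v) =
      - (T * lev φ z v) := by
    rw [Fintype.sum_option]
    have h1 : lev (uo α φ d none) z v = 0 := lev_const _ _
    rw [h1, mul_zero, mul_zero, zero_add, hT, Finset.sum_mul, ← Finset.sum_neg_distrib]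
    refine Finset.sum_congr rfl fun a _ => ?_
    show Real.exp (-φ z) * (‖s a z‖ ^ 2 * lev (fun w => -φ w) z v) = _
    rw [hneg]
    ring
  rw [e2]
  -- the first sum
  set W : ℂ := s p z * fderiv ℂ (s q) z v - s q z * fderiv ℂ (s p) z v with hW
  have e1 : 2 * (Real.exp (-φ z) * Real.exp (-φ z) * ‖W‖ ^ 2) ≤
      ∑ a, ∑ b, Real.exp (uo α φ d a z) * Real.exp (uo α φ d b z) *
        ‖fo s a z * cov (fo s) (uo α φ d) z v b - fo s b z * cov (fo s) (uo α φ d) z v a‖ ^ 2 := by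
    have hterm : ∀ p' q' : α, Real.exp (uo α φ d (some p') z) * Real.exp (uo α φ d (some q') z) *
        ‖fo s (some p') z * cov (fo s) (uo α φ d) z v (some q') -
          fo s (some q') z * cov (fo s) (uo α φ d) z v (some p')‖ ^ 2 =
        Real.exp (-φ z) * Real.exp (-φ z) *
          ‖s p' z * fderiv ℂ (s q') z v - s q' z * fderiv ℂ (s p') z v‖ ^ 2 := by
      intro p' q'
      show Real.exp (-φ z) * Real.exp (-φ z) *
        ‖s p' z * (fderiv ℂ (s q') z v + s q' z * gr (fun w => -φ w) z v) -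
          s q' z * (fderiv ℂ (s p') z v + s p' z * gr (fun w => -φ w) z v)‖ ^ 2 = _
      congr 3
      ring
    by_cases hpq : p = q
    · have : W = 0 := by rw [hW, hpq]; ring
      rw [this]
      simp only [norm_zero, ne_eq, OfNat.ofNat_ne_zero, not_false_eq_true, zero_pow, mul_zero]
      positivity
    · have hpos : ∀ a b : Option α, 0 ≤ Real.exp (uo α φ d a z) * Real.exp (uo α φ d b z) *
        ‖fo s a z * cov (fo s) (uo α φ d) z v b - fo s b z * cov (fo s) (uo α φ d) z v a‖ ^ 2 :=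
        fun a b => by positivity
      have hpair : ∀ F : Option α → Option α → ℝ, (∀ a b, 0 ≤ F a b) →
          F (some p) (some q) + F (some q) (some p) ≤ ∑ a, ∑ b, F a b := by
        intro F hF
        rw [← Finset.sum_product', Finset.univ_product_univ]
        have hne : (some p, some q) ≠ (some q, some p) := by
          intro h
          exact hpq (Option.some.inj (Prod.mk.inj h).1)
        have := Finset.sum_le_sum_of_subset_of_nonneg (s := {(some p, some q), (some q, some p)})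
          (t := Finset.univ) (f := fun x : Option α × Option α => F x.1 x.2)
          (Finset.subset_univ _) (fun x _ _ => hF _ _)
        rwa [Finset.sum_pair hne] at this
      refine le_trans (le_of_eq ?_) (hpair _ hpos)
      rw [hterm, hterm, ← hW]
      have : ‖s q z * fderiv ℂ (s p) z v - s p z * fderiv ℂ (s q) z v‖ = ‖W‖ := by
        rw [hW, ← norm_neg]
        congr 1
        ring
      rw [this]
      ring
  have e3 : (Real.exp (-φ z) / (d + T)) ^ 2 * ‖W‖ ^ 2 ≤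
      (∑ a, ∑ b, Real.exp (uo α φ d a z) * Real.exp (uo α φ d b z) *
        ‖fo s a z * cov (fo s) (uo α φ d) z v b - fo s b z * cov (fo s) (uo α φ d) z v a‖ ^ 2) /
        (2 * (d + T) ^ 2) := by
    rw [le_div_iff₀ (by positivity)]
    refine le_trans (le_of_eq ?_) e1
    field_simp
  have e4 : -(T * lev φ z v) / (d + T) = - (T / (d + T) * lev φ z v) := by ring
  rw [e4]
  linarith

theorem cd_se {s : α → Cn n → ℂ} {φ : Cn n → ℝ} {d : ℝ} {k : ℕ∞ω} (hs : ∀ a, AnalyticAt ℂ (s a) z)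
    (hφ : ContDiffAt ℝ k φ z) (hd : 0 < d) :
    ContDiffAt ℝ k (fun w => d + ∑ a, ‖s a w‖ ^ 2 * Real.exp (-φ w)) z := by
  have hf : ∀ o, AnalyticAt ℂ (fo s o) z := by
    rintro (_ | a)
    · exact analyticAt_const
    · exact hs a
  have hu : ∀ o, ContDiffAt ℝ k (uo α φ d o) z := by
    rintro (_ | a)
    · exact contDiffAt_const
    · exact hφ.neg
  have h := c2_se hf hu
  have e : se (fo s) (uo α φ d) = fun w => d + ∑ a, ‖s a w‖ ^ 2 * Real.exp (-φ w) := by
    funext w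
    exact se_fo s φ hd w
  rwa [e] at h

theorem sum_nonneg' (s : α → Cn n → ℂ) (φ : Cn n → ℝ) (w : Cn n) :
    0 ≤ ∑ a, ‖s a w‖ ^ 2 * Real.exp (-φ w) :=
  Finset.sum_nonneg fun a _ => by positivity

theorem cd_lsf {s : α → Cn n → ℂ} {φ : Cn n → ℝ} {d : ℝ} {k : ℕ∞ω}
    (hs : ∀ a, AnalyticAt ℂ (s a) z) (hφ : ContDiffAt ℝ k φ z) (hd : 0 < d) :
    ContDiffAt ℝ k (lsf s φ d) z :=
  (cd_se hs hφ hd).log (by have := sum_nonneg' s φ z; positivity)

/-- `s_p ∂s_q - s_q ∂s_p` -/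
def Wv (s : α → Cn n → ℂ) (p q : α) (z : Cn n) (b : Fin n) : ℂ :=
  s p z * df (s q) z b - s q z * df (s p) z b

omit [Fintype α] [DecidableEq α] in
theorem Wv_sum (s : α → Cn n → ℂ) (p q : α) (z v : Cn n) :
    ∑ b, Wv s p q z b * v b = s p z * fderiv ℂ (s q) z v - s q z * fderiv ℂ (s p) z v := by
  rw [fderiv_df, fderiv_df, Finset.mul_sum, Finset.mul_sum, ← Finset.sum_sub_distrib]
  exact Finset.sum_congr rfl fun b _ => by unfold Wv; ring

/-- the constant of the lower bound -/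
def cc (s : α → Cn n → ℂ) (φ : Cn n → ℝ) (d : ℝ) (z : Cn n) : ℝ :=
  Real.exp (-φ z) / (d + ∑ a, ‖s a z‖ ^ 2 * Real.exp (-φ z))

theorem vmv_form (W y : Fin n → ℂ) : star y ⬝ᵥ (vecMulVec W (star W) *ᵥ y) =
    ((‖∑ b, W b * conj (y b)‖ ^ 2 : ℝ) : ℂ) := by
  have h1 : star y ⬝ᵥ (vecMulVec W (star W) *ᵥ y) =
      (∑ b, W b * conj (y b)) * (∑ b, conj (W b) * y b) := by
    rw [Finset.sum_mul_sum]
    simp only [dotProduct, Matrix.mulVec, Matrix.vecMulVec_apply, Pi.star_apply, RCLike.star_def,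
      Finset.mul_sum]
    exact Finset.sum_congr rfl fun b _ => Finset.sum_congr rfl fun c _ => by ring
  have h2 : ∑ b, conj (W b) * y b = conj (∑ b, W b * conj (y b)) := by
    rw [map_sum]
    exact Finset.sum_congr rfl fun b _ => by rw [map_mul, Complex.conj_conj]
  rw [h1, h2, Complex.mul_conj']
  push_cast
  rfl

theorem herm_real_smul {X : Matrix (Fin n) (Fin n) ℂ} (h : X.IsHermitian) (c : ℝ) :
    ((c : ℂ) • X).IsHermitian := by
  rw [Matrix.IsHermitian, Matrix.conjTranspose_smul, h.eq, RCLike.star_def, Complex.conj_ofReal]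

theorem two_le_inf : (2 : ℕ∞ω) ≤ (∞ : ℕ∞ω) := by
  exact WithTop.coe_le_coe.2 (le_top : (2 : ℕ∞) ≤ ⊤)

/-- **the pointwise inequality** -/
theorem low_psd {s : α → Cn n → ℂ} {w : Cn n → ℝ} {k : ℕ} {d e : ℝ}
    {KG : Matrix (Fin n) (Fin n) ℂ} (hs : ∀ a, AnalyticAt ℂ (s a) z) (hw : ContDiffAt ℝ ∞ w z)
    (hk : 0 < k) (hd : 0 < d) (he : 0 ≤ e) (hK : KG.PosSemidef)
    (hN : (hess w z + (e : ℂ) • KG).PosSemidef) (p q : α) :
    (hess w z + (((k : ℝ)⁻¹ : ℝ) : ℂ) • hess (lsf s (fun y => (k : ℝ) * w y) d) z + (e : ℂ) • KG -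
      (((k : ℝ)⁻¹ * cc s (fun y => (k : ℝ) * w y) d z ^ 2 : ℝ) : ℂ) •
        vecMulVec (Wv s p q z) (star (Wv s p q z))).PosSemidef := by
  have hkw : ContDiffAt ℝ ∞ (fun y => (k : ℝ) * w y) z := contDiffAt_const.mul hw
  have hl : ContDiffAt ℝ ∞ (lsf s (fun y => (k : ℝ) * w y) d) z := cd_lsf hs hkw hd
  have hW : (vecMulVec (Wv s p q z) (star (Wv s p q z))).IsHermitian := by
    rw [Matrix.IsHermitian, Matrix.conjTranspose_vecMulVec, star_star]
  refine Matrix.PosSemidef.of_dotProduct_mulVec_nonneg ?_ fun y => ?_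
  · exact (((hess_herm hw).add (herm_real_smul (hess_herm hl) _)).add
      (herm_real_smul hK.1 _)).sub (herm_real_smul hW _)
  · set v : Cn n := WithLp.toLp 2 fun a => conj (y a) with hv
    have hk0 : (0 : ℝ) < k := by exact_mod_cast hk
    obtain ⟨r, hr⟩ : ∃ r : ℝ, star y ⬝ᵥ (KG *ᵥ y) = (r : ℂ) := by
      have h := Complex.nonneg_iff.1 (hK.dotProduct_mulVec_nonneg y)
      exact ⟨(star y ⬝ᵥ (KG *ᵥ y)).re, Complex.ext rfl (by rw [← h.2]; rfl)⟩
    have hr0 : 0 ≤ r := by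
      have := hK.dotProduct_mulVec_nonneg y
      rw [hr] at this
      exact_mod_cast this
    have hN' : 0 ≤ lev w z v + e * r := by
      have := hN.dotProduct_mulVec_nonneg y
      rw [Matrix.add_mulVec, dotProduct_add, hess_dot hw, Matrix.smul_mulVec, dotProduct_smul,
        hr, smul_eq_mul, ← Complex.ofReal_mul, ← Complex.ofReal_add] at this
      exact_mod_cast this
    have hge := lev_lsf_ge (s := s) (φ := fun y => (k : ℝ) * w y) hs
      (hkw.of_le two_le_inf) hd p q v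
    have hlk : lev (fun y => (k : ℝ) * w y) z v = k * lev w z v :=
      lev_const_mul (k : ℝ) (hw.of_le two_le_inf) v
    rw [hlk] at hge
    have hWv : ∑ b, Wv s p q z b * conj (y b) =
        s p z * fderiv ℂ (s q) z v - s q z * fderiv ℂ (s p) z v := by
      rw [← Wv_sum]
    rw [Matrix.sub_mulVec, dotProduct_sub, Matrix.add_mulVec, dotProduct_add, Matrix.add_mulVec,
      dotProduct_add, Matrix.smul_mulVec, dotProduct_smul, Matrix.smul_mulVec, dotProduct_smul,
      Matrix.smul_mulVec, dotProduct_smul, hess_dot hw, hess_dot hl, hr, vmv_form, hWv]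
    simp only [smul_eq_mul, ← Complex.ofReal_mul, ← Complex.ofReal_add, ← Complex.ofReal_sub]
    rw [Complex.zero_le_real]
    set T : ℝ := ∑ a, ‖s a z‖ ^ 2 * Real.exp (-((k : ℝ) * w z)) with hT
    have hT0 : 0 ≤ T := Finset.sum_nonneg fun a _ => by positivity
    have hcc : cc s (fun y => (k : ℝ) * w y) d z = Real.exp (-((k : ℝ) * w z)) / (d + T) := rfl
    rw [hcc]
    set Q : ℝ := (Real.exp (-((k : ℝ) * w z)) / (d + T)) ^ 2 with hQ
    set N : ℝ := ‖s p z * fderiv ℂ (s q) z v - s q z * fderiv ℂ (s p) z v‖ ^ 2 with hNdef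
    set B : ℝ := lev (lsf s (fun y => (k : ℝ) * w y) d) z v with hB
    have hp : 0 < d + T := by linarith
    have h1 : Q * N - T / (d + T) * (k * lev w z v) ≤ B := hge
    have h2 : (k : ℝ)⁻¹ * (Q * N - T / (d + T) * (k * lev w z v)) ≤ (k : ℝ)⁻¹ * B :=
      mul_le_mul_of_nonneg_left h1 (by positivity)
    have h3 : (k : ℝ)⁻¹ * (Q * N - T / (d + T) * (k * lev w z v)) =
        (k : ℝ)⁻¹ * Q * N - T / (d + T) * lev w z v := by
      field_simp
    rw [h3] at h2
    have h4 : lev w z v - T / (d + T) * lev w z v = d / (d + T) * lev w z v := by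
      field_simp
      ring
    have h5 : 0 ≤ d / (d + T) * (lev w z v + e * r) := by positivity
    have h6 : 0 ≤ T / (d + T) * (e * r) := by positivity
    have h7 : d / (d + T) * (e * r) + T / (d + T) * (e * r) = e * r := by
      field_simp
    have h8 : d / (d + T) * (lev w z v + e * r) = d / (d + T) * lev w z v +
      d / (d + T) * (e * r) := by ring
    linarith


end

end Crest.Agent.R281.OmL_677
private theorem rz_97a7c70906 : type_of% @_root_.Crest.Agent.R281.OmL_677.fo.eq_1 := @_root_.Crest.Agent.R281.OmL_677.fo.eq_1 -- L63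
private theorem rz_8c6c8e872f : type_of% @_root_.Crest.Agent.R281.OmL_677.uo.eq_1 := @_root_.Crest.Agent.R281.OmL_677.uo.eq_1 -- L68
end

-- ▼ part R281/OmL3_677
section

/-!
# R281 (S0424), OM-LAG (helper677), part 3: global energy estimate

* `qm_tr`, `qd_dn`, `qd_sm` : `qd σ F G` is a smooth density
* `energy_le` : for an isotropic `L` and metrics `h'` with `cur h' ≥ - e K`:
  `∫ qd σ (cur h' + e K) (cur h' + e K) ≤ B e`, `B` independent of `h'` and `e ≤ 1`
-/

set_option autoImplicit false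
set_option linter.unusedSectionVars false

open Set Filter Topology Complex MeasureTheory
open scoped ContDiff Matrix ComplexConjugate Manifold ComplexOrder

namespace Crest.Agent.R281.OmL_677

open Crest.Agent.R275.Geo Crest.Agent.R275.Core144 Crest.Agent.R275.EDR890
open Crest.Agent.R275.SerG398 (dens)
open Crest.Agent.R273.Hess_333 Crest.Agent.R273.HessB_333 Crest.Agent.R273.HM_333
open Crest.Agent.R273.Kah_333 Crest.Agent.R273.Vol_333 Crest.Agent.R273.Vm_333
open Crest.Agent.R273.GreenM_5 Crest.Agent.R273.Green_5 Crest.Agent.R273.StV_37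
open Crest.Agent.R273.Defs_333 (HM)
open Crest.Agent.R281.Defs_273
open Matrix (vecMulVec)

noncomputable section

variable {n : ℕ}

/-- transformation law -/
theorem qm_tr {J S : Matrix (Fin n) (Fin n) ℂ} (hJ : J.det ≠ 0) (F G : Matrix (Fin n) (Fin n) ℂ) :
    qm (Jᵀ * S * J) (Jᵀ * F * J.map conj) (Jᵀ * G * J.map conj) =
      J.det * conj J.det * qm S F G := by
  have hJu : IsUnit J.det := isUnit_iff_ne_zero.2 hJ
  have hJt : IsUnit Jᵀ.det := by rw [Matrix.det_transpose]; exact hJu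
  have hJc : IsUnit (J.map conj).det := by
    rw [det_map_conj, isUnit_iff_ne_zero]
    exact (map_ne_zero _).2 hJ
  have hJct : IsUnit (J.map conj)ᵀ.det := by rw [Matrix.det_transpose]; exact hJc
  have e0 : (Jᵀ * S * J).map conj = (J.map conj)ᵀ * S.map conj * J.map conj := by
    rw [Matrix.map_mul, Matrix.map_mul, Matrix.transpose_map]
  have e1 : ((‖(Jᵀ * S * J).det‖ : ℝ) : ℂ) = J.det * conj J.det * ((‖S.det‖ : ℝ) : ℂ) := by
    rw [Matrix.det_mul, Matrix.det_mul, Matrix.det_transpose, norm_mul, norm_mul,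
      Complex.mul_conj']
    push_cast
    ring
  unfold qm
  rw [e1, e0]
  set Jc := J.map conj with hJcdef
  have e2 : (Jᵀ * S * J)⁻¹ * (Jᵀ * F * Jc) * (Jcᵀ * S.map conj * Jc)⁻¹ * (Jᵀ * G * Jc)ᵀ =
      J⁻¹ * (S⁻¹ * F * (S.map conj)⁻¹ * Gᵀ) * J := by
    rw [Matrix.mul_inv_rev, Matrix.mul_inv_rev, Matrix.mul_inv_rev, Matrix.mul_inv_rev,
      Matrix.transpose_mul, Matrix.transpose_mul, Matrix.transpose_transpose]
    calc J⁻¹ * (S⁻¹ * Jᵀ⁻¹) * (Jᵀ * F * Jc) * (Jc⁻¹ * ((S.map conj)⁻¹ * Jcᵀ⁻¹)) *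
          (Jcᵀ * (Gᵀ * J))
        = J⁻¹ * (S⁻¹ * ((Jᵀ⁻¹ * Jᵀ) * (F * ((Jc * Jc⁻¹) * ((S.map conj)⁻¹ *
          ((Jcᵀ⁻¹ * Jcᵀ) * (Gᵀ * J))))))) := by simp only [Matrix.mul_assoc]
      _ = _ := by
        rw [Matrix.nonsing_inv_mul _ hJt, Matrix.mul_nonsing_inv _ hJc,
          Matrix.nonsing_inv_mul _ hJct]
        simp only [Matrix.one_mul, Matrix.mul_assoc]
  rw [e2, Matrix.trace_mul_comm, ← Matrix.mul_assoc, Matrix.mul_nonsing_inv _ hJu, Matrix.one_mul]
  ring

variable {M : Type} [TopologicalSpace M] {A : Atl n M} {L : LB A}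
  {F G : A.ι → M → Matrix (Fin n) (Fin n) ℂ}

theorem qd_dn (σ : HSymp A) (hF : Tn A F) (hG : Tn A G) : Dn A (qd σ F G) := by
  intro i j x hx
  show qm (σ.s i x) (F i x) (G i x) = dens A i j x * qm (σ.s j x) (F j x) (G j x)
  rw [σ.tr i j x hx, hF i j x hx, hG i j x hx, qm_tr (Jm_det_ne hx), dens_Jm]

theorem smAt_s (σ : HSymp A) (i : A.ι) (a b : Fin n) : A.SmAt i (fun x => σ.s i x a b) := by
  have h := (σ.hol i a b).contDiffOn isOpen_univ
  have e : (A.e i).target ∩ (A.e i).symm ⁻¹' univ = (A.e i).target := by simp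
  rw [e] at h
  exact h

theorem smAt_inv' {i : A.ι} {m : M → Matrix (Fin n) (Fin n) ℂ}
    (h : ∀ a b, A.SmAt i (fun x => m x a b)) (hd : ∀ x ∈ (A.e i).source, (m x).det ≠ 0)
    (a b : Fin n) : A.SmAt i (fun x => (m x)⁻¹ a b) := by
  have hadj : A.SmAt i (fun x => (m x).adjugate a b) := by
    have h1 : (fun x => (m x).adjugate a b) =
        fun x => ((m x).updateRow b (Pi.single a 1)).det := by
      funext x
      rw [Matrix.adjugate_apply]
    rw [h1]
    refine smAt_det fun c d => ?_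
    by_cases hc : c = b
    · subst hc
      simp only [Matrix.updateRow_self]
      exact contDiffOn_const
    · have h2 : (fun x => (m x).updateRow b (Pi.single a 1) c d) = fun x => m x c d := by
        funext x
        rw [Matrix.updateRow_ne hc]
      rw [h2]
      exact h c d
  have hdet : A.SmAt i (fun x => (m x).det) := smAt_det h
  have h3 : ContDiffOn ℝ ∞ (fun z => ((m ((A.e i).symm z)).det)⁻¹ *
      (m ((A.e i).symm z)).adjugate a b) (A.e i).target :=
    (ContDiffOn.inv hdet fun z hz => hd _ ((A.e i).map_target hz)).mul hadj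
  refine h3.congr fun z hz => ?_
  show (m ((A.e i).symm z))⁻¹ a b = _
  rw [Matrix.inv_def, Matrix.smul_apply, smul_eq_mul, Ring.inverse_eq_inv']

theorem qd_sm (σ : HSymp A) (hF : ∀ i a b, A.SmAt i (fun x => F i x a b))
    (hG : ∀ i a b, A.SmAt i (fun x => G i x a b)) (i : A.ι) : A.SmAt i (qd σ F G i) := by
  have hT := smAt_inv' (smAt_s σ i) (σ.nd i)
  have hTc : ∀ a b, A.SmAt i (fun x => conj ((σ.s i x)⁻¹ a b)) := fun a b =>
    (Complex.conjCLE.contDiff.comp_contDiffOn (hT a b) :)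
  have hdet : ContDiffOn ℝ ∞ (fun z => (σ.s i ((A.e i).symm z)).det) (A.e i).target :=
    smAt_det (smAt_s σ i)
  have hN : ContDiffOn ℝ ∞ (fun z => ((‖(σ.s i ((A.e i).symm z)).det‖ : ℝ) : ℂ))
      (A.e i).target :=
    Complex.ofRealCLM.contDiff.comp_contDiffOn
      (hdet.norm ℝ fun z hz => σ.nd i _ ((A.e i).map_target hz))
  have h1 : ContDiffOn ℝ ∞ (fun z => - ((‖(σ.s i ((A.e i).symm z)).det‖ : ℝ) : ℂ) *
      ∑ a, ∑ d, (∑ c, (∑ b, (σ.s i ((A.e i).symm z))⁻¹ a b * F i ((A.e i).symm z) b c) *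
        conj ((σ.s i ((A.e i).symm z))⁻¹ c d)) * G i ((A.e i).symm z) a d) (A.e i).target := by
    refine hN.neg.mul (ContDiffOn.sum fun a _ => ContDiffOn.sum fun d _ => ContDiffOn.mul
      (ContDiffOn.sum fun c _ => ContDiffOn.mul (ContDiffOn.sum fun b _ => ?_) (hTc c d)) (hG i a d))
    exact ContDiffOn.mul (hT a b) (hF i b c)
  refine h1.congr fun z hz => ?_
  show qm _ _ _ = _
  unfold qm
  rw [map_conj_inv]
  simp only [Matrix.trace, Matrix.diag_apply, Matrix.mul_apply, Matrix.transpose_apply,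
    Matrix.map_apply]

/-- `cur h + e K` -/
def Fe (K : Kah A) (h : HM L) (e : ℝ) (i : A.ι) (x : M) : Matrix (Fin n) (Fin n) ℂ :=
  cur h i x + (e : ℂ) • K.g i x

theorem Fe_tn (K : Kah A) (h : HM L) (e : ℝ) : Tn A (Fe K h e) := by
  intro i j x hx
  unfold Fe
  rw [cur_tr h hx, K.tr i j x hx, Matrix.mul_add, Matrix.add_mul, Matrix.mul_smul,
    Matrix.smul_mul]

theorem Fe_sm (K : Kah A) (h : HM L) (e : ℝ) (i : A.ι) (a b : Fin n) :
    A.SmAt i (fun x => Fe K h e i x a b) := by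
  have h1 : ContDiffOn ℝ ∞ (fun z => cur h i ((A.e i).symm z) a b +
      (e : ℂ) * K.g i ((A.e i).symm z) a b) (A.e i).target :=
    ContDiffOn.add (cur_smooth h i a b) (contDiffOn_const.mul (K.sm i a b))
  exact h1

theorem cur_tn (h : HM L) : Tn A (cur h) := fun _ _ _ hx => cur_tr h hx

/-- pointwise inequality -/
theorem qm_le {S C K : Matrix (Fin n) (Fin n) ℂ} (hS : Sᵀ = -S) (hK : K.PosDef) {e : ℝ}
    (he : 0 ≤ e) (hF : (C + (e : ℂ) • K).PosSemidef) :
    (qm S (C + (e : ℂ) • K) (C + (e : ℂ) • K)).re ≤ (qm S C C).re +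
      2 * e * ((K⁻¹ * (C + (e : ℂ) • K)).trace.re * (qm S K K).re) := by
  set F := C + (e : ℂ) • K with hFd
  have h1 : qm S F F = qm S C C + 2 * e * qm S F K - e ^ 2 * qm S K K := by
    have a1 : qm S F F = qm S C C + e * qm S C K + e * qm S K C + e ^ 2 * qm S K K := by
      rw [hFd, qm_add_left, qm_add_right, qm_add_right, qm_smul_left, qm_smul_left, qm_smul_right,
        qm_smul_right]
      ring
    have a2 : qm S F K = qm S C K + e * qm S K K := by
      rw [hFd, qm_add_left, qm_smul_left]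
    rw [a1, a2, qm_symm hS K C]
    ring
  have h2 : 0 ≤ (qm S K K).re := (Complex.nonneg_iff.1 (qm_nonneg hS hK.posSemidef hK.posSemidef)).1
  have h2i : (qm S K K).im = 0 :=
    ((Complex.nonneg_iff.1 (qm_nonneg hS hK.posSemidef hK.posSemidef)).2).symm
  have h3 : (qm S F K).re ≤ (K⁻¹ * F).trace.re * (qm S K K).re := by
    have h4 := qm_nonneg hS (tr_smul_sub hK hF) hK.posSemidef
    rw [qm_sub_left, qm_smul_left] at h4
    have h5 := (Complex.nonneg_iff.1 h4).1
    rw [Complex.sub_re, Complex.mul_re, h2i, mul_zero, sub_zero] at h5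
    linarith
  rw [h1, Complex.sub_re, Complex.add_re]
  have e1 : (2 * (e : ℂ) * qm S F K).re = 2 * e * (qm S F K).re := by
    rw [show (2 * (e : ℂ) * qm S F K) = ((2 * e : ℝ) : ℂ) * qm S F K by push_cast; ring,
      Complex.re_ofReal_mul]
  have e2 : ((e : ℂ) ^ 2 * qm S K K).re = e ^ 2 * (qm S K K).re := by
    rw [← Complex.ofReal_pow, Complex.re_ofReal_mul]
  rw [e1, e2]
  have h6 : 2 * e * (qm S F K).re ≤ 2 * e * ((K⁻¹ * F).trace.re * (qm S K K).re) :=
    mul_le_mul_of_nonneg_left h3 (by positivity)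
  have h7 : 0 ≤ e ^ 2 * (qm S K K).re := by positivity
  linarith

theorem fnD_re (K : Kah A) (f : A.ι → M → ℂ) (x : M) :
    (fnD K f x).re = (f (ci A x) x).re / (K.g (ci A x) x).det.re := by
  unfold fnD
  have h := (K.pos _ _ (mem_ci (A := A) x)).det_pos
  have h1 : (K.g (ci A x) x).det = (((K.g (ci A x) x).det.re : ℝ) : ℂ) :=
    Complex.ext rfl (by rw [← (Complex.nonneg_iff.1 h.le).2]; rfl)
  rw [h1, Complex.div_ofReal_re]
  rfl

theorem det_re_pos (K : Kah A) {i : A.ι} {x : M} (hx : x ∈ (A.e i).source) :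
    0 < (K.g i x).det.re := by
  have h := (K.pos i x hx).det_pos
  exact (Complex.pos_iff.1 h).1

section int

variable [T2Space M] [CompactSpace M] [MeasurableSpace M] [BorelSpace M] [Finite A.ι]

/-- **the energy estimate** -/
theorem energy_le (P : Part A) (K : Kah A) (σ : HSymp A) (hI : Isotropic P σ L) :
    ∃ B : ℝ, 0 ≤ B ∧ ∀ e : ℝ, 0 < e → e ≤ 1 → ∀ h' : HM L,
      (∀ i, ∀ x ∈ (A.e i).source, (Fe K h' e i x).PosSemidef) →
      ∫ x, (fnD K (qd σ (Fe K h' e) (Fe K h' e)) x).re ∂(vm (volK K)) ≤ e * B := by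
  obtain ⟨h1⟩ := exists_hm P L
  -- the supremum of `qd K K`
  have hkk : Continuous fun x => (fnD K (qd σ K.g K.g) x).re :=
    sm_continuous (sm_re (sm_fnD K (qd_dn σ (K_tn K) (K_tn K)) (qd_sm σ K.sm K.sm)))
  obtain ⟨B0, hB0⟩ : ∃ B0 : ℝ, ∀ x, (fnD K (qd σ K.g K.g) x).re ≤ B0 := by
    obtain ⟨C, hC⟩ := isCompact_univ.exists_bound_of_continuousOn hkk.continuousOn
    exact ⟨C, fun x => (le_abs_self _).trans (hC x (mem_univ x))⟩
  set B1 : ℝ := max B0 0 with hB1
  have hB1' : ∀ x, (fnD K (qd σ K.g K.g) x).re ≤ B1 := fun x => (hB0 x).trans (le_max_left _ _)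
  have hB10 : 0 ≤ B1 := le_max_right _ _
  set I1 : ℝ := ∫ x, (trK K (cur h1) x).re ∂(vm (volK K)) with hI1
  set V : ℝ := ∫ x, (trK K K.g x).re ∂(vm (volK K)) with hV
  have hV0 : 0 ≤ V := integral_nonneg fun x =>
    (Complex.nonneg_iff.1 (trK_nonneg K (K.pos _ _ (mem_ci x)).posSemidef)).1
  refine ⟨2 * B1 * (|I1| + V), by positivity, fun e he he1 h' hF => ?_⟩
  -- smoothness
  have sFF : A.Sm (fun x => (fnD K (qd σ (Fe K h' e) (Fe K h' e)) x).re) :=
    sm_re (sm_fnD K (qd_dn σ (Fe_tn K h' e) (Fe_tn K h' e))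
      (qd_sm σ (Fe_sm K h' e) (Fe_sm K h' e)))
  have sCC : A.Sm (fun x => (fnD K (qd σ (cur h') (cur h')) x).re) :=
    sm_re (sm_fnD K (qd_dn σ (cur_tn h') (cur_tn h')) (qd_sm σ (cur_smooth h') (cur_smooth h')))
  have sT : A.Sm (fun x => (trK K (Fe K h' e) x).re) :=
    sm_re (sm_trK K (Fe_tn K h' e) (Fe_sm K h' e))
  -- pointwise
  have hpt : ∀ x, (fnD K (qd σ (Fe K h' e) (Fe K h' e)) x).re ≤
      (fnD K (qd σ (cur h') (cur h')) x).re + 2 * e * B1 * (trK K (Fe K h' e) x).re := by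
    intro x
    have hx := mem_ci (A := A) x
    have hS : (σ.s (ci A x) x)ᵀ = -σ.s (ci A x) x := σ.alt _ x hx
    have h2 := qm_le hS (K.pos _ _ hx) he.le (hF _ _ hx)
    have hd := det_re_pos K hx
    have h3 := hB1' x
    rw [fnD_re] at h3 ⊢
    rw [fnD_re]
    have h4 : (qm (σ.s (ci A x) x) (K.g (ci A x) x) (K.g (ci A x) x)).re ≤
        B1 * (K.g (ci A x) x).det.re := by
      rw [← div_le_iff₀ hd]; exact h3
    have htr : 0 ≤ ((K.g (ci A x) x)⁻¹ * (cur h' (ci A x) x + (e : ℂ) •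
        K.g (ci A x) x)).trace.re :=
      (Complex.nonneg_iff.1 (trace_inv_mul_nonneg (K.pos _ _ hx) (hF _ _ hx))).1
    show (qm (σ.s (ci A x) x) (cur h' (ci A x) x + (e : ℂ) • K.g (ci A x) x)
      (cur h' (ci A x) x + (e : ℂ) • K.g (ci A x) x)).re / (K.g (ci A x) x).det.re ≤
      (qm (σ.s (ci A x) x) (cur h' (ci A x) x) (cur h' (ci A x) x)).re /
        (K.g (ci A x) x).det.re + 2 * e * B1 * ((K.g (ci A x) x)⁻¹ * (cur h' (ci A x) x +
          (e : ℂ) • K.g (ci A x) x)).trace.re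
    rw [div_add' _ _ _ hd.ne', div_le_div_iff_of_pos_right hd]
    refine h2.trans ?_
    have h5 : ((K.g (ci A x) x)⁻¹ * (cur h' (ci A x) x + (e : ℂ) •
        K.g (ci A x) x)).trace.re * (qm (σ.s (ci A x) x) (K.g (ci A x) x) (K.g (ci A x) x)).re ≤
        ((K.g (ci A x) x)⁻¹ * (cur h' (ci A x) x + (e : ℂ) •
        K.g (ci A x) x)).trace.re * (B1 * (K.g (ci A x) x).det.re) :=
      mul_le_mul_of_nonneg_left h4 htr
    have h6 := mul_le_mul_of_nonneg_left h5 (by positivity : 0 ≤ 2 * e)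
    linarith
  have hint : ∫ x, (fnD K (qd σ (Fe K h' e) (Fe K h' e)) x).re ∂(vm (volK K)) ≤
      ∫ x, ((fnD K (qd σ (cur h') (cur h')) x).re + 2 * e * B1 * (trK K (Fe K h' e) x).re)
        ∂(vm (volK K)) :=
    integral_mono (integrable_sm _ sFF) ((integrable_sm _ sCC).add
      ((integrable_sm _ sT).const_mul _)) hpt
  refine hint.trans ?_
  rw [integral_add (integrable_sm _ sCC) ((integrable_sm _ sT).const_mul _), integral_const_mul]
  -- isotropy
  have hz : ∫ x, (fnD K (qd σ (cur h') (cur h')) x).re ∂(vm (volK K)) = 0 := by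
    rw [integral_fnD_re K P (qd_dn σ (cur_tn h') (cur_tn h'))
      (qd_sm σ (cur_smooth h') (cur_smooth h')), ← Crest.Agent.R273.BKNe_37.intD_eq_totc, hI h',
      Complex.zero_re]
  rw [hz, zero_add]
  -- the trace
  have htr : ∫ x, (trK K (Fe K h' e) x).re ∂(vm (volK K)) = I1 + e * V := by
    have sL : A.Sm (lapK K (ratio h1 h')) := sm_lapK K (sm_ratio h1 h')
    have s1 : A.Sm (fun x => (trK K (cur h1) x).re) := sm_re (sm_trK K (cur_tn h1) (cur_smooth h1))
    have s2 : A.Sm (fun x => (trK K K.g x).re) := sm_re (sm_trK K (K_tn K) K.sm)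
    have h2 : ∀ x, (trK K (Fe K h' e) x).re = ((trK K (cur h1) x).re - lapK K (ratio h1 h') x) +
        e * (trK K K.g x).re := by
      intro x
      unfold trK lapK trK Fe
      rw [cur_ratio h1 h' _ (mem_ci x), Matrix.mul_add, Matrix.trace_add, Matrix.mul_sub,
        Matrix.trace_sub, Matrix.mul_smul, Matrix.trace_smul, Complex.add_re, Complex.sub_re,
        smul_eq_mul, Complex.re_ofReal_mul]
    simp only [h2]
    have i1 : Integrable (fun x => (trK K (cur h1) x).re - lapK K (ratio h1 h') x)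
        (vm (volK K)) := (integrable_sm _ s1).sub (integrable_sm _ sL)
    rw [integral_add i1 ((integrable_sm _ s2).const_mul _),
      integral_sub (integrable_sm _ s1) (integrable_sm _ sL),
      integral_lapK K P (sm_ratio h1 h'), integral_const_mul, sub_zero]
  rw [htr]
  have h8 : I1 + e * V ≤ |I1| + V := by
    have := le_abs_self I1
    nlinarith
  have h9 := mul_le_mul_of_nonneg_left h8 (by positivity : 0 ≤ 2 * e * B1)
  linarith

end int

end

end Crest.Agent.R281.OmL_677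
end

-- ▼ part R281/OmL4_677
section

/-!
# R281 (S0424), OM-LAG (helper677), part 4: the Poisson brackets vanish

`L` nef and isotropic, `s a` sections of `L ^ k`, `0 < k`: for all `p q p' q'`, in every chart,
`W_{p'q'} S⁻¹ W_{pq} = 0`, `W_{pq} = s_p ∂s_q - s_q ∂s_p` (`bracket`).
* `bracket_ratio` : the Poisson brackets of the ratios `s_a / s_0` vanish where `s_0 ≠ 0`
* `isotropic`     : in dimension `2 m`, if `m` ratios have independent differentials at `x`, the
  common kernel of the differentials is `σ`-isotropic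
-/

set_option autoImplicit false
set_option linter.unusedSectionVars false

open Set Filter Topology Complex MeasureTheory
open scoped ContDiff Matrix ComplexConjugate Manifold ComplexOrder

namespace Crest.Agent.R281.OmL_677

open Crest.Agent.R275.Geo Crest.Agent.R275.Core144 Crest.Agent.R275.EDR890
open Crest.Agent.R273.Hess_333 Crest.Agent.R273.HessB_333 Crest.Agent.R273.HM_333
open Crest.Agent.R273.Kah_333 Crest.Agent.R273.Vol_333 Crest.Agent.R273.Vm_333
open Crest.Agent.R273.GreenM_5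
open Crest.Agent.R273.Defs_333 (HM)
open Crest.Agent.R281.Defs_273
open Matrix (vecMulVec)

noncomputable section

variable {n : ℕ} {M : Type} [TopologicalSpace M] {A : Atl n M} {L : LB A}
variable {α : Type*} [Fintype α] [DecidableEq α]

/-- the sections in the chart `i` -/
def sl (A : Atl n M) (s : α → A.ι → M → ℂ) (i : A.ι) (a : α) (z : Cn n) : ℂ :=
  s a i ((A.e i).symm z)

/-- `log (d + ∑ |s_a|²_h)` -/
def Lg (h : HM L) (k : ℕ) (s : α → A.ι → M → ℂ) (d : ℝ) (x : M) : ℝ :=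
  Real.log (d + ∑ a, nsq (pow h k) (s a) (ci A x) x)

section loc

variable {k : ℕ} {s : α → A.ι → M → ℂ}

theorem sl_diffOn (hs : ∀ a, IsHS (L ^ k) univ (s a)) (i : A.ι) (a : α) :
    DifferentiableOn ℂ (sl A s i a) (A.e i).target := by
  have h := (hs a).hol i
  intro z hz
  exact (h z ⟨hz, mem_univ _⟩).mono fun w hw => ⟨hw, mem_univ _⟩

theorem sl_anal (hs : ∀ a, IsHS (L ^ k) univ (s a)) (i : A.ι) {z : Cn n}
    (hz : z ∈ (A.e i).target) (a : α) : AnalyticAt ℂ (sl A s i a) z :=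
  ((Crest.Agent.R266.SCV.contDiffOn_omega_of_differentiableOn (A.e i).open_target
    (sl_diffOn hs i a)).contDiffAt ((A.e i).open_target.mem_nhds hz)).analyticAt

theorem exp_wt (h : HM L) (k : ℕ) (i : A.ι) {z : Cn n} (hz : z ∈ (A.e i).target) :
    Real.exp (-((k : ℝ) * h.wt i z)) = (h.w i ((A.e i).symm z)) ^ k := by
  have h0 := h.pos i _ ((A.e i).map_target hz)
  unfold Crest.Agent.R273.Defs_333.HM.wt
  rw [mul_neg, neg_neg, mul_comm, Real.exp_mul, Real.exp_log h0, Real.rpow_natCast]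

theorem Lg_read (hs : ∀ a, IsHS (L ^ k) univ (s a)) (h : HM L) (d : ℝ) (i : A.ι) {z : Cn n}
    (hz : z ∈ (A.e i).target) :
    Lg h k s d ((A.e i).symm z) = lsf (sl A s i) (fun y => (k : ℝ) * h.wt i y) d z := by
  unfold Lg lsf
  congr 2
  refine Finset.sum_congr rfl fun a _ => ?_
  have hx := (A.e i).map_target hz
  rw [nsq_indep (pow h k) (hs a) ⟨mem_ci _, hx⟩ (mem_univ _), exp_wt h k i hz]
  unfold nsq
  rw [pow_w]
  rfl

theorem kwt_smooth (h : HM L) (k : ℕ) (i : A.ι) {z : Cn n} (hz : z ∈ (A.e i).target) :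
    ContDiffAt ℝ ∞ (fun y => (k : ℝ) * h.wt i y) z :=
  contDiffAt_const.mul (wt_contDiffAt h i hz)

theorem sm_Lg (hs : ∀ a, IsHS (L ^ k) univ (s a)) (h : HM L) {d : ℝ} (hd : 0 < d) :
    A.Sm (Lg h k s d) := by
  intro i
  have h1 : ContDiffOn ℝ ∞ (lsf (sl A s i) (fun y => (k : ℝ) * h.wt i y) d) (A.e i).target :=
    fun z hz => (cd_lsf (fun a => sl_anal hs i hz a) (kwt_smooth h k i hz) hd).contDiffWithinAt
  exact h1.congr fun z hz => Lg_read hs h d i hz

theorem sm_kLg (hs : ∀ a, IsHS (L ^ k) univ (s a)) (h : HM L) {d : ℝ} (hd : 0 < d) :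
    A.Sm (fun x => (k : ℝ)⁻¹ * Lg h k s d x) := fun i =>
  contDiffOn_const.mul (sm_Lg hs h hd i)

/-- the metric `h (d + ∑ |s_a|²_h)^{-1/k}` -/
def hk (hs : ∀ a, IsHS (L ^ k) univ (s a)) (h : HM L) {d : ℝ} (hd : 0 < d) : HM L :=
  tw h (fun x => (k : ℝ)⁻¹ * Lg h k s d x) (sm_kLg hs h hd)

theorem cur_hk (hs : ∀ a, IsHS (L ^ k) univ (s a)) (h : HM L) {d : ℝ} (hd : 0 < d) (i : A.ι)
    {x : M} (hx : x ∈ (A.e i).source) :
    cur (hk hs h hd) i x = hess (h.wt i) (A.e i x) + (((k : ℝ)⁻¹ : ℝ) : ℂ) •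
      hess (lsf (sl A s i) (fun y => (k : ℝ) * h.wt i y) d) (A.e i x) := by
  have hz := (A.e i).map_source hx
  unfold hk
  rw [cur_tw h _ i hx]
  congr 1
  unfold hsf
  have h1 : (fun z => (k : ℝ)⁻¹ * Lg h k s d ((A.e i).symm z)) =ᶠ[𝓝 (A.e i x)]
      fun z => (k : ℝ)⁻¹ * lsf (sl A s i) (fun y => (k : ℝ) * h.wt i y) d z := by
    filter_upwards [(A.e i).open_target.mem_nhds hz] with w hw
    rw [Lg_read hs h d i hw]
  rw [hess_congr h1, hess_const_mul _ (cd_lsf (fun a => sl_anal hs i hz a)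
    (kwt_smooth h k i hz) hd)]

/-- **the lower bound in a chart** -/
theorem low (hs : ∀ a, IsHS (L ^ k) univ (s a)) (hk0 : 0 < k) (h : HM L) {d : ℝ} (hd : 0 < d)
    (K : Kah A) {e : ℝ} (he : 0 ≤ e) (i : A.ι) {x : M} (hx : x ∈ (A.e i).source)
    (hN : (cur h i x + (e : ℂ) • K.g i x).PosSemidef) (p q : α) :
    (Fe K (hk hs h hd) e i x -
      (((k : ℝ)⁻¹ * cc (sl A s i) (fun y => (k : ℝ) * h.wt i y) d (A.e i x) ^ 2 : ℝ) : ℂ) •
        vecMulVec (Wv (sl A s i) p q (A.e i x)) (star (Wv (sl A s i) p q (A.e i x)))).PosSemidef := by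
  have hz := (A.e i).map_source hx
  have h1 := low_psd (s := sl A s i) (w := h.wt i) (k := k) (d := d) (e := e)
    (fun a => sl_anal hs i hz a) (wt_contDiffAt h i hz) hk0 hd he (K.pos i x hx).posSemidef hN p q
  unfold Fe
  rw [cur_hk hs h hd i hx]
  exact h1

theorem vmv_psd (W : Fin n → ℂ) : (vecMulVec W (star W)).PosSemidef := by
  refine Matrix.PosSemidef.of_dotProduct_mulVec_nonneg ?_ fun y => ?_
  · rw [Matrix.IsHermitian, Matrix.conjTranspose_vecMulVec, star_star]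
  · rw [vmv_form, Complex.zero_le_real]
    positivity

theorem real_smul_psd {X : Matrix (Fin n) (Fin n) ℂ} (h : X.PosSemidef) {c : ℝ} (hc : 0 ≤ c) :
    ((c : ℂ) • X).PosSemidef := by
  refine Matrix.PosSemidef.of_dotProduct_mulVec_nonneg (herm_real_smul h.1 c) fun y => ?_
  rw [Matrix.smul_mulVec, dotProduct_smul, smul_eq_mul]
  exact mul_nonneg (by exact_mod_cast hc) (h.dotProduct_mulVec_nonneg y)

theorem Fe_psd (hs : ∀ a, IsHS (L ^ k) univ (s a)) (hk0 : 0 < k) (h : HM L) {d : ℝ} (hd : 0 < d)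
    (K : Kah A) {e : ℝ} (he : 0 ≤ e) (i : A.ι) {x : M} (hx : x ∈ (A.e i).source)
    (hN : (cur h i x + (e : ℂ) • K.g i x).PosSemidef) (p : α) :
    (Fe K (hk hs h hd) e i x).PosSemidef := by
  have h1 := low hs hk0 h hd K he i hx hN p p
  have h2 := h1.add (real_smul_psd (vmv_psd (Wv (sl A s i) p p (A.e i x)))
    (c := (k : ℝ)⁻¹ * cc (sl A s i) (fun y => (k : ℝ) * h.wt i y) d (A.e i x) ^ 2) (by positivity))
  simpa using h2

/-- the lower bound of `qm` -/
theorem qm_low {S : Matrix (Fin n) (Fin n) ℂ} (hS : Sᵀ = -S) {F : Matrix (Fin n) (Fin n) ℂ}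
    {W W' : Fin n → ℂ} {c c' : ℝ} (hc : 0 ≤ c) (hcc' : c ≤ c') (hF : F.PosSemidef)
    (h1 : (F - (c' : ℂ) • vecMulVec W (star W)).PosSemidef)
    (h2 : (F - (c' : ℂ) • vecMulVec W' (star W')).PosSemidef) :
    c ^ 2 * (‖S.det‖ * ‖W' ⬝ᵥ (S⁻¹ *ᵥ W)‖ ^ 2) ≤ (qm S F F).re := by
  have hred : ∀ {U : Fin n → ℂ}, (F - (c' : ℂ) • vecMulVec U (star U)).PosSemidef →
      (F - (c : ℂ) • vecMulVec U (star U)).PosSemidef := by
    intro U hU
    have h3 := hU.add (real_smul_psd (vmv_psd U) (sub_nonneg.2 hcc'))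
    have e : F - (c' : ℂ) • vecMulVec U (star U) + ((c' - c : ℝ) : ℂ) • vecMulVec U (star U) =
        F - (c : ℂ) • vecMulVec U (star U) := by
      rw [Complex.ofReal_sub, sub_smul]
      abel
    rwa [e] at h3
  have h3 := qm_mono hS (hred h1) (hred h2) (real_smul_psd (vmv_psd W) hc) hF
  rw [qm_smul_left, qm_smul_right, qm_rank hS, ← Complex.ofReal_mul, ← Complex.ofReal_mul] at h3
  have h4 := (Complex.le_def.1 h3).1
  rw [Complex.ofReal_re] at h4
  calc c ^ 2 * (‖S.det‖ * ‖W' ⬝ᵥ (S⁻¹ *ᵥ W)‖ ^ 2) =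
      c * (c * (‖S.det‖ * ‖W' ⬝ᵥ (S⁻¹ *ᵥ W)‖ ^ 2)) := by ring
    _ ≤ _ := h4

end loc

section main

variable {k : ℕ} {s : α → A.ι → M → ℂ}

omit [Fintype α] [DecidableEq α] in
theorem cont_df {f : Cn n → ℂ} {U : Set (Cn n)} (hU : IsOpen U) (hf : DifferentiableOn ℂ f U)
    {z : Cn n} (hz : z ∈ U) (b : Fin n) : ContinuousAt (fun w => df f w b) z := by
  have h1 := (Crest.Agent.R266.SCV.contDiffOn_omega_of_differentiableOn hU hf).contDiffAt
    (hU.mem_nhds hz)
  have h2 : ContinuousAt (fderiv ℂ f) z := h1.continuousAt_fderiv (by simp)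
  exact h2.clm_apply continuousAt_const

theorem cont_Wv (hs : ∀ a, IsHS (L ^ k) univ (s a)) (i : A.ι) {z : Cn n}
    (hz : z ∈ (A.e i).target) (p q : α) : ContinuousAt (Wv (sl A s i) p q) z := by
  refine continuousAt_pi.2 fun b => ?_
  have h1 : ∀ a, ContinuousAt (sl A s i a) z := fun a => (sl_anal hs i hz a).continuousAt
  have h2 : ∀ a, ContinuousAt (fun w => df (sl A s i a) w b) z := fun a =>
    cont_df (A.e i).open_target (sl_diffOn hs i a) hz b
  exact ((h1 p).mul (h2 q)).sub ((h1 q).mul (h2 p))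

theorem contOn_smAt {i : A.ι} {f : M → ℝ} (h : A.SmAt i f) :
    ContinuousOn f (A.e i).source := by
  have h0 : ContinuousOn (fun z => f ((A.e i).symm z)) (A.e i).target := ContDiffOn.continuousOn h
  have h2 : ContinuousOn (fun x => f ((A.e i).symm (A.e i x))) (A.e i).source :=
    h0.comp (A.e i).continuousOn fun y hy => (A.e i).map_source hy
  refine h2.congr fun y hy => ?_
  change f y = f ((A.e i).symm (A.e i y))
  rw [(A.e i).left_inv hy]

theorem cont_mat {m : A.ι → M → Matrix (Fin n) (Fin n) ℂ} (i : A.ι)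
    (h : ∀ a b, A.SmAt i (fun x => m i x a b)) {z : Cn n} (hz : z ∈ (A.e i).target) :
    ContinuousAt (fun w => m i ((A.e i).symm w)) z := by
  refine continuousAt_pi.2 fun a => continuousAt_pi.2 fun b => ?_
  have h1 : ContDiffOn ℝ ∞ (fun w => m i ((A.e i).symm w) a b) (A.e i).target := h a b
  exact h1.continuousOn.continuousAt ((A.e i).open_target.mem_nhds hz)

variable [T2Space M] [CompactSpace M] [Finite A.ι]

/-- **the Poisson brackets vanish** -/
theorem bracket (P : Part A) (K : Kah A) (σ : HSymp A) (hNef : NefW K L) (hI : Isotropic P σ L)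
    (hs : ∀ a, IsHS (L ^ k) univ (s a)) (hk0 : 0 < k) (i : A.ι) {x : M} (hx : x ∈ (A.e i).source)
    (p q p' q' : α) :
    Wv (sl A s i) p' q' (A.e i x) ⬝ᵥ ((σ.s i x)⁻¹ *ᵥ Wv (sl A s i) p q (A.e i x)) = 0 := by
  by_contra hne
  borelize M
  obtain ⟨B, hB0, hB⟩ := energy_le P K σ hI
  have hz := (A.e i).map_source hx
  set b : Cn n → ℝ := fun z => ‖(σ.s i ((A.e i).symm z)).det‖ *
    ‖Wv (sl A s i) p' q' z ⬝ᵥ ((σ.s i ((A.e i).symm z))⁻¹ *ᵥ Wv (sl A s i) p q z)‖ ^ 2 /
      (K.g i ((A.e i).symm z)).det.re with hb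
  set T : Cn n → ℝ := fun z => ∑ a, ‖sl A s i a z‖ ^ 2 with hT
  -- continuity
  have cS := cont_mat i (smAt_s σ i) hz
  have cK := cont_mat i (K.sm i) hz
  have cdS : ContinuousAt (fun z => (σ.s i ((A.e i).symm z)).det) (A.e i x) :=
    (Continuous.matrix_det continuous_id).continuousAt.comp cS
  have cdK : ContinuousAt (fun z => (K.g i ((A.e i).symm z)).det) (A.e i x) :=
    (Continuous.matrix_det continuous_id).continuousAt.comp cK
  have hdS : (σ.s i ((A.e i).symm (A.e i x))).det ≠ 0 := by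
    rw [(A.e i).left_inv hx]; exact σ.nd i x hx
  have cI : ContinuousAt (fun z => (σ.s i ((A.e i).symm z))⁻¹) (A.e i x) := by
    have h1 : (fun z => (σ.s i ((A.e i).symm z))⁻¹) = fun z =>
        ((σ.s i ((A.e i).symm z)).det)⁻¹ • (σ.s i ((A.e i).symm z)).adjugate := by
      funext z
      rw [Matrix.inv_def, Ring.inverse_eq_inv']
    rw [h1]
    exact (cdS.inv₀ hdS).smul ((Continuous.matrix_adjugate continuous_id).continuousAt.comp cS)
  have cW := cont_Wv hs i hz p q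
  have cW' := cont_Wv hs i hz p' q'
  have cIW : ContinuousAt (fun z => (σ.s i ((A.e i).symm z))⁻¹ *ᵥ Wv (sl A s i) p q z)
      (A.e i x) := by
    refine continuousAt_pi.2 fun a => ?_
    have h1 : ∀ c, ContinuousAt (fun z => (σ.s i ((A.e i).symm z))⁻¹ a c) (A.e i x) := fun c =>
      continuousAt_pi.1 (continuousAt_pi.1 cI a) c
    show ContinuousAt (fun z => ∑ c, (σ.s i ((A.e i).symm z))⁻¹ a c * Wv (sl A s i) p q z c)
      (A.e i x)
    exact tendsto_finsetSum _ fun c _ => (h1 c).mul (continuousAt_pi.1 cW c)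
  have cQ : ContinuousAt (fun z => Wv (sl A s i) p' q' z ⬝ᵥ
      ((σ.s i ((A.e i).symm z))⁻¹ *ᵥ Wv (sl A s i) p q z)) (A.e i x) :=
    tendsto_finsetSum _ fun c _ => (continuousAt_pi.1 cW' c).mul (continuousAt_pi.1 cIW c)
  have hKpos : 0 < (K.g i ((A.e i).symm (A.e i x))).det.re := by
    rw [(A.e i).left_inv hx]; exact det_re_pos K hx
  have cb : ContinuousAt b (A.e i x) :=
    (cdS.norm.mul (cQ.norm.pow 2)).div (Complex.continuous_re.continuousAt.comp cdK) hKpos.ne'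
  have cT : ContinuousAt T (A.e i x) :=
    tendsto_finsetSum _ fun a _ => ((sl_anal hs i hz a).continuousAt.norm).pow 2
  set b0 : ℝ := b (A.e i x) with hb0
  have hb0pos : 0 < b0 := by
    rw [hb0, hb]
    simp only [(A.e i).left_inv hx]
    have h1 := norm_pos_iff.2 (σ.nd i x hx)
    have h2 := norm_pos_iff.2 hne
    have h3 := det_re_pos K hx
    positivity
  set T0 : ℝ := T (A.e i x) with hT0
  have hT0n : 0 ≤ T0 := Finset.sum_nonneg fun a _ => by positivity
  have hE : {y : M | y ∈ (A.e i).source ∧ b0 / 2 < b (A.e i y) ∧ T (A.e i y) < T0 + 1} ∈ 𝓝 x := by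
    have h1 : ∀ᶠ z in 𝓝 (A.e i x), b0 / 2 < b z :=
      cb.eventually (lt_mem_nhds (by linarith : b0 / 2 < b (A.e i x)))
    have h2 : ∀ᶠ z in 𝓝 (A.e i x), T z < T0 + 1 :=
      cT.eventually (gt_mem_nhds (by linarith : T (A.e i x) < T0 + 1))
    have h3 := (A.e i).continuousAt hx
    filter_upwards [(A.e i).open_source.mem_nhds hx, h3.eventually h1, h3.eventually h2] with y a c d
    exact ⟨a, c, d⟩
  obtain ⟨Kc, hKn, hKE, hKc⟩ := LocallyCompactSpace.local_compact_nhds x _ hE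
  have hxK : x ∈ Kc := mem_of_mem_nhds hKn
  have hfin : IsFiniteMeasure (vm (volK K)) := isFinite_vm _
  have hop : (vm (volK K)).IsOpenPosMeasure := isOpenPos_vm _
  have hμ : 0 < (vm (volK K)).real Kc := by
    rw [measureReal_def, ENNReal.toReal_pos_iff]
    exact ⟨Measure.measure_pos_of_mem_nhds _ hKn, measure_lt_top _ _⟩
  have hk0' : (0 : ℝ) < k := by exact_mod_cast hk0
  set c : ℝ := (k : ℝ)⁻¹ * (1 / (T0 + 2)) ^ 2 with hc
  have hcpos : 0 < c := by positivity
  set η : ℝ := c ^ 2 * (b0 / 2) with hη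
  have hηpos : 0 < η := by positivity
  have key : ∀ e : ℝ, 0 < e → e ≤ 1 → η * (vm (volK K)).real Kc ≤ e * B := by
    intro e he he1
    obtain ⟨h, hh⟩ := hNef e he
    -- choice of `d`
    obtain ⟨d, hd, hdK⟩ : ∃ d : ℝ, 0 < d ∧ ∀ y ∈ Kc, d ≤ (h.w i y) ^ k := by
      have c1 : ContinuousOn (fun y => (h.w i y) ^ k) Kc := by
        exact ((contOn_smAt (h.sm i)).mono fun y hy => (hKE hy).1).pow k
      obtain ⟨y0, hy0, hmin⟩ := hKc.exists_isMinOn ⟨x, hxK⟩ c1
      exact ⟨_, pow_pos (h.pos i y0 (hKE hy0).1) k, fun y hy => hmin hy⟩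
    have hF : ∀ j, ∀ y ∈ (A.e j).source, (Fe K (hk hs h hd) e j y).PosSemidef :=
      fun j y hy => Fe_psd hs hk0 h hd K he.le j hy (hh j y hy) p
    refine le_trans ?_ (hB e he he1 (hk hs h hd) hF)
    set f : M → ℝ := fun y => (fnD K (qd σ (Fe K (hk hs h hd) e) (Fe K (hk hs h hd) e)) y).re
      with hf
    have hdn := qd_dn σ (Fe_tn K (hk hs h hd) e) (Fe_tn K (hk hs h hd) e)
    have hfi : ∀ {j : A.ι} {y : M}, y ∈ (A.e j).source → f y =
        (qm (σ.s j y) (Fe K (hk hs h hd) e j y) (Fe K (hk hs h hd) e j y)).re /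
          (K.g j y).det.re := by
      intro j y hy
      have h1 := (K.pos _ _ hy).det_pos
      have h2 : (K.g j y).det = (((K.g j y).det.re : ℝ) : ℂ) :=
        Complex.ext rfl (by rw [← (Complex.nonneg_iff.1 h1.le).2]; rfl)
      show (fnD K _ y).re = _
      rw [fnD_div K hdn hy, h2, Complex.div_ofReal_re]
      rfl
    have hf0 : ∀ y, 0 ≤ f y := by
      intro y
      rw [hfi (mem_ci y)]
      exact div_nonneg (Complex.nonneg_iff.1 (qm_nonneg (σ.alt _ _ (mem_ci y))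
        (hF _ _ (mem_ci y)) (hF _ _ (mem_ci y)))).1 (det_re_pos K (mem_ci y)).le
    have hfK : ∀ y ∈ Kc, η ≤ f y := by
      intro y hy
      obtain ⟨hys, hyb, hyT⟩ := hKE hy
      have hzy := (A.e i).map_source hys
      rw [hfi hys]
      set ρ : ℝ := (h.w i y) ^ k with hρ
      have hρ0 : 0 < ρ := pow_pos (h.pos i y hys) k
      have hexp : Real.exp (-((k : ℝ) * h.wt i (A.e i y))) = ρ := by
        rw [exp_wt h k i hzy, (A.e i).left_inv hys]
      have hTy : 0 ≤ T (A.e i y) := Finset.sum_nonneg fun a _ => by positivity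
      have hcc : 1 / (T0 + 2) ≤ cc (sl A s i) (fun y => (k : ℝ) * h.wt i y) d (A.e i y) := by
        unfold cc
        rw [hexp, ← Finset.sum_mul]
        rw [div_le_div_iff₀ (by positivity) (by positivity), one_mul]
        have h4 : d ≤ ρ := hdK y hy
        have h5 : (∑ a, ‖sl A s i a (A.e i y)‖ ^ 2) * ρ ≤ (T0 + 1) * ρ :=
          mul_le_mul_of_nonneg_right hyT.le hρ0.le
        nlinarith
      have hc' : c ≤ (k : ℝ)⁻¹ *
          cc (sl A s i) (fun y => (k : ℝ) * h.wt i y) d (A.e i y) ^ 2 := by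
        refine mul_le_mul_of_nonneg_left ?_ (by positivity)
        exact pow_le_pow_left₀ (by positivity) hcc 2
      have h6 := qm_low (σ.alt i y hys) hcpos.le hc' (hF i y hys)
        (low hs hk0 h hd K he.le i hys (hh i y hys) p q)
        (low hs hk0 h hd K he.le i hys (hh i y hys) p' q')
      have h7 : c ^ 2 * b (A.e i y) ≤ (qm (σ.s i y) (Fe K (hk hs h hd) e i y)
          (Fe K (hk hs h hd) e i y)).re / (K.g i y).det.re := by
        rw [hb]
        simp only [(A.e i).left_inv hys]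
        rw [← mul_div_assoc, div_le_div_iff_of_pos_right (det_re_pos K hys)]
        exact h6
      refine le_trans ?_ h7
      rw [hη]
      exact mul_le_mul_of_nonneg_left hyb.le (by positivity)
    have hfs : A.Sm f := sm_re (sm_fnD K hdn
      (qd_sm σ (Fe_sm K (hk hs h hd) e) (Fe_sm K (hk hs h hd) e)))
    have hfint : Integrable f (vm (volK K)) := integrable_sm _ hfs
    have h8 : ∫ y, Kc.indicator (fun _ => η) y ∂(vm (volK K)) ≤ ∫ y, f y ∂(vm (volK K)) := by
      refine integral_mono ((integrable_const η).indicator hKc.measurableSet) hfint fun y => ?_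
      by_cases hy : y ∈ Kc
      · rw [indicator_of_mem hy]; exact hfK y hy
      · rw [indicator_of_notMem hy]; exact hf0 y
    rw [integral_indicator_const _ hKc.measurableSet, smul_eq_mul, mul_comm] at h8
    exact h8
  -- conclusion
  set δ : ℝ := η * (vm (volK K)).real Kc with hδ
  have hδpos : 0 < δ := mul_pos hηpos hμ
  have h9 := key (min 1 (δ / (2 * (B + 1)))) (lt_min one_pos (by positivity)) (min_le_left _ _)
  have h10 : min 1 (δ / (2 * (B + 1))) * B ≤ δ / (2 * (B + 1)) * B :=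
    mul_le_mul_of_nonneg_right (min_le_right _ _) hB0
  have h11 : δ / (2 * (B + 1)) * B < δ := by
    rw [div_mul_eq_mul_div, div_lt_iff₀ (by positivity)]
    nlinarith
  linarith

end main

end

end Crest.Agent.R281.OmL_677
end

-- ▼ part R281/OmL5_677
section

/-!
# R281 (S0424), OM-LAG (helper677), part 5: (LSE), the comparison with the Fubini-Study form

* `pp`        : `T / (d + T)`, `T = ∑ |s_a|² e^{-φ}`
* `lev_lsf_ge2` : `∂∂̄ log (d + ∑ |s_a|² e^{-φ}) ≥ p (∂∂̄ log ∑ |s_a / t|² - ∂∂̄ φ)`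
* `lse_psd`   : `(∂∂̄ w + k⁻¹ ∂∂̄ lsf + e K) - k⁻¹ p ∂∂̄ log ∑ |s_a / t|² ≥ 0`
* `lse`       : the same for `Fe K (hk hs h hd) e`
* `kFe`       : `k Fe = k cur h + hsf (log (d + nrm)) + k e K`
* `fsb`       : `∂∂̄ log (δ + ∑ |ψ_b|²) ≥ (4 δ)⁻¹ Dᵀ D̄` where `∑ |ψ_b|² ≤ δ`
-/

set_option autoImplicit false
set_option linter.unusedSectionVars false

open Set Filter Topology Complex MeasureTheory
open scoped ContDiff Matrix ComplexConjugate Manifold ComplexOrder

namespace Crest.Agent.R281.OmL_677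

open Crest.Agent.R275.Geo Crest.Agent.R275.Core144 Crest.Agent.R275.EDR890
open Crest.Agent.R273.Hess_333 Crest.Agent.R273.HessB_333 Crest.Agent.R273.HM_333
open Crest.Agent.R273.Kah_333 Crest.Agent.R273.Vol_333 Crest.Agent.R273.Vm_333
open Crest.Agent.R273.Levi_145 Crest.Agent.R272.PosCl1_732
open Crest.Agent.R273.GreenM_5
open Crest.Agent.R273.Defs_333 (HM)
open Crest.Agent.R281.Defs_273
open Matrix (vecMulVec)

noncomputable section

variable {n : ℕ} {z : Cn n}
variable {α : Type*} [Fintype α] [DecidableEq α]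

/-- `T / (d + T)`, `T = ∑ |s_a|² e^{-φ}` -/
def pp (s : α → Cn n → ℂ) (φ : Cn n → ℝ) (d : ℝ) (z : Cn n) : ℝ :=
  (∑ a, ‖s a z‖ ^ 2 * Real.exp (-φ z)) / (d + ∑ a, ‖s a z‖ ^ 2 * Real.exp (-φ z))



/-- `log ∑ |s_a / t|²` -/
def lgr (s : α → Cn n → ℂ) (t : Cn n → ℂ) (w : Cn n) : ℝ := Real.log (∑ a, ‖s a w / t w‖ ^ 2)





/-- the derivatives of `ψ` as a matrix -/
def Dm {β : Type*} (ψ : β → Cn n → ℂ) (z : Cn n) : Matrix β (Fin n) ℂ :=
  Matrix.of fun b a => df (ψ b) z a




/-! ### on `M` -/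

section glob

variable {M : Type} [TopologicalSpace M] {A : Atl n M} {L : LB A} {k : ℕ} {s : α → A.ι → M → ℂ}










end glob

end

end Crest.Agent.R281.OmL_677
end

-- ▼ part R281/OmL6_677

/-!
# R281 (S0424), OM-LAG (helper677), part 6: the hypothesis `hbr` of helper524's `exists_lfib_sec`

* `Dm_eq` : `D (s_a / s_0) = s_0⁻² (s_0 ∂s_a - s_a ∂s_0)`
* `hbr`   : `D(s_a/s_0) S⁻¹ D(s_b/s_0)ᵀ = 0` for sections of `L ^ k`, `L` nef and isotropic
* `exists_lfib_iso` : the Lagrangian fibration of the ratios (`hcpt` as hypothesis)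
-/

set_option autoImplicit false
set_option linter.unusedSectionVars false

open Set Filter Topology Complex
open scoped Matrix

namespace Crest.Agent.R281.OmL_677

open Crest.Agent.R275.Geo Crest.Agent.R275.Core144 Crest.Agent.R281.Defs_273
open Crest.Agent.R273.Kah_333
open Crest.Agent.R281.OmA_524 Crest.Agent.R281.OmB_524 Crest.Agent.R281.Rk_599
open Crest.Agent.R281.S6D_664 Crest.Agent.R281.Tube1_989

noncomputable section

variable {n r k : ℕ} {M : Type} [TopologicalSpace M] {A : Atl n M} {L : LB A}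
  {s : Fin (r + 1) → A.ι → M → ℂ}

theorem Dm_eq (hs : ∀ a, IsHS (L ^ k) univ (s a)) (i : A.ι) {x : M} (hx : x ∈ (A.e i).source)
    (h0 : s 0 i x ≠ 0) (a : Fin r) (c : Fin n) :
    OmB_524.Dm A s i x a c = (s 0 i x ^ 2)⁻¹ * Wv (sl A s i) 0 a.succ (A.e i x) c := by
  have hz := (A.e i).map_source hx
  have e0 : sl A s i 0 (A.e i x) = s 0 i x := by unfold sl; rw [(A.e i).left_inv hx]
  have ea : sl A s i a.succ (A.e i x) = s a.succ i x := by unfold sl; rw [(A.e i).left_inv hx]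
  have h0' : sl A s i 0 (A.e i x) ≠ 0 := by rwa [e0]
  have d0 := sl_anal hs i hz 0
  have da := sl_anal hs i hz a.succ
  have dg : AnalyticAt ℂ (rat A s i a) (A.e i x) := da.div d0 h0'
  have hev : sl A s i a.succ =ᶠ[𝓝 (A.e i x)] fun z => rat A s i a z * sl A s i 0 z := by
    filter_upwards [d0.continuousAt.eventually_ne h0'] with z hz0
    show sl A s i a.succ z = sl A s i a.succ z / sl A s i 0 z * sl A s i 0 z
    rw [div_mul_cancel₀ _ hz0]
  have h1 : fderiv ℂ (sl A s i a.succ) (A.e i x) (EuclideanSpace.single c 1) =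
      rat A s i a (A.e i x) * fderiv ℂ (sl A s i 0) (A.e i x) (EuclideanSpace.single c 1) +
        sl A s i 0 (A.e i x) * fderiv ℂ (rat A s i a) (A.e i x) (EuclideanSpace.single c 1) := by
    rw [hev.fderiv_eq, fderiv_fun_mul dg.differentiableAt d0.differentiableAt]
    simp [smul_eq_mul]
  have h2 : rat A s i a (A.e i x) = s a.succ i x / s 0 i x := by
    show sl A s i a.succ (A.e i x) / sl A s i 0 (A.e i x) = _
    rw [e0, ea]
  show fderiv ℂ (rat A s i a) (A.e i x) (EuclideanSpace.single c 1) = _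
  unfold Wv df
  rw [h1, h2, e0, ea]
  field_simp
  ring

/-- **the Poisson brackets of the ratios vanish** -/
theorem hbr [T2Space M] [CompactSpace M] [Finite A.ι] (P : Part A) (K : Kah A) (σ : HSymp A)
    (hN : NefW K L) (hI : Isotropic P σ L) (hs : ∀ a, IsHS (L ^ k) univ (s a)) (hk0 : 0 < k) :
    ∀ i, ∀ x ∈ (A.e i).source, s 0 i x ≠ 0 →
      OmB_524.Dm A s i x * (σ.s i x)⁻¹ * (OmB_524.Dm A s i x)ᵀ = 0 := by
  intro i x hx h0
  ext a b
  have h1 := bracket P K σ hN hI hs hk0 i hx 0 b.succ 0 a.succ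
  have hDa : (OmB_524.Dm A s i x).row a =
      (s 0 i x ^ 2)⁻¹ • Wv (sl A s i) 0 a.succ (A.e i x) := by
    funext c
    exact Dm_eq hs i hx h0 a c
  have hDb : (OmB_524.Dm A s i x).row b =
      (s 0 i x ^ 2)⁻¹ • Wv (sl A s i) 0 b.succ (A.e i x) := by
    funext c
    exact Dm_eq hs i hx h0 b c
  have h2 : (OmB_524.Dm A s i x * (σ.s i x)⁻¹ * (OmB_524.Dm A s i x)ᵀ) a b =
      (OmB_524.Dm A s i x).row a ⬝ᵥ ((σ.s i x)⁻¹ *ᵥ (OmB_524.Dm A s i x).row b) := by
    rw [Matrix.mul_assoc, Matrix.mul_apply]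
    rfl
  rw [h2, hDa, hDb, Matrix.mulVec_smul, smul_dotProduct, dotProduct_smul, h1]
  simp

end

section fib

variable {n r k : ℕ} {M : Type} [TopologicalSpace M] {A : Atl (2 * n) M} {L : LB A}
  {s : Fin (n + 1) → A.ι → M → ℂ}


end fib

end Crest.Agent.R281.OmL_677
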