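import Crest.Agent.R257.HoB_843
import Crest.Agent.R281.Rich2_710
import Crest.Agent.R273.SerD_945
import Crest.Agent.R273.Vm_333

-- ▼ part R257/Glue1_101
section

/-!
# Row 257, task C-WT, abstract gluing (helper101): regularised maximum of finitely many functions

* `SM` : smooth convex regularisation of `max t 0` (after 137, R276/SMax_137);
* `R2 a b = b + SM (a - b)`;
* `RM p a` (`p : ι → Prop`, `a : ι → ℝ`, `ι` finite): regularised maximum of the `a i` with `p i`;
  `le_RM`, `RM_le`, and indices which are lower than the maximum by `thr ι` drop out (`RM_drop`);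
* `gl O u x = RM (x ∈ O ·) (u · x)`; `gl_smooth`, `gl_lev`: at a point `z₀` of a parametrisation `θ`,
  if the indices of a set `A ≠ ∅` are present near `z₀`, with `u i ∘ θ` smooth at `z₀`, and every index
  `i ∉ A` is absent or lower by `thr ι` than some index of `A`, near `z₀`, then `gl O u ∘ θ` is smooth at `z₀`
  and its Levi form is at least the infimum of those of the `u i ∘ θ`, `i ∈ A`.
-/

set_option autoImplicit false
set_option linter.unusedSectionVars false

noncomputable section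

open Set Filter Topology MeasureTheory

namespace Crest.Agent.R257.Glue1_101

open Crest.Agent.R257.HoB_843

/-! ### the function `SM` -/

/-- smooth step from `0` (at `-1`) to `1` (at `1`) -/
def ss (t : ℝ) : ℝ := Real.smoothTransition ((t + 1) / 2)

lemma ss_contDiff : ContDiff ℝ (⊤ : ℕ∞) ss :=
  Real.smoothTransition.contDiff.comp (by fun_prop)

lemma ss_nonneg (t : ℝ) : 0 ≤ ss t := Real.smoothTransition.nonneg _
lemma ss_le_one (t : ℝ) : ss t ≤ 1 := Real.smoothTransition.le_one _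
lemma ss_zero {t : ℝ} (ht : t ≤ -1) : ss t = 0 :=
  Real.smoothTransition.zero_of_nonpos (by linarith)
lemma ss_one {t : ℝ} (ht : 1 ≤ t) : ss t = 1 :=
  Real.smoothTransition.one_of_one_le (by linarith)
lemma ss_mono : Monotone ss := fun a b h => Real.smoothTransition.monotone (by linarith)
lemma ss_add (t : ℝ) : ss t + ss (-t) = 1 := by
  unfold ss Real.smoothTransition
  have e1 : 1 - (t + 1) / 2 = (-t + 1) / 2 := by ring
  have e2 : 1 - (-t + 1) / 2 = (t + 1) / 2 := by ring
  rw [e1, e2]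
  have h := Real.smoothTransition.pos_denom ((t + 1) / 2)
  rw [e1] at h
  rw [add_comm (expNegInvGlue ((-t + 1) / 2))]
  rw [← add_div, div_self h.ne']

/-- smooth convex regularisation of `max t 0` -/
def SM (t : ℝ) : ℝ := ∫ u in (-1 : ℝ)..t, ss u

lemma ss_cont : Continuous ss := ss_contDiff.continuous

lemma SM_hasDerivAt (t : ℝ) : HasDerivAt SM (ss t) t :=
  intervalIntegral.integral_hasDerivAt_right (ss_cont.intervalIntegrable _ _)
    (ss_cont.stronglyMeasurableAtFilter _ _) ss_cont.continuousAt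

lemma deriv_SM : deriv SM = ss := funext fun t => (SM_hasDerivAt t).deriv

lemma SM_contDiff : ContDiff ℝ (⊤ : ℕ∞) SM := by
  rw [contDiff_infty_iff_deriv]
  refine ⟨fun t => (SM_hasDerivAt t).differentiableAt, ?_⟩
  rw [deriv_SM]; exact ss_contDiff

lemma SM_zero {t : ℝ} (ht : t ≤ -1) : SM t = 0 := by
  unfold SM
  rw [intervalIntegral.integral_symm, neg_eq_zero]
  refine (intervalIntegral.integral_congr (g := fun _ => (0 : ℝ)) fun u hu => ?_).trans (by simp)
  rw [uIcc_of_le ht] at hu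
  exact ss_zero hu.2

lemma SM_one : SM 1 = 1 := by
  have h1 : ∫ u in (-1 : ℝ)..1, ss (-u) = SM 1 := by
    rw [intervalIntegral.integral_comp_neg]; simp [SM]
  have h2 : (∫ u in (-1 : ℝ)..1, ss (-u)) + ∫ u in (-1 : ℝ)..1, ss u = 2 := by
    rw [← intervalIntegral.integral_add]
    · have : ∀ u : ℝ, ss (-u) + ss u = 1 := fun u => by rw [add_comm]; exact ss_add u
      simp only [this]
      simp; norm_num
    · exact (ss_cont.comp continuous_neg).intervalIntegrable _ _
    · exact ss_cont.intervalIntegrable _ _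
  rw [h1] at h2
  have h3 : SM 1 + SM 1 = 2 := h2
  linarith

lemma SM_id {t : ℝ} (ht : 1 ≤ t) : SM t = t := by
  have h1 : SM t = SM 1 + ∫ u in (1 : ℝ)..t, ss u := by
    unfold SM
    rw [intervalIntegral.integral_add_adjacent_intervals (ss_cont.intervalIntegrable _ _)
      (ss_cont.intervalIntegrable _ _)]
  have h2 : ∫ u in (1 : ℝ)..t, ss u = t - 1 := by
    refine (intervalIntegral.integral_congr (g := fun _ => (1 : ℝ)) fun u hu => ?_).trans (by simp)
    rw [uIcc_of_le ht] at hu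
    exact ss_one hu.1
  rw [h1, h2, SM_one]; ring

lemma SM_mono : Monotone SM :=
  monotone_of_deriv_nonneg (fun t => (SM_hasDerivAt t).differentiableAt) fun t => by
    rw [deriv_SM]; exact ss_nonneg t

lemma SM_nonneg (t : ℝ) : 0 ≤ SM t := by
  rcases le_total t (-1) with h | h
  · rw [SM_zero h]
  · rw [← SM_zero (le_refl (-1))]; exact SM_mono h

lemma SM_le (t : ℝ) : SM t ≤ max t 0 + 1 := by
  rcases le_total t 1 with h | h
  · have := SM_mono h
    rw [SM_one] at this
    linarith [le_max_right t 0]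
  · rw [SM_id h]
    linarith [le_max_left t 0]

lemma le_SM (t : ℝ) : t ≤ SM t := by
  have hd : ∀ s, HasDerivAt (fun s => SM s - s) (ss s - 1) s := fun s =>
    (SM_hasDerivAt s).sub (hasDerivAt_id s)
  have hanti : Antitone fun s => SM s - s :=
    antitone_of_deriv_nonpos (fun s => (hd s).differentiableAt) fun s => by
      rw [(hd s).deriv]; linarith [ss_le_one s]
  rcases le_total t 1 with h | h
  · have := hanti h
    simp only [SM_one] at this
    linarith
  · rw [SM_id h]

lemma deriv_ss_nonneg (t : ℝ) : 0 ≤ deriv ss t := ss_mono.deriv_nonneg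

/-! ### regularised maximum of two numbers -/

/-- regularised maximum of two numbers -/
def R2 (a b : ℝ) : ℝ := b + SM (a - b)

lemma R2_left {a b : ℝ} (h : b + 1 ≤ a) : R2 a b = a := by
  unfold R2; rw [SM_id (by linarith)]; ring

lemma R2_right {a b : ℝ} (h : a + 1 ≤ b) : R2 a b = b := by
  unfold R2; rw [SM_zero (by linarith)]; ring

lemma le_R2_left (a b : ℝ) : a ≤ R2 a b := by
  unfold R2; linarith [le_SM (a - b)]

lemma le_R2_right (a b : ℝ) : b ≤ R2 a b := by
  unfold R2; linarith [SM_nonneg (a - b)]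

lemma R2_le {a b B : ℝ} (ha : a ≤ B) (hb : b ≤ B) : R2 a b ≤ B + 1 := by
  unfold R2
  have h1 := SM_le (a - b)
  rcases le_total (a - b) 0 with h | h
  · rw [max_eq_right h] at h1; linarith
  · rw [max_eq_left h] at h1; linarith

/-! ### lists -/

variable {ι : Type*}

/-- iterated regularised maximum, with initial value `c` -/
def FR (c : ℝ) (a : ι → ℝ) (l : List ι) : ℝ := l.foldr (fun i r => R2 (a i) r) c

@[simp] lemma FR_nil (c : ℝ) (a : ι → ℝ) : FR c a [] = c := rfl

@[simp] lemma FR_cons (c : ℝ) (a : ι → ℝ) (i : ι) (l : List ι) :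
    FR c a (i :: l) = R2 (a i) (FR c a l) := rfl


lemma le_FR (c : ℝ) (a : ι → ℝ) {l : List ι} {i : ι} (h : i ∈ l) : a i ≤ FR c a l := by
  induction l with
  | nil => simp at h
  | cons j l ih =>
    rw [FR_cons]
    rcases List.mem_cons.1 h with h | h
    · rw [h]; exact le_R2_left _ _
    · exact (ih h).trans (le_R2_right _ _)

lemma FR_le {c B : ℝ} {a : ι → ℝ} {l : List ι} (hc : c ≤ B) (h : ∀ i ∈ l, a i ≤ B) :
    FR c a l ≤ B + l.length := by
  induction l with
  | nil => simpa using hc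
  | cons j l ih =>
    rw [FR_cons, List.length_cons]
    push_cast
    have h1 := ih fun i hi => h i (List.mem_cons_of_mem _ hi)
    have h2 := h j List.mem_cons_self
    have h3 : (0 : ℝ) ≤ l.length := Nat.cast_nonneg _
    have := R2_le (B := B + l.length) (by linarith) h1
    linarith

/-- low entries drop out -/
lemma FR_drop_aux {c c' B : ℝ} {a : ι → ℝ} (p : ι → Bool) {l : List ι} (hc : c ≤ B) (hc' : c' ≤ B)
    (h : ∀ i ∈ l, p i = false → a i ≤ B) :
    FR c a l = FR c' a (l.filter p) ∨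
      (FR c a l ≤ B + 2 * l.length ∧ FR c' a (l.filter p) ≤ B + 2 * l.length) := by
  induction l with
  | nil => right; simp [hc, hc']
  | cons j l ih =>
    have ih := ih fun i hi => h i (List.mem_cons_of_mem _ hi)
    have hj := h j List.mem_cons_self
    have h3 : (0 : ℝ) ≤ l.length := Nat.cast_nonneg _
    rw [List.length_cons, FR_cons]
    push_cast
    by_cases hp : p j = true
    · rw [List.filter_cons_of_pos hp, FR_cons]
      rcases ih with ih | ⟨h1, h2⟩
      · left; rw [ih]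
      · by_cases h4 : B + 2 * l.length + 1 ≤ a j
        · left
          rw [R2_left (by linarith), R2_left (by linarith)]
        · right
          rw [not_le] at h4
          have e1 := R2_le (B := B + 2 * l.length + 1) h4.le (h1.trans (by linarith))
          have e2 := R2_le (B := B + 2 * l.length + 1) h4.le (h2.trans (by linarith))
          constructor <;> linarith
    · rw [List.filter_cons_of_neg hp]
      have hj := hj (by simpa using hp)
      rcases ih with ih | ⟨h1, h2⟩
      · by_cases h4 : a j + 1 ≤ FR c a l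
        · left; rw [R2_right h4, ih]
        · right
          rw [not_le] at h4
          have e1 := R2_le (B := B + 1) (a := a j) (b := FR c a l) (by linarith) (by linarith)
          rw [← ih]
          constructor <;> linarith
      · right
        have e1 := R2_le (B := B + 2 * l.length) (a := a j) (by linarith) h1
        constructor <;> linarith

lemma FR_drop {c c' : ℝ} {a : ι → ℝ} (p : ι → Bool) {l : List ι} {i₀ : ι} (hi : i₀ ∈ l)
    (_hp : p i₀ = true) {t : ℝ} (ht : 2 * (l.length : ℝ) < t) (hc : c + t ≤ a i₀) (hc' : c' + t ≤ a i₀)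
    (h : ∀ i ∈ l, p i = false → a i + t ≤ a i₀) :
    FR c a l = FR c' a (l.filter p) := by
  rcases FR_drop_aux (c := c) (c' := c') (B := a i₀ - t) (a := a) p (l := l) (by linarith) (by linarith)
    (fun i h1 h2 => by linarith [h i h1 h2]) with h1 | ⟨h1, -⟩
  · exact h1
  · have := le_FR c a hi
    linarith

/-! ### finite index types -/

section fin

variable [Fintype ι]

/-- the threshold -/
def thr (ι : Type*) [Fintype ι] : ℝ := 2 * Fintype.card ι + 1

lemma thr_pos (ι : Type*) [Fintype ι] : 0 < thr ι := by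
  unfold thr; positivity

/-- a low number -/
def low (a : ι → ℝ) : ℝ := - ∑ i, |a i| - thr ι

lemma low_le (a : ι → ℝ) (i : ι) : low a + thr ι ≤ a i := by
  unfold low
  have h1 : |a i| ≤ ∑ i, |a i| :=
    Finset.single_le_sum (f := fun i => |a i|) (fun i _ => abs_nonneg _) (Finset.mem_univ i)
  have h2 := neg_abs_le (a i)
  linarith

open Classical in
/-- the list of the indices with `p` -/
def ls (p : ι → Prop) : List ι := (Finset.univ : Finset ι).toList.filter fun i => decide (p i)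

lemma mem_ls {p : ι → Prop} {i : ι} : i ∈ ls p ↔ p i := by
  classical
  simp [ls]

lemma ls_len (p : ι → Prop) : ((ls p).length : ℝ) ≤ Fintype.card ι := by
  classical
  unfold ls
  have h1 := List.length_filter_le (fun i => decide (p i)) (Finset.univ : Finset ι).toList
  rw [Finset.length_toList, Finset.card_univ] at h1
  exact_mod_cast h1

lemma ls_filter {p q : ι → Prop} [DecidablePred q] (h : ∀ i, q i → p i) :
    (ls p).filter (fun i => decide (q i)) = ls q := by
  classical
  unfold ls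
  rw [List.filter_filter]
  apply List.filter_congr
  intro i _
  by_cases hq : q i
  · simp [hq, h i hq]
  · simp [hq]

/-- regularised maximum of the `a i` with `p i` -/
def RM (p : ι → Prop) (a : ι → ℝ) : ℝ := FR (low a) a (ls p)

lemma le_RM {p : ι → Prop} (a : ι → ℝ) {i : ι} (h : p i) : a i ≤ RM p a :=
  le_FR _ _ (mem_ls.2 h)

lemma RM_le {p : ι → Prop} {a : ι → ℝ} {i₀ : ι} {B : ℝ} (h0 : p i₀) (h : ∀ i, p i → a i ≤ B) :
    RM p a ≤ B + Fintype.card ι := by
  have h1 := FR_le (c := low a) (B := B) (a := a) (l := ls p)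
    (by linarith [low_le a i₀, thr_pos ι, h i₀ h0]) fun i hi => h i (mem_ls.1 hi)
  unfold RM
  linarith [ls_len p]

lemma RM_le_max {p : ι → Prop} (a : ι → ℝ) (h : ∃ i, p i) :
    ∃ i, p i ∧ RM p a ≤ a i + Fintype.card ι := by
  classical
  obtain ⟨i, hi, hm⟩ := (Finset.univ.filter p).exists_max_image a
    (by obtain ⟨i, hi⟩ := h; exact ⟨i, by simpa using hi⟩)
  refine ⟨i, by simpa using hi, RM_le (i₀ := i) (by simpa using hi) fun j hj => hm j (by simpa using hj)⟩

/-- low entries drop out -/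
lemma RM_drop {p q : ι → Prop} {a : ι → ℝ} (hqp : ∀ i, q i → p i) (hq : ∃ i, q i)
    (h : ∀ i, p i → ¬ q i → ∃ j, q j ∧ a i + thr ι ≤ a j) {c : ℝ} (hc : ∀ i, q i → c + thr ι ≤ a i) :
    RM p a = FR c a (ls q) := by
  classical
  obtain ⟨i₀, hi, hm⟩ := (Finset.univ.filter q).exists_max_image a
    (by obtain ⟨i, hi⟩ := hq; exact ⟨i, by simpa using hi⟩)
  have hi : q i₀ := by simpa using hi
  have hl := ls_len p
  unfold RM
  rw [FR_drop (c := low a) (c' := c) (a := a) (fun i => decide (q i)) (l := ls p) (i₀ := i₀)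
    (mem_ls.2 (hqp i₀ hi)) (by simpa using hi) (t := thr ι) (by unfold thr; linarith)
    (low_le a i₀) (hc i₀ hi), ls_filter hqp]
  intro i h1 h2
  obtain ⟨j, hj, hj2⟩ := h i (mem_ls.1 h1) (by simpa using h2)
  have := hm j (by simpa using hj)
  linarith

end fin

/-! ### Levi forms -/

section levi

variable {E : Type*} [NormedAddCommGroup E] [NormedSpace ℂ E] [NormedSpace ℝ E]
  [IsScalarTower ℝ ℂ E]

lemma hess_R2 {a b : E → ℝ} {z : E} (ha : ContDiffAt ℝ (⊤ : ℕ∞) a z)
    (hb : ContDiffAt ℝ (⊤ : ℕ∞) b z) (v : E) :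
    fderiv ℝ (fderiv ℝ fun y => R2 (a y) (b y)) z v v =
      (1 - ss (a z - b z)) * fderiv ℝ (fderiv ℝ b) z v v +
      ss (a z - b z) * fderiv ℝ (fderiv ℝ a) z v v +
      deriv ss (a z - b z) * (fderiv ℝ (fun y => a y - b y) z v) ^ 2 := by
  set g : E → ℝ := fun y => a y - b y with hg
  have hgs : ContDiffAt ℝ (⊤ : ℕ∞) g z := ha.sub hb
  have hd : ∀ {u : E → ℝ}, ContDiffAt ℝ (⊤ : ℕ∞) u z → ∀ᶠ y in 𝓝 z, DifferentiableAt ℝ u y := by
    intro u hu
    have h2 : ContDiffAt ℝ 1 u z := hu.of_le (by norm_cast)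
    exact (h2.eventually (by simp)).mono fun y hy => hy.differentiableAt (by norm_num)
  have hdd : ∀ {u : E → ℝ}, ContDiffAt ℝ (⊤ : ℕ∞) u z → DifferentiableAt ℝ (fderiv ℝ u) z := by
    intro u hu
    have h2 : ContDiffAt ℝ 2 u z := hu.of_le (by norm_cast)
    exact (h2.fderiv_right (m := 1) (by norm_num)).differentiableAt (by norm_num)
  have e1 : fderiv ℝ (fun y => R2 (a y) (b y)) =ᶠ[𝓝 z] fun y =>
      fderiv ℝ b y + ss (g y) • fderiv ℝ g y := by
    filter_upwards [hd ha, hd hb] with y hay hby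
    have h1 : HasFDerivAt (fun y => SM (g y)) (ss (g y) • fderiv ℝ g y) y :=
      (SM_hasDerivAt (g y)).comp_hasFDerivAt y (hay.sub hby).hasFDerivAt
    exact (hby.hasFDerivAt.add h1).fderiv
  have hss : HasFDerivAt (fun y => ss (g y)) (deriv ss (g z) • fderiv ℝ g z) z := by
    have h1 : HasDerivAt ss (deriv ss (g z)) (g z) :=
      (ss_contDiff.differentiable (by simp) (g z)).hasDerivAt
    exact h1.comp_hasFDerivAt z (hd hgs).self_of_nhds.hasFDerivAt
  have e2 : HasFDerivAt (fun y => fderiv ℝ b y + ss (g y) • fderiv ℝ g y)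
      (fderiv ℝ (fderiv ℝ b) z + (ss (g z) • fderiv ℝ (fderiv ℝ g) z +
        (deriv ss (g z) • fderiv ℝ g z).smulRight (fderiv ℝ g z))) z :=
    (hdd hb).hasFDerivAt.add (hss.smul (hdd hgs).hasFDerivAt)
  have e3 : fderiv ℝ (fderiv ℝ g) z = fderiv ℝ (fderiv ℝ a) z - fderiv ℝ (fderiv ℝ b) z := by
    have : fderiv ℝ g =ᶠ[𝓝 z] fun y => fderiv ℝ a y - fderiv ℝ b y := by
      filter_upwards [hd ha, hd hb] with y hay hby
      exact fderiv_sub hay hby
    rw [this.fderiv_eq]
    exact fderiv_sub (hdd ha) (hdd hb)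
  rw [e1.fderiv_eq, e2.fderiv, e3]
  simp only [_root_.add_apply, _root_.smul_apply, _root_.sub_apply,
    ContinuousLinearMap.smulRight_apply, smul_eq_mul]
  ring

lemma lvE_R2 {a b : E → ℝ} {z : E} (ha : ContDiffAt ℝ (⊤ : ℕ∞) a z)
    (hb : ContDiffAt ℝ (⊤ : ℕ∞) b z) {w : E} {K : ℝ} (h1 : K ≤ lvE a z w) (h2 : K ≤ lvE b z w) :
    K ≤ lvE (fun y => R2 (a y) (b y)) z w := by
  have e : lvE (fun y => R2 (a y) (b y)) z w =
      (1 - ss (a z - b z)) * lvE b z w + ss (a z - b z) * lvE a z w +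
      deriv ss (a z - b z) * ((fderiv ℝ (fun y => a y - b y) z w) ^ 2 +
        (fderiv ℝ (fun y => a y - b y) z (Complex.I • w)) ^ 2) / 4 := by
    unfold lvE
    rw [hess_R2 ha hb, hess_R2 ha hb]
    ring
  rw [e]
  have h3 := ss_nonneg (a z - b z)
  have h4 := ss_le_one (a z - b z)
  have h5 := deriv_ss_nonneg (a z - b z)
  have h6 : 0 ≤ deriv ss (a z - b z) * ((fderiv ℝ (fun y => a y - b y) z w) ^ 2 +
        (fderiv ℝ (fun y => a y - b y) z (Complex.I • w)) ^ 2) / 4 := by positivity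
  nlinarith [mul_le_mul_of_nonneg_left h2 (sub_nonneg.2 h4), mul_le_mul_of_nonneg_left h1 h3]

lemma R2_smooth {a b : E → ℝ} {z : E} (ha : ContDiffAt ℝ (⊤ : ℕ∞) a z)
    (hb : ContDiffAt ℝ (⊤ : ℕ∞) b z) : ContDiffAt ℝ (⊤ : ℕ∞) (fun y => R2 (a y) (b y)) z := by
  unfold R2
  exact hb.add (SM_contDiff.contDiffAt.comp z (ha.sub hb))

lemma FR_smooth {u : ι → E → ℝ} {z : E} {c : ℝ} {l : List ι}
    (h : ∀ i ∈ l, ContDiffAt ℝ (⊤ : ℕ∞) (u i) z) :
    ContDiffAt ℝ (⊤ : ℕ∞) (fun y => FR c (fun i => u i y) l) z := by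
  induction l with
  | nil => simpa using contDiffAt_const
  | cons j l ih =>
    simp only [FR_cons]
    exact R2_smooth (h j List.mem_cons_self) (ih fun i hi => h i (List.mem_cons_of_mem _ hi))

lemma FR_lev {u : ι → E → ℝ} {z : E} {c : ℝ} {l : List ι} (hl : l ≠ [])
    (h : ∀ i ∈ l, ContDiffAt ℝ (⊤ : ℕ∞) (u i) z) (hc : ∀ i ∈ l, c + 1 < u i z) {w : E} {K : ℝ}
    (hK : ∀ i ∈ l, K ≤ lvE (u i) z w) :
    K ≤ lvE (fun y => FR c (fun i => u i y) l) z w := by
  induction l with
  | nil => exact absurd rfl hl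
  | cons j l ih =>
    simp only [FR_cons]
    have hj := h j List.mem_cons_self
    by_cases hl2 : l = []
    · subst hl2
      have e : (fun y => R2 (u j y) (FR c (fun i => u i y) [])) =ᶠ[𝓝 z] u j := by
        have h1 := hj.continuousAt.eventually (lt_mem_nhds (hc j List.mem_cons_self))
        filter_upwards [h1] with y hy
        exact R2_left hy.le
      rw [lvE_congr e]
      exact hK j List.mem_cons_self
    · exact lvE_R2 hj (FR_smooth fun i hi => h i (List.mem_cons_of_mem _ hi))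
        (hK j List.mem_cons_self) (ih hl2 (fun i hi => h i (List.mem_cons_of_mem _ hi))
        (fun i hi => hc i (List.mem_cons_of_mem _ hi)) fun i hi => hK i (List.mem_cons_of_mem _ hi))

end levi

/-! ### gluing -/

section glue

variable {X : Type*} [Fintype ι]

/-- the glued function -/
def gl (O : ι → Set X) (u : ι → X → ℝ) (x : X) : ℝ := RM (fun i => x ∈ O i) fun i => u i x

lemma le_gl (O : ι → Set X) (u : ι → X → ℝ) {x : X} {i : ι} (h : x ∈ O i) : u i x ≤ gl O u x :=
  le_RM (fun i => u i x) h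

lemma gl_le (O : ι → Set X) (u : ι → X → ℝ) {x : X} (h : ∃ i, x ∈ O i) :
    ∃ i, x ∈ O i ∧ gl O u x ≤ u i x + Fintype.card ι :=
  RM_le_max (fun i => u i x) h

/-- only the indices of `q` -/
lemma gl_eq_of {O : ι → Set X} {u : ι → X → ℝ} {x : X} {q : ι → Prop} (hq : ∃ i, q i)
    (hO : ∀ i, q i → x ∈ O i) (h : ∀ i, ¬ q i → x ∉ O i ∨ ∃ j, q j ∧ u i x + thr ι ≤ u j x) {c : ℝ}
    (hc : ∀ i, q i → c + thr ι ≤ u i x) : gl O u x = FR c (fun i => u i x) (ls q) :=
  RM_drop hO hq (fun i hi hni => (h i hni).resolve_left (by simpa using hi)) hc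


variable {E : Type*} [NormedAddCommGroup E] [NormedSpace ℂ E] [NormedSpace ℝ E]
  [IsScalarTower ℝ ℂ E]

/-- admissible set of indices at a point of a parametrisation -/
structure Adm (O : ι → Set X) (u : ι → X → ℝ) (θ : E → X) (z₀ : E) (A : ι → Prop) : Prop where
  ne : ∃ i, A i
  mem : ∀ i, A i → ∀ᶠ z in 𝓝 z₀, θ z ∈ O i
  sm : ∀ i, A i → ContDiffAt ℝ (⊤ : ℕ∞) (u i ∘ θ) z₀
  dom : ∀ i, ¬ A i → ∀ᶠ z in 𝓝 z₀, θ z ∉ O i ∨ ∃ j, A j ∧ u i (θ z) + thr ι ≤ u j (θ z)

variable {O : ι → Set X} {u : ι → X → ℝ} {θ : E → X} {z₀ : E} {A : ι → Prop}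

lemma Adm.eventuallyEq (h : Adm O u θ z₀ A) : ∃ c : ℝ, (∀ i, A i → c + 1 < u i (θ z₀)) ∧
    gl O u ∘ θ =ᶠ[𝓝 z₀] fun z => FR c (fun i => (u i ∘ θ) z) (ls A) := by
  classical
  set c : ℝ := - ∑ i, |u i (θ z₀)| - thr ι - 1 with hc
  have ht : 1 ≤ thr ι := by unfold thr; linarith [Nat.cast_nonneg (α := ℝ) (Fintype.card ι)]
  have hlow : ∀ i, c + thr ι < u i (θ z₀) := by
    intro i
    have h1 : |u i (θ z₀)| ≤ ∑ i, |u i (θ z₀)| :=
      Finset.single_le_sum (f := fun i => |u i (θ z₀)|) (fun i _ => abs_nonneg _) (Finset.mem_univ i)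
    have h2 := neg_abs_le (u i (θ z₀))
    rw [hc]; linarith
  refine ⟨c, fun i _ => by linarith [hlow i], ?_⟩
  have h1 : ∀ᶠ z in 𝓝 z₀, ∀ i, A i → θ z ∈ O i ∧ c + thr ι < u i (θ z) := by
    rw [Filter.eventually_all]
    intro i
    by_cases hi : A i
    · have h2 := (h.sm i hi).continuousAt.eventually (lt_mem_nhds (hlow i))
      filter_upwards [h.mem i hi, h2] with z hz1 hz2 _
      exact ⟨hz1, hz2⟩
    · exact Eventually.of_forall fun z hz => absurd hz hi
  have h2 : ∀ᶠ z in 𝓝 z₀, ∀ i, ¬ A i →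
      θ z ∉ O i ∨ ∃ j, A j ∧ u i (θ z) + thr ι ≤ u j (θ z) := by
    rw [Filter.eventually_all]
    intro i
    by_cases hi : A i
    · exact Eventually.of_forall fun z hz => absurd hi hz
    · filter_upwards [h.dom i hi] with z hz _
      exact hz
  filter_upwards [h1, h2] with z hz1 hz2
  exact gl_eq_of h.ne (fun i hi => (hz1 i hi).1) hz2 fun i hi => (hz1 i hi).2.le

/-- the glued function is smooth along the parametrisation -/
theorem gl_smooth (h : Adm O u θ z₀ A) : ContDiffAt ℝ (⊤ : ℕ∞) (gl O u ∘ θ) z₀ := by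
  obtain ⟨c, -, hc⟩ := h.eventuallyEq
  exact (FR_smooth fun i hi => h.sm i (mem_ls.1 hi)).congr_of_eventuallyEq hc

/-- its Levi form -/
theorem gl_lev (h : Adm O u θ z₀ A) {w : E} {K : ℝ} (hK : ∀ i, A i → K ≤ lvE (u i ∘ θ) z₀ w) :
    K ≤ lvE (gl O u ∘ θ) z₀ w := by
  obtain ⟨c, hc1, hc⟩ := h.eventuallyEq
  rw [lvE_congr hc]
  refine FR_lev (l := ls A) ?_ (fun i hi => h.sm i (mem_ls.1 hi)) (fun i hi => hc1 i (mem_ls.1 hi))
    fun i hi => hK i (mem_ls.1 hi)
  obtain ⟨i, hi⟩ := h.ne
  exact List.ne_nil_of_mem (mem_ls.2 hi)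


end glue

end Crest.Agent.R257.Glue1_101
end
end

-- ▼ part R281/Rich3_710

/-!
# R281 (S0424), DIV 6, S6-RICH (helper710), file 3: matrices, change of charts

* `lev_eq_lvE`, `qf_hess` : `lev = 4 lvE`, `hess u z` as a quadratic form;
* `psd_tr` : positivity of `∂∂̄(wt + F) + c K` does not depend on the chart;
* `exists_kah_lower` : lower bound of a Kaehler metric on a compact subset of a chart.
-/

set_option autoImplicit false
set_option linter.unusedSectionVars false

open Set Filter Topology Metric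
open scoped ContDiff Matrix ComplexConjugate ComplexOrder

noncomputable section

namespace Crest.Agent.R281.Rich_710

open Crest.Agent.R257.HoB_843 Crest.Agent.R257.Glue2_101 Crest.Agent.R257.Glue1_101
open Crest.Agent.R275.Geo Crest.Agent.R275.Core144 Crest.Agent.R275.EDR890
open Crest.Agent.R273.Defs_333 Crest.Agent.R273.Hess_333 Crest.Agent.R273.HessB_333
open Crest.Agent.R273.HM_333 Crest.Agent.R273.Kah_333 Crest.Agent.R273.SerD_945

variable {n : ℕ}

theorem lev_eq_lvE (u : Cn n → ℝ) (z v : Cn n) : lev u z v = 4 * lvE u z v := by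
  unfold lev lvE
  rw [iteratedFDeriv_two_apply, iteratedFDeriv_two_apply]
  simp

/-- the conjugate vector -/
def cj (x : Fin n → ℂ) : Cn n := WithLp.toLp 2 fun a => conj (x a)

/-- the conjugate vector, back -/
def jc (v : Cn n) : Fin n → ℂ := fun a => conj (v a)

theorem cj_jc (v : Cn n) : cj (jc v) = v := by
  ext a; simp [cj, jc]

theorem jc_cj (x : Fin n → ℂ) : jc (cj x) = x := by
  funext a; simp [cj, jc]

theorem qf_hess {u : Cn n → ℝ} {z : Cn n} (hu : ContDiffAt ℝ ∞ u z) (x : Fin n → ℂ) :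
    qf (hess u z) x = lvE u z (cj x) := by
  unfold qf
  rw [hq_eq_dot, hq_re hu, lev_eq_lvE]
  unfold cj
  ring

theorem psd_of_qf {C : Matrix (Fin n) (Fin n) ℂ} (hC : C.IsHermitian) (h : ∀ x, 0 ≤ qf C x) :
    C.PosSemidef := by
  refine Matrix.PosSemidef.of_dotProduct_mulVec_nonneg hC fun x => ?_
  rw [qf_eq hC]
  exact_mod_cast h x

theorem qf_nonneg {C : Matrix (Fin n) (Fin n) ℂ} (hC : C.PosSemidef) (x : Fin n → ℂ) :
    0 ≤ qf C x := by
  have h := hC.dotProduct_mulVec_nonneg x
  rw [qf_eq hC.1] at h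
  exact_mod_cast h

theorem herm_smul {C : Matrix (Fin n) (Fin n) ℂ} (hC : C.IsHermitian) (c : ℝ) :
    ((c : ℂ) • C).IsHermitian := by
  unfold Matrix.IsHermitian at hC ⊢
  rw [Matrix.conjTranspose_smul, hC]
  simp

theorem qf_sub (C D : Matrix (Fin n) (Fin n) ℂ) (v : Fin n → ℂ) :
    qf (C - D) v = qf C v - qf D v := by
  unfold qf
  rw [Matrix.sub_mulVec, dotProduct_sub, Complex.sub_re]

variable {M : Type} [TopologicalSpace M] {A : Atl n M} {L : LB A}

/-- smoothness of a germ does not depend on the chart -/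
theorem sm_tr {F : M → ℝ} {i j : A.ι} {p : M} (hp : p ∈ (A.e i).source ∩ (A.e j).source)
    (hF : ContDiffAt ℝ ∞ (fun z => F ((A.e j).symm z)) (A.e j p)) :
    ContDiffAt ℝ ∞ (fun z => F ((A.e i).symm z)) (A.e i p) := by
  set T : Cn n → Cn n := fun w => A.e j ((A.e i).symm w) with hT
  have hTx : T (A.e i p) = A.e j p := by rw [hT]; simp only [(A.e i).left_inv hp.1]
  have ho : IsOpen (A.ov i j) := isOpen_ov i j
  have hm : A.e i p ∈ A.ov i j := mem_ov hp
  have hTc : ContDiffAt ℝ ∞ T (A.e i p) :=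
    (((Crest.Agent.R266.SCV.contDiffOn_omega_of_differentiableOn ho (A.holo i j)).restrict_scalars
      ℝ).of_le le_top).contDiffAt (ho.mem_nhds hm)
  have h1 : ContDiffAt ℝ ∞ (fun w => F ((A.e j).symm (T w))) (A.e i p) := by
    have h2 : ContDiffAt ℝ ∞ (fun z => F ((A.e j).symm z)) (T (A.e i p)) := by rwa [hTx]
    exact h2.comp (A.e i p) hTc
  refine h1.congr_of_eventuallyEq ?_
  filter_upwards [ho.mem_nhds hm] with w hw
  simp only [hT]
  rw [(A.e j).left_inv hw.2]

/-- positivity of `∂∂̄ (wt + F) + c K` does not depend on the chart -/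
theorem psd_tr (K : Kah A) (h : HM L) {F : M → ℝ} {i j : A.ι} {p : M}
    (hp : p ∈ (A.e i).source ∩ (A.e j).source)
    (hF : ContDiffAt ℝ ∞ (fun z => F ((A.e j).symm z)) (A.e j p)) (c : ℝ)
    (hpos : (hess (fun z => h.wt j z + F ((A.e j).symm z)) (A.e j p) +
      (c : ℂ) • K.g j p).PosSemidef) :
    (hess (fun z => h.wt i z + F ((A.e i).symm z)) (A.e i p) + (c : ℂ) • K.g i p).PosSemidef := by
  have ho : IsOpen (A.ov i j) := isOpen_ov i j
  have hm : A.e i p ∈ A.ov i j := mem_ov hp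
  have hF' := sm_tr hp hF
  have h1 : hess (fun z => h.wt i z + F ((A.e i).symm z)) (A.e i p) =
      (Jm A i j p)ᵀ * hess (fun z => h.wt j z + F ((A.e j).symm z)) (A.e j p) *
        (Jm A i j p).map conj := by
    refine hess_tr (f := fun w => L.g i j ((A.e i).symm w)) hp
      ((wt_contDiffAt h i ((A.e i).map_source hp.1)).add hF')
      ((wt_contDiffAt h j ((A.e j).map_source hp.2)).add hF) ?_ ?_ ?_
    · filter_upwards [ho.mem_nhds hm] with w hw
      exact (L.hol i j).differentiableAt (ho.mem_nhds hw)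
    · exact L.ne_zero i j _
    · filter_upwards [ho.mem_nhds hm] with w hw
      rw [wt_tr h hw, (A.e j).left_inv hw.2]
      ring
  have h3 : hess (fun z => h.wt i z + F ((A.e i).symm z)) (A.e i p) + (c : ℂ) • K.g i p =
      ((Jm A i j p).map conj)ᴴ *
      (hess (fun z => h.wt j z + F ((A.e j).symm z)) (A.e j p) + (c : ℂ) • K.g j p) *
        (Jm A i j p).map conj := by
    have h4 : ((Jm A i j p).map conj)ᴴ = (Jm A i j p)ᵀ := by
      ext a b
      simp [Matrix.conjTranspose_apply]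
    rw [h4, Matrix.mul_add, Matrix.add_mul, h1, K.tr i j p hp, Matrix.mul_smul,
      Matrix.smul_mul]
  rw [h3]
  exact hpos.conjTranspose_mul_mul_same _

/-- the Kaehler metric is continuous in the chart -/
theorem kah_cont (K : Kah A) (j : A.ι) (a b : Fin n) :
    ContinuousOn (fun z => K.g j ((A.e j).symm z) a b) (A.e j).target := (K.sm j a b).continuousOn

/-- lower bound on compact subsets of a chart -/
theorem exists_kah_lower (K : Kah A) (j : A.ι) {T : Set (Cn n)} (hT : IsCompact T)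
    (hTt : T ⊆ (A.e j).target) :
    ∃ c : ℝ, 0 < c ∧ ∀ z ∈ T, ∀ v : Cn n, c * ‖v‖ ^ 2 ≤ qf (K.g j ((A.e j).symm z)) (jc v) := by
  set S : Set (Cn n) := sphere 0 1 with hS
  have hSc : IsCompact S := isCompact_sphere 0 1
  have hcont : ContinuousOn (fun y : Cn n × Cn n => qf (K.g j ((A.e j).symm y.1)) (jc y.2))
      (T ×ˢ S) := by
    have h1 : (fun y : Cn n × Cn n => qf (K.g j ((A.e j).symm y.1)) (jc y.2)) =
        fun y => (∑ a, ∑ b, y.2 a * (K.g j ((A.e j).symm y.1) a b * conj (y.2 b))).re := by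
      funext y
      rw [qf_expand]
      simp [jc]
    rw [h1]
    refine Complex.continuous_re.comp_continuousOn ?_
    refine continuousOn_finsetSum _ fun a _ => continuousOn_finsetSum _ fun b _ => ?_
    have h2 : ContinuousOn (fun y : Cn n × Cn n => K.g j ((A.e j).symm y.1) a b) (T ×ˢ S) :=
      ((kah_cont K j a b).mono hTt).comp continuousOn_fst fun y hy => hy.1
    have h3 : ∀ a, ContinuousOn (fun y : Cn n × Cn n => y.2 a) (T ×ˢ S) := fun a => by
      fun_prop
    exact (h3 a).mul (h2.mul (Complex.continuous_conj.comp_continuousOn (h3 b)))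
  obtain ⟨c, hc1, hc2⟩ : ∃ c : ℝ, 0 < c ∧ ∀ y ∈ T ×ˢ S,
      c ≤ qf (K.g j ((A.e j).symm y.1)) (jc y.2) := by
    rcases (T ×ˢ S).eq_empty_or_nonempty with h | h
    · exact ⟨1, one_pos, fun y hy => by rw [h] at hy; exact hy.elim⟩
    · obtain ⟨y, hy, hmin⟩ := (hT.prod hSc).exists_isMinOn h hcont
      refine ⟨_, qf_pos (K.pos j _ ((A.e j).map_target (hTt hy.1))) ?_, fun z hz => hmin hz⟩
      intro h0
      have h1 := congrArg cj h0
      rw [cj_jc] at h1
      have h2 : y.2 = 0 := by rw [h1]; ext a; simp [cj]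
      have := hy.2
      rw [h2] at this
      simp [S] at this
  refine ⟨c, hc1, fun z hz v => ?_⟩
  rcases eq_or_ne v 0 with rfl | hv
  · have : jc (0 : Cn n) = 0 := by funext a; simp [jc]
    rw [this]
    simp [qf]
  · have hn : 0 < ‖v‖ := norm_pos_iff.2 hv
    have h1 := hc2 (z, ‖v‖⁻¹ • v) ⟨hz, by simp [S, norm_smul, hn.ne']⟩
    have h2 : jc (‖v‖⁻¹ • v) = ‖v‖⁻¹ • jc v := by
      funext a; simp [jc]
    simp only [h2, qf_smul_vec] at h1
    have h3 : ‖v‖ ^ 2 * (‖v‖⁻¹ ^ 2 * qf (K.g j ((A.e j).symm z)) (jc v)) =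
        qf (K.g j ((A.e j).symm z)) (jc v) := by field_simp
    have h4 := mul_le_mul_of_nonneg_left h1 (sq_nonneg ‖v‖)
    rw [h3] at h4
    linarith

end Crest.Agent.R281.Rich_710
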