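import Crest.Agent.R281.OmH5_331_Mg
import Crest.Agent.R281.OmL6_677
import Crest.Agent.R281.D6i_986_Mg
import Crest.Agent.R281.Mass5_519
import Crest.Agent.R281.Nu1_967_Mg
import Crest.Agent.R281.Rich3_710
import Crest.Agent.R281.Thn4_280
import Crest.Agent.R281.ThnM_280
import Mathlib
import Crest.Agent.R269.Green_740
import Crest.Agent.R281.Rich1_710
import Crest.Agent.R281.Rich2_710
import Crest.Agent.R281.D6a_986
import Crest.Agent.R281.Cv1_254_Mg
import Crest.Agent.R281.Tc5_941_Mg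

-- ▼ part R281/OmM6_980
section

/-!
# R281 (S0424), OM-MASS (helper980), part 6: 854's Prop `MassP`, and compactness of the leaves

* `massP`    : `MassP K L k n n` for `L` nef and isotropic
* `compact_lf_u` : the leaves over regular values are compact, no hypothesis left
-/

set_option autoImplicit false
set_option linter.unusedSectionVars false

open Set Filter Topology Complex MeasureTheory Function
open scoped ContDiff Matrix ComplexConjugate ComplexOrder ENNReal

namespace Crest.Agent.R281.OmM_980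

open Crest.Agent.R275 Crest.Agent.R275.Geo Crest.Agent.R275.Core144
open Crest.Agent.R273.Defs_333 Crest.Agent.R273.HM_333 Crest.Agent.R273.Kah_333
open Crest.Agent.R273.Vol_333 Crest.Agent.R273.Vm_333 Crest.Agent.R273.KahI_645
open Crest.Agent.R281.LfS_901 (U0 qf)
open Crest.Agent.R281.Lf_703
open Crest.Agent.R281.Defs_273 (HSymp NefW Isotropic)
open Crest.Agent.R281.Om_854 (MassP compact_lf)

noncomputable section

variable {n : ℕ} {M : Type} [TopologicalSpace M] [T2Space M] [CompactSpace M] [ConnectedSpace M]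
  {A : Atl (2 * n) M} {L : LB A} [Finite A.ι] (P : Part A) (K : Kah A) (σ : HSymp A)

/-- **(M1) + (M2) in 854's form** -/
theorem massP (hu : σ.Uniq) (hn : 1 ≤ n) (hL : NefW K L) (hiso : Isotropic P σ L) {k : ℕ}
    (hk : 0 < k) : MassP K L k n n := by
  let _ : MeasurableSpace M := borel M
  have : BorelSpace M := ⟨rfl⟩
  intro s hs T pc hz _ _
  obtain ⟨v, hv, h1⟩ := M1 P K σ hu hn hL hiso k
  refine ⟨(h1 s hs _ T pc hz).trans_lt ENNReal.ofReal_lt_top, fun μ hμ => ?_⟩
  obtain ⟨e0, he0, h2⟩ := M2 P K σ hu hn hL hiso hk hμ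
  exact ⟨e0, he0, fun e he hee h' hp => h2 e he hee h' hp s hs _ T pc hz⟩


end

end Crest.Agent.R281.OmM_980
end

-- ▼ part R281/OmM7_980
section

/-!
# R281 (S0424), S6-OMEGA (helper980): the assembly without hypotheses

`omega` : rank `n` of `n + 1` sections of `L^k` at one point ⟹ `OmOut σ L` (helper854's `omOut_of`
with OM-MASS = `massP`, OM-HAR = 331 / 389, OM-LAG = 677).
-/

set_option autoImplicit false
set_option linter.unusedSectionVars false

open Set Filter Topology Complex MeasureTheory Function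
open scoped ContDiff Matrix ComplexConjugate ComplexOrder ENNReal

namespace Crest.Agent.R281.OmM_980

open Crest.Agent.R275 Crest.Agent.R275.Geo Crest.Agent.R275.Core144
open Crest.Agent.R273.Defs_333 Crest.Agent.R273.HM_333 Crest.Agent.R273.Kah_333
open Crest.Agent.R281.Defs_273 (HSymp NefW Isotropic)
open Crest.Agent.R281.OmA_524 Crest.Agent.R281.OmB_524 Crest.Agent.R281.Rk_599
open Crest.Agent.R281.D6_986 Crest.Agent.R281.Tube1_989 Crest.Agent.R281.Tube2_989
open Crest.Agent.R281.Om_854 (omOut_of)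

noncomputable section

variable {n : ℕ} {M : Type} [TopologicalSpace M] [T2Space M] [CompactSpace M] [ConnectedSpace M]
  {A : Atl (2 * n) M} {L : LB A} [Finite A.ι] (P : Part A) (K : Kah A) (σ : HSymp A)

/-- **S6-OMEGA** -/
theorem omega (hu : σ.Uniq) (hn : 1 ≤ n) (hL : NefW K L) (hiso : Isotropic P σ L) {k : ℕ}
    (hk : 0 < k) {s : Fin (n + 1) → A.ι → M → ℂ} (hs : ∀ a, IsHS (L ^ k) univ (s a))
    {i₀ : A.ι} {x₀ : M} (h₀ : Rk A s i₀ x₀) :
    ∃ o : OmOut σ L, o.k = k ∧ o.s = s 0 ∧ o.F.Tf = leaf (X0s A s) (ys A s) ∧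
      o.F.Om = {x | x ∈ X0s A s ∧ IsCompact (leaf (X0s A s) (ys A s) x) ∧
        ∀ p ∈ leaf (X0s A s) (ys A s) x, ∃ i, Rk A s i p} :=
  omOut_of K σ hL hk (massP P K σ hu hn hL hiso hk)
    (fun h => Har_331.lowP_of K (pow h k) hn) hs
    (OmL_677.hbr P K σ hL hiso hs hk) h₀

end

end Crest.Agent.R281.OmM_980
end

-- ▼ part R281/E6a_52
section

/-!
# R281 (S0424), END6 (helper52): the nodes `OmegaP`, `LeafVolP`, `UOutP` of `E6_373`
-/

set_option autoImplicit false
set_option linter.unusedSectionVars false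

open Set Filter Topology Complex
open scoped ContDiff Matrix ComplexConjugate ComplexOrder

namespace Crest.Agent.R281.E6a_52

open Crest.Agent.R275.Geo Crest.Agent.R275.Core144 Crest.Agent.R275.GC293
open Crest.Agent.R273.Defs_333 Crest.Agent.R273.Kah_333 Crest.Agent.R273.HM_333
open Crest.Agent.R281.Defs_273 Crest.Agent.R281.Sk_474
open Crest.Agent.R281.D6_986 Crest.Agent.R281.E6_373
open Crest.Agent.R281.S6D_664 (LFib Fam)

/-- node (1): S6-OMEGA -/
theorem omegaP : OmegaP := by
  intro X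
  have : ConnectedSpace X.M := inferInstance
  obtain ⟨k, hk, s, hs, i, x, hx⟩ := X.rich
  obtain ⟨o, -⟩ := OmM_980.omega X.P X.K X.σ X.uniq X.hn X.nef X.iso hk hs hx
  exact ⟨o⟩

/-- node (2): the leaves have bounded volume -/
theorem leafVolP : LeafVolP := by
  intro X F
  obtain ⟨v, hv⟩ := Mass5_519.exists_volC_LFib F X.K
  refine ⟨v, fun F0 h0 => ?_⟩
  have hne : Nonempty F0.V := (F0.conn 0 (mem_univ _)).nonempty.to_subtype.map Subtype.val
  obtain ⟨a⟩ := hne
  obtain ⟨h1, h2⟩ := h0 a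
  refine (hv.leaf (F0.i a) h1 F0 ?_).le
  have h3 : F0.y ⁻¹' {F0.y a} = univ := eq_univ_of_forall fun z => Subsingleton.elim _ _
  rw [h2, h3, image_univ]

/-- node (5): `pos` and `strict` -/
theorem uOutP : UOutP := by
  rintro X o ⟨up⟩
  exact ⟨up.out X.hn⟩

end Crest.Agent.R281.E6a_52
end

-- ▼ part R281/Con12_166
section

/-!
# R281 (S0424), DIV 6, S6-CONT part 12 (helper166): the node N4

`nuAll`     : the mass bound for all families (967's `nu_bound`);
`exists_pd'`: the partition `PD M` for a metric on `M`;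
`contOut`   : `UPre K o h → Nonempty (ContOut o.F)` for `M` compact Hausdorff, second countable.
-/

set_option autoImplicit false
set_option linter.unusedSectionVars false

open Set Filter Topology Complex Function MeasureTheory
open scoped ContDiff Matrix ComplexConjugate ComplexOrder ENNReal Real

namespace Crest.Agent.R281.Con_166

open Crest.Agent.R275.Geo Crest.Agent.R275.Core144 Crest.Agent.R275.EDR890
open Crest.Agent.R275.GC293
open Crest.Agent.R273.Defs_333 Crest.Agent.R273.Kah_333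
open Crest.Agent.R281.Defs_273 Crest.Agent.R281.S6D_664 Crest.Agent.R281.D6_986

noncomputable section

theorem nuAll {n : ℕ} {M : Type} [MetricSpace M] [CompactSpace M] (A : Atl (2 * n) M) (K : Kah A) :
    NUall A K := by
  intro U hU F a0 R hR E G m1 m2 hE hop hUE hG2 hM hG
  exact Nu_967.nu_bound F hU K a0 hR hE hop hUE hG2 hM hG

section met

variable {n : ℕ} {M : Type} [MetricSpace M] [CompactSpace M] {A : Atl (2 * n) M} {σ : HSymp A}
  {L : LB A} {K : Kah A} {o : OmOut σ L} {h : HM L}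

/-- **the partition**, metric form -/
theorem exists_pd' (hn : 0 < n) (up : UPre K o h) :
    ∃ P : PD M, P.Om = o.F.Om ∧ ∀ x ∈ o.F.Om, P.T x = o.F.Tf x :=
  exists_pd hn up (nuAll A K)

theorem contOut_met (hn : 0 < n) (up : UPre K o h) : Nonempty (ContOut o.F) := by
  obtain ⟨P, h1, h2⟩ := exists_pd' hn up
  exact ⟨contOut_of_PD o.F P h1 h2⟩

end met

/-- **N4** -/
theorem contOut {n : ℕ} (hn : 0 < n) {M : Type} [TopologicalSpace M] [T2Space M] [CompactSpace M]
    [SecondCountableTopology M] {A : Atl (2 * n) M} {σ : HSymp A} {L : LB A} {K : Kah A}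
    {o : OmOut σ L} {h : HM L} (up : UPre K o h) : Nonempty (ContOut o.F) := by
  let _ : MetricSpace M := TopologicalSpace.metrizableSpaceMetric M
  exact contOut_met hn up

end

end Crest.Agent.R281.Con_166
end

-- ▼ part R281/Rich4_710
section

/-!
# R281 (S0424), DIV 6, S6-RICH (helper710), file 4: Richberg's theorem on a compact manifold

* `Loc`       : the data of the gluing (local approximations `G j` in the charts);
* `rich_core` : `h · e^{-u}` with local weights having the sub-mean value property ⟹ smooth `v` close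
  to `u` with curvature `≥ -δ K` everywhere and `≥ ∂∂̄ρ - δ K` on a compact set.
-/

set_option autoImplicit false
set_option linter.unusedSectionVars false

open Set Filter Topology Metric
open scoped ContDiff Matrix ComplexConjugate ComplexOrder

noncomputable section

namespace Crest.Agent.R281.Rich_710

open Crest.Agent.R257.HoB_843 Crest.Agent.R257.Glue2_101 Crest.Agent.R257.Glue1_101
open Crest.Agent.R275.Geo Crest.Agent.R275.Core144 Crest.Agent.R275.EDR890
open Crest.Agent.R273.Defs_333 Crest.Agent.R273.Hess_333 Crest.Agent.R273.HessB_333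
open Crest.Agent.R273.HM_333 Crest.Agent.R273.Kah_333 Crest.Agent.R273.SerD_945

variable {n : ℕ} {M : Type} [TopologicalSpace M] {A : Atl n M} {L : LB A}

theorem cont_sm {f : M → ℝ} (hf : A.Sm f) : Continuous f := by
  rw [continuous_iff_continuousAt]
  intro x
  obtain ⟨i, hi⟩ := A.cover x
  have h1 : ContinuousAt (fun z => f ((A.e i).symm z)) (A.e i x) :=
    (sm_contDiffAt hf i ((A.e i).map_source hi)).continuousAt
  have h2 : ContinuousAt (fun y => f ((A.e i).symm (A.e i y))) x :=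
    ContinuousAt.comp (g := fun z => f ((A.e i).symm z)) h1 ((A.e i).continuousAt hi)
  refine h2.congr ?_
  filter_upwards [(A.e i).open_source.mem_nhds hi] with y hy
  rw [(A.e i).left_inv hy]

theorem ne_of_quarter {t : ℝ} (h : 1 / 4 < t) : t ≠ 0 := (lt_trans (by norm_num) h).ne'

/-- the local candidate `G j - wt j - κ (1 - χ j)` -/
def aj (P : Part A) (h : HM L) (κ : ℝ) (G : A.ι → Cn n → ℝ) (j : A.ι) (x : M) : ℝ :=
  G j (A.e j x) - h.wt j (A.e j x) - κ * (1 - P.χ j x)

theorem tsup_psi (P : Part A) {j : A.ι} {x : M} (hx : P.ψ j x ≠ 0) : ∀ᶠ y in 𝓝 x, P.χ j y = 1 :=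
  P.χ_one j x (subset_tsupport _ hx)

theorem exists_psi (P : Part A) (x : M) : ∃ j, P.ψ j x ≠ 0 := by
  by_contra h
  push Not at h
  have h1 := P.sum_one x
  simp only [h] at h1
  simp at h1

theorem mem_source (P : Part A) {j : A.ι} {x : M} (hx : x ∈ tsupport (P.χ j)) :
    x ∈ (A.e j).source := P.χ_sub j hx

theorem mem_tsup {P : Part A} {j : A.ι} {x : M} (hx : P.χ j x ≠ 0) : x ∈ tsupport (P.χ j) :=
  subset_tsupport _ hx

theorem aj_read (P : Part A) (h : HM L) (κ : ℝ) (G : A.ι → Cn n → ℝ) (j : A.ι) {z : Cn n}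
    (hz : z ∈ (A.e j).target) : aj P h κ G j ((A.e j).symm z) =
      G j z - h.wt j z - κ * (1 - P.χ j ((A.e j).symm z)) := by
  unfold aj
  rw [(A.e j).right_inv hz]

theorem aj_sm (P : Part A) (h : HM L) (κ : ℝ) {G : A.ι → Cn n → ℝ}
    (hG : ∀ j, ContDiff ℝ ∞ (G j)) (j : A.ι) {z : Cn n} (hz : z ∈ (A.e j).target) :
    ContDiffAt ℝ ∞ (fun z => aj P h κ G j ((A.e j).symm z)) z := by
  have h1 : ContDiffAt ℝ ∞ (fun z => G j z - h.wt j z - κ * (1 - P.χ j ((A.e j).symm z))) z :=
    (((hG j).contDiffAt).sub (wt_contDiffAt h j hz)).sub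
      (contDiffAt_const.mul (contDiffAt_const.sub (sm_contDiffAt (P.χ_sm j) j hz)))
  refine h1.congr_of_eventuallyEq ?_
  filter_upwards [(A.e j).open_target.mem_nhds hz] with w hw
  exact aj_read P h κ G j hw

/-- the germ of the weight of `h e^{-a_j}` in the chart `j` -/
theorem aj_germ (P : Part A) (h : HM L) (κ : ℝ) (G : A.ι → Cn n → ℝ) (j : A.ι) {z : Cn n}
    (hz : z ∈ (A.e j).target) :
    (fun z => h.wt j z + aj P h κ G j ((A.e j).symm z)) =ᶠ[𝓝 z]
      fun z => (G j z + κ * P.χ j ((A.e j).symm z)) + (-κ) := by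
  filter_upwards [(A.e j).open_target.mem_nhds hz] with w hw
  rw [aj_read P h κ G j hw]
  ring

theorem hess_const' (c : ℝ) (z : Cn n) : hess (fun _ : Cn n => c) z = 0 := by
  ext a b
  have h := hess_apply (fun _ : Cn n => c) z a b
  rw [h]
  have h4 : wd (true, b) (cu fun _ : Cn n => c) = fun _ => 0 := by
    funext w
    exact wd_const _ _ _
  rw [h4, wd_const]
  rfl

theorem hess_aj (P : Part A) (h : HM L) (κ : ℝ) {G : A.ι → Cn n → ℝ}
    (hG : ∀ j, ContDiff ℝ ∞ (G j)) (j : A.ι) {z : Cn n} (hz : z ∈ (A.e j).target) :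
    hess (fun z => h.wt j z + aj P h κ G j ((A.e j).symm z)) z =
      hess (G j) z + (κ : ℂ) • hess (fun z => P.χ j ((A.e j).symm z)) z := by
  rw [hess_congr (aj_germ P h κ G j hz)]
  have h1 : ContDiffAt ℝ ∞ (fun z => P.χ j ((A.e j).symm z)) z := sm_contDiffAt (P.χ_sm j) j hz
  have h2 : ContDiffAt ℝ ∞ (fun z => κ * P.χ j ((A.e j).symm z)) z := contDiffAt_const.mul h1
  rw [hess_add ((hG j).contDiffAt.add h2) contDiffAt_const, hess_const', add_zero,
    hess_add (hG j).contDiffAt h2, hess_const_mul κ h1]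

/-! ### bounds -/

theorem smAt_cont {i : A.ι} {f : M → ℂ} (hf : A.SmAt i f) : ContinuousOn f (A.e i).source := by
  have h1 := hf.continuousOn
  have h2 := h1.comp (A.e i).continuousOn fun x hx => (A.e i).map_source hx
  refine h2.congr fun x hx => ?_
  show f x = f ((A.e i).symm (A.e i x))
  rw [(A.e i).left_inv hx]

theorem hsf_smAt {f : M → ℝ} (hf : A.Sm f) (i : A.ι) (a b : Fin n) :
    A.SmAt i (fun x => hsf A f i x a b) := by
  refine (contDiffOn_hess (A.e i).open_target (hf i) a b).congr fun z hz => ?_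
  simp only [hsf_read f i hz]

theorem exists_chi_bound [CompactSpace M] [Finite A.ι] (P : Part A) (K : Kah A) :
    ∃ T : ℝ, 0 ≤ T ∧ ∀ j i, ∀ x ∈ (A.e i).source, ∀ t : ℝ, T ≤ t →
      (hsf A (P.χ j) i x + (t : ℂ) • K.g i x).PosSemidef := by
  classical
  have : Fintype A.ι := Fintype.ofFinite _
  have h1 : ∀ j, ∃ t0 : ℝ, ∀ t : ℝ, t0 ≤ t → ∀ i, ∀ x ∈ (A.e i).source,
      (hsf A (P.χ j) i x + (t : ℂ) • K.g i x).PosDef := fun j =>
    exists_pos_add K.g (hsf A (P.χ j)) (fun i a b => smAt_cont (K.sm i a b))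
      (fun i a b => smAt_cont (hsf_smAt (P.χ_sm j) i a b)) K.pos
      (fun i x hx => hess_herm (sm_contDiffAt (P.χ_sm j) i ((A.e i).map_source hx))) K.tr
      (fun i k x hx => hsf_tr (P.χ_sm j) hx)
  choose t0 ht0 using h1
  refine ⟨∑ j, |t0 j|, Finset.sum_nonneg fun _ _ => abs_nonneg _, fun j i x hx t ht => ?_⟩
  refine (ht0 j t (((le_abs_self _).trans ?_).trans ht) i x hx).posSemidef
  exact Finset.single_le_sum (f := fun j => |t0 j|) (fun _ _ => abs_nonneg _) (Finset.mem_univ j)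

theorem exists_chi_abs [CompactSpace M] [Finite A.ι] (P : Part A) :
    ∃ B : ℝ, 0 ≤ B ∧ ∀ j x, |1 - P.χ j x| ≤ B := by
  classical
  have : Fintype A.ι := Fintype.ofFinite _
  have h1 : ∀ j, ∃ b : ℝ, ∀ x, |1 - P.χ j x| ≤ b := by
    intro j
    obtain ⟨b, hb⟩ := isCompact_univ.exists_bound_of_continuousOn
      (f := fun x => 1 - P.χ j x) (continuous_const.sub (cont_sm (P.χ_sm j))).continuousOn
    exact ⟨b, fun x => by simpa using hb x (mem_univ x)⟩
  choose b hb using h1
  refine ⟨∑ j, |b j|, Finset.sum_nonneg fun _ _ => abs_nonneg _, fun j x => ?_⟩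
  refine ((hb j x).trans (le_abs_self _)).trans ?_
  exact Finset.single_le_sum (f := fun j => |b j|) (fun _ _ => abs_nonneg _) (Finset.mem_univ j)

/-! ### the gluing -/

section gluing

variable [Fintype A.ι]

/-- the domains of the gluing -/
def Oj (P : Part A) (j : A.ι) : Set M := {x | 1 / 4 < P.χ j x}

/-- the glued function -/
def vg (P : Part A) (h : HM L) (κ : ℝ) (G : A.ι → Cn n → ℝ) (x : M) : ℝ :=
  κ / (4 * thr A.ι) * gl (Oj P) (fun j x => aj P h κ G j x / (κ / (4 * thr A.ι))) x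

variable {P : Part A} {h : HM L} {κ : ℝ} {G : A.ι → Cn n → ℝ} {u : M → ℝ}

theorem adm_of (hκ : 0 < κ) (hG : ∀ j, ContDiff ℝ ∞ (G j))
    (hap : ∀ j, ∀ x ∈ tsupport (P.χ j), |aj P h κ G j x - (u x - κ * (1 - P.χ j x))| ≤ κ / 8)
    (i : A.ι) {z : Cn n} (hz : z ∈ (A.e i).target) :
    Adm (Oj P) (fun j x => aj P h κ G j x / (κ / (4 * thr A.ι))) (A.e i).symm z
      (fun j => 1 / 4 < P.χ j ((A.e i).symm z)) := by
  have ht : 0 < thr A.ι := thr_pos A.ι
  have hc : ContinuousAt (A.e i).symm z :=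
    (A.e i).continuousOn_symm.continuousAt ((A.e i).open_target.mem_nhds hz)
  have hχ : ∀ j, ContinuousAt (fun w => P.χ j ((A.e i).symm w)) z := fun j =>
    ContinuousAt.comp (f := (A.e i).symm) (cont_sm (P.χ_sm j)).continuousAt hc
  obtain ⟨j₀, hj₀⟩ := exists_psi P ((A.e i).symm z)
  have h0 := tsup_psi P hj₀
  have h0' : P.χ j₀ ((A.e i).symm z) = 1 := h0.self_of_nhds
  refine ⟨⟨j₀, by rw [h0']; norm_num⟩, fun j hj => ?_, fun j hj => ?_, fun j hj => ?_⟩
  · exact (hχ j).eventually (lt_mem_nhds hj)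
  · have hs : (A.e i).symm z ∈ (A.e j).source := mem_source P (mem_tsup (ne_of_quarter hj))
    have h2 := sm_tr (F := aj P h κ G j) (i := i) (j := j) (p := (A.e i).symm z)
      ⟨(A.e i).map_target hz, hs⟩ (aj_sm P h κ hG j ((A.e j).map_source hs))
    rw [(A.e i).right_inv hz] at h2
    exact h2.div_const _
  · have hj' : P.χ j ((A.e i).symm z) < 1 / 2 := by
      have := not_lt.1 hj
      linarith
    have h1 := (hχ j).eventually (gt_mem_nhds hj')
    have h2 := hc.eventually h0
    filter_upwards [h1, h2] with w hw1 hw2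
    by_cases hO : (A.e i).symm w ∈ Oj P j
    · right
      refine ⟨j₀, by rw [h0']; norm_num, ?_⟩
      set y := (A.e i).symm w with hy
      have hO' : 1 / 4 < P.χ j y := hO
      have a1 := (abs_le.1 (hap j y (mem_tsup (ne_of_quarter hO')))).2
      have a2 := (abs_le.1 (hap j₀ y (mem_tsup (by rw [hw2]; norm_num)))).1
      rw [hw2] at a2
      have a3 : aj P h κ G j y + κ / 4 ≤ aj P h κ G j₀ y := by
        have : κ * P.χ j y ≤ κ * (1 / 2) := mul_le_mul_of_nonneg_left hw1.le hκ.le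
        linarith
      have a5 : 0 < κ / (4 * thr A.ι) := by positivity
      have a4 : thr A.ι * (κ / (4 * thr A.ι)) = κ / 4 := by field_simp
      show aj P h κ G j y / (κ / (4 * thr A.ι)) + thr A.ι ≤ aj P h κ G j₀ y / (κ / (4 * thr A.ι))
      rw [le_div_iff₀ a5, add_mul, a4, div_mul_cancel₀ _ a5.ne']
      exact a3
    · exact Or.inl hO

theorem vg_sm (hκ : 0 < κ) (hG : ∀ j, ContDiff ℝ ∞ (G j))
    (hap : ∀ j, ∀ x ∈ tsupport (P.χ j), |aj P h κ G j x - (u x - κ * (1 - P.χ j x))| ≤ κ / 8) :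
    A.Sm (vg P h κ G) := by
  intro i z hz
  have h1 := gl_smooth (adm_of hκ hG hap i hz)
  exact (contDiffAt_const.mul h1).contDiffWithinAt

theorem vg_lev (hκ : 0 < κ) (hG : ∀ j, ContDiff ℝ ∞ (G j))
    (hap : ∀ j, ∀ x ∈ tsupport (P.χ j), |aj P h κ G j x - (u x - κ * (1 - P.χ j x))| ≤ κ / 8)
    (i : A.ι) {z : Cn n} (hz : z ∈ (A.e i).target) {s : ℝ} {v : Cn n}
    (hs : ∀ j, 1 / 4 < P.χ j ((A.e i).symm z) →
      s ≤ lvE (fun z => aj P h κ G j ((A.e i).symm z)) z v) :
    s ≤ lvE (fun z => vg P h κ G ((A.e i).symm z)) z v := by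
  have ht : 0 < thr A.ι := thr_pos A.ι
  have hadm := adm_of hκ hG hap i hz
  set c : ℝ := κ / (4 * thr A.ι) with hc
  have hc0 : 0 < c := by positivity
  have h1 := gl_lev hadm (w := v) (K := s / c) (fun j hj => by
    have hsr : (A.e i).symm z ∈ (A.e j).source := mem_source P (mem_tsup (ne_of_quarter hj))
    have h2 := sm_tr (F := aj P h κ G j) (i := i) (j := j) (p := (A.e i).symm z)
      ⟨(A.e i).map_target hz, hsr⟩ (aj_sm P h κ hG j ((A.e j).map_source hsr))
    rw [(A.e i).right_inv hz] at h2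
    have e : ((fun x => aj P h κ G j x / c) ∘ (A.e i).symm) =
        fun z => c⁻¹ * aj P h κ G j ((A.e i).symm z) := by
      funext w
      simp only [Function.comp_apply]
      rw [div_eq_inv_mul]
    rw [e, lvE_const_mul h2, div_eq_inv_mul]
    exact mul_le_mul_of_nonneg_left (hs j hj) (by positivity))
  have e : (fun z => vg P h κ G ((A.e i).symm z)) = fun z => c *
      (gl (Oj P) (fun j x => aj P h κ G j x / c) ∘ (A.e i).symm) z := rfl
  rw [e, lvE_const_mul (gl_smooth hadm)]
  rw [div_le_iff₀ hc0] at h1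
  linarith

theorem vg_ge (hκ : 0 < κ)
    (hap : ∀ j, ∀ x ∈ tsupport (P.χ j), |aj P h κ G j x - (u x - κ * (1 - P.χ j x))| ≤ κ / 8)
    (x : M) : u x - κ / 8 ≤ vg P h κ G x := by
  have ht : 0 < thr A.ι := thr_pos A.ι
  set c : ℝ := κ / (4 * thr A.ι) with hc
  have hc0 : 0 < c := by positivity
  obtain ⟨j₀, hj₀⟩ := exists_psi P x
  have h0 : P.χ j₀ x = 1 := (tsup_psi P hj₀).self_of_nhds
  have h1 := le_gl (Oj P) (fun j x => aj P h κ G j x / c) (x := x) (i := j₀)
    (show 1 / 4 < P.χ j₀ x by rw [h0]; norm_num)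
  have h2 := (abs_le.1 (hap j₀ x (mem_tsup (by rw [h0]; norm_num)))).1
  rw [h0] at h2
  have h3 : aj P h κ G j₀ x ≤ vg P h κ G x := by
    rw [div_le_iff₀ hc0] at h1
    have e : vg P h κ G x = c * gl (Oj P) (fun j x => aj P h κ G j x / c) x := rfl
    rw [e]
    linarith
  linarith

theorem vg_le (hκ : 0 < κ)
    (hap : ∀ j, ∀ x ∈ tsupport (P.χ j), |aj P h κ G j x - (u x - κ * (1 - P.χ j x))| ≤ κ / 8)
    {B : ℝ} (hB : ∀ j x, |1 - P.χ j x| ≤ B) (x : M) :
    vg P h κ G x ≤ u x + κ * (B + 3 / 8) := by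
  have ht : 0 < thr A.ι := thr_pos A.ι
  set c : ℝ := κ / (4 * thr A.ι) with hc
  have hc0 : 0 < c := by positivity
  obtain ⟨j₀, hj₀⟩ := exists_psi P x
  have h0 : P.χ j₀ x = 1 := (tsup_psi P hj₀).self_of_nhds
  obtain ⟨j, hj, h1⟩ := gl_le (Oj P) (fun j x => aj P h κ G j x / c) (x := x)
    ⟨j₀, (show 1 / 4 < P.χ j₀ x by rw [h0]; norm_num)⟩
  have hj' : 1 / 4 < P.χ j x := hj
  have h2 := (abs_le.1 (hap j x (mem_tsup (ne_of_quarter hj')))).2
  have h3 := (abs_le.1 (hB j x)).1
  have e : vg P h κ G x = c * gl (Oj P) (fun j x => aj P h κ G j x / c) x := rfl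
  have h4 : c * gl (Oj P) (fun j x => aj P h κ G j x / c) x ≤
      aj P h κ G j x + c * Fintype.card A.ι := by
    calc c * gl (Oj P) (fun j x => aj P h κ G j x / c) x
        ≤ c * (aj P h κ G j x / c + Fintype.card A.ι) := mul_le_mul_of_nonneg_left h1 hc0.le
      _ = _ := by field_simp
  have h5 : c * Fintype.card A.ι ≤ κ / 4 := by
    have h6 : (Fintype.card A.ι : ℝ) ≤ thr A.ι := by
      unfold thr; linarith [Nat.cast_nonneg (α := ℝ) (Fintype.card A.ι)]
    calc c * Fintype.card A.ι ≤ c * thr A.ι := mul_le_mul_of_nonneg_left h6 hc0.le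
      _ = κ / 4 := by rw [hc]; field_simp
  have h7 : κ * -B ≤ κ * (1 - P.χ j x) := mul_le_mul_of_nonneg_left h3 hκ.le
  rw [e]
  linarith

end gluing

/-! ### Richberg's theorem -/


end Crest.Agent.R281.Rich_710
end
end

-- ▼ part R281/Rich5_710
section

/-!
# R281 (S0424), DIV 6, S6-RICH (helper710), file 5: gluing local approximations of a bounded potential

* `glue_core` : the gluing step of `rich_core` (no continuity);
* `rich_glue` : local smooth psh functions `G j` with `G j - wt j` close to each other on overlaps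
  and bounded by `B + τ`, for every `τ > 0` ⟹ the conclusion of `D6_986.RichStmt`.
-/

set_option autoImplicit false
set_option linter.unusedSectionVars false

open Set Filter Topology Metric
open scoped ContDiff Matrix ComplexConjugate ComplexOrder

noncomputable section

namespace Crest.Agent.R281.Rich_710

open Crest.Agent.R257.HoB_843 Crest.Agent.R257.Glue2_101 Crest.Agent.R257.Glue1_101
open Crest.Agent.R275.Geo Crest.Agent.R275.Core144 Crest.Agent.R275.EDR890
open Crest.Agent.R273.Defs_333 Crest.Agent.R273.Hess_333 Crest.Agent.R273.HessB_333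
open Crest.Agent.R273.HM_333 Crest.Agent.R273.Kah_333 Crest.Agent.R273.SerD_945

variable {n : ℕ} {M : Type} [TopologicalSpace M] {A : Atl n M} {L : LB A}

/-- the gluing step -/
theorem glue_core [Fintype A.ι] (P : Part A) (K : Kah A) (h : HM L)
    {u : M → ℝ} {C : Set M} {ρ : M → ℝ}
    (hρj : ∀ j, ∀ x ∈ (A.e j).source, x ∈ C →
      ContDiffAt ℝ ∞ (fun z => ρ ((A.e j).symm z)) (A.e j x))
    {δ T B κ : ℝ} (hδ : 0 < δ) (hκ : 0 < κ)
    (hT : ∀ j i, ∀ x ∈ (A.e i).source, ∀ t : ℝ, T ≤ t →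
      (hsf A (P.χ j) i x + (t : ℂ) • K.g i x).PosSemidef)
    (hB : ∀ j x, |1 - P.χ j x| ≤ B) (hκT : κ * T ≤ δ / 2)
    {c : A.ι → ℝ}
    (hcl : ∀ j, ∀ z ∈ A.e j '' tsupport (P.χ j), ∀ v : Cn n,
      c j * ‖v‖ ^ 2 ≤ qf (K.g j ((A.e j).symm z)) (jc v))
    {G : A.ι → Cn n → ℝ} (hG : ∀ j, ContDiff ℝ ∞ (G j))
    (hap : ∀ j, ∀ x ∈ tsupport (P.χ j), |aj P h κ G j x - (u x - κ * (1 - P.χ j x))| ≤ κ / 8)
    (hGp : ∀ j, ∀ x ∈ A.e j '' tsupport (P.χ j), ∀ v, 0 ≤ lvE (G j) x v)
    (hGρ : ∀ j, ∀ x ∈ A.e j '' (tsupport (P.χ j) ∩ C), ∀ v,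
        lvE (fun z => ρ ((A.e j).symm z)) x v - min (κ / 8) (δ / 2 * c j) * ‖v‖ ^ 2 ≤
          lvE (G j) x v) :
    ∃ (v : M → ℝ) (hv : A.Sm v), (∀ x, u x - κ / 8 ≤ v x ∧ v x ≤ u x + κ * (B + 3 / 8)) ∧
      (∀ i, ∀ x ∈ (A.e i).source, (cur (tw h v hv) i x + (δ : ℂ) • K.g i x).PosSemidef) ∧
      ∀ i, ∀ x ∈ (A.e i).source, x ∈ C →
        (cur (tw h v hv) i x - hsf A ρ i x + (δ : ℂ) • K.g i x).PosSemidef := by
  -- positivity of the pieces in their own chart
  have hP1 : ∀ j, ∀ x ∈ tsupport (P.χ j),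
      (hess (fun z => h.wt j z + aj P h κ G j ((A.e j).symm z)) (A.e j x) +
        (δ : ℂ) • K.g j x).PosSemidef := by
    intro j x hx
    have hxs := P.χ_sub j hx
    have hxt := (A.e j).map_source hxs
    rw [hess_aj P h κ hG j hxt]
    have h1 : (hess (G j) (A.e j x)).PosSemidef := psd_of_qf (hess_herm (hG j).contDiffAt) fun ξ => by
      rw [qf_hess (hG j).contDiffAt]
      exact hGp j _ (mem_image_of_mem _ hx) _
    have h2 := hT j j x hxs (δ / κ) (by
      rw [le_div_iff₀ hκ]; linarith)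
    have h3 : ((κ : ℂ) • (hsf A (P.χ j) j x + ((δ / κ : ℝ) : ℂ) • K.g j x)).PosSemidef :=
      h2.smul (by exact_mod_cast hκ.le)
    have e : hess (G j) (A.e j x) + (κ : ℂ) • hess (fun z => P.χ j ((A.e j).symm z)) (A.e j x) +
        (δ : ℂ) • K.g j x = hess (G j) (A.e j x) +
        (κ : ℂ) • (hsf A (P.χ j) j x + ((δ / κ : ℝ) : ℂ) • K.g j x) := by
      have hκ' : (κ : ℂ) ≠ 0 := by exact_mod_cast hκ.ne'
      rw [smul_add, smul_smul, add_assoc]
      congr 2
      push_cast
      rw [mul_div_cancel₀ _ hκ']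
    rw [e]
    exact h1.add h3
  have hP2 : ∀ j, ∀ x ∈ tsupport (P.χ j), x ∈ C →
      (hess (fun z => h.wt j z + (aj P h κ G j ((A.e j).symm z) - ρ ((A.e j).symm z))) (A.e j x) +
        (δ : ℂ) • K.g j x).PosSemidef := by
    intro j x hx hxC
    have hxs := P.χ_sub j hx
    have hxt := (A.e j).map_source hxs
    have hs1 : ContDiffAt ℝ ∞ (fun z => h.wt j z + aj P h κ G j ((A.e j).symm z)) (A.e j x) :=
      (wt_contDiffAt h j hxt).add (aj_sm P h κ hG j hxt)
    have hs2 := hρj j x hxs hxC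
    have e0 : (fun z => h.wt j z + (aj P h κ G j ((A.e j).symm z) - ρ ((A.e j).symm z))) =
        fun z => (h.wt j z + aj P h κ G j ((A.e j).symm z)) - ρ ((A.e j).symm z) := by
      funext z; ring
    rw [e0, hess_sub hs1 hs2, hess_aj P h κ hG j hxt]
    have hs3 : ContDiffAt ℝ ∞ (fun z => P.χ j ((A.e j).symm z)) (A.e j x) :=
      sm_contDiffAt (P.χ_sm j) j hxt
    refine psd_of_qf ?_ fun ξ => ?_
    · exact (((hess_herm (hG j).contDiffAt).add (herm_smul (hess_herm hs3) κ)).sub
        (hess_herm hs2)).add (herm_smul (K.pos j x hxs).1 δ)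
    · rw [qf_add, qf_sub, qf_add, qf_smul, qf_smul, qf_hess (hG j).contDiffAt, qf_hess hs2]
      have h1 := hGρ j _ (mem_image_of_mem _ ⟨hx, hxC⟩) (cj ξ)
      have h2 := hcl j _ (mem_image_of_mem _ hx) (cj ξ)
      rw [jc_cj, (A.e j).left_inv hxs] at h2
      have h3 := hT j j x hxs (δ / 2 / κ) (by rw [le_div_iff₀ hκ]; linarith)
      have h4 := qf_nonneg h3 ξ
      rw [qf_add, qf_smul] at h4
      have h5 : κ * (δ / 2 / κ) = δ / 2 := by field_simp
      have h6 : 0 ≤ κ * qf (hsf A (P.χ j) j x) ξ + δ / 2 * qf (K.g j x) ξ := by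
        have := mul_nonneg hκ.le h4
        rw [mul_add, ← mul_assoc, h5] at this
        exact this
      have h7 : min (κ / 8) (δ / 2 * c j) * ‖cj ξ‖ ^ 2 ≤ δ / 2 * c j * ‖cj ξ‖ ^ 2 :=
        mul_le_mul_of_nonneg_right (min_le_right _ _) (sq_nonneg _)
      have h8 : δ / 2 * (c j * ‖cj ξ‖ ^ 2) ≤ δ / 2 * qf (K.g j x) ξ :=
        mul_le_mul_of_nonneg_left h2 (by positivity)
      have h9 : qf (hess (fun z => P.χ j ((A.e j).symm z)) (A.e j x)) ξ =
          qf (hsf A (P.χ j) j x) ξ := rfl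
      rw [h9]
      linarith
  -- the glued function
  have hv : A.Sm (vg P h κ G) := vg_sm hκ hG hap
  refine ⟨vg P h κ G, hv, fun x => ?_, fun i x hx => ?_, fun i x hx hxC => ?_⟩
  · exact ⟨vg_ge hκ hap x, vg_le hκ hap hB x⟩
  · have hz := (A.e i).map_source hx
    have hvz := sm_contDiffAt hv i hz
    rw [cur_tw h hv i hx]
    refine psd_of_qf (((cur_herm h i hx).add (hess_herm hvz)).add
      (herm_smul (K.pos i x hx).1 δ)) fun ξ => ?_
    rw [qf_add, qf_add, qf_smul]
    have e1 : qf (cur h i x) ξ = lvE (h.wt i) (A.e i x) (cj ξ) := qf_hess (wt_contDiffAt h i hz) ξ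
    have e2 : qf (hsf A (vg P h κ G) i x) ξ =
        lvE (fun z => vg P h κ G ((A.e i).symm z)) (A.e i x) (cj ξ) := qf_hess hvz ξ
    have h1 := vg_lev hκ hG hap i hz (v := cj ξ)
      (s := -(lvE (h.wt i) (A.e i x) (cj ξ) + δ * qf (K.g i x) ξ)) (fun j hj => by
        rw [(A.e i).left_inv hx] at hj
        have hxj := mem_tsup (ne_of_quarter hj)
        have hp : x ∈ (A.e i).source ∩ (A.e j).source := ⟨hx, P.χ_sub j hxj⟩
        have hsm := aj_sm P h κ hG j ((A.e j).map_source hp.2)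
        have h2 := psd_tr K h hp hsm δ (hP1 j x hxj)
        have h3 := qf_nonneg h2 ξ
        have hsm' := sm_tr (F := aj P h κ G j) hp hsm
        rw [qf_add, qf_smul, qf_hess ((wt_contDiffAt h i hz).add hsm'),
          lvE_add (wt_contDiffAt h i hz) hsm'] at h3
        linarith)
    rw [e1, e2]
    linarith
  · have hz := (A.e i).map_source hx
    have hvz := sm_contDiffAt hv i hz
    have hρz := hρj i x hx hxC
    rw [cur_tw h hv i hx]
    refine psd_of_qf ((((cur_herm h i hx).add (hess_herm hvz)).sub (hess_herm hρz)).add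
      (herm_smul (K.pos i x hx).1 δ)) fun ξ => ?_
    rw [qf_add, qf_sub, qf_add, qf_smul]
    have e1 : qf (cur h i x) ξ = lvE (h.wt i) (A.e i x) (cj ξ) := qf_hess (wt_contDiffAt h i hz) ξ
    have e2 : qf (hsf A (vg P h κ G) i x) ξ =
        lvE (fun z => vg P h κ G ((A.e i).symm z)) (A.e i x) (cj ξ) := qf_hess hvz ξ
    have e3 : qf (hsf A ρ i x) ξ =
        lvE (fun z => ρ ((A.e i).symm z)) (A.e i x) (cj ξ) := qf_hess hρz ξ
    have h1 := vg_lev hκ hG hap i hz (v := cj ξ)
      (s := lvE (fun z => ρ ((A.e i).symm z)) (A.e i x) (cj ξ) -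
        (lvE (h.wt i) (A.e i x) (cj ξ) + δ * qf (K.g i x) ξ)) (fun j hj => by
        rw [(A.e i).left_inv hx] at hj
        have hxj := mem_tsup (ne_of_quarter hj)
        have hp : x ∈ (A.e i).source ∩ (A.e j).source := ⟨hx, P.χ_sub j hxj⟩
        have hsm := aj_sm P h κ hG j ((A.e j).map_source hp.2)
        have hρsm := hρj j x hp.2 hxC
        have h2 := psd_tr K h (F := fun y => aj P h κ G j y - ρ y) hp (hsm.sub hρsm) δ
          (hP2 j x hxj hxC)
        have h3 := qf_nonneg h2 ξ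
        have hsm' := sm_tr (F := aj P h κ G j) hp hsm
        rw [qf_add, qf_smul, qf_hess ((wt_contDiffAt h i hz).add (hsm'.sub hρz)),
          lvE_add (wt_contDiffAt h i hz) (hsm'.sub hρz)] at h3
        have e4 : lvE (fun z => aj P h κ G j ((A.e i).symm z) - ρ ((A.e i).symm z)) (A.e i x)
            (cj ξ) = lvE (fun z => aj P h κ G j ((A.e i).symm z)) (A.e i x) (cj ξ) -
              lvE (fun z => ρ ((A.e i).symm z)) (A.e i x) (cj ξ) := by
          have e5 : (fun z => aj P h κ G j ((A.e i).symm z) - ρ ((A.e i).symm z)) =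
              fun z => aj P h κ G j ((A.e i).symm z) + (-ρ ((A.e i).symm z)) := by
            funext z; ring
          rw [e5, lvE_add hsm' hρz.neg, lvE_neg']
          ring
        have h4 : 0 ≤ lvE (h.wt i) (A.e i x) (cj ξ) +
            lvE (fun z => aj P h κ G j ((A.e i).symm z) - ρ ((A.e i).symm z)) (A.e i x) (cj ξ) +
              δ * qf (K.g i x) ξ := h3
        rw [e4] at h4
        linarith)
    rw [e1, e2, e3]
    linarith

/-- a positive number below finitely many positive numbers -/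
theorem exists_pos_le {κ : Type*} [Finite κ] {c : κ → ℝ} (h : ∀ k, 0 < c k) :
    ∃ e > 0, ∀ k, e ≤ c k := by
  have h1 : ∀ᶠ t in 𝓝[>] (0 : ℝ), ∀ k, t ≤ c k := by
    rw [Filter.eventually_all]
    intro k
    exact nhdsWithin_le_nhds ((gt_mem_nhds (h k)).mono fun t ht => ht.le)
  obtain ⟨t, h2, h3⟩ := (h1.and self_mem_nhdsWithin).exists
  exact ⟨t, h3, h2⟩

/-- **gluing of local approximations of a bounded potential** -/
theorem rich_glue [CompactSpace M] [Finite A.ι] (P : Part A) (K : Kah A) (h : HM L)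
    {C : Set M} {ρ : M → ℝ}
    (hρj : ∀ j, ∀ x ∈ (A.e j).source, x ∈ C →
      ContDiffAt ℝ ∞ (fun z => ρ ((A.e j).symm z)) (A.e j x))
    {δ : ℝ} (hδ : 0 < δ) {B : ℝ}
    (hloc : ∀ τ : ℝ, 0 < τ → ∃ G : A.ι → Cn n → ℝ, (∀ j, ContDiff ℝ ∞ (G j)) ∧
      (∀ j k, ∀ x ∈ tsupport (P.χ j), x ∈ tsupport (P.χ k) →
        |(G j (A.e j x) - h.wt j (A.e j x)) - (G k (A.e k x) - h.wt k (A.e k x))| ≤ τ) ∧
      (∀ j, ∀ x ∈ tsupport (P.χ j), |G j (A.e j x) - h.wt j (A.e j x)| ≤ B + τ) ∧
      (∀ j, ∀ x ∈ A.e j '' tsupport (P.χ j), ∀ v, 0 ≤ lvE (G j) x v) ∧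
      ∀ j, ∀ x ∈ A.e j '' (tsupport (P.χ j) ∩ C), ∀ v,
        lvE (fun z => ρ ((A.e j).symm z)) x v - τ * ‖v‖ ^ 2 ≤ lvE (G j) x v) :
    ∃ (v : M → ℝ) (hv : A.Sm v), (∀ x, |v x| ≤ B + 1) ∧
      (∀ i, ∀ x ∈ (A.e i).source, (cur (tw h v hv) i x + (δ : ℂ) • K.g i x).PosSemidef) ∧
      ∀ i, ∀ x ∈ (A.e i).source, x ∈ C →
        (cur (tw h v hv) i x - hsf A ρ i x + (δ : ℂ) • K.g i x).PosSemidef := by
  classical
  have : Fintype A.ι := Fintype.ofFinite _
  obtain ⟨T, hT0, hT⟩ := exists_chi_bound P K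
  obtain ⟨B', hB0, hB⟩ := exists_chi_abs P
  obtain ⟨κ, hκ, hκT, hκB⟩ : ∃ κ : ℝ, 0 < κ ∧ κ * T ≤ δ / 2 ∧ κ * (B' + 1) ≤ 1 / 2 := by
    refine ⟨min (δ / (2 * (T + 1))) ((1 / 2) / (B' + 1)), by positivity, ?_, ?_⟩
    · calc min (δ / (2 * (T + 1))) ((1 / 2) / (B' + 1)) * T ≤ (δ / (2 * (T + 1))) * (T + 1) := by
            gcongr
            · exact min_le_left _ _
            · linarith
        _ = δ / 2 := by field_simp
    · calc min (δ / (2 * (T + 1))) ((1 / 2) / (B' + 1)) * (B' + 1)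
          ≤ ((1 / 2) / (B' + 1)) * (B' + 1) := by
            gcongr
            exact min_le_right _ _
        _ = 1 / 2 := by field_simp
  have hKc : ∀ j, IsCompact (A.e j '' tsupport (P.χ j)) := fun j =>
    (P.χ_cpt j).image_of_continuousOn ((A.e j).continuousOn.mono (P.χ_sub j))
  have hKt : ∀ j, A.e j '' tsupport (P.χ j) ⊆ (A.e j).target := by
    rintro j _ ⟨x, hx, rfl⟩
    exact (A.e j).map_source (P.χ_sub j hx)
  have hlow : ∀ j, ∃ c : ℝ, 0 < c ∧ ∀ z ∈ A.e j '' tsupport (P.χ j), ∀ v : Cn n,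
      c * ‖v‖ ^ 2 ≤ qf (K.g j ((A.e j).symm z)) (jc v) := fun j =>
    exists_kah_lower K j (hKc j) (hKt j)
  choose c hc0 hcl using hlow
  obtain ⟨τ₀, hτ₀, hτc⟩ := exists_pos_le (c := fun j => min (κ / 8) (δ / 2 * c j)) fun j => by
    have := hc0 j
    positivity
  obtain ⟨G, hG, hGG, hGB, hGp, hGρ⟩ := hloc (min τ₀ (min (κ / 8) (1 / 2))) (by positivity)
  have hτ1 : min τ₀ (min (κ / 8) (1 / 2)) ≤ κ / 8 := (min_le_right _ _).trans (min_le_left _ _)
  have hτ2 : min τ₀ (min (κ / 8) (1 / 2)) ≤ 1 / 2 := (min_le_right _ _).trans (min_le_right _ _)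
  -- the selected local function
  set j₀ : M → A.ι := fun x => (exists_psi P x).choose with hj₀
  have hj₀s : ∀ x, x ∈ tsupport (P.χ (j₀ x)) := fun x => mem_tsup (by
    rw [(tsup_psi P (exists_psi P x).choose_spec).self_of_nhds]; exact one_ne_zero)
  set u : M → ℝ := fun x => G (j₀ x) (A.e (j₀ x) x) - h.wt (j₀ x) (A.e (j₀ x) x) with hu
  have hap : ∀ j, ∀ x ∈ tsupport (P.χ j),
      |aj P h κ G j x - (u x - κ * (1 - P.χ j x))| ≤ κ / 8 := by
    intro j x hx
    have h1 := (hGG j (j₀ x) x hx (hj₀s x)).trans hτ1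
    have e : aj P h κ G j x - (u x - κ * (1 - P.χ j x)) =
        (G j (A.e j x) - h.wt j (A.e j x)) -
          (G (j₀ x) (A.e (j₀ x) x) - h.wt (j₀ x) (A.e (j₀ x) x)) := by
      unfold aj; simp only [hu]; ring
    rw [e]
    exact h1
  obtain ⟨v, hv, hv1, hv2, hv3⟩ := glue_core P K h hρj hδ hκ hT hB hκT hcl hG hap hGp
    (fun j x hx v => by
      have h1 := hGρ j x hx v
      have h2 : min τ₀ (min (κ / 8) (1 / 2)) * ‖v‖ ^ 2 ≤ min (κ / 8) (δ / 2 * c j) * ‖v‖ ^ 2 :=
        mul_le_mul_of_nonneg_right ((min_le_left _ _).trans (hτc j)) (sq_nonneg _)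
      linarith)
  refine ⟨v, hv, fun x => ?_, hv2, hv3⟩
  obtain ⟨h1, h2⟩ := hv1 x
  have h3 := abs_le.1 ((hGB (j₀ x) x (hj₀s x)).trans (add_le_add_right hτ2 B))
  have h4 : κ * (B' + 1) = κ * (B' + 3 / 8) + κ * (5 / 8) := by ring
  have h5 : κ ≤ κ * (B' + 1) := by nlinarith
  rw [abs_le]
  constructor
  · linarith [h3.1]
  · linarith [h3.2]

end Crest.Agent.R281.Rich_710
end
end

-- ▼ part R281/Rich6_710
section

/-!
# R281 (S0424), DIV 6, S6-RICH (helper710), file 6: families of local approximations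

* `rich_fam`   : local families `F j η`, `η → 0`, psh near the cut-off supports, bounded, compatible on
  the overlaps ⟹ the conclusion of Richberg's theorem (bounded potentials);
* `lvE_of_psd`, `lvE_of_psd_sub` : from the matrices to the Levi forms;
* `exists_rel` : relatively compact pieces of the charts around the supports of the cut-offs.
-/

set_option autoImplicit false
set_option linter.unusedSectionVars false

open Set Filter Topology Metric
open scoped ContDiff Matrix ComplexConjugate ComplexOrder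

noncomputable section

namespace Crest.Agent.R281.Rich_710

open Crest.Agent.R257.HoB_843 Crest.Agent.R257.Glue2_101 Crest.Agent.R257.Glue1_101
open Crest.Agent.R275.Geo Crest.Agent.R275.Core144 Crest.Agent.R275.EDR890
open Crest.Agent.R273.Defs_333 Crest.Agent.R273.Hess_333 Crest.Agent.R273.HessB_333
open Crest.Agent.R273.HM_333 Crest.Agent.R273.Kah_333 Crest.Agent.R273.SerD_945

variable {n : ℕ} {M : Type} [TopologicalSpace M] {A : Atl n M} {L : LB A}

/-- **Richberg's theorem for bounded potentials, from local families** -/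
theorem rich_fam [CompactSpace M] [Finite A.ι] (P : Part A) (K : Kah A) (h : HM L)
    {C : Set M} {ρ : M → ℝ}
    (hρj : ∀ j, ∀ x ∈ (A.e j).source, x ∈ C →
      ContDiffAt ℝ ∞ (fun z => ρ ((A.e j).symm z)) (A.e j x))
    {δ : ℝ} (hδ : 0 < δ) {B : ℝ} (F : A.ι → ℝ → Cn n → ℝ)
    (h1 : ∀ j, ∀ η : ℝ, 0 < η → ContDiff ℝ ∞ (F j η))
    (h2 : ∀ j, ∀ᶠ η in 𝓝[>] (0 : ℝ), ∀ x ∈ A.e j '' tsupport (P.χ j), ∀ v, 0 ≤ lvE (F j η) x v)
    (h3 : ∀ j, ∀ τ : ℝ, 0 < τ → ∀ᶠ η in 𝓝[>] (0 : ℝ), ∀ x ∈ A.e j '' (tsupport (P.χ j) ∩ C), ∀ v,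
      lvE (fun z => ρ ((A.e j).symm z)) x v - τ * ‖v‖ ^ 2 ≤ lvE (F j η) x v)
    (h4 : ∀ j, ∀ τ : ℝ, 0 < τ → ∀ᶠ η in 𝓝[>] (0 : ℝ), ∀ x ∈ A.e j '' tsupport (P.χ j),
      |F j η x - h.wt j x| ≤ B + τ)
    (h5 : ∀ j k, ∀ τ : ℝ, 0 < τ → ∀ᶠ η in 𝓝[>] (0 : ℝ),
      ∀ x ∈ A.e j '' (tsupport (P.χ j) ∩ tsupport (P.χ k)),
      |F k η (A.e k ((A.e j).symm x)) - F j η x -
        (h.wt k (A.e k ((A.e j).symm x)) - h.wt j x)| ≤ τ) :
    ∃ (v : M → ℝ) (hv : A.Sm v), (∀ x, |v x| ≤ B + 1) ∧
      (∀ i, ∀ x ∈ (A.e i).source, (cur (tw h v hv) i x + (δ : ℂ) • K.g i x).PosSemidef) ∧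
      ∀ i, ∀ x ∈ (A.e i).source, x ∈ C →
        (cur (tw h v hv) i x - hsf A ρ i x + (δ : ℂ) • K.g i x).PosSemidef := by
  classical
  have : Fintype A.ι := Fintype.ofFinite _
  refine rich_glue P K h hρj hδ fun τ hτ => ?_
  have e2 := Filter.eventually_all.2 h2
  have e3 := Filter.eventually_all.2 fun j => h3 j τ hτ
  have e4 := Filter.eventually_all.2 fun j => h4 j τ hτ
  have e5 := Filter.eventually_all.2 fun j => Filter.eventually_all.2 fun k => h5 j k τ hτ
  obtain ⟨η, ⟨⟨⟨a2, a3⟩, a4⟩, a5⟩, hη⟩ := ((((e2.and e3).and e4).and e5).and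
    self_mem_nhdsWithin).exists
  have hη0 : 0 < η := hη
  refine ⟨fun j => F j η, fun j => h1 j η hη0, fun j k x hxj hxk => ?_, fun j x hx =>
    a4 j _ (mem_image_of_mem _ hx), a2, a3⟩
  have h6 := a5 j k _ (mem_image_of_mem _ ⟨hxj, hxk⟩)
  rw [(A.e j).left_inv (P.χ_sub j hxj)] at h6
  rw [abs_sub_comm]
  have e : F k η (A.e k x) - h.wt k (A.e k x) - (F j η (A.e j x) - h.wt j (A.e j x)) =
      F k η (A.e k x) - F j η (A.e j x) - (h.wt k (A.e k x) - h.wt j (A.e j x)) := by ring
  rw [e]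
  exact h6

/-! ### from matrices to Levi forms -/

theorem lvE_of_psd (h : HM L) {u : M → ℝ} {i : A.ι} {z : Cn n} (hz : z ∈ (A.e i).target)
    (hu : ContDiffAt ℝ ∞ (fun w => u ((A.e i).symm w)) z)
    (hp : (cur h i ((A.e i).symm z) + hsf A u i ((A.e i).symm z)).PosSemidef) (v : Cn n) :
    0 ≤ lvE (fun w => h.wt i w + u ((A.e i).symm w)) z v := by
  have h1 := qf_nonneg hp (jc v)
  rw [cur_read h i hz, hsf_read u i hz, qf_add, qf_hess (wt_contDiffAt h i hz), qf_hess hu,
    cj_jc] at h1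
  rw [lvE_add (wt_contDiffAt h i hz) hu]
  exact h1

theorem lvE_of_psd_sub (h : HM L) {u ρ : M → ℝ} {i : A.ι} {z : Cn n} (hz : z ∈ (A.e i).target)
    (hu : ContDiffAt ℝ ∞ (fun w => u ((A.e i).symm w)) z)
    (hρ : ContDiffAt ℝ ∞ (fun w => ρ ((A.e i).symm w)) z)
    (hp : (cur h i ((A.e i).symm z) + hsf A u i ((A.e i).symm z) -
      hsf A ρ i ((A.e i).symm z)).PosSemidef) (v : Cn n) :
    0 ≤ lvE (fun w => h.wt i w + u ((A.e i).symm w) - ρ ((A.e i).symm w)) z v := by
  have h1 := qf_nonneg hp (jc v)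
  rw [cur_read h i hz, hsf_read u i hz, hsf_read ρ i hz, qf_sub, qf_add,
    qf_hess (wt_contDiffAt h i hz), qf_hess hu, qf_hess hρ, cj_jc] at h1
  have e : (fun w => h.wt i w + u ((A.e i).symm w) - ρ ((A.e i).symm w)) =
      fun w => (h.wt i w + u ((A.e i).symm w)) + (-ρ ((A.e i).symm w)) := by
    funext w; ring
  rw [e, lvE_add ((wt_contDiffAt h i hz).add hu) hρ.neg, lvE_add (wt_contDiffAt h i hz) hu,
    lvE_neg']
  linarith

/-! ### relatively compact pieces -/

theorem exists_rel (P : Part A) (j : A.ι) : ∃ D : Set (Cn n), IsOpen D ∧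
    A.e j '' tsupport (P.χ j) ⊆ D ∧ IsCompact (closure D) ∧ closure D ⊆ (A.e j).target := by
  have hK : IsCompact (A.e j '' tsupport (P.χ j)) :=
    (P.χ_cpt j).image_of_continuousOn ((A.e j).continuousOn.mono (P.χ_sub j))
  have hKt : A.e j '' tsupport (P.χ j) ⊆ (A.e j).target := by
    rintro _ ⟨x, hx, rfl⟩
    exact (A.e j).map_source (P.χ_sub j hx)
  obtain ⟨D, hD, h1, h2, h3⟩ := exists_open_between_and_isCompact_closure hK (A.e j).open_target hKt
  exact ⟨D, hD, h1, h3, h2⟩

end Crest.Agent.R281.Rich_710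
end
end

-- ▼ part R281/RichL_710
section

/-!
# R281 (S0424), DIV 6, S6-RICH (helper710): traces of `σ`-thin sets on parallel lines

* `sth_ae_countable` : for every direction `v`, for a.e. `z`, `{c | z + c v ∈ S}` is countable.
-/

set_option autoImplicit false
set_option linter.unusedSectionVars false
set_option linter.unusedVariables false

open Set Filter Topology Metric Module MeasureTheory
open scoped ContDiff ENNReal

noncomputable section

namespace Crest.Agent.R281.Rich_710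

open Crest.Agent.R281.Thn_280

variable {V : Type*} [NormedAddCommGroup V] [NormedSpace ℂ V] [FiniteDimensional ℂ V]
  [MeasurableSpace V] [BorelSpace V]

theorem sth_ae_countable (μ : Measure V) [μ.IsAddHaarMeasure] {E : Set V} (hE : STh E) (v : V) :
    ∀ᵐ z ∂μ, {t : ℂ | z + t • v ∈ E}.Countable := by
  obtain ⟨U, g, h1, h2⟩ := hE
  obtain ⟨D, hDc, hDd⟩ := TopologicalSpace.exists_countable_dense ℂ
  have := hDc.to_subtype
  have hae : ∀ᵐ z ∂μ, ∀ j : ℕ, ∀ t : D,
      z + (t : ℂ) • v ∉ {z | z ∈ U j ∧ g j z = 0 ∧ fderiv ℂ (g j) z ≠ 0} := by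
    rw [ae_all_iff]; intro j
    rw [ae_all_iff]; intro t
    have h3 := measure_eq_zero_iff_ae_notMem.1 (piece_null μ (h1 j).1 (h1 j).2)
    exact (quasiMeasurePreserving_add_right μ ((t : ℂ) • v)).ae h3
  filter_upwards [hae] with z hz
  have hsub : {t : ℂ | z + t • v ∈ E} ⊆
      ⋃ j, {t : ℂ | z + t • v ∈ U j ∧ g j (z + t • v) = 0 ∧ fderiv ℂ (g j) (z + t • v) ≠ 0} := by
    intro t ht
    exact mem_iUnion.2 (h2 _ ht)
  refine (countable_iUnion (fun j => ?_)).mono hsub
  refine countable_of_isolated (fun t ht => ?_)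
  obtain ⟨ht1, ht2, ht3⟩ := ht
  have hline : Continuous (fun s : ℂ => z + s • v) := by fun_prop
  have hφ : AnalyticAt ℂ (fun s : ℂ => g j (z + s • v)) t := by
    have h4 : AnalyticAt ℂ (fun ζ : ℂ => z + ζ • v) t := by fun_prop
    exact AnalyticAt.comp (g := g j) (f := fun ζ : ℂ => z + ζ • v) ((h1 j).2 _ ht1) h4
  rcases hφ.eventually_eq_zero_or_eventually_ne_zero with h5 | h5
  · exfalso
    have e1 : ∀ᶠ s in 𝓝 t, z + s • v ∈ U j := hline.continuousAt.eventually ((h1 j).1.mem_nhds ht1)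
    have e2 : ∀ᶠ s in 𝓝 t, fderiv ℂ (g j) (z + s • v) ≠ 0 := by
      have c1 : ContinuousAt (fderiv ℂ (g j)) (z + t • v) := ((h1 j).2 _ ht1).fderiv.continuousAt
      have c2 : ContinuousAt (fun s : ℂ => fderiv ℂ (g j) (z + s • v)) t :=
        ContinuousAt.comp (f := fun s : ℂ => z + s • v) c1 hline.continuousAt
      exact c2.eventually_ne ht3
    have e3 : ∀ᶠ s in 𝓝 t, (z + s • v ∈ U j ∧ g j (z + s • v) = 0) ∧
        fderiv ℂ (g j) (z + s • v) ≠ 0 := (e1.and h5).and e2
    obtain ⟨O, hO1, hO2, hO3⟩ := _root_.eventually_nhds_iff.1 e3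
    obtain ⟨s, hsO, hsD⟩ := hDd.inter_open_nonempty O hO2 ⟨t, hO3⟩
    obtain ⟨⟨a1, a2⟩, a3⟩ := hO1 s hsO
    exact hz j ⟨s, hsD⟩ ⟨a1, a2, a3⟩
  · obtain ⟨N, hN, hN2⟩ := (eventually_nhdsWithin_iff.1 h5).exists_mem
    refine ⟨N, hN, ?_⟩
    rintro s ⟨hs, hs1, hs2, hs3⟩
    by_contra hne
    exact hN2 s hs hne hs2

end Crest.Agent.R281.Rich_710
end
end

-- ▼ part R281/Bdd1_791
section

/-!
# S6-BDD, part 1: convexity of circle means in `log r`, rotation averages

`u` of class `C²` on a disc with nonnegative Laplacian: `circleAverage u 0 r` is nondecreasing and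
convex in `log r`.
-/

set_option autoImplicit false

open Set Metric MeasureTheory Filter Topology Real
open Crest.Agent.R269.LevC_653 Crest.Agent.R269.Green_740

namespace Crest.Agent.R281.Bdd1_791

section circle

variable {u : ℂ → ℝ} {R : ℝ}

theorem rm1_mono (hu : ContDiffOn ℝ 2 u (ball 0 R)) (h : ∀ z ∈ ball (0 : ℂ) R, 0 ≤ lev u z 1) :
    MonotoneOn (fun r => r * m1 u r) (Ico 0 R) := by
  have hd : ∀ r ∈ Ioo (-R) R, HasDerivAt (fun r => r * m1 u r) (1 * m1 u r + r * m2 u r) r :=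
    fun r hr => (hasDerivAt_id r).mul (hasDerivAt_m1 hu hr)
  have hsub : Ico 0 R ⊆ Ioo (-R) R := fun r hr => ⟨by linarith [hr.1, hr.2], hr.2⟩
  refine monotoneOn_of_deriv_nonneg (convex_Ico 0 R) ?_ ?_ ?_
  · intro r hr
    exact (hd r (hsub hr)).continuousAt.continuousWithinAt
  · intro r hr
    rw [interior_Ico] at hr
    exact (hd r (hsub ⟨hr.1.le, hr.2⟩)).differentiableAt.differentiableWithinAt
  · intro r hr
    rw [interior_Ico] at hr
    have hr' := hsub ⟨hr.1.le, hr.2⟩
    rw [(hd r hr').deriv, one_mul, add_comm, ← radial hu hr']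
    refine mul_nonneg (by norm_num) (mul_nonneg hr.1.le ?_)
    exact intervalIntegral.integral_nonneg (by positivity) fun θ _ => h _ (mem_ball_circleMap hr')


/-- the circle integral -/
noncomputable def m0 (u : ℂ → ℝ) (r : ℝ) : ℝ := ∫ θ in (0 : ℝ)..2 * π, u (circleMap 0 r θ)

theorem avg_eq (u : ℂ → ℝ) (r : ℝ) : circleAverage u 0 r = (2 * π)⁻¹ * m0 u r := rfl


/-- upper slope estimate -/
theorem m0_sub_le (hu : ContDiffOn ℝ 2 u (ball 0 R)) (h : ∀ z ∈ ball (0 : ℂ) R, 0 ≤ lev u z 1)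
    {r T : ℝ} (h0 : 0 < r) (hrT : r ≤ T) (hT : T < R) :
    m0 u T - m0 u r ≤ (T * m1 u T) * Real.log (T / r) := by
  have hT0 : 0 < T := h0.trans_le hrT
  have key : MonotoneOn (fun x => (T * m1 u T) * Real.log x - m0 u x) (Icc r T) := by
    have hd : ∀ x ∈ Icc r T, HasDerivAt (fun x => (T * m1 u T) * Real.log x - m0 u x)
        ((T * m1 u T) * x⁻¹ - m1 u x) x := fun x hx =>
      ((Real.hasDerivAt_log (h0.trans_le hx.1).ne').const_mul _).sub
        (hasDerivAt_m0 hu ⟨by linarith [hx.1, hx.2], hx.2.trans_lt hT⟩)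
    refine monotoneOn_of_deriv_nonneg (convex_Icc r T) ?_ ?_ ?_
    · intro x hx
      exact (hd x hx).continuousAt.continuousWithinAt
    · intro x hx
      exact (hd x (interior_subset hx)).differentiableAt.differentiableWithinAt
    · intro x hx
      have hx' := interior_subset hx
      have hx0 : 0 < x := h0.trans_le hx'.1
      rw [(hd x hx').deriv]
      have h1 := rm1_mono hu h (a := x) (b := T) ⟨hx0.le, hx'.2.trans_lt hT⟩ ⟨hT0.le, hT⟩ hx'.2
      simp only at h1
      have h2 : (T * m1 u T) * x⁻¹ - m1 u x = (T * m1 u T - x * m1 u x) * x⁻¹ := by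
        field_simp
      rw [h2]
      exact mul_nonneg (by linarith) (inv_nonneg.mpr hx0.le)
  have h3 := key (left_mem_Icc.mpr hrT) (right_mem_Icc.mpr hrT) hrT
  simp only at h3
  rw [Real.log_div hT0.ne' h0.ne', mul_sub]
  linarith

/-- lower slope estimate -/
theorem le_m0_sub (hu : ContDiffOn ℝ 2 u (ball 0 R)) (h : ∀ z ∈ ball (0 : ℂ) R, 0 ≤ lev u z 1)
    {T S : ℝ} (h0 : 0 < T) (hTS : T ≤ S) (hS : S < R) :
    (T * m1 u T) * Real.log (S / T) ≤ m0 u S - m0 u T := by
  have hS0 : 0 < S := h0.trans_le hTS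
  have key : MonotoneOn (fun x => m0 u x - (T * m1 u T) * Real.log x) (Icc T S) := by
    have hd : ∀ x ∈ Icc T S, HasDerivAt (fun x => m0 u x - (T * m1 u T) * Real.log x)
        (m1 u x - (T * m1 u T) * x⁻¹) x := fun x hx =>
      (hasDerivAt_m0 hu ⟨by linarith [hx.1, hx.2], hx.2.trans_lt hS⟩).sub
        ((Real.hasDerivAt_log (h0.trans_le hx.1).ne').const_mul _)
    refine monotoneOn_of_deriv_nonneg (convex_Icc T S) ?_ ?_ ?_
    · intro x hx
      exact (hd x hx).continuousAt.continuousWithinAt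
    · intro x hx
      exact (hd x (interior_subset hx)).differentiableAt.differentiableWithinAt
    · intro x hx
      have hx' := interior_subset hx
      have hx0 : 0 < x := h0.trans_le hx'.1
      rw [(hd x hx').deriv]
      have h1 := rm1_mono hu h (a := T) (b := x) ⟨h0.le, hTS.trans_lt hS⟩
        ⟨hx0.le, hx'.2.trans_lt hS⟩ hx'.1
      simp only at h1
      have h2 : m1 u x - (T * m1 u T) * x⁻¹ = (x * m1 u x - T * m1 u T) * x⁻¹ := by
        field_simp
      rw [h2]
      exact mul_nonneg (by linarith) (inv_nonneg.mpr hx0.le)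
  have h3 := key (left_mem_Icc.mpr hTS) (right_mem_Icc.mpr hTS) hTS
  simp only at h3
  rw [Real.log_div hS0.ne' h0.ne', mul_sub]
  linarith

/-- **Convexity in `log r`** of the circle means. -/
theorem circle_conv (hu : ContDiffOn ℝ 2 u (ball 0 R)) (h : ∀ z ∈ ball (0 : ℂ) R, 0 ≤ lev u z 1)
    {r T S : ℝ} (h0 : 0 < r) (hrT : r ≤ T) (hTS : T ≤ S) (hS : S < R) :
    (circleAverage u 0 T - circleAverage u 0 r) * Real.log (S / T) ≤
      (circleAverage u 0 S - circleAverage u 0 T) * Real.log (T / r) := by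
  have hT0 : 0 < T := h0.trans_le hrT
  have h1 := m0_sub_le hu h h0 hrT (hTS.trans_lt hS)
  have h2 := le_m0_sub hu h hT0 hTS hS
  have l1 : 0 ≤ Real.log (S / T) := Real.log_nonneg ((one_le_div hT0).mpr hTS)
  have l2 : 0 ≤ Real.log (T / r) := Real.log_nonneg ((one_le_div h0).mpr hrT)
  have h3 : (m0 u T - m0 u r) * Real.log (S / T) ≤ (m0 u S - m0 u T) * Real.log (T / r) := by
    calc (m0 u T - m0 u r) * Real.log (S / T)
        ≤ ((T * m1 u T) * Real.log (T / r)) * Real.log (S / T) :=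
          mul_le_mul_of_nonneg_right h1 l1
      _ = ((T * m1 u T) * Real.log (S / T)) * Real.log (T / r) := by ring
      _ ≤ _ := mul_le_mul_of_nonneg_right h2 l2
  rw [avg_eq, avg_eq, avg_eq]
  have h4 : (0 : ℝ) ≤ (2 * π)⁻¹ := by positivity
  nlinarith [mul_le_mul_of_nonneg_left h3 h4]

/-- sub-mean value property -/
theorem le_circle (hu : ContDiffOn ℝ 2 u (ball 0 R)) (h : ∀ z ∈ ball (0 : ℂ) R, 0 ≤ lev u z 1)
    {s : ℝ} (h0 : 0 ≤ s) (hs : s < R) : u 0 ≤ circleAverage u 0 s := by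
  have h1 := jensen hu h0 hs
  have h2 := TG_nonneg (q := fun z => lev u z 1) h0
    ((cont_lev hu).mono (closedBall_subset_ball hs)) (fun z hz => h z (closedBall_subset_ball hs hz))
  linarith

end circle

end Crest.Agent.R281.Bdd1_791
end

-- ▼ part R281/Bdd2_791
section

/-!
# S6-BDD, part 2: ball averages of bounded plurisubharmonic functions of class `C²`
-/

set_option autoImplicit false
set_option linter.unusedSectionVars false

open Set Metric MeasureTheory Filter Topology Real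
open Crest.Agent.R269.LevC_653 Crest.Agent.R269.Green_740
open Crest.Agent.R257.HoB_843 (lvE)
open Crest.Agent.R281.Rich_710 (lvE_disc contDiffAt_comp_disc)
open scoped ENNReal Pointwise

namespace Crest.Agent.R281.Bdd2_791

open Bdd1_791

variable {E : Type*} [NormedAddCommGroup E] [NormedSpace ℂ E] [NormedSpace ℝ E]
  [IsScalarTower ℝ ℂ E] [FiniteDimensional ℝ E]
  [MeasurableSpace E] [BorelSpace E] (μ : Measure E) [μ.IsAddHaarMeasure]

theorem lev_eq (u : ℂ → ℝ) (z : ℂ) : lev u z 1 = lvE u z 1 := by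
  unfold lev lvE
  ring

theorem coe_smul' (r : ℝ) (y : E) : (r : ℂ) • y = r • y :=
  (RCLike.real_smul_eq_coe_smul (K := ℂ) r y).symm

/-- multiplication by a complex number of modulus one preserves Haar measure -/
theorem rot (ζ : ℂ) (hζ : ‖ζ‖ = 1) : MeasurePreserving (fun y : E => ζ • y) μ μ := by
  have hζ0 : ζ ≠ 0 := by rintro rfl; simp at hζ
  have : ProperSpace E := FiniteDimensional.proper ℝ E
  let L : E ≃L[ℝ] E := (ContinuousLinearEquiv.smulLeft (R₁ := ℂ) (Units.mk0 ζ hζ0)).restrictScalars ℝ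
  have hL : ∀ y, L y = ζ • y := fun y => rfl
  refine ⟨(continuous_const_smul ζ).measurable, ?_⟩
  have h1 : Measure.map (fun y : E => ζ • y) μ = Measure.map L μ := rfl
  rw [h1]
  have := L.isAddHaarMeasure_map μ
  have h2 := Measure.isAddLeftInvariant_eq_smul (Measure.map L μ) μ
  have h3 : Measure.map L μ (closedBall 0 1) = μ (closedBall 0 1) := by
    rw [Measure.map_apply L.continuous.measurable measurableSet_closedBall]
    congr 1
    ext y
    simp [hL, norm_smul, hζ]
  rw [h2, Measure.smul_apply] at h3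
  have hpos : μ (closedBall (0 : E) 1) ≠ 0 := (measure_closedBall_pos μ 0 one_pos).ne'
  have hfin : μ (closedBall (0 : E) 1) ≠ ∞ := measure_closedBall_lt_top.ne
  have h4 : Measure.addHaarScalarFactor (Measure.map L μ) μ = 1 := by
    have h5 := congrArg ENNReal.toReal h3
    simp only [ENNReal.smul_def, smul_eq_mul, ENNReal.toReal_mul, ENNReal.coe_toReal] at h5
    have h6 : (μ (closedBall (0 : E) 1)).toReal ≠ 0 := by
      rw [ne_eq, ENNReal.toReal_eq_zero_iff]; tauto
    have h7 : ((Measure.addHaarScalarFactor (Measure.map L μ) μ : NNReal) : ℝ) = 1 :=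
      mul_right_cancel₀ h6 (by rw [h5, one_mul])
    exact_mod_cast h7
  rw [h2, h4, one_smul]

/-- the average over the ball of radius `r` about `x` -/
noncomputable def av (f : E → ℝ) (x : E) (r : ℝ) : ℝ :=
  (μ.real (closedBall 0 1))⁻¹ * ∫ y in closedBall (0 : E) 1, f (x + r • y) ∂μ

theorem rot_int (f : E → ℝ) (x : E) (r : ℝ) (θ : ℝ) :
    ∫ y in closedBall (0 : E) 1, f (x + circleMap 0 r θ • y) ∂μ =
      ∫ y in closedBall (0 : E) 1, f (x + r • y) ∂μ := by
  have h := rot μ (Complex.exp (θ * Complex.I)) (norm_exp_I θ)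
  have hinj : MeasurableEmbedding (fun y : E => Complex.exp (θ * Complex.I) • y) := by
    have hne : Complex.exp (θ * Complex.I) ≠ 0 := Complex.exp_ne_zero _
    exact (Homeomorph.smulOfNeZero _ hne).measurableEmbedding
  have h2 := h.setIntegral_preimage_emb hinj (fun y => f (x + r • y)) (closedBall 0 1)
  rw [← h2]
  have h3 : (fun y : E => Complex.exp (θ * Complex.I) • y) ⁻¹' closedBall 0 1 = closedBall 0 1 := by
    ext y; simp [norm_smul]
  rw [h3]
  refine setIntegral_congr_fun measurableSet_closedBall fun y _ => ?_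
  have e : circleMap 0 r θ • y = r • Complex.exp (θ * Complex.I) • y := by
    rw [circleMap_zero, mul_smul, coe_smul']
  simp only [e]

variable {f : E → ℝ} {x : E} {R C : ℝ}

theorem mem_of {r : ℝ} (hr : r < R) (h0 : 0 ≤ r) {y : E} (hy : y ∈ closedBall (0 : E) 1) {c : ℂ}
    (hc : ‖c‖ ≤ r) : x + c • y ∈ ball x R := by
  rw [mem_ball, dist_eq_norm, add_sub_cancel_left, norm_smul]
  have hy' : ‖y‖ ≤ 1 := by simpa using hy
  calc ‖c‖ * ‖y‖ ≤ r * 1 := mul_le_mul hc hy' (norm_nonneg _) h0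
    _ < R := by linarith

theorem slice_cd (hf : ContDiffOn ℝ 2 f (ball x R)) {y : E} (hy : y ∈ closedBall (0 : E) 1) :
    ContDiffOn ℝ 2 (fun c : ℂ => f (x + c • y)) (ball 0 R) := by
  refine hf.comp (t := ball x R) ?_ ?_
  · exact (contDiff_const.add (contDiff_id.smul contDiff_const)).contDiffOn
  · intro c hc
    have hc' : ‖c‖ < R := by simpa using hc
    have hy' : ‖y‖ ≤ 1 := by simpa using hy
    rw [mem_ball, dist_eq_norm, add_sub_cancel_left, norm_smul]
    calc ‖c‖ * ‖y‖ ≤ ‖c‖ * 1 := mul_le_mul_of_nonneg_left hy' (norm_nonneg _)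
      _ < R := by linarith

theorem slice_lev (hf : ContDiffOn ℝ 2 f (ball x R)) (hl : ∀ z ∈ ball x R, ∀ v, 0 ≤ lvE f z v)
    {y : E} (hy : y ∈ closedBall (0 : E) 1) :
    ∀ c ∈ ball (0 : ℂ) R, 0 ≤ lev (fun c : ℂ => f (x + c • y)) c 1 := by
  intro c hc
  have hc' : ‖c‖ < R := by simpa using hc
  have hy' : ‖y‖ ≤ 1 := by simpa using hy
  have hz : x + c • y ∈ ball x R := by
    rw [mem_ball, dist_eq_norm, add_sub_cancel_left, norm_smul]
    calc ‖c‖ * ‖y‖ ≤ ‖c‖ * 1 := mul_le_mul_of_nonneg_left hy' (norm_nonneg _)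
      _ < R := by linarith
  have hcd : ContDiffAt ℝ 2 f (x + c • y) := hf.contDiffAt (isOpen_ball.mem_nhds hz)
  have key : lev (fun c : ℂ => f (x + c • y)) c 1 = lvE f (x + c • y) y := by
    rw [lev_eq, lvE_disc hcd]
  rw [key]
  exact hl _ hz _

/-- joint continuity of the circle map family -/
theorem cont_joint (hf : ContinuousOn f (ball x R)) {r : ℝ} (h0 : 0 ≤ r) (hr : r < R) :
    ContinuousOn (fun p : E × ℝ => f (x + circleMap 0 r p.2 • p.1)) (closedBall 0 1 ×ˢ univ) := by
  refine hf.comp (t := ball x R) ?_ ?_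
  · exact (continuous_const.add (((continuous_circleMap 0 r).comp continuous_snd).smul
      continuous_fst)).continuousOn
  · rintro ⟨y, θ⟩ ⟨hy, -⟩
    exact mem_of hr h0 hy (by rw [norm_circleMap_zero, abs_of_nonneg h0])

theorem integrable_joint (hf : ContinuousOn f (ball x R)) {r : ℝ} (h0 : 0 ≤ r) (hr : r < R) :
    Integrable (fun p : E × ℝ => f (x + circleMap 0 r p.2 • p.1))
      ((μ.restrict (closedBall 0 1)).prod (volume.restrict (Ioc 0 (2 * π)))) := by
  have : ProperSpace E := FiniteDimensional.proper ℝ E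
  rw [Measure.prod_restrict]
  have h1 : IntegrableOn (fun p : E × ℝ => f (x + circleMap 0 r p.2 • p.1))
      (closedBall 0 1 ×ˢ Icc 0 (2 * π)) (μ.prod volume) :=
    ((cont_joint hf h0 hr).mono (prod_mono le_rfl (subset_univ _))).integrableOn_compact
      ((isCompact_closedBall 0 1).prod isCompact_Icc)
  exact h1.mono_set (prod_mono le_rfl Ioc_subset_Icc_self)

/-- the ball average is the average of the circle means -/
theorem av_eq (hf : ContinuousOn f (ball x R)) {r : ℝ} (h0 : 0 ≤ r) (hr : r < R) :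
    av μ f x r = (μ.real (closedBall 0 1))⁻¹ *
      ∫ y in closedBall (0 : E) 1, circleAverage (fun c : ℂ => f (x + c • y)) 0 r ∂μ := by
  have h2π : (0 : ℝ) ≤ 2 * π := by positivity
  have h1 : ∫ y in closedBall (0 : E) 1, circleAverage (fun c : ℂ => f (x + c • y)) 0 r ∂μ
      = (2 * π)⁻¹ * ∫ y in closedBall (0 : E) 1, (∫ θ in Ioc (0 : ℝ) (2 * π),
        f (x + circleMap 0 r θ • y)) ∂μ := by
    rw [← integral_const_mul]
    refine setIntegral_congr_fun measurableSet_closedBall fun y _ => ?_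
    simp only [circleAverage, smul_eq_mul, intervalIntegral.integral_of_le h2π]
  rw [h1, integral_integral_swap (integrable_joint μ hf h0 hr)]
  have h3 : ∀ θ : ℝ, ∫ y in closedBall (0 : E) 1, f (x + circleMap 0 r θ • y) ∂μ =
      ∫ y in closedBall (0 : E) 1, f (x + r • y) ∂μ := fun θ => rot_int μ f x r θ
  simp only [h3]
  rw [setIntegral_const, av]
  simp only [measureReal_def, Real.volume_Ioc, sub_zero, ENNReal.toReal_ofReal h2π, smul_eq_mul]
  have : (2 * π) ≠ 0 := by positivity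
  field_simp

theorem integrable_circ (hf : ContinuousOn f (ball x R)) {r : ℝ} (h0 : 0 ≤ r) (hr : r < R) :
    IntegrableOn (fun y : E => circleAverage (fun c : ℂ => f (x + c • y)) 0 r)
      (closedBall 0 1) μ := by
  have h2π : (0 : ℝ) ≤ 2 * π := by positivity
  have h1 := (integrable_joint μ hf h0 hr).integral_prod_left.const_mul (2 * π)⁻¹
  refine h1.congr (ae_of_all _ fun y => ?_)
  simp only [circleAverage, smul_eq_mul, intervalIntegral.integral_of_le h2π]

/-- **Convexity in `log r`** of the ball averages. -/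
theorem av_conv (hf : ContDiffOn ℝ 2 f (ball x R)) (hl : ∀ z ∈ ball x R, ∀ v, 0 ≤ lvE f z v)
    {r T S : ℝ} (h0 : 0 < r) (hrT : r ≤ T) (hTS : T ≤ S) (hS : S < R) :
    (av μ f x T - av μ f x r) * Real.log (S / T) ≤
      (av μ f x S - av μ f x T) * Real.log (T / r) := by
  have hT0 : 0 < T := h0.trans_le hrT
  have hT : T < R := hTS.trans_lt hS
  have hr : r < R := hrT.trans_lt hT
  have hc := hf.continuousOn
  rw [av_eq μ hc h0.le hr, av_eq μ hc hT0.le hT, av_eq μ hc (hT0.le.trans hTS) hS]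
  rw [← mul_sub, ← mul_sub, mul_assoc, mul_assoc]
  refine mul_le_mul_of_nonneg_left ?_ (inv_nonneg.mpr measureReal_nonneg)
  have ir := integrable_circ μ hc h0.le hr
  have iT := integrable_circ μ hc hT0.le hT
  have iS := integrable_circ μ hc (hT0.le.trans hTS) hS
  rw [← integral_sub iT ir, ← integral_sub iS iT, ← integral_mul_const, ← integral_mul_const]
  refine setIntegral_mono_on ((iT.sub ir).mul_const _) ((iS.sub iT).mul_const _)
    measurableSet_closedBall fun y hy => ?_
  exact circle_conv (slice_cd hf hy) (slice_lev hf hl hy) h0 hrT hTS hS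

/-- sub-mean value inequality on balls -/
theorem le_av (hf : ContDiffOn ℝ 2 f (ball x R)) (hl : ∀ z ∈ ball x R, ∀ v, 0 ≤ lvE f z v)
    {s : ℝ} (h0 : 0 ≤ s) (hs : s < R) : f x ≤ av μ f x s := by
  have : ProperSpace E := FiniteDimensional.proper ℝ E
  rw [av_eq μ hf.continuousOn h0 hs]
  have hpos : 0 < μ.real (closedBall (0 : E) 1) :=
    ENNReal.toReal_pos (measure_closedBall_pos μ 0 one_pos).ne' measure_closedBall_lt_top.ne
  have h1 : f x = (μ.real (closedBall 0 1))⁻¹ * ∫ _ in closedBall (0 : E) 1, f x ∂μ := by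
    rw [setIntegral_const, smul_eq_mul]
    field_simp
  rw [h1]
  refine mul_le_mul_of_nonneg_left ?_ (inv_nonneg.mpr hpos.le)
  refine setIntegral_mono_on (integrableOn_const measure_closedBall_lt_top.ne)
    (integrable_circ μ hf.continuousOn h0 hs) measurableSet_closedBall fun y hy => ?_
  have := le_circle (slice_cd hf hy) (slice_lev hf hl hy) h0 hs
  simpa using this

/-- bound for averages -/
theorem abs_av_le (hC : ∀ z ∈ ball x R, |f z| ≤ C)
    {s : ℝ} (h0 : 0 ≤ s) (hs : s < R) : |av μ f x s| ≤ C := by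
  have : ProperSpace E := FiniteDimensional.proper ℝ E
  have hpos : 0 < μ.real (closedBall (0 : E) 1) :=
    ENNReal.toReal_pos (measure_closedBall_pos μ 0 one_pos).ne' measure_closedBall_lt_top.ne
  have h1 : ‖∫ y in closedBall (0 : E) 1, f (x + s • y) ∂μ‖ ≤ C * μ.real (closedBall 0 1) := by
    refine norm_setIntegral_le_of_norm_le_const measure_closedBall_lt_top fun y hy => ?_
    refine hC _ ?_
    have := mem_of (x := x) hs h0 hy (c := (s : ℂ)) (by simp [abs_of_nonneg h0])
    rwa [coe_smul'] at this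
  rw [av, abs_mul, abs_of_pos (inv_pos.mpr hpos), inv_mul_le_iff₀ hpos, mul_comm]
  simpa using h1

/-- ball average as an integral over the ball -/
theorem av_eq_ball (f : E → ℝ) (x : E) {s : ℝ} (hs : 0 < s) :
    av μ f x s = (μ.real (closedBall x s))⁻¹ * ∫ z in closedBall x s, f z ∂μ := by
  have : ProperSpace E := FiniteDimensional.proper ℝ E
  have h1 : ∫ y in closedBall (0 : E) 1, f (x + s • y) ∂μ
      = (s ^ Module.finrank ℝ E)⁻¹ * ∫ z in closedBall x s, f z ∂μ := by
    have h2 := Measure.setIntegral_comp_smul_of_pos μ (fun z => f (x + z)) (closedBall (0 : E) 1) hs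
    rw [h2, smul_eq_mul]
    congr 1
    have h3 : s • closedBall (0 : E) 1 = closedBall 0 s := by
      rw [_root_.smul_closedBall _ _ zero_le_one]
      simp [abs_of_pos hs]
    rw [h3]
    have h4 := (measurePreserving_add_left μ x).setIntegral_preimage_emb
      (measurableEmbedding_addLeft x) f (closedBall x s)
    rw [← h4]
    congr 2
    ext z
    simp [dist_eq_norm]
  have h5 : μ.real (closedBall x s) = s ^ Module.finrank ℝ E * μ.real (closedBall (0 : E) 1) := by
    rw [measureReal_def, Measure.addHaar_closedBall' _ _ hs.le, ENNReal.toReal_mul,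
      ENNReal.toReal_ofReal (by positivity), measureReal_def]
  rw [av, h1, h5, mul_inv]
  ring

theorem ball_pos (x : E) {s : ℝ} (hs : 0 < s) : 0 < μ.real (closedBall x s) := by
  have : ProperSpace E := FiniteDimensional.proper ℝ E
  exact ENNReal.toReal_pos (measure_closedBall_pos μ x hs).ne' measure_closedBall_lt_top.ne

theorem ball_ratio (x p : E) {s t : ℝ} (hs : 0 < s) (ht : 0 < t) :
    μ.real (closedBall x t) / μ.real (closedBall p s) = (t / s) ^ Module.finrank ℝ E := by
  have : ProperSpace E := FiniteDimensional.proper ℝ E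
  have h5 : ∀ (x : E) {s : ℝ}, 0 < s →
      μ.real (closedBall x s) = s ^ Module.finrank ℝ E * μ.real (closedBall (0 : E) 1) := by
    intro x s hs
    rw [measureReal_def, Measure.addHaar_closedBall' _ _ hs.le, ENNReal.toReal_mul,
      ENNReal.toReal_ofReal (by positivity), measureReal_def]
  have h0 := (ball_pos μ (0 : E) one_pos).ne'
  rw [h5 x ht, h5 p hs, div_pow]
  field_simp

/-- the excess of the average over a shifted smaller ball -/
theorem av_shift (hf : ContinuousOn f (ball x R)) (hC : ∀ z ∈ ball x R, |f z| ≤ C) {p : E}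
    {r T : ℝ} (h0 : 0 ≤ r) (hrT : r < T) (hT : T < R) (hp : p ∈ closedBall x r) :
    av μ f p (T - r) ≤ av μ f x T + 2 * C * ((T / (T - r)) ^ Module.finrank ℝ E - 1) := by
  have : ProperSpace E := FiniteDimensional.proper ℝ E
  have hT0 : 0 < T := h0.trans_lt hrT
  have hs : 0 < T - r := by linarith
  have hsub : closedBall p (T - r) ⊆ closedBall x T :=
    closedBall_subset_closedBall' (by have := mem_closedBall.mp hp; linarith)
  have hxR : closedBall x T ⊆ ball x R := closedBall_subset_ball hT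
  have hint : IntegrableOn f (closedBall x T) μ :=
    (hf.mono hxR).integrableOn_compact (isCompact_closedBall x T)
  have hpos := ball_pos μ p hs
  have hposx := ball_pos μ x hT0
  have h1 : ∫ z in closedBall p (T - r), f z ∂μ ≤ ∫ z in closedBall x T, f z ∂μ +
      C * (μ.real (closedBall x T) - μ.real (closedBall p (T - r))) := by
    have h2 : ∫ z in closedBall x T \ closedBall p (T - r), f z ∂μ =
        ∫ z in closedBall x T, f z ∂μ - ∫ z in closedBall p (T - r), f z ∂μ :=
      setIntegral_sdiff measurableSet_closedBall hint hsub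
    have h3 : ‖∫ z in closedBall x T \ closedBall p (T - r), f z ∂μ‖ ≤
        C * μ.real (closedBall x T \ closedBall p (T - r)) := by
      refine norm_setIntegral_le_of_norm_le_const ?_ fun z hz => hC z (hxR hz.1)
      exact (measure_mono sdiff_subset).trans_lt measure_closedBall_lt_top
    have h4 : μ.real (closedBall x T \ closedBall p (T - r)) =
        μ.real (closedBall x T) - μ.real (closedBall p (T - r)) :=
      measureReal_sdiff hsub measurableSet_closedBall measure_closedBall_lt_top.ne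
    rw [h4] at h3
    have h5 := (abs_le.mp (Real.norm_eq_abs _ ▸ h3)).1
    rw [h2] at h5
    linarith
  have habs := abs_av_le (μ := μ) hC hT0.le hT
  rw [av_eq_ball μ f p hs]
  have hx : ∫ z in closedBall x T, f z ∂μ = μ.real (closedBall x T) * av μ f x T := by
    rw [av_eq_ball μ f x hT0]; field_simp
  rw [hx] at h1
  have hq : μ.real (closedBall x T) = (T / (T - r)) ^ Module.finrank ℝ E *
      μ.real (closedBall p (T - r)) := by
    rw [← ball_ratio μ x p hs hT0]; field_simp
  set q := (T / (T - r)) ^ Module.finrank ℝ E with hqdef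
  set a := av μ f x T with ha
  set V := μ.real (closedBall p (T - r)) with hV
  rw [hq] at h1
  have hq1 : 1 ≤ q := one_le_pow₀ ((one_le_div hs).mpr (by linarith))
  calc V⁻¹ * ∫ z in closedBall p (T - r), f z ∂μ
      ≤ V⁻¹ * (q * V * a + C * (q * V - V)) := mul_le_mul_of_nonneg_left h1 (inv_nonneg.mpr hpos.le)
    _ = q * a + C * (q - 1) := by field_simp
    _ ≤ a + 2 * C * (q - 1) := by nlinarith [(abs_le.mp habs).2, (abs_le.mp habs).1]

/-- the modulus -/
noncomputable def eta (D : ℕ) (C r T S : ℝ) : ℝ :=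
  2 * C * ((T / (T - r)) ^ D - 1) + 2 * C * Real.log (T / r) / Real.log (S / T)

/-- the essential upper bound -/
noncomputable def top (f : E → ℝ) (x : E) (C r T : ℝ) : ℝ :=
  av μ f x T + 2 * C * ((T / (T - r)) ^ Module.finrank ℝ E - 1)

theorem le_top (hf : ContDiffOn ℝ 2 f (ball x R)) (hl : ∀ z ∈ ball x R, ∀ v, 0 ≤ lvE f z v)
    (hC : ∀ z ∈ ball x R, |f z| ≤ C) {p : E} {r T : ℝ} (h0 : 0 ≤ r) (hrT : r < T) (hT : T < R)
    (hp : p ∈ closedBall x r) : f p ≤ top μ f x C r T := by
  have hsub : ball p (R - r) ⊆ ball x R :=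
    ball_subset_ball' (by have := mem_closedBall.mp hp; linarith)
  have h1 : f p ≤ av μ f p (T - r) :=
    le_av μ (hf.mono hsub) (fun z hz => hl z (hsub hz)) (by linarith) (by linarith)
  exact h1.trans (av_shift μ hf.continuousOn hC h0 hrT hT hp)

theorem top_sub_le (hf : ContDiffOn ℝ 2 f (ball x R)) (hl : ∀ z ∈ ball x R, ∀ v, 0 ≤ lvE f z v)
    (hC : ∀ z ∈ ball x R, |f z| ≤ C) {r T S : ℝ} (h0 : 0 < r) (hrT : r < T) (hTS : T < S)
    (hS : S < R) : top μ f x C r T - av μ f x r ≤ eta (Module.finrank ℝ E) C r T S := by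
  have hT0 : 0 < T := h0.trans hrT
  have h1 := av_conv μ hf hl h0 hrT.le hTS.le hS
  have hlog : 0 < Real.log (S / T) := Real.log_pos ((one_lt_div hT0).mpr hTS)
  have hlog2 : 0 ≤ Real.log (T / r) := Real.log_nonneg ((one_le_div h0).mpr hrT.le)
  have hT := abs_av_le (μ := μ) hC hT0.le (hTS.trans hS)
  have hS' := abs_av_le (μ := μ) hC (hT0.trans hTS).le hS
  have h2 : av μ f x T - av μ f x r ≤ 2 * C * Real.log (T / r) / Real.log (S / T) := by
    rw [le_div_iff₀ hlog]
    refine h1.trans ?_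
    refine mul_le_mul_of_nonneg_right ?_ hlog2
    linarith [(abs_le.mp hT).1, (abs_le.mp hS').2]
  rw [top, eta]
  linarith

end Crest.Agent.R281.Bdd2_791
end

-- ▼ part R281/Bdd3_791
section

/-!
# S6-BDD, part 3: two probability densities on a small ball give nearly the same integral of a
bounded plurisubharmonic function, uniformly
-/

set_option autoImplicit false
set_option linter.unusedSectionVars false

open Set Metric MeasureTheory Filter Topology Real
open Crest.Agent.R257.HoB_843 (lvE)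
open scoped ENNReal Pointwise

namespace Crest.Agent.R281.Bdd3_791

open Bdd2_791

variable {E : Type*} [NormedAddCommGroup E] [NormedSpace ℂ E] [NormedSpace ℝ E]
  [IsScalarTower ℝ ℂ E] [FiniteDimensional ℝ E]
  [MeasurableSpace E] [BorelSpace E] (μ : Measure E) [μ.IsAddHaarMeasure]

/-- `g` is a probability density on `closedBall x r`, at most `A` times the uniform one. -/
structure Dens (x : E) (r A : ℝ) (g : E → ℝ) : Prop where
  meas : AEStronglyMeasurable g μ
  nonneg : ∀ z, 0 ≤ g z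
  le : ∀ z, g z ≤ A / μ.real (closedBall x r)
  supp : ∀ z ∉ closedBall x r, g z = 0
  one : ∫ z, g z ∂μ = 1

variable {μ} {f : E → ℝ} {x : E} {R C r T S A : ℝ} {g : E → ℝ}

theorem Dens.integrable (hg : Dens μ x r A g) : Integrable g μ := by
  by_contra h
  have := hg.one
  rw [integral_undef h] at this
  exact zero_ne_one this

theorem Dens.integral_eq (hg : Dens μ x r A g) (f : E → ℝ) :
    ∫ z, g z * f z ∂μ = ∫ z in closedBall x r, g z * f z ∂μ := by
  rw [← integral_indicator measurableSet_closedBall]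
  congr 1
  ext z
  by_cases hz : z ∈ closedBall x r
  · rw [indicator_of_mem hz]
  · rw [indicator_of_notMem hz, hg.supp z hz, zero_mul]

theorem Dens.one' (hg : Dens μ x r A g) : ∫ z in closedBall x r, g z ∂μ = 1 := by
  have := hg.integral_eq (fun _ => 1)
  simp only [mul_one] at this
  rw [← this, hg.one]

/-- `∫ g f` lies between `top - A η` and `top`. -/
theorem pair_bounds (hf : ContDiffOn ℝ 2 f (ball x R)) (hl : ∀ z ∈ ball x R, ∀ v, 0 ≤ lvE f z v)
    (hC : ∀ z ∈ ball x R, |f z| ≤ C) (h0 : 0 < r) (hrT : r < T) (hTS : T < S) (hS : S < R)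
    (hA : 0 ≤ A) (hg : Dens μ x r A g) :
    top μ f x C r T - A * eta (Module.finrank ℝ E) C r T S ≤ ∫ z, g z * f z ∂μ ∧
      ∫ z, g z * f z ∂μ ≤ top μ f x C r T := by
  have : ProperSpace E := FiniteDimensional.proper ℝ E
  have hr : r < R := hrT.trans (hTS.trans hS)
  have hsub : closedBall x r ⊆ ball x R := closedBall_subset_ball hr
  have hcf : ContinuousOn f (closedBall x r) := hf.continuousOn.mono hsub
  have hif : IntegrableOn f (closedBall x r) μ := hcf.integrableOn_compact (isCompact_closedBall x r)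
  have hV := ball_pos μ x h0
  set V := μ.real (closedBall x r) with hVd
  set t := top μ f x C r T with ht
  have hle : ∀ z ∈ closedBall x r, f z ≤ t := fun z hz =>
    le_top μ hf hl hC h0.le hrT (hTS.trans hS) hz
  have htop := top_sub_le μ hf hl hC h0 hrT hTS hS
  rw [← ht] at htop
  have hgi : IntegrableOn g (closedBall x r) μ := hg.integrable.integrableOn
  have hgf : IntegrableOn (fun z => g z * f z) (closedBall x r) μ := by
    refine Integrable.mul_bdd (c := C) hgi (hcf.aestronglyMeasurable measurableSet_closedBall) ?_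
    filter_upwards [ae_restrict_mem measurableSet_closedBall] with z hz
    exact hC z (hsub hz)
  have e1 : t - ∫ z, g z * f z ∂μ = ∫ z in closedBall x r, g z * (t - f z) ∂μ := by
    have e2 : ∀ z, g z * (t - f z) = g z * t - g z * f z := fun z => by ring
    simp only [e2]
    rw [integral_sub (hgi.mul_const t) hgf, integral_mul_const, hg.one', one_mul, hg.integral_eq]
  have htc : IntegrableOn (fun _ : E => t) (closedBall x r) μ :=
    integrableOn_const measure_closedBall_lt_top.ne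
  have hti : IntegrableOn (fun z => t - f z) (closedBall x r) μ := htc.sub hif
  have hgt : IntegrableOn (fun z => g z * (t - f z)) (closedBall x r) μ := by
    have e2 : (fun z => g z * (t - f z)) = fun z => g z * t - g z * f z := by ext z; ring
    rw [e2]
    exact (hgi.mul_const t).sub hgf
  have e3 : 0 ≤ ∫ z in closedBall x r, g z * (t - f z) ∂μ :=
    setIntegral_nonneg measurableSet_closedBall fun z hz =>
      mul_nonneg (hg.nonneg z) (by linarith [hle z hz])
  have e4 : ∫ z in closedBall x r, g z * (t - f z) ∂μ ≤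
      ∫ z in closedBall x r, (A / V) * (t - f z) ∂μ :=
    setIntegral_mono_on hgt (hti.const_mul _) measurableSet_closedBall fun z hz =>
      mul_le_mul_of_nonneg_right (hg.le z) (by linarith [hle z hz])
  have e5 : ∫ z in closedBall x r, (A / V) * (t - f z) ∂μ = A * (t - av μ f x r) := by
    rw [integral_const_mul, integral_sub htc hif,
      setIntegral_const, smul_eq_mul, av_eq_ball μ f x h0, ← hVd]
    field_simp
  rw [e5] at e4
  have e6 : A * (t - av μ f x r) ≤ A * eta (Module.finrank ℝ E) C r T S :=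
    mul_le_mul_of_nonneg_left htop hA
  constructor <;> linarith

theorem pair_smooth (hf : ContDiffOn ℝ 2 f (ball x R)) (hl : ∀ z ∈ ball x R, ∀ v, 0 ≤ lvE f z v)
    (hC : ∀ z ∈ ball x R, |f z| ≤ C) (h0 : 0 < r) (hrT : r < T) (hTS : T < S) (hS : S < R)
    (hA : 0 ≤ A) {g g' : E → ℝ} (hg : Dens μ x r A g) (hg' : Dens μ x r A g') :
    |∫ z, g z * f z ∂μ - ∫ z, g' z * f z ∂μ| ≤ A * eta (Module.finrank ℝ E) C r T S := by
  have h1 := pair_bounds hf hl hC h0 hrT hTS hS hA hg
  have h2 := pair_bounds hf hl hC h0 hrT hTS hS hA hg'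
  rw [abs_le]
  constructor <;> linarith [h1.1, h1.2, h2.1, h2.2]

/-- the same for limits of `C²` functions -/
theorem pair_limit {v : E → ℝ} {F : ℕ → E → ℝ} (hf : ∀ k, ContDiffOn ℝ 2 (F k) (ball x R))
    (hl : ∀ k, ∀ z ∈ ball x R, ∀ w, 0 ≤ lvE (F k) z w) (hC : ∀ k, ∀ z ∈ ball x R, |F k z| ≤ C)
    (hlim : ∀ᵐ z ∂μ, z ∈ ball x R → Tendsto (fun k => F k z) atTop (𝓝 (v z)))
    (h0 : 0 < r) (hrT : r < T) (hTS : T < S) (hS : S < R)
    (hA : 0 ≤ A) {g g' : E → ℝ} (hg : Dens μ x r A g) (hg' : Dens μ x r A g') :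
    |∫ z, g z * v z ∂μ - ∫ z, g' z * v z ∂μ| ≤ A * eta (Module.finrank ℝ E) C r T S := by
  have : ProperSpace E := FiniteDimensional.proper ℝ E
  have hr : r < R := hrT.trans (hTS.trans hS)
  have hsub : closedBall x r ⊆ ball x R := closedBall_subset_ball hr
  have key : ∀ g : E → ℝ, Dens μ x r A g →
      Tendsto (fun k => ∫ z, g z * F k z ∂μ) atTop (𝓝 (∫ z, g z * v z ∂μ)) := by
    intro g hg
    have e : ∀ f : E → ℝ, ∫ z, g z * f z ∂μ = ∫ z in closedBall x r, g z * f z ∂μ :=
      hg.integral_eq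
    simp only [e]
    refine tendsto_integral_of_dominated_convergence (fun z => g z * C) ?_ ?_ ?_ ?_
    · intro k
      exact hg.meas.restrict.mul (((hf k).continuousOn.mono hsub).aestronglyMeasurable
        measurableSet_closedBall)
    · exact hg.integrable.integrableOn.mul_const C
    · intro k
      filter_upwards [ae_restrict_mem measurableSet_closedBall] with z hz
      rw [norm_mul, Real.norm_eq_abs, Real.norm_eq_abs, abs_of_nonneg (hg.nonneg z)]
      exact mul_le_mul_of_nonneg_left (hC k z (hsub hz)) (hg.nonneg z)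
    · filter_upwards [ae_restrict_mem measurableSet_closedBall, ae_restrict_of_ae hlim] with z hz h
      exact (h (hsub hz)).const_mul _
  have h3 := ((key g hg).sub (key g' hg')).abs
  refine le_of_tendsto h3 (Eventually.of_forall fun k => ?_)
  exact pair_smooth (hf k) (hl k) (hC k) h0 hrT hTS hS hA hg hg'

/-- choice of the radii -/
theorem exists_radii (D : ℕ) (C A : ℝ) {R η : ℝ} (hC : 0 ≤ C) (hA : 0 ≤ A) (hR : 0 < R)
    (hη : 0 < η) : ∃ r₀ > 0, ∀ r, 0 < r → r < r₀ → ∃ T S, r < T ∧ T < S ∧ S < R ∧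
      A * eta D C r T S ≤ η := by
  -- choose `K`
  have hK : ∃ K : ℝ, 1 < K ∧ 2 * C * ((K / (K - 1)) ^ D - 1) * A ≤ η / 2 := by
    have h1 : Tendsto (fun K : ℝ => K / (K - 1)) atTop (𝓝 1) := by
      have h2 : Tendsto (fun K : ℝ => 1 + (K - 1)⁻¹) atTop (𝓝 (1 + 0)) :=
        (tendsto_inv_atTop_zero.comp (tendsto_atTop_add_const_right _ (-1) tendsto_id)).const_add 1
      rw [add_zero] at h2
      refine h2.congr' ?_
      filter_upwards [eventually_gt_atTop (1 : ℝ)] with K hK
      have : K - 1 ≠ 0 := by linarith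
      field_simp
      ring
    have h3 : Tendsto (fun K : ℝ => 2 * C * ((K / (K - 1)) ^ D - 1) * A) atTop
        (𝓝 (2 * C * (1 ^ D - 1) * A)) :=
      (((h1.pow D).sub_const 1).const_mul _).mul_const _
    have h4 : 2 * C * ((1 : ℝ) ^ D - 1) * A < η / 2 := by simp; positivity
    obtain ⟨K, hK1, hK2⟩ := ((h3.eventually (gt_mem_nhds h4)).and (eventually_gt_atTop 1)).exists
    exact ⟨K, hK2, hK1.le⟩
  obtain ⟨K, hK1, hK2⟩ := hK
  have hK0 : 0 < K := by linarith
  have hlogK : 0 < Real.log K := Real.log_pos hK1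
  set B : ℝ := 4 * C * A * Real.log K / η with hB
  have hB0 : 0 ≤ B := by positivity
  refine ⟨R / 2 / (K * Real.exp (B + 1)), by positivity, fun r hr0 hr => ?_⟩
  have hlt : K * r * Real.exp (B + 1) < R / 2 := by
    rw [lt_div_iff₀ (by positivity)] at hr
    linarith
  have hKr : 0 < K * r := by positivity
  have hS : Real.exp (B + 1) < R / 2 / (K * r) := by
    rw [lt_div_iff₀ hKr]; linarith
  have hlogS : B + 1 < Real.log (R / 2 / (K * r)) := by
    rw [← Real.log_exp (B + 1)]
    exact Real.log_lt_log (Real.exp_pos _) hS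
  refine ⟨K * r, R / 2, by nlinarith, ?_, by linarith, ?_⟩
  · have : 1 < Real.exp (B + 1) := Real.one_lt_exp_iff.mpr (by linarith)
    nlinarith
  · have e1 : K * r / (K * r - r) = K / (K - 1) := by
      have h1 : K - 1 ≠ 0 := by linarith
      have h2 : K * r - r ≠ 0 := by
        have : K * r - r = (K - 1) * r := by ring
        rw [this]; positivity
      rw [div_eq_div_iff h2 h1]; ring
    have e2 : K * r / r = K := by field_simp
    rw [eta, e1, e2, mul_add]
    have e3 : A * (2 * C * Real.log K / Real.log (R / 2 / (K * r))) ≤ η / 2 := by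
      have hpos : 0 < Real.log (R / 2 / (K * r)) := by linarith
      rw [← mul_div_assoc, div_le_iff₀ hpos]
      have : η * B = 4 * C * A * Real.log K := by rw [hB]; field_simp
      nlinarith
    linarith [mul_comm A (2 * C * ((K / (K - 1)) ^ D - 1))]

/-- **LEMMA BDD.** -/
theorem bdd {C A R η : ℝ} (hC : 0 ≤ C) (hA : 0 ≤ A) (hR : 0 < R) (hη : 0 < η) :
    ∃ r₀ > 0, ∀ (x : E) (v : E → ℝ) (F : ℕ → E → ℝ),
      (∀ k, ContDiffOn ℝ 2 (F k) (ball x R)) →
      (∀ k, ∀ z ∈ ball x R, ∀ w, 0 ≤ lvE (F k) z w) →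
      (∀ k, ∀ z ∈ ball x R, |F k z| ≤ C) →
      (∀ᵐ z ∂μ, z ∈ ball x R → Tendsto (fun k => F k z) atTop (𝓝 (v z))) →
      ∀ r, 0 < r → r < r₀ → ∀ g g' : E → ℝ, Dens μ x r A g → Dens μ x r A g' →
        |∫ z, g z * v z ∂μ - ∫ z, g' z * v z ∂μ| ≤ η := by
  obtain ⟨r₀, hr₀, h⟩ := exists_radii (Module.finrank ℝ E) C A hC hA hR hη
  refine ⟨r₀, hr₀, fun x v F hf hl hb hlim r h0 hr g g' hg hg' => ?_⟩
  obtain ⟨T, S, h1, h2, h3, h4⟩ := h r h0 hr
  exact (pair_limit hf hl hb hlim h0 h1 h2 h3 hA hg hg').trans h4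

end Crest.Agent.R281.Bdd3_791
end

-- ▼ part R281/Bdd4_791
section

/-!
# S6-BDD, part 4: removability and convolution for bounded functions (after `Rich1/2_710`)
-/

set_option autoImplicit false
set_option linter.unusedSectionVars false

open Set Filter Topology Metric Asymptotics Real MeasureTheory
open scoped ContDiff Convolution

noncomputable section

namespace Crest.Agent.R281.Bdd4_791

open Crest.Agent.R269.SubM_79 Crest.Agent.R257.HoB_843 Crest.Agent.R257.Glue2_101
open Crest.Agent.R281.Rich_710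

section one

theorem circInt {φ : ℂ → ℝ} {B : ℝ} (hm : Measurable φ)
    (hB : ∀ w : ℂ, ‖w‖ ≤ 1 → |φ w| ≤ B) : CircleIntegrable φ 0 1 := by
  unfold CircleIntegrable
  rw [intervalIntegrable_iff_integrableOn_Ioc_of_le (by positivity)]
  refine Measure.integrableOn_of_bounded (M := B) measure_Ioc_lt_top.ne
    (hm.comp (continuous_circleMap 0 1).measurable).aestronglyMeasurable ?_
  refine ae_of_all _ fun θ => ?_
  exact hB _ (by simp)

/-- **Removability, bounded form** (after `Rich_710.le_avg_of_countable`): `φ` Borel, bounded on the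
closed unit disc, continuous and with Laplacian `≥ 0` off a compact countable set not containing `0`,
satisfies the sub-mean value inequality. -/
theorem le_avg_bdd {φ : ℂ → ℝ} {E : Set ℂ} {B : ℝ} (hci : CircleIntegrable φ 0 1)
    (hB : ∀ w ∈ closedBall (0 : ℂ) 1, |φ w| ≤ B) (hφ : ContinuousOn φ (closedBall 0 1 \ E))
    (hE : IsCompact E) (hE1 : E ⊆ closedBall 0 1) (hc : E.Countable) (h0 : (0 : ℂ) ∉ E)
    (hL : ∀ w ∈ ball (0 : ℂ) 1, w ∉ E → LGe φ w 0) : φ 0 ≤ circleAverage φ 0 1 := by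
  -- enumeration
  rcases E.eq_empty_or_nonempty with rfl | hne
  · exact le_circleAverage one_pos (by simpa using hφ) fun z hz => hL z hz (by simp)
  obtain ⟨a, ha⟩ := hc.exists_eq_range hne
  have haE : ∀ j, a j ∈ E := fun j => by rw [ha]; exact mem_range_self j
  have ha0 : ∀ j, (0 : ℂ) ≠ a j := fun j h => h0 (h ▸ haE j)
  set c : ℕ → ℝ := fun j => (1 / 2) ^ j / (1 + |Real.log (‖(0 : ℂ) - a j‖ ^ 2 / 4)|) with hcdef
  have hcpos : ∀ j, 0 < c j := fun j => by
    simp only [hcdef]; positivity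
  have hcl : ∀ j, -(1 / 2 : ℝ) ^ j ≤ c j * Real.log (‖(0 : ℂ) - a j‖ ^ 2 / 4) := by
    intro j
    set l := Real.log (‖(0 : ℂ) - a j‖ ^ 2 / 4)
    have h1 : 0 < 1 + |l| := by positivity
    have h2 : 0 < (1 / 2 : ℝ) ^ j := by positivity
    simp only [hcdef]
    rw [div_mul_eq_mul_div, le_div_iff₀ h1]
    have := neg_abs_le l
    nlinarith
  refine le_of_forall_pos_le_add fun ε hε => ?_
  -- choose the potentials
  set ε' := ε / 2 with hε'
  have hε0 : 0 < ε' := by positivity
  set K : ℝ := (2 * B + 2) / ε' with hK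
  have hBnn : 0 ≤ B := (abs_nonneg _).trans (hB 0 (by simp))
  have htj : ∀ j, ∃ t : ℝ, 0 < t ∧ t ≤ 4 ∧ c j * Real.log (t / 4) ≤ -K := by
    intro j
    refine ⟨4 * Real.exp (-(K / c j)), by positivity, ?_, ?_⟩
    · have : Real.exp (-(K / c j)) ≤ 1 := Real.exp_le_one_iff.2 (by
        have := hcpos j
        rw [neg_nonpos]; positivity)
      linarith
    · have e : 4 * Real.exp (-(K / c j)) / 4 = Real.exp (-(K / c j)) := by ring
      rw [e, Real.log_exp]
      have := hcpos j
      field_simp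
      exact le_rfl
  choose tt htt htt4 httK using htj
  obtain ⟨F, hF⟩ := hE.elim_finite_subcover (fun j => {w : ℂ | ‖w - a j‖ ^ 2 < tt j})
    (fun j => isOpen_lt (by fun_prop) continuous_const) (fun w hw => by
      rw [ha] at hw
      obtain ⟨j, rfl⟩ := hw
      exact mem_iUnion.2 ⟨j, by simpa using htt j⟩)
  obtain ⟨t, ht, ht4, htF⟩ : ∃ t : ℝ, 0 < t ∧ t ≤ 4 ∧ ∀ j ∈ F, t ≤ tt j := by
    have h1 : ∀ᶠ t in 𝓝[>] (0 : ℝ), ∀ j ∈ F, t ≤ tt j := by
      rw [Filter.eventually_all_finset]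
      intro j _
      exact nhdsWithin_le_nhds (((gt_mem_nhds (htt j))).mono fun t ht => ht.le)
    have h2 : ∀ᶠ t in 𝓝[>] (0 : ℝ), t ≤ 4 :=
      nhdsWithin_le_nhds ((gt_mem_nhds (by norm_num : (0 : ℝ) < 4)).mono fun t ht => ht.le)
    obtain ⟨t, ⟨h3, h4⟩, h5⟩ := ((h1.and h2).and self_mem_nhdsWithin).exists
    exact ⟨t, h5, h4, h3⟩
  set P : ℂ → ℝ := fun w => ∑ j ∈ F, c j * tl t (a j) w with hP
  have hPc : Continuous P := by
    refine continuous_finsetSum _ fun j _ => continuous_const.mul (continuous_tl ht _)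
  have hPL : ∀ z, LGe P z 0 := by
    intro z
    have := lge_sum F (u := fun j w => c j * tl t (a j) w) (z := z) (c := fun j => c j * 0)
      fun j _ => (lge_tl ht (a j) z).const_mul (hcpos j).le
    simpa using this
  have hd : ∀ w ∈ closedBall (0 : ℂ) 1, ∀ j, ‖w - a j‖ ≤ 2 := by
    intro w hw j
    have h1 : ‖w‖ ≤ 1 := by simpa using hw
    have h2 : ‖a j‖ ≤ 1 := by simpa using hE1 (haE j)
    exact (norm_sub_le _ _).trans (by linarith)
  have hPn : ∀ w ∈ closedBall (0 : ℂ) 1, P w ≤ 0 := fun w hw =>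
    Finset.sum_nonpos fun j _ => mul_nonpos_of_nonneg_of_nonpos (hcpos j).le
      (tl_nonpos ht ht4 (hd w hw j))
  have hP0 : -2 ≤ P 0 := by
    have h1 : ∑ j ∈ F, -(1 / 2 : ℝ) ^ j ≤ P 0 := Finset.sum_le_sum fun j _ =>
      (hcl j).trans (mul_le_mul_of_nonneg_left (le_tl (ha0 j)) (hcpos j).le)
    have h2 : ∑ j ∈ F, (1 / 2 : ℝ) ^ j ≤ 2 := by
      have := Summable.sum_le_tsum F (fun j _ => by positivity) summable_geometric_two
      rwa [tsum_geometric_two] at this
    rw [Finset.sum_neg_distrib] at h1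
    linarith
  have hPK : ∀ w ∈ closedBall (0 : ℂ) 1, (∃ j ∈ F, ‖w - a j‖ ^ 2 < tt j) → P w ≤ -K := by
    rintro w hw ⟨j, hj, hjw⟩
    have h1 : P w ≤ c j * tl t (a j) w := by
      rw [hP]
      simp only
      rw [← Finset.add_sum_erase F _ hj]
      have : ∑ x ∈ F.erase j, c x * tl t (a x) w ≤ 0 :=
        Finset.sum_nonpos fun i _ => mul_nonpos_of_nonneg_of_nonpos (hcpos i).le
          (tl_nonpos ht ht4 (hd w hw i))
      linarith
    refine h1.trans ((mul_le_mul_of_nonneg_left (tl_le_log ht (htF j hj) hjw.le)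
      (hcpos j).le).trans (httK j))
  -- the comparison function
  set u : ℂ → ℝ := fun w => max (φ w + ε' * P w) (-B - 1) with hu
  have hεK : ε' * K = 2 * B + 2 := by rw [hK]; field_simp
  have huc : ContinuousOn u (closedBall 0 1) := by
    intro z hz
    by_cases hzF : ∃ j ∈ F, ‖z - a j‖ ^ 2 < tt j
    · obtain ⟨j, hj, hjz⟩ := hzF
      have h1 : ∀ᶠ w in 𝓝[closedBall (0 : ℂ) 1] z, w ∈ closedBall (0 : ℂ) 1 ∧
          ‖w - a j‖ ^ 2 < tt j :=
        eventually_mem_nhdsWithin.and (nhdsWithin_le_nhds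
          (ContinuousAt.eventually_lt (by fun_prop) continuousAt_const hjz))
      have hval : ∀ w, w ∈ closedBall (0 : ℂ) 1 → ‖w - a j‖ ^ 2 < tt j → u w = -B - 1 := by
        intro w hw1 hw2
        have h2 := hPK w hw1 ⟨j, hj, hw2⟩
        have h3 := (abs_le.1 (hB w hw1)).2
        have h4 : ε' * P w ≤ ε' * -K := mul_le_mul_of_nonneg_left h2 hε0.le
        simp only [hu]
        rw [max_eq_right]
        linarith
      refine (continuousWithinAt_const (b := -B - 1)).congr_of_eventuallyEq ?_ (hval z hz hjz)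
      filter_upwards [h1] with w hw using hval w hw.1 hw.2
    · have hzE : z ∉ E := by
        intro h
        obtain ⟨j, hj, hjz⟩ := mem_iUnion₂.1 (hF h)
        exact hzF ⟨j, hj, hjz⟩
      have h1 : ContinuousWithinAt φ (closedBall 0 1) z := by
        refine (hφ z ⟨hz, hzE⟩).mono_of_mem_nhdsWithin ?_
        exact inter_mem self_mem_nhdsWithin
          (mem_nhdsWithin_of_mem_nhds (hE.isClosed.isOpen_compl.mem_nhds hzE))
      exact (h1.add (continuous_const.mul hPc).continuousWithinAt).sup continuousWithinAt_const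
  have huL : ∀ z ∈ ball (0 : ℂ) 1, LGe u z 0 := by
    intro z hz
    by_cases hzF : ∃ j ∈ F, ‖z - a j‖ ^ 2 < tt j
    · obtain ⟨j, hj, hjz⟩ := hzF
      have h1 : ∀ᶠ w in 𝓝 z, w ∈ closedBall (0 : ℂ) 1 ∧ ‖w - a j‖ ^ 2 < tt j :=
        ((isOpen_ball.eventually_mem hz).mono fun w hw => ball_subset_closedBall hw).and
          (ContinuousAt.eventually_lt (by fun_prop) continuousAt_const hjz)
      refine (hasL_const (-B - 1) z).lge.congr ?_
      filter_upwards [h1] with w hw
      have h2 := hPK w hw.1 ⟨j, hj, hw.2⟩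
      have h3 := (abs_le.1 (hB w hw.1)).2
      have h4 : ε' * P w ≤ ε' * -K := mul_le_mul_of_nonneg_left h2 hε0.le
      simp only [hu]
      rw [max_eq_right]
      linarith
    · have hzE : z ∉ E := by
        intro h
        obtain ⟨j, hj, hjz⟩ := mem_iUnion₂.1 (hF h)
        exact hzF ⟨j, hj, hjz⟩
      have h1 := (hL z hz hzE).add ((hPL z).const_mul hε0.le)
      refine LGe.max (by simpa using h1) (hasL_const _ z).lge
  have h1 := le_circleAverage one_pos huc huL
  have h2 : circleAverage u 0 1 ≤ circleAverage φ 0 1 := by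
    refine circleAverage_mono ?_ ?_ fun w hw => ?_
    · exact (huc.mono sphere_subset_closedBall).circleIntegrable zero_le_one
    · exact hci
    · have hw' : w ∈ closedBall (0 : ℂ) 1 := by
        rw [abs_one] at hw; exact sphere_subset_closedBall hw
      simp only [hu]
      refine max_le ?_ ?_
      · have := mul_nonpos_of_nonneg_of_nonpos hε0.le (hPn w hw')
        linarith
      · have := (abs_le.1 (hB w hw')).1
        linarith
  have h3 : φ 0 + ε' * P 0 ≤ u 0 := le_max_left _ _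
  have h4 : ε' * -2 ≤ ε' * P 0 := mul_le_mul_of_nonneg_left hP0 hε0.le
  linarith

end one

section disc

variable {E : Type*} [NormedAddCommGroup E] [NormedSpace ℂ E] [NormedSpace ℝ E]
  [IsScalarTower ℝ ℂ E]

/-- one disc: `g` bounded on the closed disc `x + 𝔻 v`, which has countable trace outside of the open
set `Ω`, on which `g` is `C²` with Levi form `≥ 0` -/
theorem le_dav_bdd {Ω : Set E} (hΩ : IsOpen Ω) {g : E → ℝ} {B : ℝ} {x v : E}
    (hci : CircleIntegrable (fun w : ℂ => g (x + w • v)) 0 1)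
    (hL : ∀ w : ℂ, ‖w‖ ≤ 1 → x + w • v ∈ Ω →
      ContDiffAt ℝ 2 g (x + w • v) ∧ 0 ≤ lvE g (x + w • v) v)
    (hB : ∀ w : ℂ, ‖w‖ ≤ 1 → |g (x + w • v)| ≤ B) (hx : x ∈ Ω)
    (hc : {w : ℂ | ‖w‖ ≤ 1 ∧ x + w • v ∉ Ω}.Countable) : g x ≤ dav g x v := by
  set l : ℂ → E := fun w => x + w • v with hl
  have hlc : Continuous l := by simp only [hl]; fun_prop
  set S : Set ℂ := {w : ℂ | ‖w‖ ≤ 1 ∧ x + w • v ∉ Ω} with hS
  have hSe : S = closedBall (0 : ℂ) 1 ∩ (l ⁻¹' Ω)ᶜ := by
    ext w
    simp [hS, hl]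
  have hSc : IsCompact S := by
    rw [hSe]
    exact (isCompact_closedBall (0 : ℂ) 1).inter_right (hΩ.preimage hlc).isClosed_compl
  have h1 := le_avg_bdd (φ := fun w : ℂ => g (x + w • v)) (E := S) (B := B)
    hci (fun w hw => hB w (by simpa using hw)) (fun w hw => ?_) hSc
    (by rw [hSe]; exact inter_subset_left) hc
    (fun h => h.2 (by simpa using hx)) (fun w hw hwS => ?_)
  · simpa [dav] using h1
  · have hw1 : ‖w‖ ≤ 1 := by simpa using hw.1
    have hwΩ : x + w • v ∈ Ω := by
      by_contra h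
      exact hw.2 ⟨hw1, h⟩
    exact (contDiffAt_comp_disc (hL w hw1 hwΩ).1).continuousAt.continuousWithinAt
  · have hw1 : ‖w‖ ≤ 1 := by
      have : ‖w‖ < 1 := by simpa using hw
      exact this.le
    have hwΩ : x + w • v ∈ Ω := by
      by_contra h
      exact hwS ⟨hw1, h⟩
    have h2 := (hL w hw1 hwΩ).1
    have h4 := (hasL_of_contDiffAt (contDiffAt_comp_disc h2)).lge
    rw [lvE_disc h2] at h4
    exact h4.mono (hL w hw1 hwΩ).2

end disc

section conv

variable {E : Type*} [NormedAddCommGroup E] [NormedSpace ℂ E] [NormedSpace ℝ E]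
  [IsScalarTower ℝ ℂ E] [FiniteDimensional ℝ E] [MeasurableSpace E] [BorelSpace E]
  {μ : Measure E} [μ.IsAddHaarMeasure]

theorem normed_zero (φ : ContDiffBump (0 : E)) {t : E} (ht : t ∉ ball (0 : E) φ.rOut) :
    φ.normed μ t = 0 := by
  by_contra h8
  have h9 : t ∈ Function.support (φ.normed μ) := h8
  rw [φ.support_normed_eq] at h9
  exact ht h9

theorem integrable_mul_bump' (φ : ContDiffBump (0 : E)) {h : E → ℝ} (hm : AEStronglyMeasurable h μ)
    {B : ℝ} (hB : ∀ t, |h t| ≤ B) : Integrable (fun t => φ.normed μ t * h t) μ :=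
  Integrable.mul_bdd (c := B) φ.integrable_normed hm (ae_of_all _ hB)

/-- integrability of the shifted product -/
theorem integrable_prod (φ : ContDiffBump (0 : E)) {g : E → ℝ} (hg : Measurable g) {B : ℝ}
    (hB : ∀ t, |g t| ≤ B) (x v : E) :
    Integrable (fun p : ℝ × E => φ.normed μ p.2 * g (x + circleMap 0 1 p.1 • v - p.2))
      ((volume.restrict (Set.uIoc 0 (2 * π))).prod μ) := by
  have hprop : ProperSpace E := FiniteDimensional.proper ℝ E
  rw [uIoc_of_le (by positivity)]
  have h1 : Integrable (fun p : ℝ × E => φ.normed μ p.2)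
      ((volume.restrict (Set.Ioc 0 (2 * π))).prod μ) := by
    have h2 : Integrable (fun _ : ℝ => (1 : ℝ)) (volume.restrict (Set.Ioc 0 (2 * π))) :=
      integrable_const _
    simpa using h2.mul_prod (φ.integrable_normed (μ := μ))
  refine Integrable.mul_bdd (c := B) h1 ?_ (ae_of_all _ fun p => hB _)
  refine (hg.comp ?_).aestronglyMeasurable
  exact ((continuous_const.add (((continuous_circleMap 0 1).comp continuous_fst).smul
      continuous_const)).sub continuous_snd).measurable

/-- disc averages of a convolution -/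
theorem dav_conv' (φ : ContDiffBump (0 : E)) {g : E → ℝ} (hg : Measurable g) {B : ℝ}
    (hB : ∀ t, |g t| ≤ B) (x v : E) :
    dav (φ.normed μ ⋆[ContinuousLinearMap.lsmul ℝ ℝ, μ] g) x v =
      ∫ t, φ.normed μ t * dav g (x - t) v ∂μ := by
  have e1 : dav (φ.normed μ ⋆[ContinuousLinearMap.lsmul ℝ ℝ, μ] g) x v =
      (2 * π)⁻¹ * ∫ θ in (0 : ℝ)..2 * π, ∫ t, φ.normed μ t * g (x + circleMap 0 1 θ • v - t) ∂μ := rfl
  have e2 : ∀ t, φ.normed μ t * dav g (x - t) v = (2 * π)⁻¹ *
      ∫ θ in (0 : ℝ)..2 * π, φ.normed μ t * g (x + circleMap 0 1 θ • v - t) := by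
    intro t
    rw [intervalIntegral.integral_const_mul]
    have e3 : dav g (x - t) v = (2 * π)⁻¹ * ∫ θ in (0 : ℝ)..2 * π, g (x - t + circleMap 0 1 θ • v) :=
      rfl
    rw [e3]
    have e4 : (fun θ => g (x - t + circleMap 0 1 θ • v)) =
        fun θ => g (x + circleMap 0 1 θ • v - t) := by
      funext θ; congr 1; abel
    rw [e4]
    ring
  rw [e1]
  simp only [e2]
  rw [integral_const_mul, intervalIntegral_integral_swap]
  exact integrable_prod φ hg hB x v

theorem integrable_dav (φ : ContDiffBump (0 : E)) {g : E → ℝ} (hg : Measurable g) {B : ℝ}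
    (hB : ∀ t, |g t| ≤ B) (x v : E) :
    Integrable (fun t => φ.normed μ t * dav g (x - t) v) μ := by
  have h1 := ((integrable_prod φ hg hB x v (μ := μ)).integral_prod_right).const_mul (2 * π)⁻¹
  refine h1.congr (ae_of_all _ fun t => ?_)
  simp only
  have e3 : dav g (x - t) v = (2 * π)⁻¹ * ∫ θ in (0 : ℝ)..2 * π, g (x - t + circleMap 0 1 θ • v) :=
    rfl
  have e4 : (fun θ => g (x - t + circleMap 0 1 θ • v)) =
      fun θ => g (x + circleMap 0 1 θ • v - t) := by
    funext θ; congr 1; abel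
  rw [e3, e4, integral_const_mul, intervalIntegral.integral_of_le (by positivity),
    uIoc_of_le (by positivity)]
  ring

/-- sub-mean values of a convolution -/
theorem conv_le' (φ : ContDiffBump (0 : E)) {g : E → ℝ} (hg : Measurable g) {B : ℝ}
    (hB : ∀ t, |g t| ≤ B) {x v : E} {c : ℝ}
    (h : ∀ᵐ t ∂μ, t ∈ ball (0 : E) φ.rOut → g (x - t) + c ≤ dav g (x - t) v) :
    (φ.normed μ ⋆[ContinuousLinearMap.lsmul ℝ ℝ, μ] g) x + c ≤
      dav (φ.normed μ ⋆[ContinuousLinearMap.lsmul ℝ ℝ, μ] g) x v := by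
  rw [dav_conv' φ hg hB, conv_apply]
  have hm : ∀ c : ℝ, Integrable (fun t => φ.normed μ t * (g (x - t) + c)) μ := fun c =>
    integrable_mul_bump' φ ((hg.comp (measurable_const.sub measurable_id)).add
      measurable_const).aestronglyMeasurable (B := B + |c|)
      fun t => (abs_add_le _ _).trans (by linarith [hB (x - t)])
  have e : ∫ t, φ.normed μ t * g (x - t) ∂μ + c =
      ∫ t, φ.normed μ t * (g (x - t) + c) ∂μ := by
    have e1 : ∀ t, φ.normed μ t * (g (x - t) + c) = φ.normed μ t * g (x - t) + φ.normed μ t * c :=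
      fun t => by ring
    have h0 := hm 0
    simp only [add_zero] at h0
    simp only [e1]
    rw [integral_add h0 (φ.integrable_normed.mul_const c), integral_mul_const, φ.integral_normed,
      one_mul]
  rw [e]
  refine integral_mono_ae (hm c) (integrable_dav φ hg hB x v) ?_
  filter_upwards [h] with t ht
  by_cases htb : t ∈ ball (0 : E) φ.rOut
  · exact mul_le_mul_of_nonneg_left (ht htb) (φ.nonneg_normed t)
  · simp [normed_zero φ htb]

end conv

end Crest.Agent.R281.Bdd4_791
end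
end

-- ▼ part R281/Bdd5_791
section

/-!
# S6-BDD, part 5: the mollifications of a bounded function which is plurisubharmonic off a thin set

`PB μ D Ω f B` : the class; `mo μ f η` : convolution with the bump function of radii `η/2, η`;
`mo_smooth`, `mo_abs_le`, `mo_psh`, `mo_ge`, `mo_sub_le`, `mo_tendsto`.
-/

set_option autoImplicit false
set_option linter.unusedSectionVars false

open Set Filter Topology Metric Asymptotics Real MeasureTheory
open scoped ContDiff Convolution

noncomputable section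

namespace Crest.Agent.R281.Bdd5_791

open Crest.Agent.R269.SubM_79 Crest.Agent.R257.HoB_843 Crest.Agent.R257.Glue2_101
open Crest.Agent.R281.Rich_710 Bdd4_791

variable {E : Type*} [NormedAddCommGroup E] [NormedSpace ℂ E] [NormedSpace ℝ E]
  [IsScalarTower ℝ ℂ E] [FiniteDimensional ℝ E] [MeasurableSpace E] [BorelSpace E]

theorem lvE_sub2 {u v : E → ℝ} {z : E} (hu : ContDiffAt ℝ 2 u z) (hv : ContDiffAt ℝ 2 v z) (w : E) :
    lvE (fun y => u y - v y) z w = lvE u z w - lvE v z w := by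
  have e : fderiv ℝ (fun y => u y - v y) =ᶠ[𝓝 z] fun y => fderiv ℝ u y - fderiv ℝ v y := by
    have h1 : ∀ {u : E → ℝ}, ContDiffAt ℝ 2 u z → ∀ᶠ y in 𝓝 z, DifferentiableAt ℝ u y := by
      intro u hu
      have h2 : ContDiffAt ℝ 1 u z := hu.of_le (by norm_num)
      exact (h2.eventually (by simp)).mono fun y hy => hy.differentiableAt (by norm_num)
    filter_upwards [h1 hu, h1 hv] with y h1 h2
    exact fderiv_sub h1 h2
  have d1 : DifferentiableAt ℝ (fderiv ℝ u) z :=
    (hu.fderiv_right (m := 1) (by norm_num)).differentiableAt (by norm_num)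
  have d2 : DifferentiableAt ℝ (fderiv ℝ v) z :=
    (hv.fderiv_right (m := 1) (by norm_num)).differentiableAt (by norm_num)
  have e2 : fderiv ℝ (fun y => fderiv ℝ u y - fderiv ℝ v y) z =
      fderiv ℝ (fderiv ℝ u) z - fderiv ℝ (fderiv ℝ v) z := fderiv_sub d1 d2
  unfold lvE
  rw [e.fderiv_eq, e2]
  simp only [_root_.sub_apply]
  ring

/-- `f` is bounded Borel, `C²` with Levi form `≥ 0` on `Ω ⊆ D`, the complement of `Ω` in `D` being null
with countable trace on almost every complex line of every direction -/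
structure PB (μ : Measure E) (D Ω : Set E) (f : E → ℝ) (B : ℝ) : Prop where
  opD : IsOpen D
  opΩ : IsOpen Ω
  sub : Ω ⊆ D
  meas : Measurable f
  bd : ∀ z, |f z| ≤ B
  psh : ∀ z ∈ Ω, ContDiffAt ℝ 2 f z ∧ ∀ v, 0 ≤ lvE f z v
  null : μ (D \ Ω) = 0
  line : ∀ v : E, ∀ᵐ z ∂μ, {w : ℂ | z + w • v ∈ D \ Ω}.Countable

/-- the bump function with radii `η/2`, `η` -/
def bmp (η : ℝ) : ContDiffBump (0 : E) :=
  if h : 0 < η then ⟨η / 2, η, half_pos h, half_lt_self h⟩ else ⟨1, 2, one_pos, one_lt_two⟩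

theorem bmp_rOut {η : ℝ} (h : 0 < η) : (bmp η : ContDiffBump (0 : E)).rOut = η := by
  unfold bmp; rw [dif_pos h]

theorem bmp_rIn {η : ℝ} (h : 0 < η) : (bmp η : ContDiffBump (0 : E)).rIn = η / 2 := by
  unfold bmp; rw [dif_pos h]

/-- the mollification -/
def mo (μ : Measure E) (f : E → ℝ) (η : ℝ) : E → ℝ :=
  (bmp η).normed μ ⋆[ContinuousLinearMap.lsmul ℝ ℝ, μ] f

variable {μ : Measure E} [μ.IsAddHaarMeasure] {D Ω : Set E} {f : E → ℝ} {B : ℝ}

theorem mo_apply (f : E → ℝ) (η : ℝ) (x : E) :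
    mo μ f η x = ∫ t, (bmp η).normed μ t * f (x - t) ∂μ := rfl

theorem locInt (hm : Measurable f) (hB : ∀ z, |f z| ≤ B) : LocallyIntegrable f μ := by
  have hprop : ProperSpace E := FiniteDimensional.proper ℝ E
  have h1 : LocallyIntegrable (fun _ : E => B) μ := locallyIntegrable_const B
  refine h1.mono hm.aestronglyMeasurable (ae_of_all _ fun z => ?_)
  have hB0 : 0 ≤ B := (abs_nonneg _).trans (hB z)
  rw [Real.norm_eq_abs, Real.norm_eq_abs, abs_of_nonneg hB0]
  exact hB z

theorem mo_smooth (hm : Measurable f) (hB : ∀ z, |f z| ≤ B) (η : ℝ) :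
    ContDiff ℝ (⊤ : ℕ∞) (mo μ f η) := by
  have hprop : ProperSpace E := FiniteDimensional.proper ℝ E
  exact (bmp η).hasCompactSupport_normed.contDiff_convolution_left _ (bmp η).contDiff_normed
    (locInt hm hB)

theorem int_shift (hm : Measurable f) (hB : ∀ z, |f z| ≤ B) (φ : ContDiffBump (0 : E)) (x : E) :
    Integrable (fun t => φ.normed μ t * f (x - t)) μ :=
  integrable_mul_bump' φ (hm.comp (measurable_const.sub measurable_id)).aestronglyMeasurable
    fun t => hB (x - t)

/-- a convolution lies between bounds valid a.e. on the ball -/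
theorem mo_sub_le (hm : Measurable f) (hB : ∀ z, |f z| ≤ B) {η : ℝ} (hη : 0 < η) {x : E} {a b : ℝ}
    (h : ∀ᵐ t ∂μ, t ∈ ball (0 : E) η → |f (x - t) - a| ≤ b) : |mo μ f η x - a| ≤ b := by
  have hprop : ProperSpace E := FiniteDimensional.proper ℝ E
  set φ : ContDiffBump (0 : E) := bmp η with hφ
  have hφr : φ.rOut = η := bmp_rOut hη
  have e : mo μ f η x - a = ∫ t, φ.normed μ t * (f (x - t) - a) ∂μ := by
    have e1 : ∀ t, φ.normed μ t * (f (x - t) - a) = φ.normed μ t * f (x - t) - φ.normed μ t * a :=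
      fun t => by ring
    simp only [e1]
    rw [integral_sub (int_shift hm hB φ x) (φ.integrable_normed.mul_const a), integral_mul_const,
      φ.integral_normed, one_mul]
    rfl
  rw [e]
  have h2 : ‖∫ t, φ.normed μ t * (f (x - t) - a) ∂μ‖ ≤ ∫ t, φ.normed μ t * b ∂μ := by
    refine norm_integral_le_of_norm_le (φ.integrable_normed.mul_const b) ?_
    filter_upwards [h] with t ht
    by_cases htb : t ∈ ball (0 : E) φ.rOut
    · rw [norm_mul, Real.norm_eq_abs, Real.norm_eq_abs, abs_of_nonneg (φ.nonneg_normed t)]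
      exact mul_le_mul_of_nonneg_left (ht (hφr ▸ htb)) (φ.nonneg_normed t)
    · simp [normed_zero φ htb]
  rw [integral_mul_const, φ.integral_normed, one_mul] at h2
  exact h2

theorem mo_abs_le (hm : Measurable f) (hB : ∀ z, |f z| ≤ B) {η : ℝ} (hη : 0 < η) (x : E) :
    |mo μ f η x| ≤ B := by
  have := mo_sub_le (μ := μ) hm hB hη (x := x) (a := 0) (b := B)
    (ae_of_all _ fun t _ => by simpa using hB (x - t))
  simpa using this

/-- pull back of an a.e. statement by `t ↦ x - t` -/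
theorem ae_sub {P : E → Prop} (h : ∀ᵐ z ∂μ, P z) (x : E) : ∀ᵐ t ∂μ, P (x - t) := by
  have hprop : ProperSpace E := FiniteDimensional.proper ℝ E
  exact (quasiMeasurePreserving_sub_left μ x).ae h

/-- a.e. sub-mean value inequality for `f` and for `f - ρ` -/
theorem ae_le_dav (h : PB μ D Ω f B) {U : Set E} (hU : IsOpen U) (hUD : U ⊆ D) {ρ : E → ℝ}
    (hρ : ∀ z ∈ U, ContDiffAt ℝ 2 ρ z) (hρf : ∀ z ∈ U ∩ Ω, ∀ v, lvE ρ z v ≤ lvE f z v) {x v : E}
    {η : ℝ} (hd : ∀ t ∈ ball (0 : E) η, ∀ w : ℂ, ‖w‖ ≤ 1 → x - t + w • v ∈ U) :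
    ∀ᵐ t ∂μ, t ∈ ball (0 : E) η → f (x - t) - ρ (x - t) ≤ dav f (x - t) v - dav ρ (x - t) v := by
  have h1 : ∀ᵐ z ∂μ, z ∉ D \ Ω := measure_eq_zero_iff_ae_notMem.mp h.null
  filter_upwards [ae_sub h1 x, ae_sub (h.line v) x] with t ht1 ht2 ht
  have hx : x - t ∈ U := by simpa using hd t ht 0 (by simp)
  have hxΩ : x - t ∈ Ω := by
    by_contra hc
    exact ht1 ⟨hUD hx, hc⟩
  have hlc : Continuous fun w : ℂ => x - t + w • v := by fun_prop
  have hρc : ContinuousOn (fun w : ℂ => ρ (x - t + w • v)) (closedBall 0 1) := by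
    intro w hw
    exact (ContinuousAt.comp (g := ρ) (f := fun w : ℂ => x - t + w • v)
      (hρ _ (hd t ht w (by simpa using hw))).continuousAt hlc.continuousAt).continuousWithinAt
  have hciρ : CircleIntegrable (fun w : ℂ => ρ (x - t + w • v)) 0 1 :=
    (hρc.mono sphere_subset_closedBall).circleIntegrable zero_le_one
  have hcif : CircleIntegrable (fun w : ℂ => f (x - t + w • v)) 0 1 :=
    circInt (h.meas.comp hlc.measurable) (B := B) fun w _ => h.bd _
  obtain ⟨C, hC⟩ := (isCompact_closedBall (0 : ℂ) 1).exists_bound_of_continuousOn hρc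
  have key := le_dav_bdd (g := fun z => f z - ρ z) (B := B + C) (x := x - t) (v := v)
    (h.opΩ.inter hU) (hcif.sub hciρ) (fun w hw hwΩ => ?_) (fun w hw => ?_) ⟨hxΩ, hx⟩ ?_
  · have e : dav (fun z => f z - ρ z) (x - t) v = dav f (x - t) v - dav ρ (x - t) v :=
      circleAverage_fun_sub hcif hciρ
    rw [e] at key
    exact key
  · have h2 := (h.psh _ hwΩ.1)
    have h3 := hρ _ hwΩ.2
    refine ⟨h2.1.sub h3, ?_⟩
    have h4 := hρf _ ⟨hwΩ.2, hwΩ.1⟩ v
    have h5 : lvE (fun z => f z - ρ z) (x - t + w • v) v =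
        lvE f (x - t + w • v) v - lvE ρ (x - t + w • v) v := lvE_sub2 h2.1 h3 v
    rw [h5]; linarith
  · have h2 := hC w (by simpa using hw)
    rw [Real.norm_eq_abs] at h2
    calc |f (x - t + w • v) - ρ (x - t + w • v)| ≤ |f (x - t + w • v)| + |ρ (x - t + w • v)| :=
          abs_sub _ _
      _ ≤ B + C := add_le_add (h.bd _) h2
  · refine ht2.mono ?_
    rintro w ⟨hw, hw2⟩
    have hwU := hd t ht w hw
    exact ⟨hUD hwU, fun hc => hw2 ⟨hc, hwU⟩⟩

/-- discs near a compact set -/
theorem exists_radius {K U : Set E} (hK : IsCompact K) (hU : IsOpen U) (hKU : K ⊆ U) :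
    ∃ r > 0, ∀ x ∈ K, ball x r ⊆ U := by
  obtain ⟨r, hr, h⟩ := hK.exists_cthickening_subset_open hU hKU
  exact ⟨r, hr, fun x hx y hy => h (mem_cthickening_of_dist_le y x _ _ hx (le_of_lt hy))⟩

theorem disc_mem {x t v : E} {η : ℝ} (ht : t ∈ ball (0 : E) η) (hv : ‖v‖ < η) {w : ℂ}
    (hw : ‖w‖ ≤ 1) : x - t + w • v ∈ ball x (2 * η) := by
  refine disc_subset ?_ hv hw
  rw [mem_ball, dist_eq_norm]
  rw [mem_ball, dist_eq_norm, sub_zero] at ht
  have : x - t - x = -t := by abel
  rw [this, norm_neg]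
  exact ht

/-- **(iii)** lower bound `lvE ρ - τ` for the Levi form of the mollification, near compact subsets of
the open set `U` where `lvE ρ ≤ lvE f` -/
theorem mo_ge (h : PB μ D Ω f B) {U : Set E} (hU : IsOpen U) (hUD : U ⊆ D) {ρ : E → ℝ}
    (hρ : ∀ z ∈ U, ContDiffAt ℝ 2 ρ z) (hρf : ∀ z ∈ U ∩ Ω, ∀ v, lvE ρ z v ≤ lvE f z v)
    {C : Set E} (hC : IsCompact C) (hCU : C ⊆ U) {τ : ℝ} (hτ : 0 < τ) :
    ∃ η₀ > 0, ∀ η, 0 < η → η < η₀ → ∀ x ∈ C, ∀ v, lvE ρ x v - τ * ‖v‖ ^ 2 ≤
      lvE (mo μ f η) x v := by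
  obtain ⟨r₄, hr₄, h4⟩ := unif_near (F := E →L[ℝ] E →L[ℝ] ℝ) (f := fderiv ℝ (fderiv ℝ ρ)) hC
    (fun a ha => (((hρ a (hCU ha)).fderiv_right (m := 1) (by norm_num)).fderiv_right
      (m := 0) (by norm_num)).continuousAt) hτ
  obtain ⟨r₅, hr₅, h5⟩ := exists_radius hC hU hCU
  refine ⟨min (r₄ / 2) (r₅ / 2), by positivity, fun η hη0 hη x hx v => ?_⟩
  have e4 : 2 * η < r₄ := by have := hη.trans_le (min_le_left _ _); linarith
  have e5 : 2 * η < r₅ := by have := hη.trans_le (min_le_right _ _); linarith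
  have hF2 : ContDiffAt ℝ 2 (mo μ f η) x :=
    ((mo_smooth h.meas h.bd η).contDiffAt).of_le two_le_top
  have hrO : (bmp η : ContDiffBump (0 : E)).rOut = η := bmp_rOut hη0
  have hsm : ∃ r > 0, ∀ s : ℝ, 0 < s → s < r → ‖s • v‖ < η := by
    refine ⟨η / (‖v‖ + 1), by positivity, fun s hs hsr => ?_⟩
    rw [norm_smul, Real.norm_of_nonneg hs.le]
    rw [lt_div_iff₀ (by positivity)] at hsr
    nlinarith [norm_nonneg v]
  obtain ⟨r, hr, hrs⟩ := hsm
  refine lvE_ge_of_le hF2 ⟨r, hr, fun s hs hsr => ?_⟩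
  have hsv := hrs s hs hsr
  refine conv_le' (bmp η) h.meas h.bd ?_
  have h7 := ae_le_dav (x := x) (v := s • v) (η := η) h hU hUD hρ hρf fun t ht w hw =>
    h5 x hx (ball_subset_ball e5.le (disc_mem ht hsv hw))
  filter_upwards [h7] with t ht8 ht
  rw [hrO] at ht
  have a3 := ht8 ht
  have a4 : ρ (x - t) + s ^ 2 * (lvE ρ x v - τ * ‖v‖ ^ 2) ≤ dav ρ (x - t) (s • v) := by
    refine le_dav_of_lvE fun w hw => ?_
    have b1 := disc_mem (x := x) ht hsv hw
    refine ⟨hρ _ (h5 x hx (ball_subset_ball e5.le b1)), ?_⟩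
    rw [lvE_smul]
    have b2 := h4 x hx _ (ball_subset_ball e4.le b1)
    rw [dist_eq_norm] at b2
    exact mul_le_mul_of_nonneg_left (lvE_near b2 v) (sq_nonneg s)
  linarith

/-- **(ii)** the mollifications are plurisubharmonic near compact subsets of `D` -/
theorem mo_psh (h : PB μ D Ω f B) {K : Set E} (hK : IsCompact K) (hKD : K ⊆ D) :
    ∃ η₀ > 0, ∀ η, 0 < η → η < η₀ → ∀ x ∈ K, ∀ v, 0 ≤ lvE (mo μ f η) x v := by
  obtain ⟨r₅, hr₅, h5⟩ := exists_radius hK h.opD hKD
  refine ⟨r₅ / 2, by positivity, fun η hη0 hη x hx v => ?_⟩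
  have e5 : 2 * η < r₅ := by linarith
  have hF2 : ContDiffAt ℝ 2 (mo μ f η) x :=
    ((mo_smooth h.meas h.bd η).contDiffAt).of_le two_le_top
  have hrO : (bmp η : ContDiffBump (0 : E)).rOut = η := bmp_rOut hη0
  refine lvE_ge_of_le hF2 ⟨η / (‖v‖ + 1), by positivity, fun s hs hsr => ?_⟩
  have hsv : ‖s • v‖ < η := by
    rw [norm_smul, Real.norm_of_nonneg hs.le]
    rw [lt_div_iff₀ (by positivity)] at hsr
    nlinarith [norm_nonneg v]
  refine conv_le' (bmp η) h.meas h.bd ?_
  have hl0 : ∀ z v : E, lvE (fun _ : E => (0 : ℝ)) z v = 0 := fun z v => by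
    unfold lvE
    have h : fderiv ℝ (fun _ : E => (0 : ℝ)) = fun _ => 0 := by
      funext x; exact fderiv_const_apply 0
    rw [h]; simp
  have h7 := ae_le_dav (x := x) (v := s • v) (η := η) (ρ := fun _ => 0) h h.opD le_rfl
    (fun z _ => contDiffAt_const) (fun z hz v => by rw [hl0]; exact (h.psh z hz.2).2 v)
    fun t ht w hw => h5 x hx (ball_subset_ball e5.le (disc_mem ht hsv hw))
  filter_upwards [h7] with t ht8 ht
  rw [hrO] at ht
  have a3 := ht8 ht
  have e : dav (fun _ : E => (0 : ℝ)) (x - t) (s • v) = 0 := circleAverage_const 0 0 1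
  rw [e] at a3
  linarith

/-- **(iv)**: closeness to a continuous function up to the bound of the difference -/
theorem mo_near (hm : Measurable f) (hB : ∀ z, |f z| ≤ B) {D : Set E} (hD : IsOpen D)
    {Ω : Set E} (hnull : μ (D \ Ω) = 0) {wt : E → ℝ} (hwt : ContinuousOn wt D) {b : ℝ}
    (hb : ∀ z ∈ Ω, z ∈ D → |f z - wt z| ≤ b)
    {K : Set E} (hK : IsCompact K) (hKD : K ⊆ D) {τ : ℝ} (hτ : 0 < τ) :
    ∃ η₀ > 0, ∀ η, 0 < η → η < η₀ → ∀ x ∈ K, |mo μ f η x - wt x| ≤ b + τ := by
  obtain ⟨r₁, hr₁, h1⟩ := exists_radius hK hD hKD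
  obtain ⟨r₂, hr₂, h2⟩ := unif_near hK (f := wt)
    (fun a ha => hwt.continuousAt (hD.mem_nhds (hKD ha))) hτ
  refine ⟨min r₁ r₂, by positivity, fun η hη0 hη x hx => ?_⟩
  refine mo_sub_le hm hB hη0 ?_
  have h3 : ∀ᵐ z ∂μ, z ∉ D \ Ω := measure_eq_zero_iff_ae_notMem.mp hnull
  filter_upwards [ae_sub h3 x] with t ht3 ht
  have hxt : x - t ∈ ball x η := by
    rw [mem_ball, dist_eq_norm]
    rw [mem_ball, dist_eq_norm, sub_zero] at ht
    have : x - t - x = -t := by abel
    rw [this, norm_neg]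
    exact ht
  have hD' : x - t ∈ D := h1 x hx (ball_subset_ball (hη.le.trans (min_le_left _ _)) hxt)
  have hΩ' : x - t ∈ Ω := by
    by_contra hc
    exact ht3 ⟨hD', hc⟩
  have h4 := h2 x hx _ (ball_subset_ball (hη.le.trans (min_le_right _ _)) hxt)
  rw [Real.dist_eq] at h4
  have h5 := hb _ hΩ' hD'
  have e : f (x - t) - wt x = (f (x - t) - wt (x - t)) + (wt (x - t) - wt x) := by ring
  rw [e]
  exact (abs_add_le _ _).trans (add_le_add h5 h4)

/-- convergence at points of continuity -/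
theorem mo_tendsto (hm : Measurable f) (hB : ∀ z, |f z| ≤ B) {z : E} (hz : ContinuousAt f z)
    {e : ℕ → ℝ} (he0 : ∀ k, 0 < e k) (he : Tendsto e atTop (𝓝 0)) :
    Tendsto (fun k => mo μ f (e k) z) atTop (𝓝 (f z)) := by
  rw [Metric.tendsto_nhds]
  intro ε hε
  obtain ⟨r, hr, h⟩ := Metric.continuousAt_iff.1 hz (ε / 2) (half_pos hε)
  filter_upwards [he.eventually (gt_mem_nhds hr)] with k hk
  have h2 := mo_sub_le (μ := μ) hm hB (he0 k) (x := z) (a := f z) (b := ε / 2)
    (ae_of_all _ fun t ht => by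
      have h3 : dist (z - t) z < r := by
        rw [dist_eq_norm]
        rw [mem_ball, dist_eq_norm, sub_zero] at ht
        have : z - t - z = -t := by abel
        rw [this, norm_neg]
        exact ht.trans hk
      have := h h3
      rw [Real.dist_eq] at this
      exact this.le)
  rw [Real.dist_eq]
  linarith

end Crest.Agent.R281.Bdd5_791
end
end

-- ▼ part R281/Bdd6_791
section

/-!
# S6-BDD, part 6: mollifications in two charts are uniformly close
-/

set_option autoImplicit false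
set_option linter.unusedSectionVars false

open Set Filter Topology Metric Asymptotics Real MeasureTheory
open scoped ContDiff Convolution

noncomputable section

namespace Crest.Agent.R281.Bdd6_791

open Crest.Agent.R269.SubM_79 Crest.Agent.R257.HoB_843 Crest.Agent.R257.Glue2_101
open Crest.Agent.R281.Rich_710 Bdd4_791 Bdd5_791 Bdd3_791 Bdd2_791

variable {E : Type*} [NormedAddCommGroup E] [NormedSpace ℂ E] [NormedSpace ℝ E]
  [IsScalarTower ℝ ℂ E] [FiniteDimensional ℝ E] [MeasurableSpace E] [BorelSpace E]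
  {μ : Measure E} [μ.IsAddHaarMeasure]

/-- the convolution kernel centred at `x` is a density -/
theorem dens_self {η L M : ℝ} (hη : 0 < η) (hL : 1 ≤ L) (hM : 1 ≤ M) (x : E) :
    Dens μ x (L * η) (M * (2 * L) ^ Module.finrank ℝ E)
      (fun z => (bmp η : ContDiffBump (0 : E)).normed μ (x - z)) := by
  have hprop : ProperSpace E := FiniteDimensional.proper ℝ E
  set φ : ContDiffBump (0 : E) := bmp η with hφ
  have hLη : 0 < L * η := by positivity
  have hbd : ∀ t, φ.normed μ t ≤ 1 / μ.real (closedBall (0 : E) (η / 2)) := by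
    intro t
    have := φ.normed_le_div_measure_closedBall_rIn μ t
    rwa [hφ, bmp_rIn hη] at this
  have hr := ball_ratio μ x (0 : E) (half_pos hη) hLη
  have h0 := ball_pos μ (0 : E) (half_pos hη)
  have h1 := ball_pos μ x hLη
  have e : L * η / (η / 2) = 2 * L := by field_simp
  rw [e] at hr
  refine ⟨?_, fun z => φ.nonneg_normed _, fun z => ?_, fun z hz => ?_, ?_⟩
  · exact (φ.continuous_normed.comp (continuous_const.sub continuous_id)).aestronglyMeasurable
  · refine (hbd _).trans ?_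
    rw [div_le_div_iff₀ h0 h1, one_mul, ← hr]
    have : μ.real (closedBall x (L * η)) = 1 * (μ.real (closedBall x (L * η)) /
      μ.real (closedBall (0 : E) (η / 2)) * μ.real (closedBall (0 : E) (η / 2))) := by
      field_simp
    calc μ.real (closedBall x (L * η)) = 1 * (μ.real (closedBall x (L * η)) /
          μ.real (closedBall (0 : E) (η / 2)) * μ.real (closedBall (0 : E) (η / 2))) := this
      _ ≤ M * (μ.real (closedBall x (L * η)) /
          μ.real (closedBall (0 : E) (η / 2)) * μ.real (closedBall (0 : E) (η / 2))) := by gcongr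
      _ = _ := by ring
  · refine normed_zero φ fun hc => hz ?_
    rw [hφ, bmp_rOut hη, mem_ball, dist_zero_right] at hc
    rw [mem_closedBall, dist_comm, dist_eq_norm]
    nlinarith
  · rw [integral_sub_left_eq_self (fun t => φ.normed μ t) μ x, φ.integral_normed]

theorem mo_eq (f : E → ℝ) (η : ℝ) (x : E) :
    mo μ f η x = ∫ z, (bmp η : ContDiffBump (0 : E)).normed μ (x - z) * f z ∂μ := by
  rw [mo_apply, ← integral_sub_left_eq_self (fun t => (bmp η : ContDiffBump (0 : E)).normed μ t *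
    f (x - t)) μ x]
  simp

/-- the density in the other chart -/
def cd (μ : Measure E) (T : OpenPartialHomeomorph E E) (η : ℝ) (x : E) : E → ℝ :=
  (T.source ∩ T ⁻¹' ball (T x) η).indicator fun z =>
    |(fderiv ℝ T z).det| * (bmp η : ContDiffBump (0 : E)).normed μ (T x - T z)

/-- change of variables -/
theorem mo_change {T : OpenPartialHomeomorph E E} (hT : ContDiffOn ℝ 1 T T.source) {η : ℝ}
    (hη : 0 < η) {x : E} (hb : ball (T x) η ⊆ T.target) (f : E → ℝ) :
    mo μ f η (T x) = ∫ z, cd μ T η x z * f (T z) ∂μ := by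
  have hprop : ProperSpace E := FiniteDimensional.proper ℝ E
  set φ : ContDiffBump (0 : E) := bmp η with hφ
  set s : Set E := T.source ∩ T ⁻¹' ball (T x) η with hs
  have hso : IsOpen s := T.isOpen_inter_preimage isOpen_ball
  have him : T '' s = ball (T x) η := by
    rw [hs]
    ext y
    constructor
    · rintro ⟨z, hz, rfl⟩; exact hz.2
    · intro hy
      have hy' := hb hy
      exact ⟨T.symm y, ⟨T.map_target hy', by rw [mem_preimage, T.right_inv hy']; exact hy⟩,
        T.right_inv hy'⟩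
  have hd : ∀ z ∈ s, HasFDerivWithinAt T (fderiv ℝ T z) s z := fun z hz =>
    (((hT.contDiffAt (T.open_source.mem_nhds hz.1)).differentiableAt
      (by norm_num)).hasFDerivAt).hasFDerivWithinAt
  have hinj : InjOn T s := T.injOn.mono inter_subset_left
  have h1 := integral_image_eq_integral_abs_det_fderiv_smul μ hso.measurableSet hd hinj
    (fun y => φ.normed μ (T x - y) * f y)
  rw [him] at h1
  have h2 : mo μ f η (T x) = ∫ y in ball (T x) η, φ.normed μ (T x - y) * f y ∂μ := by
    rw [mo_eq, ← integral_indicator measurableSet_ball]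
    congr 1
    ext y
    by_cases hy : y ∈ ball (T x) η
    · rw [indicator_of_mem hy]
    · rw [indicator_of_notMem hy, normed_zero, zero_mul]
      intro hc
      rw [bmp_rOut hη, mem_ball, dist_zero_right] at hc
      refine hy ?_
      rw [mem_ball, dist_comm, dist_eq_norm]; exact hc
  rw [h2, h1, ← integral_indicator hso.measurableSet]
  congr 1
  ext z
  unfold cd
  by_cases hz : z ∈ s
  · rw [indicator_of_mem hz, indicator_of_mem (hs ▸ hz)]
    simp only [smul_eq_mul]
    ring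
  · rw [indicator_of_notMem hz, indicator_of_notMem (hs ▸ hz), zero_mul]

theorem cd_meas {T : OpenPartialHomeomorph E E} (hT : ContDiffOn ℝ 1 T T.source) {η : ℝ}
    {x : E} {f' : E → ℝ} (hm' : Measurable f') :
    AEStronglyMeasurable (fun z => cd μ T η x z * f' (T z)) μ := by
  have hprop : ProperSpace E := FiniteDimensional.proper ℝ E
  set s : Set E := T.source ∩ T ⁻¹' ball (T x) η with hs
  have hso : IsOpen s := T.isOpen_inter_preimage isOpen_ball
  have hdetc : ContinuousOn (fun z => |(fderiv ℝ T z).det|) T.source :=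
    ((ContinuousLinearMap.continuous_det.comp_continuousOn
      (hT.continuousOn_fderiv_of_isOpen T.open_source le_rfl))).abs
  have e : (fun z => cd μ T η x z * f' (T z)) = s.indicator fun z =>
      |(fderiv ℝ T z).det| * (bmp η : ContDiffBump (0 : E)).normed μ (T x - T z) * f' (T z) := by
    ext z
    unfold cd
    by_cases hz : z ∈ s
    · rw [indicator_of_mem hz, indicator_of_mem (hs ▸ hz)]
    · rw [indicator_of_notMem hz, indicator_of_notMem (hs ▸ hz), zero_mul]
  rw [e]
  refine (aestronglyMeasurable_indicator_iff hso.measurableSet).2 ?_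
  refine AEStronglyMeasurable.mul ?_ ?_
  · refine ContinuousOn.aestronglyMeasurable ?_ hso.measurableSet
    exact (hdetc.mono inter_subset_left).mul
      ((bmp η : ContDiffBump (0 : E)).continuous_normed.comp_continuousOn
      (continuousOn_const.sub (T.continuousOn.mono inter_subset_left)))
  · exact (hm'.comp_aemeasurable ((T.continuousOn.mono inter_subset_left).aemeasurable
      hso.measurableSet)).aestronglyMeasurable

/-- uniform Lipschitz bound for the inverse -/
theorem exists_lip {T : OpenPartialHomeomorph E E} (hT' : ContDiffOn ℝ 1 T.symm T.target)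
    {K : Set E} (hK : IsCompact K) (hKs : K ⊆ T.source) : ∃ L ≥ (1 : ℝ), ∃ r > 0, ∀ x ∈ K,
      ball (T x) r ⊆ T.target ∧ ∀ y ∈ ball (T x) r, dist (T.symm y) x ≤ L * dist y (T x) := by
  have hprop : ProperSpace E := FiniteDimensional.proper ℝ E
  have hK' : IsCompact (T '' K) := hK.image_of_continuousOn (T.continuousOn.mono hKs)
  have hK't : T '' K ⊆ T.target := by
    rintro y ⟨x, hx, rfl⟩; exact T.map_source (hKs hx)
  obtain ⟨r, hr, h⟩ := hK'.exists_cthickening_subset_open T.open_target hK't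
  have hc : IsCompact (cthickening r (T '' K)) := hK'.cthickening
  have hcont : ContinuousOn (fderiv ℝ T.symm) (cthickening r (T '' K)) :=
    (hT'.continuousOn_fderiv_of_isOpen T.open_target le_rfl).mono h
  obtain ⟨L, hL⟩ := hc.exists_bound_of_continuousOn hcont
  refine ⟨max 1 L, le_max_left _ _, r, hr, fun x hx => ?_⟩
  have hb : ball (T x) r ⊆ cthickening r (T '' K) := fun y hy =>
    mem_cthickening_of_dist_le y (T x) _ _ (mem_image_of_mem _ hx) (le_of_lt hy)
  refine ⟨hb.trans h, fun y hy => ?_⟩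
  have h1 := (convex_ball (T x) r).norm_image_sub_le_of_norm_hasFDerivWithin_le
    (f := T.symm) (f' := fun z => fderiv ℝ T.symm z) (C := max 1 L)
    (fun z hz => (((hT'.contDiffAt (T.open_target.mem_nhds (h (hb hz)))).differentiableAt
      (by norm_num)).hasFDerivAt).hasFDerivWithinAt)
    (fun z hz => (hL z (hb hz)).trans (le_max_right _ _)) (mem_ball_self hr) hy
  rw [T.left_inv (hKs hx)] at h1
  rw [dist_eq_norm, dist_eq_norm]
  exact h1

/-- the density in the other chart is a density -/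
theorem exists_dens {T : OpenPartialHomeomorph E E} (hT : ContDiffOn ℝ 1 T T.source)
    (hT' : ContDiffOn ℝ 1 T.symm T.target) {K : Set E} (hK : IsCompact K) (hKs : K ⊆ T.source) :
    ∃ L ≥ (1 : ℝ), ∃ A ≥ (0 : ℝ), ∃ r > 0, ∀ x ∈ K, ball (T x) r ⊆ T.target ∧ ∀ η, 0 < η → η < r →
      Dens μ x (L * η) A (cd μ T η x) ∧
      Dens μ x (L * η) A (fun z => (bmp η : ContDiffBump (0 : E)).normed μ (x - z)) := by
  have hprop : ProperSpace E := FiniteDimensional.proper ℝ E
  obtain ⟨L, hL1, r, hr, hlip⟩ := exists_lip hT' hK hKs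
  obtain ⟨r₂, hr₂, h2⟩ := hK.exists_cthickening_subset_open T.open_source hKs
  have hdetc : ContinuousOn (fun z => |(fderiv ℝ T z).det|) T.source :=
    ((ContinuousLinearMap.continuous_det.comp_continuousOn
      (hT.continuousOn_fderiv_of_isOpen T.open_source le_rfl))).abs
  obtain ⟨M₀, hM₀⟩ := (hK.cthickening (r := r₂)).exists_bound_of_continuousOn (hdetc.mono h2)
  set M : ℝ := max 1 M₀ with hM
  have hM1 : 1 ≤ M := le_max_left _ _
  refine ⟨L, hL1, M * (2 * L) ^ Module.finrank ℝ E, by positivity, min r (r₂ / L), by positivity,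
    fun x hx => ⟨(ball_subset_ball (min_le_left _ _)).trans (hlip x hx).1, fun η hη0 hη => ?_⟩⟩
  refine ⟨?_, dens_self hη0 hL1 hM1 x⟩
  have hηr : η < r := hη.trans_le (min_le_left _ _)
  have hηr2 : L * η < r₂ := by
    have := hη.trans_le (min_le_right _ _)
    rw [lt_div_iff₀ (by linarith)] at this
    linarith
  set φ : ContDiffBump (0 : E) := bmp η with hφ
  set s : Set E := T.source ∩ T ⁻¹' ball (T x) η with hs
  have hso : IsOpen s := T.isOpen_inter_preimage isOpen_ball
  have hLη : 0 < L * η := by positivity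
  have hsb : ∀ z ∈ s, dist z x ≤ L * η := by
    intro z hz
    have h3 := (hlip x hx).2 (T z) (ball_subset_ball hηr.le hz.2)
    rw [T.left_inv hz.1] at h3
    refine h3.trans ?_
    have : dist (T z) (T x) < η := hz.2
    gcongr
  have hbd : ∀ t, φ.normed μ t ≤ 1 / μ.real (closedBall (0 : E) (η / 2)) := by
    intro t
    have := φ.normed_le_div_measure_closedBall_rIn μ t
    rwa [hφ, bmp_rIn hη0] at this
  have hrt := ball_ratio μ x (0 : E) (half_pos hη0) hLη
  have h0 := ball_pos μ (0 : E) (half_pos hη0)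
  have h1 := ball_pos μ x hLη
  have e : L * η / (η / 2) = 2 * L := by field_simp
  rw [e] at hrt
  have hA : M * (1 / μ.real (closedBall (0 : E) (η / 2))) =
      M * (2 * L) ^ Module.finrank ℝ E / μ.real (closedBall x (L * η)) := by
    have e0 := h0.ne'
    have e1 := h1.ne'
    rw [← hrt]
    generalize μ.real (closedBall x (L * η)) = a at e1 ⊢
    generalize μ.real (closedBall (0 : E) (η / 2)) = b at e0 ⊢
    rw [mul_one_div, mul_div_assoc', div_div, div_eq_div_iff e0 (mul_ne_zero e0 e1)]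
    ring
  refine ⟨?_, fun z => ?_, fun z => ?_, fun z hz => ?_, ?_⟩
  · refine (aestronglyMeasurable_indicator_iff hso.measurableSet).2 ?_
    refine ContinuousOn.aestronglyMeasurable ?_ hso.measurableSet
    exact (hdetc.mono inter_subset_left).mul (φ.continuous_normed.comp_continuousOn
      (continuousOn_const.sub (T.continuousOn.mono inter_subset_left)))
  · refine indicator_nonneg (fun z _ => mul_nonneg (abs_nonneg _) (φ.nonneg_normed _)) z
  · rw [← hA]
    by_cases hz : z ∈ s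
    · rw [cd, indicator_of_mem (hs ▸ hz)]
      have h3 : |(fderiv ℝ T z).det| ≤ M := by
        have h4 := hM₀ z (mem_cthickening_of_dist_le z x _ _ hx ((hsb z hz).trans hηr2.le))
        rw [Real.norm_eq_abs, abs_abs] at h4
        exact h4.trans (le_max_right _ _)
      exact mul_le_mul h3 (hbd _) (φ.nonneg_normed _) (by linarith)
    · rw [cd, indicator_of_notMem (hs ▸ hz)]
      positivity
  · rw [cd, indicator_of_notMem]
    intro hc
    exact hz (hsb z hc)
  · have h5 := mo_change (μ := μ) hT hη0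
      ((ball_subset_ball hηr.le).trans (hlip x hx).1) (fun _ => (1 : ℝ))
    simp only [mul_one] at h5
    rw [← h5, mo_apply]
    simp only [mul_one]
    exact φ.integral_normed

/-- **(v)** mollifications in two charts are uniformly close on compact sets -/
theorem mo_cmp {D Ω : Set E} {f : E → ℝ} {B : ℝ} (h : PB μ D Ω f B) {f' : E → ℝ} {B' : ℝ}
    (hm' : Measurable f') (hB' : ∀ z, |f' z| ≤ B') {T : OpenPartialHomeomorph E E}
    (hT : ContDiffOn ℝ 1 T T.source) (hT' : ContDiffOn ℝ 1 T.symm T.target)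
    (hTD : T.source ⊆ D) {θ : E → ℝ} (hθ : ContinuousOn θ T.source)
    (hff : ∀ z ∈ T.source ∩ Ω, f' (T z) = f z + θ z)
    {K : Set E} (hK : IsCompact K) (hKs : K ⊆ T.source) {τ : ℝ} (hτ : 0 < τ) :
    ∃ η₀ > 0, ∀ η, 0 < η → η < η₀ → ∀ x ∈ K, |mo μ f' η (T x) - mo μ f η x - θ x| ≤ τ := by
  have hprop : ProperSpace E := FiniteDimensional.proper ℝ E
  obtain ⟨L, hL, A, hA, r, hr, hd⟩ := exists_dens (μ := μ) hT hT' hK hKs
  obtain ⟨R, hR, hRK⟩ := hK.exists_cthickening_subset_open h.opD (hKs.trans hTD)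
  have hK2 : IsCompact (cthickening R K) := hK.cthickening
  obtain ⟨η₂, hη₂, hpsh⟩ := mo_psh h hK2 hRK
  have hB0 : 0 ≤ B := (abs_nonneg _).trans (h.bd 0)
  obtain ⟨r₀, hr₀, hbdd⟩ := bdd (μ := μ) (E := E) hB0 hA hR (half_pos hτ)
  obtain ⟨r₂, hr₂, hun⟩ := unif_near hK (f := θ)
    (fun a ha => hθ.continuousAt (T.open_source.mem_nhds (hKs ha))) (half_pos hτ)
  obtain ⟨r₃, hr₃, hsrc⟩ := exists_radius hK T.open_source hKs
  set e : ℕ → ℝ := fun k => η₂ / (k + 2) with he
  have he0 : ∀ k, 0 < e k := fun k => by simp only [he]; positivity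
  have he1 : ∀ k, e k < η₂ := fun k => by
    simp only [he]
    rw [div_lt_iff₀ (by positivity)]
    nlinarith [Nat.cast_nonneg (α := ℝ) k]
  have hel : Tendsto e atTop (𝓝 0) := by
    have h1 : Tendsto (fun k : ℕ => (k : ℝ) + 2) atTop atTop :=
      tendsto_atTop_add_const_right _ _ tendsto_natCast_atTop_atTop
    exact h1.const_div_atTop η₂
  have hnull : ∀ᵐ z ∂μ, z ∉ D \ Ω := measure_eq_zero_iff_ae_notMem.mp h.null
  refine ⟨min r (min (r₀ / L) (min (r₂ / L) (r₃ / L))), by positivity, fun η hη0 hη x hx => ?_⟩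
  obtain ⟨hηr, hη'⟩ := lt_min_iff.1 hη
  obtain ⟨hηr0, hη'⟩ := lt_min_iff.1 hη'
  obtain ⟨hηr2, hηr3⟩ := lt_min_iff.1 hη'
  have hLpos : 0 < L := by linarith
  have hr0' : L * η < r₀ := by rw [lt_div_iff₀ hLpos] at hηr0; linarith
  have hr2' : L * η < r₂ := by rw [lt_div_iff₀ hLpos] at hηr2; linarith
  have hr3' : L * η < r₃ := by rw [lt_div_iff₀ hLpos] at hηr3; linarith
  have hLη : 0 < L * η := by positivity
  have hd1 := (hd x hx).2 η hη0 hηr
  have hbt := (ball_subset_ball hηr.le).trans (hd x hx).1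
  have hxR : ball x R ⊆ cthickening R K := fun y hy =>
    mem_cthickening_of_dist_le y x _ _ hx (le_of_lt hy)
  have key := hbdd x f (fun k => mo μ f (e k))
    (fun k => ((mo_smooth h.meas h.bd _).of_le two_le_top).contDiffOn)
    (fun k z hz w => hpsh (e k) (he0 k) (he1 k) z (hxR hz) w)
    (fun k z _ => mo_abs_le h.meas h.bd (he0 k) z)
    (by
      filter_upwards [hnull] with z hz hzx
      have hzΩ : z ∈ Ω := by
        by_contra hc
        exact hz ⟨hRK (hxR hzx), hc⟩
      exact mo_tendsto h.meas h.bd (h.psh z hzΩ).1.continuousAt he0 hel)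
    (L * η) hLη hr0' _ _ hd1.1 hd1.2
  rw [← mo_eq] at key
  have hch := mo_change (μ := μ) hT hη0 hbt f'
  -- the integral of `θ`
  have hI : Integrable (cd μ T η x) μ := hd1.1.integrable
  have hIf : Integrable (fun z => cd μ T η x z * f z) μ := by
    refine (hI.norm.const_mul B).mono' (hI.aestronglyMeasurable.mul h.meas.aestronglyMeasurable) ?_
    refine ae_of_all _ fun z => ?_
    rw [norm_mul, mul_comm]
    exact mul_le_mul_of_nonneg_right (h.bd z) (norm_nonneg _)
  have hae : ∀ᵐ z ∂μ, ‖cd μ T η x z * f' (T z) - cd μ T η x z * f z - cd μ T η x z * θ x‖ ≤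
      cd μ T η x z * (τ / 2) := by
    filter_upwards [hnull] with z hz
    by_cases hzx : dist z x ≤ L * η
    · have hzs : z ∈ T.source := hsrc x hx (by rw [mem_ball]; linarith)
      have hzΩ : z ∈ Ω := by
        by_contra hc
        exact hz ⟨hTD hzs, hc⟩
      have h1 := hun x hx z (by rw [mem_ball]; linarith)
      rw [Real.dist_eq] at h1
      rw [hff z ⟨hzs, hzΩ⟩]
      have e1 : cd μ T η x z * (f z + θ z) - cd μ T η x z * f z - cd μ T η x z * θ x =
        cd μ T η x z * (θ z - θ x) := by ring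
      rw [e1, norm_mul, Real.norm_eq_abs, Real.norm_eq_abs, abs_of_nonneg (hd1.1.nonneg z)]
      exact mul_le_mul_of_nonneg_left h1 (hd1.1.nonneg z)
    · have h1 := hd1.1.supp z (fun hc => hzx (by simpa using hc))
      rw [h1]; simp
  have hIm : AEStronglyMeasurable (fun z => cd μ T η x z * f' (T z)) μ := cd_meas hT hm'
  have hIf' : Integrable (fun z => cd μ T η x z * f' (T z)) μ := by
    refine (hI.norm.const_mul B').mono' hIm ?_
    refine ae_of_all _ fun z => ?_
    rw [norm_mul, mul_comm]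
    exact mul_le_mul_of_nonneg_right (hB' _) (norm_nonneg _)
  have hint : ∫ z, (cd μ T η x z * f' (T z) - cd μ T η x z * f z - cd μ T η x z * θ x) ∂μ =
      mo μ f' η (T x) - ∫ z, cd μ T η x z * f z ∂μ - θ x := by
    have e1 : ∫ z, (cd μ T η x z * f' (T z) - cd μ T η x z * f z - cd μ T η x z * θ x) ∂μ =
        ∫ z, (cd μ T η x z * f' (T z) - cd μ T η x z * f z) ∂μ - ∫ z, cd μ T η x z * θ x ∂μ :=
      integral_sub (hIf'.sub hIf) (hI.mul_const _)
    rw [e1, integral_sub hIf' hIf, integral_mul_const, hd1.1.one, one_mul, hch]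
  have h2 := norm_integral_le_of_norm_le (hI.mul_const (τ / 2)) hae
  rw [hint, integral_mul_const, hd1.1.one, one_mul, Real.norm_eq_abs] at h2
  have e3 : mo μ f' η (T x) - mo μ f η x - θ x =
      (mo μ f' η (T x) - ∫ z, cd μ T η x z * f z ∂μ - θ x) +
      (∫ z, cd μ T η x z * f z ∂μ - mo μ f η x) := by ring
  rw [e3]
  refine (abs_add_le _ _).trans ?_
  linarith

end Crest.Agent.R281.Bdd6_791
end
end

-- ▼ part R281/RichZ_710
section

/-!
# R281 (S0424), DIV 6, S6-RICH (helper710 + helper791), last file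

* `rich_bdd` : **Richberg's theorem for bounded potentials**: `u` bounded, smooth with
  `cur h + ∂∂̄u ≥ 0` off a closed `σ`-thin set `S`, `≥ ∂∂̄ρ` on `U \ S` ⟹ smooth `v`, `|v| ≤ B + 1`,
  `cur h + ∂∂̄v + δ K ≥ 0` on `M`, `≥ ∂∂̄ρ` on the compact `C ⊆ U`.
-/

set_option autoImplicit false
set_option linter.unusedSectionVars false

open Set Filter Topology Metric MeasureTheory
open scoped ContDiff Matrix ComplexConjugate ComplexOrder

noncomputable section

namespace Crest.Agent.R281.Rich_710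

open Crest.Agent.R257.HoB_843 Crest.Agent.R257.Glue2_101 Crest.Agent.R257.Glue1_101
open Crest.Agent.R275.Geo Crest.Agent.R275.Core144 Crest.Agent.R275.EDR890
open Crest.Agent.R273.Defs_333 Crest.Agent.R273.Hess_333 Crest.Agent.R273.HessB_333
open Crest.Agent.R273.HM_333 Crest.Agent.R273.Kah_333 Crest.Agent.R273.SerD_945
open Crest.Agent.R281.ThnM_280 Crest.Agent.R281.Thn_280
open Crest.Agent.R281.Bdd5_791 Crest.Agent.R281.Bdd6_791

variable {n : ℕ} {M : Type} [TopologicalSpace M] {A : Atl n M} {L : LB A}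

/-- from `∃ η₀` to `∀ᶠ` -/
theorem ev_of_exists {p : ℝ → Prop} (h : ∃ η₀ > 0, ∀ η : ℝ, 0 < η → η < η₀ → p η) :
    ∀ᶠ η in 𝓝[>] (0 : ℝ), p η := by
  obtain ⟨η₀, h0, h1⟩ := h
  have h2 : ∀ᶠ η in 𝓝[>] (0 : ℝ), η < η₀ := nhdsWithin_le_nhds (gt_mem_nhds h0)
  filter_upwards [h2, self_mem_nhdsWithin] with η h3 h4
  exact h1 η h4 h3

/-- the good part of the piece `D` of the chart `j` -/
def Om (A : Atl n M) (S : Set M) (j : A.ι) (D : Set (Cn n)) : Set (Cn n) :=
  D ∩ (A.e j).symm ⁻¹' Sᶜ

/-- the local potential -/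
def fj (h : HM L) (u : M → ℝ) (S : Set M) (j : A.ι) (D : Set (Cn n)) : Cn n → ℝ :=
  (Om A S j D).indicator fun z => h.wt j z + u ((A.e j).symm z)

theorem isOpen_Om {S : Set M} (hS : IsClosed S) (j : A.ι) {D : Set (Cn n)} (hD : IsOpen D)
    (hDt : D ⊆ (A.e j).target) : IsOpen (Om A S j D) := by
  have h1 := (A.e j).isOpen_inter_preimage_symm hS.isOpen_compl
  have h2 : Om A S j D = D ∩ ((A.e j).target ∩ (A.e j).symm ⁻¹' Sᶜ) := by
    ext z
    constructor
    · rintro ⟨h3, h4⟩; exact ⟨h3, hDt h3, h4⟩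
    · rintro ⟨h3, -, h4⟩; exact ⟨h3, h4⟩
  rw [h2]
  exact hD.inter h1

section

variable {h : HM L} {u : M → ℝ} {S : Set M} {B : ℝ} (hS : IsClosed S) (hth : SThM A S)
  (hB : ∀ x, |u x| ≤ B)
  (hu : ∀ i, ∀ z ∈ (A.e i).target, (A.e i).symm z ∉ S →
    ContDiffAt ℝ ∞ (fun w => u ((A.e i).symm w)) z)
  (hp : ∀ i, ∀ x ∈ (A.e i).source, x ∉ S → (cur h i x + hsf A u i x).PosSemidef)

include hS hu in
theorem fj_germ (j : A.ι) {D : Set (Cn n)} (hD : IsOpen D) (hDt : D ⊆ (A.e j).target) {z : Cn n}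
    (hz : z ∈ Om A S j D) :
    fj h u S j D =ᶠ[𝓝 z] fun z => h.wt j z + u ((A.e j).symm z) := by
  filter_upwards [(isOpen_Om hS j hD hDt).mem_nhds hz] with w hw
  exact indicator_of_mem hw _

include hS hth hB hu hp in
theorem exists_PB (μ : Measure (Cn n)) [μ.IsAddHaarMeasure] (j : A.ι) {D : Set (Cn n)}
    (hD : IsOpen D) (hDc : IsCompact (closure D)) (hDt : closure D ⊆ (A.e j).target) :
    ∃ B' : ℝ, PB μ D (Om A S j D) (fj h u S j D) B' := by
  classical
  have hDt' : D ⊆ (A.e j).target := subset_closure.trans hDt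
  obtain ⟨b, hb⟩ := hDc.exists_bound_of_continuousOn ((wt_smooth h j).continuousOn.mono hDt)
  have hB0 : 0 ≤ |b| + |B| := by positivity
  have hbad : D \ Om A S j D ⊆ {z | z ∈ (A.e j).target ∧ (A.e j).symm z ∈ S} := by
    rintro z ⟨hz, hz2⟩
    refine ⟨hDt' hz, ?_⟩
    by_contra h3
    exact hz2 ⟨hz, h3⟩
  refine ⟨|b| + |B|, hD, isOpen_Om hS j hD hDt', inter_subset_left, ?_, fun z => ?_,
    fun z hz => ?_, ?_, fun v => ?_⟩
  · have h1 : ContinuousOn (fun z => h.wt j z + u ((A.e j).symm z)) (Om A S j D) := fun z hz =>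
      ((wt_contDiffAt h j (hDt' hz.1)).continuousAt.add
        (hu j z (hDt' hz.1) hz.2).continuousAt).continuousWithinAt
    have h2 := h1.measurable_piecewise (g := fun _ => (0 : ℝ)) continuousOn_const
      (isOpen_Om hS j hD hDt').measurableSet
    have e : fj h u S j D = (Om A S j D).piecewise (fun z => h.wt j z + u ((A.e j).symm z))
        fun _ => (0 : ℝ) := by
      unfold fj
      funext z
      by_cases hz : z ∈ Om A S j D
      · rw [indicator_of_mem hz, piecewise_eq_of_mem _ _ _ hz]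
      · rw [indicator_of_notMem hz, piecewise_eq_of_notMem _ _ _ hz]
    rw [e]
    exact h2
  · unfold fj
    by_cases hz : z ∈ Om A S j D
    · rw [indicator_of_mem hz]
      have h1 : |h.wt j z| ≤ b := by simpa using hb z (subset_closure hz.1)
      have h2 := hB ((A.e j).symm z)
      exact (abs_add_le _ _).trans (add_le_add (h1.trans (le_abs_self b)) (h2.trans (le_abs_self B)))
    · rw [indicator_of_notMem hz]
      simpa using hB0
  · have hzt := hDt' hz.1
    have h1 := fj_germ (h := h) hS hu j hD hDt' hz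
    have h2 := hu j z hzt hz.2
    refine ⟨(((wt_contDiffAt h j hzt).add h2).congr_of_eventuallyEq h1).of_le two_le_top,
      fun v => ?_⟩
    rw [lvE_congr h1]
    exact lvE_of_psd h hzt h2 (hp j _ ((A.e j).map_target hzt) hz.2) v
  · exact measure_mono_null hbad ((hth j).null μ)
  · filter_upwards [sth_ae_countable μ (hth j) v] with z hz
    exact hz.mono fun w hw => hbad hw

end

/-- **Richberg's theorem for bounded potentials** -/
theorem rich_bdd [CompactSpace M] [T2Space M] [Finite A.ι] (P : Part A) (K : Kah A) (h : HM L)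
    (u : M → ℝ) (B : ℝ) (hB : ∀ x, |u x| ≤ B) (S : Set M) (hS : IsClosed S) (hth : SThM A S)
    (hu : ∀ i, ∀ z ∈ (A.e i).target, (A.e i).symm z ∉ S →
      ContDiffAt ℝ ∞ (fun w => u ((A.e i).symm w)) z)
    (hp : ∀ i, ∀ x ∈ (A.e i).source, x ∉ S → (cur h i x + hsf A u i x).PosSemidef)
    (U : Set M) (hU : IsOpen U) (ρ : M → ℝ)
    (hρ : ∀ i, ∀ z ∈ (A.e i).target, (A.e i).symm z ∈ U →
      ContDiffAt ℝ ∞ (fun w => ρ ((A.e i).symm w)) z)
    (hpU : ∀ i, ∀ x ∈ (A.e i).source, x ∈ U → x ∉ S →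
      (cur h i x + hsf A u i x - hsf A ρ i x).PosSemidef)
    (C : Set M) (hC : IsCompact C) (hCU : C ⊆ U) (δ : ℝ) (hδ : 0 < δ) :
    ∃ v : M → ℝ, A.Sm v ∧ (∀ x, |v x| ≤ B + 1) ∧
      (∀ i, ∀ x ∈ (A.e i).source, (cur h i x + hsf A v i x + (δ : ℂ) • K.g i x).PosSemidef) ∧
      (∀ i, ∀ x ∈ (A.e i).source, x ∈ C →
        (cur h i x + hsf A v i x + (δ : ℂ) • K.g i x - hsf A ρ i x).PosSemidef) := by
  classical
  choose D hDo hDs hDc hDt using fun j => exists_rel P j
  have hDt' : ∀ j, D j ⊆ (A.e j).target := fun j => subset_closure.trans (hDt j)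
  set μ : Measure (Cn n) := Measure.addHaar with hμ
  choose B' hPB using fun j => exists_PB (h := h) hS hth hB hu hp μ j (hDo j) (hDc j) (hDt j)
  have hKc : ∀ j, IsCompact (A.e j '' tsupport (P.χ j)) := fun j =>
    (P.χ_cpt j).image_of_continuousOn ((A.e j).continuousOn.mono (P.χ_sub j))
  have hρj : ∀ j, ∀ x ∈ (A.e j).source, x ∈ C →
      ContDiffAt ℝ ∞ (fun z => ρ ((A.e j).symm z)) (A.e j x) := fun j x hx hxC =>
    hρ j _ ((A.e j).map_source hx) (by rw [(A.e j).left_inv hx]; exact hCU hxC)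
  obtain ⟨v, hv, h1, h2, h3⟩ := rich_fam P K h (C := C) hρj hδ (B := B)
    (fun j η => mo μ (fj h u S j (D j)) η)
    (fun j η _ => mo_smooth (hPB j).meas (hPB j).bd η)
    (fun j => ev_of_exists (mo_psh (hPB j) (hKc j) (hDs j)))
    (fun j τ hτ => ev_of_exists (by
      have hUo : IsOpen (D j ∩ ((A.e j).target ∩ (A.e j).symm ⁻¹' U)) :=
        (hDo j).inter ((A.e j).isOpen_inter_preimage_symm hU)
      refine mo_ge (hPB j) hUo inter_subset_left (ρ := fun z => ρ ((A.e j).symm z))
        (fun z hz => (hρ j z hz.2.1 hz.2.2).of_le two_le_top) (fun z hz v => ?_) ?_ ?_ hτ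
      · obtain ⟨⟨hz1, hz2, hz3⟩, hz4⟩ := hz
        rw [lvE_congr (fj_germ (h := h) hS hu j (hDo j) (hDt' j) hz4)]
        have hsu := hu j z hz2 hz4.2
        have hsρ := hρ j z hz2 hz3
        have h4 := lvE_of_psd_sub h hz2 hsu hsρ
          (hpU j _ ((A.e j).map_target hz2) hz3 hz4.2) v
        have e : (fun w => h.wt j w + u ((A.e j).symm w) - ρ ((A.e j).symm w)) =
            fun w => (h.wt j w + u ((A.e j).symm w)) + (-ρ ((A.e j).symm w)) := by
          funext w; ring
        rw [e, lvE_add ((wt_contDiffAt h j hz2).add hsu) hsρ.neg, lvE_neg'] at h4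
        linarith
      · exact ((P.χ_cpt j).inter_right hC.isClosed).image_of_continuousOn
          ((A.e j).continuousOn.mono (inter_subset_left.trans (P.χ_sub j)))
      · rintro _ ⟨x, ⟨hx, hxC⟩, rfl⟩
        have hxs := P.χ_sub j hx
        refine ⟨hDs j (mem_image_of_mem _ hx), (A.e j).map_source hxs, ?_⟩
        rw [mem_preimage, (A.e j).left_inv hxs]
        exact hCU hxC))
    (fun j τ hτ => ev_of_exists (mo_near (hPB j).meas (hPB j).bd (hDo j) (hPB j).null
      ((wt_smooth h j).continuousOn.mono (hDt' j)) (fun z hz _ => by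
        unfold fj
        rw [indicator_of_mem hz, add_sub_cancel_left]
        exact hB _) (hKc j) (hDs j) hτ))
    (fun j k τ hτ => ev_of_exists (by
      -- the transition map, restricted
      let T₀ : OpenPartialHomeomorph (Cn n) (Cn n) := (A.e j).symm.trans (A.e k)
      have hs₀ : IsOpen (D j ∩ (T₀.source ∩ T₀ ⁻¹' D k)) :=
        (hDo j).inter (T₀.isOpen_inter_preimage (hDo k))
      let T : OpenPartialHomeomorph (Cn n) (Cn n) := T₀.restrOpen _ hs₀
      have hTsrc : T.source = T₀.source ∩ (D j ∩ (T₀.source ∩ T₀ ⁻¹' D k)) :=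
        T₀.restrOpen_source _ hs₀
      have hT₀s : T₀.source ⊆ A.ov j k := by
        intro z hz
        have hz' : z ∈ ((A.e j).symm.trans (A.e k)).source := hz
        rw [OpenPartialHomeomorph.trans_source] at hz'
        exact ⟨hz'.1, hz'.2⟩
      have hT₀t : T₀.target ⊆ A.ov k j := by
        intro z hz
        have hz' : z ∈ ((A.e j).symm.trans (A.e k)).target := hz
        rw [OpenPartialHomeomorph.trans_target] at hz'
        exact ⟨hz'.1, hz'.2⟩
      have hTt : T.target ⊆ T₀.target := by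
        intro y hy
        have h5 := T.map_target hy
        rw [hTsrc] at h5
        have h6 := T₀.map_source h5.1
        have h7 : T₀ (T.symm y) = y := T.right_inv hy
        rwa [h7] at h6
      have hsm : ∀ i l : A.ι, ContDiffOn ℝ 1 (fun z => A.e l ((A.e i).symm z)) (A.ov i l) :=
        fun i l => ((Crest.Agent.R266.SCV.contDiffOn_omega_of_differentiableOn (isOpen_ov i l)
          (A.holo i l)).restrict_scalars ℝ).of_le le_top
      refine mo_cmp (hPB j) (hPB k).meas (hPB k).bd (T := T)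
        (θ := fun z => h.wt k (A.e k ((A.e j).symm z)) - h.wt j z) ?_ ?_ ?_ ?_ ?_ ?_ ?_ hτ
      · exact (hsm j k).mono fun z hz => hT₀s (by rw [hTsrc] at hz; exact hz.1)
      · exact (hsm k j).mono fun z hz => hT₀t (hTt hz)
      · intro z hz
        rw [hTsrc] at hz
        exact hz.2.1
      · intro z hz
        rw [hTsrc] at hz
        have h5 := hT₀s hz.1
        have h6 : ContinuousAt (fun z => A.e k ((A.e j).symm z)) z :=
          ((A.holo j k).differentiableAt ((isOpen_ov j k).mem_nhds h5)).continuousAt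
        have h7 : ContinuousAt (h.wt k) (A.e k ((A.e j).symm z)) :=
          (wt_contDiffAt h k ((A.e k).map_source h5.2)).continuousAt
        exact ((ContinuousAt.comp (f := fun z => A.e k ((A.e j).symm z)) h7 h6).sub
          (wt_contDiffAt h j h5.1).continuousAt).continuousWithinAt
      · rintro z ⟨hz, hzΩ⟩
        rw [hTsrc] at hz
        have h5 := hT₀s hz.1
        have h8 : (A.e k).symm (A.e k ((A.e j).symm z)) = (A.e j).symm z := (A.e k).left_inv h5.2
        have h6 : A.e k ((A.e j).symm z) ∈ Om A S k (D k) := by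
          refine ⟨hz.2.2.2, ?_⟩
          rw [mem_preimage, h8]
          exact hzΩ.2
        have h7 : fj h u S k (D k) (A.e k ((A.e j).symm z)) =
            h.wt k (A.e k ((A.e j).symm z)) + u ((A.e k).symm (A.e k ((A.e j).symm z))) :=
          indicator_of_mem h6 _
        have h9 : fj h u S j (D j) z = h.wt j z + u ((A.e j).symm z) := indicator_of_mem hzΩ _
        show fj h u S k (D k) (A.e k ((A.e j).symm z)) = _
        rw [h7, h8, h9]
        ring
      · exact ((P.χ_cpt j).inter (P.χ_cpt k)).image_of_continuousOn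
          ((A.e j).continuousOn.mono (inter_subset_left.trans (P.χ_sub j)))
      · rintro _ ⟨x, ⟨hxj, hxk⟩, rfl⟩
        have hj := P.χ_sub j hxj
        have hk := P.χ_sub k hxk
        have h5 : A.e j x ∈ T₀.source := by
          show A.e j x ∈ ((A.e j).symm.trans (A.e k)).source
          rw [OpenPartialHomeomorph.trans_source]
          refine ⟨(A.e j).map_source hj, ?_⟩
          rw [mem_preimage, (A.e j).left_inv hj]
          exact hk
        rw [hTsrc]
        refine ⟨h5, hDs j (mem_image_of_mem _ hxj), h5, ?_⟩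
        show A.e k ((A.e j).symm (A.e j x)) ∈ D k
        rw [(A.e j).left_inv hj]
        exact hDs k (mem_image_of_mem _ hxk)))
  refine ⟨v, hv, h1, fun i x hx => ?_, fun i x hx hxC => ?_⟩
  · have := h2 i x hx
    rwa [cur_tw h hv i hx] at this
  · have := h3 i x hx hxC
    rw [cur_tw h hv i hx] at this
    rwa [sub_add_eq_add_sub] at this

end Crest.Agent.R281.Rich_710
end
end

-- ▼ part R281/RichS_710
section

/-!
# R281 (S0424), DIV 6, S6-RICH (helper710): node N7, the literal `RichStmt` of helper986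
-/

set_option autoImplicit false

namespace Crest.Agent.R281.Rich_710

theorem richStmt : Crest.Agent.R281.D6_986.RichStmt := by
  intro n M _ _ _ A _ P K L h u B hB S hS hth hu hp U hU ρ hρ hpU C hC hCU δ hδ
  exact rich_bdd P K h u B hB S hS hth hu hp U hU ρ hρ hpU C hC hCU δ hδ

end Crest.Agent.R281.Rich_710
end

-- ▼ part R281/E6b_52

/-!
# R281 (S0424), END6 (helper52): `END6` from the last open node `UPreP`
-/

set_option autoImplicit false
set_option linter.unusedSectionVars false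

open Set Filter Topology Complex
open scoped ContDiff Matrix ComplexConjugate ComplexOrder

namespace Crest.Agent.R281.E6a_52

open Crest.Agent.R275.Geo Crest.Agent.R275.Core144 Crest.Agent.R275.GC293
open Crest.Agent.R273.Defs_333 Crest.Agent.R273.Kah_333 Crest.Agent.R273.HM_333
open Crest.Agent.R281.Defs_273 Crest.Agent.R281.Sk_474
open Crest.Agent.R281.D6_986 Crest.Agent.R281.E6_373
open Crest.Agent.R281.S6D_664 (LFib Fam)

/-- node (3): S6-SK (507) -/
theorem skP : SKP := fun X o =>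
  ⟨SK6_507.skOut X.hk X.K' X.one_lt X.hk' X.eqK o⟩

/-- node (6): S6-CONT (166) -/
theorem contP : ContP := by
  rintro X o ⟨up⟩ -
  exact Con_166.contOut X.hn up

/-- node (7): S6-CONTVOL (254) -/
theorem contVolP : ContVolP := fun X _ c _ hv => Cv_254.contVol_of X.K c hv

/-- node (8): S6-FRAME (316, 941) -/
theorem frameP : FrameP := fun X o c hH hcv x0 =>
  (Fr7_316.sliceAt X.hn c hcv x0).elim fun S => Tc_941.frameAt_of_slice hH c o.F.sth S

/-- **division 6 from the function `u`** -/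
theorem end6_of_upre (h4 : UPreP) : END6 :=
  end6_of_nodes omegaP leafVolP skP h4 uOutP contP contVolP frameP Rich_710.richStmt

end Crest.Agent.R281.E6a_52
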