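import Crest.Agent.R281.Ti3_846
import Crest.Agent.R281.HkR2_835
import Crest.Agent.Lib.ODEFlow
import Crest.Agent.R281.Dif1_268

-- ▼ part R281/Iso1_139
section

/-!
# Row 281, HK-ISO, part 1 (helper139): the local calculus of Moser's argument

* `cJ b J z = b z ∘ J z`
* `d1_cJ`    : `d(b∘J)(u,v) - d(b∘J)(Ju,Jv) = db(Ju,v) + db(u,Jv)` for an integrable `J`
* `gam_inv`  : `σ_t = w₁ + i w₂` of type `(2,0)` for `J_t`, `∂_t w_k = dβ_k` : then
               `d(β₁∘J + β₂)` is `J`-invariant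
-/

set_option autoImplicit false

open Set Filter Topology
open scoped ContDiff

namespace Crest.Agent.R281.Iso_139

open Crest.Agent.R281.HkR_835 Crest.Agent.R260.ACM_580
open Crest.Agent.R281.Ti_846 hiding pb pb_apply symm2

noncomputable section

variable {V : Type} [NormedAddCommGroup V] [NormedSpace ℝ V]

theorem d1a (f : V → (V →L[ℝ] ℝ)) (z u v : V) :
    d1 f z u v = fderiv ℝ f z u v - fderiv ℝ f z v u := rfl

/-- `b ∘ J` -/
def cJ (b : V → V →L[ℝ] ℝ) (J : V → V →L[ℝ] V) (z : V) : V →L[ℝ] ℝ := (b z).comp (J z)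

@[simp] theorem cJ_apply (b : V → V →L[ℝ] ℝ) (J : V → V →L[ℝ] V) (z v : V) :
    cJ b J z v = b z (J z v) := rfl

theorem hasFDerivAt_cJ {b : V → V →L[ℝ] ℝ} {J : V → V →L[ℝ] V} {z : V}
    (hb : DifferentiableAt ℝ b z) (hJ : DifferentiableAt ℝ J z) (a v : V) :
    fderiv ℝ (cJ b J) z a v = fderiv ℝ b z a (J z v) + b z (fderiv ℝ J z a v) := by
  have h1 : HasFDerivAt b (fderiv ℝ b z) z := hb.hasFDerivAt
  have h2 : HasFDerivAt J (fderiv ℝ J z) z := hJ.hasFDerivAt
  have h3 : HasFDerivAt (cJ b J) _ z := h1.clm_comp h2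
  rw [h3.fderiv]
  simp [add_comm]

/-- derivative of `J² = -1` -/
theorem fderiv_sq {J : V → V →L[ℝ] V} {U : Set V} (hU : IsOpen U) (hJ : DifferentiableOn ℝ J U)
    (hs : ∀ z ∈ U, ∀ v, J z (J z v) = -v) {z : V} (hz : z ∈ U) (a v : V) :
    fderiv ℝ J z a (J z v) = - J z (fderiv ℝ J z a v) := by
  have hn : U ∈ 𝓝 z := hU.mem_nhds hz
  have h2 : HasFDerivAt J (fderiv ℝ J z) z := ((hJ z hz).differentiableAt hn).hasFDerivAt
  have h3 : HasFDerivAt (fun y => (J y).comp (J y)) _ z := h2.clm_comp h2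
  have h4 : (fun y => (J y).comp (J y)) =ᶠ[𝓝 z] fun _ => -ContinuousLinearMap.id ℝ V := by
    filter_upwards [hn] with y hy
    ext v
    simpa using hs y hy v
  have h5 := h3.unique ((hasFDerivAt_const (-ContinuousLinearMap.id ℝ V) z).congr_of_eventuallyEq h4)
  have h6 := congrArg (fun T : V →L[ℝ] V →L[ℝ] V => T a v) h5
  simp at h6
  rw [add_comm] at h6
  exact eq_neg_of_add_eq_zero_left h6

/-- `d(b∘J)(u,v) - d(b∘J)(Ju,Jv) = db(Ju,v) + db(u,Jv)` -/
theorem d1_cJ {b : V → V →L[ℝ] ℝ} {J : V → V →L[ℝ] V} {U : Set V} (hU : IsOpen U)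
    (hb : DifferentiableOn ℝ b U) (hJ : DifferentiableOn ℝ J U)
    (hs : ∀ z ∈ U, ∀ v, J z (J z v) = -v) {z : V} (hz : z ∈ U)
    (hN : ∀ v w, Nij J z v w = 0) (u v : V) :
    d1 (cJ b J) z u v - d1 (cJ b J) z (J z u) (J z v) =
      d1 b z (J z u) v + d1 b z u (J z v) := by
  have hn : U ∈ 𝓝 z := hU.mem_nhds hz
  have db : DifferentiableAt ℝ b z := (hb z hz).differentiableAt hn
  have dJ : DifferentiableAt ℝ J z := (hJ z hz).differentiableAt hn
  simp only [d1a, hasFDerivAt_cJ db dJ]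
  rw [hs z hz, hs z hz, fderiv_sq hU hJ hs hz, fderiv_sq hU hJ hs hz]
  have h1 : fderiv ℝ J z u v - fderiv ℝ J z v u + J z (fderiv ℝ J z (J z u) v) -
      J z (fderiv ℝ J z (J z v) u) = 0 := by
    have h2 := congrArg (J z) (hN u v)
    unfold Nij at h2
    simp only [map_add, map_sub, map_zero, hs z hz] at h2
    rw [← h2]
    abel
  have h3 := congrArg (b z) h1
  simp only [map_add, map_sub, map_zero, map_neg] at h3 ⊢
  linarith

/-- derivative in `t` of the type relations, pointwise: `σ_t = w₁ + i w₂`, `σ(Ju,v) = iσ(u,v)` -/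
theorem type_dot {w₁ w₂ : ℝ → Bil V} {J : ℝ → V →L[ℝ] V} {t : ℝ} {e₁ e₂ : Bil V}
    {K : V →L[ℝ] V} (h1 : HasDerivAt w₁ e₁ t) (h2 : HasDerivAt w₂ e₂ t) (hJ : HasDerivAt J K t)
    (a1 : ∀ s u v, w₁ s u v = - w₁ s v u)
    (a2 : ∀ s u v, w₂ s u v = - w₂ s v u)
    (r1 : ∀ s u v, w₁ s (J s u) v = - w₂ s u v) (r2 : ∀ s u v, w₂ s (J s u) v = w₁ s u v)
    (u v : V) : e₂ u v - e₂ (J t u) (J t v) + (e₁ (J t u) v + e₁ u (J t v)) = 0 := by
  -- derivative of `w (J u) v`
  have hd : ∀ {w : ℝ → Bil V} {e : Bil V}, HasDerivAt w e t → ∀ u v : V,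
      HasDerivAt (fun s => w s (J s u) v) (e (J t u) v + w t (K u) v) t := by
    intro w e hw u v
    have h3 := (hw.clm_apply (hJ.clm_apply (hasDerivAt_const t u))).clm_apply
      (hasDerivAt_const t v)
    simpa using h3
  have hc : ∀ {w : ℝ → Bil V} {e : Bil V}, HasDerivAt w e t → ∀ u v : V,
      HasDerivAt (fun s => w s u v) (e u v) t := by
    intro w e hw u v
    have h3 := (hw.clm_apply (hasDerivAt_const t u)).clm_apply (hasDerivAt_const t v)
    simpa using h3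
  have s1 : ∀ u v, e₁ u v = - e₁ v u := by
    intro u v
    refine (hc h1 u v).unique ?_
    have := (hc h1 v u).neg
    refine this.congr_of_eventuallyEq (Eventually.of_forall fun s => a1 s u v)
  have s2 : ∀ u v, e₂ u v = - e₂ v u := by
    intro u v
    refine (hc h2 u v).unique ?_
    have := (hc h2 v u).neg
    refine this.congr_of_eventuallyEq (Eventually.of_forall fun s => a2 s u v)
  have q1 : ∀ u v, e₁ (J t u) v + w₁ t (K u) v = - e₂ u v := by
    intro u v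
    refine (hd h1 u v).unique ?_
    exact ((hc h2 u v).neg).congr_of_eventuallyEq (Eventually.of_forall fun s => r1 s u v)
  have q2 : ∀ u v, e₂ (J t u) v + w₂ t (K u) v = e₁ u v := by
    intro u v
    refine (hd h2 u v).unique ?_
    exact (hc h1 u v).congr_of_eventuallyEq (Eventually.of_forall fun s => r2 s u v)
  -- `w₁ (K u) v` and `w₁ (J K u) v`
  have p1 := q1 u v
  have p2 := q1 v u
  have p3 := q2 u (J t v)
  have k1 : w₂ t (K u) (J t v) = w₁ t (K u) v := by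
    rw [a2, r2, ← a1]
  have s3 := s1 (J t v) u
  have s4 := s2 v u
  have s5 := s1 u (J t v)
  have k2 := a1 t (K u) v
  linarith

end

end Crest.Agent.R281.Iso_139
end

-- ▼ part R281/Flo1_222
section

/-!
# Row 281, HK-ISO (I1), part 1 (helper222): integral curves of time-dependent vector fields

* `TVF C`        : smooth time-dependent vector field, read in the real charts `C : RCh V X`
* `TVF.IC`       : integral curves, `ic_of_chart`
* `exists_local` : local existence with a uniform time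
* `ic_unique`    : uniqueness
-/

set_option autoImplicit false
set_option linter.unusedSectionVars false

open Set Filter Topology
open scoped ContDiff

noncomputable section

namespace Crest.Agent.R281.Flo_222

open Crest.Agent.R281.HkR_835 Crest.Agent.Lib.ODEFlow

variable {V X : Type} [NormedAddCommGroup V] [NormedSpace ℝ V] [TopologicalSpace X]

/-- A smooth time-dependent vector field, read in the charts: `b i (t, z)`. -/
structure TVF (C : RCh V X) where
  b : C.ι → ℝ × V → V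
  sm : ∀ i, ContDiffOn ℝ ∞ (b i) (univ ×ˢ (C.e i).target)
  tr : ∀ i j, ∀ t, ∀ z ∈ C.ov i j, b j (t, C.t i j z) = fderiv ℝ (C.t i j) z (b i (t, z))

namespace TVF

variable {C : RCh V X} (B : TVF C)

/-- the domain of the suspended field -/
def U (_B : TVF C) (i : C.ι) : Set (ℝ × V) := univ ×ˢ (C.e i).target

theorem mem_U {i : C.ι} {p : ℝ × V} : p ∈ B.U i ↔ p.2 ∈ (C.e i).target := by
  simp [U]

theorem isOpen_U (i : C.ι) : IsOpen (B.U i) := isOpen_univ.prod (C.e i).open_target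

/-- the suspended field -/
def vt (i : C.ι) (p : ℝ × V) : ℝ × V := (1, B.b i p)

theorem contDiffOn_vt (i : C.ι) : ContDiffOn ℝ ∞ (B.vt i) (B.U i) :=
  contDiffOn_const.prodMk (B.sm i)

theorem contDiffOn_vt1 (i : C.ι) : ContDiffOn ℝ 1 (B.vt i) (B.U i) :=
  (B.contDiffOn_vt i).of_le (by simp)

/-- `γ` is an integral curve on `J` -/
def IC (γ : ℝ → X) (J : Set ℝ) : Prop :=
  ∀ t ∈ J, ContinuousAt γ t ∧ ∀ i, γ t ∈ (C.e i).source →
    HasDerivAt (fun r => C.e i (γ r)) (B.b i (t, C.e i (γ t))) t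

variable {B}

theorem IC.mono {γ : ℝ → X} {J J' : Set ℝ} (h : B.IC γ J) (hJ : J' ⊆ J) : B.IC γ J' :=
  fun t ht => h t (hJ ht)

theorem IC.congr {γ γ' : ℝ → X} {J : Set ℝ} (h : B.IC γ J) (hJ : IsOpen J)
    (he : ∀ t ∈ J, γ' t = γ t) : B.IC γ' J := by
  intro t ht
  have h1 : γ' =ᶠ[𝓝 t] γ := by
    filter_upwards [hJ.mem_nhds ht] with r hr using he r hr
  refine ⟨(h t ht).1.congr h1.symm, fun i hi => ?_⟩
  rw [he t ht] at hi ⊢
  refine ((h t ht).2 i hi).congr_of_eventuallyEq ?_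
  filter_upwards [h1] with r hr
  rw [hr]

/-- it is enough to check the equation in one chart at each point -/
theorem ic_of_chart {γ : ℝ → X} {t : ℝ} (hc : ContinuousAt γ t) {i : C.ι}
    (hi : γ t ∈ (C.e i).source)
    (hd : HasDerivAt (fun r => C.e i (γ r)) (B.b i (t, C.e i (γ t))) t) (j : C.ι)
    (hj : γ t ∈ (C.e j).source) :
    HasDerivAt (fun r => C.e j (γ r)) (B.b j (t, C.e j (γ t))) t := by
  have hz : C.e i (γ t) ∈ C.ov i j := ⟨(C.e i).map_source hi, by rwa [(C.e i).left_inv hi]⟩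
  have h1 : HasFDerivAt (C.t i j) (fderiv ℝ (C.t i j) (C.e i (γ t))) (C.e i (γ t)) :=
    (RCh.t_diff hz).hasFDerivAt
  have h2 := h1.comp_hasDerivAt t hd
  have h3 : C.t i j (C.e i (γ t)) = C.e j (γ t) := by
    show C.e j ((C.e i).symm (C.e i (γ t))) = _
    rw [(C.e i).left_inv hi]
  rw [← B.tr i j t _ hz, h3] at h2
  refine h2.congr_of_eventuallyEq ?_
  filter_upwards [hc.eventually ((C.e i).open_source.mem_nhds hi)] with r hr
  show C.e j (γ r) = C.e j ((C.e i).symm (C.e i (γ r)))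
  rw [(C.e i).left_inv hr]

theorem eq_of_hasDerivAt_zero {F : Type*} [NormedAddCommGroup F] [NormedSpace ℝ F] {f : ℝ → F}
    {a b : ℝ} (hf : ∀ s ∈ uIcc a b, HasDerivAt f 0 s) : f b = f a := by
  have h := (convex_uIcc a b).norm_image_sub_le_of_norm_hasDerivWithin_le (C := 0)
    (f := f) (f' := fun _ => (0 : F)) (fun s hs => (hf s hs).hasDerivWithinAt) (by simp)
    (left_mem_uIcc (a := a) (b := b)) (right_mem_uIcc (a := a) (b := b))
  simp only [zero_mul] at h
  exact sub_eq_zero.1 (norm_le_zero_iff.1 h)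

variable [CompleteSpace V]

variable (B) in
/-- the local flow in the chart `i` -/
def lf (i : C.ι) (p : (ℝ × V) × ℝ) : ℝ × V := flow (B.vt i) (B.U i) p

variable (B) in
/-- the domain of the local flow in the chart `i` -/
def ld (i : C.ι) : Set ((ℝ × V) × ℝ) := dom (B.vt i) (B.U i)

theorem isOpen_ld (i : C.ι) : IsOpen (B.ld i) := isOpen_dom (B.isOpen_U i) (B.contDiffOn_vt1 i)

theorem lf_mem {i : C.ι} {p : (ℝ × V) × ℝ} (hp : p ∈ B.ld i) : (B.lf i p).2 ∈ (C.e i).target :=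
  B.mem_U.1 (flow_mem (B.isOpen_U i) (B.contDiffOn_vt1 i) hp)

theorem hasDerivAt_lf {i : C.ι} {p : ℝ × V} {l : ℝ} (hp : (p, l) ∈ B.ld i) :
    HasDerivAt (fun s => B.lf i (p, s)) (B.vt i (B.lf i (p, l))) l :=
  hasDerivAt_flow (B.isOpen_U i) (B.contDiffOn_vt1 i) hp

theorem mem_ld_uIcc {i : C.ι} {p : ℝ × V} {l s : ℝ} (hp : (p, l) ∈ B.ld i) (hs : s ∈ uIcc 0 l) :
    (p, s) ∈ B.ld i := mem_dom_of_uIcc hp hs

theorem lf_zero {i : C.ι} {p : ℝ × V} (hp : p.2 ∈ (C.e i).target) : B.lf i (p, 0) = p :=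
  flow_zero (B.isOpen_U i) (B.contDiffOn_vt1 i) (B.mem_U.2 hp)

theorem lf_fst {i : C.ι} {p : ℝ × V} {l : ℝ} (hp : (p, l) ∈ B.ld i) :
    (B.lf i (p, l)).1 = p.1 + l := by
  have h := eq_of_hasDerivAt_zero (f := fun s => (B.lf i (p, s)).1 - s) (a := 0) (b := l) ?_
  · have h0 : B.lf i (p, 0) = p := by
      refine flow_zero (B.isOpen_U i) (B.contDiffOn_vt1 i) ?_
      exact mem_of_mem_dom (p := (p, l)) hp
    simp only [h0, sub_zero] at h
    linarith
  · intro s hs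
    have h1 := hasDerivAt_lf (mem_ld_uIcc hp hs)
    have h2 : HasDerivAt (fun s => (B.lf i (p, s)).1) (B.vt i (B.lf i (p, s))).1 s :=
      (ContinuousLinearMap.fst ℝ ℝ V).hasFDerivAt.comp_hasDerivAt s h1
    have h3 : HasDerivAt (fun s => (B.lf i (p, s)).1 - s) ((B.vt i (B.lf i (p, s))).1 - 1) s :=
      h2.sub (hasDerivAt_id s)
    simpa [vt] using h3

/-- local existence with a uniform time -/
theorem exists_local (B : TVF C) (s₀ : ℝ) {x₀ : X} {i : C.ι} (hi : x₀ ∈ (C.e i).source) :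
    ∃ ε > (0 : ℝ), ∃ W : Set (ℝ × V), IsOpen W ∧ (s₀, C.e i x₀) ∈ W ∧ W ⊆ B.U i ∧
      ∀ p ∈ W, ∀ l, |l| < ε → (p, l) ∈ B.ld i := by
  have hK : ({(s₀, C.e i x₀)} : Set (ℝ × V)) ⊆ B.U i := by
    rintro _ rfl
    exact B.mem_U.2 ((C.e i).map_source hi)
  obtain ⟨ε, hε, W, hW, hKW, h⟩ := exists_uniform_time (B.isOpen_U i) (B.contDiffOn_vt1 i)
    (isCompact_singleton (x := (s₀, C.e i x₀))) hK
  refine ⟨ε, hε, W ∩ B.U i, hW.inter (B.isOpen_U i), ⟨hKW (mem_singleton _), hK (mem_singleton _)⟩,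
    inter_subset_right, fun p hp l hl => h p hp.1 l hl⟩

/-- the integral curve given by the local flow -/
theorem ic_lf {i : C.ι} {s : ℝ} {z : V} {a c : ℝ}
    (h : ∀ r ∈ Ioo a c, ((s, z), r - s) ∈ B.ld i) :
    B.IC (fun r => (C.e i).symm (B.lf i ((s, z), r - s)).2) (Ioo a c) := by
  intro r hr
  have h0 := h r hr
  have h1 : HasDerivAt (fun r => B.lf i ((s, z), r - s)) (B.vt i (B.lf i ((s, z), r - s))) r := by
    have := (hasDerivAt_lf h0).scomp r ((hasDerivAt_id r).sub_const s)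
    simpa [Function.comp_def] using this
  have h2 : HasDerivAt (fun r => (B.lf i ((s, z), r - s)).2)
      (B.vt i (B.lf i ((s, z), r - s))).2 r :=
    (ContinuousLinearMap.snd ℝ ℝ V).hasFDerivAt.comp_hasDerivAt r h1
  have ht : (B.lf i ((s, z), r - s)).2 ∈ (C.e i).target := lf_mem h0
  have hc : ContinuousAt (fun r => (C.e i).symm (B.lf i ((s, z), r - s)).2) r :=
    ContinuousAt.comp (f := fun r => (B.lf i ((s, z), r - s)).2) (g := (C.e i).symm)
      ((C.e i).continuousAt_symm ht) h2.continuousAt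
  refine ⟨hc, fun j hj => ic_of_chart hc (i := i) ((C.e i).map_target ht) ?_ j hj⟩
  have h3 : (B.vt i (B.lf i ((s, z), r - s))).2 =
      B.b i (r, C.e i ((C.e i).symm (B.lf i ((s, z), r - s)).2)) := by
    rw [(C.e i).right_inv ht]
    have h4 : B.lf i ((s, z), r - s) = (r, (B.lf i ((s, z), r - s)).2) := by
      refine Prod.ext ?_ rfl
      rw [lf_fst h0]
      simp
    show B.b i (B.lf i ((s, z), r - s)) = _
    rw [← h4]
  rw [← h3]
  refine h2.congr_of_eventuallyEq ?_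
  have hJ : ∀ᶠ r' in 𝓝 r, r' ∈ Ioo a c := isOpen_Ioo.mem_nhds hr
  filter_upwards [hJ] with r' hr'
  exact (C.e i).right_inv (lf_mem (h r' hr'))

/-- two integral curves with the same value at `t` agree near `t` -/
theorem ic_eventuallyEq {γ₁ γ₂ : ℝ → X} {J : Set ℝ} (hJ : IsOpen J) (h₁ : B.IC γ₁ J)
    (h₂ : B.IC γ₂ J) {t : ℝ} (ht : t ∈ J) (he : γ₁ t = γ₂ t) : γ₁ =ᶠ[𝓝 t] γ₂ := by
  obtain ⟨i, hi⟩ := C.cover (γ₁ t)
  have hi2 : γ₂ t ∈ (C.e i).source := he ▸ hi
  have hev : ∀ᶠ r in 𝓝 t, r ∈ J ∧ γ₁ r ∈ (C.e i).source ∧ γ₂ r ∈ (C.e i).source := by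
    filter_upwards [hJ.mem_nhds ht, (h₁ t ht).1.eventually ((C.e i).open_source.mem_nhds hi),
      (h₂ t ht).1.eventually ((C.e i).open_source.mem_nhds hi2)] with r a b c using ⟨a, b, c⟩
  obtain ⟨δ, hδ, hb⟩ := Metric.eventually_nhds_iff.1 hev
  refine Metric.eventually_nhds_iff.2 ⟨δ, hδ, fun r hr => ?_⟩
  have key : ∀ γ : ℝ → X, (∀ r, dist r t < δ → r ∈ J ∧ γ r ∈ (C.e i).source) → B.IC γ J →
      flow (B.vt i) (B.U i) ((t, C.e i (γ t)), r - t) = (r, C.e i (γ r)) := by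
    intro γ hγ hic
    have h3 := flow_of_integralCurve' (B.isOpen_U i) (B.contDiffOn_vt1 i)
      (c := fun u => (t + u, C.e i (γ (t + u)))) (x := (t, C.e i (γ t))) (l := r - t) (by simp)
      ?_ ?_
    · rw [h3.2]
      simp
    · intro u hu
      have hu' : dist (t + u) t < δ := by
        rw [Real.dist_eq] at hr ⊢
        have : |u| ≤ |r - t| := by
          have := abs_sub_left_of_mem_uIcc hu
          simpa using this
        simpa using this.trans_lt hr
      exact B.mem_U.2 ((C.e i).map_source (hγ _ hu').2)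
    · intro u hu
      have hu' : dist (t + u) t < δ := by
        rw [Real.dist_eq] at hr ⊢
        have : |u| ≤ |r - t| := by
          have := abs_sub_left_of_mem_uIcc hu
          simpa using this
        simpa using this.trans_lt hr
      have h4 := (hic (t + u) (hγ _ hu').1).2 i (hγ _ hu').2
      have h5 : HasDerivAt (fun u => t + u) 1 u := (hasDerivAt_id u).const_add t
      have h6 := h4.scomp u h5
      rw [one_smul] at h6
      exact h5.prodMk h6
  have k1 := key γ₁ (fun r hr => ⟨(hb hr).1, (hb hr).2.1⟩) h₁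
  have k2 := key γ₂ (fun r hr => ⟨(hb hr).1, (hb hr).2.2⟩) h₂
  rw [he, k2] at k1
  have k3 : C.e i (γ₂ r) = C.e i (γ₁ r) := congrArg Prod.snd k1
  exact ((C.e i).injOn (hb hr).2.1 (hb hr).2.2 k3.symm)

/-- uniqueness of integral curves -/
theorem ic_unique [T2Space X] {γ₁ γ₂ : ℝ → X} {J : Set ℝ} (hJ : IsOpen J) (hJc : IsPreconnected J)
    (h₁ : B.IC γ₁ J) (h₂ : B.IC γ₂ J) {t : ℝ} (ht : t ∈ J) (he : γ₁ t = γ₂ t) :
    ∀ r ∈ J, γ₁ r = γ₂ r := by
  have hu : IsOpen {r | γ₁ =ᶠ[𝓝 r] γ₂} := isOpen_setOfPred_eventually_nhds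
  have hsub : J ⊆ {r | γ₁ =ᶠ[𝓝 r] γ₂} := by
    refine hJc.subset_of_closure_inter_subset hu ⟨t, ht, ic_eventuallyEq hJ h₁ h₂ ht he⟩ ?_
    rintro r ⟨hr, hrJ⟩
    refine ic_eventuallyEq hJ h₁ h₂ hrJ ?_
    by_contra hne
    obtain ⟨A, A', hA, hA', hxA, hxA', hd⟩ := t2_separation hne
    have h3 : ∀ᶠ r' in 𝓝 r, γ₁ r' ∈ A ∧ γ₂ r' ∈ A' :=
      ((h₁ r hrJ).1.eventually (hA.mem_nhds hxA)).and ((h₂ r hrJ).1.eventually (hA'.mem_nhds hxA'))
    obtain ⟨r', hr'1, hr'2⟩ := (mem_closure_iff_nhds.1 hr _ h3)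
    have h4 : γ₁ r' = γ₂ r' := Filter.EventuallyEq.eq_of_nhds hr'2
    exact (Set.disjoint_left.1 hd) hr'1.1 (h4 ▸ hr'1.2)
  intro r hr
  exact Filter.EventuallyEq.eq_of_nhds (hsub hr)

end TVF

end Crest.Agent.R281.Flo_222

end
end

-- ▼ part R281/Flo2_222
section

/-!
# Row 281, HK-ISO (I1), part 2 (helper222): the global flow of a time-dependent vector field on a
compact space with real charts

* `TVF.Fl B s t x`  : position at time `t` of the integral curve through `x` at time `s`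
* `Fl_self`, `Fl_ic`, `Fl_unique`, `Fl_comp`
-/

set_option autoImplicit false
set_option linter.unusedSectionVars false

open Set Filter Topology
open scoped ContDiff

noncomputable section

namespace Crest.Agent.R281.Flo_222

open Crest.Agent.R281.HkR_835 Crest.Agent.Lib.ODEFlow

variable {V X : Type} [NormedAddCommGroup V] [NormedSpace ℝ V] [TopologicalSpace X]
  [CompleteSpace V]

namespace TVF

variable {C : RCh V X} {B : TVF C}

variable (B) in
/-- the local flow exists for the time `ε` near `p = (s, x)` -/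
def Good (ε : ℝ) (p : ℝ × X) : Prop :=
  ∃ i, p.2 ∈ (C.e i).source ∧ ∃ W : Set (ℝ × V), IsOpen W ∧ (p.1, C.e i p.2) ∈ W ∧ W ⊆ B.U i ∧
    ∀ q ∈ W, ∀ l, |l| < ε → (q, l) ∈ B.ld i

theorem Good.mono {ε ε' : ℝ} {p : ℝ × X} (h : B.Good ε p) (he : ε' ≤ ε) : B.Good ε' p := by
  obtain ⟨i, hi, W, hW, hp, hU, h⟩ := h
  exact ⟨i, hi, W, hW, hp, hU, fun q hq l hl => h q hq l (hl.trans_le he)⟩

/-- uniform time -/
theorem exists_good (B : TVF C) [CompactSpace X] (T : ℝ) :
    ∃ ε > (0 : ℝ), ∀ s ∈ Icc (-T) T, ∀ x : X, B.Good ε (s, x) := by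
  have hK : IsCompact (Icc (-T) T ×ˢ (univ : Set X)) := isCompact_Icc.prod isCompact_univ
  have := hK.induction_on (p := fun S => ∃ ε > (0 : ℝ), ∀ p ∈ S, B.Good ε p)
    ⟨1, one_pos, fun p hp => absurd hp (notMem_empty p)⟩
    (fun S S' h ⟨ε, he, hh⟩ => ⟨ε, he, fun p hp => hh p (h hp)⟩)
    (fun S S' ⟨ε, he, hh⟩ ⟨ε', he', hh'⟩ => ⟨min ε ε', lt_min he he', by
      rintro p (hp | hp)
      · exact (hh p hp).mono (min_le_left _ _)
      · exact (hh' p hp).mono (min_le_right _ _)⟩)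
    ?_
  · obtain ⟨ε, he, h⟩ := this
    exact ⟨ε, he, fun s hs x => h (s, x) ⟨hs, mem_univ _⟩⟩
  · rintro ⟨s₀, x₀⟩ -
    obtain ⟨i, hi⟩ := C.cover x₀
    obtain ⟨ε, he, W, hW, hp, hU, h⟩ := exists_local B s₀ hi
    have hN : {p : ℝ × X | p.2 ∈ (C.e i).source ∧ (p.1, C.e i p.2) ∈ W} ∈ 𝓝 (s₀, x₀) := by
      have h1 : ContinuousAt (fun p : ℝ × X => (p.1, C.e i p.2)) (s₀, x₀) :=
        continuousAt_fst.prodMk (ContinuousAt.comp (f := fun p : ℝ × X => p.2) (g := C.e i)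
          ((C.e i).continuousAt hi) continuousAt_snd)
      filter_upwards [continuousAt_snd.eventually ((C.e i).open_source.mem_nhds hi),
        h1.eventually (hW.mem_nhds hp)] with p h2 h3 using ⟨h2, h3⟩
    exact ⟨_, mem_nhdsWithin_of_mem_nhds hN, ε, he, fun p hp => ⟨i, hp.1, W, hW, hp.2, hU, h⟩⟩

/-- the integral curve of a good point -/
theorem Good.curve {ε : ℝ} (_hε : 0 < ε) {s : ℝ} {x : X} (h : B.Good ε (s, x)) :
    ∃ γ : ℝ → X, γ s = x ∧ B.IC γ (Ioo (s - ε) (s + ε)) := by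
  obtain ⟨i, hi, W, hW, hp, hU, h⟩ := h
  refine ⟨fun r => (C.e i).symm (B.lf i ((s, C.e i x), r - s)).2, ?_, ?_⟩
  · show (C.e i).symm (B.lf i ((s, C.e i x), s - s)).2 = x
    rw [sub_self, lf_zero ((C.e i).map_source hi)]
    exact (C.e i).left_inv hi
  · refine ic_lf fun r hr => h _ hp _ ?_
    rw [abs_lt]
    constructor <;> linarith [hr.1, hr.2]

/-- gluing of integral curves -/
theorem glue {γ γ' : ℝ → X} {J J' : Set ℝ} (hJ : IsOpen J) (hJ' : IsOpen J') (h : B.IC γ J)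
    (h' : B.IC γ' J') {r : ℝ} (hr : r ∈ J) (hr' : r ∈ J') (he : γ r = γ' r) :
    ∃ γ'' : ℝ → X, (∀ t ≤ r, γ'' t = γ t) ∧ (∀ t, r ≤ t → γ'' t = γ' t) ∧
      B.IC γ'' ((J ∩ Iic r) ∪ (J' ∩ Ici r)) := by
  classical
  let g : ℝ → X := fun t => if t ≤ r then γ t else γ' t
  have h1 : ∀ t ≤ r, g t = γ t := fun t ht => if_pos ht
  have h2 : ∀ t, r ≤ t → g t = γ' t := by
    intro t ht
    rcases ht.eq_or_lt with rfl | ht
    · rw [h1 _ le_rfl, he]
    · exact if_neg (not_le.2 ht)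
  have key : ∀ {γ₀ : ℝ → X} {t : ℝ} {J₀ : Set ℝ}, B.IC γ₀ J₀ → t ∈ J₀ → g =ᶠ[𝓝 t] γ₀ →
      ContinuousAt g t ∧ ∀ i, g t ∈ (C.e i).source →
        HasDerivAt (fun r => C.e i (g r)) (B.b i (t, C.e i (g t))) t := by
    intro γ₀ t J₀ hic ht hev
    have h3 : g t = γ₀ t := hev.eq_of_nhds
    refine ⟨(hic t ht).1.congr hev.symm, fun i hi => ?_⟩
    rw [h3] at hi ⊢
    refine ((hic t ht).2 i hi).congr_of_eventuallyEq ?_
    filter_upwards [hev] with u hu
    rw [hu]
  have hlt : ∀ t < r, g =ᶠ[𝓝 t] γ := by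
    intro t ht
    filter_upwards [isOpen_Iio.mem_nhds ht] with u hu using h1 u (le_of_lt hu)
  have hgt : ∀ t, r < t → g =ᶠ[𝓝 t] γ' := by
    intro t ht
    filter_upwards [isOpen_Ioi.mem_nhds ht] with u hu using h2 u (le_of_lt hu)
  have heq : g =ᶠ[𝓝 r] γ := by
    filter_upwards [ic_eventuallyEq (hJ.inter hJ') (h.mono inter_subset_left)
      (h'.mono inter_subset_right) ⟨hr, hr'⟩ he] with u hu
    rcases le_total u r with h3 | h3
    · exact h1 u h3
    · rw [h2 u h3, hu]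
  refine ⟨g, h1, h2, ?_⟩
  rintro t (⟨ht, htr⟩ | ⟨ht, htr⟩)
  · rcases (mem_Iic.1 htr).eq_or_lt with rfl | h3
    · exact key h ht heq
    · exact key h ht (hlt t h3)
  · rcases (mem_Ici.1 htr).eq_or_lt with rfl | h3
    · exact key h hr heq
    · exact key h' ht (hgt t h3)

/-- integral curves on `(-T, T)` -/
theorem exists_curve_Ioo (B : TVF C) [CompactSpace X] {T : ℝ} :
    ∀ s ∈ Ioo (-T) T, ∀ x : X, ∃ γ : ℝ → X, γ s = x ∧ B.IC γ (Ioo (-T) T) := by
  obtain ⟨ε, hε, hg⟩ := exists_good B T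
  set δ := ε / 2 with hδ
  have hδ0 : 0 < δ := by positivity
  have step : ∀ n : ℕ, ∀ s ∈ Ioo (-T) T, ∀ x : X, ∃ γ : ℝ → X, γ s = x ∧
      B.IC γ (Ioo (-T) T ∩ Ioo (s - (n + 1) * δ) (s + (n + 1) * δ)) := by
    intro n
    induction n with
    | zero =>
      intro s hs x
      obtain ⟨γ, h1, h2⟩ := (hg s (Ioo_subset_Icc_self hs) x).curve hε
      refine ⟨γ, h1, h2.mono ?_⟩
      rintro t ⟨-, ht⟩
      simp only [Nat.cast_zero, zero_add, one_mul, mem_Ioo] at ht ⊢
      constructor <;> linarith [ht.1, ht.2]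
    | succ n ih =>
      intro s hs x
      obtain ⟨γ₀, h01, h02⟩ := (hg s (Ioo_subset_Icc_self hs) x).curve hε
      have hn : (0 : ℝ) ≤ (n : ℝ) * δ := by positivity
      -- to the right
      obtain ⟨γR, hR1, hR2⟩ : ∃ γR : ℝ → X, γR s = x ∧
          B.IC γR (Ioo (-T) T ∩ Ioo (s - ε) (s + (n + 2) * δ)) := by
        by_cases hr : s + δ < T
        · obtain ⟨γ₁, h11, h12⟩ := ih (s + δ) ⟨by linarith [hs.1], hr⟩ (γ₀ (s + δ))
          have hr1 : s + δ ∈ Ioo (s - ε) (s + ε) := ⟨by linarith, by linarith⟩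
          have hr2 : s + δ ∈ Ioo (-T) T ∩ Ioo (s + δ - (n + 1) * δ) (s + δ + (n + 1) * δ) :=
            ⟨⟨by linarith [hs.1], hr⟩, by nlinarith, by nlinarith⟩
          obtain ⟨g, g1, g2, g3⟩ := glue isOpen_Ioo (isOpen_Ioo.inter isOpen_Ioo) h02 h12 hr1 hr2
            h11.symm
          refine ⟨g, by rw [g1 s (by linarith), h01], g3.mono ?_⟩
          rintro t ⟨ht1, ht2⟩
          rcases le_total t (s + δ) with h | h
          · exact Or.inl ⟨⟨ht2.1, by linarith⟩, h⟩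
          · refine Or.inr ⟨⟨ht1, ?_, ?_⟩, h⟩
            · nlinarith
            · nlinarith [ht2.2]
        · refine ⟨γ₀, h01, h02.mono ?_⟩
          rintro t ⟨ht1, ht2⟩
          push Not at hr
          exact ⟨ht2.1, by linarith [ht1.2]⟩
      -- to the left
      by_cases hl : -T < s - δ
      · obtain ⟨γ₁, h11, h12⟩ := ih (s - δ) ⟨hl, by linarith [hs.2]⟩ (γR (s - δ))
        have hr1 : s - δ ∈ Ioo (-T) T ∩ Ioo (s - ε) (s + (n + 2) * δ) :=
          ⟨⟨hl, by linarith [hs.2]⟩, by linarith, by nlinarith⟩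
        have hr2 : s - δ ∈ Ioo (-T) T ∩ Ioo (s - δ - (n + 1) * δ) (s - δ + (n + 1) * δ) :=
          ⟨⟨hl, by linarith [hs.2]⟩, by nlinarith, by nlinarith⟩
        obtain ⟨g, g1, g2, g3⟩ := glue (isOpen_Ioo.inter isOpen_Ioo)
          (isOpen_Ioo.inter isOpen_Ioo) h12 hR2 hr2 hr1 h11
        refine ⟨g, by rw [g2 s (by linarith), hR1], g3.mono ?_⟩
        rintro t ⟨ht1, ht2⟩
        push_cast at ht2
        rcases le_total t (s - δ) with h | h
        · refine Or.inl ⟨⟨ht1, ?_, ?_⟩, h⟩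
          · nlinarith [ht2.1]
          · nlinarith
        · refine Or.inr ⟨⟨ht1, ?_, ?_⟩, h⟩
          · linarith
          · nlinarith [ht2.2]
      · refine ⟨γR, hR1, hR2.mono ?_⟩
        rintro t ⟨ht1, ht2⟩
        push Not at hl
        push_cast at ht2
        exact ⟨ht1, by linarith [ht1.1], by nlinarith [ht2.2]⟩
  intro s hs x
  obtain ⟨n, hn⟩ := exists_nat_ge (2 * T / δ)
  obtain ⟨γ, h1, h2⟩ := step n s hs x
  refine ⟨γ, h1, h2.mono fun t ht => ⟨ht, ?_⟩⟩
  rw [div_le_iff₀ hδ0] at hn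
  constructor <;> nlinarith [ht.1, ht.2, hs.1, hs.2]

/-- integral curves exist for all times -/
theorem exists_curve (B : TVF C) [CompactSpace X] [T2Space X] (s : ℝ) (x : X) :
    ∃ γ : ℝ → X, γ s = x ∧ B.IC γ univ := by
  have h : ∀ n : ℕ, ∃ γ : ℝ → X, γ s = x ∧ B.IC γ (Ioo (-(|s| + n + 1)) (|s| + n + 1)) := by
    intro n
    refine exists_curve_Ioo B s ?_ x
    have h1 := neg_abs_le s
    have h2 := le_abs_self s
    have h3 : (0 : ℝ) ≤ n := n.cast_nonneg
    constructor <;> linarith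
  choose γ h1 h2 using h
  have hs : ∀ n : ℕ, s ∈ Ioo (-(|s| + n + 1)) (|s| + n + 1) := by
    intro n
    have h1 := neg_abs_le s
    have h2 := le_abs_self s
    have h3 : (0 : ℝ) ≤ n := n.cast_nonneg
    constructor <;> linarith
  have hag : ∀ m n : ℕ, m ≤ n → ∀ t ∈ Ioo (-(|s| + m + 1)) (|s| + m + 1), γ m t = γ n t := by
    intro m n hmn
    have hc : (m : ℝ) ≤ n := by exact_mod_cast hmn
    refine ic_unique isOpen_Ioo isPreconnected_Ioo (h2 m) ((h2 n).mono ?_) (hs m) ?_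
    · intro t ht
      exact ⟨by linarith [ht.1], by linarith [ht.2]⟩
    · rw [h1, h1]
  refine ⟨fun t => γ ⌈|t|⌉₊ t, h1 _, ?_⟩
  intro t _
  have hev : (fun t => γ ⌈|t|⌉₊ t) =ᶠ[𝓝 t] γ ⌈|t| + 1⌉₊ := by
    filter_upwards [Metric.ball_mem_nhds t one_pos] with u hu
    rw [Metric.mem_ball, Real.dist_eq] at hu
    have h3 : |u| ≤ |t| + 1 := by
      have := abs_sub_abs_le_abs_sub u t
      linarith
    refine hag _ _ (Nat.ceil_mono h3) u ?_
    have h4 := Nat.le_ceil |u|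
    have h5 := neg_abs_le u
    have h6 := le_abs_self u
    have h7 := abs_nonneg s
    constructor <;> linarith
  have ht : t ∈ Ioo (-(|s| + (⌈|t| + 1⌉₊ : ℝ) + 1)) (|s| + (⌈|t| + 1⌉₊ : ℝ) + 1) := by
    have h4 := Nat.le_ceil (|t| + 1)
    have h5 := neg_abs_le t
    have h6 := le_abs_self t
    have h7 := abs_nonneg s
    constructor <;> linarith
  have h8 := h2 _ t ht
  have h9 : (fun t => γ ⌈|t|⌉₊ t) t = γ ⌈|t| + 1⌉₊ t := hev.eq_of_nhds
  refine ⟨h8.1.congr hev.symm, fun i hi => ?_⟩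
  rw [h9] at hi ⊢
  refine (h8.2 i hi).congr_of_eventuallyEq ?_
  filter_upwards [hev] with u hu
  exact congrArg (C.e i) hu

variable [CompactSpace X] [T2Space X]

variable (B) in
/-- the flow: position at the time `t` of the integral curve through `x` at the time `s` -/
def Fl (s t : ℝ) (x : X) : X := (exists_curve B s x).choose t

theorem Fl_self (s : ℝ) (x : X) : B.Fl s s x = x := (exists_curve B s x).choose_spec.1

theorem Fl_ic (s : ℝ) (x : X) : B.IC (fun t => B.Fl s t x) univ :=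
  (exists_curve B s x).choose_spec.2

/-- uniqueness -/
theorem Fl_unique {γ : ℝ → X} {J : Set ℝ} (hJ : IsOpen J) (hJc : IsPreconnected J)
    (h : B.IC γ J) {s : ℝ} (hs : s ∈ J) : ∀ t ∈ J, B.Fl s t (γ s) = γ t :=
  ic_unique hJ hJc ((Fl_ic s (γ s)).mono (subset_univ _)) h hs (Fl_self s (γ s))

theorem Fl_comp (s r t : ℝ) (x : X) : B.Fl r t (B.Fl s r x) = B.Fl s t x :=
  Fl_unique (γ := fun t => B.Fl s t x) isOpen_univ isPreconnected_univ (Fl_ic s x)
    (mem_univ r) t (mem_univ t)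

theorem Fl_inv (s t : ℝ) (x : X) : B.Fl t s (B.Fl s t x) = x := by
  rw [Fl_comp, Fl_self]


theorem Fl_hasDerivAt {s t : ℝ} {x : X} {i : C.ι} (hi : B.Fl s t x ∈ (C.e i).source) :
    HasDerivAt (fun t => C.e i (B.Fl s t x)) (B.b i (t, C.e i (B.Fl s t x))) t :=
  (Fl_ic s x t (mem_univ t)).2 i hi

end TVF

end Crest.Agent.R281.Flo_222

end
end

-- ▼ part R281/Flo3_222
section

/-!
# Row 281, HK-ISO (I1), part 3 (helper222): smoothness of the flow

* `TVF.Sm B s t x`      : the flow is continuous and, in charts, `C^∞` at `(s, t, x)`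
* `sm_all`              : `Sm B s t x` for all `s t x`
* `Fl_contDiffAt`, `Fl_continuous`
-/

set_option autoImplicit false
set_option linter.unusedSectionVars false

open Set Filter Topology
open scoped ContDiff

noncomputable section

namespace Crest.Agent.R281.Flo_222

open Crest.Agent.R281.HkR_835 Crest.Agent.Lib.ODEFlow

variable {V X : Type} [NormedAddCommGroup V] [NormedSpace ℝ V] [TopologicalSpace X]
  [CompleteSpace V] [CompactSpace X] [T2Space X]

namespace TVF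

variable {C : RCh V X} {B : TVF C}

variable (B) in
/-- the flow read in the charts `i` (source) and `j` (target) -/
def rd (i j : C.ι) (p : ℝ × ℝ × V) : V := C.e j (B.Fl p.1 p.2.1 ((C.e i).symm p.2.2))

variable (B) in
/-- the flow is continuous and smooth at `(s, t, x)` -/
def Sm (s t : ℝ) (x : X) : Prop :=
  ContinuousAt (fun p : ℝ × ℝ × X => B.Fl p.1 p.2.1 p.2.2) (s, t, x) ∧
    ∀ i j, x ∈ (C.e i).source → B.Fl s t x ∈ (C.e j).source →
      ContDiffAt ℝ ∞ (B.rd i j) (s, t, C.e i x)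

/-- independence of the charts -/
theorem sm_of_chart {s t : ℝ} {x : X}
    (hc : ContinuousAt (fun p : ℝ × ℝ × X => B.Fl p.1 p.2.1 p.2.2) (s, t, x)) {i j : C.ι}
    (hi : x ∈ (C.e i).source) (hj : B.Fl s t x ∈ (C.e j).source)
    (h : ContDiffAt ℝ ∞ (B.rd i j) (s, t, C.e i x)) : B.Sm s t x := by
  refine ⟨hc, fun i' j' hi' hj' => ?_⟩
  -- change of the source chart
  have hz : C.e i' x ∈ C.ov i' i := ⟨(C.e i').map_source hi', by rwa [(C.e i').left_inv hi']⟩
  have h1 : ContDiffAt ℝ ∞ (fun p : ℝ × ℝ × V => (p.1, p.2.1, C.t i' i p.2.2))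
      (s, t, C.e i' x) := by
    have h2 : ContDiffAt ℝ ∞ (C.t i' i) (C.e i' x) :=
      (RCh.t_smooth i' i).contDiffAt ((RCh.isOpen_ov i' i).mem_nhds hz)
    have h3 : ContDiffAt ℝ ∞ (fun p : ℝ × ℝ × V => C.t i' i p.2.2) (s, t, C.e i' x) :=
      ContDiffAt.comp (g := C.t i' i) (f := fun p : ℝ × ℝ × V => p.2.2) (s, t, C.e i' x) h2
        (contDiffAt_snd.snd)
    exact contDiffAt_fst.prodMk (contDiffAt_snd.fst.prodMk h3)
  have hti : C.t i' i (C.e i' x) = C.e i x := by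
    show C.e i ((C.e i').symm (C.e i' x)) = _
    rw [(C.e i').left_inv hi']
  have h4 : ContDiffAt ℝ ∞ (B.rd i j ∘ fun p : ℝ × ℝ × V => (p.1, p.2.1, C.t i' i p.2.2))
      (s, t, C.e i' x) := by
    refine ContDiffAt.comp (s, t, C.e i' x) ?_ h1
    show ContDiffAt ℝ ∞ (B.rd i j) (s, t, C.t i' i (C.e i' x))
    rw [hti]
    exact h
  -- change of the target chart
  have hw : C.e j (B.Fl s t x) ∈ C.ov j j' :=
    ⟨(C.e j).map_source hj, by rwa [(C.e j).left_inv hj]⟩
  have h5 : ContDiffAt ℝ ∞ (C.t j j') (C.e j (B.Fl s t x)) :=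
    (RCh.t_smooth j j').contDiffAt ((RCh.isOpen_ov j j').mem_nhds hw)
  have hval : (B.rd i j ∘ fun p : ℝ × ℝ × V => (p.1, p.2.1, C.t i' i p.2.2)) (s, t, C.e i' x) =
      C.e j (B.Fl s t x) := by
    show C.e j (B.Fl s t ((C.e i).symm (C.t i' i (C.e i' x)))) = _
    rw [hti, (C.e i).left_inv hi]
  have h6 : ContDiffAt ℝ ∞ (C.t j j' ∘ (B.rd i j ∘
      fun p : ℝ × ℝ × V => (p.1, p.2.1, C.t i' i p.2.2))) (s, t, C.e i' x) := by
    refine ContDiffAt.comp (s, t, C.e i' x) ?_ h4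
    rw [hval]
    exact h5
  refine h6.congr_of_eventuallyEq ?_
  -- the two functions agree near the point
  have hcz : ContinuousAt (fun p : ℝ × ℝ × V => B.Fl p.1 p.2.1 ((C.e i').symm p.2.2))
      (s, t, C.e i' x) := by
    have h7 : ContinuousAt (fun p : ℝ × ℝ × V => (p.1, p.2.1, (C.e i').symm p.2.2))
        (s, t, C.e i' x) := by
      refine continuousAt_fst.prodMk ((continuousAt_fst.comp continuousAt_snd).prodMk ?_)
      exact ContinuousAt.comp (g := (C.e i').symm) (f := fun p : ℝ × ℝ × V => p.2.2)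
        ((C.e i').continuousAt_symm hz.1) (continuousAt_snd.comp continuousAt_snd)
    refine ContinuousAt.comp (g := fun p : ℝ × ℝ × X => B.Fl p.1 p.2.1 p.2.2) ?_ h7
    show ContinuousAt _ (s, t, (C.e i').symm (C.e i' x))
    rw [(C.e i').left_inv hi']
    exact hc
  have hv : (fun p : ℝ × ℝ × V => B.Fl p.1 p.2.1 ((C.e i').symm p.2.2)) (s, t, C.e i' x) =
      B.Fl s t x := by
    show B.Fl s t ((C.e i').symm (C.e i' x)) = _
    rw [(C.e i').left_inv hi']
  have e1 : ∀ᶠ p : ℝ × ℝ × V in 𝓝 (s, t, C.e i' x),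
      B.Fl p.1 p.2.1 ((C.e i').symm p.2.2) ∈ (C.e j).source := by
    refine hcz.eventually ?_
    rw [hv]
    exact (C.e j).open_source.mem_nhds hj
  have e2 : ∀ᶠ p : ℝ × ℝ × V in 𝓝 (s, t, C.e i' x), p.2.2 ∈ C.ov i' i :=
    (continuousAt_snd.comp continuousAt_snd).eventually ((RCh.isOpen_ov i' i).mem_nhds hz)
  filter_upwards [e1, e2] with p hp1 hp2
  show C.e j' (B.Fl p.1 p.2.1 ((C.e i').symm p.2.2)) =
    C.e j' ((C.e j).symm (C.e j (B.Fl p.1 p.2.1 ((C.e i).symm (C.e i ((C.e i').symm p.2.2))))))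
  rw [(C.e i).left_inv hp2.2, (C.e j).left_inv hp1]

/-- smoothness for short times -/
theorem Good.sm {ε : ℝ} {s t : ℝ} {x : X} (h : B.Good ε (s, x)) (ht : |t - s| < ε) :
    B.Sm s t x := by
  obtain ⟨i, hi, W, hW, hp, hU, hd⟩ := h
  -- the flow is given by the local flow
  have key : ∀ q ∈ W, ∀ r, |r - q.1| < ε →
      B.Fl q.1 r ((C.e i).symm q.2) = (C.e i).symm (B.lf i (q, r - q.1)).2 := by
    intro q hq r hr
    have hic : B.IC (fun r => (C.e i).symm (B.lf i ((q.1, q.2), r - q.1)).2)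
        (Ioo (q.1 - ε) (q.1 + ε)) := ic_lf fun r hr => hd _ hq _ (by
          rw [abs_lt]
          constructor <;> linarith [hr.1, hr.2])
    have hε : 0 < ε := (abs_nonneg _).trans_lt hr
    have h1 := Fl_unique isOpen_Ioo isPreconnected_Ioo hic (s := q.1)
      ⟨by linarith, by linarith⟩ r (by
        rw [abs_lt] at hr
        exact ⟨by linarith [hr.1], by linarith [hr.2]⟩)
    have h2 : (C.e i).symm (B.lf i ((q.1, q.2), q.1 - q.1)).2 = (C.e i).symm q.2 := by
      rw [sub_self, lf_zero (B.mem_U.1 (hU hq))]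
    rw [h2] at h1
    exact h1
  -- the set where the formula holds
  have hev : ∀ᶠ p : ℝ × ℝ × V in 𝓝 (s, t, C.e i x), (p.1, p.2.2) ∈ W ∧ |p.2.1 - p.1| < ε := by
    have c1 : Continuous (fun p : ℝ × ℝ × V => (p.1, p.2.2)) := by fun_prop
    have c2 : Continuous (fun p : ℝ × ℝ × V => |p.2.1 - p.1|) := by fun_prop
    have h9 : ∀ᶠ p : ℝ × ℝ × V in 𝓝 (s, t, C.e i x), |p.2.1 - p.1| < ε :=
      c2.continuousAt.eventually (Iio_mem_nhds ht)
    exact (c1.continuousAt.eventually (hW.mem_nhds hp)).and h9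
  -- smoothness of the local flow
  have h3 : ContDiffAt ℝ ∞ (fun p : ℝ × ℝ × V => (B.lf i ((p.1, p.2.2), p.2.1 - p.1)).2)
      (s, t, C.e i x) := by
    have h4 : ContDiffOn ℝ ∞ (B.lf i) (B.ld i) :=
      contDiffOn_flow (n := ⊤) (by simp) (B.isOpen_U i) (B.contDiffOn_vt i)
    have h5 : ContDiffAt ℝ ∞ (B.lf i) ((s, C.e i x), t - s) :=
      h4.contDiffAt (isOpen_ld i |>.mem_nhds (hd _ hp _ ht))
    have h6 : ContDiffAt ℝ ∞ (fun p : ℝ × ℝ × V => ((p.1, p.2.2), p.2.1 - p.1)) (s, t, C.e i x) := by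
      fun_prop
    exact (ContDiffAt.comp (g := B.lf i) (s, t, C.e i x) h5 h6).snd
  have ht2 : (B.lf i ((s, C.e i x), t - s)).2 ∈ (C.e i).target := lf_mem (hd _ hp _ ht)
  have hFl : B.Fl s t x = (C.e i).symm (B.lf i ((s, C.e i x), t - s)).2 := by
    have := key _ hp t ht
    rwa [(C.e i).left_inv hi] at this
  -- continuity
  have hc : ContinuousAt (fun p : ℝ × ℝ × X => B.Fl p.1 p.2.1 p.2.2) (s, t, x) := by
    have h7 : ContinuousAt (fun p : ℝ × ℝ × X => (p.1, p.2.1, C.e i p.2.2)) (s, t, x) := by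
      refine continuousAt_fst.prodMk ((continuousAt_fst.comp continuousAt_snd).prodMk ?_)
      exact ContinuousAt.comp (g := C.e i) (f := fun p : ℝ × ℝ × X => p.2.2)
        ((C.e i).continuousAt hi) (continuousAt_snd.comp continuousAt_snd)
    have h8 : ContinuousAt (fun p : ℝ × ℝ × X =>
        (C.e i).symm (B.lf i ((p.1, C.e i p.2.2), p.2.1 - p.1)).2) (s, t, x) := by
      refine ContinuousAt.comp (g := (C.e i).symm) (f := fun p : ℝ × ℝ × X =>
        (B.lf i ((p.1, C.e i p.2.2), p.2.1 - p.1)).2) ((C.e i).continuousAt_symm ht2) ?_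
      exact ContinuousAt.comp (g := fun p : ℝ × ℝ × V => (B.lf i ((p.1, p.2.2), p.2.1 - p.1)).2)
        (f := fun p : ℝ × ℝ × X => (p.1, p.2.1, C.e i p.2.2)) h3.continuousAt h7
    refine h8.congr ?_
    have hs : ∀ᶠ p : ℝ × ℝ × X in 𝓝 (s, t, x), p.2.2 ∈ (C.e i).source :=
      (continuousAt_snd.comp continuousAt_snd).eventually ((C.e i).open_source.mem_nhds hi)
    filter_upwards [h7.eventually hev, hs] with p hp1 hp2
    have := key _ hp1.1 p.2.1 hp1.2
    rw [(C.e i).left_inv hp2] at this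
    exact this.symm
  have hj : B.Fl s t x ∈ (C.e i).source := by
    rw [hFl]
    exact (C.e i).map_target ht2
  refine sm_of_chart hc hi hj (h3.congr_of_eventuallyEq ?_)
  filter_upwards [hev] with p hp1
  show C.e i (B.Fl p.1 p.2.1 ((C.e i).symm p.2.2)) = _
  rw [key _ hp1.1 p.2.1 hp1.2]
  exact (C.e i).right_inv (lf_mem (hd _ hp1.1 _ hp1.2))

/-- composition -/
theorem Sm.comp {s r t : ℝ} {x : X} (h1 : B.Sm s r x) (h2 : B.Sm r t (B.Fl s r x)) :
    B.Sm s t x := by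
  have hval : B.Fl r t (B.Fl s r x) = B.Fl s t x := Fl_comp s r t x
  have hc1 : ContinuousAt (fun p : ℝ × ℝ × X => B.Fl p.1 r p.2.2) (s, t, x) := by
    have h3 : ContinuousAt (fun p : ℝ × ℝ × X => (p.1, r, p.2.2)) (s, t, x) := by
      refine continuousAt_fst.prodMk (continuousAt_const.prodMk ?_)
      exact continuousAt_snd.comp continuousAt_snd
    exact ContinuousAt.comp (g := fun p : ℝ × ℝ × X => B.Fl p.1 p.2.1 p.2.2)
      (f := fun p : ℝ × ℝ × X => (p.1, r, p.2.2)) h1.1 h3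
  have hc : ContinuousAt (fun p : ℝ × ℝ × X => B.Fl p.1 p.2.1 p.2.2) (s, t, x) := by
    have h3 : ContinuousAt (fun p : ℝ × ℝ × X => (r, p.2.1, B.Fl p.1 r p.2.2)) (s, t, x) :=
      continuousAt_const.prodMk ((continuousAt_fst.comp continuousAt_snd).prodMk hc1)
    have h4 := ContinuousAt.comp (g := fun p : ℝ × ℝ × X => B.Fl p.1 p.2.1 p.2.2)
      (f := fun p : ℝ × ℝ × X => (r, p.2.1, B.Fl p.1 r p.2.2)) (x := (s, t, x)) h2.1 h3
    refine h4.congr (Eventually.of_forall fun p => ?_)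
    exact Fl_comp p.1 r p.2.1 p.2.2
  obtain ⟨i, hi⟩ := C.cover x
  obtain ⟨k, hk⟩ := C.cover (B.Fl s r x)
  obtain ⟨j, hj⟩ := C.cover (B.Fl s t x)
  refine sm_of_chart hc hi hj ?_
  have a1 : ContDiffAt ℝ ∞ (fun p : ℝ × ℝ × V => B.rd i k (p.1, r, p.2.2)) (s, t, C.e i x) := by
    have h3 : ContDiffAt ℝ ∞ (fun p : ℝ × ℝ × V => (p.1, r, p.2.2)) (s, t, C.e i x) := by fun_prop
    exact ContDiffAt.comp (g := B.rd i k) (f := fun p : ℝ × ℝ × V => (p.1, r, p.2.2))
      (s, t, C.e i x) (h1.2 i k hi hk) h3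
  have a2 : B.rd i k (s, r, C.e i x) = C.e k (B.Fl s r x) := by
    show C.e k (B.Fl s r ((C.e i).symm (C.e i x))) = _
    rw [(C.e i).left_inv hi]
  have a3 : ContDiffAt ℝ ∞ (B.rd k j) (r, t, C.e k (B.Fl s r x)) :=
    h2.2 k j hk (by rw [hval]; exact hj)
  have a4 : ContDiffAt ℝ ∞ (fun p : ℝ × ℝ × V => B.rd k j (r, p.2.1, B.rd i k (p.1, r, p.2.2)))
      (s, t, C.e i x) := by
    have h3 : ContDiffAt ℝ ∞ (fun p : ℝ × ℝ × V => (r, p.2.1, B.rd i k (p.1, r, p.2.2)))
        (s, t, C.e i x) := contDiffAt_const.prodMk (contDiffAt_snd.fst.prodMk a1)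
    refine ContDiffAt.comp (g := B.rd k j)
      (f := fun p : ℝ × ℝ × V => (r, p.2.1, B.rd i k (p.1, r, p.2.2))) (s, t, C.e i x) ?_ h3
    show ContDiffAt ℝ ∞ (B.rd k j) (r, t, B.rd i k (s, r, C.e i x))
    rw [a2]
    exact a3
  refine a4.congr_of_eventuallyEq ?_
  have hcz : ContinuousAt (fun p : ℝ × ℝ × V => B.Fl p.1 r ((C.e i).symm p.2.2))
      (s, t, C.e i x) := by
    have h7 : ContinuousAt (fun p : ℝ × ℝ × V => (p.1, p.2.1, (C.e i).symm p.2.2))
        (s, t, C.e i x) := by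
      refine continuousAt_fst.prodMk ((continuousAt_fst.comp continuousAt_snd).prodMk ?_)
      exact ContinuousAt.comp (g := (C.e i).symm) (f := fun p : ℝ × ℝ × V => p.2.2)
        ((C.e i).continuousAt_symm ((C.e i).map_source hi)) (continuousAt_snd.comp continuousAt_snd)
    refine ContinuousAt.comp (g := fun p : ℝ × ℝ × X => B.Fl p.1 r p.2.2)
      (f := fun p : ℝ × ℝ × V => (p.1, p.2.1, (C.e i).symm p.2.2)) ?_ h7
    show ContinuousAt _ (s, t, (C.e i).symm (C.e i x))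
    rw [(C.e i).left_inv hi]
    exact hc1
  have e1 : ∀ᶠ p : ℝ × ℝ × V in 𝓝 (s, t, C.e i x),
      B.Fl p.1 r ((C.e i).symm p.2.2) ∈ (C.e k).source := by
    refine hcz.eventually ?_
    show _ ∈ 𝓝 (B.Fl s r ((C.e i).symm (C.e i x)))
    rw [(C.e i).left_inv hi]
    exact (C.e k).open_source.mem_nhds hk
  filter_upwards [e1] with p hp1
  show C.e j (B.Fl p.1 p.2.1 ((C.e i).symm p.2.2)) =
    C.e j (B.Fl r p.2.1 ((C.e k).symm (C.e k (B.Fl p.1 r ((C.e i).symm p.2.2)))))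
  rw [(C.e k).left_inv hp1, Fl_comp]

/-- **the flow is smooth** -/
theorem sm_all (B : TVF C) (s t : ℝ) (x : X) : B.Sm s t x := by
  set T := |s| + |t| with hT
  obtain ⟨ε, hε, hg⟩ := exists_good B T
  have hsT : s ∈ Icc (-T) T := by
    constructor <;> [have := neg_abs_le s; have := le_abs_self s] <;>
      have := abs_nonneg t <;> linarith
  have htT : t ∈ Icc (-T) T := by
    constructor <;> [have := neg_abs_le t; have := le_abs_self t] <;>
      have := abs_nonneg s <;> linarith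
  have step : ∀ n : ℕ, ∀ s ∈ Icc (-T) T, ∀ t ∈ Icc (-T) T, ∀ x : X,
      |t - s| < (n + 1) * (ε / 2) → B.Sm s t x := by
    intro n
    induction n with
    | zero =>
      intro s hs t ht x h
      refine (hg s hs x).sm (h.trans_le ?_)
      simp only [Nat.cast_zero, zero_add, one_mul]
      linarith
    | succ n ih =>
      intro s hs t ht x h
      push_cast at h
      by_cases h0 : |t - s| < (n + 1) * (ε / 2)
      · exact ih s hs t ht x h0
      · push Not at h0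
        -- the intermediate point
        rcases le_total s t with hst | hst
        · rw [abs_of_nonneg (by linarith)] at h h0
          have hr : s + ε / 2 ≤ t := by
            have : (0 : ℝ) ≤ n * (ε / 2) := by positivity
            nlinarith
          have hrT : s + ε / 2 ∈ Icc (-T) T := ⟨by linarith [hs.1], hr.trans ht.2⟩
          have h1 : B.Sm s (s + ε / 2) x := (hg s hs x).sm (by
            rw [add_sub_cancel_left, abs_of_pos (by linarith)]
            linarith)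
          exact h1.comp (ih _ hrT t ht _ (by
            rw [abs_of_nonneg (by linarith)]
            nlinarith))
        · rw [abs_of_nonpos (by linarith)] at h h0
          have hr : t ≤ s - ε / 2 := by
            have : (0 : ℝ) ≤ n * (ε / 2) := by positivity
            nlinarith
          have hrT : s - ε / 2 ∈ Icc (-T) T := ⟨ht.1.trans hr, by linarith [hs.2]⟩
          have h1 : B.Sm s (s - ε / 2) x := (hg s hs x).sm (by
            rw [sub_sub_cancel_left, abs_neg, abs_of_pos (by linarith)]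
            linarith)
          exact h1.comp (ih _ hrT t ht _ (by
            rw [abs_of_nonpos (by linarith)]
            nlinarith))
  obtain ⟨n, hn⟩ := exists_nat_ge (|t - s| / (ε / 2))
  refine step n s hsT t htT x ?_
  rw [div_le_iff₀ (by positivity)] at hn
  linarith

theorem Fl_continuous (B : TVF C) : Continuous (fun p : ℝ × ℝ × X => B.Fl p.1 p.2.1 p.2.2) :=
  continuous_iff_continuousAt.2 fun p => (sm_all B p.1 p.2.1 p.2.2).1

/-- the flow read in charts is smooth in `(s, t, z)` -/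
theorem rd_contDiffAt (B : TVF C) {s t : ℝ} {x : X} {i j : C.ι} (hi : x ∈ (C.e i).source)
    (hj : B.Fl s t x ∈ (C.e j).source) : ContDiffAt ℝ ∞ (B.rd i j) (s, t, C.e i x) :=
  (sm_all B s t x).2 i j hi hj

/-- the homeomorphism `Fl s t` -/
def homeo (B : TVF C) (s t : ℝ) : X ≃ₜ X where
  toFun := B.Fl s t
  invFun := B.Fl t s
  left_inv x := Fl_inv s t x
  right_inv x := Fl_inv t s x
  continuous_toFun := (Fl_continuous B).comp (by fun_prop : Continuous fun x : X => (s, t, x))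
  continuous_invFun := (Fl_continuous B).comp (by fun_prop : Continuous fun x : X => (t, s, x))

end TVF

end Crest.Agent.R281.Flo_222

end
end

-- ▼ part R281/Flo4_222
section

/-!
# Row 281, HK-ISO (I2) (helper222): the flow and closed 2-forms, Moser's trick

* `hasDerivAt_dflow` : `∂ₜ (D_z Φ u) = D b (D_z Φ u)`
* `hasDerivAt_pull`  : `d/dt (Φₜ^* wₜ) = Φₜ^* (wₜ' + d ι_b wₜ)` in charts
* `TVF.flS s t`      : the flow as a `SMap C C`
* `TVF.moser`        : `wₜ' + d ι_b wₜ = 0` ⟹ `(flS s t)^* wₜ = w_s`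
-/

set_option autoImplicit false
set_option linter.unusedSectionVars false

open Set Filter Topology
open scoped ContDiff

noncomputable section

namespace Crest.Agent.R281.Flo_222

open Crest.Agent.R281.HkR_835 Crest.Agent.R281.Dif_268

section loc

variable {V : Type} [NormedAddCommGroup V] [NormedSpace ℝ V]

theorem fd_snd {W : Type*} [NormedAddCommGroup W] [NormedSpace ℝ W] {g : ℝ × V → W} {t : ℝ} {z : V}
    (hg : DifferentiableAt ℝ g (t, z)) :
    HasFDerivAt (fun y : V => g (t, y)) ((fderiv ℝ g (t, z)).comp (ContinuousLinearMap.inr ℝ ℝ V))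
      z :=
  HasFDerivAt.comp (g := g) (f := fun y : V => (t, y)) z hg.hasFDerivAt
    (hasFDerivAt_prodMk_right t z)

theorem fd_snd_apply {W : Type*} [NormedAddCommGroup W] [NormedSpace ℝ W] {g : ℝ × V → W} {t : ℝ}
    {z : V} (hg : DifferentiableAt ℝ g (t, z)) (u : V) :
    fderiv ℝ (fun y : V => g (t, y)) z u = fderiv ℝ g (t, z) (0, u) := by
  rw [(fd_snd hg).fderiv]
  simp

theorem hd_curve {W : Type*} [NormedAddCommGroup W] [NormedSpace ℝ W] {g : ℝ × V → W} {t : ℝ}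
    {c : ℝ → V} {c' : V} (hg : DifferentiableAt ℝ g (t, c t)) (hc : HasDerivAt c c' t) :
    HasDerivAt (fun s : ℝ => g (s, c s)) (fderiv ℝ g (t, c t) (1, c')) t := by
  have h1 : HasDerivAt (fun s : ℝ => (s, c s)) ((1 : ℝ), c') t := (hasDerivAt_id t).prodMk hc
  have h2 : HasFDerivAt g (fderiv ℝ g (t, c t)) ((fun s : ℝ => (s, c s)) t) := hg.hasFDerivAt
  exact h2.comp_hasDerivAt t h1

/-- the differential of the flow solves the linearised equation -/
theorem hasDerivAt_dflow {Φ : ℝ × V → V} {b : ℝ × V → V} {t : ℝ} {z : V}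
    (hΦ : ContDiffAt ℝ ∞ Φ (t, z)) (hb : DifferentiableAt ℝ b (t, Φ (t, z)))
    (he : ∀ᶠ p : ℝ × V in 𝓝 (t, z), HasDerivAt (fun s => Φ (s, p.2)) (b (p.1, Φ p)) p.1) (u : V) :
    HasDerivAt (fun s => fderiv ℝ (fun y => Φ (s, y)) z u)
      (fderiv ℝ (fun y => b (t, y)) (Φ (t, z)) (fderiv ℝ (fun y => Φ (t, y)) z u)) t := by
  have hd : ∀ᶠ p : ℝ × V in 𝓝 (t, z), DifferentiableAt ℝ Φ p := by
    have h1 : ContDiffAt ℝ 1 Φ (t, z) := hΦ.of_le (by simp)
    filter_upwards [h1.eventually (by decide)] with p hp using hp.differentiableAt (by simp)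
  have hd2 : DifferentiableAt ℝ (fderiv ℝ Φ) (t, z) :=
    (hΦ.fderiv_right (m := ∞) (by simp)).differentiableAt (by simp)
  -- partial derivatives
  have hy : ∀ p : ℝ × V, DifferentiableAt ℝ Φ p → ∀ u,
      fderiv ℝ (fun y => Φ (p.1, y)) p.2 u = fderiv ℝ Φ p (0, u) := by
    intro p hp u
    exact fd_snd_apply (t := p.1) (z := p.2) hp u
  have hs : ∀ᶠ p : ℝ × V in 𝓝 (t, z), fderiv ℝ Φ p (1, 0) = b (p.1, Φ p) := by
    filter_upwards [hd, he] with p hp hpe
    exact (hd_curve (c := fun _ => p.2) hp (hasDerivAt_const p.1 p.2)).unique hpe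
  -- the second derivative
  have hsym : fderiv ℝ (fderiv ℝ Φ) (t, z) (1, 0) (0, u) =
      fderiv ℝ (fderiv ℝ Φ) (t, z) (0, u) (1, 0) :=
    (hΦ.isSymmSndFDerivAt (by
      rw [minSmoothness_of_isRCLikeNormedField]; exact WithTop.coe_le_coe.2 le_top)) _ _
  have h3 : HasDerivAt (fun s : ℝ => fderiv ℝ Φ (s, z) (0, u))
      (fderiv ℝ (fderiv ℝ Φ) (t, z) (1, 0) (0, u)) t := by
    have h5 := (hd_curve (c := fun _ => z) hd2 (hasDerivAt_const t z)).clm_apply
      (hasDerivAt_const t ((0 : ℝ), u))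
    simpa using h5
  have h6 : fderiv ℝ (fderiv ℝ Φ) (t, z) (0, u) (1, 0) =
      fderiv ℝ b (t, Φ (t, z)) (0, fderiv ℝ Φ (t, z) (0, u)) := by
    have h4 : HasFDerivAt (fun p => fderiv ℝ Φ p (1, 0)) _ (t, z) :=
      hd2.hasFDerivAt.clm_apply (hasFDerivAt_const ((1 : ℝ), (0 : V)) (t, z))
    have h7 : HasFDerivAt (fun p : ℝ × V => (p.1, Φ p))
        ((ContinuousLinearMap.fst ℝ ℝ V).prod (fderiv ℝ Φ (t, z))) (t, z) :=
      hasFDerivAt_fst.prodMk hd.self_of_nhds.hasFDerivAt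
    have h8 : HasFDerivAt (fun p : ℝ × V => b (p.1, Φ p)) _ (t, z) :=
      HasFDerivAt.comp (g := b) (f := fun p : ℝ × V => (p.1, Φ p)) (t, z) hb.hasFDerivAt h7
    have h9 := h4.unique (h8.congr_of_eventuallyEq hs)
    have h10 := congrArg (fun T : ℝ × V →L[ℝ] V => T (0, u)) h9
    simpa using h10
  have h11 : fderiv ℝ (fun y => b (t, y)) (Φ (t, z)) (fderiv ℝ (fun y => Φ (t, y)) z u) =
      fderiv ℝ b (t, Φ (t, z)) (0, fderiv ℝ Φ (t, z) (0, u)) := by
    rw [fd_snd_apply hb, hy (t, z) hd.self_of_nhds u]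
  rw [h11, ← h6, ← hsym]
  refine h3.congr_of_eventuallyEq ?_
  have hc : ContinuousAt (fun s : ℝ => (s, z)) t := by fun_prop
  filter_upwards [hc.eventually hd] with s hs'
  exact hy (s, z) hs' u

/-- `d ι_b w`, in a chart -/
def dι (w : V → Bil V) (b : V → V) (z u v : V) : ℝ :=
  fderiv ℝ (fun y => w y (b y)) z u v - fderiv ℝ (fun y => w y (b y)) z v u

theorem dι_eq {w : V → Bil V} {b : V → V} {z : V} (hw : DifferentiableAt ℝ w z)
    (hb : DifferentiableAt ℝ b z) (ha : ∀ᶠ y in 𝓝 z, ∀ u v, w y u v = -w y v u)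
    (hc : ∀ a b c, fderiv ℝ w z a b c + fderiv ℝ w z b c a + fderiv ℝ w z c a b = 0) (u v : V) :
    dι w b z u v = fderiv ℝ w z (b z) u v + w z (fderiv ℝ b z u) v + w z u (fderiv ℝ b z v) := by
  have h1 : HasFDerivAt (fun y => w y (b y)) _ z := hw.hasFDerivAt.clm_apply hb.hasFDerivAt
  have h2 : ∀ a c, fderiv ℝ (fun y => w y (b y)) z a c =
      fderiv ℝ w z a (b z) c + w z (fderiv ℝ b z a) c := by
    intro a c
    rw [h1.fderiv]
    simp only [add_apply, ContinuousLinearMap.comp_apply, ContinuousLinearMap.flip_apply]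
    ring
  have h3 : fderiv ℝ w z v u (b z) = -fderiv ℝ w z v (b z) u := by
    rw [← fderiv_app hw, ← fderiv_app hw]
    have : (fun y => w y u (b z)) =ᶠ[𝓝 z] fun y => -w y (b z) u := by
      filter_upwards [ha] with y hy using hy u (b z)
    rw [this.fderiv_eq, fderiv_fun_neg]
    rfl
  have h3' : fderiv ℝ w z u v (b z) = -fderiv ℝ w z u (b z) v := by
    rw [← fderiv_app hw, ← fderiv_app hw]
    have : (fun y => w y v (b z)) =ᶠ[𝓝 z] fun y => -w y (b z) v := by
      filter_upwards [ha] with y hy using hy v (b z)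
    rw [this.fderiv_eq, fderiv_fun_neg]
    rfl
  have h4 := hc (b z) u v
  have h5 := ha.self_of_nhds (fderiv ℝ b z v) u
  rw [dι, h2, h2, h5]
  linarith

/-- **derivative of the pull back of a family of forms by a flow**, in a chart -/
theorem hasDerivAt_pull {Φ : ℝ × V → V} {b : ℝ × V → V} {w : ℝ × V → Bil V} {t : ℝ} {z : V}
    (hΦ : ContDiffAt ℝ ∞ Φ (t, z)) (hb : DifferentiableAt ℝ b (t, Φ (t, z)))
    (hw : DifferentiableAt ℝ w (t, Φ (t, z)))
    (he : ∀ᶠ p : ℝ × V in 𝓝 (t, z), HasDerivAt (fun s => Φ (s, p.2)) (b (p.1, Φ p)) p.1)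
    (ha : ∀ᶠ y in 𝓝 (Φ (t, z)), ∀ u v, w (t, y) u v = -w (t, y) v u)
    (hc : ∀ a b c, fderiv ℝ (fun y => w (t, y)) (Φ (t, z)) a b c +
      fderiv ℝ (fun y => w (t, y)) (Φ (t, z)) b c a +
      fderiv ℝ (fun y => w (t, y)) (Φ (t, z)) c a b = 0) (u v : V) :
    HasDerivAt (fun s => w (s, Φ (s, z)) (fderiv ℝ (fun y => Φ (s, y)) z u)
        (fderiv ℝ (fun y => Φ (s, y)) z v))
      (deriv (fun s => w (s, Φ (t, z)) (fderiv ℝ (fun y => Φ (t, y)) z u)
          (fderiv ℝ (fun y => Φ (t, y)) z v)) t +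
        dι (fun y => w (t, y)) (fun y => b (t, y)) (Φ (t, z))
          (fderiv ℝ (fun y => Φ (t, y)) z u) (fderiv ℝ (fun y => Φ (t, y)) z v)) t := by
  set P := fderiv ℝ (fun y => Φ (t, y)) z u with hP
  set Q := fderiv ℝ (fun y => Φ (t, y)) z v with hQ
  have h1 := hasDerivAt_dflow hΦ hb he u
  have h2 := hasDerivAt_dflow hΦ hb he v
  have h0 : HasDerivAt (fun s => Φ (s, z)) (b (t, Φ (t, z))) t := he.self_of_nhds
  have h4 : HasDerivAt (fun s => w (s, Φ (s, z)))
      (fderiv ℝ w (t, Φ (t, z)) (1, b (t, Φ (t, z)))) t :=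
    hd_curve (g := w) (c := fun s => Φ (s, z)) hw h0
  have h5 := (h4.clm_apply h1).clm_apply h2
  have hwt : DifferentiableAt ℝ (fun y => w (t, y)) (Φ (t, z)) :=
    (fd_snd (g := w) (t := t) (z := Φ (t, z)) hw).differentiableAt
  have hbt : DifferentiableAt ℝ (fun y => b (t, y)) (Φ (t, z)) :=
    (fd_snd (g := b) (t := t) (z := Φ (t, z)) hb).differentiableAt
  have h6 : HasDerivAt (fun s => w (s, Φ (t, z)) P Q)
      (fderiv ℝ w (t, Φ (t, z)) (1, 0) P Q) t := by
    have h7 : HasDerivAt (fun s => w (s, Φ (t, z))) (fderiv ℝ w (t, Φ (t, z)) (1, 0)) t :=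
      hd_curve (g := w) (c := fun _ => Φ (t, z)) hw (hasDerivAt_const t _)
    have h8 := (h7.clm_apply (hasDerivAt_const t P)).clm_apply (hasDerivAt_const t Q)
    simpa using h8
  have h9 : fderiv ℝ (fun y => w (t, y)) (Φ (t, z)) (b (t, Φ (t, z))) =
      fderiv ℝ w (t, Φ (t, z)) (0, b (t, Φ (t, z))) :=
    fd_snd_apply (g := w) (t := t) (z := Φ (t, z)) hw _
  have h10 : fderiv ℝ w (t, Φ (t, z)) (1, b (t, Φ (t, z))) =
      fderiv ℝ w (t, Φ (t, z)) (1, 0) + fderiv ℝ w (t, Φ (t, z)) (0, b (t, Φ (t, z))) := by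
    rw [← map_add]
    simp
  rw [h6.deriv, dι_eq hwt hbt ha hc, h9]
  rw [h10] at h5
  refine h5.congr_deriv ?_
  simp only [add_apply]
  ring

end loc

namespace TVF

variable {V X : Type} [NormedAddCommGroup V] [NormedSpace ℝ V] [TopologicalSpace X]
  [CompleteSpace V] [CompactSpace X] [T2Space X] {C : RCh V X}

/-- the flow as a smooth map -/
def flS (B : TVF C) (s t : ℝ) : SMap C C where
  f := B.Fl s t
  cont := (B.homeo s t).continuous
  sm j i := by
    intro z hz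
    have h1 : (C.e i).symm z ∈ (C.e i).source := (C.e i).map_target hz.1
    have h2 := B.rd_contDiffAt h1 hz.2
    rw [(C.e i).right_inv hz.1] at h2
    have h3 : ContDiffAt ℝ ∞ (fun y : V => (s, t, y)) z := by fun_prop
    exact (ContDiffAt.comp (g := B.rd i j) (f := fun y : V => (s, t, y)) z h2 h3).contDiffWithinAt

@[simp] theorem flS_f (B : TVF C) (s t : ℝ) : (B.flS s t).f = B.Fl s t := rfl

/-- **Moser's trick**: if `∂ₜ wₜ + d (ι_b wₜ) = 0` then the flow of `b` transports `w_s` to `wₜ` -/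
theorem moser (B : TVF C) (w : ℝ → F2 C)
    (hs : ∀ i, DifferentiableOn ℝ (fun p : ℝ × V => (w p.1).w i p.2) (univ ×ˢ (C.e i).target))
    (hd : ∀ i t, ∀ z ∈ (C.e i).target, ∀ u v,
      deriv (fun s => (w s).w i z u v) t + dι ((w t).w i) (fun y => B.b i (t, y)) z u v = 0)
    (s t : ℝ) : Eqv ((B.flS s t).pull (w t)) (w s) := by
  intro i z hz u v
  set x := (C.e i).symm z with hx
  have hxi : x ∈ (C.e i).source := (C.e i).map_target hz
  have hez : C.e i x = z := (C.e i).right_inv hz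
  -- the function is constant
  have key : ∀ t, HasDerivAt (fun t => ((B.flS s t).pull (w t)).w i z u v) 0 t := by
    intro t
    obtain ⟨j, hj⟩ := C.cover (B.Fl s t x)
    set Φ : ℝ × V → V := fun p => B.rd i j (s, p.1, p.2) with hΦdef
    have hΦ : ContDiffAt ℝ ∞ Φ (t, z) := by
      have h2 := B.rd_contDiffAt hxi hj
      rw [hez] at h2
      have h3 : ContDiffAt ℝ ∞ (fun p : ℝ × V => (s, p.1, p.2)) (t, z) := by fun_prop
      exact ContDiffAt.comp (g := B.rd i j) (f := fun p : ℝ × V => (s, p.1, p.2)) (t, z) h2 h3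
    have hmem : ∀ᶠ p : ℝ × V in 𝓝 (t, z), p.2 ∈ (C.e i).target ∧
        B.Fl s p.1 ((C.e i).symm p.2) ∈ (C.e j).source := by
      have h4 : ContinuousAt (fun p : ℝ × V => (s, p.1, (C.e i).symm p.2)) (t, z) := by
        refine continuousAt_const.prodMk (continuousAt_fst.prodMk ?_)
        exact ContinuousAt.comp (g := (C.e i).symm) (f := fun p : ℝ × V => p.2)
          ((C.e i).continuousAt_symm hz) continuousAt_snd
      have h5 : ContinuousAt (fun p : ℝ × V => B.Fl s p.1 ((C.e i).symm p.2)) (t, z) :=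
        ContinuousAt.comp (g := fun p : ℝ × ℝ × X => B.Fl p.1 p.2.1 p.2.2)
          (f := fun p : ℝ × V => (s, p.1, (C.e i).symm p.2)) (Fl_continuous B).continuousAt h4
      exact (continuousAt_snd.eventually ((C.e i).open_target.mem_nhds hz)).and
        (h5.eventually ((C.e j).open_source.mem_nhds hj))
    have hΦz : Φ (t, z) = C.e j (B.Fl s t x) := rfl
    have hΦt : Φ (t, z) ∈ (C.e j).target := (C.e j).map_source hj
    have he : ∀ᶠ p : ℝ × V in 𝓝 (t, z),
        HasDerivAt (fun r => Φ (r, p.2)) (B.b j (p.1, Φ p)) p.1 := by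
      filter_upwards [hmem] with p hp
      exact Fl_hasDerivAt hp.2
    have hopen : IsOpen ((univ : Set ℝ) ×ˢ (C.e j).target) := isOpen_univ.prod (C.e j).open_target
    have hb : DifferentiableAt ℝ (B.b j) (t, Φ (t, z)) :=
      ((B.sm j).contDiffAt (hopen.mem_nhds ⟨mem_univ _, hΦt⟩)).differentiableAt (by simp)
    have hw : DifferentiableAt ℝ (fun p : ℝ × V => (w p.1).w j p.2) (t, Φ (t, z)) :=
      (hs j _ ⟨mem_univ _, hΦt⟩).differentiableAt (hopen.mem_nhds ⟨mem_univ _, hΦt⟩)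
    have h6 := hasDerivAt_pull (w := fun p : ℝ × V => (w p.1).w j p.2) hΦ hb hw he
      (by
        filter_upwards [(C.e j).open_target.mem_nhds hΦt] with y hy using (w t).alt j y hy)
      ((w t).closed j _ hΦt) u v
    rw [hd j t _ hΦt] at h6
    refine h6.congr_of_eventuallyEq ?_
    have hc : ContinuousAt (fun r : ℝ => (r, z)) t := by fun_prop
    filter_upwards [hc.eventually hmem] with r hr
    have h7 : z ∈ Dif_268.dom C C (B.flS s r).f j i := ⟨hz, hr.2⟩
    rw [(B.flS s r).pull_w (w r) h7]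
    rfl
  have hconst : ((B.flS s t).pull (w t)).w i z u v = ((B.flS s s).pull (w s)).w i z u v := by
    have hdiff : Differentiable ℝ (fun t => ((B.flS s t).pull (w t)).w i z u v) :=
      fun t => (key t).differentiableAt
    exact is_const_of_deriv_eq_zero hdiff (fun t => (key t).deriv) t s
  rw [hconst]
  -- the flow at time `s` is the identity
  have h8 : (B.flS s s).f = _root_.id := by
    funext y
    exact Fl_self s y
  have h9 : z ∈ Dif_268.dom C C (B.flS s s).f i i := ⟨hz, by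
    rw [h8]
    exact (C.e i).map_target hz⟩
  rw [(B.flS s s).pull_w (w s) h9]
  have h10 : Dif_268.loc C C (B.flS s s).f i i =ᶠ[𝓝 z] _root_.id := by
    filter_upwards [(C.e i).open_target.mem_nhds hz] with y hy
    show C.e i ((B.flS s s).f ((C.e i).symm y)) = y
    rw [h8]
    exact (C.e i).right_inv hy
  rw [h10.fderiv_eq, h10.eq_of_nhds]
  simp

end TVF

end Crest.Agent.R281.Flo_222

end
end

-- ▼ part R281/Iso2_139

/-!
# Row 281, HK-ISO, part 2 (helper139): Moser's vector field for holomorphic symplectic structures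

* `JS0`, `JS1`, `JS2`, `JSJ` : jointly smooth families (parameter `t : ℝ`)
* `HSF C`       : jointly smooth family of holomorphic symplectic structures `σ_t = w₁ + i w₂`, `J_t`
* `dotF`        : the `t`-derivative of a family of 1-forms
* `HSF.gam`     : `γ_t = β₁ ∘ J + β₂`, `gam_inv` : `dγ_t` is `J_t`-invariant
* `HSF.bf`      : `V_t = - w₁⁻¹ (β₁ - dp)`
* `HSF.iso`     : the flow of `V` transports `(w₁ s, w₂ s)` to `(w₁ t, w₂ t)`
-/

set_option autoImplicit false
set_option linter.unusedSectionVars false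

open Set Filter Topology
open scoped ContDiff

namespace Crest.Agent.R281.Iso_139

open Crest.Agent.R281.HkR_835 Crest.Agent.R260.ACM_580
open Crest.Agent.R281.Dif_268 Crest.Agent.R281.Flo_222
open Crest.Agent.R281.Ti_846 hiding pb pb_apply symm2 sm'

noncomputable section

variable {V X : Type} [NormedAddCommGroup V] [NormedSpace ℝ V] [TopologicalSpace X]
  {C : RCh V X}

/-! ### jointly smooth families -/

/-- jointly smooth family of functions -/
def JS0 (C : RCh V X) (f : ℝ → X → ℝ) : Prop :=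
  ∀ i, ContDiffOn ℝ ∞ (fun p : ℝ × V => f p.1 ((C.e i).symm p.2)) (univ ×ˢ (C.e i).target)

/-- jointly smooth family of 1-forms -/
def JS1 (η : ℝ → F1 C) : Prop :=
  ∀ i, ContDiffOn ℝ ∞ (fun p : ℝ × V => (η p.1).η i p.2) (univ ×ˢ (C.e i).target)

/-- jointly smooth family of closed 2-forms -/
def JS2 (w : ℝ → F2 C) : Prop :=
  ∀ i, ContDiffOn ℝ ∞ (fun p : ℝ × V => (w p.1).w i p.2) (univ ×ˢ (C.e i).target)

/-- jointly smooth family of fields of endomorphisms -/
def JSJ (C : RCh V X) (J : ℝ → C.ι → V → V →L[ℝ] V) : Prop :=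
  ∀ i, ContDiffOn ℝ ∞ (fun p : ℝ × V => J p.1 i p.2) (univ ×ˢ (C.e i).target)

/-- differential of a function in the chart `i` -/
def dX (C : RCh V X) (f : X → ℝ) (i : C.ι) (z : V) : V →L[ℝ] ℝ :=
  fderiv ℝ (fun y => f ((C.e i).symm y)) z

theorem isOpen_ut (i : C.ι) : IsOpen ((univ : Set ℝ) ×ˢ (C.e i).target) :=
  isOpen_univ.prod (C.e i).open_target

theorem mem_ut {i : C.ι} {t : ℝ} {z : V} (hz : z ∈ (C.e i).target) :
    (t, z) ∈ (univ : Set ℝ) ×ˢ (C.e i).target := ⟨mem_univ _, hz⟩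

section part

variable {W : Type*} [NormedAddCommGroup W] [NormedSpace ℝ W]

/-- slices of a jointly smooth map -/
theorem slice_sm {i : C.ι} {G : ℝ × V → W} (hG : ContDiffOn ℝ ∞ G (univ ×ˢ (C.e i).target))
    (t : ℝ) : ContDiffOn ℝ ∞ (fun z => G (t, z)) (C.e i).target :=
  hG.comp (contDiffOn_const.prodMk contDiffOn_id) fun _ hz => mem_ut hz

theorem cda {i : C.ι} {G : ℝ × V → W} (hG : ContDiffOn ℝ ∞ G (univ ×ˢ (C.e i).target))
    {t : ℝ} {z : V} (hz : z ∈ (C.e i).target) : ContDiffAt ℝ ∞ G (t, z) :=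
  hG.contDiffAt ((isOpen_ut i).mem_nhds (mem_ut hz))

theorem dfa {i : C.ι} {G : ℝ × V → W} (hG : ContDiffOn ℝ ∞ G (univ ×ˢ (C.e i).target))
    {t : ℝ} {z : V} (hz : z ∈ (C.e i).target) : DifferentiableAt ℝ G (t, z) :=
  (cda hG hz).differentiableAt (by simp)

/-- partial `t`-derivative -/
theorem hd_t {i : C.ι} {G : ℝ × V → W} (hG : ContDiffOn ℝ ∞ G (univ ×ˢ (C.e i).target))
    {t : ℝ} {z : V} (hz : z ∈ (C.e i).target) :
    HasDerivAt (fun s => G (s, z)) (fderiv ℝ G (t, z) (1, 0)) t :=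
  hd_curve (c := fun _ => z) (dfa hG hz) (hasDerivAt_const t z)

/-- the `t`-derivative is jointly smooth -/
theorem dt_sm {i : C.ι} {G : ℝ × V → W} (hG : ContDiffOn ℝ ∞ G (univ ×ˢ (C.e i).target)) :
    ContDiffOn ℝ ∞ (fun p => fderiv ℝ G p (1, 0)) (univ ×ˢ (C.e i).target) :=
  (hG.fderiv_of_isOpen (isOpen_ut i) (by simp)).clm_apply contDiffOn_const

/-- the `x`-derivative is jointly smooth -/
theorem dx_sm {i : C.ι} {G : ℝ × V → W} (hG : ContDiffOn ℝ ∞ G (univ ×ˢ (C.e i).target)) :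
    ContDiffOn ℝ ∞ (fun p : ℝ × V => fderiv ℝ (fun y => G (p.1, y)) p.2)
      (univ ×ˢ (C.e i).target) := by
  have h1 : ContDiffOn ℝ ∞ (fun p => (fderiv ℝ G p).comp (ContinuousLinearMap.inr ℝ ℝ V))
      (univ ×ˢ (C.e i).target) :=
    (hG.fderiv_of_isOpen (isOpen_ut i) (by simp)).clm_comp contDiffOn_const
  refine h1.congr fun p hp => ?_
  exact (fd_snd (g := G) (t := p.1) (z := p.2) (dfa hG hp.2)).fderiv

/-- partial derivatives commute -/
theorem dt_dx {i : C.ι} {G : ℝ × V → W} (hG : ContDiffOn ℝ ∞ G (univ ×ˢ (C.e i).target))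
    {t : ℝ} {z : V} (hz : z ∈ (C.e i).target) (u : V) :
    HasDerivAt (fun s => fderiv ℝ (fun y => G (s, y)) z u)
      (fderiv ℝ (fun y => fderiv ℝ G (t, y) (1, 0)) z u) t := by
  have hd2 : DifferentiableAt ℝ (fderiv ℝ G) (t, z) :=
    ((cda hG hz).fderiv_right (m := ∞) (by simp)).differentiableAt (by simp)
  have hsym : fderiv ℝ (fderiv ℝ G) (t, z) (1, 0) (0, u) =
      fderiv ℝ (fderiv ℝ G) (t, z) (0, u) (1, 0) :=
    ((cda hG hz).isSymmSndFDerivAt (by
      rw [minSmoothness_of_isRCLikeNormedField]; exact WithTop.coe_le_coe.2 le_top)) _ _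
  have h1 : (fun s => fderiv ℝ (fun y => G (s, y)) z u) =
      fun s => fderiv ℝ G (s, z) (0, u) := by
    funext s
    exact fd_snd_apply (dfa hG hz) u
  have h2 : HasDerivAt (fun s => fderiv ℝ G (s, z)) (fderiv ℝ (fderiv ℝ G) (t, z) (1, 0)) t :=
    hd_curve (c := fun _ => z) hd2 (hasDerivAt_const t z)
  have h3 := h2.clm_apply (hasDerivAt_const t ((0 : ℝ), u))
  have h4 : HasFDerivAt (fun y => fderiv ℝ G (t, y)) _ z := fd_snd hd2
  have h5 : HasFDerivAt (fun y => fderiv ℝ G (t, y) (1, 0)) _ z :=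
    h4.clm_apply (hasFDerivAt_const ((1 : ℝ), (0 : V)) z)
  rw [h1, h5.fderiv]
  simp only [map_zero, add_zero] at h3
  refine h3.congr_deriv ?_
  simp [hsym]

end part

/-! ### the `t`-derivative of a family of 1-forms -/

/-- the `t`-derivative of a jointly smooth family of 1-forms -/
def dotF (η : ℝ → F1 C) (h : JS1 η) (t : ℝ) : F1 C where
  η i z := fderiv ℝ (fun p : ℝ × V => (η p.1).η i p.2) (t, z) (1, 0)
  sm i := slice_sm (dt_sm (h i)) t
  tr i j z hz v := by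
    have hz' := (RCh.t_mem hz).1
    have h1 := (hd_t (t := t) (h i) hz.1).clm_apply (hasDerivAt_const t v)
    have h2 := (hd_t (t := t) (h j) hz').clm_apply
      (hasDerivAt_const t (fderiv ℝ (C.t i j) z v))
    have h3 := h1.unique (h2.congr_of_eventuallyEq (Eventually.of_forall fun s =>
      (η s).tr i j z hz v))
    simpa using h3

theorem dotF_js {η : ℝ → F1 C} (h : JS1 η) : JS1 (dotF η h) := fun i => dt_sm (h i)

theorem dotF_hd {η : ℝ → F1 C} (h : JS1 η) {i : C.ι} {t : ℝ} {z : V} (hz : z ∈ (C.e i).target)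
    (u v : V) : HasDerivAt (fun s => d1 ((η s).η i) z u v) (d1 ((dotF η h t).η i) z u v) t := by
  have key : ∀ u v, HasDerivAt (fun s => fderiv ℝ ((η s).η i) z u v)
      (fderiv ℝ ((dotF η h t).η i) z u v) t := by
    intro u v
    have h1 := (dt_dx (h i) hz u (t := t)).clm_apply (hasDerivAt_const t v)
    simp only [map_zero, add_zero] at h1
    exact h1
  exact (key u v).sub (key v u)

/-! ### families of holomorphic symplectic structures -/

/-- jointly smooth family of holomorphic symplectic structures, in real terms -/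
structure HSF (C : RCh V X) where
  w1 : ℝ → F2 C
  w2 : ℝ → F2 C
  J : ℝ → C.ι → V → V →L[ℝ] V
  js1 : JS2 w1
  js2 : JS2 w2
  jsJ : JSJ C J
  r1 : ∀ t i, ∀ z ∈ (C.e i).target, ∀ u v, (w1 t).w i z (J t i z u) v = -(w2 t).w i z u v
  r2 : ∀ t i, ∀ z ∈ (C.e i).target, ∀ u v, (w2 t).w i z (J t i z u) v = (w1 t).w i z u v
  nd : ∀ t i, ∀ z ∈ (C.e i).target, ∀ v, (∀ u, (w1 t).w i z v u = 0) → v = 0

namespace HSF

variable (H : HSF C) {t : ℝ} {i : C.ι} {z : V}

theorem J_sq (hz : z ∈ (C.e i).target) (v : V) : H.J t i z (H.J t i z v) = -v := by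
  rw [← add_eq_zero_iff_eq_neg]
  refine H.nd t i z hz _ fun u => ?_
  rw [map_add, add_apply, H.r1 t i z hz, H.r2 t i z hz]
  simp

theorem J_sm (t : ℝ) (i : C.ι) : ContDiffOn ℝ ∞ (H.J t i) (C.e i).target :=
  slice_sm (H.jsJ i) t

theorem J_tr {j : C.ι} (hz : z ∈ C.ov i j) (v : V) :
    fderiv ℝ (C.t i j) z (H.J t i z v) = H.J t j (C.t i j z) (fderiv ℝ (C.t i j) z v) := by
  have hz' := (RCh.t_mem hz).1
  rw [← sub_eq_zero]
  refine H.nd t j _ hz' _ fun u => ?_
  simp only [map_sub, sub_apply]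
  rw [H.r1 t j _ hz']
  have e1 := (H.w1 t).tr i j z hz (H.J t i z v) (fderiv ℝ (C.t j i) (C.t i j z) u)
  have e2 := (H.w2 t).tr i j z hz v (fderiv ℝ (C.t j i) (C.t i j z) u)
  rw [RCh.dt_dt' hz] at e1 e2
  rw [← e1, ← e2, H.r1 t i z hz.1]
  simp

theorem nij (hz : z ∈ (C.e i).target) (v w : V) : Nij (H.J t i) z v w = 0 :=
  nij_zero (w₁ := (H.w1 t).w i) (w₂ := (H.w2 t).w i) (J := H.J t i) (C.e i).open_target
    (((H.w1 t).sm i).differentiableOn (by simp)) (((H.w2 t).sm i).differentiableOn (by simp))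
    ((H.J_sm t i).differentiableOn (by simp)) ((H.w1 t).alt i) ((H.w2 t).alt i)
    ((H.w1 t).closed i) ((H.w2 t).closed i) (H.r1 t i) (H.r2 t i) (H.nd t i) hz v w

/-- `η ∘ J` -/
def cF (t : ℝ) (η : F1 C) : F1 C where
  η i := cJ (η.η i) (H.J t i)
  sm i := (η.sm i).clm_comp (H.J_sm t i)
  tr i j z hz v := by
    rw [cJ_apply, cJ_apply, η.tr i j z hz, H.J_tr hz]

/-- sum of two 1-forms -/
def _root_.Crest.Agent.R281.Iso_139.addF (η θ : F1 C) : F1 C where
  η i z := η.η i z + θ.η i z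
  sm i := (η.sm i).add (θ.sm i)
  tr i j z hz v := by
    simp only [add_apply]
    rw [η.tr i j z hz, θ.tr i j z hz]

/-- `γ_t = β₁ ∘ J + β₂` -/
def gam (b1 b2 : ℝ → F1 C) (t : ℝ) : F1 C := addF (H.cF t (b1 t)) (b2 t)

theorem gam_js {b1 b2 : ℝ → F1 C} (h1 : JS1 b1) (h2 : JS1 b2) : JS1 (H.gam b1 b2) := fun i =>
  ((h1 i).clm_comp (H.jsJ i)).add (h2 i)

theorem gam_d {b1 b2 : ℝ → F1 C} (hz : z ∈ (C.e i).target) (u v : V) :
    d1 ((H.gam b1 b2 t).η i) z u v =
      d1 (cJ ((b1 t).η i) (H.J t i)) z u v + d1 ((b2 t).η i) z u v := by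
  have h1 := (F1dAt (H.cF t (b1 t)) hz).hasFDerivAt.add (F1dAt (b2 t) hz).hasFDerivAt
  have h2 : (H.gam b1 b2 t).η i = (H.cF t (b1 t)).η i + (b2 t).η i := rfl
  have h3 : (H.cF t (b1 t)).η i = cJ ((b1 t).η i) (H.J t i) := rfl
  simp only [d1a]
  rw [h2, h1.fderiv, ← h3]
  simp only [add_apply]
  ring

/-- `dγ_t` is `J_t`-invariant -/
theorem gam_inv {b1 b2 : ℝ → F1 C}
    (e1 : ∀ t i, ∀ z ∈ (C.e i).target, ∀ u v,
      HasDerivAt (fun s => (H.w1 s).w i z u v) (d1 ((b1 t).η i) z u v) t)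
    (e2 : ∀ t i, ∀ z ∈ (C.e i).target, ∀ u v,
      HasDerivAt (fun s => (H.w2 s).w i z u v) (d1 ((b2 t).η i) z u v) t)
    (hz : z ∈ (C.e i).target) (u v : V) :
    d1 ((H.gam b1 b2 t).η i) z (H.J t i z u) (H.J t i z v) =
      d1 ((H.gam b1 b2 t).η i) z u v := by
  have full : ∀ {w : ℝ → F2 C} {b : ℝ → F1 C}, JS2 w → (∀ t i, ∀ z ∈ (C.e i).target, ∀ u v,
      HasDerivAt (fun s => (w s).w i z u v) (d1 ((b t).η i) z u v) t) →
      HasDerivAt (fun s => (w s).w i z) (d1 ((b t).η i) z) t := by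
    intro w b hw hb
    have h1 := hd_t (t := t) (hw i) hz
    have h2 : fderiv ℝ (fun p : ℝ × V => (w p.1).w i p.2) (t, z) (1, 0) = d1 ((b t).η i) z := by
      ext u v
      have h3 := (h1.clm_apply (hasDerivAt_const t u)).clm_apply (hasDerivAt_const t v)
      have h4 := h3.unique (hb t i z hz u v)
      simpa using h4
    rwa [h2] at h1
  have h3 := type_dot (full H.js1 e1) (full H.js2 e2) (hd_t (t := t) (H.jsJ i) hz)
    (fun s u v => (H.w1 s).alt i z hz u v) (fun s u v => (H.w2 s).alt i z hz u v)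
    (fun s u v => H.r1 s i z hz u v) (fun s u v => H.r2 s i z hz u v) u v
  have h4 := d1_cJ (b := (b1 t).η i) (J := H.J t i) (C.e i).open_target
    (((b1 t).sm i).differentiableOn (by simp)) ((H.J_sm t i).differentiableOn (by simp))
    (fun z hz v => H.J_sq hz v) hz (fun v w => H.nij hz v w) u v
  rw [H.gam_d hz, H.gam_d hz]
  linarith

/-! ### the vector field -/

variable [FiniteDimensional ℝ V]

theorem bij (hz : z ∈ (C.e i).target) :
    ∃ E : V ≃L[ℝ] (V →L[ℝ] ℝ), (E : V →L[ℝ] (V →L[ℝ] ℝ)) = (H.w1 t).w i z := by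
  have hinj : Function.Injective ((H.w1 t).w i z) := by
    intro a b hab
    rw [← sub_eq_zero]
    refine H.nd t i z hz _ fun u => ?_
    rw [map_sub, hab, sub_self, zero_apply]
  have hfr : Module.finrank ℝ V = Module.finrank ℝ (V →L[ℝ] ℝ) := by
    rw [← (LinearMap.toContinuousLinearMap (𝕜 := ℝ) (E := V) (F' := ℝ)).finrank_eq]
    exact (Subspace.dual_finrank_eq (K := ℝ) (V := V)).symm
  have hb : Function.Bijective ((H.w1 t).w i z : V →ₗ[ℝ] (V →L[ℝ] ℝ)) :=
    ⟨hinj, (LinearMap.injective_iff_surjective_of_finrank_eq_finrank hfr).1 hinj⟩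
  refine ⟨(LinearEquiv.ofBijective _ hb).toContinuousLinearEquiv, ?_⟩
  ext v
  rfl

/-- `V_t = - w₁⁻¹ (β₁ - dp)` in the chart `i` -/
def bv (b1 : ℝ → F1 C) (p : ℝ → X → ℝ) (i : C.ι) (q : ℝ × V) : V :=
  -(((H.w1 q.1).w i q.2).inverse ((b1 q.1).η i q.2 - dX C (p q.1) i q.2))

theorem w1_bv (b1 : ℝ → F1 C) (p : ℝ → X → ℝ) (hz : z ∈ (C.e i).target) :
    (H.w1 t).w i z (H.bv b1 p i (t, z)) = -((b1 t).η i z - dX C (p t) i z) := by
  obtain ⟨E, hE⟩ := H.bij (t := t) hz
  simp only [bv, ← hE, ContinuousLinearMap.inverse_equiv, map_neg]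
  simp

theorem dX_tr (f : X → ℝ) (hf : ∀ i, ContDiffOn ℝ ∞ (fun z => f ((C.e i).symm z)) (C.e i).target)
    {i j : C.ι} {z : V} (hz : z ∈ C.ov i j) (v : V) :
    dX C f i z v = dX C f j (C.t i j z) (fderiv ℝ (C.t i j) z v) := by
  have hz' := (RCh.t_mem hz).1
  have h1 : (fun y => f ((C.e i).symm y)) =ᶠ[𝓝 z] fun y => f ((C.e j).symm (C.t i j y)) := by
    filter_upwards [(RCh.isOpen_ov i j).mem_nhds hz] with y hy
    show f ((C.e i).symm y) = f ((C.e j).symm (C.e j ((C.e i).symm y)))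
    rw [(C.e j).left_inv hy.2]
  have h2 : HasFDerivAt (fun y => f ((C.e j).symm y)) (dX C f j (C.t i j z)) (C.t i j z) :=
    (((hf j).contDiffAt ((C.e j).open_target.mem_nhds hz')).differentiableAt
      (by simp)).hasFDerivAt
  have h3 : HasFDerivAt (fun y => f ((C.e j).symm (C.t i j y)))
      ((dX C f j (C.t i j z)).comp (fderiv ℝ (C.t i j) z)) z :=
    HasFDerivAt.comp (g := fun y => f ((C.e j).symm y)) (f := C.t i j) z h2
      (RCh.t_diff hz).hasFDerivAt
  rw [dX, h1.fderiv_eq, h3.fderiv]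
  rfl

theorem js0_sl {p : ℝ → X → ℝ} (hp : JS0 C p) (t : ℝ) (i : C.ι) :
    ContDiffOn ℝ ∞ (fun z => p t ((C.e i).symm z)) (C.e i).target :=
  slice_sm (G := fun q : ℝ × V => p q.1 ((C.e i).symm q.2)) (hp i) t

/-- Moser's vector field -/
def bf (b1 : ℝ → F1 C) (h1 : JS1 b1) (p : ℝ → X → ℝ) (hp : JS0 C p) : TVF C where
  b := H.bv b1 p
  sm i := by
    intro q hq
    obtain ⟨t, z⟩ := q
    have hz : z ∈ (C.e i).target := hq.2
    obtain ⟨E, hE⟩ := H.bij (t := t) hz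
    have e1 : ContDiffAt ℝ ∞ (fun q : ℝ × V => (H.w1 q.1).w i q.2) (t, z) := cda (H.js1 i) hz
    have e2 : ContDiffAt ℝ ∞ (ContinuousLinearMap.inverse (R := ℝ) (M := V) (M₂ := V →L[ℝ] ℝ))
        ((H.w1 t).w i z) := by
      rw [← hE]
      have : CompleteSpace V := FiniteDimensional.complete ℝ V
      exact contDiffAt_map_inverse E
    have e3 : ContDiffAt ℝ ∞ (fun q : ℝ × V => ((H.w1 q.1).w i q.2).inverse) (t, z) :=
      ContDiffAt.comp (g := ContinuousLinearMap.inverse) (f := fun q : ℝ × V =>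
        (H.w1 q.1).w i q.2) (t, z) e2 e1
    have e4 : ContDiffAt ℝ ∞ (fun q : ℝ × V => (b1 q.1).η i q.2 - dX C (p q.1) i q.2) (t, z) :=
      (cda (h1 i) hz).sub (cda (dx_sm (hp i)) hz)
    exact ((e3.clm_apply e4).neg).contDiffWithinAt
  tr i j t z hz := by
    have hz' := (RCh.t_mem hz).1
    rw [← sub_eq_zero]
    refine H.nd t j _ hz' _ fun u => ?_
    rw [map_sub, sub_apply, H.w1_bv b1 p hz']
    have e0 := (H.w1 t).tr i j z hz (H.bv b1 p i (t, z)) (fderiv ℝ (C.t j i) (C.t i j z) u)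
    rw [RCh.dt_dt' hz] at e0
    rw [← e0, H.w1_bv b1 p hz.1]
    have e1 := (b1 t).tr i j z hz (fderiv ℝ (C.t j i) (C.t i j z) u)
    have e2 := dX_tr (p t) (js0_sl hp t) hz (fderiv ℝ (C.t j i) (C.t i j z) u)
    rw [RCh.dt_dt' hz] at e1 e2
    simp only [neg_apply, sub_apply]
    rw [e1, e2]
    ring

/-- `d d f = 0` -/
theorem d1_dX {f : X → ℝ} (hf : ∀ i, ContDiffOn ℝ ∞ (fun z => f ((C.e i).symm z)) (C.e i).target)
    (hz : z ∈ (C.e i).target) (u v : V) : d1 (dX C f i) z u v = 0 := by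
  have h1 : ContDiffAt ℝ ∞ (fun y => f ((C.e i).symm y)) z :=
    (hf i).contDiffAt ((C.e i).open_target.mem_nhds hz)
  have h2 := Dif_268.symm2 h1 u v
  rw [d1a]
  exact sub_eq_zero.2 h2

theorem d1_congr {f g : V → V →L[ℝ] ℝ} (h : f =ᶠ[𝓝 z] g) (u v : V) :
    d1 f z u v = d1 g z u v := by
  rw [d1a, d1a, h.fderiv_eq]

theorem d1_sub {f g : V → V →L[ℝ] ℝ} (hf : DifferentiableAt ℝ f z) (hg : DifferentiableAt ℝ g z)
    (u v : V) : d1 (fun y => f y - g y) z u v = d1 f z u v - d1 g z u v := by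
  have h : HasFDerivAt (fun y => f y - g y) (fderiv ℝ f z - fderiv ℝ g z) z :=
    hf.hasFDerivAt.sub hg.hasFDerivAt
  rw [d1a, d1a, d1a, h.fderiv]
  simp only [sub_apply]
  ring

theorem d1_negsub {f g : V → V →L[ℝ] ℝ} (hf : DifferentiableAt ℝ f z)
    (hg : DifferentiableAt ℝ g z) (u v : V) :
    d1 (fun y => -(f y - g y)) z u v = -(d1 f z u v - d1 g z u v) := by
  have h : HasFDerivAt (fun y => -(f y - g y)) (-(fderiv ℝ f z - fderiv ℝ g z)) z :=
    (hf.hasFDerivAt.sub hg.hasFDerivAt).neg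
  rw [d1a, d1a, d1a, h.fderiv]
  simp only [neg_apply, sub_apply]
  ring

variable [CompleteSpace V] [CompactSpace X] [T2Space X]

/-- **Moser's isotopy**, abstract form: `∂_t w_k = dβ_k`, `dγ_t = d(dp_t ∘ J_t)` -/
theorem iso {b1 b2 : ℝ → F1 C} (h1 : JS1 b1)
    (e1 : ∀ t i, ∀ z ∈ (C.e i).target, ∀ u v,
      HasDerivAt (fun s => (H.w1 s).w i z u v) (d1 ((b1 t).η i) z u v) t)
    (e2 : ∀ t i, ∀ z ∈ (C.e i).target, ∀ u v,
      HasDerivAt (fun s => (H.w2 s).w i z u v) (d1 ((b2 t).η i) z u v) t)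
    {p : ℝ → X → ℝ} (hp : JS0 C p)
    (hd : ∀ t i, ∀ z ∈ (C.e i).target, ∀ u v,
      d1 ((H.gam b1 b2 t).η i) z u v = d1 (cJ (dX C (p t) i) (H.J t i)) z u v) (s t : ℝ) :
    Eqv (((H.bf b1 h1 p hp).flS s t).pull (H.w1 t)) (H.w1 s) ∧
      Eqv (((H.bf b1 h1 p hp).flS s t).pull (H.w2 t)) (H.w2 s) := by
  have hdX : ∀ t i, ∀ z ∈ (C.e i).target, DifferentiableAt ℝ (dX C (p t) i) z := by
    intro t i z hz
    have h2 : ContDiffOn ℝ ∞ (fderiv ℝ (fun y => p t ((C.e i).symm y))) (C.e i).target :=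
      (js0_sl hp t i).fderiv_of_isOpen (C.e i).open_target (by simp)
    exact (h2.contDiffAt ((C.e i).open_target.mem_nhds hz)).differentiableAt (by simp)
  constructor
  · refine TVF.moser _ _ (fun i => (H.js1 i).differentiableOn (by simp)) ?_ s t
    intro i t z hz u v
    rw [(e1 t i z hz u v).deriv]
    have h2 : dι ((H.w1 t).w i) (fun y => (H.bf b1 h1 p hp).b i (t, y)) z u v =
        d1 (fun y => (H.w1 t).w i y (H.bv b1 p i (t, y))) z u v := rfl
    have h3 : (fun y => (H.w1 t).w i y (H.bv b1 p i (t, y))) =ᶠ[𝓝 z]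
        fun y => -((b1 t).η i y - dX C (p t) i y) := by
      filter_upwards [(C.e i).open_target.mem_nhds hz] with y hy using H.w1_bv b1 p hy
    rw [h2, d1_congr h3, d1_negsub (F1dAt _ hz) (hdX t i z hz), d1_dX (js0_sl hp t) hz]
    ring
  · refine TVF.moser _ _ (fun i => (H.js2 i).differentiableOn (by simp)) ?_ s t
    intro i t z hz u v
    rw [(e2 t i z hz u v).deriv]
    have h2 : dι ((H.w2 t).w i) (fun y => (H.bf b1 h1 p hp).b i (t, y)) z u v =
        d1 (fun y => (H.w2 t).w i y (H.bv b1 p i (t, y))) z u v := rfl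
    have h3 : (fun y => (H.w2 t).w i y (H.bv b1 p i (t, y))) =ᶠ[𝓝 z]
        fun y => cJ ((b1 t).η i) (H.J t i) y - cJ (dX C (p t) i) (H.J t i) y := by
      filter_upwards [(C.e i).open_target.mem_nhds hz] with y hy
      ext v
      have e0 : (H.w2 t).w i y (H.bv b1 p i (t, y)) v =
          -((H.w1 t).w i y (H.bv b1 p i (t, y)) (H.J t i y v)) := by
        have := H.r1 t i y hy v (H.bv b1 p i (t, y))
        rw [(H.w1 t).alt i y hy, (H.w2 t).alt i y hy v] at this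
        linarith
      rw [e0, H.w1_bv b1 p hy]
      simp
    have h4 : DifferentiableAt ℝ (cJ ((b1 t).η i) (H.J t i)) z := F1dAt (H.cF t (b1 t)) hz
    have h5 : DifferentiableAt ℝ (cJ (dX C (p t) i) (H.J t i)) z := by
      have hJd : DifferentiableAt ℝ (H.J t i) z :=
        ((H.J_sm t i).contDiffAt ((C.e i).open_target.mem_nhds hz)).differentiableAt (by simp)
      exact ((hdX t i z hz).hasFDerivAt.clm_comp hJd.hasFDerivAt).differentiableAt
    rw [h2, d1_congr h3, d1_sub h4 h5, ← hd t i z hz, H.gam_d hz]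
    ring

end HSF

end

end Crest.Agent.R281.Iso_139
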