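import Crest.Agent.R281.HKA1_799
import Crest.Agent.R281.FujP_513
import Crest.Agent.R281.HkR8_835
import Crest.Agent.R281.Ti6_846
import Crest.Agent.R281.Fuj6_207
import Crest.Agent.R281.Ti7_846
import Crest.Agent.R281.Nef2_252

-- ▼ part R281/Isq1_358
section

/-!
# Row 281, ISO-Q, part 1 (helper358): second order expansion of a natural top degree product

`I` a symmetric natural multilinear functional of `N` bilinear forms, `r` a form, `B` an
`r`-selfadjoint endomorphism, `w = r (B ., .)`.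

* `first`  : `N I(w, r, …, r) = (1/2) tr B I(r, …, r)`
* `second` : if `B` anticommutes with some `J`, `J² = -1`:
  `C(N,2) I(w, w, r, …, r) = -(1/4) tr (B²) I(r, …, r)`, `I(w, r, …, r) = 0`
-/

set_option autoImplicit false
set_option maxSynthPendingDepth 3
set_option linter.unusedSectionVars false

open Polynomial

namespace Crest.Agent.R281.Isq1_358

open Crest.Agent.R281.HKA_799 Crest.Agent.R281.FujP_513 Crest.Agent.R281.FujR_513

noncomputable section

section det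

variable {V : Type*} [AddCommGroup V] [Module ℝ V] [FiniteDimensional ℝ V]

/-- `det (1 + t B) = 1 + t tr B + t² q(t)` -/
theorem det_poly (B : V →ₗ[ℝ] V) : ∃ q : ℝ[X], ∀ t : ℝ,
    LinearMap.det (1 + t • B) = 1 + LinearMap.trace ℝ V B * t + q.eval t * t ^ 2 := by
  set b := Module.finBasis ℝ V
  refine ⟨(Matrix.det (1 + (X : ℝ[X]) • (LinearMap.toMatrix b b B).map C)).divX.divX,
    fun t => ?_⟩
  rw [LinearMap.trace_eq_matrix_trace ℝ b, ← Matrix.det_one_add_smul, ← LinearMap.det_toMatrix b]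
  congr 1
  rw [map_add, map_smul]
  congr 1
  exact LinearMap.toMatrix_one b

/-- traces of `B` and the second coefficient if `B` anticommutes with `J` -/
theorem anti {B J : V →ₗ[ℝ] V} (hJ : J * J = -1) (hB : J * B = -(B * J)) {q : ℝ[X]}
    (hq : ∀ t : ℝ, LinearMap.det (1 + t • B) = 1 + LinearMap.trace ℝ V B * t + q.eval t * t ^ 2) :
    LinearMap.trace ℝ V B = 0 ∧ q.coeff 0 = -(1 / 2) * LinearMap.trace ℝ V (B * B) := by
  have h0 : LinearMap.trace ℝ V B = 0 := by
    have h1 : LinearMap.trace ℝ V B = -LinearMap.trace ℝ V B := by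
      have e : B = J * (B * J) := by
        rw [← mul_assoc, hB, neg_mul, mul_assoc, hJ]; simp
      conv_lhs => rw [e, LinearMap.trace_mul_comm, mul_assoc, hJ]
      simp
    linarith
  refine ⟨h0, ?_⟩
  have hdJ : LinearMap.det J ≠ 0 := by
    intro h
    have h1 := congrArg LinearMap.det hJ
    rw [map_mul, h, mul_zero] at h1
    have h2 : (-1 : V →ₗ[ℝ] V) = (-1 : ℝ) • (1 : V →ₗ[ℝ] V) := by simp
    rw [h2, LinearMap.det_smul, map_one, mul_one] at h1
    exact absurd h1.symm (pow_ne_zero _ (by norm_num))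
  have heven : ∀ t : ℝ, LinearMap.det (1 + (-t) • B) = LinearMap.det (1 + t • B) := by
    intro t
    have h1 : J * (1 + (-t) • B) = (1 + t • B) * J := by
      rw [mul_add, add_mul, mul_one, one_mul, mul_smul_comm, smul_mul_assoc, hB]
      simp
    have h2 := congrArg LinearMap.det h1
    rw [map_mul, map_mul, mul_comm] at h2
    exact mul_right_cancel₀ hdJ h2
  obtain ⟨q', hq'⟩ := det_poly (B * B)
  have hsq : ∀ t : ℝ, (1 + q.eval t * t ^ 2) ^ 2 =
      1 - LinearMap.trace ℝ V (B * B) * t ^ 2 + q'.eval (-t ^ 2) * t ^ 4 := by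
    intro t
    have h1 : (1 + t • B) * (1 + (-t) • B) = 1 + (-t ^ 2) • (B * B) := by
      rw [mul_add, add_mul, add_mul, one_mul, one_mul, mul_one, smul_mul_assoc, mul_smul_comm,
        smul_smul]
      have : t * -t = -t ^ 2 := by ring
      rw [this]
      module
    have h2 := congrArg LinearMap.det h1
    rw [map_mul, heven, hq, hq', h0] at h2
    rw [← sub_eq_zero]
    linear_combination h2
  have hp : (1 + q * X ^ 2) ^ 2 =
      (1 - C (LinearMap.trace ℝ V (B * B)) * X ^ 2 + q'.comp (-X ^ 2) * X ^ 4 : ℝ[X]) := by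
    refine Polynomial.funext fun t => ?_
    simpa [eval_comp] using hsq t
  have h3 := congrArg (fun p : ℝ[X] => p.coeff 2) hp
  have e1 : (1 + q * X ^ 2) ^ 2 = 1 + (C 2 * q) * X ^ 2 + (q ^ 2 * X ^ 2) * X ^ 2 := by
    have : (C 2 : ℝ[X]) = 2 := rfl
    rw [this]; ring
  have e2 : q'.comp (-X ^ 2) * X ^ 4 = (q'.comp (-X ^ 2) * X ^ 2) * X ^ 2 := by ring
  simp only [e1, e2] at h3
  have k : ∀ p : ℝ[X], (p * X ^ 2).coeff 2 = p.coeff 0 := fun p => by
    have := coeff_mul_X_pow p 2 0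
    simpa using this
  have k0 : ∀ p : ℝ[X], (p * X ^ 2).coeff 0 = 0 := fun p => by
    rw [mul_coeff_zero]; simp
  rw [coeff_add, coeff_add, coeff_add, coeff_sub, k, k, k, k, k0, k0, coeff_C_mul] at h3
  simp only [coeff_one, coeff_C_zero] at h3
  norm_num at h3
  linarith

end det

section expand

variable {H : Type*} [AddCommGroup H] [Module ℝ H]

/-- mixed values are polynomial on lines in the repeated entry -/
theorem mix_polyL {k : ℕ} (T : MultilinearMap ℝ (fun _ : Fin k => H) ℝ) {a : ℕ} (ha : a ≤ k)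
    (z : H) : PolyL (fun x => T (mixv k a x z)) := by
  obtain ⟨m, rfl⟩ : ∃ m, k = m + a := ⟨k - a, by omega⟩
  intro x y
  obtain ⟨p, hp⟩ := PolyL.multilinear (fixl z m a T) x y
  refine ⟨p, fun s => ?_⟩
  rw [← hp s]
  show _ = fixl z m a T (fun _ => x + s • y)
  rw [fixl_apply, fixv_diag]

/-- coefficients of `t` and `t²` in `T (r + t w + t² z)` -/
theorem coeffs {k : ℕ} {T : MultilinearMap ℝ (fun _ : Fin k => H) ℝ} (hT : Symm T) (hk : 2 ≤ k)
    (r w z : H) {D : ℝ[X]} (hD : ∀ t : ℝ, T (fun _ => r + t • w + t ^ 2 • z) = D.eval t) :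
    (k : ℝ) * T (mixv k 1 r w) = D.coeff 1 ∧
      (k.choose 2 : ℝ) * T (mixv k 2 r w) + (k : ℝ) * T (mixv k 1 r z) = D.coeff 2 := by
  have hp : ∀ a : ℕ, ∃ p : ℝ[X], a ≤ k → ∀ t : ℝ, T (mixv k a (r + t • w) z) = p.eval t := by
    intro a
    by_cases ha : a ≤ k
    · obtain ⟨p, hp⟩ := mix_polyL T ha z r w
      exact ⟨p, fun _ => hp⟩
    · exact ⟨0, fun h => absurd h ha⟩
  choose p hp using hp
  have hsum : (∑ a ∈ Finset.range (k + 1), C (k.choose a : ℝ) * X ^ (2 * a) * p a : ℝ[X]) = D := by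
    refine Polynomial.funext fun t => ?_
    rw [← hD t, hT.expand, eval_finsetSum]
    refine Finset.sum_congr rfl fun a ha => ?_
    rw [hp a (Nat.lt_succ_iff.1 (Finset.mem_range.1 ha)) t]
    simp only [eval_mul, eval_C, eval_pow, eval_X, pow_mul]
  have h0 : ∀ a ≤ k, (k.choose a : ℝ) * T (mixv k a r w) = (p 0).coeff a := by
    refine coeff_of_expand (fun a => (k.choose a : ℝ) * T (mixv k a r w)) (p 0) fun t => ?_
    rw [← hp 0 (Nat.zero_le _) t]
    have e : mixv k 0 (r + t • w) z = fun _ => r + t • w := by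
      funext i; simp [mixv]
    rw [e, hT.expand]
    exact Finset.sum_congr rfl fun a _ => by ring
  have h1 : (p 1).coeff 0 = T (mixv k 1 r z) := by
    rw [coeff_zero_eq_eval_zero, ← hp 1 (by omega) 0]
    simp
  have hc : ∀ j ≤ 2, D.coeff j = ∑ a ∈ Finset.range (k + 1),
      (C (k.choose a : ℝ) * X ^ (2 * a) * p a : ℝ[X]).coeff j := by
    intro j _
    rw [← hsum, finsetSum_coeff]
  have hz : ∀ a ≥ 2, ∀ j ≤ 2, (C (k.choose a : ℝ) * X ^ (2 * a) * p a : ℝ[X]).coeff j = 0 := by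
    intro a ha j hj
    rw [mul_assoc, coeff_C_mul, mul_comm (X ^ (2 * a)), coeff_mul_X_pow', if_neg (by omega),
      mul_zero]
  obtain ⟨k', rfl⟩ : ∃ k', k = k' + 2 := ⟨k - 2, by omega⟩
  have hs : ∀ j ≤ 2, D.coeff j =
      (C ((k' + 2).choose 0 : ℝ) * X ^ (2 * 0) * p 0 : ℝ[X]).coeff j +
      (C ((k' + 2).choose 1 : ℝ) * X ^ (2 * 1) * p 1 : ℝ[X]).coeff j := by
    intro j hj
    rw [hc j hj, Finset.sum_range_succ', Finset.sum_range_succ']
    rw [Finset.sum_eq_zero fun a _ => hz (a + 1 + 1) (by omega) j hj]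
    ring
  constructor
  · have h2 := h0 1 (by omega)
    have h3 := hs 1 (by omega)
    rw [h3]
    have e1 : (C ((k' + 2).choose 1 : ℝ) * X ^ (2 * 1) * p 1 : ℝ[X]).coeff 1 = 0 := by
      rw [mul_assoc, coeff_C_mul, mul_comm (X ^ (2 * 1)), coeff_mul_X_pow', if_neg (by omega),
        mul_zero]
    rw [e1, add_zero]
    simp only [Nat.choose_zero_right, Nat.cast_one, C_1, mul_zero, pow_zero, one_mul]
    rw [← h2]
    simp
  · have h2 := h0 2 (by omega)
    have h3 := hs 2 le_rfl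
    rw [h3]
    have e1 : (C ((k' + 2).choose 1 : ℝ) * X ^ (2 * 1) * p 1 : ℝ[X]).coeff 2 =
        ((k' + 2 : ℕ) : ℝ) * (p 1).coeff 0 := by
      rw [mul_assoc, coeff_C_mul, mul_comm (X ^ (2 * 1)), coeff_mul_X_pow', if_pos (by omega)]
      simp
    rw [e1, h1]
    simp only [Nat.choose_zero_right, Nat.cast_one, C_1, mul_zero, pow_zero, one_mul]
    rw [← h2]

end expand

/-! ### natural functionals -/

section nat

variable {V : Type*} [NormedAddCommGroup V] [NormedSpace ℝ V] [FiniteDimensional ℝ V]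
  {N : ℕ} {I : MultilinearMap ℝ (fun _ : Fin N => HKA_799.Bil V) ℝ}

/-- the value along the family `T = 1 + (t/2) B` -/
theorem value (hI : HKA_799.Nat (fun w => I w)) {r : HKA_799.Bil V} {B : V →L[ℝ] V}
    (hB : ∀ u v, r (B u) v = r u (B v)) (t : ℝ) :
    I (fun _ => r + t • r.comp B + t ^ 2 • ((1 / 4 : ℝ) • r.comp (B.comp B))) =
      LinearMap.det (1 + (t / 2) • (B : V →ₗ[ℝ] V)) * I (fun _ => r) := by
  have h := hI (ContinuousLinearMap.id ℝ V + (t / 2) • B) (fun _ => r)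
    (fun _ => r + t • r.comp B + t ^ 2 • ((1 / 4 : ℝ) • r.comp (B.comp B))) (by
      intro k u v
      simp only [add_apply, smul_apply, ContinuousLinearMap.comp_apply,
        ContinuousLinearMap.id_apply, map_add, map_smul, smul_eq_mul]
      rw [hB u (B v), hB (B u) v, ← hB u v]
      rw [← hB (B u) v, ← hB u (B v), ← hB (B u) v]
      ring)
  have e : ((ContinuousLinearMap.id ℝ V + (t / 2) • B : V →L[ℝ] V) : V →ₗ[ℝ] V) =
      1 + (t / 2) • (B : V →ₗ[ℝ] V) := by
    ext u; simp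
  rw [← e]
  exact h

/-- **first order** -/
theorem first (hS : Symm I) (hI : HKA_799.Nat (fun w => I w)) (hN : 2 ≤ N) {r : HKA_799.Bil V}
    {B : V →L[ℝ] V} (hB : ∀ u v, r (B u) v = r u (B v)) :
    (N : ℝ) * I (mixv N 1 r (r.comp B)) =
      1 / 2 * LinearMap.trace ℝ V (B : V →ₗ[ℝ] V) * I (fun _ => r) := by
  obtain ⟨q, hq⟩ := det_poly (B : V →ₗ[ℝ] V)
  have h := (coeffs hS hN r (r.comp B) ((1 / 4 : ℝ) • r.comp (B.comp B))
    (D := C (I fun _ => r) * (1 + C (1 / 2 * LinearMap.trace ℝ V (B : V →ₗ[ℝ] V)) * X +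
      (C (1 / 4) * q.comp (C (1 / 2) * X)) * X ^ 2)) (by
      intro t
      rw [value hI hB t, hq]
      simp only [eval_mul, eval_add, eval_C, eval_X, eval_pow, eval_comp, eval_one]
      have : t / 2 = 1 / 2 * t := by ring
      rw [this]
      ring)).1
  rw [h, coeff_C_mul, coeff_add, coeff_add, coeff_mul_X_pow', if_neg (by omega)]
  simp only [coeff_one, coeff_C_mul, coeff_X_one]
  norm_num
  ring

/-- **second order**, for `B` anticommuting with a complex structure -/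
theorem second (hS : Symm I) (hI : HKA_799.Nat (fun w => I w)) (hN : 2 ≤ N) {r : HKA_799.Bil V}
    {B J : V →L[ℝ] V} (hB : ∀ u v, r (B u) v = r u (B v)) (hJ : ∀ u, J (J u) = -u)
    (hJB : ∀ u, J (B u) = -B (J u)) :
    I (mixv N 1 r (r.comp B)) = 0 ∧ (N.choose 2 : ℝ) * I (mixv N 2 r (r.comp B)) =
      -(1 / 4) * LinearMap.trace ℝ V ((B.comp B : V →L[ℝ] V) : V →ₗ[ℝ] V) * I (fun _ => r) := by
  obtain ⟨q, hq⟩ := det_poly (B : V →ₗ[ℝ] V)
  have hJ' : (J : V →ₗ[ℝ] V) * (J : V →ₗ[ℝ] V) = -1 := by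
    ext u; simp [hJ]
  have hJB' : (J : V →ₗ[ℝ] V) * (B : V →ₗ[ℝ] V) = -((B : V →ₗ[ℝ] V) * (J : V →ₗ[ℝ] V)) := by
    ext u; simp [hJB]
  obtain ⟨ht, hq0⟩ := anti hJ' hJB' hq
  have e : (B : V →ₗ[ℝ] V) * (B : V →ₗ[ℝ] V) = ((B.comp B : V →L[ℝ] V) : V →ₗ[ℝ] V) := by
    ext u; simp
  rw [e] at hq0
  have h1 := first hS hI hN hB
  rw [ht] at h1
  have hN0 : (N : ℝ) ≠ 0 := by positivity
  have h1' : I (mixv N 1 r (r.comp B)) = 0 := by
    have : (N : ℝ) * I (mixv N 1 r (r.comp B)) = 0 := by rw [h1]; ring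
    exact (mul_eq_zero.1 this).resolve_left hN0
  refine ⟨h1', ?_⟩
  have hBB : ∀ u v, r ((B.comp B) u) v = r u ((B.comp B) v) := by
    intro u v
    simp only [ContinuousLinearMap.comp_apply]
    rw [hB, hB]
  have h2 := first hS hI hN hBB
  obtain ⟨τ, hτ⟩ : ∃ τ, τ = LinearMap.trace ℝ V ((B.comp B : V →L[ℝ] V) : V →ₗ[ℝ] V) := ⟨_, rfl⟩
  rw [← hτ] at hq0 h2 ⊢
  have h := (coeffs hS hN r (r.comp B) ((1 / 4 : ℝ) • r.comp (B.comp B))
    (D := C (I fun _ => r) * (1 + C (1 / 2 * LinearMap.trace ℝ V (B : V →ₗ[ℝ] V)) * X +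
      (C (1 / 4) * q.comp (C (1 / 2) * X)) * X ^ 2)) (by
      intro t
      rw [value hI hB t, hq]
      simp only [eval_mul, eval_add, eval_C, eval_X, eval_pow, eval_comp, eval_one]
      have : t / 2 = 1 / 2 * t := by ring
      rw [this]
      ring)).2
  have e3 : I (mixv N 1 r ((1 / 4 : ℝ) • r.comp (B.comp B))) =
      1 / 4 * I (mixv N 1 r (r.comp (B.comp B))) := by
    obtain ⟨k, rfl⟩ : ∃ k, N = k + 1 := ⟨N - 1, by omega⟩
    rw [mixv_one, mixv_one, ← MultilinearMap.curryLeft_apply, ← MultilinearMap.curryLeft_apply,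
      map_smul]
    rfl
  rw [e3, coeff_C_mul, coeff_add, coeff_add, coeff_mul_X_pow', if_pos (le_refl 2)] at h
  have e4 : (q.comp (C (1 / 2) * X)).coeff 0 = q.coeff 0 := by
    rw [coeff_zero_eq_eval_zero, eval_comp, coeff_zero_eq_eval_zero]
    simp
  have e5 : (C (1 / 2 * LinearMap.trace ℝ V (B : V →ₗ[ℝ] V)) * X : ℝ[X]).coeff 2 = 0 := by
    rw [coeff_C_mul, coeff_X]; simp
  rw [e5, Nat.sub_self, coeff_C_mul, e4, hq0] at h
  simp only [coeff_one] at h
  norm_num at h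
  have h3 : (N : ℝ) * (1 / 4 * I (mixv N 1 r (r.comp (B.comp B)))) =
      1 / 4 * (1 / 2 * τ * I (fun _ => r)) := by
    rw [← h2]; ring
  linarith

end nat

end

end Crest.Agent.R281.Isq1_358
end

-- ▼ part R281/Isq2_358
section

/-!
# Row 281, ISO-Q, part 2 (helper358): the isotropy density in coordinates

`S` antisymmetric invertible, `G` Hermitian matrices, `r = Re (S u v)`, `w = Re (i G u v̄)`:
for every natural symmetric multilinear `I` of `N ≥ 2` bilinear forms on `Cn d`: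
`I (w, r, …, r) = 0`, `C(N,2) I (w, w, r, …, r) = -(1/2) Re tr (S⁻¹ G S̄⁻¹ Gᵀ) I (r, …, r)`.
-/

set_option autoImplicit false
set_option maxSynthPendingDepth 3
set_option linter.unusedSectionVars false

open Complex
open scoped Matrix ComplexConjugate

namespace Crest.Agent.R281.Isq2_358

open Crest.Agent.R275.Geo Crest.Agent.R275.Core144 Crest.Agent.R275.EDR890
open Crest.Agent.R273.Kah_333
open Crest.Agent.R281.HkR_835 Crest.Agent.R281.Ti_846 Crest.Agent.R281.FujP_513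
open Crest.Agent.R281.Isq1_358 Crest.Agent.R281.Defs_273

noncomputable section

variable {d : ℕ}

/-! ### the real trace of a complex matrix -/

/-- coordinates in the basis `bc` -/
theorem bc_repr (v : Cn d) (a : Fin d) :
    (bc d).repr v (a, 0) = (v a).re ∧ (bc d).repr v (a, 1) = (v a).im := by
  set c : Fin d × Fin 2 → ℝ := fun p => if p.2 = 0 then (v p.1).re else (v p.1).im with hc
  have h1 : v = ∑ p, c p • bc d p := by
    ext b
    simp only [WithLp.ofLp_sum, WithLp.ofLp_smul, Finset.sum_apply, Pi.smul_apply, bc_apply]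
    rw [Fintype.sum_prod_type]
    rw [Finset.sum_eq_single b]
    · simp only [Fin.sum_univ_two, hc, Zc, if_true, real_smul]
      simp [Complex.re_add_im]
    · intro a' _ hab
      simp [Zc, Ne.symm hab]
    · intro h; exact absurd (Finset.mem_univ b) h
  have h2 : ⇑((bc d).repr v) = c := by
    have h3 := (bc d).repr_sum_self c
    rw [← h3]
    exact congrArg (fun x => ⇑((bc d).repr x)) h1
  rw [h2]
  simp [hc]

theorem trace_mL (P : Matrix (Fin d) (Fin d) ℂ) :
    LinearMap.trace ℝ (Cn d) ((mL P : Cn d →L[ℝ] Cn d) : Cn d →ₗ[ℝ] Cn d) = 2 * (P.trace).re := by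
  rw [LinearMap.trace_eq_matrix_trace ℝ (bc d), Matrix.trace, Fintype.sum_prod_type]
  rw [Matrix.trace, Complex.re_sum, Finset.mul_sum]
  refine Finset.sum_congr rfl fun a _ => ?_
  rw [Fin.sum_univ_two]
  simp only [Matrix.diag_apply, LinearMap.toMatrix_apply]
  rw [(bc_repr _ a).1, (bc_repr _ a).2, bc_zero, bc_one]
  have e1 : ((mL P : Cn d →L[ℝ] Cn d) (EuclideanSpace.single a (1 : ℂ))) a = P a a := by
    rw [mL_apply]; simp
  have e2 : ((mL P : Cn d →L[ℝ] Cn d) (EuclideanSpace.single a I)) a = P a a * I := by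
    rw [mL_apply]; simp
  show (((mL P : Cn d →L[ℝ] Cn d) (EuclideanSpace.single a (1 : ℂ))) a).re +
    (((mL P : Cn d →L[ℝ] Cn d) (EuclideanSpace.single a I)) a).im = _
  rw [e1, e2]
  simp
  ring

/-! ### the endomorphism -/

/-- `u ↦ i S⁻¹ G ū` -/
def BG (S G : Matrix (Fin d) (Fin d) ℂ) : Cn d →L[ℝ] Cn d := iL.comp ((mL (S⁻¹ * G)).comp cL)

/-- `Re (S u v)` -/
def rS (S : Matrix (Fin d) (Fin d) ℂ) : Bil (Cn d) := bM (cL.comp (mL Sᵀ))

theorem rS_apply (S : Matrix (Fin d) (Fin d) ℂ) (u v : Cn d) : rS S u v = (sb S u v).re :=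
  bM_cL S u v

/-- `Re (i G u v̄)` -/
def wG (G : Matrix (Fin d) (Fin d) ℂ) : Bil (Cn d) := bM ((mL Gᵀ).comp iL)

theorem wG_apply {G : Matrix (Fin d) (Fin d) ℂ} (hG : G.IsHermitian) (u v : Cn d) :
    wG G u v = (I * hb G u v).re := bM_mL_iL hG u v

theorem BG_anti (S G : Matrix (Fin d) (Fin d) ℂ) (u : Cn d) : iL (BG S G u) = -BG S G (iL u) := by
  simp only [BG, ContinuousLinearMap.comp_apply, iL_apply, cL_I, map_neg, mL_I]
  simp

theorem iL_sq (u : Cn d) : iL (iL u) = -u := by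
  simp only [iL_apply, smul_smul, Complex.I_mul_I]
  simp

theorem BG_BG (S G : Matrix (Fin d) (Fin d) ℂ) (u : Cn d) :
    BG S G (BG S G u) = mL ((S⁻¹ * G) * (S⁻¹ * G).map conj) u := by
  simp only [BG, ContinuousLinearMap.comp_apply, iL_apply]
  rw [cL_I, cL_mL, cL_cL, map_neg, mL_I, mL_mL, smul_neg, smul_smul, Complex.I_mul_I]
  simp

theorem rS_BG {S G : Matrix (Fin d) (Fin d) ℂ} (hS : Sᵀ = -S) (hdet : S.det ≠ 0)
    (hG : G.IsHermitian) (u v : Cn d) : rS S (BG S G u) v = wG G u v := by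
  rw [rS_apply, wG_apply hG]
  have hS' : IsUnit S.det := isUnit_iff_ne_zero.2 hdet
  have h1 : sb S (BG S G u) v = conj (I * hb G u v) := by
    rw [map_mul, hb_conj hG, Complex.conj_I]
    rw [sb_eq_dot, hb_eq_dot]
    have e1 : (BG S G u).ofLp = I • ((S⁻¹ * G) *ᵥ (fun b => conj (u b))) := by
      funext a
      show I * _ = _
      rfl
    have e2 : ((S⁻¹ * G) *ᵥ (fun b => conj (u b))) ᵥ* S = -(G *ᵥ (fun b => conj (u b))) := by
      rw [← Matrix.mulVec_transpose, hS, Matrix.neg_mulVec, Matrix.mulVec_mulVec,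
        ← Matrix.mul_assoc, Matrix.mul_nonsing_inv _ hS', Matrix.one_mul]
    rw [e1, smul_dotProduct, Matrix.dotProduct_mulVec, e2, neg_dotProduct, dotProduct_comm,
      smul_eq_mul]
    ring
  rw [h1, Complex.conj_re]

theorem wG_alt {G : Matrix (Fin d) (Fin d) ℂ} (hG : G.IsHermitian) (u v : Cn d) :
    wG G u v = -wG G v u := by
  rw [wG_apply hG, wG_apply hG, ← hb_conj hG u v]
  simp

theorem BG_adj {S G : Matrix (Fin d) (Fin d) ℂ} (hS : Sᵀ = -S) (hdet : S.det ≠ 0)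
    (hG : G.IsHermitian) (u v : Cn d) : rS S (BG S G u) v = rS S u (BG S G v) := by
  have h1 : rS S u (BG S G v) = -rS S (BG S G v) u := by
    rw [rS_apply, rS_apply, sb_alt hS]
    simp
  rw [h1, rS_BG hS hdet hG, rS_BG hS hdet hG, wG_alt hG]

theorem map_conj_inv (S : Matrix (Fin d) (Fin d) ℂ) : (S⁻¹).map conj = (S.map conj)⁻¹ := by
  have h1 : ∀ P : Matrix (Fin d) (Fin d) ℂ, P.map conj = Pᴴᵀ := by
    intro P; ext a b; simp
  rw [h1, h1, Matrix.conjTranspose_nonsing_inv, Matrix.transpose_nonsing_inv]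

theorem herm_map {G : Matrix (Fin d) (Fin d) ℂ} (hG : G.IsHermitian) : G.map conj = Gᵀ := by
  ext a b
  have := congrFun (congrFun hG.eq b) a
  simpa [Matrix.conjTranspose_apply] using this

/-- the trace of `B²` -/
theorem trace_BG {S G : Matrix (Fin d) (Fin d) ℂ} (hG : G.IsHermitian) :
    LinearMap.trace ℝ (Cn d) (((BG S G).comp (BG S G) : Cn d →L[ℝ] Cn d) : Cn d →ₗ[ℝ] Cn d) =
      2 * ((S⁻¹ * G * (S.map conj)⁻¹ * Gᵀ).trace).re := by
  have h1 : (BG S G).comp (BG S G) = mL ((S⁻¹ * G) * (S⁻¹ * G).map conj) := by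
    ext1 u
    exact BG_BG S G u
  rw [h1, trace_mL]
  congr 3
  have h2 : (S⁻¹ * G).map conj = (S⁻¹).map conj * G.map conj := by
    rw [Matrix.map_mul]
  rw [h2, map_conj_inv, herm_map hG, ← Matrix.mul_assoc]

/-- the trace is real -/
theorem trace_real {S G : Matrix (Fin d) (Fin d) ℂ} (hG : G.IsHermitian) :
    ((S⁻¹ * G * (S.map conj)⁻¹ * Gᵀ).trace).im = 0 := by
  have h1 : conj ((S⁻¹ * G * (S.map conj)⁻¹ * Gᵀ).trace) =
      (S⁻¹ * G * (S.map conj)⁻¹ * Gᵀ).trace := by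
    have e : conj ((S⁻¹ * G * (S.map conj)⁻¹ * Gᵀ).trace) =
        ((S⁻¹ * G * (S.map conj)⁻¹ * Gᵀ).map conj).trace := by
      rw [Matrix.trace, Matrix.trace, map_sum]
      rfl
    have hGG : (Gᵀ).map conj = G := by
      ext a b
      have := congrFun (congrFun hG.eq a) b
      simpa [Matrix.conjTranspose_apply] using this
    have hSS : ((S.map conj)⁻¹).map conj = S⁻¹ := by
      rw [map_conj_inv]
      congr 1
      ext a b; simp
    rw [e, Matrix.map_mul, Matrix.map_mul, Matrix.map_mul, map_conj_inv, herm_map hG, hGG, hSS,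
      Matrix.mul_assoc ((S.map conj)⁻¹ * Gᵀ), Matrix.trace_mul_comm, ← Matrix.mul_assoc]
  have h2 := congrArg Complex.im h1
  rw [Complex.conj_im] at h2
  linarith

/-! ### the pointwise identities -/

variable {N : ℕ} {J : MultilinearMap ℝ (fun _ : Fin N => HKA_799.Bil (Cn d)) ℝ}

theorem w_eq {S G : Matrix (Fin d) (Fin d) ℂ} (hS : Sᵀ = -S) (hdet : S.det ≠ 0)
    (hG : G.IsHermitian) : (rS S).comp (BG S G) = wG G := by
  ext u v
  exact rS_BG hS hdet hG u v

theorem pointwise (hJ : Symm J) (hn : HKA_799.Nat (fun w => J w)) (hN : 2 ≤ N)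
    {S G : Matrix (Fin d) (Fin d) ℂ} (hS : Sᵀ = -S) (hdet : S.det ≠ 0) (hG : G.IsHermitian) :
    J (mixv N 1 (rS S) (wG G)) = 0 ∧
      (N.choose 2 : ℝ) * J (mixv N 2 (rS S) (wG G)) =
        -(1 / 2) * ((S⁻¹ * G * (S.map conj)⁻¹ * Gᵀ).trace).re * J (fun _ => rS S) := by
  have h := second hJ hn hN (r := rS S) (B := BG S G) (J := iL) (BG_adj hS hdet hG) iL_sq
    (BG_anti S G)
  rw [w_eq hS hdet hG, trace_BG hG] at h
  refine ⟨h.1, ?_⟩
  rw [h.2]
  ring

end

end Crest.Agent.R281.Isq2_358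
end

-- ▼ part R281/Isq3_358

/-!
# Row 281, ISO-Q, part 3 (helper358): isotropy and the Fujiki form

* `IM_change` : `IM` for other Haar measures, bases, partitions of unity is a multiple
* `intT_intD` : `intT (lc n) (RPart.ofPart P) D = intD P f`
* `mass`      : `TP (bc d) (Re σ, …, Re σ) = 2^d d! |det s|`
* `int_one`, `int_two` : `∫ w ∧ r^(d-1) = 0`, `C(d,2) ∫ w² ∧ r^(d-2) = 2^d d!/2 intD P (qd σ G G)`
* `iso_iff`   : `Isotropic P σ L ↔ Qf e e = 0`
-/

set_option autoImplicit false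
set_option maxSynthPendingDepth 3
set_option linter.unusedSectionVars false

open Set Filter Topology Complex MeasureTheory
open scoped ContDiff Matrix ComplexConjugate ComplexOrder

namespace Crest.Agent.R281.Isq3_358

open Crest.Agent.R275.Geo Crest.Agent.R275.Core144 Crest.Agent.R275.EDR890
open Crest.Agent.R275.GC293 Crest.Agent.R275.C1d194
open Crest.Agent.R273.Defs_333 Crest.Agent.R273.Kah_333 Crest.Agent.R273.Vol_333
open Crest.Agent.R273.StokesV_332
open Crest.Agent.R275.SerG398 (lint)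
open Crest.Agent.R281.HkR_835 Crest.Agent.R281.Ti_846
open Crest.Agent.R281.HkP1_508 Crest.Agent.R281.HkP2_508 Crest.Agent.R281.HkP3_508
open Crest.Agent.R281.Defs_273
open Crest.Agent.R281.Fuj1_207 Crest.Agent.R281.Fuj2_207 Crest.Agent.R281.Fuj4_207
open Crest.Agent.R281.Fuj5_207 Crest.Agent.R281.Fuj6_207
open Crest.Agent.R281.FujP_513 (Symm mixv)
open Crest.Agent.R281.Isq1_358 Crest.Agent.R281.Isq2_358
open Crest.Agent.R281.Nef_252 (curK ex_cur)

noncomputable section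

/-! ### change of Haar measure, basis, partition -/

section change

variable {V X : Type} [NormedAddCommGroup V] [NormedSpace ℝ V] [FiniteDimensional ℝ V]
  [MeasurableSpace V] [BorelSpace V] [TopologicalSpace X] {C : RCh V X}

/-- change of basis -/
theorem TP_basis {N : ℕ} (b b' : Module.Basis (Fin N × Fin 2) ℝ V) (w : Fin N → HKA_799.Bil V) :
    TP b w = b'.det b * TP b' w := by
  have h1 := AlternatingMap.eq_smul_basis_det b' (wed w)
  have h2 := congrArg (fun f => f (b : Fin N × Fin 2 → V)) h1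
  simp only [AlternatingMap.smul_apply] at h2
  rw [← wed_apply, ← wed_apply, h2, smul_eq_mul, mul_comm]

/-- the intersection form for another Haar measure, basis, partition -/
theorem IM_change [CompactSpace X] {N : ℕ} (h : Ori C) (μ μ' : Measure V) [μ.IsAddHaarMeasure]
    [μ'.IsAddHaarMeasure] (b b' : Module.Basis (Fin N × Fin 2) ℝ V) (P P' : RPart C) :
    ∃ c : ℝ, c ≠ 0 ∧ ∀ w : Fin N → F2 C, IM μ b P w = c * IM μ' b' P' w := by
  have : ProperSpace V := FiniteDimensional.proper_real V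
  obtain ⟨c, hc0, hc⟩ : ∃ c : NNReal, 0 < c ∧ μ = c • μ' :=
    ⟨_, Measure.addHaarScalarFactor_pos_of_isAddHaarMeasure μ μ',
      Measure.isAddLeftInvariant_eq_smul μ μ'⟩
  have hd : b'.det b ≠ 0 := (Module.Basis.isUnit_det b' b).ne_zero
  refine ⟨c * b'.det b, mul_ne_zero (by exact_mod_cast hc0.ne') hd, fun w => ?_⟩
  rw [IM_apply, IM_apply, II_part μ' b' P' h P w]
  unfold II intT
  rw [Finset.mul_sum]
  refine Finset.sum_congr rfl fun k _ => ?_
  rw [hc, Measure.restrict_smul, integral_smul_nnreal_measure, NNReal.smul_def, smul_eq_mul,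
    mul_assoc, ← integral_const_mul (b'.det b)]
  congr 1
  refine setIntegral_congr_fun (C.e (P.c k)).open_target.measurableSet fun z _ => ?_
  simp only [TopF.of_D]
  rw [TP_basis b b']
  ring

end change

/-! ### the two integrals -/

section int

variable {n : ℕ} {M : Type} [TopologicalSpace M] {A : Atl n M}

theorem lint_lc (i : A.ι) (F : M → ℂ) (f : Cn n → ℝ)
    (h : ∀ z ∈ (A.e i).target, ((f z : ℝ) : ℂ) = F ((A.e i).symm z)) :
    ((∫ z in (A.e i).target, f z ∂(lc n) : ℝ) : ℂ) = lint A i F := by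
  have e0 : ∫ y in Ui A i, ((f (cc y) : ℝ) : ℂ) = ((∫ y in Ui A i, f (cc y) : ℝ) : ℂ) :=
    integral_ofReal (𝕜 := ℂ)
  rw [setIntegral_lc, ← e0,
    ← integral_indicator (Crest.Agent.R273.Vm_333.isOpen_Ui i).measurableSet]
  show _ = ∫ x, Crest.Agent.R275.Geo.rd A i F x
  refine integral_congr_ae (Eventually.of_forall fun y => ?_)
  by_cases hy : y ∈ Ui A i
  · show indicator _ _ y = _
    rw [indicator_of_mem hy, Crest.Agent.R275.C1d194.rd_of_mem hy]
    exact h _ hy
  · show indicator _ _ y = _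
    rw [indicator_of_notMem hy, Crest.Agent.R275.C1d194.rd_off hy]

/-- **the real integral is the integral of densities** -/
theorem intT_intD [T2Space M] [Finite A.ι] (P : Part A) (D : TopF (ofAtl A)) (f : A.ι → M → ℂ)
    (h : ∀ i, ∀ z ∈ (A.e i).target, ((D.D i z : ℝ) : ℂ) = f i ((A.e i).symm z)) :
    ((intT (lc n) (RPart.ofPart P) D : ℝ) : ℂ) = intD P f := by
  let _ := Fintype.ofFinite A.ι
  rw [intD_fintype]
  unfold intT
  rw [Complex.ofReal_sum]
  refine Finset.sum_congr rfl fun i _ => ?_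
  refine lint_lc i _ _ fun z hz => ?_
  rw [Complex.ofReal_mul]
  exact congrArg _ (h i z hz)

end int

/-- the product as a multilinear map -/
def TPM {V : Type} [NormedAddCommGroup V] [NormedSpace ℝ V] {N : ℕ} (b : Fin N × Fin 2 → V) :
    MultilinearMap ℝ (fun _ : Fin N => HKA_799.Bil V) ℝ where
  toFun w := TP b w
  map_update_add' := by
    intro D w k x y
    convert TP_update_add b w k x y
  map_update_smul' := by
    intro D w k c x
    rw [smul_eq_mul]
    convert TP_update_smul b w k c x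

@[simp] theorem TPM_apply {V : Type} [NormedAddCommGroup V] [NormedSpace ℝ V] {N : ℕ}
    (b : Fin N × Fin 2 → V) (w : Fin N → HKA_799.Bil V) : TPM b w = TP b w := rfl

section main

variable {d : ℕ} {M : Type} [TopologicalSpace M] {A : Atl d M}
  [T2Space M] [CompactSpace M] [ConnectedSpace M] [Finite A.ι] (P : Part A)
  (σ : HSymp A) (hu : σ.Uniq) (hc : ClH σ.toH2)

/-- the form of a (1,1)-form at a point -/
theorem f2_wG (G : K11 A) {i : A.ι} {z : Cn d} (hz : z ∈ (A.e i).target) :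
    G.f2.w i z = wG (G.g i ((A.e i).symm z)) := by
  ext u v
  rw [G.f2_w hz, wG_apply (G.herm i _ ((A.e i).map_target hz))]

/-- `Re σ` at a point -/
theorem reS_rS (i : A.ι) (z : Cn d) :
    (reS σ.toH2 hc).w i z = rS (σ.s i ((A.e i).symm z)) := by
  ext u v
  rw [reS_w, rS_apply]
  rfl

include P hu in
/-- **the mass of `Re σ`** -/
theorem mass (K : Kah A) (i : A.ι) {z : Cn d} (hz : z ∈ (A.e i).target) :
    TP (bc d) (fun _ : Fin d => (reS σ.toH2 hc).w i z) =
      2 ^ d * d.factorial * ‖(σ.s i ((A.e i).symm z)).det‖ := by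
  obtain ⟨u, hs, hp, r, hr, h0, h1⟩ := exists_HK_class P (KpK_487.yau_kah A) K σ hu
  obtain ⟨H, h2, h3, h4⟩ := exists_triple hc hr h1
  have hx := (A.e i).map_target hz
  have hfin : Module.finrank ℝ (Cn d) = 2 * d := by
    rw [Module.finrank_eq_card_basis (bc d)]
    simp [mul_comm]
  have h5 := (trip H i z hz).rot hfin (nat_TP' (bc d)) ![0, 1, 0]
  have h6 : ∀ k, (trip H i z hz).om k = (H.om k).w i z := by
    intro k
    ext u v
    rw [(H.om_eq k i z hz)]
    rfl
  have h7 : (trip H i z hz).omv ![0, 1, 0] = r • (reS σ.toH2 hc).w i z := by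
    rw [HKA_799.Trip.omv, Fin.sum_univ_three, h6, h6, h6, h3]
    simp <;> rfl
  have h8 := TP_smul (bc d) (fun _ : Fin d => (reS σ.toH2 hc).w i z) (fun _ => r)
  have h9 : ((TP (bc d) (fun _ : Fin d => (H.om 0).w i z) : ℝ) : ℂ) =
      2 ^ d * (d.factorial * ((‖((smulHS (r : ℂ) hr σ).s i ((A.e i).symm z)).det‖ : ℝ) : ℂ)) := by
    rw [h2, ← h1.det i hx, ← MD_same]
    exact TP_herm (G := fun _ => (addK K u hs hp).g i ((A.e i).symm z))
      (fun _ => (ofKah (addK K u hs hp)).herm i _ hx)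
      fun _ u' v => (ofKah (addK K u hs hp)).f2_w hz u' v
  have h10 : ‖((smulHS (r : ℂ) hr σ).s i ((A.e i).symm z)).det‖ =
      r ^ d * ‖(σ.s i ((A.e i).symm z)).det‖ := by
    show ‖((r : ℂ) • σ.s i ((A.e i).symm z)).det‖ = _
    rw [Matrix.det_smul, Fintype.card_fin, norm_mul, norm_pow, Complex.norm_real,
      Real.norm_of_nonneg h0.le]
  rw [h10] at h9
  have h11 : TP (bc d) (fun _ : Fin d => (H.om 0).w i z) =
      2 ^ d * (d.factorial * (r ^ d * ‖(σ.s i ((A.e i).symm z)).det‖)) := by exact_mod_cast h9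
  simp only [h7, h6] at h5
  rw [h8, h11] at h5
  simp only [Finset.prod_const, Finset.card_univ, Fintype.card_fin, Matrix.cons_val_zero,
    Matrix.cons_val_one, Matrix.cons_val] at h5
  norm_num at h5
  have h12 : r ^ d ≠ 0 := pow_ne_zero _ h0.ne'
  refine mul_left_cancel₀ h12 ?_
  rw [h5]
  ring

/-- the volume of a Kaehler form is positive -/
theorem pos_kah (K : Kah A) (RP : RPart (ofAtl A)) :
    0 < IM (lc d) (bc d) RP (fun _ => (ofKah K).f2) := by
  let _ : MeasurableSpace M := borel M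
  have : BorelSpace M := ⟨rfl⟩
  have : Countable A.ι := Finite.to_countable
  have := Crest.Agent.R273.Vm_333.isFinite_vm (volK K)
  have := Crest.Agent.R273.Vm_333.isOpenPos_vm (volK K)
  rw [IM_apply, II_same K RP]
  have h1 : 0 < (Crest.Agent.R273.Vm_333.vm (volK K)).real univ := by
    rw [measureReal_def]
    exact ENNReal.toReal_pos (isOpen_univ.measure_pos _ univ_nonempty).ne' (measure_ne_top _ _)
  positivity

theorem TPM_symm {V : Type} [NormedAddCommGroup V] [NormedSpace ℝ V] {N : ℕ}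
    (b : Fin N × Fin 2 → V) : Symm (TPM b) := fun π v => TP_perm b v π

theorem mixv_w (a : ℕ) (x y : F2 (ofAtl A)) (i : A.ι) (z : Cn d) :
    (fun k => (mixv d a x y k).w i z) = mixv d a (x.w i z) (y.w i z) := by
  funext k
  unfold mixv
  split_ifs <;> rfl

theorem of_mixv (a : ℕ) (G : K11 A) {i : A.ι} {z : Cn d} (hz : z ∈ (A.e i).target) :
    (TopF.of (bc d) (mixv d a (reS σ.toH2 hc) G.f2)).D i z =
      TP (bc d) (mixv d a (rS (σ.s i ((A.e i).symm z))) (wG (G.g i ((A.e i).symm z)))) := by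
  show TP (bc d) (fun k => (mixv d a (reS σ.toH2 hc) G.f2 k).w i z) = _
  rw [mixv_w, reS_rS, f2_wG G hz]

/-- **`∫ w ∧ (Re σ)^(d-1) = 0`** for a (1,1)-form `w` -/
theorem int_one (h2 : 2 ≤ d) (G : K11 A) :
    IM (lc d) (bc d) (RPart.ofPart P) (mixv d 1 (reS σ.toH2 hc) G.f2) = 0 := by
  have h1 : ((intT (lc d) (RPart.ofPart P) (TopF.of (bc d) (mixv d 1 (reS σ.toH2 hc) G.f2)) : ℝ)
      : ℂ) = intD P (fun _ _ => 0) := by
    refine intT_intD P _ _ fun i z hz => ?_
    have hx := (A.e i).map_target hz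
    have hp := (pointwise (TPM_symm (bc d)) (nat_TP' (bc d)) h2 (σ.alt i _ hx) (σ.nd i _ hx)
      (G.herm i _ hx)).1
    rw [TPM_apply] at hp
    rw [of_mixv σ hc 1 G hz, hp]
    rfl
  rw [intD_zero] at h1
  exact_mod_cast h1

include P hu in
/-- **`C(d,2) ∫ w² ∧ (Re σ)^(d-2) = (2^d d!/2) ∫ (σ σ̄)^(d/2-1) w²`** -/
theorem int_two (h2 : 2 ≤ d) (K : Kah A) (G : K11 A) :
    ((d.choose 2 : ℕ) : ℂ) *
      ((IM (lc d) (bc d) (RPart.ofPart P) (mixv d 2 (reS σ.toH2 hc) G.f2) : ℝ) : ℂ) =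
      (2 ^ d * d.factorial / 2) * intD P (qd σ G.g G.g) := by
  have hch : ((d.choose 2 : ℕ) : ℂ) ≠ 0 := by
    exact_mod_cast (Nat.choose_pos h2).ne'
  have h1 : ((intT (lc d) (RPart.ofPart P) (TopF.of (bc d) (mixv d 2 (reS σ.toH2 hc) G.f2)) : ℝ)
      : ℂ) = intD P (fun i x => (2 ^ d * d.factorial / 2 / ((d.choose 2 : ℕ) : ℂ)) *
        qd σ G.g G.g i x) := by
    refine intT_intD P _ _ fun i z hz => ?_
    have hx := (A.e i).map_target hz
    have hp := (pointwise (TPM_symm (bc d)) (nat_TP' (bc d)) h2 (σ.alt i _ hx) (σ.nd i _ hx)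
      (G.herm i _ hx)).2
    have hm := mass P σ hu hc K i hz
    rw [reS_rS] at hm
    rw [TPM_apply, TPM_apply, hm] at hp
    rw [of_mixv σ hc 2 G hz]
    have hr := trace_real (S := σ.s i ((A.e i).symm z)) (G.herm i _ hx)
    set t := ((σ.s i ((A.e i).symm z))⁻¹ * G.g i ((A.e i).symm z) *
      ((σ.s i ((A.e i).symm z)).map conj)⁻¹ * (G.g i ((A.e i).symm z))ᵀ).trace with ht
    have ht' : ((t.re : ℝ) : ℂ) = t := by
      apply Complex.ext
      · simp
      · simp [hr]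
    have hq : qd σ G.g G.g i ((A.e i).symm z) =
        -((‖(σ.s i ((A.e i).symm z)).det‖ : ℝ) : ℂ) * t := rfl
    rw [hq, ← ht']
    have hp' := congrArg (fun x : ℝ => (x : ℂ)) hp
    push_cast at hp' ⊢
    field_simp
    linear_combination 2 * hp'
  rw [intD_smul P _ isCompact_univ (offK_univ _)] at h1
  have h3 : ((IM (lc d) (bc d) (RPart.ofPart P) (mixv d 2 (reS σ.toH2 hc) G.f2) : ℝ) : ℂ) = _ := h1
  rw [h3]
  field_simp

include P hu in
/-- the mass of `Re σ` on `M` is positive -/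
theorem S_pos {ν : ℕ} (hN : d = 2 * ν) (K : Kah A) (RP : RPart (ofAtl A)) :
    0 < IM (lc d) (bc d) RP (fun _ => reS σ.toH2 hc) := by
  obtain ⟨K', H, ρ, hρ, h0, h1, h2, -⟩ := exists_tri P σ hu hc K
  exact (tri_of_hk (lc d) (bc d) RP hN H hρ h1 h2 (by rw [h0]; exact pos_kah K' RP)).S_pos

variable {N ν : ℕ} (hν : 1 ≤ ν) (hN : N = 2 * ν) (hN2 : 2 ≤ N)

/-- the dimension -/
theorem dim_eq (b : Module.Basis (Fin N × Fin 2) ℝ (Cn d)) : N = d := by
  have h1 := Module.finrank_eq_card_basis b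
  rw [Module.finrank_eq_card_basis (bc d)] at h1
  simpa using h1.symm

include P hν hN in
/-- the value of the form at a (1,1)-form -/
theorem Qf_k11 (μ : Measure (Cn d)) [μ.IsAddHaarMeasure]
    (b : Module.Basis (Fin N × Fin 2) ℝ (Cn d)) (RP : RPart (ofAtl A))
    (hS : 0 < IM μ b RP (fun _ => reS σ.toH2 hc)) (G : K11 A) :
    ∃ c : ℝ, c ≠ 0 ∧ Qf (IM μ b RP) hN2 ν (reS σ.toH2 hc) G.f2 G.f2 =
      c * IM (lc d) (bc d) (RPart.ofPart P) (mixv d 2 (reS σ.toH2 hc) G.f2) := by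
  obtain rfl : N = d := dim_eq b
  obtain ⟨c, hc0, hcw⟩ := IM_change (ori_ofAtl A) μ (lc N) b (bc N) RP (RPart.ofPart P)
  have h1 : IM μ b RP (v1 N G.f2 (reS σ.toH2 hc)) = 0 := by
    rw [v1_eq_mixv, hcw, int_one P σ hc hN2, mul_zero]
  have hν' : (1 : ℝ) ≤ ν := by exact_mod_cast hν
  refine ⟨rt (IM μ b RP fun _ => reS σ.toH2 hc) ν / (IM μ b RP fun _ => reS σ.toH2 hc) *
    ((2 * ν - 1) * c), mul_ne_zero (div_ne_zero (rt_pos hS ν).ne' hS.ne')
    (mul_ne_zero (by linarith) hc0), ?_⟩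
  rw [Qf_apply, h1, v2_eq_mixv, hcw (mixv N 2 _ _)]
  ring

include hu hν hN in
/-- **ISOTROPY AND THE FUJIKI FORM**, for (1,1)-forms -/
theorem intD_iff (K : Kah A) (μ : Measure (Cn d)) [μ.IsAddHaarMeasure]
    (b : Module.Basis (Fin N × Fin 2) ℝ (Cn d)) (RP : RPart (ofAtl A))
    (hS : 0 < IM μ b RP (fun _ => reS σ.toH2 hc)) (G : K11 A) :
    intD P (qd σ G.g G.g) = 0 ↔ Qf (IM μ b RP) hN2 ν (reS σ.toH2 hc) G.f2 G.f2 = 0 := by
  obtain ⟨c, hc0, h1⟩ := Qf_k11 P σ hc hν hN hN2 μ b RP hS G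
  have hd : 2 ≤ d := by rw [← dim_eq b]; exact hN2
  have h2 := int_two P σ hu hc hd K G
  rw [h1]
  have hch : ((d.choose 2 : ℕ) : ℂ) ≠ 0 := by exact_mod_cast (Nat.choose_pos hd).ne'
  constructor
  · intro h3
    rw [h3, mul_zero] at h2
    have h4 := (mul_eq_zero.1 h2).resolve_left hch
    have h5 : IM (lc d) (bc d) (RPart.ofPart P) (mixv d 2 (reS σ.toH2 hc) G.f2) = 0 := by
      exact_mod_cast h4
    rw [h5, mul_zero]
  · intro h3
    have h4 := (mul_eq_zero.1 h3).resolve_left hc0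
    rw [h4, Complex.ofReal_zero, mul_zero] at h2
    have h5 : (2 ^ d * (d.factorial : ℂ) / 2) ≠ 0 := by
      have := Nat.factorial_pos d
      positivity
    exact (mul_eq_zero.1 h2.symm).resolve_left h5

include hu hν hN in
/-- **ISO-Q**: `L` is isotropic iff its class is isotropic for the Fujiki form -/
theorem iso_iff (K : Kah A) (μ : Measure (Cn d)) [μ.IsAddHaarMeasure]
    (b : Module.Basis (Fin N × Fin 2) ℝ (Cn d)) (RP : RPart (ofAtl A))
    (hS : 0 < IM μ b RP (fun _ => reS σ.toH2 hc)) {L : LB A} (h : HM L) :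
    Isotropic P σ L ↔
      Qf (IM μ b RP) hN2 ν (reS σ.toH2 hc) (curK h).f2 (curK h).f2 = 0 := by
  constructor
  · intro h1
    exact (intD_iff P σ hu hc hν hN hN2 K μ b RP hS (curK h)).1 (h1 h)
  · intro h1 h'
    refine (intD_iff P σ hu hc hν hN hN2 K μ b RP hS (curK h')).2 ?_
    have hor := ori_ofAtl A
    have hT := IM_symm μ b RP
    have e1 := Qf_congr (ν := ν) μ b RP hor hN2 (reS σ.toH2 hc) (ex_cur h h') (curK h').f2
    have e2 := Qf_congr (ν := ν) μ b RP hor hN2 (reS σ.toH2 hc) (ex_cur h h') (curK h).f2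
    rw [e1, Qf_symm hT, e2]
    exact h1

include hν hN in
/-- positivity of the mass of `Re σ` from positivity on Kaehler forms -/
theorem S_pos' (P : Part A) (hu : σ.Uniq) (K : Kah A) (μ : Measure (Cn d)) [μ.IsAddHaarMeasure]
    (b : Module.Basis (Fin N × Fin 2) ℝ (Cn d)) (RP : RPart (ofAtl A))
    (hpos : ∀ K : Kah A, 0 < IM μ b RP (fun _ => (ofKah K).f2)) :
    0 < IM μ b RP (fun _ => reS σ.toH2 hc) := by
  obtain ⟨K', H, ρ, hρ, h0, h1, h2, -⟩ := exists_tri P σ hu hc K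
  exact (tri_of_hk μ b RP hN H hρ h1 h2 (by rw [h0]; exact hpos K')).S_pos

end main

end

end Crest.Agent.R281.Isq3_358
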