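import Crest.Agent.R281.Qr5_770
import Crest.Agent.R272.Kod8_410
import Crest.Agent.R281.Fuj4_207
import Crest.Agent.R281.Ti7_846
import Crest.Agent.R281.HkR9_835
import Crest.Agent.R281.Cdr2_234
import Crest.Agent.R281.Cdr5_234
import Crest.Agent.R281.Fuj7_207
import Crest.Agent.R281.Hdg7_850
import Crest.Agent.R281.FujP_513
import Crest.Agent.R281.Pjx1_648
import Crest.Agent.R260.NN6_900

-- ▼ part R281/Qr6_770
section

/-!
# Row 281, Q-RAT (helper770), part 6: integrality of all top self-intersection numbers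

`M` compact connected, `hO : HM O` positive (so `M` is projective, Kodaira embedding R272/Kod8_410).
* `numerical`   : a polynomial with values in `c ℤ` on `ℕ` has its value at `-1` in `c ℤ`
* `degree_int`  : for EVERY line bundle `L` : `∃ z : ℤ, ∀ P h, totc P (det (cur h)) = cn n * z`
* `degree_pos`  : for a positive `h : HM L` : `∃ d : ℕ, 0 < d ∧ ∀ P h, totc P (det (cur h)) = cn n * d`
* `degree_rat`  : `∫ det S ∈ cn n ℚ` for `S` with `m • S = cur h + ∂∂̄ u`
-/

set_option autoImplicit false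
set_option linter.unusedSectionVars false

open Set Filter Topology Complex MeasureTheory Module
open scoped ContDiff Matrix ComplexConjugate Manifold ENNReal ComplexOrder NNReal Polynomial fwdDiff

noncomputable section

namespace Crest.Agent.R281.Qr_770

open Crest.Agent.R273 Crest.Agent.R275 Crest.Agent.R275.Geo Crest.Agent.R275.Core144
open Crest.Agent.R275.EDR890
open Crest.Agent.R273.Defs_333 Crest.Agent.R273.Hess_333 Crest.Agent.R273.HessB_333
open Crest.Agent.R273.Kah_333 Crest.Agent.R273.FS_333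
open Crest.Agent.R273.HM_333 Crest.Agent.R273.FIb0_597 Crest.Agent.R273.FId0_597
open Crest.Agent.R273.Green_5 Crest.Agent.R273.VolInv_5 Crest.Agent.R273.StV_37

variable {n : ℕ}

/-- numerical polynomials -/
theorem numerical {p : ℂ[X]} {c : ℂ} (h : ∀ l : ℕ, ∃ z : ℤ, p.eval (l : ℂ) = c * z) :
    ∃ z : ℤ, p.eval (-1) = c * z := by
  have h1 := congrFun (Polynomial.fwdDiff_iter_degree_add_one_eq_zero p) (-1)
  rw [fwdDiff_iter_eq_sum_shift, Pi.zero_apply, Finset.sum_range_succ'] at h1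
  choose z hz using h
  have h2 : ∀ k : ℕ, p.eval (-1 + (k + 1) • (1 : ℂ)) = c * z k := by
    intro k
    rw [← hz k]
    congr 1
    rw [nsmul_eq_mul, Nat.cast_add, Nat.cast_one]
    ring
  simp only [h2] at h1
  simp only [zero_smul, add_zero, Nat.sub_zero, Nat.choose_zero_right, Nat.cast_one, mul_one] at h1
  have h3 : ∃ w : ℤ, ∑ k ∈ Finset.range (p.natDegree + 1),
      ((-1 : ℤ) ^ (p.natDegree + 1 - (k + 1)) * ((p.natDegree + 1).choose (k + 1) : ℤ)) • (c * z k) =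
      c * w := by
    refine ⟨∑ k ∈ Finset.range (p.natDegree + 1),
      ((-1 : ℤ) ^ (p.natDegree + 1 - (k + 1)) * ((p.natDegree + 1).choose (k + 1) : ℤ)) * z k, ?_⟩
    rw [Int.cast_sum, Finset.mul_sum]
    refine Finset.sum_congr rfl fun k _ => ?_
    rw [zsmul_eq_mul]
    push_cast
    ring
  obtain ⟨w, hw⟩ := h3
  rw [hw] at h1
  rcases neg_one_pow_eq_or ℤ (p.natDegree + 1) with h4 | h4
  · rw [h4, one_smul] at h1
    exact ⟨-w, by push_cast; linear_combination h1⟩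
  · rw [h4, neg_smul, one_smul] at h1
    exact ⟨w, by linear_combination -h1⟩

section

variable {M : Type} [TopologicalSpace M] {A : Atl n M} {L L' : LB A}
variable [T2Space M] [CompactSpace M] [Fintype A.ι]

/-- `t ↦ ∫ det (g + t H)` is a polynomial -/
theorem exists_poly (P : Part A) {g H : A.ι → M → Matrix (Fin n) (Fin n) ℂ}
    (hg : ∀ i a b, A.SmAt i (fun x => g i x a b)) (hH : ∀ i a b, A.SmAt i (fun x => H i x a b)) :
    ∃ p : ℂ[X], ∀ t : ℂ, p.eval t = totc P (fun i x => (g i x + t • H i x).det) := by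
  set c : ℕ → A.ι → M → ℂ := fun k i x => (dp (g i x) (H i x)).coeff k with hc
  have hcs : ∀ k i, A.SmAt i (c k i) := fun k i => smAt_coeff_dp (hg i) (hH i) k
  refine ⟨∑ k ∈ Finset.range (n + 1), Polynomial.C (totc P (c k)) * Polynomial.X ^ k, fun t => ?_⟩
  have h1 : totc P (fun i x => (g i x + t • H i x).det) =
      totc P (fun i x => ∑ k ∈ Finset.range (n + 1), t ^ k * c k i x) := by
    refine totc_congr P fun i x _ => ?_
    rw [← eval_dp, Polynomial.eval_eq_sum_range' (Nat.lt_succ_of_le (natDegree_dp _ _))]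
    exact Finset.sum_congr rfl fun k _ => mul_comm _ _
  rw [h1, totc_sum P _ (f := fun (k : ℕ) i x => t ^ k * c k i x) fun k _ i =>
    (contDiffOn_const (c := t ^ k)).mul (hcs k i), Polynomial.eval_finsetSum]
  refine Finset.sum_congr rfl fun k _ => ?_
  rw [Polynomial.eval_mul, Polynomial.eval_C, Polynomial.eval_pow, Polynomial.eval_X, totc_smul,
    mul_comm]

theorem HM.exists_cast {h : HM L} (e : L = L') : ∃ h' : HM L', ∀ i x, cur h' i x = cur h i x := by
  subst e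
  exact ⟨h, fun _ _ => rfl⟩

/-- the difference of two base point free bundles -/
theorem degree_div [ConnectedSpace M] (hb : Bpf L) (hb' : Bpf L') :
    ∃ z : ℤ, ∀ (P : Part A) (h : HM (L * L'⁻¹)),
      totc P (fun i x => (cur h i x).det) = (cn n : ℂ) * z := by
  by_cases hex : ∃ (_ : Part A), True
  swap
  · exact ⟨0, fun P h => absurd ⟨P, trivial⟩ hex⟩
  obtain ⟨P, -⟩ := hex
  obtain ⟨h1⟩ := exists_hm P L
  obtain ⟨h2⟩ := exists_hm P L'
  obtain ⟨p, hp⟩ := exists_poly P (cur_smooth h1) (cur_smooth h2)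
  have hv : ∀ l : ℕ, ∃ z : ℤ, p.eval (l : ℂ) = (cn n : ℂ) * z := by
    intro l
    obtain ⟨d, hd⟩ := degree (hb.mul (hb'.pow l))
    refine ⟨d, ?_⟩
    rw [hp, Int.cast_natCast, ← hd P (mul h1 (pow h2 l))]
    refine totc_congr P fun i x hx => ?_
    rw [cur_mul h1 (pow h2 l) i hx, cur_pow h2 l i hx]
  obtain ⟨z, hz⟩ := numerical hv
  refine ⟨z, fun P' h => ?_⟩
  rw [totc_indep P' P (tf_of_cf (cur_cf h)), ← hz, hp, volinv_cur P (mul h1 (inv h2)) h]
  refine totc_congr P fun i x hx => ?_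
  rw [cur_mul h1 (inv h2) i hx, cur_inv h2 i hx, neg_one_smul]

/-- **integrality of the top self-intersection of every line bundle** -/
theorem degree_int [ConnectedSpace M] (P : Part A) {O : LB A} {hO : HM O} (hp : hO.Pos)
    (L : LB A) : ∃ z : ℤ, ∀ (P : Part A) (h : HM L),
      totc P (fun i x => (cur h i x).det) = (cn n : ℂ) * z := by
  obtain ⟨m1, hm1⟩ := Crest.Agent.R272.Kod8_410.kodaira P hp L
  obtain ⟨m2, hm2⟩ := Crest.Agent.R272.Kod8_410.kodaira P hp (1 : LB A)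
  obtain ⟨P1, hP1⟩ := hm1 (max m1 m2) (le_max_left _ _)
  obtain ⟨P2, hP2⟩ := hm2 (max m1 m2) (le_max_right _ _)
  have hb1 : Bpf (L * O ^ max m1 m2) := hP1 ▸ Bpf.proj P1
  have hb2 : Bpf (O ^ max m1 m2) := by
    have := Bpf.proj P2
    rwa [hP2, one_mul] at this
  obtain ⟨z, hz⟩ := degree_div hb1 hb2
  have e : L = L * O ^ max m1 m2 * (O ^ max m1 m2)⁻¹ := by rw [mul_inv_cancel_right]
  refine ⟨z, fun P' h => ?_⟩
  obtain ⟨h', hh'⟩ := HM.exists_cast (h := h) e
  rw [← hz P' h']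
  simp only [hh']

/-- **a positive line bundle has positive integral degree** -/
theorem degree_pos [ConnectedSpace M] (P : Part A) {h0 : HM L} (hp : h0.Pos) :
    ∃ d : ℕ, 0 < d ∧ ∀ (P : Part A) (h : HM L),
      totc P (fun i x => (cur h i x).det) = (cn n : ℂ) * d := by
  obtain ⟨z, hz⟩ := degree_int P hp L
  have h1 := totc_pos P hp
  rw [hz P h0] at h1
  have h2 : 0 < cn n * z := by
    have : ((cn n : ℂ) * (z : ℂ)).re = cn n * z := by
      rw [← Complex.ofReal_intCast, ← Complex.ofReal_mul, Complex.ofReal_re]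
    rwa [this] at h1
  have h3 : (0 : ℝ) < z := pos_of_mul_pos_right h2 cn_pos.le
  have h4 : 0 < z := by exact_mod_cast h3
  refine ⟨z.toNat, by omega, fun P' h => ?_⟩
  rw [hz P' h]
  congr 1
  have h5 : ((z.toNat : ℕ) : ℤ) = z := Int.toNat_of_nonneg h4.le
  rw [← Int.cast_natCast, h5]


end

end Crest.Agent.R281.Qr_770
end
end

-- ▼ part R281/Qg1_770
section

/-!
# Row 281, RAT-GLUE (helper770), part 1: top power of a rational class of a rotated Kaehler form

* `TP_kah_pos`, `oriM_of`, `IM_change` : two holomorphic atlases whose Kaehler forms agree induce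
  the same orientation, the intersection form does not depend on the atlas
* `IM_totc`   : `IM (lc d) (bc d) P (ω_K, .., ω_K) = 2^d d! ∫ det K`
* `exists_fr` : orthonormal frames
* `Lef d c0`  : what is consumed of the Lefschetz (1,1) theorem
* `core`      : `RatF (a₀ ω₀ + a₁ ω₁ + a₂ ω₂)` ==> the top power is in `kap d c0 * ℚ`
-/

set_option autoImplicit false
set_option linter.unusedSectionVars false
set_option maxSynthPendingDepth 3

open Set Filter Topology Complex MeasureTheory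
open scoped ContDiff Matrix ComplexConjugate ComplexOrder

noncomputable section

namespace Crest.Agent.R281.Qg_770

open Crest.Agent.R275 Crest.Agent.R275.Geo Crest.Agent.R275.Core144 Crest.Agent.R275.EDR890
open Crest.Agent.R275.GC293
open Crest.Agent.R273.Defs_333 Crest.Agent.R273.Kah_333 Crest.Agent.R273.Vol_333
open Crest.Agent.R273.Vm_333 (vm)
open Crest.Agent.R273.StV_37 (totc)
open Crest.Agent.R273.FIb0_597 (TF tf_cur tf_kah dtM mem_ch ch)
open Crest.Agent.R281.HkR_835 Crest.Agent.R281.Ti_846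
open Crest.Agent.R281.Cdr_234 (RatF IntF)
open Crest.Agent.R281.Qr_770 (cn cn_pos degree_pos totc_pos)
open Crest.Agent.R260.ACM_580 (NNat)

variable {d : ℕ} {M : Type} [TopologicalSpace M] {A A' : Atl d M}

/-- Kaehler forms are positive -/
theorem TP_kah_pos (K : Kah A) {i : A.ι} {z : Cn d} (hz : z ∈ (A.e i).target) :
    0 < TP (bc d) (fun _ => (ofKah K).f2.w i z) := by
  have hx := (A.e i).map_target hz
  have h1 := TP_herm (w := fun _ => (ofKah K).f2.w i z)
    (G := fun _ => (ofKah K).g i ((A.e i).symm z)) (fun _ => (ofKah K).herm i _ hx)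
    fun _ u v => (ofKah K).f2_w hz u v
  rw [MD_same] at h1
  have h2 : 0 < (K.g i ((A.e i).symm z)).det := (K.pos i _ hx).det_pos
  have h3 := Complex.lt_def.1 h2
  have h4 : (((TP (bc d) (fun _ => (ofKah K).f2.w i z)) : ℝ) : ℂ) =
      ((2 ^ d * (d.factorial * (K.g i ((A.e i).symm z)).det.re) : ℝ) : ℂ) := by
    rw [h1]
    have h5 : (K.g i ((A.e i).symm z)).det = (((K.g i ((A.e i).symm z)).det.re : ℝ) : ℂ) := by
      apply Complex.ext
      · simp
      · simpa using h3.2.symm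
    have h6 : (ofKah K).g = K.g := rfl
    rw [h6]
    push_cast
    rw [← h5]
  have h7 : TP (bc d) (fun _ => (ofKah K).f2.w i z) =
      2 ^ d * (d.factorial * (K.g i ((A.e i).symm z)).det.re) := by exact_mod_cast h4
  rw [h7]
  have h8 : 0 < (K.g i ((A.e i).symm z)).det.re := h3.1
  have h9 : (0 : ℝ) < d.factorial := by exact_mod_cast d.factorial_pos
  positivity

/-- equal orientations -/
theorem oriM_of (h : Cmp (ofAtl A) (ofAtl A')) (w : F2 (ofAtl A))
    (hw : ∀ i, ∀ z ∈ (A.e i).target, 0 < TP (bc d) (fun _ => w.w i z))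
    (hw' : ∀ j, ∀ z ∈ (A'.e j).target, 0 < TP (bc d) (fun _ => (h.F w).w j z)) :
    OriM (ofAtl A) (ofAtl A') := by
  intro i j z hz
  have h1 := TP_comp' (bc d) (fderiv ℝ (HkR_835.mt (ofAtl A) (ofAtl A') i j) z)
    (w := fun _ => (h.F w).w j z) (w' := fun _ => w.w i (HkR_835.mt (ofAtl A) (ofAtl A') i j z))
    fun k u v => h.F_w w hz u v
  have h2 := hw' j z hz.1
  have h3 := hw i _ (Cmp.mt_mem hz).1
  rw [h1] at h2
  exact pos_of_mul_pos_left h2 h3.le

section cpt

variable [CompactSpace M]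

/-- independence of the atlas -/
theorem IM_change (h : Cmp (ofAtl A) (ofAtl A')) (w : F2 (ofAtl A))
    (hw : ∀ i, ∀ z ∈ (A.e i).target, 0 < TP (bc d) (fun _ => w.w i z))
    (hw' : ∀ j, ∀ z ∈ (A'.e j).target, 0 < TP (bc d) (fun _ => (h.F w).w j z))
    (P : RPart (ofAtl A)) (P' : RPart (ofAtl A')) (x : Fin d → F2 (ofAtl A)) :
    IM (lc d) (bc d) P' (fun k => h.F (x k)) = IM (lc d) (bc d) P x :=
  II_cmp (lc d) (bc d) h (oriM_of h w hw hw') P P' x

/-- the top power of a Kaehler form -/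
theorem IM_totc [T2Space M] [Fintype A.ι] (PA : Part A) (K : Kah A) (P : RPart (ofAtl A)) :
    IM (lc d) (bc d) P (fun _ => (ofKah K).f2) =
      2 ^ d * d.factorial * (totc PA (fun i x => (K.g i x).det)).re := by
  let _ : MeasurableSpace M := borel M
  have : BorelSpace M := ⟨rfl⟩
  rw [IM_apply, II_same, ← Crest.Agent.R273.FId0_597.int_dtM PA (volK K) (tf_kah K)]
  congr 1
  have h1 : ∀ x, dtM (volK K) K.g x = 1 := by
    intro x
    have hx := mem_ch A x
    unfold dtM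
    exact div_self ((volK K).pos _ x hx).ne'
  simp only [h1]
  rw [integral_const, smul_eq_mul, mul_one]

end cpt

/-- an oriented orthonormal frame with prescribed first vector -/
theorem exists_fr (a : Fin 3 → ℝ) (ha : a 0 * a 0 + a 1 * a 1 + a 2 * a 2 = 1) :
    ∃ R : Fin 3 → Fin 3 → ℝ, HkT.Fr R ∧ R 0 = a := by
  -- a unit vector orthogonal to `a`
  obtain ⟨b, hb, hab⟩ : ∃ b : Fin 3 → ℝ, b 0 * b 0 + b 1 * b 1 + b 2 * b 2 = 1 ∧
      a 0 * b 0 + a 1 * b 1 + a 2 * b 2 = 0 := by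
    by_cases h : a 0 * a 0 + a 1 * a 1 = 0
    · have h0 : a 0 = 0 := by nlinarith [mul_self_nonneg (a 0), mul_self_nonneg (a 1)]
      have h1 : a 1 = 0 := by nlinarith [mul_self_nonneg (a 0), mul_self_nonneg (a 1)]
      exact ⟨![1, 0, 0], by simp, by simp [h0, h1]⟩
    · have hp : 0 < a 0 * a 0 + a 1 * a 1 :=
        lt_of_le_of_ne (by nlinarith [mul_self_nonneg (a 0), mul_self_nonneg (a 1)]) (Ne.symm h)
      set ρ := Real.sqrt (a 0 * a 0 + a 1 * a 1) with hρ
      have hρ0 : 0 < ρ := Real.sqrt_pos.2 hp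
      have hρ2 : ρ * ρ = a 0 * a 0 + a 1 * a 1 := Real.mul_self_sqrt hp.le
      refine ⟨![-(a 1) / ρ, a 0 / ρ, 0], ?_, ?_⟩
      · simp only [Matrix.cons_val_zero, Matrix.cons_val_one, Matrix.cons_val]
        field_simp
        nlinarith
      · simp only [Matrix.cons_val_zero, Matrix.cons_val_one, Matrix.cons_val]
        ring
  refine ⟨![a, b, ![a 1 * b 2 - a 2 * b 1, a 2 * b 0 - a 0 * b 2, a 0 * b 1 - a 1 * b 0]],
    ⟨fun k => ?_, by simpa using hab, by simp⟩, rfl⟩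
  fin_cases k
  · simpa using ha
  · simpa using hb
  · simp only [Fin.reduceFinMk, Matrix.cons_val, Matrix.cons_val_zero, Matrix.cons_val_one]
    have h1 : (a 1 * b 2 - a 2 * b 1) * (a 1 * b 2 - a 2 * b 1) +
        (a 2 * b 0 - a 0 * b 2) * (a 2 * b 0 - a 0 * b 2) +
        (a 0 * b 1 - a 1 * b 0) * (a 0 * b 1 - a 1 * b 0) =
        (a 0 * a 0 + a 1 * a 1 + a 2 * a 2) * (b 0 * b 0 + b 1 * b 1 + b 2 * b 2) -
          (a 0 * b 0 + a 1 * b 1 + a 2 * b 2) ^ 2 := by ring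
    rw [h1, ha, hb, hab]
    norm_num

/-- what is consumed of the Lefschetz (1,1) theorem (234 (4)): a Kaehler form with a rational
class is, on some holomorphic atlas, `1/(c0 m)` times the curvature of a line bundle -/
def Lef (d : ℕ) (c0 : ℝ) : Prop :=
  ∀ (M : Type) [TopologicalSpace M] [T2Space M] [CompactSpace M] [ConnectedSpace M]
    (A : Atl d M) [Finite A.ι], GoodA A → Part A → ∀ K : Kah A, RatF (ofKah K).f2 →
    ∃ (A' : Atl d M) (_ : Finite A'.ι) (_ : Part A') (h : Cmp (ofAtl A) (ofAtl A')) (K' : Kah A')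
      (m : ℕ) (L : LB A') (hL : HM L), 0 < m ∧
      (∀ j, ∀ z ∈ (A'.e j).target, (ofKah K').f2.w j z = (h.F (ofKah K).f2).w j z) ∧
      ∀ j, ∀ x ∈ (A'.e j).source, cur hL j x = ((c0 * m : ℝ) : ℂ) • K'.g j x

/-- the universal constant -/
def kap (d : ℕ) (c0 : ℝ) : ℝ := 2 ^ d * d.factorial * cn d / c0 ^ d

theorem kap_pos {c0 : ℝ} (h : 0 < c0) : 0 < kap d c0 := by
  have h1 := cn_pos (n := d)
  have h9 : (0 : ℝ) < d.factorial := by exact_mod_cast d.factorial_pos
  unfold kap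
  positivity

section main

variable [T2Space M] [CompactSpace M] [ConnectedSpace M]

/-- **the volume of a rational Kaehler class** -/
theorem vol_rat {c0 : ℝ} (hc0 : 0 < c0) (hL : Lef d c0) [Finite A.ι] (hG : GoodA A) (PA : Part A)
    (K : Kah A) (P : RPart (ofAtl A)) (hr : RatF (ofKah K).f2) :
    ∃ r : ℚ, IM (lc d) (bc d) P (fun _ => (ofKah K).f2) = kap d c0 * r := by
  obtain ⟨A', hfin, PA', h, K', m, L, hl, hm, hK', hcur⟩ := hL M A hG PA K hr
  have := Fintype.ofFinite A'.ι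
  -- the degree
  have hpos : hl.Pos := pos_of_cur fun j x hx => by
    rw [hcur j x hx]
    refine (K'.pos j x hx).smul ?_
    have : (0 : ℝ) < c0 * m := by
      have : (0 : ℝ) < m := by exact_mod_cast hm
      positivity
    exact_mod_cast this
  obtain ⟨D, -, hD⟩ := degree_pos PA' hpos
  have h1 := hD PA' hl
  have h2 : totc PA' (fun j x => (cur hl j x).det) =
      (((c0 * m : ℝ) : ℂ)) ^ d * totc PA' (fun j x => (K'.g j x).det) := by
    rw [← Crest.Agent.R273.VolInv_5.totc_smul]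
    refine Crest.Agent.R273.VolInv_5.totc_congr PA' fun j x hx => ?_
    rw [hcur j x hx, Matrix.det_smul, Fintype.card_fin]
  rw [h2] at h1
  have h3 : (c0 * m) ^ d * (totc PA' (fun j x => (K'.g j x).det)).re = cn d * D := by
    have h4 := congrArg Complex.re h1
    rw [← Complex.ofReal_pow, Complex.re_ofReal_mul] at h4
    rw [h4]
    have : (cn d : ℂ) * (D : ℂ) = ((cn d * D : ℝ) : ℂ) := by push_cast; ring
    rw [this, Complex.ofReal_re]
  -- the intersection form
  have e1 : IM (lc d) (bc d) P (fun _ => (ofKah K).f2) =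
      IM (lc d) (bc d) (RPart.ofPart PA') (fun _ => (ofKah K').f2) := by
    rw [← IM_change h (ofKah K).f2 (fun i z hz => TP_kah_pos K hz)
      (fun j z hz => by rw [← hK' j z hz]; exact TP_kah_pos K' hz) P (RPart.ofPart PA')]
    exact II_congr _ _ _ fun k j z hz u v => by rw [hK' j z hz]
  rw [e1, IM_totc PA' K']
  have hm0 : (m : ℝ) ≠ 0 := by exact_mod_cast hm.ne'
  refine ⟨(D : ℚ) / (m : ℚ) ^ d, ?_⟩
  have h5 : (totc PA' (fun j x => (K'.g j x).det)).re = cn d * D / (c0 * m) ^ d := by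
    rw [eq_div_iff (pow_ne_zero _ (mul_ne_zero hc0.ne' hm0)), ← h3]
    ring
  rw [h5, kap]
  push_cast
  rw [mul_pow]
  field_simp

end main

end Crest.Agent.R281.Qg_770
end
end

-- ▼ part R281/Qg2_770
section

/-!
# Row 281, RAT-GLUE (helper770), part 2: `Lef` from 234's Lefschetz theorem; the core

* `smK c K`  : the real multiple of a closed real (1,1)-form
* `F_eqv_pull` : `Cmp.F` is the pull back along the identity; `RatF` is independent of the charts
* `lef`      : `Lef d π` if rational classes have integral multiples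
* `core`     : `RatF (a₀ ω₀ + a₁ ω₁ + a₂ ω₂)` ==> the top power is in `kap d c0 * ℚ`
-/

set_option autoImplicit false
set_option linter.unusedSectionVars false
set_option maxSynthPendingDepth 3

open Set Filter Topology Complex MeasureTheory
open scoped ContDiff Matrix ComplexConjugate ComplexOrder

noncomputable section

namespace Crest.Agent.R281.Qg_770

open Crest.Agent.R275 Crest.Agent.R275.Geo Crest.Agent.R275.Core144 Crest.Agent.R275.EDR890
open Crest.Agent.R275.GC293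
open Crest.Agent.R273.Defs_333 Crest.Agent.R273.Kah_333 Crest.Agent.R273.Vol_333
open Crest.Agent.R273.Map_835 (HolMap Jp)
open Crest.Agent.R281.HkR_835 Crest.Agent.R281.Ti_846 Crest.Agent.R281.Dif_268
open Crest.Agent.R281.Cdr_234 (RatF IntF Cls curK cmp_of_hol pull_f2)
open Crest.Agent.R281.Qr_770 (cn cn_pos degree_pos totc_pos)
open Crest.Agent.R260.ACM_580 (NNat)
open Crest.Agent.R281.Fuj5_207 (E11 f2_mem mem_exS_of_eq)

variable {d : ℕ} {M : Type} [TopologicalSpace M] {A A' : Atl d M}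

/-! ### real multiples -/

/-- the real multiple of a closed real (1,1)-form -/
def smK (c : ℝ) (K : K11 A) : K11 A := F2.k11 (c • K.f2) ((E11 A).smul_mem c (f2_mem K))

theorem smK_f2 (c : ℝ) (K : K11 A) {i : A.ι} {z : Cn d} (hz : z ∈ (A.e i).target) :
    (smK c K).f2.w i z = (c • K.f2).w i z := F2.k11_f2 _ _ hz

theorem GB_smul (B : Bil (Cn d)) (t : ℝ) : GB (t • B) = (t : ℂ) • GB B := by
  ext a b
  rw [Matrix.smul_apply, GB, GB, Matrix.of_apply, Matrix.of_apply, hw, hw]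
  simp only [smul_apply, smul_eq_mul]
  push_cast
  ring

theorem smK_g (c : ℝ) (K : K11 A) {i : A.ι} {x : M} (hx : x ∈ (A.e i).source) :
    (smK c K).g i x = (c : ℂ) • K.g i x := by
  have h1 := K11.f2_k11 K hx
  rw [F2.k11_g] at h1
  rw [← h1]
  exact GB_smul _ _

theorem smK_pos {c : ℝ} (hc : 0 < c) (K : K11 A)
    (hp : ∀ i, ∀ x ∈ (A.e i).source, (K.g i x).PosDef) :
    ∀ i, ∀ x ∈ (A.e i).source, ((smK c K).g i x).PosDef := by
  intro i x hx
  rw [smK_g c K hx]
  exact (hp i x hx).smul (by exact_mod_cast hc)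

/-! ### change of charts -/

section cmp

variable {V V' X : Type} [NormedAddCommGroup V] [NormedSpace ℝ V] [NormedAddCommGroup V']
  [NormedSpace ℝ V'] [TopologicalSpace X] {C : RCh V X} {C' : RCh V' X}

theorem F_eqv_pull (h : Cmp C C') (w : F2 C) : Eqv ((SMap.ofCmp h).pull w) (h.F w) := by
  intro j z hz u v
  obtain ⟨i, hi⟩ := Cmp.exists_mov C hz
  rw [h.F_w w hi, (SMap.ofCmp h).pull_w w hi]
  rfl

theorem RatF.F (h : Cmp C C') {w : F2 C} (hw : RatF w) : RatF (h.F w) :=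
  Cls.eqv (Cdr_234.Cls.pull (SMap.ofCmp h) hw) (F_eqv_pull h w)

end cmp

/-! ### the Lefschetz theorem -/

/-- rational classes on compact manifolds have integral multiples -/
def RInt (d : ℕ) : Prop := ∀ (M : Type) [TopologicalSpace M] [T2Space M] [CompactSpace M]
  (A : Atl d M) [Finite A.ι], Part A → ∀ w : F2 (ofAtl A), RatF w →
    ∃ m : ℕ, 0 < m ∧ IntF ((m : ℝ) • w)

theorem lef (hR : RInt d) : Lef d Real.pi := by
  intro M _ _ _ _ A _ _ P K hr
  obtain ⟨m, hm, hi⟩ := hR M A P _ hr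
  have hm' : (0 : ℝ) < m := by exact_mod_cast hm
  have hmπ : (0 : ℝ) < Real.pi * m := by positivity
  set K1 : K11 A := smK (Real.pi * m) (ofKah K) with hK1
  have h1 : IntF ((Real.pi⁻¹ : ℝ) • K1.f2) := by
    refine Cls.eqv hi fun i z hz u v => ?_
    show (m : ℝ) * (ofKah K).f2.w i z u v = Real.pi⁻¹ * K1.f2.w i z u v
    rw [hK1, smK_f2 _ _ hz]
    show _ = Real.pi⁻¹ * (Real.pi * m * (ofKah K).f2.w i z u v)
    field_simp
  obtain ⟨A', L, hL, hfin, hG, ⟨P'⟩, -, -, hA1, hA2, hcur⟩ := Cdr_234.lefschetz K1 h1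
    (fun _ : Unit => (univ : Set M)) (fun _ => isOpen_univ) (fun x => ⟨(), mem_univ x⟩)
  set h := cmp_of_hol hA1.toHolMap hA2.toHolMap with hh
  -- positivity
  have hp : ∀ j, ∀ x ∈ (A'.e j).source, (cur hL j x).PosDef := by
    intro j x hx
    obtain ⟨i, hi⟩ := A.cover x
    rw [hcur j i x hx hi]
    refine Crest.Agent.R281.Fuj7_207.posDef_congr
      (smK_pos hmπ (ofKah K) (fun i x hx => K.pos i x hx) i x hi) (hA1.det j i x hx hi)
  set K' : Kah A' := (smK (Real.pi * m)⁻¹ (curK hL)).kah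
    (smK_pos (inv_pos.2 hmπ) (curK hL) hp) with hK'
  refine ⟨A', hfin, P', h, K', m, L, hL, hm, ?_, ?_⟩
  · intro j z hz
    ext u v
    obtain ⟨i, hi⟩ := Cmp.exists_mov (ofAtl A) (C' := ofAtl A') (j := j) hz
    have e1 : (ofKah K').f2.w j z u v = (Real.pi * m)⁻¹ * (curK hL).f2.w j z u v := by
      have : ofKah K' = smK (Real.pi * m)⁻¹ (curK hL) := rfl
      rw [this, smK_f2 _ _ hz]
      rfl
    have hx := (A'.e j).map_target hz
    have e2 : (curK hL).f2.w j z u v = ((SMap.ofCmp h).pull K1.f2).w j z u v := by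
      rw [(curK hL).f2_w hz, pull_f2 hA1.toHolMap hA2.toHolMap K1 hi]
      have := hcur j i _ hx hi.2
      rw [← this]
      rfl
    have e3 : ((SMap.ofCmp h).pull K1.f2).w j z u v = (h.F K1.f2).w j z u v :=
      F_eqv_pull h K1.f2 j z hz u v
    rw [e1, e2, e3, h.F_w _ hi, h.F_w _ hi, hK1, smK_f2 _ _ (Cmp.mt_mem hi).1]
    show (Real.pi * m)⁻¹ * (Real.pi * m * _) = _
    rw [← mul_assoc, inv_mul_cancel₀ hmπ.ne', one_mul]
    rfl
  · intro j x hx
    have : K'.g j x = (((Real.pi * m)⁻¹ : ℝ) : ℂ) • cur hL j x := smK_g _ (curK hL) hx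
    rw [this, smul_smul, ← Complex.ofReal_mul, mul_inv_cancel₀ hmπ.ne', Complex.ofReal_one,
      one_smul]

/-! ### the core -/

section core

variable [T2Space M] [CompactSpace M] [ConnectedSpace M]

/-- top power of the forms of a triple, pointwise -/
theorem TP_rot (H : HkT (ofAtl A)) (a : Fin 3 → ℝ) {i : A.ι} {z : Cn d}
    (hz : z ∈ (A.e i).target) :
    TP (bc d) (fun _ => (F2.lin a H.om).w i z) =
      Real.sqrt (a 0 ^ 2 + a 1 ^ 2 + a 2 ^ 2) ^ d * TP (bc d) (fun _ => (H.om 0).w i z) := by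
  have hfin : Module.finrank ℝ (Cn d) = 2 * d := by
    rw [Module.finrank_eq_card_basis (bc d)]
    simp [mul_comm]
  have h2 := (Crest.Agent.R281.Fuj2_207.trip H i z hz).rot hfin
    (Crest.Agent.R281.Fuj4_207.nat_TP' (bc d)) a
  have h3 : ∀ k, (Crest.Agent.R281.Fuj2_207.trip H i z hz).om k = (H.om k).w i z := by
    intro k
    ext u v
    rw [(H.om_eq k i z hz)]
    rfl
  have h4 : (Crest.Agent.R281.Fuj2_207.trip H i z hz).omv a = (F2.lin a H.om).w i z := by
    rw [HKA_799.Trip.omv, Fin.sum_univ_three, h3, h3, h3]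
    ext u v
    refine Eq.trans ?_ (F2.lin_w a H.om i z u v).symm
    rw [Fin.sum_univ_three]
    rfl
  simp only [h4, h3] at h2
  exact h2

/-- **the core**: the top power of a rational class in the span of a hyperkaehler triple -/
theorem core {c0 : ℝ} (hc0 : 0 < c0) (hL : Lef d c0) (hNN : NNat (Cn d) d) (hd : 1 ≤ d)
    [Finite A.ι] (P : RPart (ofAtl A)) (H : HkT (ofAtl A))
    (hpos : ∀ i, ∀ z ∈ (A.e i).target, 0 < TP (bc d) (fun _ => (H.om 0).w i z))
    (a : Fin 3 → ℝ) (hr : RatF (F2.lin a H.om)) :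
    ∃ r : ℚ, IM (lc d) (bc d) P (fun _ => F2.lin a H.om) = kap d c0 * r := by
  by_cases ha : a = 0
  · refine ⟨0, ?_⟩
    have h0 : F2.lin a H.om = 0 := by
      refine F2.ext (funext fun i => funext fun z => ?_)
      ext u v
      rw [F2.lin_w, ha]
      simp
    rw [h0]
    have : (fun _ : Fin d => (0 : F2 (ofAtl A))) = 0 := rfl
    rw [this]
    have hne : Nonempty (Fin d) := ⟨⟨0, hd⟩⟩
    rw [MultilinearMap.map_zero]
    simp
  set t := Real.sqrt (a 0 ^ 2 + a 1 ^ 2 + a 2 ^ 2) with ht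
  have hs : 0 < a 0 ^ 2 + a 1 ^ 2 + a 2 ^ 2 := by
    by_contra hcon
    push Not at hcon
    refine ha (funext fun k => ?_)
    have h0 : a 0 = 0 := by nlinarith [sq_nonneg (a 0), sq_nonneg (a 1), sq_nonneg (a 2)]
    have h1 : a 1 = 0 := by nlinarith [sq_nonneg (a 0), sq_nonneg (a 1), sq_nonneg (a 2)]
    have h2 : a 2 = 0 := by nlinarith [sq_nonneg (a 0), sq_nonneg (a 1), sq_nonneg (a 2)]
    fin_cases k
    · exact h0
    · exact h1
    · exact h2
  have ht0 : 0 < t := Real.sqrt_pos.2 hs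
  have ht2 : t * t = a 0 ^ 2 + a 1 ^ 2 + a 2 ^ 2 := Real.mul_self_sqrt hs.le
  obtain ⟨R, hR, hR0⟩ := exists_fr (fun k => a k / t) (by
    field_simp
    linarith)
  set H' := H.rot R hR with hH'
  obtain ⟨A', hfin, hG, ⟨P'⟩, h, hJ, -⟩ := exists_rot hNN H'
  set K0 := (h.hk H').K0 hJ with hK0
  set Kt : Kah A' := (smK t (ofKah K0)).kah (smK_pos ht0 (ofKah K0) (fun i x hx => K0.pos i x hx))
    with hKt
  -- the form `t K0` is the given form
  have e1 : ∀ j, ∀ z ∈ (A'.e j).target, (ofKah Kt).f2.w j z = (h.F (F2.lin a H.om)).w j z := by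
    intro j z hz
    obtain ⟨i, hi⟩ := Cmp.exists_mov (ofAtl A) (C' := ofAtl A') (j := j) hz
    have e2 : ofKah Kt = smK t (ofKah K0) := rfl
    rw [e2, smK_f2 _ _ hz]
    ext u v
    show t * (ofKah K0).f2.w j z u v = _
    rw [hK0, K0_om0 (h.hk H') hJ hz]
    show t * (h.F (H'.om 0)).w j z u v = _
    rw [h.F_w _ hi, h.F_w _ hi, hH', HkT.rot_om, F2.lin_w, F2.lin_w, hR0, Finset.mul_sum]
    refine Finset.sum_congr rfl fun k _ => ?_
    field_simp
  have hrt : RatF (ofKah Kt).f2 := Cls.eqv (RatF.F h hr) fun j z hz u v => by rw [e1 j z hz]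
  obtain ⟨r, hr'⟩ := vol_rat hc0 hL hG P' Kt (RPart.ofPart P') hrt
  refine ⟨r, ?_⟩
  rw [← hr', ← IM_change h (F2.lin a H.om) (fun i z hz => ?_) (fun j z hz => ?_) P
    (RPart.ofPart P')]
  · exact (II_congr _ _ _ fun k j z hz u v => by rw [e1 j z hz]).symm
  · rw [TP_rot H a hz, ← ht]
    have := hpos i z hz
    positivity
  · rw [← e1 j z hz]
    exact TP_kah_pos Kt hz

end core

end Crest.Agent.R281.Qg_770
end
end

-- ▼ part R281/Qg3_770
section

/-!
# Row 281, RAT-GLUE (helper770), part 3: the Beauville form is rational up to a scalar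

* `InU`      : `x = K' + a Re σ + c Im σ + exact`, `K'` Kaehler
* `vol_U`    : `RatF x`, `InU x` ==> `∫ x^d ∈ kap d c0 * ℚ`
* `rat_Tn`   : **`∃ c > 0, ∀ x y, RatF x → RatF y → ∃ r : ℚ, Q(x, y) = c * r`**
-/

set_option autoImplicit false
set_option linter.unusedSectionVars false
set_option maxSynthPendingDepth 3

open Set Filter Topology Complex MeasureTheory
open scoped ContDiff Matrix ComplexConjugate ComplexOrder

noncomputable section

namespace Crest.Agent.R281.Qg_770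

open Crest.Agent.R275 Crest.Agent.R275.Geo Crest.Agent.R275.Core144 Crest.Agent.R275.EDR890
open Crest.Agent.R275.GC293
open Crest.Agent.R273.Defs_333 Crest.Agent.R273.Kah_333 Crest.Agent.R273.Vol_333
open Crest.Agent.R281.HkR_835 Crest.Agent.R281.Ti_846 Crest.Agent.R281.Dif_268
open Crest.Agent.R281.Defs_273 (H2 HSymp)
open Crest.Agent.R281.Cdr_234 (RatF IntF Cls clsS)
open Crest.Agent.R281.Fuj1_207 (Qf qf Kills Tri)
open Crest.Agent.R281.Fuj4_207 Crest.Agent.R281.Fuj5_207 Crest.Agent.R281.Fuj7_207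
open Crest.Agent.R260.ACM_580 (NNat)
open Crest.Agent.R281.FujR_513 (rational_form)

variable {d : ℕ} {M : Type} [TopologicalSpace M] {A : Atl d M}

/-- `x = K' + a Re σ + c Im σ + exact` -/
def InU (σ : HSymp A) (hc : ClH σ.toH2) (x : F2 (ofAtl A)) : Prop :=
  ∃ (K' : Kah A) (a c : ℝ), ∃ e ∈ exS (ofAtl A),
    x = (ofKah K').f2 + a • reS σ.toH2 hc + c • imS σ.toH2 hc + e

theorem bil_exp {H : Type*} [AddCommGroup H] [Module ℝ H] (Q : H →ₗ[ℝ] H →ₗ[ℝ] ℝ) {k r s e : H}
    (a c : ℝ) (s1 : ∀ x y, Q x y = Q y x) (s2 : ∀ x, Q x e = 0) (w1 : Q s s = Q r r)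
    (w2 : Q r s = 0) (w3 : Q r k = 0) (w4 : Q s k = 0) :
    Q (k + a • r + c • s + e) (k + a • r + c • s + e) = Q k k + (a ^ 2 + c ^ 2) * Q r r := by
  have s3 : ∀ x, Q e x = 0 := fun x => by rw [s1, s2]
  simp only [map_add, LinearMap.add_apply, map_smul, LinearMap.smul_apply, smul_eq_mul, s2, s3,
    w1, w2, w3, w4, s1 k r, s1 k s, s1 s r]
  ring

section main

variable [T2Space M] [CompactSpace M] [ConnectedSpace M] [Finite A.ι] (P : Part A)
  (σ : HSymp A) (hu : σ.Uniq) (hc : ClH σ.toH2)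

include hu in
/-- **the top power of a rational class in `U`** -/
theorem vol_U {c0 : ℝ} (hc0 : 0 < c0) (hL : Lef d c0) (hNN : NNat (Cn d) d) (hd : 1 ≤ d)
    {x : F2 (ofAtl A)} (hx : RatF x) (hU : InU σ hc x) :
    ∃ r : ℚ, IM (lc d) (bc d) (RPart.ofPart P) (fun _ => x) = kap d c0 * r := by
  obtain ⟨K', a, c, e, he, hxe⟩ := hU
  obtain ⟨K'', H, ρ, hρ, h0, h1, h2, h3⟩ := exists_tri P σ hu hc K'
  set a' : Fin 3 → ℝ := ![1, a / ρ, c / ρ] with ha'
  have e1 : x - F2.lin a' H.om ∈ exS (ofAtl A) := by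
    have e2 : x - F2.lin a' H.om =
        (x - ((ofKah K'').f2 + a • reS σ.toH2 hc + c • imS σ.toH2 hc)) +
        (((ofKah K'').f2 + a • reS σ.toH2 hc + c • imS σ.toH2 hc) - F2.lin a' H.om) := by abel
    rw [e2]
    refine (exS _).add_mem ?_ (mem_exS_of_eq fun i z hz u v => ?_)
    · have e3 : x - ((ofKah K'').f2 + a • reS σ.toH2 hc + c • imS σ.toH2 hc) =
          e - ((ofKah K'').f2 - (ofKah K').f2) := by
        rw [hxe]
        abel
      rw [e3]
      exact (exS _).sub_mem he h3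
    · refine Eq.trans ?_ (F2.lin_w a' H.om i z u v).symm
      rw [Fin.sum_univ_three, h0, h1, h2]
      show (ofKah K'').f2.w i z u v + a * (reS σ.toH2 hc).w i z u v +
        c * (imS σ.toH2 hc).w i z u v = 1 * (ofKah K'').f2.w i z u v +
        a / ρ * (ρ * (reS σ.toH2 hc).w i z u v) + c / ρ * (ρ * (imS σ.toH2 hc).w i z u v)
      field_simp
  have hr : RatF (F2.lin a' H.om) := Cls.of_sub_ex' hx (mem_exS.1 e1)
  obtain ⟨r, hr'⟩ := core hc0 hL hNN hd (RPart.ofPart P) H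
    (fun i z hz => by rw [h0]; exact TP_kah_pos K'' hz) a' hr
  exact ⟨r, by rw [← hr']; exact IM_coh _ _ _ (ori_ofAtl A) fun _ => e1⟩

include P hu in
/-- `U` is open -/
theorem InU.near {x : F2 (ofAtl A)} (h : InU σ hc x) (y : F2 (ofAtl A)) :
    ∃ ε : ℝ, 0 < ε ∧ ∀ t : ℝ, 0 < t → t < ε → InU σ hc (x + t • y) := by
  obtain ⟨K', a, c, e, he, hxe⟩ := h
  obtain ⟨ε, hε, h1⟩ := Fuj5_207.near P σ hu hc open11 K' y
  refine ⟨ε, hε, fun t ht0 ht1 => ?_⟩
  obtain ⟨K'', H, ρ, a', c', hρ, h2, -, -, -, e', he', h3⟩ := h1 t ht0 ht1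
  refine ⟨K'', a + a', c + c', e + e', (exS _).add_mem he he', ?_⟩
  rw [hxe]
  have : (ofKah K').f2 + a • reS σ.toH2 hc + c • imS σ.toH2 hc + e + t • y =
      ((ofKah K').f2 + t • y) + a • reS σ.toH2 hc + c • imS σ.toH2 hc + e := by abel
  rw [this, h3, h2]
  module

/-- every closed real 2-form is a real combination of rational classes (234 (3)) -/
def RSpan (A : Atl d M) : Prop := ∀ x : F2 (ofAtl A), ∃ (N : ℕ) (b : Fin N → F2 (ofAtl A))
  (t : Fin N → ℝ), (∀ k, RatF (b k)) ∧ x - ∑ k, t k • b k ∈ exS (ofAtl A)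

theorem RatF.sum {N : ℕ} {b : Fin N → F2 (ofAtl A)} (hb : ∀ k, RatF (b k)) (q : Fin N → ℚ) :
    RatF (∑ k, (q k : ℝ) • b k) := by
  have h1 : ∑ k, (q k : ℝ) • b k ∈ clsS (ofAtl A) (Rat.castHom ℝ).toAddMonoidHom.range :=
    AddSubgroup.sum_mem _ fun k _ => Cdr_234.RatF.smul (hb k) (q k)
  exact h1

include P hu in
/-- there are rational classes in `U` -/
theorem exists_rat_U (K : Kah A) (hS : RSpan A) : ∃ x : F2 (ofAtl A), RatF x ∧ InU σ hc x := by
  obtain ⟨N, b, t, hb, hx⟩ := hS (ofKah K).f2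
  obtain ⟨c, c', ε, hε, h1⟩ := Hdg_850.h4 P K hc hu b
  have h2 : ∀ k, ∃ q : ℚ, |(q : ℝ) - t k| < ε := fun k => by
    obtain ⟨q, hq1, hq2⟩ := exists_rat_btwn (show t k < t k + ε by linarith)
    exact ⟨q, by rw [abs_lt]; constructor <;> linarith⟩
  choose q hq using h2
  obtain ⟨K', e, he, h3⟩ := h1 (fun k => (q k : ℝ) - t k) hq
  refine ⟨∑ k, (q k : ℝ) • b k, RatF.sum hb q, K', ∑ k, ((q k : ℝ) - t k) * c k,
    ∑ k, ((q k : ℝ) - t k) * c' k,
    e - ((ofKah K).f2 - ∑ k, t k • b k), (exS _).sub_mem he hx, ?_⟩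
  have h4 : ∑ k, (q k : ℝ) • b k = ((ofKah K).f2 + ∑ k, ((q k : ℝ) - t k) • b k) -
      ((ofKah K).f2 - ∑ k, t k • b k) := by
    have : ∑ k, ((q k : ℝ) - t k) • b k = ∑ k, (q k : ℝ) • b k - ∑ k, t k • b k := by
      rw [← Finset.sum_sub_distrib]
      exact Finset.sum_congr rfl fun k _ => sub_smul _ _ _
    rw [this]
    abel
  rw [h4, h3, add_sub_assoc]
  rfl

variable {n : ℕ} (hdn : d = n + n) (hn : 1 ≤ n) (hn2 : 2 ≤ n + n)

/-- the top power in the notation of 207 -/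
theorem Tn_pow (x : F2 (ofAtl A)) :
    Tn hdn P (fun _ => x) = IM (lc d) (bc d) (RPart.ofPart P) (fun _ => x) := Tn_eq hdn P _

include P hu hn in
/-- the form is positive on `U` -/
theorem InU.pos {x : F2 (ofAtl A)} (h : InU σ hc x) :
    0 < Qf (Tn hdn P) hn2 n (reS σ.toH2 hc) x x := by
  obtain ⟨K', a, c, e, he, rfl⟩ := h
  obtain ⟨v0, v1, v2, v3, v4, v5⟩ := Fuj6_207.values P σ hu hc (lc d) (bn hdn) (RPart.ofPart P) hn
    (by omega) hn2 (ori_ofAtl A) (fun K => Tn_pos hdn P K) K'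
  have hT := Tn_symm hdn P
  have hk := Tn_kills hdn P
  rw [bil_exp (Qf (Tn hdn P) hn2 n (reS σ.toH2 hc)) a c
    (fun x y => Fuj1_207.Qf_symm hT hn2 n _ x y) (fun x => hk.Qf_right he hn2 n _ x) v1 v2 v3 v4]
  have h1 : 0 ≤ (a ^ 2 + c ^ 2) *
      Qf (Tn hdn P) hn2 n (reS σ.toH2 hc) (reS σ.toH2 hc) (reS σ.toH2 hc) :=
    mul_nonneg (by positivity) (le_of_lt v0)
  exact add_pos_of_pos_of_nonneg v5 h1

include P hu hn in
/-- **RAT**: the Beauville form is rational on rational classes, up to one positive constant `c`,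
`c ^ n ∈ kap d c0 * ℚ` -/
theorem rat_Tn_of {c0 : ℝ} (hc0 : 0 < c0) (hL : Lef d c0) (hNN : NNat (Cn d) d) (K : Kah A)
    (hS : RSpan A) : ∃ c : ℝ, 0 < c ∧ (∃ r : ℚ, 0 < r ∧ c ^ n = kap d c0 * r) ∧
      ∀ x y : F2 (ofAtl A), RatF x → RatF y → ∃ r : ℚ,
        Qf (Tn hdn P) hn2 n (reS σ.toH2 hc) x y = c * r := by
  have hT := Tn_symm hdn P
  obtain ⟨x0, hx0, hU0⟩ := exists_rat_U P σ hu hc K hS
  have hκ : 0 < kap d c0 := kap_pos hc0
  have hn0 : n ≠ 0 := by omega
  set κ := kap d c0 with hκd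
  set lam : ℝ := κ ^ ((n : ℝ)⁻¹) with hlam
  have hlam0 : 0 < lam := Real.rpow_pos_of_pos hκ _
  have hlamn : lam ^ n = κ := Real.rpow_inv_natCast_pow hκ.le hn0
  set Q := qf (Tn hdn P) hn2 n (reS σ.toH2 hc) with hQ
  have hfuj : ∀ x, Q x ^ n = IM (lc d) (bc d) (RPart.ofPart P) (fun _ => x) := fun x => by
    rw [← Tn_pow P hdn, fujiki_Tn hdn P hn hn2 K σ hu hc x]
    rfl
  -- values on `U`
  have hval : ∀ x, RatF x → InU σ hc x → ∃ r : ℚ, (lam⁻¹ • Q) x ^ n = r := by
    intro x hx hUx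
    obtain ⟨r, hr⟩ := vol_U P σ hu hc hc0 hL hNN (by omega) hx hUx
    refine ⟨r, ?_⟩
    rw [smul_apply, smul_eq_mul, mul_pow, hfuj, hr, inv_pow, hlamn, ← mul_assoc,
      inv_mul_cancel₀ hκ.ne', one_mul]
  have hQ0 : 0 < Q x0 := InU.pos P σ hu hc hdn hn hn2 hU0
  set Hq : AddSubgroup (F2 (ofAtl A)) := clsS (ofAtl A) (Rat.castHom ℝ).toAddMonoidHom.range
    with hHq
  obtain ⟨h1, h2⟩ := rational_form (n := n) (by omega) (lam⁻¹ • Q) Hq (x0 := x0)
    (by rw [smul_apply, smul_eq_mul]; positivity) (hval x0 hx0 hU0) (fun y hy => by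
      obtain ⟨ε, hε, h3⟩ := InU.near P σ hu hc hU0 y
      refine ⟨ε, hε, fun s hs0 hs1 => ?_⟩
      refine hval _ ?_ (h3 s (by exact_mod_cast hs0) hs1)
      exact Hq.add_mem hx0 (Cdr_234.RatF.smul hy s))
  obtain ⟨r0, hr0⟩ := hval x0 hx0 hU0
  rw [smul_apply, smul_eq_mul, mul_pow, inv_pow, hlamn] at hr0
  have hr0' : Q x0 ^ n = κ * r0 := by
    rw [← hr0, ← mul_assoc, mul_inv_cancel₀ hκ.ne', one_mul]
  have hr0p : (0 : ℝ) < r0 := by
    have : 0 < Q x0 ^ n := pow_pos hQ0 n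
    rw [hr0'] at this
    exact (mul_pos_iff_of_pos_left hκ).1 this
  refine ⟨Q x0, hQ0, ⟨r0, by exact_mod_cast hr0p, hr0'⟩, fun x y hx hy => ?_⟩
  obtain ⟨r, hr⟩ := h2 x hx y hy
  rw [FunLike.coe_smul, QuadraticMap.polar_smul, Pi.smul_apply, smul_eq_mul, smul_eq_mul,
    hQ, Fuj1_207.polar_qf hT, ← hQ] at hr
  refine ⟨r / 2, ?_⟩
  have h3 : lam⁻¹ ≠ 0 := (inv_pos.2 hlam0).ne'
  have h4 : 2 * Qf (Tn hdn P) hn2 n (reS σ.toH2 hc) x y = Q x0 * r :=
    mul_left_cancel₀ h3 (by rw [hr]; ring)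
  push_cast
  linarith

end main

end Crest.Agent.R281.Qg_770
end
end

-- ▼ part R281/Qg4_770

/-!
# Row 281, RAT-GLUE (helper770), part 4: the Beauville form is rational up to a scalar

* `lef_pi`  : `Lef d π`
* `rat_Tn`  : `∃ c > 0, ∀ x y, RatF x → RatF y → ∃ r : ℚ, Q(x, y) = c * r` (from `RSpan A` only)
* `pow_Tn`  : `RatF x → ∃ r : ℚ, ∫ x^d = kap d π * r`
* `int_Tn`  : on a finitely generated lattice of classes `Q = c * integer`
-/

set_option autoImplicit false
set_option linter.unusedSectionVars false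
set_option maxSynthPendingDepth 3

open Set Filter Topology Complex MeasureTheory
open scoped ContDiff Matrix ComplexConjugate ComplexOrder

noncomputable section

namespace Crest.Agent.R281.Qg_770

open Crest.Agent.R275 Crest.Agent.R275.Geo Crest.Agent.R275.Core144 Crest.Agent.R275.EDR890
open Crest.Agent.R275.GC293
open Crest.Agent.R273.Defs_333 Crest.Agent.R273.Kah_333 Crest.Agent.R273.Vol_333
open Crest.Agent.R281.HkR_835 Crest.Agent.R281.Ti_846 Crest.Agent.R281.Dif_268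
open Crest.Agent.R281.Defs_273 (H2 HSymp)
open Crest.Agent.R281.Cdr_234 (RatF IntF Cls clsS)
open Crest.Agent.R281.Fuj1_207 (Qf qf Kills Tri)
open Crest.Agent.R281.Fuj4_207 Crest.Agent.R281.Fuj5_207 Crest.Agent.R281.Fuj7_207
open Crest.Agent.R260.ACM_580 (NNat)

theorem rint (d : ℕ) : RInt d := fun _ _ _ _ _ _ _ _ hw => Pjx_648.RatF.exists_int hw

theorem lef_pi (d : ℕ) : Lef d Real.pi := lef (rint d)

theorem finrank_cn (d : ℕ) : Module.finrank ℝ (Cn d) = 2 * d := by
  rw [Module.finrank_eq_card_basis (bc d)]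
  simp [mul_comm]

theorem nnat (d : ℕ) : NNat (Cn d) d := Crest.Agent.R260.NN6_900.nnat d (Cn d) (finrank_cn d)

theorem bil_sum {H : Type*} [AddCommGroup H] [Module ℝ H] (Q : H →ₗ[ℝ] H →ₗ[ℝ] ℝ) {N : ℕ}
    (b : Fin N → H) (s t : Fin N → ℝ) : Q (∑ k, s k • b k) (∑ l, t l • b l) =
      ∑ k, ∑ l, s k * (t l * Q (b k) (b l)) := by
  simp only [map_sum, LinearMap.sum_apply, map_smul, LinearMap.smul_apply, smul_eq_mul,
    Finset.mul_sum]
  rw [Finset.sum_comm]
  exact Finset.sum_congr rfl fun k _ => Finset.sum_congr rfl fun l _ => by ring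

variable {d : ℕ} {M : Type} [TopologicalSpace M] {A : Atl d M} [T2Space M] [CompactSpace M]
  [ConnectedSpace M] [Finite A.ι] (P : Part A) (σ : HSymp A) (hu : σ.Uniq) (hc : ClH σ.toH2)
  {n : ℕ} (hdn : d = n + n) (hn : 1 ≤ n) (hn2 : 2 ≤ n + n)

include P hu hn in
/-- **RAT** -/
theorem rat_Tn (K : Kah A) (hS : RSpan A) :
    ∃ c : ℝ, 0 < c ∧ (∃ r : ℚ, 0 < r ∧ c ^ n = kap d Real.pi * r) ∧
      ∀ x y : F2 (ofAtl A), RatF x → RatF y → ∃ r : ℚ,
        Qf (Tn hdn P) hn2 n (reS σ.toH2 hc) x y = c * r :=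
  rat_Tn_of P σ hu hc hdn hn hn2 Real.pi_pos (lef_pi d) (nnat d) K hS


/-- finitely many rational numbers have a common denominator -/
theorem common_den {κ : Type*} [Finite κ] (q : κ → ℚ) : ∃ m : ℕ, 0 < m ∧
    ∀ k, ∃ a : ℤ, (m : ℚ) * q k = a := by
  classical
  have := Fintype.ofFinite κ
  refine ⟨∏ k, (q k).den, Finset.prod_pos fun k _ => (q k).den_pos, fun k => ?_⟩
  refine ⟨(∏ j ∈ Finset.univ.erase k, ((q j).den : ℤ)) * (q k).num, ?_⟩
  rw [← Finset.mul_prod_erase Finset.univ (fun j => (q j).den) (Finset.mem_univ k)]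
  push_cast
  have h1 : ((q k).den : ℚ) * q k = (q k).num := Rat.den_mul_eq_num _
  calc ((q k).den : ℚ) * (∏ j ∈ Finset.univ.erase k, ((q j).den : ℚ)) * q k =
      (∏ j ∈ Finset.univ.erase k, ((q j).den : ℚ)) * (((q k).den : ℚ) * q k) := by ring
    _ = _ := by rw [h1]

/-- the integral classes are finitely generated modulo exact forms (234 (3)) -/
def IFin (A : Atl d M) : Prop := ∃ (N : ℕ) (b : Fin N → F2 (ofAtl A)), (∀ k, IntF (b k)) ∧
  ∀ x : F2 (ofAtl A), IntF x → ∃ a : Fin N → ℤ, x - ∑ k, (a k : ℝ) • b k ∈ exS (ofAtl A)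

include P hu hn in
/-- **integral normalisation** of the Beauville form -/
theorem int_Tn (K : Kah A) (hS : RSpan A) (hI : IFin A) :
    ∃ c : ℝ, 0 < c ∧ (∃ r : ℚ, 0 < r ∧ c ^ n = kap d Real.pi * r) ∧
      (∀ x y : F2 (ofAtl A), RatF x → RatF y → ∃ r : ℚ,
        Qf (Tn hdn P) hn2 n (reS σ.toH2 hc) x y = c * r) ∧
      ∀ x y : F2 (ofAtl A), IntF x → IntF y → ∃ m : ℤ,
        Qf (Tn hdn P) hn2 n (reS σ.toH2 hc) x y = c * m := by
  obtain ⟨c, hc0, ⟨r, hr0, hr⟩, h⟩ := rat_Tn P σ hu hc hdn hn hn2 K hS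
  obtain ⟨N, b, hb, hspan⟩ := hI
  choose q hq using fun p : Fin N × Fin N => h (b p.1) (b p.2) (Cdr_234.IntF.rat (hb p.1))
    (Cdr_234.IntF.rat (hb p.2))
  obtain ⟨m, hm, ha⟩ := common_den q
  choose a ha using ha
  have hm' : (0 : ℝ) < m := by exact_mod_cast hm
  have hk := Tn_kills hdn P
  refine ⟨c / m, by positivity, ⟨r / m ^ n, by positivity, ?_⟩, fun x y hx hy => ?_,
    fun x y hx hy => ?_⟩
  · rw [div_pow, hr]
    push_cast
    ring
  · obtain ⟨s, hs⟩ := h x y hx hy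
    refine ⟨s * m, ?_⟩
    rw [hs]
    push_cast
    field_simp
  · obtain ⟨s, hs⟩ := hspan x hx
    obtain ⟨t, ht⟩ := hspan y hy
    set Q := Qf (Tn hdn P) hn2 n (reS σ.toH2 hc) with hQ
    have e1 : Q x y = Q (∑ k, (s k : ℝ) • b k) (∑ k, (t k : ℝ) • b k) := by
      have e2 : Q (x - ∑ k, (s k : ℝ) • b k) y = 0 := hk.Qf_left hs hn2 n _ y
      have e3 : Q (∑ k, (s k : ℝ) • b k) (y - ∑ k, (t k : ℝ) • b k) = 0 :=
        hk.Qf_right ht hn2 n _ _
      rw [map_sub, LinearMap.sub_apply, sub_eq_zero] at e2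
      rw [map_sub, sub_eq_zero] at e3
      rw [e2, e3]
    have e4 : ∀ k l, Q (b k) (b l) = c / m * a (k, l) := by
      intro k l
      have e5 := hq (k, l)
      have e6 : (m : ℝ) * q (k, l) = a (k, l) := by exact_mod_cast ha (k, l)
      rw [← e6]
      show Q (b k) (b l) = _
      rw [show Q (b k) (b l) = c * q (k, l) from e5]
      field_simp
    refine ⟨∑ k, ∑ l, s k * (t l * a (k, l)), ?_⟩
    rw [e1, bil_sum]
    push_cast
    rw [Finset.mul_sum]
    refine Finset.sum_congr rfl fun k _ => ?_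
    rw [Finset.mul_sum]
    refine Finset.sum_congr rfl fun l _ => ?_
    rw [e4]
    ring

end Crest.Agent.R281.Qg_770
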