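import Crest.Agent.R281.Ti3_846
import Crest.Agent.R281.F2Mod_358

/-!
# Row 281, NEF-OPEN, part 1 (helper476)

On one compact space `X` with real charts `C`:

* `AJ C`      : smooth field of endomorphisms `J` (compatible with the transitions)
* `SmF C`     : smooth real functions
* `dc J u`    : the real 1-form `-du ∘ J`; `ddc J u = d (dc J u)`
* `Pos J b`   : `0 < b (v, J v)` for `v ≠ 0`, everywhere
* `Fam`       : family `p ↦ (J p, b p)`, continuous in `C¹` resp. `C⁰`
* `nef_open`  : `{p | ∃ u, Pos (J p) (b p + ddc (J p) u)}` is open.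
-/

set_option autoImplicit false
set_option maxSynthPendingDepth 3
set_option linter.unusedSectionVars false

open Set Filter Topology
open scoped ContDiff

namespace Crest.Agent.R281.NefO_476

open Crest.Agent.R260.ACM_580 Crest.Agent.R281.HkR_835 Crest.Agent.R281.Ti_846

noncomputable section

variable {V X : Type} [NormedAddCommGroup V] [NormedSpace ℝ V] [TopologicalSpace X]

/-- smooth fields of endomorphisms of the tangent spaces -/
structure AJ (C : RCh V X) where
  J : C.ι → V → V →L[ℝ] V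
  sm : ∀ i, ContDiffOn ℝ ∞ (J i) (C.e i).target
  tr : ∀ i j, ∀ z ∈ C.ov i j, ∀ v,
    fderiv ℝ (C.t i j) z (J i z v) = J j (C.t i j z) (fderiv ℝ (C.t i j) z v)

/-- smooth real functions -/
def Sm (C : RCh V X) (u : X → ℝ) : Prop :=
  ∀ i, ContDiffOn ℝ ∞ (fun z => u ((C.e i).symm z)) (C.e i).target

/-- the complex structures of a hyperkaehler triple -/
def ofHk {C : RCh V X} (H : HkT C) (k : Fin 3) : AJ C where
  J := H.J k
  sm := H.J_sm k
  tr _ _ _ hz v := H.J_tr k hz v

variable {C : RCh V X}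

/-- `u` in the chart `i` -/
def uc (C : RCh V X) (u : X → ℝ) (i : C.ι) (z : V) : ℝ := u ((C.e i).symm z)

theorem uc_t (u : X → ℝ) {i j : C.ι} {z : V} (hz : z ∈ C.ov i j) :
    uc C u j (C.t i j z) = uc C u i z := by
  show u ((C.e j).symm (C.e j ((C.e i).symm z))) = u ((C.e i).symm z)
  rw [(C.e j).left_inv hz.2]

theorem Sm.at {u : X → ℝ} (hu : Sm C u) {i : C.ι} {z : V} (hz : z ∈ (C.e i).target) :
    ContDiffAt ℝ ∞ (uc C u i) z := (hu i).contDiffAt ((C.e i).open_target.mem_nhds hz)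

theorem Sm.fd {u : X → ℝ} (hu : Sm C u) {i j : C.ι} {z : V} (hz : z ∈ C.ov i j) (v : V) :
    fderiv ℝ (uc C u i) z v = fderiv ℝ (uc C u j) (C.t i j z) (fderiv ℝ (C.t i j) z v) := by
  have h1 : uc C u i =ᶠ[𝓝 z] fun y => uc C u j (C.t i j y) := by
    filter_upwards [(RCh.isOpen_ov i j).mem_nhds hz] with y hy using (uc_t u hy).symm
  have h2 : HasFDerivAt (fun y => uc C u j (C.t i j y))
      ((fderiv ℝ (uc C u j) (C.t i j z)).comp (fderiv ℝ (C.t i j) z)) z :=
    HasFDerivAt.comp (g := uc C u j) (f := C.t i j) z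
      (((hu.at (RCh.t_mem hz).1).differentiableAt (by simp)).hasFDerivAt)
      (RCh.t_diff hz).hasFDerivAt
  rw [h1.fderiv_eq, h2.fderiv]
  rfl

/-- `d^c u = - du ∘ J` -/
def dc (J : AJ C) (u : X → ℝ) (hu : Sm C u) : F1 C where
  η i z := -(fderiv ℝ (uc C u i) z).comp (J.J i z)
  sm i := by
    have h1 : ContDiffOn ℝ ∞ (fderiv ℝ (uc C u i)) (C.e i).target :=
      (hu i).fderiv_of_isOpen (C.e i).open_target (by simp)
    exact (h1.clm_comp (J.sm i)).neg
  tr i j z hz v := by
    simp only [neg_apply, ContinuousLinearMap.comp_apply]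
    rw [hu.fd hz, J.tr i j z hz]

variable [FiniteDimensional ℝ V] [MeasurableSpace V] [BorelSpace V]

/-- `dd^c u` -/
def ddc (J : AJ C) (u : X → ℝ) (hu : Sm C u) : F2 C := (dc J u hu).d

/-- the formula for `dd^c u` in a chart -/
def ddcF (U : V → ℝ) (T : V → V →L[ℝ] V) (z a b : V) : ℝ :=
  -(fderiv ℝ (fderiv ℝ U) z a (T z b) + fderiv ℝ U z (fderiv ℝ T z a b)) +
    (fderiv ℝ (fderiv ℝ U) z b (T z a) + fderiv ℝ U z (fderiv ℝ T z b a))

theorem ddc_w (J : AJ C) (u : X → ℝ) (hu : Sm C u) {i : C.ι} {z : V}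
    (hz : z ∈ (C.e i).target) (a b : V) :
    (ddc J u hu).w i z a b = ddcF (uc C u i) (J.J i) z a b := by
  have h1 : DifferentiableAt ℝ (fderiv ℝ (uc C u i)) z :=
    (((hu i).fderiv_of_isOpen (C.e i).open_target (m := ∞) (by simp)).contDiffAt
      ((C.e i).open_target.mem_nhds hz)).differentiableAt (by simp)
  have h2 : DifferentiableAt ℝ (J.J i) z :=
    ((J.sm i).contDiffAt ((C.e i).open_target.mem_nhds hz)).differentiableAt (by simp)
  have h3 := (h1.hasFDerivAt.clm_comp h2.hasFDerivAt).fun_neg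
  have h4 : ∀ p q, fderiv ℝ ((dc J u hu).η i) z p q =
      -(fderiv ℝ (fderiv ℝ (uc C u i)) z p (J.J i z q) +
        fderiv ℝ (uc C u i) z (fderiv ℝ (J.J i) z p q)) := by
    intro p q
    have : (dc J u hu).η i = fun y => -(fderiv ℝ (uc C u i) y).comp (J.J i y) := rfl
    rw [this, h3.fderiv]
    simp [add_comm]
  show fderiv ℝ ((dc J u hu).η i) z a b - fderiv ℝ ((dc J u hu).η i) z b a = _
  rw [h4, h4, ddcF]
  ring

/-- positivity of a 2-form with respect to `J` -/
def Pos (J : AJ C) (b : F2 C) : Prop :=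
  ∀ i, ∀ z ∈ (C.e i).target, ∀ v, v ≠ 0 → 0 < b.w i z v (J.J i z v)

/-- positivity is independent of the chart -/
theorem pos_tr {J : AJ C} {b : F2 C} {i j : C.ι} {z : V} (hz : z ∈ C.ov i j)
    (h : ∀ v, v ≠ 0 → 0 < b.w j (C.t i j z) v (J.J j (C.t i j z) v)) (v : V) (hv : v ≠ 0) :
    0 < b.w i z v (J.J i z v) := by
  rw [b.tr i j z hz, J.tr i j z hz]
  refine h _ fun h0 => hv ?_
  have := RCh.dt_dt hz v
  rw [h0, map_zero] at this
  exact this.symm

section Family

variable {P : Type*} [TopologicalSpace P]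

/-- a family of 2-forms, jointly continuous -/
def ContF (b : P → F2 C) : Prop :=
  ∀ i, ContinuousOn (fun q : P × V => (b q.1).w i q.2) (univ ×ˢ (C.e i).target)

/-- a family of endomorphism fields, jointly continuous in `C¹` -/
structure ContJ (J : P → AJ C) : Prop where
  c0 : ∀ i, ContinuousOn (fun q : P × V => (J q.1).J i q.2) (univ ×ˢ (C.e i).target)
  c1 : ∀ i, ContinuousOn (fun q : P × V => fderiv ℝ ((J q.1).J i) q.2) (univ ×ˢ (C.e i).target)

theorem ContF.add {b b' : P → F2 C} (h : ContF b) (h' : ContF b') : ContF fun p => b p + b' p :=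
  fun i => (h i).add (h' i)

theorem ContF.smul {b : P → F2 C} (h : ContF b) (a : ℝ) : ContF fun p => a • b p :=
  fun i => (h i).const_smul a





end Family

end

end Crest.Agent.R281.NefO_476
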