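import Crest.Agent.R281.Dsc1_340
import Crest.Agent.R281.Poi_234
import Crest.Agent.R281.NefO1_476
import Crest.Agent.R281.PL1_713
import Crest.Agent.R281.Nef1_252
import Crest.Agent.R281.PL4_713
import Crest.Agent.R281.RkD_902
import Crest.Agent.R281.Nef4_252
import Crest.Agent.R260.NN6_900

-- ▼ part R281/Rkd2_386
section

/-!
# R281 (S0424), RANK281, lower end (helper386), part 2: closed real 1-forms are exact

`closed_exact` : on a simply connected space with real charts every closed 1-form is `df` with a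
smooth global function `f`.
-/

set_option autoImplicit false
set_option linter.unusedSectionVars false

open Set Filter Topology
open scoped ContDiff

namespace Crest.Agent.R281.Rkd_386

open Crest.Agent.R281.HkR_835 Crest.Agent.R281.Ti_846 Crest.Agent.R281.NefO_476
open Crest.Agent.R281.Poi_234

noncomputable section

variable {V X : Type} [NormedAddCommGroup V] [NormedSpace ℝ V] [FiniteDimensional ℝ V]
  [MeasurableSpace V] [BorelSpace V] [TopologicalSpace X] {C : RCh V X}

/-- closed 1-forms -/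
def Clo (η : F1 C) : Prop := ∀ i, ∀ z ∈ (C.e i).target, ∀ u v,
  fderiv ℝ (η.η i) z u v = fderiv ℝ (η.η i) z v u

/-- `f` is a primitive of `η` -/
def IsPr (η : F1 C) (f : X → ℝ) : Prop :=
  Sm C f ∧ ∀ i, ∀ z ∈ (C.e i).target, ∀ v, fderiv ℝ (uc C f i) z v = η.η i z v

/-- a space with real charts is locally path connected -/
theorem lpcR (C : RCh V X) : LocallyPathConnectedSpace X := by
  let _ : ChartedSpace V X :=
    { atlas := range C.e
      chartAt := fun x => C.e (C.cover x).choose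
      mem_chart_source := fun x => (C.cover x).choose_spec
      chart_mem_atlas := fun x => ⟨_, rfl⟩ }
  exact ChartedSpace.locallyPathConnectedSpace V X

/-- **closed 1-forms are exact** on a simply connected space -/
theorem closed_exact [SimplyConnectedSpace X] (η : F1 C) (h : Clo η) :
    ∃ f : X → ℝ, IsPr η f := by
  classical
  have := lpcR C
  choose idx hidx using C.cover
  -- balls in the charts
  have h1 : ∀ x : X, ∃ r : ℝ, 0 < r ∧ Metric.ball (C.e (idx x) x) r ⊆ (C.e (idx x)).target := by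
    intro x
    exact Metric.isOpen_iff.1 (C.e (idx x)).open_target _ ((C.e (idx x)).map_source (hidx x))
  choose r hr hball using h1
  -- primitives on the balls
  have h2 : ∀ x : X, ∃ f : V → ℝ, ContDiffOn ℝ ∞ f (Metric.ball (C.e (idx x) x) (r x)) ∧
      ∀ z ∈ Metric.ball (C.e (idx x) x) (r x), HasFDerivAt f (η.η (idx x) z) z := by
    intro x
    have hs : ContDiffOn ℝ ∞ (η.η (idx x)) (Metric.ball (C.e (idx x) x) (r x)) :=
      (η.sm (idx x)).mono (hball x)
    obtain ⟨f, hf⟩ := poincare1 Metric.isOpen_ball (convex_ball _ _) hs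
      fun z hz v w => h (idx x) z (hball x hz) v w
    exact ⟨f, contDiffOn_of_hasFDerivAt Metric.isOpen_ball hs hf, hf⟩
  choose g hgs hg using h2
  set U : X → Set X := fun x => (C.e (idx x)).source ∩
    (C.e (idx x)) ⁻¹' Metric.ball (C.e (idx x) x) (r x) with hU
  have hUo : ∀ x, IsOpen (U x) := fun x =>
    (C.e (idx x)).isOpen_inter_preimage Metric.isOpen_ball
  have hUx : ∀ x, x ∈ U x := fun x => ⟨hidx x, Metric.mem_ball_self (hr x)⟩
  set F : X → X → ℝ := fun x y => g x (C.e (idx x) y) with hF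
  -- derivative in any chart
  have hder : ∀ (x : X) (i : C.ι) (z : V), z ∈ (C.e i).target → (C.e i).symm z ∈ U x →
      ContDiffAt ℝ ∞ (uc C (F x) i) z ∧ HasFDerivAt (uc C (F x) i) (η.η i z) z := by
    intro x i z hz hzU
    have hov : z ∈ C.ov i (idx x) := ⟨hz, hzU.1⟩
    have h3 : uc C (F x) i = fun y => g x (C.t i (idx x) y) := rfl
    have h4 : HasFDerivAt (fun y => g x (C.t i (idx x) y))
        ((η.η (idx x) (C.t i (idx x) z)).comp (fderiv ℝ (C.t i (idx x)) z)) z :=
      HasFDerivAt.comp (g := g x) (f := C.t i (idx x)) z (hg x _ hzU.2)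
        (RCh.t_diff hov).hasFDerivAt
    have h5 : (η.η (idx x) (C.t i (idx x) z)).comp (fderiv ℝ (C.t i (idx x)) z) = η.η i z := by
      ext v
      exact (η.tr i (idx x) z hov v).symm
    refine ⟨?_, ?_⟩
    · have h6 : ContDiffAt ℝ ∞ (g x) (C.t i (idx x) z) :=
        (hgs x).contDiffAt (Metric.isOpen_ball.mem_nhds hzU.2)
      have h7 : ContDiffAt ℝ ∞ (C.t i (idx x)) z :=
        (RCh.t_smooth i (idx x)).contDiffAt ((RCh.isOpen_ov i (idx x)).mem_nhds hov)
      exact h6.comp z h7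
    · rw [h3, ← h5]
      exact h4
  -- the differences are locally constant
  have hloc : ∀ x x', ∀ y ∈ U x ∩ U x', ∀ᶠ w in 𝓝 y, F x' w - F x w = F x' y - F x y := by
    intro x x' y hy
    set i := idx x with hi
    set z := C.e i y with hz
    have hyi : y ∈ (C.e i).source := hy.1.1
    have hO : IsOpen ((C.e i).target ∩ (C.e i).symm ⁻¹' (U x ∩ U x')) :=
      (C.e i).isOpen_inter_preimage_symm ((hUo x).inter (hUo x'))
    have hzO : z ∈ (C.e i).target ∩ (C.e i).symm ⁻¹' (U x ∩ U x') :=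
      ⟨(C.e i).map_source hyi, by
        show (C.e i).symm (C.e i y) ∈ U x ∩ U x'
        rw [(C.e i).left_inv hyi]
        exact hy⟩
    obtain ⟨ρ, hρ, hρO⟩ := Metric.isOpen_iff.1 hO z hzO
    have h3 : ∀ w ∈ Metric.ball z ρ, uc C (F x') i w - uc C (F x) i w =
        uc C (F x') i z - uc C (F x) i z := by
      intro w hw
      have hd : ∀ p ∈ Metric.ball z ρ, HasFDerivWithinAt
          (fun q => uc C (F x') i q - uc C (F x) i q) (0 : V →L[ℝ] ℝ) (Metric.ball z ρ) p := by
        intro p hp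
        have hp' := hρO hp
        have h4 := ((hder x' i p hp'.1 hp'.2.2).2.sub (hder x i p hp'.1 hp'.2.1).2)
        rw [sub_self] at h4
        exact h4.hasFDerivWithinAt
      have h5 := (convex_ball z ρ).norm_image_sub_le_of_norm_hasFDerivWithin_le (C := 0) hd
        (fun p _ => by simp) (Metric.mem_ball_self hρ) hw
      rw [zero_mul, norm_le_zero_iff, sub_eq_zero] at h5
      exact h5
    have h6 : ∀ᶠ w in 𝓝 y, w ∈ (C.e i).source := (C.e i).open_source.mem_nhds hyi
    have h61 : ∀ᶠ w in 𝓝 y, C.e i w ∈ Metric.ball z ρ :=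
      ((C.e i).continuousAt hyi).preimage_mem_nhds (Metric.ball_mem_nhds _ hρ)
    filter_upwards [h6.and h61] with w hw
    have h7 := h3 _ hw.2
    have e1 : ∀ q, uc C (F q) i (C.e i w) = F q w := fun q => by
      show F q ((C.e i).symm (C.e i w)) = F q w
      rw [(C.e i).left_inv hw.1]
    have e2 : ∀ q, uc C (F q) i z = F q y := fun q => by
      show F q ((C.e i).symm (C.e i y)) = F q y
      rw [(C.e i).left_inv hyi]
    rw [e1, e1, e2, e2] at h7
    exact h7
  obtain ⟨a, ha, hac⟩ := Crest.Agent.R281.Dsc_340.coboundary U hUo (fun x => ⟨x, hUx x⟩)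
    (fun x x' y => F x' y - F x y) (fun x x' y hy => hloc x x' y hy)
    (fun x x' x'' y _ => by ring)
  set f : X → ℝ := fun y => F y y - a y y with hf
  have hfx : ∀ x, ∀ y ∈ U x, f y = F x y - a x y := by
    intro x y hy
    have h3 := hac x y y ⟨hy, hUx y⟩
    show F y y - a y y = F x y - a x y
    linarith
  have hfi : ∀ i, ∀ z ∈ (C.e i).target,
      ContDiffAt ℝ ∞ (uc C f i) z ∧ HasFDerivAt (uc C f i) (η.η i z) z := by
    intro i z hz
    set x := (C.e i).symm z with hx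
    have hxi : x ∈ (C.e i).source := (C.e i).map_target hz
    obtain ⟨h3, h4⟩ := hder x i z hz (hUx x)
    have h5 : ∀ᶠ y in 𝓝 x, f y = F x y - a x x := by
      filter_upwards [(hUo x).mem_nhds (hUx x), ha x x (hUx x)] with y hy hy'
      rw [hfx x y hy, hy']
    have h6 : uc C f i =ᶠ[𝓝 z] fun w => uc C (F x) i w - a x x := by
      have h7 : Tendsto (C.e i).symm (𝓝 z) (𝓝 x) := (C.e i).continuousAt_symm hz
      exact h7.eventually h5
    exact ⟨(h3.sub contDiffAt_const).congr_of_eventuallyEq h6,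
      ((h4.sub_const (a x x)).congr_of_eventuallyEq h6)⟩
  exact ⟨f, fun i z hz => (hfi i z hz).1.contDiffWithinAt,
    fun i z hz v => by rw [(hfi i z hz).2.fderiv]⟩

end

end Crest.Agent.R281.Rkd_386
end

-- ▼ part R281/Rkd3_386
section

/-!
# R281 (S0424), RANK281, lower end (helper386), part 3: the (1,1)-connection is unique up to gauge

* `mulS χ : Sec L₁ → Sec L₂` : multiplication by `exp χ` (same transition functions)
* `exists_gauge`  : `T11 J (L.add a).F`, `T11 J (L.add a').F`, `X` simply connected, `dd^c`-lemma: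
                    there is `χ : X → ℂ` smooth such that multiplication by `exp χ` maps the
                    holomorphic sections of `L.add a` onto those of `L.add a'`
* `hasN_indep`    : `(L.add a).HasN J N ↔ (L.add a').HasN J N`
-/

set_option autoImplicit false
set_option linter.unusedSectionVars false
set_option maxSynthPendingDepth 3

open Set Filter Topology Complex
open scoped ContDiff

namespace Crest.Agent.R281.Rkd_386

open Crest.Agent.R281.HkR_835 Crest.Agent.R281.Ti_846 Crest.Agent.R281.NefO_476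
open Crest.Agent.R281.Nef_252 Crest.Agent.R281.PL_713

noncomputable section

variable {V X : Type} [NormedAddCommGroup V] [NormedSpace ℝ V] [FiniteDimensional ℝ V]
  [MeasurableSpace V] [BorelSpace V] [TopologicalSpace X] {C : RCh V X}

/-- smooth complex functions -/
def SmC (C : RCh V X) (χ : X → ℂ) : Prop :=
  ∀ i, ContDiffOn ℝ ∞ (fun z => χ ((C.e i).symm z)) (C.e i).target

theorem SmC.neg {χ : X → ℂ} (h : SmC C χ) : SmC C fun x => -χ x := fun i => (h i).neg

/-- multiplication by `exp χ` -/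
def mulS (χ : X → ℂ) (hχ : SmC C χ) {L₁ L₂ : PL C} (hg : L₁.g = L₂.g) (s : Sec L₁) : Sec L₂ where
  u i z := exp (χ ((C.e i).symm z)) * s.u i z
  sm i := ((hχ i).cexp).mul (s.sm i)
  tr i j z hz := by
    have h1 : (C.e j).symm (C.t i j z) = (C.e i).symm z := (C.e j).left_inv hz.2
    rw [h1, s.tr i j z hz, hg]
    ring
  off i z hz := by rw [s.off i z hz, mul_zero]

@[simp] theorem mulS_u (χ : X → ℂ) (hχ : SmC C χ) {L₁ L₂ : PL C} (hg : L₁.g = L₂.g)
    (s : Sec L₁) (i : C.ι) (z : V) :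
    (mulS χ hχ hg s).u i z = exp (χ ((C.e i).symm z)) * s.u i z := rfl

theorem mulS_D (χ : X → ℂ) (hχ : SmC C χ) {L₁ L₂ : PL C} (hg : L₁.g = L₂.g) (s : Sec L₁)
    {i : C.ι} {z : V} (hz : z ∈ (C.e i).target) (v : V) :
    (mulS χ hχ hg s).D i z v = exp (χ ((C.e i).symm z)) * (s.D i z v +
      (fderiv ℝ (fun z => χ ((C.e i).symm z)) z v +
        I * ((L₂.th i z v : ℝ) : ℂ) - I * ((L₁.th i z v : ℝ) : ℂ)) * s.u i z) := by
  have h1 : HasFDerivAt (fun z => χ ((C.e i).symm z))
      (fderiv ℝ (fun z => χ ((C.e i).symm z)) z) z :=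
    (((hχ i).contDiffAt ((C.e i).open_target.mem_nhds hz)).differentiableAt
      (by simp)).hasFDerivAt
  have h2 : HasFDerivAt ((mulS χ hχ hg s).u i) _ z := h1.cexp.mul (s.diffAt hz).hasFDerivAt
  unfold Sec.D
  rw [h2.fderiv]
  simp only [add_apply, smul_apply, smul_eq_mul, mulS_u]
  ring

/-- the gauge equation -/
def Gau (J : AJ C) (L₁ L₂ : PL C) (χ : X → ℂ) : Prop :=
  ∀ i, ∀ z ∈ (C.e i).target, ∀ v,
    (fderiv ℝ (fun z => χ ((C.e i).symm z)) z v + I * ((L₂.th i z v : ℝ) : ℂ) -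
        I * ((L₁.th i z v : ℝ) : ℂ)) +
      I * (fderiv ℝ (fun z => χ ((C.e i).symm z)) z (J.J i z v) +
        I * ((L₂.th i z (J.J i z v) : ℝ) : ℂ) - I * ((L₁.th i z (J.J i z v) : ℝ) : ℂ)) = 0

theorem Gau.db {J : AJ C} {L₁ L₂ : PL C} {χ : X → ℂ} (h : Gau J L₁ L₂ χ) (hχ : SmC C χ)
    (hg : L₁.g = L₂.g) (s : Sec L₁) {i : C.ι} {z : V} (hz : z ∈ (C.e i).target) (v : V) :
    (mulS χ hχ hg s).db J.J i z v = exp (χ ((C.e i).symm z)) * s.db J.J i z v := by
  unfold Sec.db
  rw [mulS_D χ hχ hg s hz, mulS_D χ hχ hg s hz]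
  linear_combination (exp (χ ((C.e i).symm z)) * s.u i z) * h i z hz v

theorem Gau.symm {J : AJ C} {L₁ L₂ : PL C} {χ : X → ℂ} (h : Gau J L₁ L₂ χ) :
    Gau J L₂ L₁ fun x => -χ x := by
  intro i z hz v
  have h1 := h i z hz v
  have h2 : fderiv ℝ (fun z => -χ ((C.e i).symm z)) z =
      -fderiv ℝ (fun z => χ ((C.e i).symm z)) z := by
    rw [← fderiv_fun_neg]
  rw [h2]
  simp only [neg_apply]
  linear_combination -h1

theorem Gau.mem {J : AJ C} {L₁ L₂ : PL C} {χ : X → ℂ} (h : Gau J L₁ L₂ χ) (hχ : SmC C χ)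
    (hg : L₁.g = L₂.g) {s : Sec L₁} (hs : s ∈ L₁.H0 J.J) : mulS χ hχ hg s ∈ L₂.H0 J.J := by
  intro i z hz v
  rw [h.db hχ hg s hz, hs i z hz v, mul_zero]

/-- **gauge equivalence of the section spaces** -/
def Gau.iso {J : AJ C} {L₁ L₂ : PL C} {χ : X → ℂ} (h : Gau J L₁ L₂ χ) (hχ : SmC C χ)
    (hg : L₁.g = L₂.g) : L₁.H0 J.J ≃ₗ[ℂ] L₂.H0 J.J where
  toFun s := ⟨mulS χ hχ hg s.1, h.mem hχ hg s.2⟩
  invFun s := ⟨mulS (fun x => -χ x) hχ.neg hg.symm s.1, h.symm.mem hχ.neg hg.symm s.2⟩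
  map_add' s t := by
    apply Subtype.ext
    refine Sec.ext ?_
    funext i z
    show exp _ * (s.1.u i z + t.1.u i z) = exp _ * s.1.u i z + exp _ * t.1.u i z
    rw [mul_add]
  map_smul' c s := by
    apply Subtype.ext
    refine Sec.ext ?_
    funext i z
    show exp _ * (c * s.1.u i z) = c * (exp _ * s.1.u i z)
    ring
  left_inv s := by
    apply Subtype.ext
    refine Sec.ext ?_
    funext i z
    show exp (-χ ((C.e i).symm z)) * (exp (χ ((C.e i).symm z)) * s.1.u i z) = s.1.u i z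
    rw [← mul_assoc, ← Complex.exp_add, neg_add_cancel, Complex.exp_zero, one_mul]
  right_inv s := by
    apply Subtype.ext
    refine Sec.ext ?_
    funext i z
    show exp (χ ((C.e i).symm z)) * (exp (-χ ((C.e i).symm z)) * s.1.u i z) = s.1.u i z
    rw [← mul_assoc, ← Complex.exp_add, add_neg_cancel, Complex.exp_zero, one_mul]

theorem Gau.hasN {J : AJ C} {L₁ L₂ : PL C} {χ : X → ℂ} (h : Gau J L₁ L₂ χ) (hχ : SmC C χ)
    (hg : L₁.g = L₂.g) {N : ℕ} (hN : L₁.HasN J.J N) : L₂.HasN J.J N := by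
  obtain ⟨f, hf, hm⟩ := hN
  let f' : Fin N → L₁.H0 J.J := fun i => ⟨f i, hm i⟩
  have hf' : LinearIndependent ℂ f' := by
    apply LinearIndependent.of_comp (L₁.H0 J.J).subtype
    exact hf
  have h2 : LinearIndependent ℂ (fun i => h.iso hχ hg (f' i)) :=
    hf'.map' (h.iso hχ hg).toLinearMap (h.iso hχ hg).ker
  exact ⟨fun i => (h.iso hχ hg (f' i) : Sec L₂), h2.map' (L₂.H0 J.J).subtype (by simp),
    fun i => (h.iso hχ hg (f' i)).2⟩

/-- the difference of two real 1-forms -/
def dif (a' a : F1 C) : F1 C where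
  η i z := a'.η i z - a.η i z
  sm i := (a'.sm i).sub (a.sm i)
  tr i j z hz v := by
    rw [sub_apply, sub_apply, a'.tr i j z hz v, a.tr i j z hz v]

theorem dif_fderiv (a' a : F1 C) {i : C.ι} {z : V} (hz : z ∈ (C.e i).target) :
    fderiv ℝ ((dif a' a).η i) z = fderiv ℝ (a'.η i) z - fderiv ℝ (a.η i) z :=
  ((a'.diffAt hz).hasFDerivAt.sub (a.diffAt hz).hasFDerivAt).fderiv

/-- **the (1,1)-connections form one gauge orbit** -/
theorem exists_gauge [SimplyConnectedSpace X] {J : AJ C} (hJ : ∀ i, ∀ z ∈ (C.e i).target, ∀ v,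
    J.J i z (J.J i z v) = -v) (hd : DDb J) (L : PL C) {a a' : F1 C}
    (ha : T11 J (L.add a).F) (ha' : T11 J (L.add a').F) :
    ∃ χ : X → ℂ, SmC C χ ∧ Gau J (L.add a) (L.add a') χ := by
  set β : F1 C := dif a' a with hβ
  have h1 : T11 J β.d := by
    intro i z hz u v
    have e1 := ha i z hz u v
    have e2 := ha' i z hz u v
    rw [PL.add_F _ _ hz, PL.add_F _ _ hz] at e1 e2
    simp only [F1.d_w] at e1 e2 ⊢
    rw [dif_fderiv a' a hz]
    simp only [sub_apply]
    linarith
  obtain ⟨u, hu, h2⟩ := hd β.d ⟨β, β.isD⟩ h1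
  set γ : F1 C := dif β (dc J u hu) with hγ
  have h3 : Clo γ := by
    intro i z hz p q
    have e1 := h2 i z hz p q
    have e2 : (ddc J u hu).w i z p q = fderiv ℝ ((dc J u hu).η i) z p q -
      fderiv ℝ ((dc J u hu).η i) z q p := rfl
    rw [e2, F1.d_w] at e1
    rw [hγ, dif_fderiv β (dc J u hu) hz]
    simp only [sub_apply]
    linarith
  obtain ⟨ψ, hψ, h4⟩ := closed_exact γ h3
  refine ⟨fun x => (u x : ℂ) - I * (ψ x : ℂ), ?_, ?_⟩
  · intro i
    exact (Complex.ofRealCLM.contDiff.comp_contDiffOn (hu i)).sub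
      (contDiffOn_const.mul (Complex.ofRealCLM.contDiff.comp_contDiffOn (hψ i)))
  · intro i z hz v
    have hud : DifferentiableAt ℝ (uc C u i) z := (hu.at hz).differentiableAt (by simp)
    have hψd : DifferentiableAt ℝ (uc C ψ i) z := (Sm.at hψ hz).differentiableAt (by simp)
    have h5 : HasFDerivAt (fun z => ((u ((C.e i).symm z) : ℝ) : ℂ) -
        I * ((ψ ((C.e i).symm z) : ℝ) : ℂ))
        (Complex.ofRealCLM.comp (fderiv ℝ (uc C u i) z) -
          I • Complex.ofRealCLM.comp (fderiv ℝ (uc C ψ i) z)) z :=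
      (Complex.ofRealCLM.hasFDerivAt.comp z hud.hasFDerivAt).sub
        ((Complex.ofRealCLM.hasFDerivAt.comp z hψd.hasFDerivAt).const_mul I)
    rw [h5.fderiv]
    have e1 : ∀ w, a'.η i z w - a.η i z w = fderiv ℝ (uc C ψ i) z w -
        fderiv ℝ (uc C u i) z (J.J i z w) := by
      intro w
      have e2 : γ.η i z w = a'.η i z w - a.η i z w - (dc J u hu).η i z w := rfl
      have e3 : (dc J u hu).η i z w = -fderiv ℝ (uc C u i) z (J.J i z w) := rfl
      have e4 := h4 i z hz w
      rw [e2, e3] at e4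
      linarith
    have e5 := e1 v
    have e6 := e1 (J.J i z v)
    rw [hJ i z hz, map_neg] at e6
    simp only [PL.add_th, add_apply, sub_apply, smul_apply, smul_eq_mul,
      ContinuousLinearMap.comp_apply, Complex.ofRealCLM_apply]
    have c5 : ((a'.η i z v : ℝ) : ℂ) = (a.η i z v : ℂ) + (fderiv ℝ (uc C ψ i) z v : ℂ) -
        (fderiv ℝ (uc C u i) z (J.J i z v) : ℂ) := by
      have : a'.η i z v = a.η i z v + fderiv ℝ (uc C ψ i) z v -
        fderiv ℝ (uc C u i) z (J.J i z v) := by linarith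
      rw [this]
      push_cast
      ring
    have c6 : ((a'.η i z (J.J i z v) : ℝ) : ℂ) = (a.η i z (J.J i z v) : ℂ) +
        (fderiv ℝ (uc C ψ i) z (J.J i z v) : ℂ) + (fderiv ℝ (uc C u i) z v : ℂ) := by
      have : a'.η i z (J.J i z v) = a.η i z (J.J i z v) + fderiv ℝ (uc C ψ i) z (J.J i z v) +
        fderiv ℝ (uc C u i) z v := by linarith
      rw [this]
      push_cast
      ring
    push_cast
    rw [c5, c6]
    linear_combination ((fderiv ℝ (uc C u i) z v : ℂ) - (I : ℂ) * 0) * (I_mul_I)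

theorem hasN_indep [SimplyConnectedSpace X] {J : AJ C} (hJ : ∀ i, ∀ z ∈ (C.e i).target, ∀ v,
    J.J i z (J.J i z v) = -v) (hd : DDb J) (L : PL C) {a a' : F1 C}
    (ha : T11 J (L.add a).F) (ha' : T11 J (L.add a').F) {N : ℕ} (h : (L.add a).HasN J.J N) :
    (L.add a').HasN J.J N := by
  obtain ⟨χ, hχ, hG⟩ := exists_gauge hJ hd L ha ha'
  exact hG.hasN hχ rfl h

end

end Crest.Agent.R281.Rkd_386
end

-- ▼ part R281/PL5_713
section

/-!
# R281 (S0424), PREQ (helper713), part 5: the converse of DICT-L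

* `ofHM h : PL (ofAtl A)` : unitary frames and Chern connection of `h : HM L`, `L : LB A`
* `potHM h : Pot (ofHM h)`, `potHM_lb : (potHM h).lb = L`, `potHM_w`
* `ofHM_F11`  : the curvature is of type (1,1); `ofHM_F : F = -2 f2 (cur)`
-/

set_option autoImplicit false
set_option linter.unusedSectionVars false
set_option maxSynthPendingDepth 3

open Set Filter Topology Complex
open scoped ContDiff ComplexConjugate

namespace Crest.Agent.R281.PL_713

open Crest.Agent.R281.HkR_835 Crest.Agent.R281.Ti_846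
open Crest.Agent.R275.Geo Crest.Agent.R275.Core144 Crest.Agent.R273.Defs_333
open Crest.Agent.R273.Kah_333 Crest.Agent.R273.HM_333

noncomputable section

variable {X : Type} [TopologicalSpace X] {n : ℕ} {A : Atl n X} {L : LB A} (h : HM L)

/-- `√w` in the chart -/
theorem sqrt_wt {i : A.ι} {z : Cn n} (hz : z ∈ (A.e i).target) :
    Real.exp (-h.wt i z) = h.w i ((A.e i).symm z) := by
  show Real.exp (- -Real.log (h.w i ((A.e i).symm z))) = _
  rw [neg_neg, Real.exp_log (h.pos i _ ((A.e i).map_target hz))]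

theorem wtC {i : A.ι} {z : Cn n} (hz : z ∈ (A.e i).target) : ContDiffAt ℝ ∞ (h.wt i) z :=
  (wt_smooth h i).contDiffAt ((A.e i).open_target.mem_nhds hz)

theorem gC {i j : A.ι} {z : Cn n} (hz : z ∈ (ofAtl A).ov i j) :
    DifferentiableAt ℂ (fun z => L.g i j ((A.e i).symm z)) z :=
  (L.hol i j).differentiableAt ((RCh.isOpen_ov (C := ofAtl A) i j).mem_nhds hz)

/-- the transition function in the unitary frames -/
def gu (i j : A.ι) (z : Cn n) : ℂ :=
  L.g i j ((A.e i).symm z) * exp (((1 / 2) * (h.wt j ((ofAtl A).t i j z) - h.wt i z) : ℝ) : ℂ)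

theorem gu_norm {i j : A.ι} {z : Cn n} (hz : z ∈ (ofAtl A).ov i j) :
    ‖L.g i j ((A.e i).symm z)‖ ^ 2 = Real.exp (h.wt i z - h.wt j ((ofAtl A).t i j z)) := by
  have hz1 : z ∈ (A.e i).target := hz.1
  have hz2 : (ofAtl A).t i j z ∈ (A.e j).target := (RCh.t_mem hz).1
  have hx : (A.e i).symm z ∈ (A.e i).source ∩ (A.e j).source := ⟨(A.e i).map_target hz1, hz.2⟩
  have e2 : (A.e j).symm ((ofAtl A).t i j z) = (A.e i).symm z := (A.e j).left_inv hz.2
  have h1 := h.tr i j _ hx
  have h2 := sqrt_wt h hz1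
  have h3 := sqrt_wt h hz2
  rw [e2] at h3
  rw [← h2, ← h3] at h1
  have h4 : Real.exp (h.wt i z - h.wt j ((ofAtl A).t i j z)) =
      Real.exp (h.wt i z) * Real.exp (-h.wt j ((ofAtl A).t i j z)) := by
    rw [← Real.exp_add]
    ring_nf
  rw [h4, h1]
  have h5 : Real.exp (h.wt i z) * Real.exp (-h.wt i z) = 1 := by
    rw [← Real.exp_add, add_neg_cancel, Real.exp_zero]
  linear_combination (-‖L.g i j ((A.e i).symm z)‖ ^ 2) * h5

/-- the derivative of the transition function -/
theorem gu_deriv {i j : A.ι} {z : Cn n} (hz : z ∈ (ofAtl A).ov i j) (v : Cn n) :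
    fderiv ℝ (gu h i j) z v = I * (((1 / 2) * fderiv ℝ (h.wt j) ((ofAtl A).t i j z)
      (I • fderiv ℝ ((ofAtl A).t i j) z v) - (1 / 2) * fderiv ℝ (h.wt i) z (I • v) : ℝ) : ℂ) *
      gu h i j z := by
  have hz1 : z ∈ (A.e i).target := hz.1
  have hz2 : (ofAtl A).t i j z ∈ (A.e j).target := (RCh.t_mem hz).1
  set G : Cn n → ℂ := fun z => L.g i j ((A.e i).symm z) with hG
  have hGd : DifferentiableAt ℝ G z := (gC (L := L) hz).restrictScalars ℝ
  have hGI : ∀ v, fderiv ℝ G z (I • v) = I * fderiv ℝ G z v := fun v => fderiv_hol_I (gC (L := L) hz) v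
  have hwi : HasFDerivAt (h.wt i) _ z := ((wtC h hz1).differentiableAt (by simp)).hasFDerivAt
  have hwj : HasFDerivAt (fun y => h.wt j ((ofAtl A).t i j y)) _ z :=
    HasFDerivAt.comp (g := h.wt j) (f := (ofAtl A).t i j) z
      ((wtC h hz2).differentiableAt (by simp)).hasFDerivAt (RCh.t_diff hz).hasFDerivAt
  set D : Cn n → ℝ := fun w => fderiv ℝ (h.wt j) ((ofAtl A).t i j z)
    (fderiv ℝ ((ofAtl A).t i j) z w) - fderiv ℝ (h.wt i) z w with hD
  -- logarithmic derivative of `|G|²`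
  have hn0 : G z ≠ 0 := L.ne_zero i j _
  have key : ∀ w, 2 * (fderiv ℝ G z w * conj (G z)).re = -D w * ‖G z‖ ^ 2 := by
    intro w
    have e1 : (fun y => ‖G y‖ ^ 2) =ᶠ[𝓝 z]
        fun y => Real.exp (h.wt i y - h.wt j ((ofAtl A).t i j y)) := by
      filter_upwards [(RCh.isOpen_ov (C := ofAtl A) i j).mem_nhds hz] with y hy using gu_norm h hy
    have e2 : HasFDerivAt (fun y => Real.exp (h.wt i y - h.wt j ((ofAtl A).t i j y))) _ z :=
      (hwi.fun_sub hwj).exp
    have e3 : HasFDerivAt (fun y => ‖G y‖ ^ 2) _ z := hGd.hasFDerivAt.norm_sq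
    have e4 := e1.fderiv_eq (𝕜 := ℝ)
    rw [e3.fderiv, e2.fderiv] at e4
    have e5 := DFunLike.congr_fun e4 w
    rw [← gu_norm h hz] at e5
    simp only [smul_apply, sub_apply, ContinuousLinearMap.comp_apply, smul_eq_mul,
      innerSL_apply_apply] at e5
    have e6 : (inner ℝ (G z) (fderiv ℝ G z w) : ℝ) = (fderiv ℝ G z w * conj (G z)).re := by
      rw [Complex.inner, mul_comm]
    rw [e6] at e5
    have e7 : (2 : ℝ) * (fderiv ℝ G z w * conj (G z)).re =
      ‖G z‖ ^ 2 * (fderiv ℝ (h.wt i) z w - fderiv ℝ (h.wt j) ((ofAtl A).t i j z)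
        (fderiv ℝ ((ofAtl A).t i j) z w)) := by
      rw [nsmul_eq_mul] at e5
      exact_mod_cast e5
    rw [e7, hD]
    ring
  have hnn : (‖G z‖ ^ 2 : ℝ) ≠ 0 := by positivity
  -- `DG v = G (-(1/2) D v + (i/2) D (i v))`
  have hG2 : fderiv ℝ G z v * conj (G z) = ((-(1 / 2) * D v * ‖G z‖ ^ 2 : ℝ) : ℂ) +
      I * ((1 / 2 * D (I • v) * ‖G z‖ ^ 2 : ℝ) : ℂ) := by
    have k1 := key v
    have k2 := key (I • v)
    rw [hGI, mul_assoc] at k2
    apply Complex.ext
    · simp only [Complex.add_re, Complex.ofReal_re, Complex.mul_re, Complex.I_re, Complex.I_im,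
        Complex.ofReal_im] at k1 k2 ⊢
      linarith
    · simp only [Complex.add_im, Complex.ofReal_im, Complex.mul_im, Complex.I_re, Complex.I_im,
        Complex.ofReal_re, Complex.mul_re] at k1 k2 ⊢
      linarith
  have hcc : G z * conj (G z) = ((‖G z‖ ^ 2 : ℝ) : ℂ) := by
    rw [Complex.mul_conj, Complex.normSq_eq_norm_sq]
  have hG3 : fderiv ℝ G z v = G z * (((-(1 / 2) * D v : ℝ) : ℂ) + I * ((1 / 2 * D (I • v) : ℝ) : ℂ)) := by
    have hc0 : conj (G z) ≠ 0 := (map_ne_zero _).2 hn0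
    refine mul_right_cancel₀ hc0 ?_
    rw [hG2]
    push_cast at hcc ⊢
    linear_combination (1 / 2 * (D v : ℂ) - I * (1 / 2 * (D (I • v) : ℂ))) * hcc
  have g1 : HasFDerivAt (gu h i j) _ z :=
    hGd.hasFDerivAt.mul (Complex.ofRealCLM.hasFDerivAt.comp z
      ((hwj.sub hwi).const_mul (1 / 2))).cexp
  rw [g1.fderiv]
  simp only [add_apply, smul_apply, smul_eq_mul]
  rw [hG3]
  simp only [hD, gu]
  rw [ofAtl_dt_I hz]
  push_cast
  simp
  ring

/-- **the unitary frames and the Chern connection of a Hermitian line bundle** -/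
def ofHM : PL (ofAtl A) where
  g := gu h
  sm i j := by
    have h0 : ContDiffOn ℝ ∞ (fun z => L.g i j ((A.e i).symm z)) ((ofAtl A).ov i j) :=
      (L.hol i j).contDiffOn (A.e j).open_source
    have h1 : ContDiffOn ℝ ∞ (h.wt i) ((ofAtl A).ov i j) :=
      (wt_smooth h i).mono fun z hz => hz.1
    have h2 : ContDiffOn ℝ ∞ (fun z => h.wt j ((ofAtl A).t i j z)) ((ofAtl A).ov i j) :=
      (wt_smooth h j).comp (RCh.t_smooth (C := ofAtl A) i j) fun z hz => (RCh.t_mem hz).1
    exact h0.mul (Complex.ofRealCLM.contDiff.comp_contDiffOn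
      (contDiffOn_const.mul (h2.sub h1))).cexp
  unit i j z hz := by
    have h1 := gu_norm h hz
    rw [gu, norm_mul, Complex.norm_exp, Complex.ofReal_re]
    have h2 : ‖L.g i j ((A.e i).symm z)‖ =
        Real.exp ((1 / 2) * (h.wt i z - h.wt j ((ofAtl A).t i j z))) := by
      have h3 : ‖L.g i j ((A.e i).symm z)‖ ^ 2 =
          (Real.exp ((1 / 2) * (h.wt i z - h.wt j ((ofAtl A).t i j z)))) ^ 2 := by
        rw [h1, ← Real.exp_nat_mul]
        congr 1
        push_cast
        ring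
      exact (pow_left_inj₀ (norm_nonneg _) (Real.exp_pos _).le two_ne_zero).1 h3
    rw [h2, ← Real.exp_add]
    have : (1 / 2) * (h.wt i z - h.wt j ((ofAtl A).t i j z)) +
        (1 / 2) * (h.wt j ((ofAtl A).t i j z) - h.wt i z) = 0 := by ring
    rw [this, Real.exp_zero]
  coc i j k z hz hz' := by
    have hz1 : z ∈ (A.e i).target := hz.1
    have hx : (A.e i).symm z ∈ (A.e i).source ∩ (A.e j).source ∩ (A.e k).source :=
      ⟨⟨(A.e i).map_target hz1, hz.2⟩, hz'.2⟩
    have e2 : (A.e j).symm ((ofAtl A).t i j z) = (A.e i).symm z := (A.e j).left_inv hz.2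
    have e3 : (ofAtl A).t j k ((ofAtl A).t i j z) = (ofAtl A).t i k z := by
      show A.e k ((A.e j).symm ((ofAtl A).t i j z)) = A.e k ((A.e i).symm z)
      rw [e2]
    simp only [gu]
    rw [e2, e3, ← L.mul i j k _ hx]
    have h4 : exp (((1 / 2) * (h.wt k ((ofAtl A).t i k z) - h.wt i z) : ℝ) : ℂ) =
        exp (((1 / 2) * (h.wt j ((ofAtl A).t i j z) - h.wt i z) : ℝ) : ℂ) *
        exp (((1 / 2) * (h.wt k ((ofAtl A).t i k z) - h.wt j ((ofAtl A).t i j z)) : ℝ) : ℂ) := by
      rw [← Complex.exp_add]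
      congr 1
      push_cast
      ring
    rw [h4]
    ring
  th i z := ((1 / 2 : ℝ) • fderiv ℝ (h.wt i) z).comp iL
  th_sm i := by
    have h1 : ContDiffOn ℝ ∞ (fderiv ℝ (h.wt i)) (A.e i).target :=
      (wt_smooth h i).fderiv_of_isOpen (A.e i).open_target (by simp)
    exact (h1.const_smul (1 / 2 : ℝ)).clm_comp contDiffOn_const
  law i j z hz v := by
    rw [gu_deriv h hz v]
    rfl

@[simp] theorem ofHM_th (i : A.ι) (z v : Cn n) :
    (ofHM h).th i z v = (1 / 2) * fderiv ℝ (h.wt i) z (I • v) := rfl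

/-- the holomorphic frames -/
def potHM : Pot (ofHM h) where
  h i z := ((h.wt i z / 2 : ℝ) : ℂ)
  sm i := Complex.ofRealCLM.contDiff.comp_contDiffOn ((wt_smooth h i).div_const 2)
  eq i z hz v := by
    have h1 : HasFDerivAt (h.wt i) _ z := ((wtC h hz).differentiableAt (by simp)).hasFDerivAt
    have h2 : HasFDerivAt (fun z => ((h.wt i z / 2 : ℝ) : ℂ))
        (Complex.ofRealCLM.comp ((1 / 2 : ℝ) • fderiv ℝ (h.wt i) z)) z := by
      have h3 := Complex.ofRealCLM.hasFDerivAt.comp z (h1.const_mul (1 / 2))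
      refine h3.congr_of_eventuallyEq (Eventually.of_forall fun y => ?_)
      show ((h.wt i y / 2 : ℝ) : ℂ) = ((1 / 2 * h.wt i y : ℝ) : ℂ)
      congr 1
      ring
    rw [h2.fderiv]
    simp only [ofHM_th, ContinuousLinearMap.comp_apply, smul_apply, Complex.ofRealCLM_apply,
      smul_eq_mul, smul_smul, I_mul_I, neg_one_smul, map_neg]
    push_cast
    linear_combination ((1 / 2) * (fderiv ℝ (h.wt i) z v : ℂ)) * I_mul_I

theorem potHM_lb : (potHM h).lb = L := by
  ext i j x
  by_cases hx : x ∈ (A.e i).source ∩ (A.e j).source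
  · rw [Pot.lb_g _ hx]
    have e1 : (ofAtl A).t i j (A.e i x) = A.e j x := by
      show A.e j ((A.e i).symm (A.e i x)) = _
      rw [(A.e i).left_inv hx.1]
    show exp ((h.wt i (A.e i x) / 2 : ℝ) : ℂ) * (L.g i j ((A.e i).symm (A.e i x)) *
      exp (((1 / 2) * (h.wt j ((ofAtl A).t i j (A.e i x)) - h.wt i (A.e i x)) : ℝ) : ℂ)) *
      exp (-((h.wt j (A.e j x) / 2 : ℝ) : ℂ)) = L.g i j x
    rw [e1, (A.e i).left_inv hx.1]
    have h4 : exp ((h.wt i (A.e i x) / 2 : ℝ) : ℂ) *
        exp (((1 / 2) * (h.wt j (A.e j x) - h.wt i (A.e i x)) : ℝ) : ℂ) *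
        exp (-((h.wt j (A.e j x) / 2 : ℝ) : ℂ)) = 1 := by
      rw [← Complex.exp_add, ← Complex.exp_add, ← Complex.exp_zero]
      congr 1
      push_cast
      ring
    linear_combination L.g i j x * h4
  · rw [LB.off _ i j x hx, L.off i j x hx]

theorem potHM_w {i : A.ι} {x : X} (hx : x ∈ (A.e i).source) :
    (potHM h).hm.w i x = h.w i x := by
  have h1 := sqrt_wt h ((A.e i).map_source hx)
  rw [(A.e i).left_inv hx] at h1
  rw [← h1]
  show Real.exp (-2 * (((h.wt i (A.e i x) / 2 : ℝ) : ℂ)).re) = _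
  rw [Complex.ofReal_re]
  congr 1
  ring

theorem ofHM_F {i : A.ι} {x : X} (hx : x ∈ (A.e i).source) (u v : Cn n) :
    (ofHM h).F.w i (A.e i x) u v = -2 * (I * hb (cur h i x) u v).re := by
  have h1 := (potHM h).F_cur hx u v
  rw [h1]
  have h2 : cur (potHM h).hm i x = cur h i x := by
    unfold cur
    apply Crest.Agent.R273.HessB_333.hess_congr
    filter_upwards [(A.e i).open_target.mem_nhds ((A.e i).map_source hx)] with y hy
    unfold HM.wt
    rw [potHM_w h ((A.e i).map_target hy)]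
  rw [h2]

/-- the curvature is of type (1,1) -/
theorem ofHM_F11 : F11 (iJ A) (ofHM h) := by
  intro i z hz u v
  have hx : (A.e i).symm z ∈ (A.e i).source := (A.e i).map_target hz
  have h1 := ofHM_F h hx u v
  have h2 := ofHM_F h hx (I • u) (I • v)
  have e : A.e i ((A.e i).symm z) = z := (A.e i).right_inv hz
  rw [e] at h1 h2
  rw [iJ_apply, iJ_apply, h1, h2, hb_I_left, hb_I_right]
  congr 3
  linear_combination (-hb (cur h i ((A.e i).symm z)) u v) * I_mul_I

end

end Crest.Agent.R281.PL_713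
end

-- ▼ part R281/Rkd4_386

/-!
# R281 (S0424), RANK281, lower end (helper386), part 4: nodes of `RkD_902`

* `hN_indep`  : `hN L J N` for every connection with curvature of type (1,1)
* `presP`     : the node `PresP` (T4, DICT)
* `setup_lnk`, `setup_fin` : the part of the node `SetupP` about `L0 := ofHM h`
-/

set_option autoImplicit false
set_option linter.unusedSectionVars false
set_option maxSynthPendingDepth 3

open Set Filter Topology Complex
open scoped ContDiff

namespace Crest.Agent.R281.Rkd_386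

open Crest.Agent.R275.Geo Crest.Agent.R275.Core144 Crest.Agent.R275.GC293
open Crest.Agent.R273.Defs_333 Crest.Agent.R273.Kah_333
open Crest.Agent.R260.ACM_580 Crest.Agent.R260.NNB_580
open Crest.Agent.R281.HkR_835 Crest.Agent.R281.Ti_846 Crest.Agent.R281.NefO_476
open Crest.Agent.R281.Nef_252 Crest.Agent.R281.PL_713 Crest.Agent.R281.Dif_268
open Crest.Agent.R281.Alg_998 Crest.Agent.R281.RkD_902 Crest.Agent.R281.Cdr_234
open Crest.Agent.R273.Sg1_101 Crest.Agent.R273.Sg2_101

noncomputable section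

variable {V X : Type} [NormedAddCommGroup V] [NormedSpace ℝ V] [FiniteDimensional ℝ V]
  [TopologicalSpace X] {C : RCh V X}

theorem hN_indep [CompactSpace X] [T2Space X] [SimplyConnectedSpace X] {d : ℕ}
    (hNN : NNat V d) (hd : 2 ≤ d) {H : HkT C} {k : Fin 3} {L : PL C} {N : ℕ}
    (h : hN L (ofHk H k) N) {a : F1 C} (ha : T11 (ofHk H k) (L.add a).F) :
    (L.add a).HasN (ofHk H k).J N := by
  obtain ⟨a', ha', h'⟩ := h
  let _ : MeasurableSpace V := borel V
  have : BorelSpace V := ⟨rfl⟩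
  exact hasN_indep (H.J_sq k) (ddb_hk hNN hd H k) L ha' ha h'

/-- adding the zero form -/
theorem add_zero' (L : PL C) : L.add 0 = L := by
  refine PL.ext rfl ?_
  funext i z
  show L.th i z + 0 = L.th i z
  rw [add_zero]

theorem pow_add' (L : PL C) (a : F1 C) (m : ℕ) :
    (L.add a).pow m = (L.pow m).add ((m : ℝ) • a) := by
  refine PL.ext rfl ?_
  funext i z
  show (m : ℝ) • (L.th i z + a.η i z) = (m : ℝ) • L.th i z + (m : ℝ) • a.η i z
  rw [smul_add]

theorem T11.pow {J : AJ C} {L : PL C} (h : T11 J L.F) (m : ℕ) : T11 J (L.pow m).F := by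
  intro i z hz u v
  rw [PL.pow_F _ _ hz, PL.pow_F _ _ hz, h i z hz]

/-- finite dimension of the space of sections -/
theorem fin_hs' [CompactSpace X] [T2Space X] {n : ℕ} {A : Atl n X} (L : LB A) :
    FiniteDimensional ℂ (HS L univ) := by
  obtain ⟨T⟩ := exists_net A
  obtain ⟨c, hc⟩ := exists_Bd T L
  exact fin_HS hc

/-- `JC` and `Cp` -/
theorem cp_of_jc {n : ℕ} {A : Atl n X} {H : HkT C} {k : Fin 3} (h : JC C (H.J k) A) :
    Cp (H.acm k) A := by
  intro a
  refine ⟨fun i => h.cmp.s' i a, fun i => h.cmp.s i a, fun i z hz v => ?_⟩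
  exact h.lin' (i := i) (a := a) hz v

/-! ### the presentation of a member -/

section pres

variable {n : ℕ}

theorem nnatC (d : ℕ) : NNat (Cn d) d :=
  Crest.Agent.R260.NN6_900.nnat d (Cn d) (by
    rw [finrank_real_of_complex]
    simp)

/-- `0` is a (1,1)-connection of `ofHM h` -/
theorem jeq_H0 {A : Atl n X} {L : PL (ofAtl A)} {J J' : (ofAtl A).ι → Cn n → Cn n →L[ℝ] Cn n}
    (h : ∀ i, ∀ z ∈ (A.e i).target, ∀ v, J i z v = J' i z v) : L.H0 J = L.H0 J' := by
  ext s
  constructor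
  · intro hs i z hz v
    have h1 := hs i z hz v
    unfold Sec.db at h1 ⊢
    rwa [h i z hz] at h1
  · intro hs i z hz v
    have h1 := hs i z hz v
    unfold Sec.db at h1 ⊢
    rwa [← h i z hz] at h1

/-- **(T0), last clause**: sections of `ofHM h` are sections of `L` -/
theorem setup_fin {A : Atl n X} [Finite A.ι] [CompactSpace X] [T2Space X] [SimplyConnectedSpace X]
    (hn : 2 ≤ n) {L : LB A} (h : HM L) {H : HkT (ofAtl A)}
    (hJ : ∀ i, ∀ z ∈ (A.e i).target, ∀ v, H.J 0 i z v = I • v) (m N : ℕ)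
    (hN : hN ((ofHM h).pow m) (ofHk H 0) N) : N ≤ Module.finrank ℂ (HS (L ^ m) univ) := by
  have h0 : T11 (ofHk H 0) (ofHM h).F := by
    intro i z hz u v
    have h1 := ofHM_F11 h i z hz u v
    have e : ∀ v, (ofHk H 0).J i z v = iJ A i z v := fun v => hJ i z hz v
    rw [e, e]
    exact h1
  have h1 : T11 (ofHk H 0) (((ofHM h).pow m).add 0).F := by
    rw [add_zero']
    exact T11.pow h0 m
  have h2 := hN_indep (nnatC n) hn hN h1
  rw [add_zero'] at h2
  have h3 : ((ofHM h).pow m).H0 (ofHk H 0).J = ((ofHM h).pow m).H0 (iJ A) :=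
    jeq_H0 fun i z hz v => hJ i z hz v
  obtain ⟨f, hf, hm⟩ := h2
  have := fin_hs' ((potHM h).pow m).lb
  let f' : Fin N → ((ofHM h).pow m).H0 (iJ A) := fun i => ⟨f i, by rw [← h3]; exact hm i⟩
  have hf' : LinearIndependent ℂ f' := by
    apply LinearIndependent.of_comp (((ofHM h).pow m).H0 (iJ A)).subtype
    exact hf
  have h4 : LinearIndependent ℂ (fun i => ((potHM h).pow m).iso (f' i)) :=
    hf'.map' ((potHM h).pow m).iso.toLinearMap ((potHM h).pow m).iso.ker
  have h5 := h4.fintype_card_le_finrank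
  rw [Fintype.card_fin, Pot.lb_pow, potHM_lb] at h5
  exact h5

/-- **(T0), field `lnk`** -/
theorem setup_lnk {A : Atl n X} {L : LB A} (h : HM L) {e : F2 (ofAtl A)}
    (he : Cl e (Real.pi⁻¹ • (curK h).f2)) : Cl (ofHM h).F ((-(2 * Real.pi)) • e) := by
  refine Cl.trans ?_ (Cl.smul _ he.symm)
  refine Cl.of_eq_on fun i z hz => ?_
  ext u v
  have hx := (A.e i).map_target hz
  have h1 := ofHM_F h hx u v
  have hz' : A.e i ((A.e i).symm z) = z := (A.e i).right_inv hz
  rw [hz'] at h1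
  have h2 : ((-(2 * Real.pi)) • (Real.pi⁻¹ • (curK h).f2)).w i z u v =
    (-(2 * Real.pi)) * (Real.pi⁻¹ * (curK h).f2.w i z u v) := rfl
  rw [h1, h2, K11.f2_w _ hz]
  have hpi : Real.pi ≠ 0 := Real.pi_ne_zero
  field_simp
  rfl

/-- a (1,1)-connection on `L0` -/
theorem exists_conn {C : RCh (Cn (2 * n)) X} [CompactSpace X] {Q : F2 C →ₗ[ℝ] F2 C →ₗ[ℝ] ℝ}
    (hQ : Ctx n C Q) {H : HkT C} {L0 : PL C} {e : F2 C} (hg : Given Q H L0 e) :
    ∃ a : F1 C, T11 (ofHk H 0) (L0.add a).F := by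
  obtain ⟨y, hy, hy'⟩ := hQ.t11 H hg.pos e hg.e1 hg.e2
  have h1 : Cl L0.F ((-(2 * Real.pi)) • y) := hg.lnk.trans (Cl.smul _ hy.symm)
  obtain ⟨η, hη⟩ := h1.symm
  refine ⟨η, fun i z hz u v => ?_⟩
  have e1 : ∀ p q, (L0.add η).F.w i z p q = (-(2 * Real.pi)) * y.w i z p q := by
    intro p q
    have h2 := hη i z hz p q
    have h3 : ((-(2 * Real.pi)) • y - L0.F).w i z p q =
      (-(2 * Real.pi)) * y.w i z p q - L0.F.w i z p q := rfl
    rw [h3] at h2
    rw [PL.add_F _ _ hz, F1.d_w, ← h2]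
    ring
  rw [e1, e1, hy' i z hz u v]

/-- **the node `PresP`** -/
theorem presP : PresP := by
  intro n X _ _ _ _ C Q hQ H L0 e hg
  obtain ⟨a, ha⟩ := exists_conn hQ hg
  have hNN := nnatC (2 * n)
  obtain ⟨A, -, -, -, -, -, hA⟩ := exists_atl hNN (H.acm_int 0) (κ := Unit)
    (fun _ => (univ : Set X)) (fun _ => isOpen_univ) (fun x => ⟨(), mem_univ x⟩)
  have hJ : JC C (H.J 0) A := JC.of_cp hA
  obtain ⟨A', hfin, hgood, ⟨P⟩, -, -, ⟨D⟩⟩ := exists_dic hJ (L := L0.add a) ha
  have hcp : Cp (H.acm 0) A' := cp_of_jc D.jc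
  refine ⟨⟨A', hfin, hgood, P, hcp, D.lb, D.hm, a, ha, ?_, ?_⟩⟩
  · intro j z hz u v
    have hm := D.hκ.mem hz
    have h1 := (cmp_of_cp hcp).F_w (L0.add a).F hm u v
    have hx : (A'.e j).symm z ∈ (A'.e j).source := (A'.e j).map_target hz
    have h2 := D.cur_eq hx u v
    have hz' : A'.e j ((A'.e j).symm z) = z := (A'.e j).right_inv hz
    rw [hz'] at h2
    have h3 : ((-2 : ℝ) • (curK D.hm).f2).w j z u v = -2 * (curK D.hm).f2.w j z u v := rfl
    rw [h1, h3, K11.f2_w _ hz]
    exact h2.symm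
  · intro m N hN
    refine ⟨(m : ℝ) • a, ?_, ?_⟩
    · rw [← pow_add']
      exact T11.pow ha m
    · rw [← pow_add']
      have h1 : FiniteDimensional ℂ (((L0.add a).pow m).H0 (H.J 0)) := by
        have := fin_hs' (D.pow m).lb
        exact (D.pow m).iso.symm.toLinearMap.finiteDimensional_of_surjective
          (LinearMap.range_eq_top.2 (D.pow m).iso.symm.surjective)
      obtain ⟨f, hf⟩ := exists_linearIndependent_of_le_finrank (R := ℂ)
        (M := ((L0.add a).pow m).H0 (H.J 0)) (n := N) (by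
          rw [(D.pow m).iso.finrank_eq, D.lb_pow m]
          exact hN)
      exact ⟨fun i => (f i : PL_713.Sec ((L0.add a).pow m)), hf.map' (((L0.add a).pow m).H0 (H.J 0)).subtype (by simp),
        fun i => (f i).2⟩

end pres

end

end Crest.Agent.R281.Rkd_386
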