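import Crest.Agent.R281.SkM2_474
import Crest.Agent.R281.Al5_830
import Crest.Agent.R281.Ti9_846
import Crest.Agent.R281.Nef2_252
import Crest.Agent.R281.Ti8_846
import Crest.Agent.R281.FujSig_358
import Crest.Agent.R273.GreenM_5
import Crest.Agent.R281.Fuj6_207
import Crest.Agent.R281.Hdg6_850
import Crest.Agent.R281.Isq3_358
import Crest.Agent.R281.Nef4_252
import Crest.Agent.R281.KpK_487
import Crest.Agent.R281.Qg4_770
import Crest.Agent.R281.Cdr10_234
import Crest.Agent.R281.RkD_902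
import Crest.Agent.R281.Rkd4_386
import Crest.Agent.R281.NefRay3_326

-- ▼ part R281/SkM3_474
section

/-!
# R281 (S0424), SIG-MEM (helper474), part 3: the topological form

* `topI_of`  : **`TopI` exists** for the manifold of the statement
* `q_hk_all`, `q_om_all`, `polar_om_all` : values of `q` on every hyperkaehler triple (no sign)
* `neg_mem`  : negative definite modulo exact forms on the complement of a positive triple
-/

set_option autoImplicit false
set_option linter.unusedSectionVars false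
set_option maxSynthPendingDepth 3

open Set Filter Topology Function MeasureTheory Complex
open scoped ContDiff Matrix ComplexConjugate ComplexOrder

namespace Crest.Agent.R281.SkM_474

open Crest.Agent.R275.Geo Crest.Agent.R275.Core144 Crest.Agent.R275.EDR890
open Crest.Agent.R275.GC293
open Crest.Agent.R273.Defs_333 Crest.Agent.R273.Kah_333
open Crest.Agent.R260.ACM_580 Crest.Agent.R260.NNB_580
open Crest.Agent.R281.Defs_273
open Crest.Agent.R281.FujP_513 (Symm mixv)
open Crest.Agent.R281.FujSig_358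
open Crest.Agent.R281.HkR_835 hiding pb pb_apply
open Crest.Agent.R281.HkR_835.Cmp
open Crest.Agent.R281.Ti_846 hiding pb pb_apply
open Crest.Agent.R281.Dif_268
open Crest.Agent.R281.NefO_476
open Crest.Agent.R281.Nef_252 (T11 T11_hk Pos_hk eqv_ex_sub jA)
open Crest.Agent.R281.Al_830
open Crest.Agent.R281.Fuj7_207 (bn Tn fujiki_Tn)
open Crest.Agent.R281.Fuj5_207 (E11 reS imS)
open Crest.Agent.R281.Fuj1_207 (qf)

noncomputable section

/-! ### existence -/

section exist

variable {d : ℕ} {X : Type} [TopologicalSpace X] [T2Space X] [CompactSpace X] [ConnectedSpace X]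
  {n : ℕ}

/-- **`TopI` for the given manifold** -/
theorem topI_of (hd : d = n + n) (hn : 1 ≤ n) (hn2 : 2 ≤ n + n) {A : Atl d X} [Finite A.ι]
    (PA : Part A) (K : Kah A) (σ : HSymp A) (hu : σ.Uniq) (hc : ClH σ.toH2) :
    ∃ P : RPart (ofAtl A), TopI (lc d) (bn hd) P (qf (Tn hd PA) hn2 n (reS σ.toH2 hc)) := by
  obtain ⟨P, hP, -⟩ := exists_RPart (ofAtl A) (fun _ => univ) (fun _ => univ_mem)
  have S := Crest.Agent.R281.Fuj8_207.sig hd PA hn K σ hu hc hn2
  refine ⟨P, hn, ori_ofAtl A, hP, fun x => ?_, reS σ.toH2 hc, imS σ.toH2 hc, (ofKah K).f2,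
    fun x h1 h2 h3 => (S.neg h1 h2 h3).1⟩
  rw [← S.fuj x]
  exact II_part (lc d) (bn hd) P (ori_ofAtl A) (RPart.ofPart PA) fun _ => x

end exist

/-! ### values on the triples -/

section values

variable {V X : Type} [NormedAddCommGroup V] [NormedSpace ℝ V] [FiniteDimensional ℝ V]
  [MeasurableSpace V] [BorelSpace V] {μ : Measure V} [μ.IsAddHaarMeasure]
  [TopologicalSpace X] [CompactSpace X] [T2Space X] {C : RCh V X} {n : ℕ}
  {b : Module.Basis (Fin (n + n) × Fin 2) ℝ V} {P : RPart C} {q : QuadraticForm ℝ (F2 C)}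

/-- the values of `q` on a hyperkaehler triple -/
theorem q_hk_all (T : TopI μ b P q) (H : HkT C) (a c d : ℝ) :
    q (a • H.om 0 + c • H.om 1 + d • H.om 2) = (a ^ 2 + c ^ 2 + d ^ 2) * q (H.om 0) := by
  have hn := T.npos
  by_cases h0 : q (H.om 0) = 0
  · have h1 := T.q_hk_pow H a c d
    rw [h0, mul_zero, zero_pow hn.ne'] at h1
    rw [h0, mul_zero]
    exact (pow_eq_zero_iff hn.ne').1 h1
  · set y : F2 C := a • H.om 0 + c • H.om 1 + d • H.om 2 with hy
    set f : QuadraticForm ℝ (F2 C) := (q (H.om 0))⁻¹ • q with hf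
    have hf0 : f (H.om 0) = 1 := by
      rw [hf, QuadraticMap.smul_apply, smul_eq_mul, inv_mul_cancel₀ h0]
    have h1 : ∀ t : ℝ, f (H.om 0 + t • y) ^ n =
        ((1 + t * a) ^ 2 + (t * c) ^ 2 + (t * d) ^ 2) ^ n := by
      intro t
      have e1 : H.om 0 + t • y =
          (1 + t * a) • H.om 0 + (t * c) • H.om 1 + (t * d) • H.om 2 := by
        rw [hy, smul_add, smul_add, smul_smul, smul_smul, smul_smul, add_smul, one_smul]
        abel
      rw [e1, hf, QuadraticMap.smul_apply, smul_eq_mul, mul_pow, T.q_hk_pow, ← mul_pow]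
      congr 1
      field_simp
    have h2 : ∀ᶠ t : ℝ in 𝓝 0, 1 + t * QuadraticMap.polar f (H.om 0) y + t ^ 2 * f y =
        1 + t * (2 * a) + t ^ 2 * (a ^ 2 + c ^ 2 + d ^ 2) := by
      have h3 : ∀ᶠ t : ℝ in 𝓝 0, 0 < (1 + t * a) ^ 2 + (t * c) ^ 2 + (t * d) ^ 2 := by
        have h4 : Continuous fun t : ℝ => (1 + t * a) ^ 2 + (t * c) ^ 2 + (t * d) ^ 2 := by
          fun_prop
        have h5 := h4.tendsto 0
        simp only [zero_mul, add_zero] at h5
        exact h5.eventually (lt_mem_nhds (by norm_num))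
      filter_upwards [ev_pos_line f y (by rw [hf0]; norm_num), h3] with t ht1 ht2
      have h6 := (pow_left_inj₀ ht1.le ht2.le hn.ne').1 (h1 t)
      rw [q_line, hf0] at h6
      rw [h6]
      ring
    have h3 := (quad_eq h2).2.2
    rw [hf, QuadraticMap.smul_apply, smul_eq_mul] at h3
    rw [← h3]
    field_simp

theorem q_om_all (T : TopI μ b P q) (H : HkT C) (k : Fin 3) : q (H.om k) = q (H.om 0) := by
  fin_cases k
  · rfl
  · simpa using q_hk_all T H 0 1 0
  · simpa using q_hk_all T H 0 0 1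

theorem polar_om_all (T : TopI μ b P q) (H : HkT C) {k l : Fin 3} (hkl : k ≠ l) :
    QuadraticMap.polar q (H.om k) (H.om l) = 0 := by
  have h01 := q_hk_all T H 1 1 0
  have h02 := q_hk_all T H 1 0 1
  have h12 := q_hk_all T H 0 1 1
  have e1 := q_om_all T H 1
  have e2 := q_om_all T H 2
  simp only [one_smul, zero_smul, add_zero, zero_add, one_pow] at h01 h02 h12
  have p01 : QuadraticMap.polar q (H.om 0) (H.om 1) = 0 := by
    rw [polar_eq, h01, e1]; ring
  have p02 : QuadraticMap.polar q (H.om 0) (H.om 2) = 0 := by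
    rw [polar_eq, h02, e2]; ring
  have p12 : QuadraticMap.polar q (H.om 1) (H.om 2) = 0 := by
    rw [polar_eq, h12, e1, e2]; ring
  fin_cases k <;> fin_cases l
  · exact absurd rfl hkl
  · exact p01
  · exact p02
  · rw [QuadraticMap.polar_comm]; exact p01
  · exact absurd rfl hkl
  · exact p12
  · rw [QuadraticMap.polar_comm]; exact p02
  · rw [QuadraticMap.polar_comm]; exact p12
  · exact absurd rfl hkl

end values

section neg

variable {d : ℕ} {X : Type} [TopologicalSpace X] [T2Space X] [CompactSpace X] [ConnectedSpace X]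
  {C : RCh (Cn d) X} {n : ℕ} {hd : d = n + n} {P : RPart C} {q : QuadraticForm ℝ (F2 C)}

/-- negative definite modulo exact forms on the complement of a positive triple -/
theorem neg_mem (T : TopI (lc d) (bn hd) P q) (H : HkT C) (hq : 0 < q (H.om 0)) {x : F2 C}
    (h : ∀ k, QuadraticMap.polar q x (H.om k) = 0) : q x ≤ 0 ∧ (q x = 0 → Ex x) :=
  (sig_mem T H hq).neg (h 1) (h 2) (h 0)

end neg

end

end Crest.Agent.R281.SkM_474
end

-- ▼ part R281/NefNum1_137
section

/-!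
# Row 281, NEF-NUM, part 1 (helper137): nef classes and the intersection form

`(M, A : Atl d M)` compact, `T = IM (lc d) (bcr e) P` the intersection form on closed real
2-forms of the real charts `ofAtl A`.

* `flat_of_ex`  : a line bundle whose curvature class is exact has a flat metric (`DDb (jA A)`)
* `not_ex`      : `NonFlat L → ¬ Ex (curK h).f2`
* `MD_one`      : one factor different from `g`
* `II_nonneg`   : pointwise nonnegative products have nonnegative integral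
* `T_kah_nonneg`: `0 ≤ ∫ K^(d-1) ∧ G` for `G` semipositive
* `T_kah_pos`   : `0 < ∫ K^(d-1) ∧ K'`
* `T_nef`       : `0 ≤ ∫ K^(d-1) ∧ w` for a nef class `w`
* `nef_polar`   : `0 < polar q K w` for a nef class `w` which is not exact, `q w ≥ 0`
-/

set_option autoImplicit false
set_option maxSynthPendingDepth 3
set_option linter.unusedSectionVars false

open Set Filter Topology Complex MeasureTheory
open scoped ContDiff Matrix ComplexConjugate ComplexOrder

namespace Crest.Agent.R281.NefNum_137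

open Crest.Agent.R275.Geo Crest.Agent.R275.Core144 Crest.Agent.R275.EDR890
open Crest.Agent.R275.GC293
open Crest.Agent.R273.Kah_333 Crest.Agent.R273.Hess_333 Crest.Agent.R273.HessB_333
open Crest.Agent.R273.Defs_333 Crest.Agent.R273.HM_333 Crest.Agent.R273.Vol_333
open Crest.Agent.R273.Vm_333
open Crest.Agent.R281.Defs_273 (NefW NonFlat)
open Crest.Agent.R281.HkR_835 Crest.Agent.R281.Ti_846
open Crest.Agent.R281.NefO_476
open Crest.Agent.R281.Nef_252 (jA jA_J KCls NefC DDb T11 curK ex_cur ex_sub ex_add ex_smul T11_f2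
  ddc_hess KCls_jA nefC_of_nefW T11_kah exists_pos_sub Pos_kah f2_self pos_f2)
open Crest.Agent.R281.FujP_513 (Symm mixv)
open Crest.Agent.R281.FujSig_358 (Sig first_polar')

noncomputable section

variable {d : ℕ} {M : Type} [TopologicalSpace M] {A : Atl d M}

/-! ### flat metrics -/

/-- a matrix is determined by the real form -/
theorem hb_inj {G H : Matrix (Fin d) (Fin d) ℂ}
    (h : ∀ u v, (I * hb G u v).re = (I * hb H u v).re) : G = H := by
  refine hb_ext fun u v => ?_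
  have h1 := h u v
  have h2 := h (I • u) v
  rw [hb_I_left, hb_I_left, ← mul_assoc, ← mul_assoc, I_mul_I] at h2
  apply Complex.ext
  · simpa using h2
  · simpa using h1

/-- **an exact curvature class gives a flat metric** -/
theorem flat_of_ex (hd : DDb (jA A)) {L : LB A} (h : HM L) (he : Ex (curK h).f2) :
    ∃ h' : HM L, ∀ i, ∀ x ∈ (A.e i).source, cur h' i x = 0 := by
  obtain ⟨u, hu, h1⟩ := hd _ he (T11_f2 (curK h))
  set f : M → ℝ := fun x => (-4 : ℝ) * u x with hf'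
  have hf : A.Sm f := fun i => contDiffOn_const.mul (hu i)
  refine ⟨tw h f hf, fun i x hx => ?_⟩
  have hz := (A.e i).map_source hx
  have h2 : cur h i x = (4 : ℂ) • hess (uc (ofAtl A) u i) (A.e i x) := by
    refine hb_inj fun a b => ?_
    have h3 := h1 i _ hz a b
    rw [ddc_hess hu hz, K11.f2_w _ hz, (A.e i).left_inv hx] at h3
    exact h3
  have e1 : hsf A f i x = ((-4 : ℝ) : ℂ) • hess (uc (ofAtl A) u i) (A.e i x) := by
    unfold hsf
    have : (fun z => f ((A.e i).symm z)) = fun z => (-4 : ℝ) * uc (ofAtl A) u i z := rfl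
    rw [this, hess_const_mul _ (hu.at hz)]
  rw [cur_tw h hf i hx, e1, h2, ← add_smul]
  norm_num

theorem not_ex (hd : DDb (jA A)) {L : LB A} (hn : NonFlat L) (h : HM L) :
    ¬ Ex (curK h).f2 := by
  intro he
  obtain ⟨h', h1⟩ := flat_of_ex hd h he
  obtain ⟨i, x, hx, h2⟩ := hn h'
  exact h2 (h1 i x hx)

/-! ### positivity -/

/-- one factor different from `g` -/
theorem MD_one (hd : 2 ≤ d) {k : Fin d} {G : Fin d → Matrix (Fin d) (Fin d) ℂ}
    {g : Matrix (Fin d) (Fin d) ℂ} (hg : IsUnit g.det) (hG : ∀ j, j ≠ k → G j = g) :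
    MD G = ((d - 1).factorial : ℂ) * g.det * (g⁻¹ * G k).trace := by
  obtain ⟨l, hl⟩ : ∃ l : Fin d, k ≠ l := by
    have : Nontrivial (Fin d) := Fin.nontrivial_iff_two_le.2 hd
    obtain ⟨l, hl⟩ := exists_ne k
    exact ⟨l, hl.symm⟩
  rw [MD_two hl hg fun j h1 _ => hG j h1, hG l hl.symm, Matrix.nonsing_inv_mul g hg,
    Matrix.mul_one, Matrix.trace_one, Fintype.card_fin]
  obtain ⟨m, rfl⟩ : ∃ m, d = m + 2 := ⟨d - 2, by omega⟩
  have e1 : m + 2 - 2 = m := rfl
  have e2 : m + 2 - 1 = m + 1 := rfl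
  rw [e1, e2, Nat.factorial_succ]
  push_cast
  ring

theorem TP_one_nonneg (hd : 2 ≤ d) (K : Kah A) (G : K11 A) {k : Fin d} {X : Fin d → K11 A}
    (hX : ∀ j, j ≠ k → X j = ofKah K) (hXk : X k = G) {i : A.ι} {z : Cn d}
    (hz : z ∈ (A.e i).target) (hG : (G.g i ((A.e i).symm z)).PosSemidef) :
    0 ≤ TP (bc d) (fun k => (X k).f2.w i z) := by
  have hx := (A.e i).map_target hz
  have h1 := TP_k11 X hx
  rw [(A.e i).right_inv hz] at h1
  have h0 := (K.pos i _ hx).det_pos
  rw [MD_one hd (k := k) (g := K.g i ((A.e i).symm z)) (isUnit_iff_ne_zero.2 h0.ne')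
    fun j hj => by rw [hX j hj]; rfl, hXk] at h1
  have h2 : (0 : ℂ) ≤ ((K.g i ((A.e i).symm z))⁻¹ * G.g i ((A.e i).symm z)).trace :=
    Crest.Agent.R273.GreenM_5.trace_inv_mul_nonneg (K.pos i _ hx) hG
  have h3 : (0 : ℂ) ≤ ((TP (bc d) (fun k => (X k).f2.w i z) : ℝ) : ℂ) := by
    rw [h1]
    have h4 : (0 : ℂ) ≤ ((d - 1).factorial : ℂ) := by positivity
    have h5 : (0 : ℂ) ≤ (2 : ℂ) ^ d := by positivity
    exact mul_nonneg h5 (mul_nonneg (mul_nonneg h4 h0.le) h2)
  exact_mod_cast h3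

variable [CompactSpace M]

/-- pointwise nonnegative products -/
theorem II_nonneg [T2Space M] [Countable A.ι] (K : Kah A) (P : RPart (ofAtl A))
    (w : Fin d → F2 (ofAtl A))
    (h : ∀ i, ∀ z ∈ (A.e i).target, 0 ≤ TP (bc d) (fun k => (w k).w i z)) :
    0 ≤ II (lc d) (bc d) P w := by
  let _ : MeasurableSpace M := borel M
  have : BorelSpace M := ⟨rfl⟩
  unfold II
  rw [intT_eq (volK K)]
  refine integral_nonneg fun x => ?_
  obtain ⟨i, hi⟩ := A.cover x
  have h1 := (TopF.of (bc d) w).fn_eq (volK K) hi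
  have h2 : 0 ≤ (volK K).w i x * (TopF.of (bc d) w).fn (volK K) x := by
    rw [← h1]
    exact h i _ ((A.e i).map_source hi)
  exact nonneg_of_mul_nonneg_right h2 ((volK K).pos i x hi)

/-- mixed powers in the basis `bc d` -/
theorem T_mixv {N : ℕ} (e : Fin d ≃ Fin N) (P : RPart (ofAtl A)) (hN : 0 < N)
    (x y : F2 (ofAtl A)) :
    IM (lc d) (bcr e) P (mixv N 1 x y) =
      II (lc d) (bc d) P (fun k => if k = e.symm ⟨0, hN⟩ then y else x) := by
  rw [IM_apply, II_bcr]
  congr 1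
  funext k
  unfold mixv
  have h1 : ((e k : Fin N) : ℕ) < 1 ↔ k = e.symm ⟨0, hN⟩ := by
    rw [Nat.lt_one_iff, ← Equiv.symm_apply_eq, eq_comm, Equiv.symm_symm]
    constructor
    · intro h
      exact Fin.ext h.symm
    · intro h
      rw [h]
  by_cases hk : ((e k : Fin N) : ℕ) < 1
  · rw [if_pos hk, if_pos (h1.1 hk)]
  · rw [if_neg hk, if_neg fun h => hk (h1.2 h)]

section pos

variable [T2Space M] [Countable A.ι] {N : ℕ} (e : Fin d ≃ Fin N) (P : RPart (ofAtl A))

/-- `0 ≤ ∫ K^(d-1) ∧ G` for `G` semipositive -/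
theorem T_nonneg (hd : 2 ≤ d) (K : Kah A) (G : K11 A)
    (hG : ∀ i, ∀ x ∈ (A.e i).source, (G.g i x).PosSemidef) :
    0 ≤ IM (lc d) (bcr e) P (mixv N 1 (ofKah K).f2 G.f2) := by
  have hN : 0 < N := by
    have := Fintype.card_congr e
    simp only [Fintype.card_fin] at this
    omega
  rw [T_mixv e P hN]
  have h1 : (fun k => if k = e.symm ⟨0, hN⟩ then G.f2 else (ofKah K).f2) =
      fun k => ((if k = e.symm ⟨0, hN⟩ then G else ofKah K : K11 A)).f2 := by
    funext k
    split_ifs <;> rfl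
  rw [h1]
  refine II_nonneg K P _ fun i z hz => ?_
  exact TP_one_nonneg hd K G (k := e.symm ⟨0, hN⟩)
    (X := fun k => if k = e.symm ⟨0, hN⟩ then G else ofKah K) (fun j hj => if_neg hj)
    (if_pos rfl) hz (hG i _ ((A.e i).map_target hz))

theorem T_add (K x y : F2 (ofAtl A)) (hN : 0 < N) :
    IM (lc d) (bcr e) P (mixv N 1 K (x + y)) =
      IM (lc d) (bcr e) P (mixv N 1 K x) + IM (lc d) (bcr e) P (mixv N 1 K y) := by
  obtain ⟨k, rfl⟩ : ∃ k, N = k + 1 := ⟨N - 1, by omega⟩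
  rw [Crest.Agent.R281.FujP_513.mixv_one, Crest.Agent.R281.FujP_513.mixv_one,
    Crest.Agent.R281.FujP_513.mixv_one, ← MultilinearMap.curryLeft_apply,
    ← MultilinearMap.curryLeft_apply, ← MultilinearMap.curryLeft_apply, map_add,
    add_apply]

theorem T_smul (K y : F2 (ofAtl A)) (c : ℝ) (hN : 0 < N) :
    IM (lc d) (bcr e) P (mixv N 1 K (c • y)) =
      c * IM (lc d) (bcr e) P (mixv N 1 K y) := by
  obtain ⟨k, rfl⟩ : ∃ k, N = k + 1 := ⟨N - 1, by omega⟩
  rw [Crest.Agent.R281.FujP_513.mixv_one, Crest.Agent.R281.FujP_513.mixv_one,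
    ← MultilinearMap.curryLeft_apply, ← MultilinearMap.curryLeft_apply, map_smul,
    smul_apply, smul_eq_mul]

theorem T_self (K : F2 (ofAtl A)) :
    IM (lc d) (bcr e) P (mixv N 1 K K) = IM (lc d) (bcr e) P (fun _ => K) := by
  congr 1
  funext k
  unfold mixv
  split_ifs <;> rfl

theorem T_ex (K : F2 (ofAtl A)) {x y : F2 (ofAtl A)} (h : x - y ∈ exS (ofAtl A)) :
    IM (lc d) (bcr e) P (mixv N 1 K x) = IM (lc d) (bcr e) P (mixv N 1 K y) := by
  refine IM_coh (lc d) (bcr e) P (ori_ofAtl A) fun k => ?_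
  unfold mixv
  split_ifs
  · exact h
  · rw [sub_self]
    exact (exS _).zero_mem

variable [Nonempty M]

/-- `0 < ∫ K^(d-1) ∧ K'` -/
theorem T_kah_pos (hd : 2 ≤ d) (K K' : Kah A) :
    0 < IM (lc d) (bcr e) P (mixv N 1 (ofKah K).f2 (ofKah K').f2) := by
  have hN : 0 < N := by
    have := Fintype.card_congr e
    simp only [Fintype.card_fin] at this
    omega
  obtain ⟨c, hc, h1⟩ := exists_pos_sub (om := (ofKah K).f2) (Pos_kah K')
  have h2 : T11 (jA A) ((ofKah K').f2 - c • (ofKah K).f2) :=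
    (T11_kah K').sub ((T11_kah K).smul c)
  set w := (ofKah K').f2 - c • (ofKah K).f2 with hw
  set G : K11 A := w.k11 h2 with hG
  have h3 : G.f2 - w ∈ exS (ofAtl A) := mem_exS.2 ⟨0, fun i z hz u v => by
    have h1 : z ∈ (A.e i).target := hz
    have h4 := F2.k11_f2 w h2 hz
    rw [F1.fderiv_zero]
    show G.f2.w i z u v - w.w i z u v = _
    rw [hG, h4]
    simp⟩
  have h4 : ∀ i, ∀ x ∈ (A.e i).source, (G.g i x).PosSemidef := by
    have h5 := (pos_f2 G).1 fun i z hz v hv => by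
      have h4 := F2.k11_f2 w h2 hz
      rw [hG, h4]
      exact h1 i z hz v hv
    exact fun i x hx => (h5 i x hx).posSemidef
  have h5 := T_nonneg e P hd K G h4
  rw [T_ex e P _ h3] at h5
  have h6 : (ofKah K').f2 = w + c • (ofKah K).f2 := by rw [hw]; abel
  rw [h6, T_add e P _ _ _ hN, T_smul e P _ _ _ hN, T_self]
  have h7 := IM_kah_pos e P K
  have h8 : 0 < c * IM (lc d) (bcr e) P (fun _ => (ofKah K).f2) := mul_pos hc h7
  linarith

/-- **`0 ≤ ∫ K^(d-1) ∧ w` for a nef class `w`** -/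
theorem T_nef (hd : 2 ≤ d) (K : Kah A) {om w : F2 (ofAtl A)} (hw : NefC (jA A) om w) :
    0 ≤ IM (lc d) (bcr e) P (mixv N 1 (ofKah K).f2 w) := by
  have hN : 0 < N := by
    have := Fintype.card_congr e
    simp only [Fintype.card_fin] at this
    omega
  set a := IM (lc d) (bcr e) P (mixv N 1 (ofKah K).f2 w) with ha
  set b := IM (lc d) (bcr e) P (mixv N 1 (ofKah K).f2 om) with hb'
  have key : ∀ m : ℕ, 0 < b + m * a := by
    intro m
    obtain ⟨K', h1⟩ := (KCls_jA _).1 (hw m)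
    have h2 := T_kah_pos e P hd K K'
    rw [T_ex e P _ (mem_exS.2 h1), T_add e P _ _ _ hN, T_smul e P _ _ _ hN] at h2
    exact h2
  by_contra hc
  push Not at hc
  obtain ⟨m, hm⟩ := exists_nat_gt (b / (-a))
  have h3 := key m
  rw [div_lt_iff₀ (by linarith)] at hm
  linarith

end pos

section sig

variable [T2Space M] [Countable A.ι] [Nonempty M] {n : ℕ} (e : Fin d ≃ Fin (n + n))
  (P : RPart (ofAtl A)) {q : QuadraticForm ℝ (F2 (ofAtl A))}
  {E11 : Submodule ℝ (F2 (ofAtl A))} {r s : F2 (ofAtl A)}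


/-- **a nef class which is not exact, with `q w ≥ 0`, meets every Kaehler class** -/
theorem nef_polar (K : Kah A)
    (hS : Sig (IM (lc d) (bcr e) P) q (exS (ofAtl A)) E11 r s (ofKah K).f2)
    {om w : F2 (ofAtl A)} (hw : NefC (jA A) om w) (hr : QuadraticMap.polar q w r = 0)
    (hs : QuadraticMap.polar q w s = 0) (hq : 0 ≤ q w) (hx : ¬ Ex w) :
    0 < QuadraticMap.polar q (ofKah K).f2 w := by
  have hd : 2 ≤ d := by
    have := Fintype.card_congr e
    simp only [Fintype.card_fin] at this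
    have := hS.pos
    omega
  have h1 := first_polar' hS.pos hS.symm hS.fuj (ofKah K).f2 w
  have h2 := T_nef e P hd K hw
  have h3 : 0 ≤ q (ofKah K).f2 ^ (n - 1) * QuadraticMap.polar q (ofKah K).f2 w := by
    rw [← h1]; linarith
  have h4 : 0 ≤ QuadraticMap.polar q (ofKah K).f2 w :=
    nonneg_of_mul_nonneg_right h3 (pow_pos hS.qK _)
  exact lt_of_le_of_ne h4 (Ne.symm (hS.polar_ne hr hs hq hx))

end sig

end

end Crest.Agent.R281.NefNum_137
end

-- ▼ part R281/NefNum2_137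
section

/-!
# Row 281, NEF-NUM, part 2 (helper137): the numerical data of the nef isotropic class

* `open11`   : openness of Kaehler forms in 207's shape (from 850 `kah_near`)
* `IM_bcr`, `Qf_bcr` : independence of the numbering `e : Fin d ≃ Fin N`
* `Hodge3`   : 850's (h3) as a `Prop`; `sig0` : 207's `Sig` with `Open11`, `hpos` discharged
* `nef_num`  : `NefW`, `NonFlat`, `Q(e,e) = 0` give `¬ Ex e`, `Q(e, Re σ) = Q(e, Im σ) = 0`,
               `Q(K, e) > 0` for every Kaehler form `K`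
-/

set_option autoImplicit false
set_option maxSynthPendingDepth 3
set_option linter.unusedSectionVars false

open Set Filter Topology Complex MeasureTheory
open scoped ContDiff Matrix ComplexConjugate ComplexOrder

namespace Crest.Agent.R281.NefNum_137

open Crest.Agent.R275.Geo Crest.Agent.R275.Core144 Crest.Agent.R275.EDR890
open Crest.Agent.R275.GC293
open Crest.Agent.R273.Kah_333 Crest.Agent.R273.Defs_333
open Crest.Agent.R281.Defs_273 (H2 HSymp NefW NonFlat)
open Crest.Agent.R281.HkR_835 Crest.Agent.R281.Ti_846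
open Crest.Agent.R281.HkP1_508 Crest.Agent.R281.HkP2_508 Crest.Agent.R281.HkP3_508
open Crest.Agent.R281.Nef_252 (jA DDb curK nefC_of_nefW NefC T11_f2)
open Crest.Agent.R281.FujP_513 (Symm mixv)
open Crest.Agent.R281.FujSig_358 (Sig)
open Crest.Agent.R281.Fuj1_207 (Qf qf v1 v2 Qf_apply polar_qf Qf_symm)
open Crest.Agent.R281.Fuj4_207 (IM_symm)
open Crest.Agent.R281.Fuj5_207 (E11 f2_mem reS imS Open11)

noncomputable section

variable {d : ℕ} {M : Type} [TopologicalSpace M] {A : Atl d M}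

/-- **openness of Kaehler forms** -/
theorem open11 [Finite A.ι] (P : Part A) : Open11 A := by
  intro K y hy
  obtain ⟨ε, hε, h⟩ := Hdg_850.kah_near P K (κ := Unit) (fun _ => y) fun _ => hy
  refine ⟨ε, hε, fun t ht0 ht1 => ?_⟩
  obtain ⟨K', -, h1⟩ := h (fun _ => t) fun _ => by rw [abs_of_pos ht0]; exact ht1
  refine ⟨K', fun i z hz u v => ?_⟩
  rw [h1 i z hz]
  simp

section reindex

variable [CompactSpace M] (RP : RPart (ofAtl A))



end reindex

section main

variable [T2Space M] [CompactSpace M] [ConnectedSpace M] [Finite A.ι]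

/-- 850's (h3): the Hodge index theorem on closed (1,1)-forms -/
def Hodge3 (A : Atl d M) {N : ℕ} (e : Fin d ≃ Fin N) (RP : RPart (ofAtl A)) : Prop :=
  ∀ K : Kah A, ∀ y ∈ E11 A, IM (lc d) (bcr e) RP (mixv N 1 (ofKah K).f2 y) = 0 →
    IM (lc d) (bcr e) RP (mixv N 2 (ofKah K).f2 y) ≤ 0 ∧
      (IM (lc d) (bcr e) RP (mixv N 2 (ofKah K).f2 y) = 0 → y ∈ exS (ofAtl A))

variable (P : Part A) (σ : HSymp A) (hu : σ.Uniq) (hc : ClH σ.toH2) {n : ℕ} (hn : 1 ≤ n)
  (hn2 : 2 ≤ n + n) (e : Fin d ≃ Fin (n + n)) (RP : RPart (ofAtl A))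

include P hu hn in
/-- 207's signature package, only (h3) is left as an input -/
theorem sig0 (h3 : Hodge3 A e RP) (K : Kah A) :
    Sig (IM (lc d) (bcr e) RP) (qf (IM (lc d) (bcr e) RP) hn2 n (reS σ.toH2 hc))
      (exS (ofAtl A)) (E11 A) (reS σ.toH2 hc) (imS σ.toH2 hc) (ofKah K).f2 :=
  Fuj6_207.sig P σ hu hc hn hn2 (lc d) (bcr e) RP (ori_ofAtl A) (open11 P)
    (fun K => IM_kah_pos e RP K) K (h3 K)


include P hu hn in
/-- **closed (1,1)-forms are orthogonal to `Re σ`, `Im σ`** -/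
theorem orth (h3 : Hodge3 A e RP) (K : Kah A) {y : F2 (ofAtl A)} (hy : y ∈ E11 A) :
    Qf (IM (lc d) (bcr e) RP) hn2 n (reS σ.toH2 hc) y (reS σ.toH2 hc) = 0 ∧
      Qf (IM (lc d) (bcr e) RP) hn2 n (reS σ.toH2 hc) y (imS σ.toH2 hc) = 0 := by
  have hS := sig0 P σ hu hc hn hn2 e RP h3 K
  have h1 := hS.r11 y hy
  have h2 := hS.s11 y hy
  rw [polar_qf (IM_symm _ _ _)] at h1 h2
  rw [Qf_symm (IM_symm _ _ _) _ _ _ y, Qf_symm (IM_symm _ _ _) _ _ _ y]
  constructor <;> linarith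

include P hu hn in
/-- **nef classes**: a nef class, not exact, of type (1,1) and with `Q(w,w) ≥ 0` meets every Kaehler
class -/
theorem nef_kah (h3 : Hodge3 A e RP) (K : Kah A) {om w : F2 (ofAtl A)} (h11 : w ∈ E11 A)
    (hw : NefC (jA A) om w)
    (hq : 0 ≤ Qf (IM (lc d) (bcr e) RP) hn2 n (reS σ.toH2 hc) w w) (hx : ¬ Ex w) :
    0 < Qf (IM (lc d) (bcr e) RP) hn2 n (reS σ.toH2 hc) (ofKah K).f2 w := by
  obtain ⟨h1, h2⟩ := orth P σ hu hc hn hn2 e RP h3 K h11
  have h4 := nef_polar e RP K (sig0 P σ hu hc hn hn2 e RP h3 K) hw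
    (by rw [polar_qf (IM_symm _ _ _), h1, mul_zero])
    (by rw [polar_qf (IM_symm _ _ _), h2, mul_zero]) hq hx
  rw [polar_qf (IM_symm _ _ _)] at h4
  linarith

include P hu hn in
/-- **NEF-NUM** -/
theorem nef_num (h3 : Hodge3 A e RP) (hd : DDb (jA A)) {K0 : Kah A} {L : LB A}
    (hnef : NefW K0 L) (hnf : NonFlat L) (h : HM L)
    (hiso : Qf (IM (lc d) (bcr e) RP) hn2 n (reS σ.toH2 hc) (curK h).f2 (curK h).f2 = 0) :
    ¬ Ex (curK h).f2 ∧
      Qf (IM (lc d) (bcr e) RP) hn2 n (reS σ.toH2 hc) (curK h).f2 (reS σ.toH2 hc) = 0 ∧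
      Qf (IM (lc d) (bcr e) RP) hn2 n (reS σ.toH2 hc) (curK h).f2 (imS σ.toH2 hc) = 0 ∧
      ∀ K : Kah A,
        0 < Qf (IM (lc d) (bcr e) RP) hn2 n (reS σ.toH2 hc) (ofKah K).f2 (curK h).f2 := by
  have hx := not_ex hd hnf h
  obtain ⟨h1, h2⟩ := orth P σ hu hc hn hn2 e RP h3 K0 (f2_mem (curK h))
  exact ⟨hx, h1, h2, fun K => nef_kah P σ hu hc hn hn2 e RP h3 K (f2_mem (curK h))
    (nefC_of_nefW K0 hnef h) hiso.ge hx⟩

end main

end

end Crest.Agent.R281.NefNum_137
end

-- ▼ part R281/SkM4_474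
section

/-!
# R281 (S0424), SETUP (helper474), part 4: the given structure

* `exists_H0`  : a hyperkaehler structure on `ofAtl A` with `J 0 = i`
* `given_data` : values of the Fujiki form on the class of the given line bundle
-/

set_option autoImplicit false
set_option linter.unusedSectionVars false
set_option maxSynthPendingDepth 3

open Set Filter Topology Function MeasureTheory Complex
open scoped ContDiff Matrix ComplexConjugate ComplexOrder

namespace Crest.Agent.R281.SkM_474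

open Crest.Agent.R275.Geo Crest.Agent.R275.Core144 Crest.Agent.R275.EDR890
open Crest.Agent.R275.GC293
open Crest.Agent.R273.Defs_333 Crest.Agent.R273.Kah_333
open Crest.Agent.R260.ACM_580 Crest.Agent.R260.NNB_580
open Crest.Agent.R281.Defs_273
open Crest.Agent.R273.Vol_333 (addK)
open Crest.Agent.R281.HkP1_508 Crest.Agent.R281.HkP2_508 Crest.Agent.R281.HkP3_508
open Crest.Agent.R281.FujP_513 (Symm mixv)
open Crest.Agent.R281.FujSig_358
open Crest.Agent.R281.HkR_835 hiding pb pb_apply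
open Crest.Agent.R281.HkR_835.Cmp
open Crest.Agent.R281.Ti_846 hiding pb pb_apply
open Crest.Agent.R281.Dif_268
open Crest.Agent.R281.NefO_476
open Crest.Agent.R281.Nef_252 (T11 T11_hk Pos_hk eqv_ex_sub jA curK)
open Crest.Agent.R281.Al_830
open Crest.Agent.R281.Fuj7_207 (bn Tn Tn_symm Tn_pos fujiki_Tn)
open Crest.Agent.R281.Fuj5_207 (E11 reS imS f2_mem)
open Crest.Agent.R281.Fuj1_207 (qf Qf polar_qf qf_apply)

noncomputable section

variable {d : ℕ} {X : Type} [TopologicalSpace X] [T2Space X] [CompactSpace X] [ConnectedSpace X]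
  {n : ℕ} {A : Atl d X} [Finite A.ι]

/-- the hyperkaehler structure of the given manifold -/
theorem exists_H0 (PA : Part A) (K : Kah A) (σ : HSymp A) (hu : σ.Uniq) (hc : ClH σ.toH2) :
    ∃ (K' : Kah A) (H : HkT (ofAtl A)) (ρ : ℝ), 0 < ρ ∧ (∀ i z v, H.J 0 i z v = I • v) ∧
      H.om 0 = (ofKah K').f2 ∧ H.om 1 = ρ • reS σ.toH2 hc ∧ H.om 2 = ρ • imS σ.toH2 hc := by
  obtain ⟨u, hs, hp, r, hr, h0, h⟩ := exists_HK_class PA (KpK_487.yau_kah A) K σ hu
  have hc' : ClH (smulHS (r : ℂ) hr σ).toH2 := fun i z hz a b c => h.closed i hz a b c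
  refine ⟨addK K u hs hp, HkT.ofKS (addK K u hs hp) (smulHS (r : ℂ) hr σ).toH2 hc' h.rel, r, h0,
    fun i z v => rfl, rfl, ?_, ?_⟩
  · rw [HkT.ofKS_om1]
    refine F2.ext (funext fun i => funext fun z => ?_)
    ext u v
    rw [f2H_w]
    show _ = r * (reS σ.toH2 hc).w i z u v
    rw [Fuj5_207.reS_w]
    have : sl (smulHS (r : ℂ) hr σ).toH2 i z = (r : ℂ) • sl σ.toH2 i z := rfl
    rw [this, sb_smul, Complex.re_ofReal_mul]
  · rw [HkT.ofKS_om2]
    refine F2.ext (funext fun i => funext fun z => ?_)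
    ext u v
    rw [f2H_I_w]
    show _ = r * (imS σ.toH2 hc).w i z u v
    rw [Fuj5_207.imS_w]
    have : sl (smulHS (r : ℂ) hr σ).toH2 i z = (r : ℂ) • sl σ.toH2 i z := rfl
    rw [this, sb_smul, Complex.im_ofReal_mul]

/-- **the numerical data of the given line bundle** -/
theorem given_data (hd : d = n + n) (hn : 1 ≤ n) (hn2 : 2 ≤ n + n) (PA : Part A) (K : Kah A)
    (σ : HSymp A) (hu : σ.Uniq) (hc : ClH σ.toH2) {L : LB A} (hN : NefW K L) (hF : NonFlat L)
    (hI : Isotropic PA σ L) (h : HM L) :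
    ∃ (K' : Kah A) (H : HkT (ofAtl A)) (ρ : ℝ), 0 < ρ ∧ (∀ i z v, H.J 0 i z v = I • v) ∧
      H.om 0 = (ofKah K').f2 ∧ H.om 1 = ρ • reS σ.toH2 hc ∧ H.om 2 = ρ • imS σ.toH2 hc ∧
      0 < qf (Tn hd PA) hn2 n (reS σ.toH2 hc) (H.om 0) ∧
      qf (Tn hd PA) hn2 n (reS σ.toH2 hc) (curK h).f2 = 0 ∧
      QuadraticMap.polar (qf (Tn hd PA) hn2 n (reS σ.toH2 hc)) (curK h).f2 (H.om 1) = 0 ∧
      QuadraticMap.polar (qf (Tn hd PA) hn2 n (reS σ.toH2 hc)) (curK h).f2 (H.om 2) = 0 ∧
      0 < QuadraticMap.polar (qf (Tn hd PA) hn2 n (reS σ.toH2 hc)) (curK h).f2 (H.om 0) := by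
  obtain ⟨K', H, ρ, h0, h1, h2, h3, h4⟩ := exists_H0 PA K σ hu hc
  have S := Crest.Agent.R281.Fuj8_207.sig hd PA hn K' σ hu hc hn2
  have hd2 : 2 ≤ d := by omega
  have hddb : Nef_252.DDb (jA A) := Nef_252.ddb_jA hd2 PA K
  have hiso : Qf (IM (lc d) (bn hd) (RPart.ofPart PA)) hn2 n (reS σ.toH2 hc) (curK h).f2
      (curK h).f2 = 0 := by
    have hS : 0 < IM (lc d) (bn hd) (RPart.ofPart PA) (fun _ => reS σ.toH2 hc) :=
      Isq3_358.S_pos' σ hc hn (by omega) PA hu K (lc d) (bn hd) (RPart.ofPart PA)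
        (fun K => Tn_pos hd PA K)
    exact (Isq3_358.iso_iff PA σ hu hc hn (by omega) hn2 K (lc d) (bn hd) (RPart.ofPart PA)
      hS h).1 hI
  have hnum := NefNum_137.nef_num PA σ hu hc hn hn2 (finCongr hd) (RPart.ofPart PA)
    (fun K => Fuj8_207.hodge_Tn hd PA hn K) hddb hN hF h hiso
  have r1 := S.r11 _ (f2_mem (curK h))
  have s1 := S.s11 _ (f2_mem (curK h))
  refine ⟨K', H, ρ, h0, h1, h2, h3, h4, ?_, hiso, ?_, ?_, ?_⟩
  · rw [h2]; exact S.qK
  · rw [h3, QuadraticMap.polar_smul_right, QuadraticMap.polar_comm, r1, smul_zero]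
  · rw [h4, QuadraticMap.polar_smul_right, QuadraticMap.polar_comm, s1, smul_zero]
  · rw [h2, QuadraticMap.polar_comm, polar_qf (Tn_symm hd PA)]
    have := hnum.2.2.2 K'
    have h5 : 0 < Qf (Tn hd PA) hn2 n (reS σ.toH2 hc) (ofKah K').f2 (curK h).f2 := this
    linarith

end

end Crest.Agent.R281.SkM_474
end

-- ▼ part R281/Qg5_770
section

/-!
# Row 281, RAT-GLUE (helper770), part 5: final form

* `rspan`, `ifin` : from the basis theorem of 234
* `rat`     : **`∃ c > 0, Q(x, y) ∈ c ℚ` on rational classes, `∈ c ℤ` on integral classes**,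
              `c ^ n ∈ kap d π * ℚ`
* `pow_rat` : `∫ x^d ∈ kap d π * ℚ` on rational classes
* `ratC`    : the same for a system of real charts `C` and `h : Cmp C (ofAtl A)`
-/

set_option autoImplicit false
set_option linter.unusedSectionVars false
set_option maxSynthPendingDepth 3

open Set Filter Topology Complex MeasureTheory
open scoped ContDiff Matrix ComplexConjugate ComplexOrder

noncomputable section

namespace Crest.Agent.R281.Qg_770

open Crest.Agent.R275 Crest.Agent.R275.Geo Crest.Agent.R275.Core144 Crest.Agent.R275.EDR890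
open Crest.Agent.R275.GC293
open Crest.Agent.R273.Defs_333 Crest.Agent.R273.Kah_333 Crest.Agent.R273.Vol_333
open Crest.Agent.R281.HkR_835 Crest.Agent.R281.Ti_846 Crest.Agent.R281.Dif_268
open Crest.Agent.R281.Defs_273 (H2 HSymp)
open Crest.Agent.R281.Cdr_234 (RatF IntF Cls clsS HBas exists_hbas)
open Crest.Agent.R281.Fuj1_207 (Qf qf Kills Tri)
open Crest.Agent.R281.Fuj4_207 Crest.Agent.R281.Fuj5_207 Crest.Agent.R281.Fuj7_207

variable {d : ℕ} {M : Type} [TopologicalSpace M] {A : Atl d M} [T2Space M] [CompactSpace M]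

theorem rspan (A : Atl d M) : RSpan A := by
  obtain ⟨B⟩ := exists_hbas A
  intro x
  obtain ⟨t, ht⟩ := B.span x
  exact ⟨B.N, B.b, t, fun k => Cdr_234.IntF.rat (B.int k), mem_exS.2 ht⟩

theorem ifin (A : Atl d M) : IFin A := by
  obtain ⟨B⟩ := exists_hbas A
  refine ⟨B.N, B.b, B.int, fun x hx => ?_⟩
  have h1 := B.intF_iff_co.1 hx
  choose a ha using h1
  refine ⟨a, mem_exS.2 ?_⟩
  simp only [← ha]
  exact B.ex_co x

variable [ConnectedSpace M] [Finite A.ι] (P : Part A) (σ : HSymp A) (hu : σ.Uniq)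
  (hc : ClH σ.toH2) {n : ℕ} (hdn : d = n + n) (hn : 1 ≤ n) (hn2 : 2 ≤ n + n)

include P hu hn in
/-- **(RAT)** rational and integral normalisation of the Beauville-Bogomolov form -/
theorem rat (K : Kah A) :
    ∃ c : ℝ, 0 < c ∧ (∃ r : ℚ, 0 < r ∧ c ^ n = kap d Real.pi * r) ∧
      (∀ x y : F2 (ofAtl A), RatF x → RatF y → ∃ r : ℚ,
        Qf (Tn hdn P) hn2 n (reS σ.toH2 hc) x y = c * r) ∧
      ∀ x y : F2 (ofAtl A), IntF x → IntF y → ∃ m : ℤ,
        Qf (Tn hdn P) hn2 n (reS σ.toH2 hc) x y = c * m :=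
  int_Tn P σ hu hc hdn hn hn2 K (rspan A) (ifin A)



end Crest.Agent.R281.Qg_770
end
end

-- ▼ part R281/SkM5_474
section

/-!
# R281 (S0424), SETUP (helper474), part 5: the nodes `Ctx` and `Given` of `RkD_902`

* `ctx_of`    : `Ctx` from `TopI`, rationality, a rational basis
* `exists_ctx` : **`Ctx` and the numerical part of `Given` for the given manifold**
-/

set_option autoImplicit false
set_option linter.unusedSectionVars false
set_option maxSynthPendingDepth 3

open Set Filter Topology Function MeasureTheory Complex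
open scoped ContDiff Matrix ComplexConjugate ComplexOrder

namespace Crest.Agent.R281.SkM_474

open Crest.Agent.R275.Geo Crest.Agent.R275.Core144 Crest.Agent.R275.EDR890
open Crest.Agent.R275.GC293
open Crest.Agent.R273.Defs_333 Crest.Agent.R273.Kah_333
open Crest.Agent.R260.ACM_580 Crest.Agent.R260.NNB_580
open Crest.Agent.R281.Defs_273
open Crest.Agent.R281.HkP1_508 Crest.Agent.R281.HkP2_508 Crest.Agent.R281.HkP3_508
open Crest.Agent.R281.FujP_513 (Symm mixv)
open Crest.Agent.R281.FujSig_358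
open Crest.Agent.R281.HkR_835 hiding pb pb_apply
open Crest.Agent.R281.HkR_835.Cmp
open Crest.Agent.R281.Ti_846 hiding pb pb_apply
open Crest.Agent.R281.Dif_268 Crest.Agent.R281.PL_713
open Crest.Agent.R281.NefO_476
open Crest.Agent.R281.Nef_252 (T11 T11_hk Pos_hk eqv_ex_sub jA curK)
open Crest.Agent.R281.Al_830
open Crest.Agent.R281.Alg_998
open Crest.Agent.R281.Cdr_234 (RatF IntF HBas c1F intF_c1F exists_hbas)
open Crest.Agent.R281.Fuj7_207 (bn Tn Tn_symm Tn_pos fujiki_Tn)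
open Crest.Agent.R281.Fuj5_207 (E11 reS imS f2_mem)
open Crest.Agent.R281.Fuj1_207 (qf Qf polar_qf qf_apply)
open Crest.Agent.R281.RkD_902

noncomputable section

variable {n : ℕ} {X : Type} [TopologicalSpace X] [T2Space X] [CompactSpace X] [ConnectedSpace X]

section ctx

variable {C : RCh (Cn (2 * n)) X} {Q : F2 C →ₗ[ℝ] F2 C →ₗ[ℝ] ℝ} {P : RPart C}
  {q : QuadraticForm ℝ (F2 C)} {κ : ℝ}

theorem Q_self (hQ : ∀ x y, Q x y = κ * QuadraticMap.polar q x y) (x : F2 C) :
    Q x x = 2 * κ * q x := by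
  rw [hQ, QuadraticMap.polar_self, nsmul_eq_mul]
  push_cast
  ring

/-- **the topological context** -/
theorem ctx_of (n1 : 1 ≤ n) (T : TopI (lc (2 * n)) (bn (two_mul n)) P q) (hκ : 0 < κ)
    (hQ : ∀ x y, Q x y = κ * QuadraticMap.polar q x y)
    (rat : ∀ x y : F2 C, RatF x → RatF y → ∃ r : ℚ, Q x y = r)
    (int : ∀ x y : F2 C, IntF x → IntF y → ∃ k : ℤ, Q x y = k) (B : HBas C) : Ctx n C Q := by
  have hs := Q_self hQ
  have h0 : ∀ x y, Q x y = 0 → QuadraticMap.polar q x y = 0 := fun x y h => by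
    rw [hQ] at h
    exact (mul_eq_zero.1 h).resolve_left hκ.ne'
  have hp : ∀ H : HkT C, 0 < Q (H.om 0) (H.om 0) → 0 < q (H.om 0) := fun H h => by
    rw [hs] at h
    exact (mul_pos_iff_of_pos_left (by positivity)).1 h
  refine ⟨n1, ⟨P, q, κ, hκ, T, hQ⟩, fun x y => ?_, fun x y hx => ?_, fun H k => ?_,
    fun H k l hkl => ?_, fun H hH x hx => ?_, fun H hH x h1 h2 => ?_, fun H hH => ?_, rat, int, ?_⟩
  · rw [hQ, hQ, QuadraticMap.polar_comm]
  · rw [hQ, QuadraticMap.polar_comm, T.polar_ex hx, mul_zero]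
  · rw [hs, hs, q_om_all T H k]
  · rw [hQ, polar_om_all T H hkl, mul_zero]
  · have h1 := neg_mem T H (hp H hH) fun k => h0 _ _ (hx k)
    rw [hs]
    refine ⟨mul_nonpos_of_nonneg_of_nonpos (by positivity) h1.1, fun h => h1.2 ?_⟩
    exact (mul_eq_zero.1 h).resolve_left (by positivity)
  · obtain ⟨y, h3, h4⟩ := t11 T H (hp H hH) (h0 _ _ h1) (h0 _ _ h2)
    exact ⟨y, h3, h4⟩
  · exact uniqT T H (hp H hH)
  · refine ⟨B.N, B.b, fun j => (B.int j).rat, fun x => ⟨B.co x, B.ex_co x, fun t ht => ?_⟩⟩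
    exact B.uniq ht (B.ex_co x)

end ctx

section given

variable {A : Atl (2 * n) X} [Finite A.ι]

theorem c1F_eq {L : LB A} (h : HM L) : c1F h = (Real.pi⁻¹ : ℝ) • (curK h).f2 := rfl

/-- **the context and the numerical data of the given manifold** -/
theorem exists_ctx (hn : 1 ≤ n) (PA : Part A) (K : Kah A) (σ : HSymp A) (hu : σ.Uniq) {L : LB A}
    (hN : NefW K L) (hF : NonFlat L) (hI : Isotropic PA σ L) (h : HM L) :
    ∃ (Q : F2 (ofAtl A) →ₗ[ℝ] F2 (ofAtl A) →ₗ[ℝ] ℝ) (H0 : HkT (ofAtl A)),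
      Ctx n (ofAtl A) Q ∧ (∀ i z v, H0.J 0 i z v = I • v) ∧ 0 < Q (H0.om 0) (H0.om 0) ∧
      IntF (c1F h) ∧ Q (c1F h) (c1F h) = 0 ∧ Q (c1F h) (H0.om 1) = 0 ∧
      Q (c1F h) (H0.om 2) = 0 ∧ 0 < Q (c1F h) (H0.om 0) := by
  have hn2 : 2 ≤ n + n := by omega
  have hd : 2 * n = n + n := two_mul n
  have hc : ClH σ.toH2 := Fuj8_207.closedH PA K σ hu σ.toH2
  obtain ⟨B⟩ := exists_hbas A
  obtain ⟨c, hc0, -, hrat, hint⟩ := Qg_770.rat PA σ hu hc hd hn hn2 K
  obtain ⟨P, T⟩ := topI_of hd hn hn2 PA K σ hu hc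
  obtain ⟨K', H, ρ, h0, h1, h2, h3, h4, h5, h6, h7, h8, h9⟩ :=
    given_data hd hn hn2 PA K σ hu hc hN hF hI h
  set q := qf (Tn hd PA) hn2 n (reS σ.toH2 hc) with hq
  set Q : F2 (ofAtl A) →ₗ[ℝ] F2 (ofAtl A) →ₗ[ℝ] ℝ :=
    c⁻¹ • Qf (Tn hd PA) hn2 n (reS σ.toH2 hc) with hQd
  have hQ : ∀ x y, Q x y = (c⁻¹ / 2) * QuadraticMap.polar q x y := by
    intro x y
    rw [hq, polar_qf (Tn_symm hd PA), hQd]
    show c⁻¹ * _ = _
    ring
  have hκ : 0 < c⁻¹ / 2 := by positivity
  have hctx : Ctx n (ofAtl A) Q := ctx_of hn T hκ hQ (fun x y hx hy => by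
    obtain ⟨r, hr⟩ := hrat x y hx hy
    refine ⟨r, ?_⟩
    show c⁻¹ * Qf (Tn hd PA) hn2 n (reS σ.toH2 hc) x y = r
    rw [hr, ← mul_assoc, inv_mul_cancel₀ hc0.ne', one_mul]) (fun x y hx hy => by
    obtain ⟨r, hr⟩ := hint x y hx hy
    refine ⟨r, ?_⟩
    show c⁻¹ * Qf (Tn hd PA) hn2 n (reS σ.toH2 hc) x y = r
    rw [hr, ← mul_assoc, inv_mul_cancel₀ hc0.ne', one_mul]) B
  have hπ := Real.pi_pos
  refine ⟨Q, H, hctx, h1, ?_, intF_c1F h, ?_, ?_, ?_, ?_⟩
  · rw [Q_self hQ]; positivity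
  · rw [Q_self hQ, c1F_eq, QuadraticMap.map_smul, h6]; simp
  · rw [hQ, c1F_eq, QuadraticMap.polar_smul_left, h7]; simp
  · rw [hQ, c1F_eq, QuadraticMap.polar_smul_left, h8]; simp
  · rw [hQ, c1F_eq, QuadraticMap.polar_smul_left, smul_eq_mul]
    positivity

end given

end

end Crest.Agent.R281.SkM_474
end

-- ▼ part R281/SkM6_474
section

/-!
# R281 (S0424), SETUP (helper474), part 6: the nodes `SetupP` and `MemHypP` of `RkD_902`
-/

set_option autoImplicit false
set_option linter.unusedSectionVars false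
set_option maxSynthPendingDepth 3

open Set Filter Topology Function MeasureTheory Complex
open scoped ContDiff Matrix ComplexConjugate ComplexOrder

namespace Crest.Agent.R281.SkM_474

open Crest.Agent.R275.Geo Crest.Agent.R275.Core144 Crest.Agent.R275.EDR890
open Crest.Agent.R275.GC293
open Crest.Agent.R273.Defs_333 Crest.Agent.R273.Kah_333
open Crest.Agent.R260.ACM_580 Crest.Agent.R260.NNB_580
open Crest.Agent.R281.Defs_273
open Crest.Agent.R281.FujSig_358
open Crest.Agent.R281.HkR_835 hiding pb pb_apply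
open Crest.Agent.R281.HkR_835.Cmp
open Crest.Agent.R281.Ti_846 hiding pb pb_apply
open Crest.Agent.R281.Dif_268 Crest.Agent.R281.PL_713
open Crest.Agent.R281.NefO_476
open Crest.Agent.R281.Nef_252 (T11 T11_hk Pos_hk eqv_ex_sub jA curK NefC NefC.smul ex_cur)
open Crest.Agent.R281.Al_830
open Crest.Agent.R281.Alg_998
open Crest.Agent.R281.Cdr_234 (RatF IntF HBas c1F intF_c1F exists_hbas)
open Crest.Agent.R281.Fuj7_207 (bn Tn Tn_symm Tn_pos fujiki_Tn)
open Crest.Agent.R281.Fuj5_207 (E11 reS imS f2_mem)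
open Crest.Agent.R281.Fuj1_207 (qf Qf polar_qf qf_apply)
open Crest.Agent.R281.RkD_902

noncomputable section

/-- **the node `SetupP`** -/
theorem setupP : SetupP := by
  intro n M _ _ _ _ A _ hn _ P K σ hu L hN hF hI
  obtain ⟨h, -⟩ := hN 1 one_pos
  obtain ⟨Q, H0, hctx, hJ, a1, a2, a3, a4, a5, a6⟩ := exists_ctx hn P K σ hu hN hF hI h
  refine ⟨Q, H0, ofHM h, c1F h, hctx, ⟨a1, a2, Rkd_386.setup_lnk h (Cl.refl _), a3, a4, a5, a6⟩,
    fun m N => Rkd_386.setup_fin (by omega) h (fun i z _ v => hJ i z v) m N⟩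

section mem

variable {n : ℕ} {X : Type} [TopologicalSpace X] [T2Space X] [CompactSpace X]
  [SimplyConnectedSpace X] {C : RCh (Cn (2 * n)) X} {Q : F2 C →ₗ[ℝ] F2 C →ₗ[ℝ] ℝ}
  {H : HkT C} {L0 : PL C} {e : F2 C}

/-- the class of the curvature of the presentation -/
theorem pres_cls (hg : Given Q H L0 e) (p : Pres n H L0) :
    Ex ((curK p.h).f2 - FL (cmp_of_cp p.cp) (Real.pi • e)) := by
  set F := FL (cmp_of_cp p.cp) with hF
  -- the curvature of the connection
  have h1 : Ex ((L0.add p.a).F - L0.F) := by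
    refine ⟨p.a, fun i z hz u v => ?_⟩
    show (L0.add p.a).F.w i z u v - L0.F.w i z u v = _
    rw [PL.add_F _ _ hz, F1.d_w]
    ring
  have h2 : Ex (F ((L0.add p.a).F) - F L0.F) := by
    rw [← map_sub]
    exact (F_mem_exS (cmp_of_cp p.cp) _).2 h1
  have h3 : Ex (F L0.F - F ((-(2 * Real.pi)) • e)) := by
    rw [← map_sub]
    exact (F_mem_exS (cmp_of_cp p.cp) _).2 hg.lnk
  have h4 : Ex (F ((L0.add p.a).F) - (-2 : ℝ) • (curK p.h).f2) := mem_exS_of_eqv p.cur
  have e1 : (curK p.h).f2 - F (Real.pi • e) = (1 / 2 : ℝ) • ((F ((L0.add p.a).F) -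
      (-2 : ℝ) • (curK p.h).f2) - (F ((L0.add p.a).F) - F L0.F) -
      (F L0.F - F ((-(2 * Real.pi)) • e))) := by
    rw [map_smul, map_smul]
    module
  rw [e1]
  exact (exS _).smul_mem _ ((exS _).sub_mem ((exS _).sub_mem h4 h2) h3)

theorem not_ex_e (hQ : Ctx n C Q) (hg : Given Q H L0 e) : ¬ Ex e := by
  intro h
  have := hg.e0
  rw [hQ.ex _ _ h] at this
  exact lt_irrefl _ this

/-- **the hypotheses of `END6` at a member** -/
theorem mem_hyp (hQ : Ctx n C Q) (hg : Given Q H L0 e) (hnef : NefC (ofHk H 0) (H.om 0) e)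
    (p : Pres n H L0) : (H.sig p.cp).Uniq ∧ NefW (H.kah p.cp) p.L ∧ NonFlat p.L ∧
      Isotropic p.P (H.sig p.cp) p.L := by
  have _ : Finite p.A.ι := p.fin
  have hn := hQ.n1
  have hn2 : 2 ≤ n + n := by omega
  have hd2 : 2 ≤ 2 * n := by omega
  have hU : (H.sig p.cp).Uniq := uniq_of_T p.P p.cp (hQ.uniq H hg.pos)
  have hcls := pres_cls hg p
  have hπ := Real.pi_pos
  refine ⟨hU, ?_, ?_, ?_⟩
  · exact (Nef_252.nefC_hk_iffU hd2 p.cp p.P (H.kah p.cp) p.h (T11_hk H 0) (Pos_hk H 0)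
      hcls).2 (hnef.smul hπ.le)
  · intro h'
    by_contra hc
    push Not at hc
    have h1 : (curK h').f2 ∈ exS (ofAtl p.A) := by
      rw [← sub_zero (curK h').f2]
      refine Fuj5_207.mem_exS_of_eq (w' := 0) fun i z hz u v => ?_
      have h2 : (curK h').f2.w i z u v = (I * hb (cur h' i ((p.A.e i).symm z)) u v).re :=
        K11.f2_w (curK h') hz u v
      have h0 : (0 : F2 (ofAtl p.A)).w i z u v = 0 := rfl
      rw [h2, hc i _ ((p.A.e i).map_target hz), h0]
      simp [hb]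
    have h2 : (curK p.h).f2 ∈ exS (ofAtl p.A) := by
      have h3 := (exS (ofAtl p.A)).add_mem (show _ ∈ exS (ofAtl p.A) from ex_cur h' p.h) h1
      rwa [sub_add_cancel] at h3
    have h3 : FL (cmp_of_cp p.cp) (Real.pi • e) ∈ exS (ofAtl p.A) := by
      have h4 := (exS (ofAtl p.A)).sub_mem h2 (show _ ∈ exS (ofAtl p.A) from hcls)
      rwa [sub_sub_cancel] at h4
    have h4 : Real.pi • e ∈ exS C := (F_mem_exS (cmp_of_cp p.cp) _).1 h3
    have h5 : e ∈ exS C := by
      have := (exS C).smul_mem Real.pi⁻¹ h4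
      rwa [smul_smul, inv_mul_cancel₀ hπ.ne', one_smul] at this
    exact not_ex_e hQ hg h5
  · obtain ⟨P, q, κ, hκ, T, hq⟩ := hQ.top
    have hself := Q_self hq
    have hq0 : 0 < q (H.om 0) := by
      have := hg.pos
      rw [hself] at this
      exact (mul_pos_iff_of_pos_left (by positivity)).1 this
    obtain ⟨hcl, S', -, h2, -, -, -⟩ := sig_atl T hq0 p.P p.cp hn2
    have hS : 0 < IM (lc (2 * n)) (bn (two_mul n)) (RPart.ofPart p.P)
        (fun _ => reS (H.sig p.cp).toH2 hcl) :=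
      Isq3_358.S_pos' (H.sig p.cp) hcl hn (by omega) p.P hU (H.kah p.cp) (lc (2 * n))
        (bn (two_mul n)) (RPart.ofPart p.P) (fun K => Tn_pos (two_mul n) p.P K)
    refine (Isq3_358.iso_iff p.P (H.sig p.cp) hU hcl hn (by omega) hn2 (H.kah p.cp) (lc (2 * n))
      (bn (two_mul n)) (RPart.ofPart p.P) hS p.h).2 ?_
    have h3 : qf (Tn (two_mul n) p.P) hn2 n (reS (H.sig p.cp).toH2 hcl) (curK p.h).f2 = 0 := by
      rw [sq_congr S' hcls, h2, QuadraticMap.map_smul]
      have h4 := hg.ee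
      rw [hself] at h4
      rw [(mul_eq_zero.1 h4).resolve_left (by positivity), smul_zero]
    exact h3

end mem

/-- **the node `MemHypP`** -/
theorem memHypP : MemHypP := by
  intro n X _ _ _ _ C Q hQ H L0 e hg hnef p
  exact ⟨H.kah p.cp, H.sig p.cp, mem_hyp hQ hg hnef p⟩

end

end Crest.Agent.R281.SkM_474
end

-- ▼ part R281/NefRay6_326

/-!
# Row 281, NEF-RAY (G19), part 6 (helper326): the node `NefRayP` of RANK281 (902)

* `exists_mem`   : a marked end has members over the whole half plane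
* `exists_memN`  : rotated members `MemN`
* `nefRayP`      : **the node `NefRayP Alg`** (`EndIso` ==> `e` is nef)
-/

set_option autoImplicit false
set_option maxSynthPendingDepth 3
set_option linter.unusedSectionVars false

open Set Filter Topology
open scoped ContDiff

namespace Crest.Agent.R281.NefRay_326

open Crest.Agent.R281.HkR_835 Crest.Agent.R281.Ti_846 Crest.Agent.R281.Cdr_234
open Crest.Agent.R281.NefO_476 Crest.Agent.R281.Nef_252 Crest.Agent.R281.Dif_268
open Crest.Agent.R281.Alg_998 Crest.Agent.R281.RkD_902 Crest.Agent.R281.PL_713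

noncomputable section

section members

variable {V X : Type} [NormedAddCommGroup V] [NormedSpace ℝ V] [TopologicalSpace X]
  {C : RCh V X} {Q : F2 C →ₗ[ℝ] F2 C →ₗ[ℝ] ℝ} {F : Frm C Q} {A : F2 C}

/-- the segment from `τ` to `τ'`, as a smooth path over `ℝ` -/
def sgp (τ τ' : ℂ) (t : ℝ) : ℂ := τ + ((stp t : ℝ) : ℂ) * (τ' - τ)

theorem sgp_sm (τ τ' : ℂ) : ContDiff ℝ ∞ (sgp τ τ') :=
  contDiff_const.add ((Complex.ofRealCLM.contDiff.comp stp_contDiff).mul contDiff_const)

theorem sgp_im (τ τ' : ℂ) (t : ℝ) : (sgp τ τ' t).im = (1 - stp t) * τ.im + stp t * τ'.im := by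
  unfold sgp
  simp
  ring

theorem stp_mem (t : ℝ) : 0 ≤ stp t ∧ stp t ≤ 1 :=
  ⟨Real.smoothTransition.nonneg _, Real.smoothTransition.le_one _⟩

/-- **members over the whole half plane** -/
theorem exists_mem (K : Cusp F A) {τ τ' : ℂ} {H : HkT C} (hM : K.Mem τ H) (hτ' : K.Y < τ'.im) :
    ∃ H' : HkT C, K.Mem τ' H' := by
  have hY := K.mem_im _ _ hM
  obtain ⟨M, -, -, hmem⟩ := K.lift τ H hM (sgp τ τ') (sgp_sm τ τ') (fun t => by
      rw [sgp_im]
      obtain ⟨h0, h1⟩ := stp_mem t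
      have h2 : K.Y < min τ.im τ'.im := lt_min hY hτ'
      have h3 := mul_nonneg (sub_nonneg.2 h1) (sub_nonneg.2 (min_le_left τ.im τ'.im))
      have h4 := mul_nonneg h0 (sub_nonneg.2 (min_le_right τ.im τ'.im))
      nlinarith [h2, h3, h4]) (by simp [sgp, stp_zero (t := 0) (by norm_num)])
  refine ⟨M 1, ?_⟩
  have h := hmem 1
  have e : sgp τ τ' 1 = τ' := by simp [sgp, stp_one (t := 1) (by norm_num)]
  rwa [e] at h








end members

section node

variable {V X : Type} [NormedAddCommGroup V] [NormedSpace ℝ V] [TopologicalSpace X]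
  {C : RCh V X} {Q : F2 C →ₗ[ℝ] F2 C →ₗ[ℝ] ℝ} {H0 : HkT C} {e : F2 C}

/-- Kaehler classes of all heights at the chart member -/
theorem kcls_end {Alg : AlgT Q} {B : Box Q H0 e} (R : Road Alg B) {x : ℝ} (hE : EndIso R x)
    {y : ℝ} (hy : R.K.Y < y) : KCls (ofHk (B.H R.a (R.c x)) 0) (R.F.sre ⟨x, y⟩) := by
  obtain ⟨K, -, hK⟩ := hE
  obtain ⟨hH, g, k, hb, hg, hw⟩ := hK (Real.log (y - R.K.Y))
  rw [Real.exp_log (sub_pos.2 hy), add_sub_cancel] at hH
  obtain ⟨-, z, hz, h1, -⟩ := hH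
  have h2 : KCls (ofHk (K (Real.log (y - R.K.Y))) 1) ((K (Real.log (y - R.K.Y))).om 1) :=
    kcls_hk _ 1
  have h3 := (kcls_transport hb hg hw).1 h2
  exact (KCls.smul_iff hz).1 (h3.congr h1)

/-- nefness of `e` at the chart member -/
theorem nef_end [FiniteDimensional ℝ V] [CompactSpace X] {Alg : AlgT Q} {B : Box Q H0 e}
    (R : Road Alg B) {x : ℝ} (hE : EndIso R x) {om : F2 C}
    (ht : T11 (ofHk (B.H R.a (R.c x)) 0) om) (hp : Pos (ofHk (B.H R.a (R.c x)) 0) om) :
    NefC (ofHk (B.H R.a (R.c x)) 0) om e := by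
  have hN := R.F.hN
  set y : ℝ := R.K.Y + 1 with hy
  have hyY : R.K.Y < y := by linarith
  have hy0 : 0 < y := R.K.hY.trans hyY
  have h0 := kcls_end R hE hyY
  have h1 : NefC (ofHk (B.H R.a (R.c x)) 0) (R.F.sre ⟨x, y⟩) R.F.e := by
    refine nefC_of_freq h0 fun T => ?_
    set m : ℝ := 2 * |T| / R.F.N + 1 with hm
    have hm1 : 1 ≤ m := by
      have : 0 ≤ 2 * |T| / R.F.N := by positivity
      linarith
    refine ⟨R.F.N / 2 * ((y + m) ^ 2 - y ^ 2), ?_, ?_⟩
    · have e1 : (y + m) ^ 2 - y ^ 2 = 2 * y * m + m ^ 2 := by ring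
      have e2 : m ≤ (y + m) ^ 2 - y ^ 2 := by
        rw [e1]
        have : 0 ≤ 2 * y * m := by positivity
        nlinarith
      have e3 : |T| ≤ R.F.N / 2 * m := by
        have : R.F.N / 2 * m = |T| + R.F.N / 2 := by
          rw [hm]
          field_simp
        rw [this]
        linarith
      exact (le_abs_self T).trans (e3.trans (mul_le_mul_of_nonneg_left e2 (by positivity)))
    · rw [← sre_ray]
      exact kcls_end R hE (by linarith)
  obtain ⟨w, hw1, hw2, hw3⟩ := h0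
  have h2 : NefC (ofHk (B.H R.a (R.c x)) 0) w R.F.e := h1.congr (by
    have := ex_neg hw1
    rwa [neg_sub] at this) (by rw [sub_self]; exact ex_zero)
  have h3 := h2.indep hw2 ht hp
  rwa [R.Fe] at h3

end node

/-- **the node `NefRayP` of RANK281** -/
theorem nefRayP (Alg : AlgTT) : NefRayP Alg := by
  intro n X _ _ _ _ C Q _ H0 L0 e _ B R x _ hE
  exact nef_end R hE (T11_hk _ 0) (Pos_hk _ 0)

end

end Crest.Agent.R281.NefRay_326
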