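import Crest.Agent.R281.OpB6_849

/-!
# R281 (S0424), DIV 7, lemma OPEN, part O2 (helper849), file 7: holomorphic sections

* `H0S L` : the kernel of `∇` on the degree 0 part of `Sec (BN L)`; finite dimensional;
* `isHS_of_ker`, `ofS_mem` : `H0S L` = holomorphic sections of `L` (`IsHS L univ`);
* `exists_GG` : if `L` is globally generated there is `GG L N`;
* `open_final'` : step (b) + (d) for `Q : H0S L → Sec (BN L)`.
-/

set_option autoImplicit false
set_option linter.unusedSectionVars false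

open Set Filter Topology Complex Matrix
open scoped ContDiff Matrix ComplexConjugate Manifold ComplexOrder

namespace Crest.Agent.R281.OpB_849

open Crest.Agent.R273 Crest.Agent.R275 Crest.Agent.R275.Geo Crest.Agent.R275.Core144
open Crest.Agent.R275.GC293
open Crest.Agent.R275.OmT75 (dl)
open Crest.Agent.R273.Defs_333 Crest.Agent.R273.HM_333 Crest.Agent.R273.Kah_333
open Crest.Agent.R273.Vol_333
open Crest.Agent.R273.Fock_243 Crest.Agent.R273.Calc_243 Crest.Agent.R273.Bkn_243
open Crest.Agent.R273.LamN127 Crest.Agent.R273.DVec_733 Crest.Agent.R273.DMet_733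
open Crest.Agent.R273.DMetB_733 Crest.Agent.R273.StV_37
open Crest.Agent.R273.BKNa_37 Crest.Agent.R273.BKNb_37 Crest.Agent.R273.BKNc_37
open Crest.Agent.R273.BKNd_37 Crest.Agent.R273.BKNe_37

noncomputable section

variable {n : ℕ} {M : Type} [TopologicalSpace M] {A : Atl n M} {L : LB A}

/-- holomorphic sections inside `Sec (BN L)` -/
def H0S (L : LB A) : Submodule ℂ (Sec (BN L)) where
  carrier := {u | Geo.pqL (BN L) 0 u = u ∧ nabL (BN L) u = 0}
  add_mem' := by
    rintro u v ⟨h1, h2⟩ ⟨h3, h4⟩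
    exact ⟨by rw [map_add, h1, h3], by rw [map_add, h2, h4, add_zero]⟩
  zero_mem' := ⟨map_zero _, map_zero _⟩
  smul_mem' := by
    rintro c u ⟨h1, h2⟩
    exact ⟨by rw [map_smul, h1], by rw [map_smul, h2, smul_zero]⟩


/-- elements of the kernel are holomorphic sections -/
theorem isHS_of_ker {u : Sec (BN L)} (hu : nabL (BN L) u = 0) : IsHS L univ (sOf u) where
  hol i := by
    refine holAt_of_db ((sOf_isS u).sm i) fun x hx k => ?_
    have h1 := congrFun (qOf_nab u hx) k
    rw [hu] at h1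
    exact h1.symm
  off i x hx := by
    show oB (u.1 i x) ∅ = 0
    rw [u.2.2.1 i x hx]
    rfl
  tr i j x hx _ := (sOf_isS u).tr i j x hx

theorem isS_of_isHS {s : A.ι → M → ℂ} (hs : IsHS L univ s) : IsS L s where
  sm i := by
    have h1 : ContDiffOn ℝ ∞ (fun z => s i ((A.e i).symm z)) (A.e i).target := by
      have := (hs.hol i).contDiffOn isOpen_univ
      simpa using this
    exact h1
  tr i j x hx := hs.tr i j x hx (mem_univ x)

/-- holomorphic sections are in the kernel -/
theorem ofS_mem {s : A.ι → M → ℂ} (hs : IsHS L univ s) : ofS s (isS_of_isHS hs) ∈ H0S L := by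
  refine ⟨pqL_ofS _, ?_⟩
  rw [nab_ofS]
  refine sec_ext' fun i x hx => ?_
  rw [ofQ_val _ hx, oB_iB]
  have h1 : dbS s i x = 0 := by
    funext k
    exact (hs.hol i).db_zero isOpen_univ hx (mem_univ x) k
  rw [h1, e1_zero]
  rfl


section compact

variable [T2Space M] [CompactSpace M] [Finite A.ι] (P : Part A)

/-- elements of `H0S L` are in the range of every Hodge operator -/
theorem H_eq (T : HodgeH_803.HodgeOp P (BN L)) {u : Sec (BN L)} (hu : u ∈ H0S L) : T.H u = u := by
  have h1 := T.htpy u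
  have h2 : T.K u = 0 := by
    rw [← hu.1]
    exact T.Kpq0 u
  rw [h2, hu.2, map_zero, map_zero, add_zero, sub_eq_zero] at h1
  exact h1.symm

include P in
theorem H0S_fin : FiniteDimensional ℂ (H0S L) := by
  obtain ⟨T⟩ := HodgeH_803.exists_hodgeOp P (BN L) (nab_nab_BN L)
  have := T.smH.1
  have hle : H0S L ≤ LinearMap.range T.H := fun u hu => ⟨u, H_eq P T hu⟩
  exact Submodule.finiteDimensional_of_le hle


include P in
/-- **steps (b) and (d) of lemma OPEN**, for a map `Q` on all holomorphic sections -/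
theorem open_final' [SimplyConnectedSpace M] (hA : GoodA A) {K : Kah A}
    (hR : ∀ i, ∀ x ∈ (A.e i).source, cur (volK K) i x = 0) {N : ℕ} (G : GG L N)
    {Q : H0S L → Sec (BN L)} (hQ : ∀ u, Q u ∈ HarS K (HKL K (fsL G)))
    {V : Set M} (hV : IsOpen V) (hne : V.Nonempty)
    (hc : ∀ u v i, ∀ x ∈ (A.e i).source, x ∈ V →
      sOf u.1 i x • shp K (qOf (Q v)) i x = sOf v.1 i x • shp K (qOf (Q u)) i x) (u : H0S L) :
    Geo.pqL (BN L) 1 (Q u) = 0 := by
  have h1 := eq_zero_of_ricci (s := fun u : H0S L => sOf u.1) (X := fun u => shp K (qOf (Q u)))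
    hA P K hR (fun u => isHS_of_ker u.2.2) (fun i x hx => by
      obtain ⟨a, ha⟩ := G.ne i x hx
      refine ⟨⟨_, ofS_mem (G.hs a)⟩, ?_⟩
      rwa [sOf_ofS _ hx])
    (fun u => (qOf_isQ (Q u)).shp K) (fun u => (har_qOf hR (hQ u)).1) hV hne hc u
  rw [← ofQ_qOf]
  refine sec_ext' fun i x hx => ?_
  rw [ofQ_val _ hx, oB_iB, q_eq_zero K hx (h1 i x hx), e1_zero]
  rfl


end compact

end

end Crest.Agent.R281.OpB_849
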