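import Crest.Agent.R275.EDRWd_890
import Crest.Agent.R281.OpM2_693
import Crest.Agent.R281.PL4_713
import Crest.Agent.R281.HkR7_835

-- ▼ part R281/OpD1_569
section

/-!
# Row 281, OPEN' (M3) DICT-J (helper569), part 1: pointwise algebra

`J : Cn n →L[ℝ] Cn n`, `J² = -1`, near `i`.

* `Am J`, `Bm J` : `J v = A v + B v̄`;  `Sm J = 1 + i Ā`; `mu J = (i B S⁻¹)ᵀ`
* `wv J v k = v̄_k + i conj (J v)_k`
* `vec_mu`  : `v_a + i (J v)_a = ∑ k, mu J k a * wv J v k`
* `Ek J P k = P_k̄ + ∑ l, mu J k l P_l`;  `ext_mu` : `P v + i P (J v) = ∑ k, wv J v k • Ek J P k`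
* `Ek_zero` : `P ∘ J = i P  ⟹  Ek J P k = 0`;  `indep`
-/

set_option autoImplicit false
set_option linter.unusedSectionVars false
set_option linter.unusedSimpArgs false

open Set Filter Topology Complex
open scoped ContDiff Matrix ComplexConjugate

namespace Crest.Agent.R281.OpD_569

open Crest.Agent.R275 Crest.Agent.R275.Geo Crest.Agent.R275.EDR890

noncomputable section

variable {n : ℕ}

/-- the matrix of the complex linear part -/
def Am (J : Cn n →L[ℝ] Cn n) : Matrix (Fin n) (Fin n) ℂ := Matrix.of fun a b => wdL (false, b) J a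

/-- the matrix of the antilinear part -/
def Bm (J : Cn n →L[ℝ] Cn n) : Matrix (Fin n) (Fin n) ℂ := Matrix.of fun a b => wdL (true, b) J a

/-- `1 + i Ā` -/
def Sm (J : Cn n →L[ℝ] Cn n) : Matrix (Fin n) (Fin n) ℂ := 1 + I • (Am J).map conj

/-- the Beltrami matrix -/
def mu (J : Cn n →L[ℝ] Cn n) : Matrix (Fin n) (Fin n) ℂ := (I • (Bm J * (Sm J)⁻¹))ᵀ

/-- the `(0,1)`-components of `v + i J v` -/
def wv (J : Cn n →L[ℝ] Cn n) (v : Cn n) : Fin n → ℂ := fun k => conj (v k) + I * conj (J v k)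

/-- a vector of `Cn n` as a function -/
def fn (v : Cn n) : Fin n → ℂ := fun k => v k

def cfn (v : Cn n) : Fin n → ℂ := fun k => conj (v k)

theorem J_eq (J : Cn n →L[ℝ] Cn n) (v : Cn n) :
    fn (J v) = Am J *ᵥ fn v + Bm J *ᵥ cfn v := by
  funext a
  show (J v) a = _
  rw [apply_eq_sum J v, Fintype.sum_prod_type, Fintype.sum_bool]
  simp only [PiLp.add_apply, Pi.add_apply, Matrix.mulVec, dotProduct, Am, Bm, Matrix.of_apply, fn,
    cfn]
  have h : ∀ (f : Fin n → Cn n), (∑ b, f b) a = ∑ b, f b a := by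
    intro f
    rw [WithLp.ofLp_sum]
    simp
  rw [h, h, add_comm]
  congr 1
  · refine Finset.sum_congr rfl fun b _ => ?_
    simp [mul_comm]
  · refine Finset.sum_congr rfl fun b _ => ?_
    simp [mul_comm]

theorem cJ_eq (J : Cn n →L[ℝ] Cn n) (v : Cn n) :
    cfn (J v) = (Am J).map conj *ᵥ cfn v + (Bm J).map conj *ᵥ fn v := by
  funext a
  have h := congrArg conj (congrFun (J_eq J v) a)
  show conj ((J v) a) = _
  have h' : conj (fn (J v) a) = conj ((J v) a) := rfl
  rw [← h', h]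
  simp only [Pi.add_apply, Matrix.mulVec, dotProduct, map_add, map_sum, map_mul, Matrix.map_apply,
    fn, cfn, Complex.conj_conj]

/-- two complex matrices with `X v + Y v̄ = 0` for all `v` vanish -/
theorem mat_zero {X Y : Matrix (Fin n) (Fin n) ℂ}
    (h : ∀ v : Cn n, X *ᵥ fn v + Y *ᵥ cfn v = 0) : X = 0 ∧ Y = 0 := by
  classical
  have e1 : ∀ b, fn (EuclideanSpace.single b (1 : ℂ) : Cn n) = Pi.single b 1 := by
    intro b; funext a; simp [fn, PiLp.single_apply, Pi.single_apply]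
  have e2 : ∀ b, cfn (EuclideanSpace.single b (1 : ℂ) : Cn n) = Pi.single b 1 := by
    intro b; funext a
    by_cases hab : a = b <;> simp [cfn, PiLp.single_apply, Pi.single_apply, hab]
  have e3 : ∀ b, fn (EuclideanSpace.single b I : Cn n) = I • Pi.single b 1 := by
    intro b; funext a
    by_cases hab : a = b <;> simp [fn, PiLp.single_apply, Pi.single_apply, hab]
  have e4 : ∀ b, cfn (EuclideanSpace.single b I : Cn n) = (-I) • Pi.single b 1 := by
    intro b; funext a
    by_cases hab : a = b <;> simp [cfn, PiLp.single_apply, Pi.single_apply, hab]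
  have hc : ∀ b, X.col b = 0 ∧ Y.col b = 0 := by
    intro b
    have h1 := h (EuclideanSpace.single b 1)
    have h2 := h (EuclideanSpace.single b I)
    rw [e1, e2, Matrix.mulVec_single_one, Matrix.mulVec_single_one] at h1
    rw [e3, e4, Matrix.mulVec_smul, Matrix.mulVec_smul, Matrix.mulVec_single_one,
      Matrix.mulVec_single_one] at h2
    have h3 : X.col b - Y.col b = 0 := by
      have : I • (X.col b - Y.col b) = 0 := by
        rw [← h2]
        module
      exact (smul_eq_zero.1 this).resolve_left I_ne_zero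
    have h4 : X.col b = Y.col b := sub_eq_zero.1 h3
    rw [h4] at h1 ⊢
    have h5 : (2 : ℂ) • Y.col b = 0 := by rw [two_smul]; exact h1
    have h6 := (smul_eq_zero.1 h5).resolve_left two_ne_zero
    exact ⟨h6, h6⟩
  constructor
  · ext a b
    exact congrFun (hc b).1 a
  · ext a b
    exact congrFun (hc b).2 a

section alg

variable {J : Cn n →L[ℝ] Cn n} (hJ : ∀ v, J (J v) = -v)
include hJ

theorem J_rel : Am J * Am J + Bm J * (Bm J).map conj = -1 ∧
    Am J * Bm J + Bm J * (Am J).map conj = 0 := by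
  have h : ∀ v : Cn n, (Am J * Am J + Bm J * (Bm J).map conj + 1) *ᵥ fn v +
      (Am J * Bm J + Bm J * (Am J).map conj) *ᵥ cfn v = 0 := by
    intro v
    have h1 := J_eq J (J v)
    rw [hJ v, J_eq J v, cJ_eq J v] at h1
    have h2 : fn (-v) = -fn v := by funext a; simp [fn]
    rw [h2] at h1
    simp only [Matrix.mulVec_add, Matrix.mulVec_mulVec] at h1
    simp only [Matrix.add_mulVec, Matrix.one_mulVec]
    rw [← sub_eq_zero] at h1
    rw [← neg_eq_zero]
    rw [← h1]
    abel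
  obtain ⟨h1, h2⟩ := mat_zero h
  exact ⟨eq_neg_of_add_eq_zero_left h1, h2⟩

/-- `(1 - i A) B = B S` -/
theorem TB : (1 - I • Am J) * Bm J = Bm J * Sm J := by
  have h := (J_rel hJ).2
  unfold Sm
  rw [Matrix.sub_mul, Matrix.mul_add, Matrix.one_mul, Matrix.mul_one, Matrix.smul_mul,
    Matrix.mul_smul, sub_eq_add_neg, add_right_inj, ← smul_neg]
  rw [eq_neg_of_add_eq_zero_right h]

theorem Sm_conj : (Sm J).map conj = 1 - I • Am J := by
  ext a b
  by_cases hab : a = b
  · subst hab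
    simp [Sm, sub_eq_add_neg]
  · simp [Sm, hab]

theorem T_unit (hS : IsUnit (Sm J).det) : IsUnit (1 - I • Am J).det := by
  rw [← Sm_conj hJ]
  have : ((Sm J).map conj).det = conj (Sm J).det := (RingHom.map_det (starRingEnd ℂ) (Sm J)).symm
  rw [this]
  exact hS.map (starRingEnd ℂ)

/-- **the Beltrami relation** -/
theorem vec_mu (hS : IsUnit (Sm J).det) (v : Cn n) (a : Fin n) :
    v a + I * J v a = ∑ k, mu J k a * wv J v k := by
  have hT := T_unit hJ hS
  have hw : wv J v = Sm J *ᵥ cfn v + I • ((Bm J).map conj *ᵥ fn v) := by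
    funext k
    have h := congrFun (cJ_eq J v) k
    have h1 : conj ((J v) k) = cfn (J v) k := rfl
    unfold wv
    rw [h1, h]
    simp only [Sm, Matrix.add_mulVec, Matrix.one_mulVec, Matrix.smul_mulVec, Pi.add_apply,
      Pi.smul_apply, smul_eq_mul]
    have h2 : conj (v k) = cfn v k := rfl
    rw [h2]
    ring
  have key : (1 - I • Am J) *ᵥ (fn v + I • fn (J v)) = I • (Bm J *ᵥ wv J v) := by
    rw [hw, J_eq J v]
    have r1 := (J_rel hJ).1
    have e1 : (1 - I • Am J) *ᵥ (fn v + I • (Am J *ᵥ fn v + Bm J *ᵥ cfn v)) =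
        (1 + Am J * Am J) *ᵥ fn v + I • (((1 - I • Am J) * Bm J) *ᵥ cfn v) := by
      simp only [Matrix.sub_mulVec, Matrix.add_mulVec, Matrix.mulVec_add, Matrix.mulVec_smul,
        Matrix.smul_mulVec, Matrix.one_mulVec, ← Matrix.mulVec_mulVec, smul_add, smul_sub, smul_smul,
        Complex.I_mul_I]
      module
    rw [e1, TB hJ]
    have e2 : (1 + Am J * Am J) = -(Bm J * (Bm J).map conj) := by
      have : Am J * Am J = -1 - Bm J * (Bm J).map conj := eq_sub_of_add_eq r1
      rw [this]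
      abel
    rw [e2]
    simp only [Matrix.neg_mulVec, Matrix.mulVec_add, Matrix.mulVec_smul, ← Matrix.mulVec_mulVec,
      smul_add, smul_smul, Complex.I_mul_I]
    module
  have key2 : fn v + I • fn (J v) = (I • (Bm J * (Sm J)⁻¹)) *ᵥ wv J v := by
    have h1 : (1 - I • Am J)⁻¹ *ᵥ ((1 - I • Am J) *ᵥ (fn v + I • fn (J v))) =
        fn v + I • fn (J v) := by
      rw [Matrix.mulVec_mulVec, Matrix.nonsing_inv_mul _ hT, Matrix.one_mulVec]
    rw [← h1, key]
    have h2 : (1 - I • Am J)⁻¹ * Bm J = Bm J * (Sm J)⁻¹ := by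
      have h3 : (1 - I • Am J)⁻¹ * ((1 - I • Am J) * Bm J) * (Sm J)⁻¹ =
          (1 - I • Am J)⁻¹ * (Bm J * Sm J) * (Sm J)⁻¹ := by rw [TB hJ]
      rw [← Matrix.mul_assoc, Matrix.nonsing_inv_mul _ hT, Matrix.one_mul, Matrix.mul_assoc,
        Matrix.mul_assoc (Bm J), Matrix.mul_nonsing_inv _ hS, Matrix.mul_one] at h3
      exact h3.symm
    rw [Matrix.mulVec_smul, Matrix.mulVec_mulVec, h2, Matrix.smul_mulVec]
  have h3 := congrFun key2 a
  have h4 : (fn v + I • fn (J v)) a = v a + I * J v a := rfl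
  rw [h4] at h3
  rw [h3]
  show ∑ k, (I • (Bm J * (Sm J)⁻¹)) a k * wv J v k = _
  rfl

end alg

/-! ### extension of real linear maps -/

section ext

variable {W : Type*} [NormedAddCommGroup W] [NormedSpace ℂ W]

/-- the value of the complex linear extension of `P` on `E_k = ∂̄_k + ∑ mu_kl ∂_l` -/
def Ek (J : Cn n →L[ℝ] Cn n) (P : Cn n →L[ℝ] W) (k : Fin n) : W :=
  wdL (true, k) P + ∑ l, mu J k l • wdL (false, l) P

theorem P_eq (P : Cn n →L[ℝ] W) (v : Cn n) :
    P v = (∑ k, conj (v k) • wdL (true, k) P) + ∑ l, v l • wdL (false, l) P := by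
  rw [apply_eq_sum P v, Fintype.sum_prod_type, Fintype.sum_bool]
  rfl

theorem ext_mu {J : Cn n →L[ℝ] Cn n} (hJ : ∀ v, J (J v) = -v) (hS : IsUnit (Sm J).det)
    (P : Cn n →L[ℝ] W) (v : Cn n) :
    P v + I • P (J v) = ∑ k, wv J v k • Ek J P k := by
  rw [P_eq P v, P_eq P (J v)]
  have h1 : (∑ k, conj (v k) • wdL (true, k) P) + ∑ l, v l • wdL (false, l) P +
      I • ((∑ k, conj ((J v) k) • wdL (true, k) P) + ∑ l, (J v) l • wdL (false, l) P) =
      (∑ k, wv J v k • wdL (true, k) P) + ∑ l, (v l + I * J v l) • wdL (false, l) P := by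
    simp only [wv, add_smul, mul_smul, Finset.sum_add_distrib, Finset.smul_sum, smul_add]
    abel
  rw [h1]
  simp only [Ek, smul_add, Finset.sum_add_distrib]
  congr 1
  simp only [Finset.smul_sum, smul_smul]
  rw [Finset.sum_comm]
  refine Finset.sum_congr rfl fun l _ => ?_
  rw [vec_mu hJ hS v l, ← Finset.sum_smul]
  congr 1
  exact Finset.sum_congr rfl fun k _ => by ring

/-- `w (e_b) + i w (i e_b) = 2 S e_b` -/
theorem wv_pol (J : Cn n →L[ℝ] Cn n) (b k : Fin n) :
    wv J (EuclideanSpace.single b 1) k + I * wv J (I • EuclideanSpace.single b 1) k =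
      2 * Sm J k b := by
  classical
  have hI : (EuclideanSpace.single b I : Cn n) = I • EuclideanSpace.single b (1 : ℂ) := by
    ext c
    simp [PiLp.single_apply]
  have h1 : (2 : ℂ) * wdL (false, b) J k =
      J (EuclideanSpace.single b 1) k - I * J (I • EuclideanSpace.single b 1) k := by
    unfold wdL
    rw [hI]
    simp only [cI_false, PiLp.smul_apply, PiLp.add_apply, smul_eq_mul]
    ring
  have h2 := congrArg conj h1
  simp only [map_mul, map_sub, Complex.conj_I] at h2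
  unfold wv
  have h3 : Sm J k b = (if k = b then 1 else 0) + I * conj (wdL (false, b) J k) := by
    simp [Sm, Am, Matrix.one_apply]
  rw [h3]
  have h4 : conj (2 : ℂ) = 2 := Complex.conj_ofNat 2
  rw [h4] at h2
  have h5 : conj ((EuclideanSpace.single b (1 : ℂ) : Cn n) k) = if k = b then 1 else 0 := by
    by_cases hk : k = b <;> simp [hk]
  have h6 : conj ((I • EuclideanSpace.single b (1 : ℂ) : Cn n) k) =
      -I * (if k = b then 1 else 0) := by
    by_cases hk : k = b <;> simp [hk]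
  rw [h5, h6]
  have hII : I * I = -1 := Complex.I_mul_I
  linear_combination (-I) * h2 - (if k = b then (1 : ℂ) else 0) * hII

/-- **`P ∘ J = i P` implies `P (E_k) = 0`** -/
theorem Ek_zero {J : Cn n →L[ℝ] Cn n} (hJ : ∀ v, J (J v) = -v) (hS : IsUnit (Sm J).det)
    {P : Cn n →L[ℝ] W} (hP : ∀ v, P v + I • P (J v) = 0) (k : Fin n) : Ek J P k = 0 := by
  have h1 : ∀ b, ∑ k, Sm J k b • Ek J P k = 0 := by
    intro b
    have a1 := ext_mu hJ hS P (EuclideanSpace.single b 1)
    have a2 := ext_mu hJ hS P (I • EuclideanSpace.single b 1)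
    rw [hP] at a1 a2
    have a3 : ∑ k, (2 * Sm J k b) • Ek J P k = 0 := by
      simp_rw [← wv_pol J b, add_smul, Finset.sum_add_distrib, mul_smul, ← Finset.smul_sum]
      rw [← a1, ← a2]
      simp
    simp_rw [mul_smul, ← Finset.smul_sum] at a3
    exact (smul_eq_zero.1 a3).resolve_left two_ne_zero
  have h2 : ∀ l, Ek J P l = ∑ b, (Sm J)⁻¹ b l • ∑ k, Sm J k b • Ek J P k := by
    intro l
    simp_rw [Finset.smul_sum, smul_smul]
    rw [Finset.sum_comm]
    simp_rw [← Finset.sum_smul]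
    have h3 : ∀ k, ∑ b, (Sm J)⁻¹ b l * Sm J k b = (1 : Matrix (Fin n) (Fin n) ℂ) k l := by
      intro k
      rw [← Matrix.mul_nonsing_inv _ hS, Matrix.mul_apply]
      exact Finset.sum_congr rfl fun b _ => mul_comm _ _
    simp_rw [h3]
    rw [Finset.sum_eq_single l]
    · simp
    · intro b _ hb
      simp [hb]
    · simp
  rw [h2 k]
  exact Finset.sum_eq_zero fun b _ => by rw [h1 b, smul_zero]

/-- the `(1,0)`-components of an injective `P` with `P ∘ J = i P` are linearly independent -/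
theorem indep {J : Cn n →L[ℝ] Cn n} (hJ : ∀ v, J (J v) = -v) (hS : IsUnit (Sm J).det)
    {P : Cn n →L[ℝ] Cn n} (hP : ∀ v, P v + I • P (J v) = 0) (hi : Function.Injective P)
    {c : Fin n → ℂ} (hc : ∑ l, c l • wdL (false, l) P = 0) : c = 0 := by
  classical
  have hsurj : Function.Surjective P := by
    have : Function.Injective (P : Cn n →ₗ[ℝ] Cn n) := hi
    exact LinearMap.surjective_of_injective this
  have hspan : (⊤ : Submodule ℂ (Cn n)) ≤ Submodule.span ℂ (Set.range fun l => wdL (false, l) P) := by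
    intro y _
    obtain ⟨v, rfl⟩ := hsurj y
    have hk : ∀ k, wdL (true, k) P = -∑ l, mu J k l • wdL (false, l) P := fun k =>
      eq_neg_of_add_eq_zero_left (Ek_zero hJ hS hP k)
    rw [P_eq P v]
    refine Submodule.add_mem _ (Submodule.sum_mem _ fun k _ => Submodule.smul_mem _ _ ?_)
      (Submodule.sum_mem _ fun l _ => Submodule.smul_mem _ _ (Submodule.subset_span ⟨l, rfl⟩))
    rw [hk]
    exact Submodule.neg_mem _ (Submodule.sum_mem _ fun l _ =>
      Submodule.smul_mem _ _ (Submodule.subset_span ⟨l, rfl⟩))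
  have hli : LinearIndependent ℂ fun l => wdL (false, l) P := by
    refine linearIndependent_of_top_le_span_of_card_eq_finrank hspan ?_
    simp
  exact funext fun l => Fintype.linearIndependent_iff.1 hli c hc l

end ext

end

end Crest.Agent.R281.OpD_569
end

-- ▼ part R281/OpD2_569
section

/-!
# Row 281, OPEN' (M3) DICT-J (helper569), part 2: the operators `E_k` and their commutators

`m : Cn n → Fin n → Fin n → ℂ` a field of Beltrami coefficients,
`Ed m k f z = ∂f/∂z̄_k + ∑ l, m z k l ∂f/∂z_l`.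

* `comm`    : `[E_k, E_l] f = ∑ j, (E_k m_lj - E_l m_kj) ∂_j f`
* `integ`   : if `ψ` is a local chart with `Dψ ∘ J = i Dψ` then `E_k m_lj = E_l m_kj`, `m = mu J`
* `integ_c` : if `e ≠ 0` solves `E_k e + c_k e = 0` then `E_k c_l = E_l c_k`
* `Ed_eq`   : `Ed (mu J) k f z = Ek (J z) (fderiv ℝ f z) k`
* `sol_iff` : `df(v) + θ(v) f + i (df(Jv) + θ(Jv) f) = ∑ k, w_k (E_k f + c_k f)`
-/

set_option autoImplicit false
set_option linter.unusedSectionVars false
set_option linter.unusedSimpArgs false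

open Set Filter Topology Complex
open scoped ContDiff Matrix ComplexConjugate

namespace Crest.Agent.R281.OpD_569

open Crest.Agent.R275 Crest.Agent.R275.Geo Crest.Agent.R275.EDR890

noncomputable section

variable {n : ℕ} {W : Type*} [NormedAddCommGroup W] [NormedSpace ℂ W]

/-- `E_k f = ∂̄_k f + ∑ m_kl ∂_l f` -/
def Ed (m : Cn n → Fin n → Fin n → ℂ) (k : Fin n) (f : Cn n → W) (z : Cn n) : W :=
  wd (true, k) f z + ∑ l, m z k l • wd (false, l) f z

theorem Ed_congr {m : Cn n → Fin n → Fin n → ℂ} {k : Fin n} {f g : Cn n → W} {z : Cn n}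
    (h : f =ᶠ[𝓝 z] g) : Ed m k f z = Ed m k g z := by
  unfold Ed
  rw [wd_congr h]
  simp_rw [wd_congr h]


theorem Ed_mul {m : Cn n → Fin n → Fin n → ℂ} {k : Fin n} {f g : Cn n → ℂ} {z : Cn n}
    (hf : DifferentiableAt ℝ f z) (hg : DifferentiableAt ℝ g z) :
    Ed m k (fun y => f y * g y) z = Ed m k f z * g z + f z * Ed m k g z := by
  unfold Ed
  rw [wd_mul hf hg]
  simp_rw [wd_mul hf hg]
  simp only [smul_eq_mul, mul_add, Finset.sum_add_distrib, add_mul, Finset.sum_mul, Finset.mul_sum]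
  have h1 : ∀ l, m z k l * (wd (false, l) f z * g z) = m z k l * wd (false, l) f z * g z :=
    fun l => by ring
  have h2 : ∀ l, m z k l * (f z * wd (false, l) g z) = f z * (m z k l * wd (false, l) g z) :=
    fun l => by ring
  simp_rw [h1, h2]
  ring

theorem Ed_const {m : Cn n → Fin n → Fin n → ℂ} {k : Fin n} (c : W) (z : Cn n) :
    Ed m k (fun _ : Cn n => c) z = 0 := by
  unfold Ed
  simp [wd_const]

theorem Ed_neg {m : Cn n → Fin n → Fin n → ℂ} {k : Fin n} {f : Cn n → ℂ} {z : Cn n}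
    (hf : DifferentiableAt ℝ f z) : Ed m k (fun y => -f y) z = -Ed m k f z := by
  have h := Ed_mul (m := m) (k := k) (f := fun _ => (-1 : ℂ)) (differentiableAt_const _) hf
  rw [Ed_const] at h
  simpa using h


/-- the commutator -/
theorem comm {m : Cn n → Fin n → Fin n → ℂ} {z : Cn n}
    (hm : ∀ k l, ContDiffAt ℝ ∞ (fun y => m y k l) z) {f : Cn n → W} (hf : ContDiffAt ℝ ∞ f z)
    (k l : Fin n) :
    Ed m k (Ed m l f) z - Ed m l (Ed m k f) z =
      ∑ j, (Ed m k (fun y => m y l j) z - Ed m l (fun y => m y k j) z) • wd (false, j) f z := by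
  have hd : ∀ s, DifferentiableAt ℝ (wd s f) z := fun s =>
    (contDiffAt_wd hf s).differentiableAt (by simp)
  have hmd : ∀ a b, DifferentiableAt ℝ (fun y => m y a b) z := fun a b =>
    (hm a b).differentiableAt (by simp)
  have e1 : ∀ (s : WI n) (b : Fin n), wd s (Ed m b f) z =
      wd s (wd (true, b) f) z + ∑ j, (wd s (fun y => m y b j) z • wd (false, j) f z +
        m z b j • wd s (wd (false, j) f) z) := by
    intro s b
    unfold Ed
    have h1 : ∀ j, DifferentiableAt ℝ (fun y => m y b j • wd (false, j) f y) z := fun j =>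
      (hmd b j).smul (hd _)
    rw [wd_add (hd _) (DifferentiableAt.fun_sum fun j _ => h1 j), wd_sum _ fun j _ => h1 j]
    congr 1
    refine Finset.sum_congr rfl fun j _ => ?_
    rw [wd_smul (hmd b j) (hd _)]
  have e2 : ∀ a b : Fin n, Ed m a (Ed m b f) z =
      (wd (true, a) (wd (true, b) f) z + ∑ j, m z b j • wd (true, a) (wd (false, j) f) z +
        ∑ i, m z a i • wd (false, i) (wd (true, b) f) z +
        ∑ i, ∑ j, (m z a i * m z b j) • wd (false, i) (wd (false, j) f) z) +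
        ∑ j, Ed m a (fun y => m y b j) z • wd (false, j) f z := by
    intro a b
    have h1 : Ed m a (Ed m b f) z = wd (true, a) (Ed m b f) z +
      ∑ i, m z a i • wd (false, i) (Ed m b f) z := rfl
    rw [h1, e1]
    simp_rw [e1]
    have h2 : ∀ j, Ed m a (fun y => m y b j) z = wd (true, a) (fun y => m y b j) z +
      ∑ i, m z a i • wd (false, i) (fun y => m y b j) z := fun j => rfl
    simp_rw [h2]
    simp only [Finset.sum_add_distrib, smul_add, add_smul, Finset.smul_sum, smul_smul,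
      Finset.sum_smul, smul_eq_mul]
    have h3 : ∑ i, ∑ j, (m z a i * wd (false, i) (fun y => m y b j) z) • wd (false, j) f z =
        ∑ j, ∑ i, (m z a i * wd (false, i) (fun y => m y b j) z) • wd (false, j) f z :=
      Finset.sum_comm
    rw [h3]
    abel
  rw [e2 k l, e2 l k]
  have s1 : wd (true, k) (wd (true, l) f) z = wd (true, l) (wd (true, k) f) z := wd_comm hf _ _
  have s2 : ∀ a b : Fin n, wd (false, a) (wd (true, b) f) z = wd (true, b) (wd (false, a) f) z :=
    fun a b => wd_comm hf _ _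
  have s3 : ∑ i, ∑ j, (m z k i * m z l j) • wd (false, i) (wd (false, j) f) z =
      ∑ i, ∑ j, (m z l i * m z k j) • wd (false, i) (wd (false, j) f) z := by
    rw [Finset.sum_comm]
    refine Finset.sum_congr rfl fun j _ => Finset.sum_congr rfl fun i _ => ?_
    rw [wd_comm hf, mul_comm]
  rw [s1, s3]
  simp_rw [s2, sub_smul, Finset.sum_sub_distrib]
  abel

/-- **integrability from a chart** -/
theorem integ {J : Cn n → Cn n →L[ℝ] Cn n} {z : Cn n}
    (hJ : ∀ᶠ y in 𝓝 z, ∀ v, J y (J y v) = -v) (hS : ∀ᶠ y in 𝓝 z, IsUnit (Sm (J y)).det)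
    (hm : ∀ k l, ContDiffAt ℝ ∞ (fun y => mu (J y) k l) z)
    {ψ : Cn n → Cn n} (hψ : ContDiffAt ℝ ∞ ψ z)
    (hJψ : ∀ᶠ y in 𝓝 z, ∀ v, fderiv ℝ ψ y (J y v) = I • fderiv ℝ ψ y v)
    (hi : Function.Injective (fderiv ℝ ψ z)) (k l j : Fin n) :
    Ed (fun y => mu (J y)) k (fun y => mu (J y) l j) z =
      Ed (fun y => mu (J y)) l (fun y => mu (J y) k j) z := by
  set m : Cn n → Fin n → Fin n → ℂ := fun y => mu (J y) with hmdef
  have hE : ∀ b, Ed m b ψ =ᶠ[𝓝 z] fun _ => (0 : Cn n) := by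
    intro b
    filter_upwards [hJ, hS, hJψ] with y h1 h2 h3
    have h4 : ∀ v, fderiv ℝ ψ y v + I • fderiv ℝ ψ y (J y v) = 0 := by
      intro v
      rw [h3 v, smul_smul, Complex.I_mul_I]
      module
    exact Ek_zero h1 h2 h4 b
  have h1 := comm (m := m) (z := z) hm hψ k l
  have h2 : ∀ a b, Ed m a (Ed m b ψ) z = 0 := fun a b => by
    rw [Ed_congr (hE b), Ed_const]
  rw [h2, h2, sub_zero] at h1
  have h3 := indep (J := J z) (hJ.self_of_nhds) hS.self_of_nhds (P := fderiv ℝ ψ z) (fun v => by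
    rw [hJψ.self_of_nhds v, smul_smul, Complex.I_mul_I]
    module) hi h1.symm
  exact sub_eq_zero.1 (congrFun h3 j)

/-- **integrability of the connection from a frame** -/
theorem integ_c {m : Cn n → Fin n → Fin n → ℂ} {z : Cn n}
    (hm : ∀ k l, ContDiffAt ℝ ∞ (fun y => m y k l) z)
    (hint : ∀ k l j, Ed m k (fun y => m y l j) z = Ed m l (fun y => m y k j) z)
    {c : Cn n → Fin n → ℂ} (hc : ∀ k, ContDiffAt ℝ ∞ (fun y => c y k) z)
    {e : Cn n → ℂ} (he : ContDiffAt ℝ ∞ e z) (he0 : e z ≠ 0)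
    (hE : ∀ᶠ y in 𝓝 z, ∀ k, Ed m k e y + c y k * e y = 0) (k l : Fin n) :
    Ed m k (fun y => c y l) z = Ed m l (fun y => c y k) z := by
  have h1 := comm (m := m) (z := z) hm he k l
  have h0 : ∑ j, (Ed m k (fun y => m y l j) z - Ed m l (fun y => m y k j) z) •
      wd (false, j) e z = 0 :=
    Finset.sum_eq_zero fun j _ => by rw [hint k l j, sub_self, zero_smul]
  rw [h0] at h1
  have h2 : ∀ b, Ed m b e =ᶠ[𝓝 z] fun y => -(c y b * e y) := fun b =>
    hE.mono fun y hy => eq_neg_of_add_eq_zero_left (hy b)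
  have hed : DifferentiableAt ℝ e z := he.differentiableAt (by simp)
  have hcd : ∀ b, DifferentiableAt ℝ (fun y => c y b) z := fun b =>
    (hc b).differentiableAt (by simp)
  have h3 : ∀ a b, Ed m a (Ed m b e) z = -(Ed m a (fun y => c y b) z * e z - c z b * (c z a * e z)) := by
    intro a b
    have hce : DifferentiableAt ℝ (fun y => c y b * e y) z := (hcd b).mul hed
    rw [Ed_congr (h2 b), Ed_neg hce, Ed_mul (hcd b) hed, (h2 a).self_of_nhds]
    ring
  rw [h3, h3] at h1
  have h4 : (Ed m k (fun y => c y l) z - Ed m l (fun y => c y k) z) * e z = 0 := by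
    linear_combination -h1
  exact sub_eq_zero.1 ((mul_eq_zero.1 h4).resolve_right he0)

theorem Ed_eq (J : Cn n → Cn n →L[ℝ] Cn n) (k : Fin n) (f : Cn n → W) (z : Cn n) :
    Ed (fun y => mu (J y)) k f z = Ek (J z) (fderiv ℝ f z) k := rfl

theorem Ek_add (J : Cn n →L[ℝ] Cn n) (P Q : Cn n →L[ℝ] W) (k : Fin n) :
    Ek J (P + Q) k = Ek J P k + Ek J Q k := by
  unfold Ek
  simp only [wdL_add, smul_add, Finset.sum_add_distrib]
  abel

theorem Ek_smul (J : Cn n →L[ℝ] Cn n) (c : ℂ) (P : Cn n →L[ℝ] W) (k : Fin n) :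
    Ek J (c • P) k = c • Ek J P k := by
  unfold Ek
  simp only [wdL_smul, smul_add, Finset.smul_sum]
  congr 1
  exact Finset.sum_congr rfl fun l _ => smul_comm _ _ _

/-- **the equation `∇u + i ∇u ∘ J` in terms of `E_k u + c_k u`** -/
theorem sol_eq {J : Cn n → Cn n →L[ℝ] Cn n} {z : Cn n} (hJ : ∀ v, J z (J z v) = -v)
    (hS : IsUnit (Sm (J z)).det) (θ : Cn n →L[ℝ] ℂ) (f : Cn n → ℂ) (v : Cn n) :
    fderiv ℝ f z v + θ v * f z + I * (fderiv ℝ f z (J z v) + θ (J z v) * f z) =
      ∑ k, wv (J z) v k * (Ed (fun y => mu (J y)) k f z + Ek (J z) θ k * f z) := by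
  have h := ext_mu hJ hS (fderiv ℝ f z + f z • θ) v
  simp only [_root_.add_apply, _root_.smul_apply, smul_eq_mul] at h
  have h1 : fderiv ℝ f z v + θ v * f z + I * (fderiv ℝ f z (J z v) + θ (J z v) * f z) =
      fderiv ℝ f z v + f z * θ v + I * (fderiv ℝ f z (J z v) + f z * θ (J z v)) := by ring
  rw [h1, h]
  refine Finset.sum_congr rfl fun k _ => ?_
  rw [Ek_add, Ek_smul, Ed_eq, smul_eq_mul, mul_comm (f z)]

end

end Crest.Agent.R281.OpD_569
end

-- ▼ part R281/OpD3_569
section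

/-!
# Row 281, OPEN' (M3) DICT-J (helper569), part 3: change of charts, smoothness

* `wv_inj`   : the coefficients of `∑ k, wv J v k • X k` are determined
* `Ek_push`, `mu_push`, `det_push` : complex linear `T` with `T ∘ J₁ = J₂ ∘ T`
* `contDiffAt_mu`, `contDiffAt_Ek`, `continuousAt_Sm` : joint smoothness in any parameter
* `mu_I`, `Sm_I`, `Ek_I` : `J = i`
-/

set_option autoImplicit false
set_option linter.unusedSectionVars false
set_option linter.unusedSimpArgs false

open Set Filter Topology Complex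
open scoped ContDiff Matrix ComplexConjugate

namespace Crest.Agent.R281.OpD_569

open Crest.Agent.R275 Crest.Agent.R275.Geo Crest.Agent.R275.EDR890

noncomputable section

variable {n : ℕ} {W : Type*} [NormedAddCommGroup W] [NormedSpace ℂ W]

/-- the coefficients are determined -/
theorem wv_inj {J : Cn n →L[ℝ] Cn n} (hS : IsUnit (Sm J).det) {X : Fin n → W}
    (h : ∀ v, ∑ k, wv J v k • X k = 0) : X = 0 := by
  have h1 : ∀ b, ∑ k, Sm J k b • X k = 0 := by
    intro b
    have a1 := h (EuclideanSpace.single b 1)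
    have a2 := h (I • EuclideanSpace.single b 1)
    have a3 : ∑ k, (2 * Sm J k b) • X k = 0 := by
      simp_rw [← wv_pol J b, add_smul, Finset.sum_add_distrib, mul_smul, ← Finset.smul_sum]
      rw [a1, a2]
      simp
    simp_rw [mul_smul, ← Finset.smul_sum] at a3
    exact (smul_eq_zero.1 a3).resolve_left two_ne_zero
  have h2 : ∀ l, X l = ∑ b, (Sm J)⁻¹ b l • ∑ k, Sm J k b • X k := by
    intro l
    simp_rw [Finset.smul_sum, smul_smul]
    rw [Finset.sum_comm]
    simp_rw [← Finset.sum_smul]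
    have h3 : ∀ k, ∑ b, (Sm J)⁻¹ b l * Sm J k b = (1 : Matrix (Fin n) (Fin n) ℂ) k l := by
      intro k
      rw [← Matrix.mul_nonsing_inv _ hS, Matrix.mul_apply]
      exact Finset.sum_congr rfl fun b _ => mul_comm _ _
    simp_rw [h3]
    rw [Finset.sum_eq_single l]
    · simp
    · intro b _ hb
      simp [hb]
    · simp
  funext k
  rw [h2 k]
  exact Finset.sum_eq_zero fun b _ => by rw [h1 b, smul_zero]

/-- the components of a complex linear map -/
theorem clin_apply (T : Cn n →L[ℂ] Cn n) (v : Cn n) (b : Fin n) :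
    T v b = ∑ k, v k * T (EuclideanSpace.single k 1) b := by
  have h2 : T v = ∑ a, v a • T (EuclideanSpace.single a 1) := by
    conv_lhs => rw [← (EuclideanSpace.basisFun (Fin n) ℂ).sum_repr v]
    simp
  rw [h2, WithLp.ofLp_sum]
  simp

theorem wv_push {J1 J2 : Cn n →L[ℝ] Cn n} {T : Cn n →L[ℂ] Cn n}
    (hT : ∀ v, T (J1 v) = J2 (T v)) (v : Cn n) (b : Fin n) :
    wv J2 (T v) b = ∑ k, conj (T (EuclideanSpace.single k 1) b) * wv J1 v k := by
  unfold wv
  rw [← hT v, clin_apply T v b, clin_apply T (J1 v) b]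
  simp only [map_sum, map_mul, Finset.mul_sum, ← Finset.sum_add_distrib]
  exact Finset.sum_congr rfl fun k _ => by ring

/-- **the frames `E_k` under a complex linear change of coordinates** -/
theorem Ek_push {J1 J2 : Cn n →L[ℝ] Cn n} (h1 : ∀ v, J1 (J1 v) = -v) (s1 : IsUnit (Sm J1).det)
    (h2 : ∀ v, J2 (J2 v) = -v) (s2 : IsUnit (Sm J2).det) {T : Cn n →L[ℂ] Cn n}
    (hT : ∀ v, T (J1 v) = J2 (T v)) (P : Cn n →L[ℝ] W) (k : Fin n) :
    Ek J1 (P.comp (T.restrictScalars ℝ)) k =
      ∑ b, conj (T (EuclideanSpace.single k 1) b) • Ek J2 P b := by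
  have h : (fun k => Ek J1 (P.comp (T.restrictScalars ℝ)) k -
      ∑ b, conj (T (EuclideanSpace.single k 1) b) • Ek J2 P b) = 0 := by
    refine wv_inj s1 fun v => ?_
    simp only [smul_sub, Finset.sum_sub_distrib]
    rw [← ext_mu h1 s1]
    simp only [ContinuousLinearMap.comp_apply, ContinuousLinearMap.coe_restrictScalars']
    rw [hT v, ext_mu h2 s2, sub_eq_zero]
    simp_rw [Finset.smul_sum]
    rw [Finset.sum_comm]
    refine Finset.sum_congr rfl fun b _ => ?_
    rw [wv_push hT v b, Finset.sum_smul]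
    refine Finset.sum_congr rfl fun k _ => ?_
    rw [smul_smul, mul_comm]
  exact sub_eq_zero.1 (congrFun h k)

/-- the `(0,1)` components of a complex linear map vanish -/
theorem wdL_clin_true (b : Fin n) (G : Cn n →L[ℂ] W) :
    wdL (true, b) (G.restrictScalars ℝ) = 0 := by
  have hI : (EuclideanSpace.single b I : Cn n) = I • EuclideanSpace.single b (1 : ℂ) := by
    ext c
    simp [PiLp.single_apply]
  unfold wdL
  simp only [ContinuousLinearMap.coe_restrictScalars', cI_true]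
  rw [hI, map_smul, smul_smul, Complex.I_mul_I, neg_smul, one_smul, add_neg_cancel, smul_zero]

theorem wdL_clin_false (b : Fin n) (G : Cn n →L[ℂ] W) :
    wdL (false, b) (G.restrictScalars ℝ) = G (EuclideanSpace.single b 1) := by
  have hI : (EuclideanSpace.single b I : Cn n) = I • EuclideanSpace.single b (1 : ℂ) := by
    ext c
    simp [PiLp.single_apply]
  unfold wdL
  simp only [ContinuousLinearMap.coe_restrictScalars', cI_false]
  rw [hI, map_smul, smul_smul]
  have : -I * I = 1 := by rw [neg_mul, Complex.I_mul_I, neg_neg]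
  rw [this, one_smul, ← two_smul ℂ, smul_smul]
  norm_num

theorem Ek_clin (J : Cn n →L[ℝ] Cn n) (G : Cn n →L[ℂ] W) (k : Fin n) :
    Ek J (G.restrictScalars ℝ) k = ∑ l, mu J k l • G (EuclideanSpace.single l 1) := by
  unfold Ek
  rw [wdL_clin_true, zero_add]
  simp_rw [wdL_clin_false]

/-- the law of the Beltrami coefficients -/
theorem mu_push {J1 J2 : Cn n →L[ℝ] Cn n} (h1 : ∀ v, J1 (J1 v) = -v) (s1 : IsUnit (Sm J1).det)
    (h2 : ∀ v, J2 (J2 v) = -v) (s2 : IsUnit (Sm J2).det) {T : Cn n →L[ℂ] Cn n}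
    (hT : ∀ v, T (J1 v) = J2 (T v)) (k m : Fin n) :
    ∑ l, mu J1 k l * T (EuclideanSpace.single l 1) m =
      ∑ b, conj (T (EuclideanSpace.single k 1) b) * mu J2 b m := by
  have h := Ek_push h1 s1 h2 s2 hT
    ((EuclideanSpace.proj m : Cn n →L[ℂ] ℂ).restrictScalars ℝ) k
  have e1 : ((EuclideanSpace.proj m : Cn n →L[ℂ] ℂ).restrictScalars ℝ).comp
      (T.restrictScalars ℝ) = (((EuclideanSpace.proj m : Cn n →L[ℂ] ℂ).comp T).restrictScalars ℝ) :=
    rfl
  rw [e1, Ek_clin] at h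
  simp_rw [Ek_clin] at h
  refine Eq.trans ?_ (h.trans ?_)
  · exact Finset.sum_congr rfl fun l _ => rfl
  refine Finset.sum_congr rfl fun b _ => ?_
  rw [smul_eq_mul, Finset.sum_eq_single m]
  · have : (EuclideanSpace.proj m : Cn n →L[ℂ] ℂ) (EuclideanSpace.single m 1) = 1 := by
      show (EuclideanSpace.single m (1 : ℂ) : Cn n) m = 1
      simp
    rw [this, smul_eq_mul, mul_one]
  · intro c _ hc
    have : (EuclideanSpace.proj m : Cn n →L[ℂ] ℂ) (EuclideanSpace.single c 1) = 0 := by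
      show (EuclideanSpace.single c (1 : ℂ) : Cn n) m = 0
      simp [hc.symm]
    rw [this, smul_zero]
  · simp

/-- the matrix of a complex linear map -/
def Tm (T : Cn n →L[ℂ] Cn n) : Matrix (Fin n) (Fin n) ℂ :=
  Matrix.of fun a b => T (EuclideanSpace.single b 1) a

theorem Am_push {J1 J2 : Cn n →L[ℝ] Cn n} {T : Cn n →L[ℂ] Cn n}
    (hT : ∀ v, T (J1 v) = J2 (T v)) : Tm T * Am J1 = Am J2 * Tm T := by
  have h : (T.restrictScalars ℝ).comp J1 = J2.comp (T.restrictScalars ℝ) := by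
    ext v : 1
    exact hT v
  ext a b
  have h1 : wdL (false, b) ((T.restrictScalars ℝ).comp J1) a =
      wdL (false, b) (J2.comp (T.restrictScalars ℝ)) a := by rw [h]
  rw [wdL_comp_left, wdL_comp_clin, clin_apply T (wdL (false, b) J1) a, WithLp.ofLp_sum] at h1
  simp only [Matrix.mul_apply, Tm, Am, Matrix.of_apply]
  calc ∑ j, T (EuclideanSpace.single j 1) a * wdL (false, b) J1 j
      = ∑ k, wdL (false, b) J1 k * T (EuclideanSpace.single k 1) a :=
        Finset.sum_congr rfl fun j _ => mul_comm _ _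
    _ = _ := h1
    _ = ∑ j, wdL (false, j) J2 a * T (EuclideanSpace.single b 1) j := by
        simp only [Finset.sum_apply, PiLp.smul_apply, cj_false, smul_eq_mul]
        exact Finset.sum_congr rfl fun j _ => mul_comm _ _

/-- the determinant of `S` is invariant -/
theorem det_push {J1 J2 : Cn n →L[ℝ] Cn n} {T : Cn n →L[ℂ] Cn n}
    (hT : ∀ v, T (J1 v) = J2 (T v)) (hi : IsUnit (Tm T).det) : (Sm J1).det = (Sm J2).det := by
  have h1 : (Tm T).map conj * Sm J1 = Sm J2 * (Tm T).map conj := by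
    unfold Sm
    rw [Matrix.mul_add, Matrix.add_mul, Matrix.mul_one, Matrix.one_mul, Matrix.mul_smul,
      Matrix.smul_mul, ← Matrix.map_mul, ← Matrix.map_mul, Am_push hT]
  have h2 := congrArg Matrix.det h1
  rw [Matrix.det_mul, Matrix.det_mul, mul_comm] at h2
  have h3 : ((Tm T).map conj).det ≠ 0 := by
    have : ((Tm T).map conj).det = conj (Tm T).det :=
      (RingHom.map_det (starRingEnd ℂ) (Tm T)).symm
    rw [this]
    exact (hi.map (starRingEnd ℂ)).ne_zero
  exact mul_right_cancel₀ h3 h2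

theorem Tm_unit {T T' : Cn n →L[ℂ] Cn n} (h : ∀ v, T' (T v) = v) : IsUnit (Tm T).det := by
  have h1 : Tm T' * Tm T = 1 := by
    ext a b
    rw [Matrix.mul_apply]
    have := clin_apply T' (T (EuclideanSpace.single b 1)) a
    rw [h] at this
    simp only [Tm, Matrix.of_apply]
    calc ∑ j, T' (EuclideanSpace.single j 1) a * T (EuclideanSpace.single b 1) j
        = ∑ k, T (EuclideanSpace.single b 1) k * T' (EuclideanSpace.single k 1) a :=
          Finset.sum_congr rfl fun j _ => mul_comm _ _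
      _ = (EuclideanSpace.single b (1 : ℂ) : Cn n) a := this.symm
      _ = _ := by by_cases hab : a = b <;> simp [hab, Matrix.one_apply]
  have h2 := congrArg Matrix.det h1
  rw [Matrix.det_mul, Matrix.det_one] at h2
  exact IsUnit.of_mul_eq_one _ (by rw [mul_comm]; exact h2)

/-! ### smoothness -/

section smooth

variable {E : Type*} [NormedAddCommGroup E] [NormedSpace ℝ E]

theorem contDiffAt_det {m : E → Matrix (Fin n) (Fin n) ℂ} {p : E}
    (h : ∀ a b, ContDiffAt ℝ ∞ (fun q => m q a b) p) : ContDiffAt ℝ ∞ (fun q => (m q).det) p := by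
  simp only [Matrix.det_apply]
  refine ContDiffAt.sum fun σ _ => ?_
  have h1 : ContDiffAt ℝ ∞ (fun q => ∏ i, m q (σ i) i) p := by
    exact contDiffAt_prod fun i _ => h _ _
  have h2 : (fun q => Equiv.Perm.sign σ • ∏ i, m q (σ i) i) =
      fun q => ((Equiv.Perm.sign σ : ℤ) : ℂ) * ∏ i, m q (σ i) i := by
    funext q
    rw [Units.smul_def, zsmul_eq_mul]
  rw [h2]
  exact contDiffAt_const.mul h1

theorem contDiffAt_inv' {m : E → Matrix (Fin n) (Fin n) ℂ} {p : E}
    (h : ∀ a b, ContDiffAt ℝ ∞ (fun q => m q a b) p) (hd : IsUnit (m p).det) (a b : Fin n) :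
    ContDiffAt ℝ ∞ (fun q => (m q)⁻¹ a b) p := by
  have h1 : (fun q => (m q)⁻¹ a b) = fun q => ((m q).det)⁻¹ * (m q).adjugate a b := by
    funext q
    rw [Matrix.inv_def, Ring.inverse_eq_inv', Matrix.smul_apply, smul_eq_mul]
  rw [h1]
  refine ((contDiffAt_det h).inv hd.ne_zero).mul ?_
  simp only [Matrix.adjugate_apply]
  refine contDiffAt_det fun c d => ?_
  by_cases hc : c = b
  · subst hc
    simp only [Matrix.updateRow_self]
    exact contDiffAt_const
  · simp only [Matrix.updateRow_ne hc]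
    exact h c d

theorem contDiffAt_wdL {V : Type*} [NormedAddCommGroup V] [NormedSpace ℂ V]
    {J : E → Cn n →L[ℝ] V} {p : E} (hJ : ContDiffAt ℝ ∞ J p)
    (s : WI n) : ContDiffAt ℝ ∞ (fun q => wdL s (J q)) p := by
  have h : ContDiffAt ℝ ∞ (fun G : Cn n →L[ℝ] V => wdL s G) (J p) :=
    (wdLc (W := V) s).contDiff.contDiffAt
  exact h.comp p hJ

theorem contDiffAt_ent {J : E → Cn n →L[ℝ] Cn n} {p : E} (hJ : ContDiffAt ℝ ∞ J p)
    (s : WI n) (a : Fin n) : ContDiffAt ℝ ∞ (fun q => wdL s (J q) a) p := by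
  have h : ContDiffAt ℝ ∞ (fun v : Cn n => v a) (wdL s (J p)) :=
    ((EuclideanSpace.proj a : Cn n →L[ℂ] ℂ).restrictScalars ℝ).contDiff.contDiffAt
  exact h.comp p (contDiffAt_wdL hJ s)

theorem contDiffAt_Sm {J : E → Cn n →L[ℝ] Cn n} {p : E} (hJ : ContDiffAt ℝ ∞ J p)
    (a b : Fin n) : ContDiffAt ℝ ∞ (fun q => Sm (J q) a b) p := by
  have h : (fun q => Sm (J q) a b) = fun q => (1 : Matrix (Fin n) (Fin n) ℂ) a b +
      I * conj (wdL (false, b) (J q) a) := by
    funext q
    simp [Sm, Am]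
  rw [h]
  refine contDiffAt_const.add (contDiffAt_const.mul ?_)
  exact (conjCLE.contDiff.contDiffAt).comp p (contDiffAt_ent hJ _ _)

theorem contDiffAt_mu {J : E → Cn n →L[ℝ] Cn n} {p : E} (hJ : ContDiffAt ℝ ∞ J p)
    (hS : IsUnit (Sm (J p)).det) (k l : Fin n) : ContDiffAt ℝ ∞ (fun q => mu (J q) k l) p := by
  have h : (fun q => mu (J q) k l) = fun q => I * ∑ c, wdL (true, c) (J q) l * (Sm (J q))⁻¹ c k := by
    funext q
    simp [mu, Bm, Matrix.mul_apply]
  rw [h]
  refine contDiffAt_const.mul (ContDiffAt.sum fun c _ => ?_)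
  exact (contDiffAt_ent hJ _ _).mul (contDiffAt_inv' (contDiffAt_Sm hJ) hS _ _)

theorem contDiffAt_Ek {J : E → Cn n →L[ℝ] Cn n} {θ : E → Cn n →L[ℝ] W} {p : E}
    (hJ : ContDiffAt ℝ ∞ J p) (hS : IsUnit (Sm (J p)).det) (hθ : ContDiffAt ℝ ∞ θ p) (k : Fin n) :
    ContDiffAt ℝ ∞ (fun q => Ek (J q) (θ q) k) p := by
  unfold Ek
  exact (contDiffAt_wdL hθ _).add (ContDiffAt.sum fun l _ =>
    (contDiffAt_mu hJ hS k l).smul (contDiffAt_wdL hθ _))

end smooth

theorem continuous_Sm_det : Continuous fun J : Cn n →L[ℝ] Cn n => (Sm J).det := by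
  have h : ∀ a b, Continuous fun J : Cn n →L[ℝ] Cn n => Sm J a b := by
    intro a b
    rw [continuous_iff_continuousAt]
    intro J
    exact (contDiffAt_Sm (J := fun J : Cn n →L[ℝ] Cn n => J) contDiffAt_id a b).continuousAt
  have : Continuous fun J : Cn n →L[ℝ] Cn n => (Sm J) := continuous_matrix h
  exact this.matrix_det

/-! ### `J = i` -/

/-- multiplication by `i` -/
def iL' : Cn n →L[ℝ] Cn n := (I • ContinuousLinearMap.id ℂ (Cn n)).restrictScalars ℝ

@[simp] theorem iL'_apply (v : Cn n) : iL' v = I • v := rfl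

theorem mu_of {J : Cn n →L[ℝ] Cn n} (hJ : ∀ v, J v = I • v) : mu J = 0 := by
  have h0 : J = iL' := by ext v : 1; rw [hJ, iL'_apply]
  have h1 : Bm J = 0 := by
    ext a b
    show wdL (true, b) J a = 0
    rw [h0]
    unfold iL'
    rw [wdL_clin_true]
    rfl
  unfold mu
  rw [h1]
  simp

theorem Sm_of {J : Cn n →L[ℝ] Cn n} (hJ : ∀ v, J v = I • v) :
    Sm J = (2 : ℂ) • (1 : Matrix (Fin n) (Fin n) ℂ) := by
  have h0 : J = iL' := by ext v : 1; rw [hJ, iL'_apply]
  ext a b
  have h1 : wdL (false, b) J a = I * (1 : Matrix (Fin n) (Fin n) ℂ) a b := by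
    rw [h0]
    unfold iL'
    rw [wdL_clin_false]
    by_cases hab : a = b <;> simp [hab, Matrix.one_apply]
  have h2 : Sm J a b = (1 : Matrix (Fin n) (Fin n) ℂ) a b + I * conj (wdL (false, b) J a) := by
    simp [Sm, Am]
  rw [h2, h1]
  by_cases hab : a = b
  · subst hab
    simp
    norm_num
  · simp [hab]

theorem Sm_of_unit {J : Cn n →L[ℝ] Cn n} (hJ : ∀ v, J v = I • v) : IsUnit (Sm J).det := by
  rw [Sm_of hJ]
  rw [isUnit_iff_ne_zero]
  simp [Matrix.det_smul]

theorem Ek_of {J : Cn n →L[ℝ] Cn n} (hJ : ∀ v, J v = I • v) (P : Cn n →L[ℝ] W) (k : Fin n) :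
    Ek J P k = wdL (true, k) P := by
  unfold Ek
  rw [mu_of hJ]
  simp

theorem wv_of {J : Cn n →L[ℝ] Cn n} (hJ : ∀ v, J v = I • v) (v : Cn n) (k : Fin n) :
    wv J v k = 2 * conj (v k) := by
  unfold wv
  rw [hJ]
  simp only [PiLp.smul_apply, smul_eq_mul, map_mul, conj_I]
  linear_combination (-conj (v k)) * Complex.I_mul_I

end

end Crest.Agent.R281.OpD_569
end

-- ▼ part R281/OpD4_569
section

/-!
# Row 281, OPEN' (M3) DICT-J (helper569), part 4: Beltrami data of a nearby structure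

`L L' : PL (ofAtl A)` (713) with the same transition functions, `P : Pot L` (holomorphic frames of
`P.lb`), `J` an integrable structure (`JC (ofAtl A) J A'`), `F11 J L'`, `det (Sm (J i z)) ≠ 0`.

* `tht P L' i z` : the connection form of `L'` in the frames of `P.lb`
* `bel`          : the structure `Bel P.lb` of 693
-/

set_option autoImplicit false
set_option linter.unusedSectionVars false
set_option linter.unusedSimpArgs false
set_option maxSynthPendingDepth 3

open Set Filter Topology Complex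
open scoped ContDiff Matrix ComplexConjugate

namespace Crest.Agent.R281.OpD_569

open Crest.Agent.R275 Crest.Agent.R275.Geo Crest.Agent.R275.EDR890 Crest.Agent.R275.Core144
open Crest.Agent.R281.HkR_835 Crest.Agent.R281.Ti_846 Crest.Agent.R281.PL_713
open Crest.Agent.R281.OpM_693 (Bel dz)
open Crest.Agent.R273.Mol_106 (pdM)

noncomputable section

variable {n : ℕ} {M : Type} [TopologicalSpace M] {A : Atl n M}

/-! ### dictionary of derivatives -/

theorem dz_eq {W : Type*} [NormedAddCommGroup W] [NormedSpace ℂ W] (i : A.ι) (a : Fin n)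
    (f : M → W) (x : M) :
    dz A i a f x = wd (false, a) (fun z => f ((A.e i).symm z)) (A.e i x) := by
  unfold dz pdM wd wdL
  rw [cc_ev0, cc_ev1]
  simp only [cI_false, neg_smul, sub_eq_add_neg]

theorem db_eq {W : Type*} [NormedAddCommGroup W] [NormedSpace ℂ W] (i : A.ι) (a : Fin n)
    (f : M → W) (x : M) :
    A.db i a f x = wd (true, a) (fun z => f ((A.e i).symm z)) (A.e i x) := rfl

theorem EkM_eq (mu : A.ι → M → Matrix (Fin n) (Fin n) ℂ) (i : A.ι) (k : Fin n) (f : M → ℂ)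
    {x : M} (hx : x ∈ (A.e i).source) : OpM_693.Ek mu i k f x =
      Ed (fun z => mu i ((A.e i).symm z)) k (fun z => f ((A.e i).symm z)) (A.e i x) := by
  unfold OpM_693.Ek Ed
  rw [db_eq]
  simp_rw [dz_eq, (A.e i).left_inv hx]
  rfl

/-! ### the data -/

/-- the Beltrami coefficients in the charts -/
def muA (A : Atl n M) (J : A.ι → Cn n → Cn n →L[ℝ] Cn n) :
    A.ι → M → Matrix (Fin n) (Fin n) ℂ := fun i x => mu (J i (A.e i x))

variable {L L' : PL (ofAtl A)} (P : Pot L)

/-- the connection form of `L'` in the holomorphic frames of `P.lb` -/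
def tht (L' : PL (ofAtl A)) (i : A.ι) (z : Cn n) : Cn n →L[ℝ] ℂ :=
  I • (ofRealCLM.comp (L'.th i z)) - fderiv ℝ (P.h i) z

theorem tht_apply (L' : PL (ofAtl A)) (i : A.ι) (z v : Cn n) :
    tht P L' i z v = I * (L'.th i z v : ℂ) - fderiv ℝ (P.h i) z v := rfl

/-- the `E_k`-components of the connection form -/
def cA (L' : PL (ofAtl A)) (J : A.ι → Cn n → Cn n →L[ℝ] Cn n) :
    A.ι → M → Fin n → ℂ := fun i x k => Ek (J i (A.e i x)) (tht P L' i (A.e i x)) k

theorem tht_sm (L' : PL (ofAtl A)) {i : A.ι} {z : Cn n} (hz : z ∈ (A.e i).target) :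
    ContDiffAt ℝ ∞ (tht P L' i) z := by
  have h1 : ContDiffAt ℝ ∞ (L'.th i) z :=
    (L'.th_sm i).contDiffAt ((A.e i).open_target.mem_nhds hz)
  have h2 : ContDiffAt ℝ ∞ (fderiv ℝ (P.h i)) z := (P.at_ hz).fderiv_right (by simp)
  have h3 : ContDiffAt ℝ ∞ (fun y => ofRealCLM.comp (L'.th i y)) z :=
    contDiffAt_const.clm_comp h1
  exact (h3.const_smul I).sub h2

/-- the transition map as a complex linear map -/
def Tc (A : Atl n M) (i j : A.ι) (x : M) : Cn n →L[ℂ] Cn n :=
  fderiv ℂ ((ofAtl A).t i j) (A.e i x)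


theorem Tc_real {i j : A.ι} {x : M} (hx : x ∈ (A.e i).source ∩ (A.e j).source) (v : Cn n) :
    fderiv ℝ ((ofAtl A).t i j) (A.e i x) v = Tc A i j x v := by
  rw [(ofAtl_t_diff A (Pot.mem_ov' hx)).fderiv_restrictScalars ℝ]
  rfl

theorem t_x {i j : A.ι} {x : M} (hx : x ∈ (A.e i).source) : (ofAtl A).t i j (A.e i x) = A.e j x := by
  show A.e j ((A.e i).symm (A.e i x)) = _
  rw [(A.e i).left_inv hx]

theorem Tc_inv {i j : A.ι} {x : M} (hx : x ∈ (A.e i).source ∩ (A.e j).source) (v : Cn n) :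
    Tc A j i x (Tc A i j x v) = v := by
  have h1 := RCh.dt_dt (C := ofAtl A) (Pot.mem_ov' hx) v
  rw [Tc_real hx, t_x hx.1, Tc_real ⟨hx.2, hx.1⟩] at h1
  exact h1

section

variable {A' : Atl n M} {J : A.ι → Cn n → Cn n →L[ℝ] Cn n}

theorem J_law (hJ : JC (ofAtl A) J A') {i j : A.ι} {x : M}
    (hx : x ∈ (A.e i).source ∩ (A.e j).source) (v : Cn n) :
    Tc A i j x (J i (A.e i x) v) = J j (A.e j x) (Tc A i j x v) := by
  have h := hJ.J_tr (Pot.mem_ov' hx) v
  rwa [t_x hx.1, Tc_real hx, Tc_real hx] at h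

/-- invariance of the determinant -/
theorem det_law (hJ : JC (ofAtl A) J A') {i j : A.ι} {x : M}
    (hx : x ∈ (A.e i).source ∩ (A.e j).source) :
    (Sm (J i (A.e i x))).det = (Sm (J j (A.e j x))).det :=
  det_push (J_law hJ hx) (Tm_unit (Tc_inv hx))

/-- the good structures -/
structure Near (A : Atl n M) (J : A.ι → Cn n → Cn n →L[ℝ] Cn n) : Prop where
  sm : ∀ i, ContDiffOn ℝ ∞ (J i) (A.e i).target
  un : ∀ i, ∀ z ∈ (A.e i).target, IsUnit (Sm (J i z)).det

variable (hJ : JC (ofAtl A) J A') (hN : Near A J)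
include hJ hN

theorem at_src {i : A.ι} {x : M} (hx : x ∈ (A.e i).source) :
    (∀ v, J i (A.e i x) (J i (A.e i x) v) = -v) ∧ IsUnit (Sm (J i (A.e i x))).det :=
  ⟨fun v => hJ.sq ((A.e i).map_source hx) v, hN.un i _ ((A.e i).map_source hx)⟩

theorem J_at {i : A.ι} {z : Cn n} (hz : z ∈ (A.e i).target) : ContDiffAt ℝ ∞ (J i) z :=
  (hN.sm i).contDiffAt ((A.e i).open_target.mem_nhds hz)

theorem mu_sm' {i : A.ι} {z : Cn n} (hz : z ∈ (A.e i).target) (k l : Fin n) :
    ContDiffAt ℝ ∞ (fun y => mu (J i y) k l) z :=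
  contDiffAt_mu (J_at hJ hN hz) (hN.un i z hz) k l

theorem c_sm' (L' : PL (ofAtl A)) {i : A.ι} {z : Cn n} (hz : z ∈ (A.e i).target) (k : Fin n) :
    ContDiffAt ℝ ∞ (fun y => Ek (J i y) (tht P L' i y) k) z :=
  contDiffAt_Ek (J_at hJ hN hz) (hN.un i z hz) (tht_sm P L' hz) k

theorem muA_sm (i : A.ι) (k l : Fin n) : A.SmAt i (fun x => muA A J i x k l) := by
  intro z hz
  have h1 : ContDiffAt ℝ ∞ (fun y => mu (J i y) k l) z := mu_sm' hJ hN hz k l
  refine (h1.contDiffWithinAt (s := (A.e i).target)).congr (fun y hy => ?_) ?_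
  · show mu (J i (A.e i ((A.e i).symm y))) k l = _
    rw [(A.e i).right_inv hy]
  · show mu (J i (A.e i ((A.e i).symm z))) k l = _
    rw [(A.e i).right_inv hz]

theorem cA_sm (L' : PL (ofAtl A)) (i : A.ι) (k : Fin n) : A.SmAt i (fun x => cA P L' J i x k) := by
  intro z hz
  have h1 : ContDiffAt ℝ ∞ (fun y => Ek (J i y) (tht P L' i y) k) z := c_sm' P hJ hN L' hz k
  refine (h1.contDiffWithinAt (s := (A.e i).target)).congr (fun y hy => ?_) ?_
  · show Ek (J i (A.e i ((A.e i).symm y))) (tht P L' i (A.e i ((A.e i).symm y))) k = _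
    rw [(A.e i).right_inv hy]
  · show Ek (J i (A.e i ((A.e i).symm z))) (tht P L' i (A.e i ((A.e i).symm z))) k = _
    rw [(A.e i).right_inv hz]

theorem muA_tr (i j : A.ι) (x : M) (hx : x ∈ (A.e i).source ∩ (A.e j).source) (k b : Fin n) :
    ∑ l, muA A J i x k l * A.J i j x b l = ∑ a, conj (A.J i j x a k) * muA A J j x a b := by
  obtain ⟨a1, a2⟩ := at_src hJ hN hx.1
  obtain ⟨b1, b2⟩ := at_src hJ hN hx.2
  exact mu_push a1 a2 b1 b2 (J_law hJ hx) k b

/-- the law of the connection forms -/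
theorem tht_law (hg : L'.g = L.g) {i j : A.ι} {x : M}
    (hx : x ∈ (A.e i).source ∩ (A.e j).source) (v : Cn n) :
    P.gz i j (A.e i x) * tht P L' i (A.e i x) v + fderiv ℝ (P.gz i j) (A.e i x) v =
      P.gz i j (A.e i x) * tht P L' j (A.e j x) (Tc A i j x v) := by
  set z := A.e i x with hz0
  have hz : z ∈ (ofAtl A).ov i j := Pot.mem_ov' hx
  have ht := (RCh.t_mem hz).1
  have h1 : HasFDerivAt (fun y => exp (P.h i y)) _ z := (P.diffAt hz.1).hasFDerivAt.cexp
  have h2 : HasFDerivAt (fun y => P.h j ((ofAtl A).t i j y)) _ z :=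
    HasFDerivAt.comp (g := P.h j) (f := (ofAtl A).t i j) z (P.diffAt ht).hasFDerivAt
      (RCh.t_diff hz).hasFDerivAt
  have h3 : HasFDerivAt (fun y => exp (-P.h j ((ofAtl A).t i j y))) _ z := h2.neg.cexp
  have h4 : HasFDerivAt (P.gz i j) _ z := (h1.mul (L.g_diff hz).hasFDerivAt).mul h3
  have e : ∀ w, fderiv ℝ (P.gz i j) z w = P.gz i j z * (fderiv ℝ (P.h i) z w +
      I * ((L'.th j ((ofAtl A).t i j z) (fderiv ℝ ((ofAtl A).t i j) z w) - L'.th i z w : ℝ) : ℂ) -
      fderiv ℝ (P.h j) ((ofAtl A).t i j z) (fderiv ℝ ((ofAtl A).t i j) z w)) := by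
    intro w
    have hlaw := L'.law i j z hz w
    rw [hg] at hlaw
    rw [h4.fderiv]
    simp only [add_apply, smul_apply, neg_apply, smul_eq_mul, ContinuousLinearMap.comp_apply,
      hlaw, Pot.gz, Pi.mul_apply, Pi.neg_apply]
    ring
  rw [e v, tht_apply, tht_apply]
  have e1 : fderiv ℝ ((ofAtl A).t i j) z v = Tc A i j x v := Tc_real hx v
  have e2 : (ofAtl A).t i j z = A.e j x := t_x hx.1
  rw [e1, e2]
  push_cast
  ring

theorem lb_read {i j : A.ι} {x : M} (hx : x ∈ (A.e i).source ∩ (A.e j).source) :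
    (fun z => P.lb.g i j ((A.e i).symm z)) =ᶠ[𝓝 (A.e i x)] P.gz i j := by
  have h : (ofAtl A).ov i j ∈ 𝓝 (A.e i x) := (RCh.isOpen_ov i j).mem_nhds (Pot.mem_ov' hx)
  filter_upwards [h] with y hy
  have hy' : (A.e i).symm y ∈ (A.e i).source ∩ (A.e j).source := ⟨(A.e i).map_target hy.1, hy.2⟩
  have := P.lb_g hy'
  rw [this, (A.e i).right_inv hy.1]
  rfl

theorem cA_tr (hg : L'.g = L.g) (i j : A.ι) (x : M) (hx : x ∈ (A.e i).source ∩ (A.e j).source)
    (k : Fin n) :
    cA P L' J i x k * P.lb.g i j x + ∑ l, muA A J i x k l * dz A i l (P.lb.g i j) x =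
      (∑ a, conj (A.J i j x a k) * cA P L' J j x a) * P.lb.g i j x := by
  obtain ⟨a1, a2⟩ := at_src hJ hN hx.1
  obtain ⟨b1, b2⟩ := at_src hJ hN hx.2
  have hgx : P.lb.g i j x = P.gz i j (A.e i x) := by
    have h := P.lb_g hx
    rw [h, Pot.gz, t_x hx.1]
  have hz : A.e i x ∈ (ofAtl A).ov i j := Pot.mem_ov' hx
  have h0 : (P.gz i j (A.e i x)) • tht P L' i (A.e i x) +
      (fderiv ℂ (P.gz i j) (A.e i x)).restrictScalars ℝ =
      (P.gz i j (A.e i x)) • ((tht P L' j (A.e j x)).comp ((Tc A i j x).restrictScalars ℝ)) := by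
    ext v
    have h1 := tht_law P hJ hN hg hx v
    rw [(P.gz_diff hz).fderiv_restrictScalars ℝ] at h1
    exact h1
  have h1 := congrArg (fun G => Ek (J i (A.e i x)) G k) h0
  simp only [] at h1
  rw [Ek_add, Ek_smul, Ek_smul, Ek_clin, Ek_push a1 a2 b1 b2 (J_law hJ hx)] at h1
  have h2 : ∀ l, dz A i l (P.lb.g i j) x =
      fderiv ℂ (P.gz i j) (A.e i x) (EuclideanSpace.single l 1) := by
    intro l
    rw [dz_eq, wd_congr (lb_read P hJ hN hx), wd, (P.gz_diff hz).fderiv_restrictScalars ℝ,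
      wdL_clin_false]
  simp_rw [h2]
  rw [hgx]
  simp only [smul_eq_mul] at h1
  unfold cA muA
  rw [mul_comm, h1, mul_comm]
  rfl

theorem int_muA (i : A.ι) (x : M) (hx : x ∈ (A.e i).source) (k l m : Fin n) :
    OpM_693.Ek (muA A J) i k (fun y => muA A J i y l m) x =
      OpM_693.Ek (muA A J) i l (fun y => muA A J i y k m) x := by
  have hz : A.e i x ∈ (A.e i).target := (A.e i).map_source hx
  have hnb := (A.e i).open_target.mem_nhds hz
  rw [EkM_eq _ _ _ _ hx, EkM_eq _ _ _ _ hx]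
  have e0 : ∀ a b, (fun z => muA A J i ((A.e i).symm z) a b) =ᶠ[𝓝 (A.e i x)]
      fun z => mu (J i z) a b := by
    intro a b
    filter_upwards [hnb] with y hy
    show mu (J i (A.e i ((A.e i).symm y))) a b = _
    rw [(A.e i).right_inv hy]
  have e1 : ∀ (a : Fin n) (f : Cn n → ℂ),
      Ed (fun z => muA A J i ((A.e i).symm z)) a f (A.e i x) =
      Ed (fun z => mu (J i z)) a f (A.e i x) := by
    intro a f
    unfold Ed
    congr 1
    refine Finset.sum_congr rfl fun b _ => ?_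
    have h : muA A J i ((A.e i).symm (A.e i x)) a b = mu (J i (A.e i x)) a b :=
      (e0 a b).self_of_nhds
    exact congrArg (fun t : ℂ => t • wd (false, b) f (A.e i x)) h
  refine (e1 _ _).trans ((Ed_congr (e0 l m)).trans (Eq.trans ?_
    ((e1 _ _).trans (Ed_congr (e0 k m))).symm))
  obtain ⟨a, ha⟩ := A'.cover x
  have hmov : A.e i x ∈ mov (ofAtl A') (ofAtl A) a i := by
    refine ⟨hz, ?_⟩
    show (A.e i).symm (A.e i x) ∈ (A'.e a).source
    rw [(A.e i).left_inv hx]
    exact ha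
  have hop : IsOpen (mov (ofAtl A') (ofAtl A) a i) := Cmp.isOpen_mov (ofAtl A') (ofAtl A) a i
  refine integ (ψ := mt (ofAtl A') (ofAtl A) a i) ?_ ?_ (fun a b => mu_sm' hJ hN hz a b) ?_ ?_ ?_ k l m
  · filter_upwards [hnb] with y hy v
    exact hJ.sq hy v
  · filter_upwards [hnb] with y hy
    exact hN.un i y hy
  · exact (hJ.cmp.s' i a).contDiffAt (hop.mem_nhds hmov)
  · filter_upwards [hop.mem_nhds hmov] with y hy v
    exact hJ.lin' hy v
  · exact fun u v h => hJ.cmp.symm.inj hmov h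

theorem int_cA (hF : F11 J L') (i : A.ι) (x : M) (hx : x ∈ (A.e i).source) (k l : Fin n) :
    OpM_693.Ek (muA A J) i k (fun y => cA P L' J i y l) x =
      OpM_693.Ek (muA A J) i l (fun y => cA P L' J i y k) x := by
  have hz : A.e i x ∈ (A.e i).target := (A.e i).map_source hx
  have hnb := (A.e i).open_target.mem_nhds hz
  have e0 : ∀ a b, (fun z => muA A J i ((A.e i).symm z) a b) =ᶠ[𝓝 (A.e i x)]
      fun z => mu (J i z) a b := by
    intro a b
    filter_upwards [hnb] with y hy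
    show mu (J i (A.e i ((A.e i).symm y))) a b = _
    rw [(A.e i).right_inv hy]
  have e1 : ∀ (a : Fin n) (f : Cn n → ℂ),
      Ed (fun z => muA A J i ((A.e i).symm z)) a f (A.e i x) =
      Ed (fun z => mu (J i z)) a f (A.e i x) := by
    intro a f
    unfold Ed
    congr 1
    refine Finset.sum_congr rfl fun b _ => ?_
    have h : muA A J i ((A.e i).symm (A.e i x)) a b = mu (J i (A.e i x)) a b :=
      (e0 a b).self_of_nhds
    exact congrArg (fun t : ℂ => t • wd (false, b) f (A.e i x)) h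
  have e2 : ∀ b, (fun z => cA P L' J i ((A.e i).symm z) b) =ᶠ[𝓝 (A.e i x)]
      fun z => Ek (J i z) (tht P L' i z) b := by
    intro b
    filter_upwards [hnb] with y hy
    show Ek (J i (A.e i ((A.e i).symm y))) (tht P L' i (A.e i ((A.e i).symm y))) b = _
    rw [(A.e i).right_inv hy]
  have hint : ∀ a b c, Ed (fun z => mu (J i z)) a (fun y => mu (J i y) b c) (A.e i x) =
      Ed (fun z => mu (J i z)) b (fun y => mu (J i y) a c) (A.e i x) := by
    intro a b c
    have h := int_muA hJ hN i x hx a b c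
    rw [EkM_eq _ _ _ _ hx, EkM_eq _ _ _ _ hx] at h
    exact ((e1 _ _).trans (Ed_congr (e0 b c))).symm.trans
      (h.trans ((e1 _ _).trans (Ed_congr (e0 a c))))
  rw [EkM_eq _ _ _ _ hx, EkM_eq _ _ _ _ hx]
  refine (e1 _ _).trans ((Ed_congr (e2 l)).trans (Eq.trans ?_
    ((e1 _ _).trans (Ed_congr (e2 k))).symm))
  obtain ⟨U, hU, hzU, hUt, e, he, hene, heq⟩ := exists_frame hJ hF (i := i) (z := A.e i x) hz
  have hUn := hU.mem_nhds hzU
  have hsm : ∀ y ∈ U, ContDiffAt ℝ ∞ e y := fun y hy => he.contDiffAt (hU.mem_nhds hy)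
  refine integ_c (m := fun z => mu (J i z)) (e := fun y => e y * exp (P.h i y))
    (fun a b => mu_sm' hJ hN hz a b) hint (fun b => c_sm' P hJ hN L' hz b)
    ((hsm _ hzU).mul (P.at_ hz).cexp) (mul_ne_zero (hene _ hzU) (exp_ne_zero _)) ?_ k l
  filter_upwards [hUn] with y hy b
  have hyt : y ∈ (A.e i).target := hUt hy
  have hJy : ∀ v, J i y (J i y v) = -v := fun v => hJ.sq hyt v
  have hSy := hN.un i y hyt
  have hd : HasFDerivAt (fun y => e y * exp (P.h i y)) _ y :=
    ((hsm y hy).differentiableAt (by simp)).hasFDerivAt.mul (P.diffAt hyt).hasFDerivAt.cexp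
  have h0 : ∀ v, ∑ c, wv (J i y) v c * (Ed (fun y => mu (J i y)) c (fun y => e y * exp (P.h i y)) y +
      Ek (J i y) (tht P L' i y) c * (e y * exp (P.h i y))) = 0 := by
    intro v
    rw [← sol_eq hJy hSy]
    rw [hd.fderiv, tht_apply, tht_apply]
    simp only [add_apply, smul_apply, smul_eq_mul]
    have h1 := heq y hy v
    linear_combination (exp (P.h i y)) * h1
  have h1 := wv_inj hSy (X := fun c => Ed (fun y => mu (J i y)) c (fun y => e y * exp (P.h i y)) y +
      Ek (J i y) (tht P L' i y) c * (e y * exp (P.h i y))) (fun v => by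
      simpa only [smul_eq_mul] using h0 v)
  exact congrFun h1 b

/-- **the Beltrami data of a nearby structure** -/
def bel (hg : L'.g = L.g) (hF : F11 J L') : Bel P.lb where
  mu := muA A J
  c := cA P L' J
  mu_sm := muA_sm hJ hN
  c_sm := cA_sm P hJ hN L'
  mu_tr := muA_tr hJ hN
  c_tr := cA_tr P hJ hN hg
  int_mu := int_muA hJ hN
  int_c := int_cA P hJ hN hF

end

end

end Crest.Agent.R281.OpD_569
end

-- ▼ part R281/OpD5_569

/-!
# Row 281, OPEN' (M5) (helper569): solutions of `E_k f + c_k f = 0` are smooth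

* `sol_smooth` : `f` differentiable on the target of the chart `i`, `E_k f + c_k f = 0` ⟹ `C^∞`
  (`J` integrable: `JC (ofAtl A) J A'`, `F11 J L'`).
-/

set_option autoImplicit false
set_option linter.unusedSectionVars false
set_option linter.unusedSimpArgs false
set_option maxSynthPendingDepth 3

open Set Filter Topology Complex
open scoped ContDiff Matrix ComplexConjugate

namespace Crest.Agent.R281.OpD_569

open Crest.Agent.R275 Crest.Agent.R275.Geo Crest.Agent.R275.EDR890 Crest.Agent.R275.Core144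
open Crest.Agent.R281.HkR_835 Crest.Agent.R281.Ti_846 Crest.Agent.R281.PL_713

noncomputable section

variable {n : ℕ} {M : Type} [TopologicalSpace M] {A : Atl n M}

/-- a function which is `J`-holomorphic near `z` is smooth at `z` -/
theorem jhol_smooth {A' : Atl n M} {J : A.ι → Cn n → Cn n →L[ℝ] Cn n}
    (hJ : JC (ofAtl A) J A') {i : A.ι} {z : Cn n} (hz : z ∈ (A.e i).target) {g : Cn n → ℂ}
    (hg : ∀ᶠ y in 𝓝 z, DifferentiableAt ℝ g y)
    (heq : ∀ᶠ y in 𝓝 z, ∀ v, fderiv ℝ g y (J i y v) = I * fderiv ℝ g y v) :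
    ContDiffAt ℝ ∞ g z := by
  set x := (A.e i).symm z with hx0
  have hx : x ∈ (A.e i).source := (A.e i).map_target hz
  obtain ⟨a, ha⟩ := A'.cover x
  set ψ := mt (ofAtl A') (ofAtl A) a i with hψ
  set φ := mt (ofAtl A) (ofAtl A') i a with hφ
  have hmov : z ∈ mov (ofAtl A') (ofAtl A) a i := ⟨hz, ha⟩
  have hop : IsOpen (mov (ofAtl A') (ofAtl A) a i) := Cmp.isOpen_mov (ofAtl A') (ofAtl A) a i
  have hop' : IsOpen (mov (ofAtl A) (ofAtl A') i a) := Cmp.isOpen_mov (ofAtl A) (ofAtl A') i a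
  have hψs : ContDiffAt ℝ ∞ ψ z := (hJ.cmp.s' i a).contDiffAt (hop.mem_nhds hmov)
  have hw : ψ z ∈ mov (ofAtl A) (ofAtl A') i a :=
    Cmp.mt_mem (C := ofAtl A') (C' := ofAtl A) hmov
  have hφs : ContDiffAt ℝ ∞ φ (ψ z) := (hJ.cmp.s i a).contDiffAt (hop'.mem_nhds hw)
  have hφψ : φ (ψ z) = z := Cmp.mt_mt (C := ofAtl A') (C' := ofAtl A) hmov
  -- `G = g ∘ φ` is holomorphic near `ψ z`
  have hφt : Tendsto φ (𝓝 (ψ z)) (𝓝 z) := by
    have := hφs.continuousAt.tendsto
    rwa [hφψ] at this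
  have hG : ∀ᶠ w in 𝓝 (ψ z), DifferentiableAt ℂ (fun w => g (φ w)) w := by
    filter_upwards [hφt.eventually hg, hφt.eventually heq, hop'.mem_nhds hw] with w h1 h2 h3
    have h4 : HasFDerivAt (fun w => g (φ w)) ((fderiv ℝ g (φ w)).comp (fderiv ℝ φ w)) w :=
      HasFDerivAt.comp (g := g) (f := φ) w h1.hasFDerivAt (hJ.cmp.diff h3).hasFDerivAt
    refine diffC_of h4.differentiableAt fun v => ?_
    rw [h4.fderiv]
    simp only [ContinuousLinearMap.comp_apply]
    rw [hJ.lin i a w h3 v]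
    exact h2 _
  obtain ⟨U, hU, hUo, hzU⟩ := eventually_nhds_iff.1 hG
  have hGs : ContDiffAt ℝ ∞ (fun w => g (φ w)) (ψ z) := by
    have h1 : DifferentiableOn ℂ (fun w => g (φ w)) U := fun w hw =>
      (hU w hw).differentiableWithinAt
    have h2 := Crest.Agent.R266.SCV.contDiffOn_omega_of_differentiableOn hUo h1
    exact ((h2.contDiffAt (hUo.mem_nhds hzU)).restrict_scalars ℝ).of_le le_top
  have h5 : ContDiffAt ℝ ∞ (fun y => g (φ (ψ y))) z := hGs.comp z hψs
  refine h5.congr_of_eventuallyEq ?_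
  filter_upwards [hop.mem_nhds hmov] with y hy
  rw [hφ, hψ, Cmp.mt_mt (C := ofAtl A') (C' := ofAtl A) hy]

variable {L L' : PL (ofAtl A)} (P : Pot L) {A' : Atl n M} {J : A.ι → Cn n → Cn n →L[ℝ] Cn n}

/-- **(M5)** -/
theorem sol_smooth (hJ : JC (ofAtl A) J A') (hN : Near A J) (hF : F11 J L') {i : A.ι}
    {f : Cn n → ℂ} (hf : ∀ z ∈ (A.e i).target, DifferentiableAt ℝ f z)
    (heq : ∀ z ∈ (A.e i).target, ∀ k, Ed (fun y => mu (J i y)) k f z +
      Ek (J i z) (tht P L' i z) k * f z = 0) : ContDiffOn ℝ ∞ f (A.e i).target := by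
  intro z hz
  refine ContDiffAt.contDiffWithinAt ?_
  obtain ⟨U, hU, hzU, hUt, e, he, hene, hee⟩ := exists_frame hJ hF (i := i) (z := z) hz
  have hUn := hU.mem_nhds hzU
  have hsm : ∀ y ∈ U, ContDiffAt ℝ ∞ e y := fun y hy => he.contDiffAt (hU.mem_nhds hy)
  set E : Cn n → ℂ := fun y => e y * exp (P.h i y) with hE
  have hEs : ∀ y ∈ U, ContDiffAt ℝ ∞ E y := fun y hy => (hsm y hy).mul (P.at_ (hUt hy)).cexp
  have hE0 : ∀ y ∈ U, E y ≠ 0 := fun y hy => mul_ne_zero (hene y hy) (exp_ne_zero _)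
  have hEe : ∀ y ∈ U, ∀ v, fderiv ℝ E y v + tht P L' i y v * E y +
      I * (fderiv ℝ E y (J i y v) + tht P L' i y (J i y v) * E y) = 0 := by
    intro y hy v
    have hyt : y ∈ (A.e i).target := hUt hy
    have hd : HasFDerivAt E _ y :=
      ((hsm y hy).differentiableAt (by simp)).hasFDerivAt.mul (P.diffAt hyt).hasFDerivAt.cexp
    rw [hd.fderiv, tht_apply, tht_apply]
    simp only [add_apply, smul_apply, smul_eq_mul, hE]
    have h1 := hee y hy v
    linear_combination (exp (P.h i y)) * h1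
  set g : Cn n → ℂ := fun y => f y * (E y)⁻¹ with hg
  have hgd : ∀ y ∈ U, DifferentiableAt ℝ g y := fun y hy =>
    (hf y (hUt hy)).mul (((hEs y hy).differentiableAt (by simp)).inv (hE0 y hy))
  have hge : ∀ y ∈ U, ∀ v, fderiv ℝ g y (J i y v) = I * fderiv ℝ g y v := by
    intro y hy v
    have hyt : y ∈ (A.e i).target := hUt hy
    have hJy : ∀ v, J i y (J i y v) = -v := fun v => hJ.sq hyt v
    have hfE : f =ᶠ[𝓝 y] fun w => g w * E w := by
      filter_upwards [hU.mem_nhds hy] with w hw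
      simp only [hg]
      rw [mul_assoc, inv_mul_cancel₀ (hE0 w hw), mul_one]
    have hd : HasFDerivAt (fun w => g w * E w) _ y :=
      (hgd y hy).hasFDerivAt.mul ((hEs y hy).differentiableAt (by simp)).hasFDerivAt
    have h1 : ∀ w, fderiv ℝ f y w = g y * fderiv ℝ E y w + E y * fderiv ℝ g y w := by
      intro w
      rw [hfE.fderiv_eq, hd.fderiv]
      simp only [add_apply, smul_apply, smul_eq_mul]
    have h2 : fderiv ℝ f y v + tht P L' i y v * f y +
        I * (fderiv ℝ f y (J i y v) + tht P L' i y (J i y v) * f y) = 0 := by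
      rw [sol_eq hJy (hN.un i y hyt)]
      exact Finset.sum_eq_zero fun k _ => by rw [heq y hyt k, mul_zero]
    have h3 : f y = g y * E y := hfE.self_of_nhds
    rw [h1, h1, h3] at h2
    have h4 := hEe y hy v
    have h5 : E y * (fderiv ℝ g y v + I * fderiv ℝ g y (J i y v)) = 0 := by
      linear_combination h2 - g y * h4
    have h6 := (mul_eq_zero.1 h5).resolve_left (hE0 y hy)
    linear_combination (-I) * h6 + (fderiv ℝ g y (J i y v)) * I_mul_I
  have hgs : ContDiffAt ℝ ∞ g z := jhol_smooth hJ hz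
    (eventually_of_mem hUn fun y hy => hgd y hy) (eventually_of_mem hUn fun y hy => hge y hy)
  refine (hgs.mul (hEs z hzU)).congr_of_eventuallyEq ?_
  filter_upwards [hUn] with w hw
  show f w = f w * (E w)⁻¹ * E w
  rw [mul_assoc, inv_mul_cancel₀ (hE0 w hw), mul_one]

@[simp] theorem bel_mu (hJ : JC (ofAtl A) J A') (hN : Near A J) (hg : L'.g = L.g)
    (hF : F11 J L') : (bel P hJ hN hg hF).mu = muA A J := rfl

@[simp] theorem bel_c (hJ : JC (ofAtl A) J A') (hN : Near A J) (hg : L'.g = L.g)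
    (hF : F11 J L') : (bel P hJ hN hg hF).c = cA P L' J := rfl

/-- **(M5)** in terms of the Beltrami data read in the chart (`muA`, `cA` = the data of `bel`) -/
theorem sol_smooth_bel (hJ : JC (ofAtl A) J A') (hN : Near A J) (hF : F11 J L')
    {i : A.ι} {f : Cn n → ℂ} (hf : ∀ z ∈ (A.e i).target, DifferentiableAt ℝ f z)
    (heq : ∀ z ∈ (A.e i).target, ∀ k, wd (true, k) f z +
      ∑ l, muA A J i ((A.e i).symm z) k l • wd (false, l) f z +
      cA P L' J i ((A.e i).symm z) k * f z = 0) : ContDiffOn ℝ ∞ f (A.e i).target := by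
  refine sol_smooth P hJ hN hF hf fun z hz k => ?_
  have h := heq z hz k
  have e0 : A.e i ((A.e i).symm z) = z := (A.e i).right_inv hz
  have e1 : muA A J i ((A.e i).symm z) = mu (J i z) := by
    unfold muA
    rw [e0]
  have e2 : cA P L' J i ((A.e i).symm z) k = Ek (J i z) (tht P L' i z) k := by
    unfold cA
    rw [e0]
  rw [e2, e1] at h
  exact h

end

end Crest.Agent.R281.OpD_569
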