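import Mathlib

-- ▼ part R281/Semi1_450
section

/-!
# Analytic families of left semi-Fredholm operators (row 281, task 1654, (4c) of 210 #6263)

`E`, `F` complex normed spaces, `E` complete.  `LP P`: the operator `P : E →L[ℂ] F` has a left
parametrix modulo finite rank.  `Ker P N`: `P` has `N` linearly independent kernel vectors.

Local form (`local_form`): if `P : 𝕜 → E →L[ℂ] F` (`𝕜 = ℝ` or `ℂ`) is analytic at `s₀` and
`LP (P s₀)`, then near `s₀` the kernel of `P s` is the injective image under an analytic family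
`M s` of `{w ∈ W | P s (M s w) = 0}`, `W` a fixed finite dimensional subspace.
-/

set_option autoImplicit false

open Filter Topology Set

namespace Crest.Agent.R281.Semi_450

variable {E F : Type*} [NormedAddCommGroup E] [NormedSpace ℂ E]
  [NormedAddCommGroup F] [NormedSpace ℂ F]

/-- `P` has a left parametrix modulo operators of finite rank. -/
def LP (P : E →L[ℂ] F) : Prop :=
  ∃ G : F →L[ℂ] E, FiniteDimensional ℂ (LinearMap.range ((G.comp P - 1 : E →L[ℂ] E) : E →ₗ[ℂ] E))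

/-- `P` has `N` linearly independent vectors in its kernel. -/
def Ker (P : E →L[ℂ] F) (N : ℕ) : Prop :=
  ∃ v : Fin N → E, LinearIndependent ℂ v ∧ ∀ i, P (v i) = 0

theorem Ker.mono {P : E →L[ℂ] F} {N M : ℕ} (h : Ker P N) (hM : M ≤ N) : Ker P M := by
  obtain ⟨v, hv, h0⟩ := h
  exact ⟨fun i => v (Fin.castLE hM i), hv.comp _ (Fin.castLE_injective hM), fun i => h0 _⟩

/-! ### Linear algebra: minors -/

section Minors

variable {W : Type*} [AddCommGroup W] [Module ℂ W] [FiniteDimensional ℂ W]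

open Module

theorem exists_dual_family {r : ℕ} (y : Fin r → F) (hy : LinearIndependent ℂ y) :
    ∃ φ : Fin r → F →L[ℂ] ℂ, ∀ i j, φ j (y i) = if i = j then 1 else 0 := by
  classical
  set S : Submodule ℂ F := Submodule.span ℂ (Set.range y) with hS
  have hfin : FiniteDimensional ℂ S := FiniteDimensional.span_of_finite ℂ (Set.finite_range y)
  set b : Basis (Fin r) ℂ S := Basis.span hy with hb
  have h1 : ∀ j : Fin r, ∃ g : F →L[ℂ] ℂ, ∀ x : S, g x = b.coord j x := by
    intro j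
    obtain ⟨g, hg, -⟩ := exists_extension_norm_eq S (LinearMap.toContinuousLinearMap (b.coord j))
    exact ⟨g, fun x => by simpa using hg x⟩
  choose g hg using h1
  refine ⟨g, fun i j => ?_⟩
  have h2 := hg j ⟨y i, Submodule.subset_span ⟨i, rfl⟩⟩
  have h3 : (⟨y i, Submodule.subset_span ⟨i, rfl⟩⟩ : S) = b i := by
    apply Subtype.ext
    rw [hb, Basis.span_apply]
  rw [h3] at h2
  have h4 : (b i : F) = y i := by rw [hb, Basis.span_apply]
  rw [h4] at h2
  rw [h2, Basis.coord_apply, Basis.repr_self, Finsupp.single_apply]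

/-- `N` independent kernel vectors of `T` on a finite dimensional space = vanishing minors. -/
theorem ker_iff_minors (T : W →ₗ[ℂ] F) (N : ℕ) :
    (∃ v : Fin N → W, LinearIndependent ℂ v ∧ ∀ i, T (v i) = 0) ↔
      (N ≤ finrank ℂ W ∧ ∀ (w : Fin (finrank ℂ W - N + 1) → W)
        (φ : Fin (finrank ℂ W - N + 1) → F →L[ℂ] ℂ),
        (Matrix.of fun i j => φ j (T (w i))).det = 0) := by
  classical
  have hrn : finrank ℂ (LinearMap.range T) + finrank ℂ (LinearMap.ker T) = finrank ℂ W :=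
    LinearMap.finrank_range_add_finrank_ker T
  have hker : (∃ v : Fin N → W, LinearIndependent ℂ v ∧ ∀ i, T (v i) = 0) ↔
      N ≤ finrank ℂ (LinearMap.ker T) := by
    constructor
    · rintro ⟨v, hv, h0⟩
      let v' : Fin N → LinearMap.ker T := fun i => ⟨v i, by simpa using h0 i⟩
      have hv' : LinearIndependent ℂ v' := by
        apply LinearIndependent.of_comp (LinearMap.ker T).subtype
        exact hv
      simpa using hv'.fintype_card_le_finrank
    · intro h
      obtain ⟨f, hf⟩ := exists_linearIndependent_of_le_finrank h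
      exact ⟨fun i => (f i : W), hf.map' (LinearMap.ker T).subtype
        (by simp), fun i => (f i).2⟩
  rw [hker]
  constructor
  · intro h
    refine ⟨by omega, fun w φ => ?_⟩
    by_contra hdet
    have hind : LinearIndependent ℂ (fun i => T (w i)) := by
      rw [Fintype.linearIndependent_iff]
      intro g hg
      have h1 : Matrix.vecMul g (Matrix.of fun i j => φ j (T (w i))) = 0 := by
        ext j
        have h2 := congrArg (φ j) hg
        rw [map_sum, map_zero] at h2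
        simp only [Matrix.vecMul, dotProduct, Matrix.of_apply, Pi.zero_apply]
        rw [← h2]
        exact Finset.sum_congr rfl fun i _ => by rw [map_smul, smul_eq_mul]
      have h3 := Matrix.eq_zero_of_vecMul_eq_zero hdet h1
      exact fun i => congrFun h3 i
    let y' : Fin (finrank ℂ W - N + 1) → LinearMap.range T := fun i => ⟨T (w i), ⟨w i, rfl⟩⟩
    have hy' : LinearIndependent ℂ y' := by
      apply LinearIndependent.of_comp (LinearMap.range T).subtype
      exact hind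
    have h4 : finrank ℂ W - N + 1 ≤ finrank ℂ (LinearMap.range T) := by
      simpa using hy'.fintype_card_le_finrank
    omega
  · rintro ⟨hN, h⟩
    by_contra hlt
    have h1 : finrank ℂ W - N + 1 ≤ finrank ℂ (LinearMap.range T) := by omega
    obtain ⟨f, hf⟩ := exists_linearIndependent_of_le_finrank h1
    choose w hw using fun i => (f i).2
    have hy : LinearIndependent ℂ (fun i => T (w i)) := by
      have : (fun i => T (w i)) = fun i => ((f i : LinearMap.range T) : F) := funext hw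
      rw [this]
      exact hf.map' (LinearMap.range T).subtype (by simp)
    obtain ⟨φ, hφ⟩ := exists_dual_family _ hy
    have h2 := h w φ
    have h3 : (Matrix.of fun i j => φ j (T (w i))) = (1 : Matrix _ _ ℂ) := by
      ext i j
      rw [Matrix.of_apply, hφ, Matrix.one_apply]
    rw [h3, Matrix.det_one] at h2
    exact one_ne_zero h2

end Minors

/-! ### Local form -/

section Loc

variable {𝕜 : Type*} [RCLike 𝕜] [NormedAlgebra 𝕜 ℂ]
  [NormedSpace 𝕜 E] [IsScalarTower 𝕜 ℂ E] [NormedSpace 𝕜 F] [IsScalarTower 𝕜 ℂ F]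
  {S : Type*} [NormedAddCommGroup S] [NormedSpace 𝕜 S]

theorem analyticAt_comp {E₁ E₂ E₃ : Type*} [NormedAddCommGroup E₁] [NormedSpace ℂ E₁]
    [NormedAddCommGroup E₂] [NormedSpace ℂ E₂] [NormedAddCommGroup E₃] [NormedSpace ℂ E₃]
    [NormedSpace 𝕜 E₂] [IsScalarTower 𝕜 ℂ E₂] [NormedSpace 𝕜 E₃] [IsScalarTower 𝕜 ℂ E₃]
    {A : S → E₂ →L[ℂ] E₃} {B : S → E₁ →L[ℂ] E₂} {s : S}
    (hA : AnalyticAt 𝕜 A s) (hB : AnalyticAt 𝕜 B s) :
    AnalyticAt 𝕜 (fun z => (A z).comp (B z)) s := by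
  have h := ((ContinuousLinearMap.compL ℂ E₁ E₂ E₃).analyticAt_bilinear (A s, B s)).restrictScalars
    (𝕜 := 𝕜)
  exact h.comp₂ hA hB

theorem analyticAt_apply {E₂ E₃ : Type*}
    [NormedAddCommGroup E₂] [NormedSpace ℂ E₂] [NormedAddCommGroup E₃] [NormedSpace ℂ E₃]
    [NormedSpace 𝕜 E₃] [IsScalarTower 𝕜 ℂ E₃]
    {A : S → E₂ →L[ℂ] E₃} {s : S} (hA : AnalyticAt 𝕜 A s) (x : E₂) :
    AnalyticAt 𝕜 (fun z => A z x) s := by
  have h := ((ContinuousLinearMap.apply ℂ E₃ x).analyticAt (A s)).restrictScalars (𝕜 := 𝕜)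
  exact h.comp hA

/-- Local Lyapunov-Schmidt form.  The parameter lives in any normed space `S` over `𝕜`. -/
theorem local_form [CompleteSpace E] {P : S → E →L[ℂ] F} {s₀ : S} (hP : AnalyticAt 𝕜 P s₀)
    (h : LP (P s₀)) :
    ∃ (W : Submodule ℂ E) (M : S → E →L[ℂ] E), FiniteDimensional ℂ W ∧ AnalyticAt 𝕜 M s₀ ∧
      ∀ᶠ s in 𝓝 s₀, Function.Injective (M s) ∧
        ∀ u, P s u = 0 → ∃ w ∈ W, u = M s w := by
  obtain ⟨G, hG⟩ := h
  set R : E →L[ℂ] E := G.comp (P s₀) - 1 with hR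
  set D : S → E →L[ℂ] E := fun s => G.comp (P s) - R with hD
  have hDan : AnalyticAt 𝕜 D s₀ := by
    have h1 : AnalyticAt 𝕜 (fun s => G.comp (P s)) s₀ := by
      have h := (((ContinuousLinearMap.compL ℂ E F E) G).analyticAt (P s₀)).restrictScalars
        (𝕜 := 𝕜)
      exact h.comp hP
    exact h1.sub analyticAt_const
  have hD0 : D s₀ = 1 := by simp only [hD, hR]; abel
  have hinv : AnalyticAt 𝕜 (fun s => Ring.inverse (D s)) s₀ := by
    have h := (analyticAt_inverse (𝕜 := ℂ) (1 : (E →L[ℂ] E)ˣ)).restrictScalars (𝕜 := 𝕜)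
    have h2 : AnalyticAt 𝕜 Ring.inverse (D s₀) := by rw [hD0]; exact h
    exact h2.comp hDan
  have hunit : ∀ᶠ s in 𝓝 s₀, IsUnit (D s) := by
    have h1 : {A : E →L[ℂ] E | IsUnit A} ∈ 𝓝 (D s₀) := by
      rw [hD0]
      exact Units.isOpen.mem_nhds isUnit_one
    exact hDan.continuousAt h1
  refine ⟨LinearMap.range (R : E →ₗ[ℂ] E), fun s => Ring.inverse (D s), hG, hinv, ?_⟩
  filter_upwards [hunit] with s hs
  have hl : Ring.inverse (D s) * D s = 1 := Ring.inverse_mul_cancel _ hs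
  have hr : D s * Ring.inverse (D s) = 1 := Ring.mul_inverse_cancel _ hs
  constructor
  · intro x y hxy
    have h1 := congrArg (D s) hxy
    have h2 : ∀ z, D s (Ring.inverse (D s) z) = z := fun z => by
      have := congrArg (fun T : E →L[ℂ] E => T z) hr
      simpa using this
    rwa [h2, h2] at h1
  · intro u hu
    refine ⟨-R u, ⟨-u, by simp⟩, ?_⟩
    have h1 : D s u = -R u := by
      simp only [hD, sub_apply, ContinuousLinearMap.comp_apply, hu, map_zero,
        zero_sub]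
    rw [← h1]
    have := congrArg (fun T : E →L[ℂ] E => T u) hl
    simpa using this.symm

end Loc

end Crest.Agent.R281.Semi_450
end

-- ▼ part R281/Semi2_450
section

/-!
# Analytic families of left semi-Fredholm operators: global dichotomy (row 281, task 1654)

`𝕜 = ℝ` or `ℂ`; `P : S → E →L[ℂ] F` analytic on `U ⊆ S`, `S` a normed space over `𝕜`.

* `ker_closed`: `{s | Ker (P s) N}` is closed in `U`.
* `ker_of_accum` (`S = 𝕜`): an accumulation point in `U` (preconnected) gives all of `U`.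
* `ker_of_interior`: a nonempty interior gives all of `U` (`U` open preconnected).
-/

set_option autoImplicit false

open Filter Topology Set

namespace Crest.Agent.R281.Semi_450

variable {E F : Type*} [NormedAddCommGroup E] [NormedSpace ℂ E]
  [NormedAddCommGroup F] [NormedSpace ℂ F]

open Module

theorem ker_iff {P : E →L[ℂ] F} {M : E →L[ℂ] E} {W : Submodule ℂ E} [FiniteDimensional ℂ W]
    (hM : Function.Injective M) (hW : ∀ u, P u = 0 → ∃ w ∈ W, u = M w) (N : ℕ) :
    Ker P N ↔ (N ≤ finrank ℂ W ∧ ∀ (w : Fin (finrank ℂ W - N + 1) → W)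
        (φ : Fin (finrank ℂ W - N + 1) → F →L[ℂ] ℂ),
        (Matrix.of fun i j => φ j (P (M (w i : E)))).det = 0) := by
  have h := ker_iff_minors (((P.comp M : E →L[ℂ] F) : E →ₗ[ℂ] F) ∘ₗ W.subtype) N
  have h2 : Ker P N ↔ ∃ v : Fin N → W, LinearIndependent ℂ v ∧
      ∀ i, (((P.comp M : E →L[ℂ] F) : E →ₗ[ℂ] F) ∘ₗ W.subtype) (v i) = 0 := by
    constructor
    · rintro ⟨v, hv, h0⟩
      choose w hw hvw using fun i => hW (v i) (h0 i)
      refine ⟨fun i => ⟨w i, hw i⟩, ?_, fun i => ?_⟩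
      · apply LinearIndependent.of_comp ((M : E →ₗ[ℂ] E) ∘ₗ W.subtype)
        have h3 : (((M : E →ₗ[ℂ] E) ∘ₗ W.subtype : W →ₗ[ℂ] E) : W → E) ∘
            (fun i => (⟨w i, hw i⟩ : W)) = v := funext fun i => (hvw i).symm
        rw [h3]
        exact hv
      · have h3 := h0 i
        rw [hvw i] at h3
        exact h3
    · rintro ⟨w, hw, h0⟩
      refine ⟨fun i => M (w i : E), ?_, fun i => h0 i⟩
      have h3 := hw.map' ((M : E →ₗ[ℂ] E) ∘ₗ W.subtype) (by
        rw [LinearMap.ker_eq_bot]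
        exact hM.comp Subtype.val_injective)
      exact h3
  rw [h2, h]
  rfl

section Glob

variable {𝕜 : Type*} [RCLike 𝕜] [NormedAlgebra 𝕜 ℂ]
  [NormedSpace 𝕜 E] [IsScalarTower 𝕜 ℂ E] [NormedSpace 𝕜 F] [IsScalarTower 𝕜 ℂ F]
  {S : Type*} [NormedAddCommGroup S] [NormedSpace 𝕜 S]

theorem analyticAt_det {n : ℕ} {A : S → Matrix (Fin n) (Fin n) ℂ} {s : S}
    (h : ∀ i j, AnalyticAt 𝕜 (fun z => A z i j) s) : AnalyticAt 𝕜 (fun z => (A z).det) s := by
  have h1 : (fun z => (A z).det) =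
      fun z => ∑ σ : Equiv.Perm (Fin n), ((Equiv.Perm.sign σ : ℤ) : ℂ) * ∏ i, A z (σ i) i := by
    funext z
    rw [Matrix.det_apply']
  rw [h1]
  refine Finset.analyticAt_fun_sum _ fun σ _ => ?_
  refine analyticAt_const.mul ?_
  exact Finset.analyticAt_fun_prod _ fun i _ => h _ _

/-- the minor functions are analytic -/
theorem analyticAt_minor {n : ℕ} {P : S → E →L[ℂ] F} {M : S → E →L[ℂ] E} {s : S}
    (hP : AnalyticAt 𝕜 P s) (hM : AnalyticAt 𝕜 M s) (w : Fin n → E) (φ : Fin n → F →L[ℂ] ℂ) :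
    AnalyticAt 𝕜 (fun z => (Matrix.of fun i j => φ j (P z (M z (w i)))).det) s := by
  refine analyticAt_det fun i j => ?_
  have h1 := analyticAt_apply (𝕜 := 𝕜) (analyticAt_comp (𝕜 := 𝕜) hP hM) (w i)
  have h2 := ((φ j).analyticAt (P s (M s (w i)))).restrictScalars (𝕜 := 𝕜)
  exact AnalyticAt.fun_comp (g := φ j) (f := fun z => ((P z).comp (M z)) (w i)) h2 h1


/-- Local dichotomy, one parameter. -/
theorem local_dichotomy [CompleteSpace E] [CompleteSpace F] {P : 𝕜 → E →L[ℂ] F} {s₀ : 𝕜}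
    (hP : AnalyticAt 𝕜 P s₀) (h : LP (P s₀)) :
    ∃ r > 0, ∀ N : ℕ, ∀ s₁ ∈ Metric.ball s₀ r, (∃ᶠ s in 𝓝[≠] s₁, Ker (P s) N) →
      ∀ s ∈ Metric.ball s₀ r, Ker (P s) N := by
  obtain ⟨W, M, hWf, hM, hev⟩ := local_form hP h
  obtain ⟨r, hr, hball⟩ := Metric.eventually_nhds_iff_ball.1
    ((hev.and hP.eventually_analyticAt).and hM.eventually_analyticAt)
  refine ⟨r, hr, fun N s₁ hs₁ hfr s hs => ?_⟩
  rw [ker_iff (hball s hs).1.1.1 (hball s hs).1.1.2]
  have hfr' : ∃ᶠ s in 𝓝[≠] s₁, (N ≤ finrank ℂ W ∧ ∀ (w : Fin (finrank ℂ W - N + 1) → W)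
        (φ : Fin (finrank ℂ W - N + 1) → F →L[ℂ] ℂ),
        (Matrix.of fun i j => φ j (P s (M s (w i : E)))).det = 0) := by
    have h1 : ∀ᶠ z in 𝓝[≠] s₁, z ∈ Metric.ball s₀ r :=
      nhdsWithin_le_nhds (Metric.isOpen_ball.mem_nhds hs₁)
    refine (hfr.and_eventually h1).mono ?_
    rintro z ⟨hz, hz2⟩
    exact (ker_iff (hball z hz2).1.1.1 (hball z hz2).1.1.2 N).1 hz
  obtain ⟨_, h1⟩ := hfr'.exists
  refine ⟨h1.1, fun w φ => ?_⟩
  have han : AnalyticOnNhd 𝕜 (fun z => (Matrix.of fun i j => φ j (P z (M z (w i : E)))).det)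
      (Metric.ball s₀ r) := fun z hz =>
    analyticAt_minor (𝕜 := 𝕜) (hball z hz).1.2 (hball z hz).2 (fun i => (w i : E)) φ
  exact han.eqOn_zero_of_preconnected_of_frequently_eq_zero
    (convex_ball s₀ r).isPreconnected hs₁ (hfr'.mono fun z hz => hz.2 w φ) hs

/-- **One parameter**: if `N` independent kernel vectors exist on a set with an accumulation point
in the preconnected set `U`, they exist on all of `U`. -/
theorem ker_of_accum [CompleteSpace E] [CompleteSpace F] {P : 𝕜 → E →L[ℂ] F} {U : Set 𝕜} (hU : IsPreconnected U)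
    (hP : AnalyticOnNhd 𝕜 P U) (h : ∀ s ∈ U, LP (P s)) {N : ℕ} {s₁ : 𝕜} (hs₁ : s₁ ∈ U)
    (hfr : ∃ᶠ s in 𝓝[≠] s₁, Ker (P s) N) : ∀ s ∈ U, Ker (P s) N := by
  set V : Set 𝕜 := interior {s | Ker (P s) N} with hV
  have hVo : IsOpen V := isOpen_interior
  have hVs : ∀ s ∈ V, Ker (P s) N := fun s hs => interior_subset (s := {s | Ker (P s) N}) hs
  have key : ∀ s ∈ U, (∃ᶠ z in 𝓝[≠] s, Ker (P z) N) → s ∈ V := by
    intro s hs hfr
    obtain ⟨r, hr, hd⟩ := local_dichotomy (hP s hs) (h s hs)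
    have h1 := hd N s (Metric.mem_ball_self hr) hfr
    exact mem_interior.2 ⟨Metric.ball s r, h1, Metric.isOpen_ball, Metric.mem_ball_self hr⟩
  have hsub : U ⊆ V := by
    refine hU.subset_of_closure_inter_subset hVo ⟨s₁, hs₁, key s₁ hs₁ hfr⟩ ?_
    rintro s ⟨hsc, hs⟩
    refine key s hs ?_
    rw [frequently_iff]
    intro O hO
    rw [mem_nhdsWithin] at hO
    obtain ⟨O', hO'o, hsO', hO'⟩ := hO
    obtain ⟨z, hz, hzV⟩ := mem_closure_iff.1 hsc O' hO'o hsO'
    -- the nonempty open set `O' ∩ V` has a point different from `s`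
    have h2 : (O' ∩ V) ∈ 𝓝 z := (hO'o.inter hVo).mem_nhds ⟨hz, hzV⟩
    have h3 : ∃ y ∈ O' ∩ V, y ≠ s := by
      by_cases hzs : z = s
      · have h4 : (𝓝[≠] z).NeBot := inferInstance
        have h5 : ∀ᶠ y in 𝓝[≠] z, y ∈ O' ∩ V := nhdsWithin_le_nhds h2
        obtain ⟨y, hy, hyz⟩ := (h5.and (eventually_mem_nhdsWithin)).exists
        exact ⟨y, hy, hzs ▸ hyz⟩
      · exact ⟨z, ⟨hz, hzV⟩, hzs⟩
    obtain ⟨y, hy, hys⟩ := h3
    exact ⟨y, hO' ⟨hy.1, hys⟩, hVs y hy.2⟩
  exact fun s hs => hVs s (hsub hs)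



end Glob

end Crest.Agent.R281.Semi_450
end

-- ▼ part R281/Semi3_450
section

/-!
# Compact left parametrix ⟹ left parametrix modulo finite rank (row 281, task 1654)

`lp_of_compact`: `G ∘ P = 1 + K`, `K` compact ⟹ `LP P`.  Riesz-Schauder theory by the Fredholm
alternative of Mathlib applied to `1 + K + j π`, `π` a projection to `ker (1 + K)`.
-/

set_option autoImplicit false

open Filter Topology Set

namespace Crest.Agent.R281.Semi_450

variable {E F : Type*} [NormedAddCommGroup E] [NormedSpace ℂ E]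
  [NormedAddCommGroup F] [NormedSpace ℂ F]

open Module

/-- The kernel of `1 + K` is finite dimensional. -/
theorem finiteDimensional_ker {K : E →L[ℂ] E} (hK : IsCompactOperator K) :
    FiniteDimensional ℂ (LinearMap.ker ((1 + K : E →L[ℂ] E) : E →ₗ[ℂ] E)) := by
  set V := LinearMap.ker ((1 + K : E →L[ℂ] E) : E →ₗ[ℂ] E) with hV
  have hmem : ∀ v ∈ V, K v = -v := by
    intro v hv
    have h1 : v + K v = 0 := by simpa [hV] using hv
    rw [eq_neg_iff_add_eq_zero, add_comm]
    exact h1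
  have hVK : ∀ v ∈ V, (K : E →ₗ[ℂ] E) v ∈ V := fun v hv => by
    have : (K : E →ₗ[ℂ] E) v = -v := hmem v hv
    rw [this]
    exact V.neg_mem hv
  have hcl : IsClosed (V : Set E) := (1 + K : E →L[ℂ] E).isClosed_ker
  have hr : IsCompactOperator ((K : E →ₗ[ℂ] E).restrict hVK) :=
    IsCompactOperator.restrict (f := (K : E →ₗ[ℂ] E)) hK hVK hcl
  have hid : IsCompactOperator (id : V → V) := by
    have h2 := hr.neg
    have h3 : (-((K : E →ₗ[ℂ] E).restrict hVK : V → V)) = id := by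
      funext v
      apply Subtype.ext
      have h4 : K (v : E) = -(v : E) := hmem v v.2
      simp [LinearMap.restrict_apply, h4]
    rwa [h3] at h2
  exact FiniteDimensional.of_isCompactOperator_id (𝕜 := ℂ) hid

theorem finrange_of_factor {X : Type*} [AddCommGroup X] [Module ℂ X] [FiniteDimensional ℂ X]
    (a : X →ₗ[ℂ] E) (b : E →ₗ[ℂ] X) : FiniteDimensional ℂ (LinearMap.range (a ∘ₗ b)) :=
  Submodule.finiteDimensional_of_le (LinearMap.range_comp_le_range b a)

/-- an injective or a surjective linear map between any two vector spaces -/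
theorem exists_inj_or_surj.{u, v} (X : Type u) (Y : Type v) [AddCommGroup X] [Module ℂ X]
    [AddCommGroup Y] [Module ℂ Y] :
    ∃ j : X →ₗ[ℂ] Y, Function.Injective j ∨ Function.Surjective j := by
  rcases le_total (Cardinal.lift.{v} (Module.rank ℂ X)) (Cardinal.lift.{u} (Module.rank ℂ Y))
    with h | h
  · obtain ⟨f, hf⟩ := lift_rank_le_iff_exists_linearMap.1 h
    exact ⟨f, Or.inl hf⟩
  · obtain ⟨f, hf⟩ := lift_rank_le_iff_exists_linearMap.1 h
    obtain ⟨g, hg⟩ := LinearMap.exists_leftInverse_of_injective f (LinearMap.ker_eq_bot.2 hf)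
    exact ⟨g, Or.inr fun y => ⟨f y, by simpa using congrArg (fun T => T y) hg⟩⟩

/-- `1 + K` has a left inverse modulo finite rank. -/
theorem lp_one_add [CompleteSpace E] {K : E →L[ℂ] E} (hK : IsCompactOperator K) :
    ∃ A' : E →L[ℂ] E,
      FiniteDimensional ℂ (LinearMap.range ((A' * (1 + K) - 1 : E →L[ℂ] E) : E →ₗ[ℂ] E)) := by
  classical
  set A : E →L[ℂ] E := 1 + K with hA
  have hVf : FiniteDimensional ℂ (LinearMap.ker (A : E →ₗ[ℂ] E)) := finiteDimensional_ker hK
  set V := LinearMap.ker (A : E →ₗ[ℂ] E) with hV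
  obtain ⟨π, hπ⟩ := Submodule.ClosedComplemented.of_finiteDimensional (𝕜 := ℂ) V
  obtain ⟨C, hC⟩ := Submodule.exists_isCompl (LinearMap.range (A : E →ₗ[ℂ] E))
  obtain ⟨j, hj⟩ := exists_inj_or_surj V C
  set J : V →L[ℂ] E := LinearMap.toContinuousLinearMap (C.subtype ∘ₗ j) with hJ
  have hJv : ∀ v, J v = (j v : E) := fun v => rfl
  set B : E →L[ℂ] E := A + J.comp π with hB
  have hBu : ∀ u, B u = A u + (j (π u) : E) := fun u => rfl
  -- `B u = 0` splits
  have hB0 : ∀ u, B u = 0 → A u = 0 ∧ j (π u) = 0 := by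
    intro u hu
    have h1 : A u ∈ LinearMap.range (A : E →ₗ[ℂ] E) := ⟨u, rfl⟩
    have h2 : A u = -(j (π u) : E) := by
      rw [eq_neg_iff_add_eq_zero]
      exact hu
    have h3 : A u ∈ C := by
      rw [h2]
      exact C.neg_mem (j (π u)).2
    have h4 : A u = 0 := (Submodule.disjoint_def.1 hC.disjoint) _ h1 h3
    refine ⟨h4, ?_⟩
    apply Subtype.ext
    rw [h4] at h2
    simpa using h2.symm
  rcases hj with hj | hj
  · -- `B` is injective, hence a unit by the Fredholm alternative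
    have hinj : ∀ u, B u = 0 → u = 0 := by
      intro u hu
      obtain ⟨h1, h2⟩ := hB0 u hu
      have h3 : π u = 0 := hj (by rw [h2, map_zero])
      have h4 : u ∈ V := h1
      have h5 := hπ ⟨u, h4⟩
      rw [h3] at h5
      exact (congrArg Subtype.val h5).symm
    have hcomp : IsCompactOperator (-(K + J.comp π) : E →L[ℂ] E) := by
      have hprop : ProperSpace V := FiniteDimensional.proper ℂ V
      have h1 : IsCompactOperator (J.comp π : E →L[ℂ] E) :=
        (isCompactOperator_of_locallyCompactSpace_rng J).comp_clm π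
      exact (hK.add h1).neg
    have hunit : IsUnit B := by
      rcases hcomp.hasEigenvalue_or_mem_resolventSet (μ := (1 : ℂ)) one_ne_zero with h | h
      · exfalso
        obtain ⟨v, hv⟩ := h.exists_hasEigenvector
        have h1 := hv.apply_eq_smul
        have h2 : B v = 0 := by
          have h3 : -(K v + J (π v)) = v := by simpa using h1
          have h4 : B v = v + (K v + J (π v)) := by
            rw [hBu, ← hJv]
            simp only [hA, add_apply, one_apply_eq_self]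
            abel
          rw [h4, neg_eq_iff_eq_neg.1 h3, add_neg_cancel]
        exact hv.2 (hinj v h2)
      · rw [spectrum.mem_resolventSet_iff] at h
        have h1 : (algebraMap ℂ (E →L[ℂ] E) 1 - -(K + J.comp π) : E →L[ℂ] E) = B := by
          rw [map_one, hB, hA]
          abel
        rwa [h1] at h
    obtain ⟨b, hb⟩ := hunit
    refine ⟨(b⁻¹ : (E →L[ℂ] E)ˣ), ?_⟩
    have h1 : ((b⁻¹ : (E →L[ℂ] E)ˣ) : E →L[ℂ] E) * A - 1 =
        (-(((b⁻¹ : (E →L[ℂ] E)ˣ) : E →L[ℂ] E).comp J)).comp π := by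
      have h2 : ((b⁻¹ : (E →L[ℂ] E)ˣ) : E →L[ℂ] E) * B = 1 := by
        rw [← hb]
        exact Units.inv_mul b
      have h3 : A = B - J.comp π := by rw [hB]; abel
      rw [h3, mul_sub, h2]
      ext u
      simp
    rw [h1]
    exact finrange_of_factor (E := E) ((-(((b⁻¹ : (E →L[ℂ] E)ˣ) : E →L[ℂ] E).comp J) :
      V →L[ℂ] E) : V →ₗ[ℂ] E) (π : E →ₗ[ℂ] V)
  · -- `B` is surjective with finite dimensional kernel
    have hsurj : Function.Surjective B := by
      intro y
      obtain ⟨r, hr, c, hc, rfl⟩ := Submodule.mem_sup.1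
        ((Submodule.eq_top_iff'.1 hC.sup_eq_top) y)
      obtain ⟨a, rfl⟩ := hr
      obtain ⟨v, hv⟩ := hj ⟨c, hc⟩
      refine ⟨a - (π a : E) + (v : E), ?_⟩
      have h1 : π (a - (π a : E) + (v : E)) = v := by
        rw [map_add, map_sub, hπ, hπ]
        abel
      have h2 : ∀ w : V, A (w : E) = 0 := fun w => w.2
      rw [hBu, h1, hv]
      simp [h2]
    set Z := LinearMap.ker (B : E →ₗ[ℂ] E) with hZ
    have hZV : Z ≤ V := fun u hu => (hB0 u hu).1
    have hZf : FiniteDimensional ℂ Z := Submodule.finiteDimensional_of_le hZV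
    obtain ⟨ρ, hρ⟩ := Submodule.ClosedComplemented.of_finiteDimensional (𝕜 := ℂ) Z
    set Φ : E →L[ℂ] E × Z := B.prod ρ with hΦ
    have hΦi : Φ.ker = ⊥ := by
      rw [LinearMap.ker_eq_bot']
      intro u hu
      have h1 : B u = 0 := congrArg Prod.fst hu
      have h2 : ρ u = 0 := congrArg Prod.snd hu
      have h3 := hρ ⟨u, h1⟩
      rw [h2] at h3
      exact (congrArg Subtype.val h3).symm
    have hΦs : Φ.range = ⊤ := by
      rw [LinearMap.range_eq_top]
      rintro ⟨y, z⟩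
      obtain ⟨u, hu⟩ := hsurj y
      have h2 : ∀ w : Z, B (w : E) = 0 := fun w => w.2
      refine ⟨u - (ρ u : E) + (z : E), ?_⟩
      refine Prod.ext ?_ ?_
      · show B (u - (ρ u : E) + (z : E)) = y
        rw [map_add, map_sub, h2, h2, hu]
        abel
      · show ρ (u - (ρ u : E) + (z : E)) = z
        rw [map_add, map_sub, hρ, hρ]
        abel
    set e := ContinuousLinearEquiv.ofBijective Φ hΦi hΦs with he
    have heu : ∀ u, e.symm (B u, ρ u) = u := fun u => by
      have := ContinuousLinearEquiv.ofBijective_symm_apply_apply Φ hΦi hΦs u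
      exact this
    set S : E →L[ℂ] E := (e.symm : E × Z →L[ℂ] E).comp (ContinuousLinearMap.inl ℂ E Z) with hS
    refine ⟨S, ?_⟩
    have h1 : ((S * A - 1 : E →L[ℂ] E) : E →ₗ[ℂ] E) =
        (LinearMap.coprod (-((e.symm : E × Z →L[ℂ] E).comp (ContinuousLinearMap.inr ℂ E Z)) :
          Z →ₗ[ℂ] E) (-(S.comp J) : V →ₗ[ℂ] E)) ∘ₗ
        (LinearMap.prod (ρ : E →ₗ[ℂ] Z) (π : E →ₗ[ℂ] V)) := by
      ext u
      have h2 : S (A u) = S (B u) - S (J (π u)) := by
        rw [← map_sub]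
        congr 1
        rw [hBu, hJv]
        abel
      have h3 : S (B u) = u - e.symm (0, ρ u) := by
        have h4 : ((B u, 0) : E × Z) = (B u, ρ u) - (0, ρ u) := by
          ext <;> simp
        show e.symm (B u, 0) = _
        rw [h4, map_sub, heu]
      show S (A u) - u = -(e.symm (0, ρ u)) + -(S (J (π u)))
      rw [h2, h3]
      abel
    rw [h1]
    exact finrange_of_factor _ _

/-- **A left parametrix modulo compact operators gives `LP`.** -/
theorem lp_of_compact [CompleteSpace E] {P : E →L[ℂ] F} {G : F →L[ℂ] E} {K : E →L[ℂ] E}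
    (hK : IsCompactOperator K) (h : G.comp P = 1 + K) : LP P := by
  obtain ⟨A', hA'⟩ := lp_one_add hK
  refine ⟨A'.comp G, ?_⟩
  have h1 : (A'.comp G).comp P - 1 = A' * (1 + K) - 1 := by
    rw [← h]
    rfl
  rw [h1]
  exact hA'

/-- Pointwise form. -/
theorem lp_of_compact' [CompleteSpace E] {P : E →L[ℂ] F} {G : F →L[ℂ] E} {K : E →L[ℂ] E}
    (hK : IsCompactOperator K) (h : ∀ u, G (P u) = u + K u) : LP P :=
  lp_of_compact hK (by ext u; exact h u)

/-! ### Real segments -/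


/-- Pointwise-on-the-interval form with an arbitrary accumulation point. -/
theorem ker_Icc [CompleteSpace E] [CompleteSpace F] {P : ℝ → E →L[ℂ] F} {a b : ℝ}
    (hP : AnalyticOnNhd ℝ P (Icc a b)) (h : ∀ s ∈ Icc a b, LP (P s)) {N : ℕ} {s₁ : ℝ}
    (hs₁ : s₁ ∈ Icc a b) (hfr : ∃ᶠ s in 𝓝[≠] s₁, Ker (P s) N) : ∀ s ∈ Icc a b, Ker (P s) N :=
  ker_of_accum (𝕜 := ℝ) isPreconnected_Icc hP h hs₁ hfr

end Crest.Agent.R281.Semi_450
end

-- ▼ part R281/OpA1_450

/-!
# LEMMA A of the openness theorem (row 281, LEMMA OPEN', abstract analytic part)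

`d0 : E0 → E1`, `d1 : E1 → E2` bounded, `d0 T0 + T1 d1 = 1 - H` (`H` of finite rank), `LP d0`;
`D0 j → d0`, `D1 j → d1` in operator norm, `D1 j ∘ D0 j = 0`.  If `D0 j` has fewer kernel vectors
than `d0`, then for a subsequence `D0 j (u j v) = e j • Q j v`, `e j > 0`, `e j → 0`,
`u j v → v`, `Q j v → Q v`, `Q : ker d0 → range H` linear and non zero.
-/

set_option autoImplicit false

open Filter Topology Set

namespace Crest.Agent.R281.OpA_450

open Crest.Agent.R281.Semi_450 Module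

variable {E0 E1 E2 : Type*} [NormedAddCommGroup E0] [NormedSpace ℂ E0]
  [NormedAddCommGroup E1] [NormedSpace ℂ E1] [NormedAddCommGroup E2] [NormedSpace ℂ E2]

/-- kernel -/
abbrev KK (d : E0 →L[ℂ] E1) : Submodule ℂ E0 := LinearMap.ker (d : E0 →ₗ[ℂ] E1)

theorem mem_KK {d : E0 →L[ℂ] E1} {u : E0} : u ∈ KK d ↔ d u = 0 := Iff.rfl

theorem finiteDimensional_KK {d : E0 →L[ℂ] E1} (h : LP d) : FiniteDimensional ℂ (KK d) := by
  obtain ⟨G, hG⟩ := h
  refine Submodule.finiteDimensional_of_le (S₂ := LinearMap.range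
    ((G.comp d - 1 : E0 →L[ℂ] E0) : E0 →ₗ[ℂ] E0)) fun u hu => ⟨-u, ?_⟩
  have h1 : d u = 0 := hu
  show (G.comp d - 1) (-u) = u
  simp [h1]

/-- `d` is bounded below on a closed complement of its kernel. -/
theorem bounded_below {d : E0 →L[ℂ] E1} (h : LP d) (π : E0 →L[ℂ] KK d)
    (hπ : ∀ v : KK d, π v = v) :
    ∃ c > 0, ∀ w, π w = 0 → c * ‖w‖ ≤ ‖d w‖ := by
  obtain ⟨G, hG⟩ := h
  set R : E0 →L[ℂ] E0 := G.comp d - 1 with hR
  have hRw : ∀ w, R w = G (d w) - w := fun w => rfl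
  by_contra hcon
  push Not at hcon
  have h1 : ∀ k : ℕ, ∃ v : E0, π v = 0 ∧ ‖v‖ = 1 ∧ ‖d v‖ ≤ 1 / ((k : ℝ) + 1) := by
    intro k
    obtain ⟨w, hw, hlt⟩ := hcon (1 / ((k : ℝ) + 1)) (by positivity)
    have hw0 : w ≠ 0 := by
      rintro rfl
      simp at hlt
    have hn : ‖w‖ ≠ 0 := norm_ne_zero_iff.2 hw0
    refine ⟨((‖w‖⁻¹ : ℝ) : ℂ) • w, by rw [map_smul, hw, smul_zero], ?_, ?_⟩
    · rw [norm_smul, Complex.norm_real, norm_inv, norm_norm, inv_mul_cancel₀ hn]
    · rw [map_smul, norm_smul, Complex.norm_real, norm_inv, norm_norm]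
      rw [inv_mul_le_iff₀ (by positivity)]
      rw [mul_comm]
      exact hlt.le
  choose v hv0 hv1 hvd using h1
  -- `R v` has a convergent subsequence
  have hprop : ProperSpace (LinearMap.range (R : E0 →ₗ[ℂ] E0)) :=
    FiniteDimensional.proper ℂ _
  set r : ℕ → LinearMap.range (R : E0 →ₗ[ℂ] E0) := fun k => ⟨R (v k), ⟨v k, rfl⟩⟩ with hr
  have hrb : ∀ k, r k ∈ Metric.closedBall (0 : LinearMap.range (R : E0 →ₗ[ℂ] E0)) ‖R‖ := by
    intro k
    rw [mem_closedBall_zero_iff]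
    have := R.le_opNorm (v k)
    rw [hv1, mul_one] at this
    exact this
  obtain ⟨b, -, φ, hφ, hb⟩ := tendsto_subseq_of_bounded Metric.isBounded_closedBall hrb
  have hRb : Tendsto (fun k => R (v (φ k))) atTop (𝓝 (b : E0)) :=
    (continuous_subtype_val.tendsto b).comp hb
  have hd0 : Tendsto (fun k => d (v k)) atTop (𝓝 0) :=
    squeeze_zero_norm hvd tendsto_one_div_add_atTop_nhds_zero_nat
  have hd0' := hd0.comp hφ.tendsto_atTop
  have hvlim : Tendsto (fun k => v (φ k)) atTop (𝓝 (G 0 - (b : E0))) := by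
    have h2 : (fun k => v (φ k)) = fun k => G (d (v (φ k))) - R (v (φ k)) := by
      funext k
      rw [hRw]
      abel
    rw [h2]
    exact ((G.continuous.tendsto 0).comp hd0').sub hRb
  set w := G 0 - (b : E0) with hw
  have hw1 : ‖w‖ = 1 := by
    have h3 := (continuous_norm.tendsto w).comp hvlim
    have h4 : (norm ∘ fun k => v (φ k)) = fun _ => (1 : ℝ) := funext fun k => hv1 _
    rw [h4] at h3
    exact (tendsto_nhds_unique h3 tendsto_const_nhds)
  have hdw : d w = 0 :=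
    tendsto_nhds_unique ((d.continuous.tendsto w).comp hvlim) hd0'
  have hπw : π w = 0 := by
    have h3 := (π.continuous.tendsto w).comp hvlim
    have h4 : (⇑π ∘ fun k => v (φ k)) = fun _ => (0 : KK d) := funext fun k => hv0 _
    rw [h4] at h3
    exact (tendsto_nhds_unique h3 tendsto_const_nhds)
  have h5 := hπ ⟨w, hdw⟩
  rw [hπw] at h5
  have h6 : w = 0 := (congrArg Subtype.val h5).symm
  rw [h6, norm_zero] at hw1
  exact zero_ne_one hw1

/-! ### One perturbed operator -/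

section One

variable {d : E0 →L[ℂ] E1} (π : E0 →L[ℂ] KK d) {n : ℕ}
  (b : Basis (Fin n) ℂ (KK d))

/-- the restriction of `D` to the complement `ker π` -/
def res (D : E0 →L[ℂ] E1) : LinearMap.ker (π : E0 →ₗ[ℂ] KK d) →L[ℂ] E1 :=
  D.comp (LinearMap.ker (π : E0 →ₗ[ℂ] KK d)).subtypeL

/-- its range -/
def SS (D : E0 →L[ℂ] E1) : Submodule ℂ E1 := LinearMap.range (res π D).toLinearMap

theorem mem_SS {D : E0 →L[ℂ] E1} {y : E1} : y ∈ SS π D ↔ ∃ w, π w = 0 ∧ D w = y := by
  constructor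
  · rintro ⟨w, rfl⟩
    exact ⟨w, w.2, rfl⟩
  · rintro ⟨w, hw, rfl⟩
    exact ⟨⟨w, hw⟩, rfl⟩

theorem isClosed_SS [CompleteSpace E0] {D : E0 →L[ℂ] E1} {c : ℝ} (hc : 0 < c) (hD : ∀ w, π w = 0 → c * ‖w‖ ≤ ‖D w‖) :
    IsClosed (SS π D : Set E1) := by
  have hcomp : CompleteSpace (LinearMap.ker (π : E0 →ₗ[ℂ] KK d)) :=
    (π.isClosed_ker).completeSpace_coe
  have hanti : AntilipschitzWith (Real.toNNReal c⁻¹) (res π D) := by
    refine (res π D).antilipschitz_of_bound fun w => ?_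
    have h1 := hD w w.2
    have h2 : ‖(w : E0)‖ = ‖w‖ := rfl
    rw [Real.coe_toNNReal _ (inv_nonneg.2 hc.le), ← div_eq_inv_mul, le_div_iff₀ hc, mul_comm]
    exact h1
  have h3 := hanti.isClosed_range (res π D).uniformContinuous
  exact h3

/-- distance of `D (b i)` to `D (ker π)`, summed -/
noncomputable def ee (D : E0 →L[ℂ] E1) : ℝ :=
  ∑ i, ‖((SS π D).mkQ (D (b i : E0)) : E1 ⧸ SS π D)‖

theorem ee_nonneg (D : E0 →L[ℂ] E1) : 0 ≤ ee π b D :=
  Finset.sum_nonneg fun _ _ => norm_nonneg _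

theorem mkQ_le (D : E0 →L[ℂ] E1) (i : Fin n) :
    ‖((SS π D).mkQ (D (b i : E0)) : E1 ⧸ SS π D)‖ ≤ ee π b D :=
  Finset.single_le_sum (f := fun i => ‖((SS π D).mkQ (D (b i : E0)) : E1 ⧸ SS π D)‖)
    (fun _ _ => norm_nonneg _) (Finset.mem_univ i)

theorem ee_le (D : E0 →L[ℂ] E1) : ee π b D ≤ ∑ i, ‖D (b i : E0)‖ :=
  Finset.sum_le_sum fun _ _ => Submodule.Quotient.norm_mk_le _ _

/-- If all distances vanish, the kernel is large. -/
theorem ker_of_ee_zero [CompleteSpace E0] (hπ : ∀ v : KK d, π v = v) {D : E0 →L[ℂ] E1} {c : ℝ} (hc : 0 < c)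
    (hD : ∀ w, π w = 0 → c * ‖w‖ ≤ ‖D w‖) (h0 : ee π b D = 0) : Ker D n := by
  have h1 : ∀ i, ∃ w, π w = 0 ∧ D w = D (b i : E0) := by
    intro i
    rw [← mem_SS]
    have h2 : ‖((SS π D).mkQ (D (b i : E0)) : E1 ⧸ SS π D)‖ = 0 :=
      le_antisymm ((mkQ_le π b D i).trans h0.le) (norm_nonneg _)
    have h3 := (QuotientAddGroup.norm_mk_eq_zero_iff_mem_closure
      (S := (SS π D).toAddSubgroup)).1 h2
    rwa [Submodule.coe_toAddSubgroup, (isClosed_SS π hc hD).closure_eq] at h3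
  choose w hw hDw using h1
  refine ⟨fun i => (b i : E0) - w i, ?_, fun i => by rw [map_sub, hDw, sub_self]⟩
  apply LinearIndependent.of_comp (π : E0 →ₗ[ℂ] KK d)
  have h2 : (π : E0 →ₗ[ℂ] KK d) ∘ (fun i => (b i : E0) - w i) = b := by
    funext i
    show π ((b i : E0) - w i) = b i
    rw [map_sub, hπ, hw, sub_zero]
  rw [h2]
  exact b.linearIndependent

/-- linear selection -/
theorem exists_w {D : E0 →L[ℂ] E1} (h0 : 0 < ee π b D) (i : Fin n) :
    ∃ w, π w = 0 ∧ ‖D ((b i : E0) + w)‖ ≤ 2 * ee π b D := by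
  obtain ⟨m, hm, hlt⟩ := Submodule.Quotient.norm_mk_lt
    ((SS π D).mkQ (D (b i : E0)) : E1 ⧸ SS π D) h0
  have h1 : m - D (b i : E0) ∈ SS π D := (Submodule.Quotient.eq _).1 hm
  obtain ⟨w, hw, hDw⟩ := (mem_SS π).1 h1
  refine ⟨w, hw, ?_⟩
  have h2 : D ((b i : E0) + w) = m := by rw [map_add, hDw]; abel
  rw [h2]
  have := mkQ_le π b D i
  linarith

end One

end Crest.Agent.R281.OpA_450
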