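import Crest.Agent.R273.T8A_774
import Crest.Agent.R273.HodgeH_803
import Crest.Agent.R275.SupE_912
import Crest.Agent.R275.CnD_812
import Crest.Agent.R281.Op3b_569
import Mathlib.Analysis.Calculus.UniformLimitsDeriv
import Crest.Agent.R273.SerA_945
import Crest.Agent.R281.OpA1_450
import Mathlib.Analysis.Normed.Operator.Extend
import Mathlib.Analysis.Normed.Module.Completion
import Crest.Agent.R281.Rko3_396

-- ▼ part R281/OpC1_920
section

/-!
# R281 (S0424), OPEN-INST (M4) of #8087 (helper920), part 1: Sobolev bounds of all derivatives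

`S0 P B` the scale of Sobolev norms of `KRL2_803` on the smooth sections of `B`.

* `sec` : the section `u` read in the chart `i`;
* `D_le` : `card (RI n) < 2 N`, `K` a compact part of the target of the chart `i`:
  `‖D^m u_i‖ ≤ C ‖u‖_{m+N}` on `K`;
* `c0_le`, `c1_le` : the cases `m = 0`, `m = 1` (vector valued).
-/

set_option autoImplicit false
set_option linter.unusedSectionVars false
set_option linter.unusedVariables false

open Set Filter Topology Complex
open scoped ContDiff Matrix ComplexConjugate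

namespace Crest.Agent.R281.OpC_920

open Crest.Agent.R275 Crest.Agent.R275.Geo Crest.Agent.R275.Tor812 Crest.Agent.R275.TorS666
  Crest.Agent.R275.C1d194 Crest.Agent.R275.C2812
open Crest.Agent.R273.KRL2_803 Crest.Agent.R273.Psl_774 Crest.Agent.R273.L2K_774
open Crest.Agent.R273.T8_774 (nS_le_nrm0 nrm0_le_nS)

noncomputable section

variable {n : ℕ} {M : Type} [TopologicalSpace M] {A : Atl n M}

theorem smAt_vec {B : FBun A} (u : Sec B) (i : A.ι) :
    ContDiffOn ℝ ∞ (fun z => u.1 i ((A.e i).symm z)) (A.e i).target :=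
  contDiffOn_pi.2 fun k => u.2.1 i k

section

variable [Finite A.ι] (P : Part A) {B : FBun A}

/-- **Sobolev bounds of all the derivatives** on compact parts of the charts -/
theorem D_le [T2Space M] (m : ℕ) {N : ℕ} (hN : Fintype.card (RI n) < 2 * N) {i : A.ι}
    {K : Set (Cn n)} (hK : IsCompact K) (hKs : K ⊆ (A.e i).target) :
    ∃ C, 0 ≤ C ∧ ∀ u : Sec B, ∀ z ∈ K, ∀ k,
      ‖iteratedFDeriv ℝ m (fun z => u.1 i ((A.e i).symm z) k) z‖ ≤ C * (S0 P B).nrm (m + N) u := by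
  classical
  set K' : Set M := (A.e i).symm '' K with hK'
  have hK'c : IsCompact K' := hK.image_of_continuousOn ((A.e i).continuousOn_symm.mono hKs)
  have hK's : K' ⊆ (A.e i).source := by
    rintro _ ⟨z, hz, rfl⟩
    exact (A.e i).map_target (hKs hz)
  obtain ⟨φ, h1, -, h2, h3, h4⟩ := QN2b734.exists_bump A hK'c (A.e i).open_source hK's
  have hφ : A.Sm φ := QN2b734.sm_iff.2 h1
  have ha : IsAmp A i (fun x => ((φ x : ℝ) : ℂ) • (1 : Matrix B.κ B.κ ℂ)) :=
    isAmp_bump_const (hφ i) h3 h4 1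
  obtain ⟨D, hD, hDb⟩ := CnD812.norm_D_le_nrm (d := RI n) hN m
  choose C hC0 hC using fun k : B.κ => nrm_loc_le P B ha (m + N) k
  obtain ⟨C', hC'0, hC'⟩ := nS_le_nrm0 P (B := B) (m + N)
  refine ⟨Sup912.cr n ^ m * (D * ((∑ k, C k) * C')), by
    have := Sup912.cr_nonneg n
    have h5 : 0 ≤ ∑ k, C k := Finset.sum_nonneg fun k _ => hC0 k
    positivity, fun u z hz k => ?_⟩
  set F := loc A i (fun x => ((φ x : ℝ) : ℂ) • (1 : Matrix B.κ B.κ ℂ)) (u.1 i) with hF
  have hev : (fun z => u.1 i ((A.e i).symm z) k) =ᶠ[𝓝 z] fun z => F k (rc z) := by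
    have hcont : ContinuousAt (A.e i).symm z := (A.e i).continuousAt_symm (hKs hz)
    filter_upwards [(A.e i).open_target.mem_nhds (hKs hz),
      hcont.eventually (eventually_nhdsSet_iff_forall.1 h2 _ ⟨z, hz, rfl⟩)] with y hy hy1
    have hys : (A.e i).symm y ∈ (A.e i).source := (A.e i).map_target hy
    have h5 := loc_rc ha (u.2.1 i) k hys
    rw [(A.e i).right_inv hy, hy1, ofReal_one, one_smul, Matrix.one_mulVec] at h5
    exact h5.symm
  rw [(hev.iteratedFDeriv ℝ m).eq_of_nhds]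
  refine (Sup912.norm_iteratedFDeriv_comp_rc_le (F k) m z).trans ?_
  rw [mul_assoc]
  refine mul_le_mul_of_nonneg_left ((hDb (F k) _).trans ?_) (pow_nonneg (Sup912.cr_nonneg n) m)
  rw [mul_assoc]
  refine mul_le_mul_of_nonneg_left ((hC k u).trans ?_) hD
  rw [mul_assoc]
  exact mul_le_mul (Finset.single_le_sum (f := C) (fun k _ => hC0 k) (Finset.mem_univ k)) (hC' u)
    (nS_nonneg _ _ _ _) (Finset.sum_nonneg fun k _ => hC0 k)

/-- **(M4), values** -/
theorem c0_le [T2Space M] {t : ℕ} (ht : Fintype.card (RI n) < 2 * t) {i : A.ι}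
    {K : Set (Cn n)} (hK : IsCompact K) (hKs : K ⊆ (A.e i).target) :
    ∃ C, 0 ≤ C ∧ ∀ u : Sec B, ∀ z ∈ K,
      ‖u.1 i ((A.e i).symm z)‖ ≤ C * (S0 P B).nrm t u := by
  obtain ⟨C, hC0, hC⟩ := D_le P (B := B) 0 ht hK hKs
  refine ⟨C, hC0, fun u z hz => ?_⟩
  refine (pi_norm_le_iff_of_nonneg (mul_nonneg hC0 (apply_nonneg _ _))).2 fun k => ?_
  have h := hC u z hz k
  rwa [norm_iteratedFDeriv_zero, zero_add] at h

/-- **(M4), first derivatives** -/
theorem c1_le [T2Space M] {t : ℕ} (ht : Fintype.card (RI n) < 2 * (t - 1)) {i : A.ι}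
    {K : Set (Cn n)} (hK : IsCompact K) (hKs : K ⊆ (A.e i).target) :
    ∃ C, 0 ≤ C ∧ ∀ u : Sec B, ∀ z ∈ K,
      ‖fderiv ℝ (fun z => u.1 i ((A.e i).symm z)) z‖ ≤ C * (S0 P B).nrm t u := by
  obtain ⟨C, hC0, hC⟩ := D_le P (B := B) 1 ht hK hKs
  have h1t : 1 + (t - 1) = t := by omega
  refine ⟨C, hC0, fun u z hz => ?_⟩
  have hd : ∀ k, DifferentiableAt ℝ (fun z => u.1 i ((A.e i).symm z) k) z := fun k =>
    ((u.2.1 i k).contDiffAt ((A.e i).open_target.mem_nhds (hKs hz))).differentiableAt (by simp)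
  rw [fderiv_pi hd]
  refine ContinuousLinearMap.opNorm_le_bound _ (mul_nonneg hC0 (apply_nonneg _ _)) fun v => ?_
  refine (pi_norm_le_iff_of_nonneg (mul_nonneg (mul_nonneg hC0 (apply_nonneg _ _))
    (norm_nonneg _))).2 fun k => ?_
  have h := hC u z hz k
  rw [norm_iteratedFDeriv_one, h1t] at h
  rw [ContinuousLinearMap.pi_apply]
  exact (ContinuousLinearMap.le_opNorm _ v).trans (mul_le_mul_of_nonneg_right h (norm_nonneg _))

end

end

end Crest.Agent.R281.OpC_920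
end

-- ▼ part R281/OpC2_920
section

/-!
# R281 (S0424), OPEN-INST (M4) of #8087 (helper920), part 2: limits in `C¹`

* `C1F B v` : `v` is a compatible family of class `C¹` (a `C¹` section of `B`);
* `C1T l u v` : `u → v` along `l`, uniformly with the first derivatives on compact parts of the
  targets of the charts;
* `exists_lim` : a sequence of smooth sections which is Cauchy for `(S0 P B).nrm t`,
  `card (RI n) < 2 (t - 1)`, converges in this sense to a `C1F`; `lim_le` : the bounds of the limit;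
* `C1T_of_nrm` : convergence in `nrm t` implies `C1T`;
* `C1T.cc` : continuous convergence (569).
-/

set_option autoImplicit false
set_option linter.unusedSectionVars false
set_option linter.unusedVariables false

open Set Filter Topology Complex
open scoped ContDiff Matrix ComplexConjugate

namespace Crest.Agent.R281.OpC_920

open Crest.Agent.R275 Crest.Agent.R275.Geo Crest.Agent.R275.Tor812 Crest.Agent.R275.TorS666
  Crest.Agent.R275.C1d194 Crest.Agent.R275.C2812
open Crest.Agent.R273.KRL2_803 Crest.Agent.R273.Psl_774 Crest.Agent.R273.L2K_774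
open Crest.Agent.R273.HodgeH_803.HodgeOp (Cau)
open Crest.Agent.R281.Op3_569 (CC)

noncomputable section

variable {n : ℕ} {M : Type} [TopologicalSpace M] {A : Atl n M} {B : FBun A}

/-- `C¹` sections of `B` -/
structure C1F (B : FBun A) (v : A.ι → M → B.κ → ℂ) : Prop where
  c1 : ∀ i, ContDiffOn ℝ 1 (fun z => v i ((A.e i).symm z)) (A.e i).target
  off : ∀ i, ∀ x ∉ (A.e i).source, v i x = 0
  tr : ∀ i j, ∀ x ∈ (A.e i).source ∩ (A.e j).source, v i x = (B.τ i j x) *ᵥ (v j x)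

theorem C1F.of_sec (u : Sec B) : C1F B u.1 :=
  ⟨fun i => (smAt_vec u i).of_le (by exact_mod_cast le_top), u.2.2.1, u.2.2.2⟩

theorem C1F.add {v w : A.ι → M → B.κ → ℂ} (hv : C1F B v) (hw : C1F B w) :
    C1F B (fun i x => v i x + w i x) where
  c1 i := (hv.c1 i).add (hw.c1 i)
  off i x hx := by rw [hv.off i x hx, hw.off i x hx, add_zero]
  tr i j x hx := by rw [hv.tr i j x hx, hw.tr i j x hx, Matrix.mulVec_add]

theorem C1F.smul {v : A.ι → M → B.κ → ℂ} (hv : C1F B v) (c : ℂ) :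
    C1F B (fun i x => c • v i x) where
  c1 i := (hv.c1 i).const_smul c
  off i x hx := by rw [hv.off i x hx, smul_zero]
  tr i j x hx := by rw [hv.tr i j x hx, Matrix.mulVec_smul]

/-- a `C¹` section which is smooth in the charts is a section -/
theorem C1F.mem_sec {v : A.ι → M → B.κ → ℂ} (hv : C1F B v)
    (hs : ∀ i, ContDiffOn ℝ ∞ (fun z => v i ((A.e i).symm z)) (A.e i).target) : v ∈ Sec B :=
  ⟨fun i k => (contDiffOn_pi.1 (hs i)) k, hv.off, hv.tr⟩

/-- convergence in `C¹` on compact parts of the charts -/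
structure C1T {σ : Type*} (l : Filter σ) (u : σ → A.ι → M → B.κ → ℂ) (v : A.ι → M → B.κ → ℂ) :
    Prop where
  c0 : ∀ i, ∀ K : Set (Cn n), IsCompact K → K ⊆ (A.e i).target →
    TendstoUniformlyOn (fun p z => u p i ((A.e i).symm z)) (fun z => v i ((A.e i).symm z)) l K
  c1 : ∀ i, ∀ K : Set (Cn n), IsCompact K → K ⊆ (A.e i).target →
    TendstoUniformlyOn (fun p => fderiv ℝ (fun z => u p i ((A.e i).symm z)))
      (fderiv ℝ (fun z => v i ((A.e i).symm z))) l K

theorem C1T.comp {σ ρ : Type*} {l : Filter σ} {l' : Filter ρ} {u : σ → A.ι → M → B.κ → ℂ}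
    {v : A.ι → M → B.κ → ℂ} (h : C1T l u v) {φ : ρ → σ} (hφ : Tendsto φ l' l) :
    C1T l' (fun p => u (φ p)) v :=
  ⟨fun i K hK hKs s hs => hφ.eventually (h.c0 i K hK hKs s hs),
    fun i K hK hKs s hs => hφ.eventually (h.c1 i K hK hKs s hs)⟩

/-- continuous convergence of the values -/
theorem C1T.cc_vec {σ : Type*} {l : Filter σ} {u : σ → A.ι → M → B.κ → ℂ}
    {v : A.ι → M → B.κ → ℂ} (h : C1T l u v)
    (hv : ∀ i, ContinuousOn (fun z => v i ((A.e i).symm z)) (A.e i).target) (i : A.ι) {x : M}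
    (hx : x ∈ (A.e i).source) : CC l (fun p => u p i) (v i) x := by
  have hxt := (A.e i).map_source hx
  obtain ⟨r, hr, hrs⟩ := Metric.nhds_basis_closedBall.mem_iff.1 ((A.e i).open_target.mem_nhds hxt)
  have hU := h.c0 i _ (isCompact_closedBall (A.e i x) r) hrs
  have hcx : ContinuousAt (A.e i) x := (A.e i).continuousAt hx
  have hcv : ContinuousAt (fun z => v i ((A.e i).symm z)) (A.e i x) :=
    (hv i).continuousAt ((A.e i).open_target.mem_nhds hxt)
  unfold CC
  rw [Metric.tendsto_nhds]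
  intro ε hε
  have h1 := (Metric.tendstoUniformlyOn_iff.1 hU) (ε / 2) (half_pos hε)
  have h2 : ∀ᶠ y in 𝓝 x, A.e i y ∈ Metric.closedBall (A.e i x) r ∧ y ∈ (A.e i).source ∧
      dist (v i ((A.e i).symm (A.e i y))) (v i ((A.e i).symm (A.e i x))) < ε / 2 := by
    refine (hcx.eventually (Metric.closedBall_mem_nhds _ hr)).and
      ((show ∀ᶠ y in 𝓝 x, y ∈ (A.e i).source from (A.e i).open_source.mem_nhds hx).and ?_)
    exact (hcv.tendsto.comp hcx.tendsto).eventually (Metric.ball_mem_nhds _ (half_pos hε))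
  filter_upwards [h1.prod_mk h2] with p hp
  obtain ⟨hp1, hp2, hp3, hp4⟩ := hp
  have h3 := hp1 _ hp2
  simp only [(A.e i).left_inv hp3, (A.e i).left_inv hx] at h3 hp4
  rw [dist_comm] at h3
  calc dist (u p.1 i p.2) (v i x) ≤ dist (u p.1 i p.2) (v i p.2) + dist (v i p.2) (v i x) :=
        dist_triangle _ _ _
    _ < ε := by linarith

/-- continuous convergence of the components -/
theorem C1T.cc {σ : Type*} {l : Filter σ} {u : σ → A.ι → M → B.κ → ℂ}
    {v : A.ι → M → B.κ → ℂ} (h : C1T l u v)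
    (hv : ∀ i, ContinuousOn (fun z => v i ((A.e i).symm z)) (A.e i).target) (i : A.ι) (k : B.κ)
    {x : M} (hx : x ∈ (A.e i).source) : CC l (fun p x => u p i x k) (fun x => v i x k) x :=
  ((continuous_apply k).tendsto (v i x)).comp (h.cc_vec hv i hx)

/-! ### local limits -/

section loc

variable {E F : Type*} [NormedAddCommGroup E] [NormedSpace ℝ E] [ProperSpace E]
  [NormedAddCommGroup F] [NormedSpace ℝ F] [CompleteSpace F]

/-- a sequence of `C¹` functions which is Cauchy in `C¹` on the compact subsets of an open set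
converges -/
theorem exists_lim_loc {U : Set E} (hU : IsOpen U) {f : ℕ → E → F}
    (hf : ∀ m, ContDiffOn ℝ 1 (f m) U)
    (h0 : ∀ K, IsCompact K → K ⊆ U → UniformCauchySeqOn f atTop K)
    (h1 : ∀ K, IsCompact K → K ⊆ U → UniformCauchySeqOn (fun m => fderiv ℝ (f m)) atTop K)
    {g : E → F} (hg : ∀ z ∈ U, Tendsto (fun m => f m z) atTop (𝓝 (g z))) :
    ContDiffOn ℝ 1 g U ∧ (∀ K, IsCompact K → K ⊆ U → TendstoUniformlyOn f g atTop K) ∧
      ∀ K, IsCompact K → K ⊆ U →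
        TendstoUniformlyOn (fun m => fderiv ℝ (f m)) (fderiv ℝ g) atTop K := by
  have hcau : ∀ z ∈ U, ∃ L, Tendsto (fun m => fderiv ℝ (f m) z) atTop (𝓝 L) := fun z hz =>
    cauchySeq_tendsto_of_complete
      ((h1 {z} isCompact_singleton (singleton_subset_iff.2 hz)).cauchySeq rfl)
  classical
  choose! g' hg' using hcau
  have hT0 : ∀ K, IsCompact K → K ⊆ U → TendstoUniformlyOn f g atTop K := fun K hK hKU =>
    (h0 K hK hKU).tendstoUniformlyOn_of_tendsto fun z hz => hg z (hKU hz)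
  have hT1 : ∀ K, IsCompact K → K ⊆ U →
      TendstoUniformlyOn (fun m => fderiv ℝ (f m)) g' atTop K := fun K hK hKU =>
    (h1 K hK hKU).tendstoUniformlyOn_of_tendsto fun z hz => hg' z (hKU hz)
  have hL1 : TendstoLocallyUniformlyOn (fun m => fderiv ℝ (f m)) g' atTop U :=
    (tendstoLocallyUniformlyOn_iff_forall_isCompact hU).2 fun K hKU hK => hT1 K hK hKU
  have hd : ∀ m, ∀ z ∈ U, HasFDerivAt (f m) (fderiv ℝ (f m) z) z := fun m z hz =>
    (((hf m).contDiffAt (hU.mem_nhds hz)).differentiableAt one_ne_zero).hasFDerivAt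
  have hgd : ∀ z ∈ U, HasFDerivAt g (g' z) z := fun z hz =>
    hasFDerivAt_of_tendstoLocallyUniformlyOn hU hL1 hd hg hz
  have hcont : ContinuousOn g' U := hL1.continuousOn (Frequently.of_forall fun m => by
    exact ((hf m).continuousOn_fderiv_of_isOpen hU le_rfl))
  have hg'e : ∀ z ∈ U, fderiv ℝ g z = g' z := fun z hz => (hgd z hz).fderiv
  refine ⟨?_, hT0, fun K hK hKU => ?_⟩
  · have := (contDiffOn_succ_iff_fderiv_of_isOpen (𝕜 := ℝ) (n := 0) (f := g) hU).2
      ⟨fun z hz => (hgd z hz).differentiableAt.differentiableWithinAt, by simp,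
        contDiffOn_zero.2 (hcont.congr hg'e)⟩
    simpa using this
  · exact (hT1 K hK hKU).congr_right fun z hz => (hg'e z (hKU hz)).symm

end loc

/-! ### limits of Cauchy sequences of sections -/

section

variable [Finite A.ι] (P : Part A)

theorem fderiv_sub_sec (u w : Sec B) (i : A.ι) {z : Cn n} (hz : z ∈ (A.e i).target) :
    fderiv ℝ (fun z => (u - w).1 i ((A.e i).symm z)) z =
      fderiv ℝ (fun z => u.1 i ((A.e i).symm z)) z - fderiv ℝ (fun z => w.1 i ((A.e i).symm z)) z := by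
  have h : ∀ u : Sec B, DifferentiableAt ℝ (fun z => u.1 i ((A.e i).symm z)) z := fun u =>
    ((smAt_vec u i).contDiffAt ((A.e i).open_target.mem_nhds hz)).differentiableAt (by simp)
  exact fderiv_fun_sub (h u) (h w)

/-- convergence in the norm implies convergence in `C¹` -/
theorem C1T_of_nrm [T2Space M] {t : ℕ} (ht : Fintype.card (RI n) < 2 * (t - 1)) {σ : Type*}
    {l : Filter σ} {u : σ → Sec B} {v : Sec B}
    (h : Tendsto (fun p => (S0 P B).nrm t (u p - v)) l (𝓝 0)) :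
    C1T l (fun p => (u p).1) v.1 := by
  constructor
  · intro i K hK hKs
    obtain ⟨C, hC0, hC⟩ := c0_le P (B := B) (t := t) (by omega) hK hKs
    rw [Metric.tendstoUniformlyOn_iff]
    intro ε hε
    have h1 := h.const_mul C
    rw [mul_zero] at h1
    filter_upwards [(tendsto_order.1 h1).2 ε hε] with p hp z hz
    rw [dist_comm, dist_eq_norm]
    exact lt_of_le_of_lt (hC (u p - v) z hz) hp
  · intro i K hK hKs
    obtain ⟨C, hC0, hC⟩ := c1_le P (B := B) ht hK hKs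
    rw [Metric.tendstoUniformlyOn_iff]
    intro ε hε
    have h1 := h.const_mul C
    rw [mul_zero] at h1
    filter_upwards [(tendsto_order.1 h1).2 ε hε] with p hp z hz
    rw [dist_comm, dist_eq_norm]
    have h2 := hC (u p - v) z hz
    rw [fderiv_sub_sec _ _ _ (hKs hz)] at h2
    exact lt_of_le_of_lt h2 hp

/-- **(M4): Cauchy sequences of smooth sections converge in `C¹`** -/
theorem exists_lim [T2Space M] {t : ℕ} (ht : Fintype.card (RI n) < 2 * (t - 1))
    {u : ℕ → Sec B} (hu : Cau P B t u) :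
    ∃ v : A.ι → M → B.κ → ℂ, C1F B v ∧ C1T atTop (fun m => (u m).1) v ∧
      ∀ i x, Tendsto (fun m => (u m).1 i x) atTop (𝓝 (v i x)) := by
  have hc0 : ∀ i, ∀ K, IsCompact K → K ⊆ (A.e i).target →
      UniformCauchySeqOn (fun m z => (u m).1 i ((A.e i).symm z)) atTop K := by
    intro i K hK hKs
    obtain ⟨C, hC0, hC⟩ := c0_le P (B := B) (t := t) (by omega) hK hKs
    rw [Metric.uniformCauchySeqOn_iff]
    intro ε hε
    obtain ⟨N, hN⟩ := hu (ε / (C + 1)) (by positivity)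
    refine ⟨N, fun m hm k hk z hz => ?_⟩
    rw [dist_eq_norm]
    refine lt_of_le_of_lt (hC (u m - u k) z hz) ?_
    have h1 := hN m hm k hk
    calc C * (S0 P B).nrm t (u m - u k) ≤ C * (ε / (C + 1)) := mul_le_mul_of_nonneg_left h1.le hC0
      _ < ε := by
        rw [mul_div_assoc', div_lt_iff₀ (by positivity)]
        nlinarith
  have hc1 : ∀ i, ∀ K, IsCompact K → K ⊆ (A.e i).target →
      UniformCauchySeqOn (fun m => fderiv ℝ (fun z => (u m).1 i ((A.e i).symm z))) atTop K := by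
    intro i K hK hKs
    obtain ⟨C, hC0, hC⟩ := c1_le P (B := B) ht hK hKs
    rw [Metric.uniformCauchySeqOn_iff]
    intro ε hε
    obtain ⟨N, hN⟩ := hu (ε / (C + 1)) (by positivity)
    refine ⟨N, fun m hm k hk z hz => ?_⟩
    rw [dist_eq_norm]
    have h2 := hC (u m - u k) z hz
    rw [fderiv_sub_sec _ _ _ (hKs hz)] at h2
    refine lt_of_le_of_lt h2 ?_
    have h1 := hN m hm k hk
    calc C * (S0 P B).nrm t (u m - u k) ≤ C * (ε / (C + 1)) := mul_le_mul_of_nonneg_left h1.le hC0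
      _ < ε := by
        rw [mul_div_assoc', div_lt_iff₀ (by positivity)]
        nlinarith
  have hpt : ∀ i x, ∃ y, Tendsto (fun m => (u m).1 i x) atTop (𝓝 y) := by
    intro i x
    by_cases hx : x ∈ (A.e i).source
    · have h1 := (hc0 i {A.e i x} isCompact_singleton
        (singleton_subset_iff.2 ((A.e i).map_source hx))).cauchySeq rfl
      simp only [(A.e i).left_inv hx] at h1
      exact cauchySeq_tendsto_of_complete h1
    · exact ⟨0, tendsto_const_nhds.congr fun m => ((u m).2.2.1 i x hx).symm⟩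
  choose v hv using hpt
  have hloc : ∀ i, _ := fun i => exists_lim_loc (A.e i).open_target
    (f := fun m z => (u m).1 i ((A.e i).symm z)) (g := fun z => v i ((A.e i).symm z))
    (fun m => (smAt_vec (u m) i).of_le (by exact_mod_cast le_top)) (hc0 i) (hc1 i)
    (fun z _ => hv i _)
  refine ⟨v, ⟨fun i => (hloc i).1, fun i x hx => ?_, fun i j x hx => ?_⟩,
    ⟨fun i => (hloc i).2.1, fun i => (hloc i).2.2⟩, hv⟩
  · exact tendsto_nhds_unique (hv i x)
      (tendsto_const_nhds.congr fun m => ((u m).2.2.1 i x hx).symm)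
  · have h1 : Tendsto (fun m => (B.τ i j x) *ᵥ ((u m).1 j x)) atTop
        (𝓝 ((B.τ i j x) *ᵥ (v j x))) :=
      ((Continuous.matrix_mulVec continuous_const continuous_id).tendsto (v j x)).comp (hv j x)
    exact tendsto_nhds_unique (hv i x) (h1.congr fun m => ((u m).2.2.2 i j x hx).symm)


end

end

end Crest.Agent.R281.OpC_920
end

-- ▼ part R281/OpC3_920
section

/-!
# R281 (S0424), OPEN-INST (M4) of #8087 (helper920), part 3: families of limits, line bundles

* `exists_lim_fam` : small corrections `w p : ℕ → Sec B` (Cauchy, `nrm t ≤ R p`, `R → 0` along `l`)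
  of a smooth section `u0` have `C¹` limits `v p` and `u0 + v p → u0` in `C¹`;
* `C1F.comp0` : the degree zero component of a `C¹` section of `BN N` is a `C¹` section of `N`.
-/

set_option autoImplicit false
set_option linter.unusedSectionVars false
set_option linter.unusedVariables false

open Set Filter Topology Complex
open scoped ContDiff Matrix ComplexConjugate

namespace Crest.Agent.R281.OpC_920

open Crest.Agent.R275 Crest.Agent.R275.Geo Crest.Agent.R275.Core144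
open Crest.Agent.R273.KRL2_803 Crest.Agent.R273.LamN127
open Crest.Agent.R273.HodgeH_803.HodgeOp (Cau)
open Crest.Agent.R281.Op3_569 (CC)

noncomputable section

variable {n : ℕ} {M : Type} [TopologicalSpace M] {A : Atl n M} {B : FBun A}




/-! ### line bundles -/

/-- `C¹` sections of a line bundle -/
structure IsS1 (N : LB A) (f : A.ι → M → ℂ) : Prop where
  c1 : ∀ i, ContDiffOn ℝ 1 (fun z => f i ((A.e i).symm z)) (A.e i).target
  tr : ∀ i j, ∀ x ∈ (A.e i).source ∩ (A.e j).source, f i x = N.g i j x * f j x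

/-- the degree zero component -/
theorem C1F.comp0 {N : LB A} {v : A.ι → M → (BN N).κ → ℂ} (hv : C1F (BN N) v) :
    IsS1 N (fun i x => v i x ((∅ : Finset (Fin n)), ())) where
  c1 i := (contDiffOn_pi.1 (hv.c1 i)) ((∅ : Finset (Fin n)), ())
  tr i j x hx := by
    have h1 := congrFun (hv.tr i j x hx) ((∅ : Finset (Fin n)), ())
    rw [h1]
    show ∑ l : Finset (Fin n) × Unit, (Crest.Agent.R273.Fock_243.Gam (Jb A i j x)) ∅ l.1 * N.g i j x * v j x l = _
    rw [Finset.sum_eq_single ((∅ : Finset (Fin n)), ())]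
    · rw [Crest.Agent.R273.Fock_243.Gam_vac, if_pos rfl, one_mul]
      rfl
    · rintro ⟨S, a⟩ _ hS
      have hS' : S ≠ ∅ := fun h => hS (by rw [h])
      rw [Crest.Agent.R273.Fock_243.Gam_of_ne _ (by
        rw [Finset.card_empty]
        exact fun h => hS' (Finset.card_eq_zero.1 h.symm)), zero_mul, zero_mul]
    · simp


end

end Crest.Agent.R281.OpC_920
end

-- ▼ part R281/OpC4_920
section

/-!
# R281 (S0424), OPEN-INST (M4) of #8087 (helper920), part 4: closedness of the Sobolev norms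

* `nrm_tendsto_zero` (torus) : Cauchy for `nrm s` and Fourier coefficients `→ 0` ⟹ `nrm s → 0`;
* `tendsto_of_nrm0` : `Cau P B t u`, `(S0 P B).nrm 0 (u m) → 0` ⟹ `(S0 P B).nrm t (u m) → 0`;
* `nrm0_of_c0` : uniform convergence to `0` on compact parts of the charts ⟹ `nrm 0 → 0`;
* `tendsto_of_C1T` : `Cau P B t u`, `u m → v` in `C¹` (`C⁰` is enough), `v` a SMOOTH section ⟹
  `(S0 P B).nrm t (u m - v) → 0`;
* `hreg_of` : the hypothesis `hreg` of 450's `open_abs` from the regularity of `C¹` solutions.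
-/

set_option autoImplicit false
set_option linter.unusedSectionVars false
set_option linter.unusedVariables false

open Set Filter Topology Complex
open scoped ContDiff Matrix ComplexConjugate

namespace Crest.Agent.R281.OpC_920

open Crest.Agent.R275 Crest.Agent.R275.Geo Crest.Agent.R275.Tor812 Crest.Agent.R275.TorS666
  Crest.Agent.R275.C1d194 Crest.Agent.R275.C2812
open Crest.Agent.R273.KRL2_803 Crest.Agent.R273.Psl_774 Crest.Agent.R273.L2K_774
open Crest.Agent.R273.T8_774 (nS_le_nrm0 nrm0_le_nS)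
open Crest.Agent.R273.HodgeH_803.HodgeOp (Cau)

noncomputable section

/-! ### the torus -/

section torus

variable {d : Type} [Fintype d]

theorem norm_desc_le {f : SPer d} {E : ℝ} (hE : 0 ≤ E) (h : ∀ x, ‖f x‖ ≤ E) : ‖desc f‖ ≤ E := by
  refine (ContinuousMap.norm_le _ hE).2 fun y => ?_
  obtain ⟨x, rfl⟩ := isOpenQuotientMap_pr.surjective y
  rw [desc_pr]
  exact h x

/-- a Cauchy sequence for `nrm s` whose Fourier coefficients tend to zero tends to zero -/
theorem nrm_tendsto_zero {s : ℕ} {f : ℕ → SPer d}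
    (hc : ∀ ε > 0, ∃ N, ∀ m ≥ N, ∀ l ≥ N, nrm s (f m - f l) < ε)
    (h0 : ∀ k, Tendsto (fun m => fc (f m) k) atTop (𝓝 0)) :
    Tendsto (fun m => nrm s (f m)) atTop (𝓝 0) := by
  have hcs : CauchySeq fun m => emb s (f m) := by
    rw [Metric.cauchySeq_iff]
    intro ε hε
    obtain ⟨N, hN⟩ := hc ε hε
    refine ⟨N, fun m hm l hl => ?_⟩
    rw [dist_eq_norm, ← map_sub]
    exact hN m hm l hl
  obtain ⟨L, hL⟩ := cauchySeq_tendsto_of_complete hcs
  have hL0 : L = 0 := by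
    ext k
    have h1 : Tendsto (fun m => (emb s (f m)) k) atTop (𝓝 (L k)) :=
      ((lp.evalCLM ℂ (fun _ : d → ℤ => ℂ) 2 k).continuous.tendsto L).comp hL
    have h2 : Tendsto (fun m => (emb s (f m)) k) atTop (𝓝 0) := by
      have h3 := (h0 k).const_mul (((br k ^ s : ℝ)) : ℂ)
      rw [mul_zero] at h3
      refine h3.congr fun m => ?_
      rw [emb_apply]
    exact tendsto_nhds_unique h1 h2
  have h4 := hL.norm
  rw [hL0, norm_zero] at h4
  exact h4

end torus

/-! ### sections -/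

variable {n : ℕ} {M : Type} [TopologicalSpace M] {A : Atl n M} {B : FBun A}

theorem cont_of_smAt {W : Type*} [NormedAddCommGroup W] [NormedSpace ℝ W] {i : A.ι}
    {f : M → W} (h : A.SmAt i f) : ContinuousOn f (A.e i).source := by
  have h1 : ContinuousOn (fun x => f ((A.e i).symm (A.e i x))) (A.e i).source :=
    h.continuousOn.comp (A.e i).continuousOn fun x hx => (A.e i).map_source hx
  exact h1.congr fun x hx => by
    show f x = f ((A.e i).symm (A.e i x))
    rw [(A.e i).left_inv hx]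

section

variable [Finite A.ι] (P : Part A)

/-- from the coefficients of all the localisations -/
theorem nS_tendsto_zero {t : ℕ} {u : ℕ → Sec B} (hu : Cau P B t u)
    (h0 : ∀ i k κ, Tendsto (fun m => fc (loc A i (P.psi B.κ i) ((u m).1 i) k) κ) atTop (𝓝 0)) :
    Tendsto (fun m => nS P B t (u m)) atTop (𝓝 0) := by
  have := Fintype.ofFinite A.ι
  obtain ⟨C, hC0, hC⟩ := nS_le_nrm0 P (B := B) t
  have hterm : ∀ i k, Tendsto (fun m => nrm t (loc A i (P.psi B.κ i) ((u m).1 i) k)) atTop (𝓝 0) := by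
    intro i k
    refine nrm_tendsto_zero (fun ε hε => ?_) (h0 i k)
    obtain ⟨N, hN⟩ := hu (ε / (C + 1)) (by positivity)
    refine ⟨N, fun m hm l hl => ?_⟩
    have e : loc A i (P.psi B.κ i) ((u m).1 i) k - loc A i (P.psi B.κ i) ((u l).1 i) k =
        loc A i (P.psi B.κ i) ((u m - u l).1 i) k :=
      (congrFun (congrFun (LocF_subS P B (P.amp_psi B.κ) (u m) (u l)) i) k).symm
    rw [e]
    have h1 : nrm t (loc A i (P.psi B.κ i) ((u m - u l).1 i) k) ≤ nS P B t (u m - u l) :=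
      nrm_le_nF t (LocF B (P.psi B.κ) (u m - u l).1) i k
    have h2 := hN m hm l hl
    calc _ ≤ nS P B t (u m - u l) := h1
      _ ≤ C * (S0 P B).nrm t (u m - u l) := hC _
      _ ≤ C * (ε / (C + 1)) := mul_le_mul_of_nonneg_left h2.le hC0
      _ < ε := by
        rw [mul_div_assoc', div_lt_iff₀ (by positivity)]
        nlinarith
  simp only [nS_eq]
  have h5 := tendsto_finsetSum (f := fun i m => ∑ k, nrm t (loc A i (P.psi B.κ i) ((u m).1 i) k))
    (a := fun _ => 0) Finset.univ fun i _ => by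
      have := tendsto_finsetSum (f := fun k m => nrm t (loc A i (P.psi B.κ i) ((u m).1 i) k))
        (a := fun _ => 0) Finset.univ fun k _ => hterm i k
      simpa using this
  simpa using h5


/-- uniform convergence to zero on compact parts of the charts -/
theorem nrm_of_c0 {t : ℕ} {u : ℕ → Sec B} (hu : Cau P B t u)
    (h0 : ∀ i, ∀ K : Set (Cn n), IsCompact K → K ⊆ (A.e i).target → ∀ ε > 0, ∀ᶠ m in atTop,
      ∀ z ∈ K, ‖(u m).1 i ((A.e i).symm z)‖ ≤ ε) :
    Tendsto (fun m => (S0 P B).nrm t (u m)) atTop (𝓝 0) := by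
  refine squeeze_zero (fun m => apply_nonneg _ _) (fun m => nrm0_le_nS P t _)
    (nS_tendsto_zero P hu fun i k κ => ?_)
  obtain ⟨D, hD⟩ := (P.χ_cpt i).exists_bound_of_continuousOn
    ((cont_of_smAt (P.ψ_sm i i)).mono (P.χ_sub i))
  set D' := max D 0 with hD'
  have hD'0 : 0 ≤ D' := le_max_right _ _
  set K : Set (Cn n) := A.e i '' tsupport (P.χ i) with hK
  have hKc : IsCompact K := (P.χ_cpt i).image_of_continuousOn
    ((A.e i).continuousOn.mono (P.χ_sub i))
  have hKs : K ⊆ (A.e i).target := by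
    rintro _ ⟨x, hx, rfl⟩
    exact (A.e i).map_source (P.χ_sub i hx)
  rw [Metric.tendsto_nhds]
  intro ε hε
  filter_upwards [h0 i K hKc hKs (ε / 2 / (D' + 1)) (by positivity)] with m hm
  rw [dist_zero_right]
  have hE0 : 0 ≤ D' * (ε / 2 / (D' + 1)) := by positivity
  refine lt_of_le_of_lt (norm_fc_le _ κ) (lt_of_le_of_lt (norm_desc_le hE0 fun x => ?_)
    (?_ : D' * (ε / 2 / (D' + 1)) < ε))
  · have h1 := Sup912.norm_iteratedFDeriv_loc_le ((P.amp_psi B.κ).amp i) ((u m).2.1 i) k (m := 0)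
      hE0 (fun y hy => ?_) x
    · rwa [norm_iteratedFDeriv_zero, pow_zero, one_mul] at h1
    · have hy' : y ∈ tsupport (P.χ i) := (P.amp_psi B.κ).sub i hy
      have hys := P.χ_sub i hy'
      rw [norm_iteratedFDeriv_zero]
      have h2 := hm (A.e i y) ⟨y, hy', rfl⟩
      rw [(A.e i).left_inv hys] at h2
      rw [(A.e i).left_inv hys]
      have h3 : (P.psi B.κ i y *ᵥ (u m).1 i y) k = (P.ψ i y : ℂ) * (u m).1 i y k := by
        show (((P.ψ i y : ℂ) • (1 : Matrix B.κ B.κ ℂ)) *ᵥ (u m).1 i y) k = _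
        rw [Matrix.smul_mulVec, Matrix.one_mulVec]
        rfl
      rw [h3, norm_mul, Complex.norm_real]
      exact mul_le_mul ((hD y hy').trans (le_max_left _ _)) ((norm_le_pi_norm _ k).trans h2)
        (norm_nonneg _) hD'0
  · rw [mul_div_assoc', div_lt_iff₀ (by positivity)]
    nlinarith

/-- **closedness**: a Cauchy sequence for `nrm t` which converges in `C⁰` to a smooth section
converges for `nrm t` -/
theorem tendsto_of_C1T {t : ℕ} {u : ℕ → Sec B} (hu : Cau P B t u) {v : Sec B}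
    (h : C1T atTop (fun m => (u m).1) v.1) :
    Tendsto (fun m => (S0 P B).nrm t (u m - v)) atTop (𝓝 0) := by
  refine nrm_of_c0 P (u := fun m => u m - v) (fun ε hε => ?_) fun i K hK hKs ε hε => ?_
  · obtain ⟨N, hN⟩ := hu ε hε
    refine ⟨N, fun m hm l hl => ?_⟩
    rw [sub_sub_sub_cancel_right]
    exact hN m hm l hl
  · filter_upwards [(Metric.tendstoUniformlyOn_iff.1 (h.c0 i K hK hKs)) ε hε] with m hm z hz
    have h1 := hm z hz
    rw [dist_comm, dist_eq_norm] at h1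
    exact h1.le

/-- **`hreg` of 450's `open_abs`** from the regularity `H3` of `C¹` solutions -/
theorem hreg_of [T2Space M] {t s : ℕ} (ht : Fintype.card (RI n) < 2 * (t - 1))
    (hs : Fintype.card (RI n) < 2 * s) (D : Sec B →ₗ[ℂ] Sec B) (V : Submodule ℂ (Sec B))
    (H3 : ∀ (v : A.ι → M → B.κ → ℂ) (u : ℕ → Sec B), (∀ m, u m ∈ V) → C1F B v →
      C1T atTop (fun m => (u m).1) v → (∀ i x, Tendsto (fun m => (u m).1 i x) atTop (𝓝 (v i x))) →
      (∀ i, ∀ x ∈ (A.e i).source, Tendsto (fun m => (D (u m)).1 i x) atTop (𝓝 0)) →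
      ∃ w : Sec B, w ∈ V ∧ w.1 = v)
    {u : ℕ → Sec B} (huV : ∀ m, u m ∈ V) (hu : Cau P B t u)
    (hD : Tendsto (fun m => (S0 P B).nrm s (D (u m))) atTop (𝓝 0)) :
    ∃ w ∈ V, Tendsto (fun m => (S0 P B).nrm t (u m - w)) atTop (𝓝 0) := by
  obtain ⟨v, h1, h2, h3⟩ := exists_lim P ht hu
  obtain ⟨w, hwV, hw⟩ := H3 v u huV h1 h2 h3 fun i x hx => by
    obtain ⟨C, hC0, hC⟩ := c0_le P (B := B) hs (i := i) (K := {A.e i x}) isCompact_singleton
      (singleton_subset_iff.2 ((A.e i).map_source hx))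
    have h4 := hD.const_mul C
    rw [mul_zero] at h4
    refine squeeze_zero_norm (fun m => ?_) h4
    have h5 := hC (D (u m)) _ rfl
    rwa [(A.e i).left_inv hx] at h5
  subst hw
  exact ⟨w, hwV, tendsto_of_C1T P hu h2⟩

end

end

end Crest.Agent.R281.OpC_920
end

-- ▼ part R281/OpA2_450
section

/-!
# LEMMA A (row 281, LEMMA OPEN'): the theorem
-/

set_option autoImplicit false

open Filter Topology Set

namespace Crest.Agent.R281.OpA_450

open Crest.Agent.R281.Semi_450 Module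

variable {E0 E1 E2 : Type*} [NormedAddCommGroup E0] [NormedSpace ℂ E0]
  [NormedAddCommGroup E1] [NormedSpace ℂ E1] [NormedAddCommGroup E2] [NormedSpace ℂ E2]

section A0

variable {d0 : E0 →L[ℂ] E1} [FiniteDimensional ℂ (KK d0)] {π : E0 →L[ℂ] KK d0} {n : ℕ} (b : Basis (Fin n) ℂ (KK d0))

/-- the quantitative step: `e ≤ e (∑ ‖Q' i‖ + n C e)` -/
theorem step (hπ : ∀ v : KK d0, π v = v) (T0 : E1 →L[ℂ] E0) {D : E0 →L[ℂ] E1} {e : ℝ}
    (he : e = ee π b D) (he0 : 0 < e) (w : Fin n → E0) (q Q' : Fin n → E1)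
    (hw : ∀ i, π (w i) = 0) (hq : ∀ i, D ((b i : E0) + w i) = (e : ℂ) • q i)
    (hq2 : ∀ i, ‖q i‖ ≤ 2) (hQ' : ∀ i, Q' i = q i - D (T0 (q i))) :
    1 ≤ (∑ i, ‖Q' i‖) + (n * ∑ l, ‖((LinearMap.toContinuousLinearMap (b.coord l)).comp
      (π.comp T0) : E1 →L[ℂ] ℂ)‖ * 2) * e := by
  classical
  set κ : Fin n → E1 →L[ℂ] ℂ := fun l =>
    (LinearMap.toContinuousLinearMap (b.coord l)).comp (π.comp T0) with hκ
  set C : ℝ := ∑ l, ‖κ l‖ * 2 with hC
  have key : ∀ i, ‖((SS π D).mkQ (D (b i : E0)) : E1 ⧸ SS π D)‖ ≤ e * ‖Q' i‖ + e * (C * e) := by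
    intro i
    -- the `K0` part of `T0 (q i)`
    have h1 : (SS π D).mkQ (D (T0 (q i))) = ∑ l, κ l (q i) • (SS π D).mkQ (D (b l : E0)) := by
      have h2 : D (T0 (q i)) - D ((π (T0 (q i)) : KK d0) : E0) ∈ SS π D := by
        rw [mem_SS]
        refine ⟨T0 (q i) - (π (T0 (q i)) : KK d0), ?_, by rw [map_sub]⟩
        rw [map_sub, hπ, sub_self]
      have h3 : (SS π D).mkQ (D (T0 (q i))) = (SS π D).mkQ (D ((π (T0 (q i)) : KK d0) : E0)) :=
        (Submodule.Quotient.eq _).2 h2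
      rw [h3]
      have h4 : ((π (T0 (q i)) : KK d0) : E0) = ∑ l, κ l (q i) • (b l : E0) := by
        conv_lhs => rw [← b.sum_repr (π (T0 (q i)))]
        rw [Submodule.coe_sum]
        rfl
      rw [h4, map_sum, map_sum]
      exact Finset.sum_congr rfl fun l _ => by rw [map_smul, map_smul]
    have h2 : D (b i : E0) = (e : ℂ) • Q' i - D (w i) + (e : ℂ) • D (T0 (q i)) := by
      have h3 := hq i
      rw [map_add] at h3
      rw [hQ', smul_sub, ← h3]
      abel
    have h3 : (SS π D).mkQ (D (w i)) = 0 := by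
      rw [Submodule.mkQ_apply, Submodule.Quotient.mk_eq_zero, mem_SS]
      exact ⟨w i, hw i, rfl⟩
    have h4 : (SS π D).mkQ (D (b i : E0)) = (e : ℂ) • (SS π D).mkQ (Q' i) +
        (e : ℂ) • ∑ l, κ l (q i) • (SS π D).mkQ (D (b l : E0)) := by
      rw [h2, map_add, map_sub, h3, sub_zero, map_smul, map_smul, h1]
    have h5 : ‖(∑ l, κ l (q i) • (SS π D).mkQ (D (b l : E0)) : E1 ⧸ SS π D)‖ ≤ C * e := by
      refine (norm_sum_le _ _).trans ?_
      rw [hC, Finset.sum_mul]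
      refine Finset.sum_le_sum fun l _ => ?_
      refine (norm_smul_le _ _).trans ?_
      have h6 : ‖κ l (q i)‖ ≤ ‖κ l‖ * 2 :=
        ((κ l).le_opNorm _).trans (mul_le_mul_of_nonneg_left (hq2 i) (norm_nonneg _))
      have h7 : ‖((SS π D).mkQ (D (b l : E0)) : E1 ⧸ SS π D)‖ ≤ e := by
        rw [he]
        exact mkQ_le π b D l
      exact mul_le_mul h6 h7 (norm_nonneg _) (by positivity)
    have hen : ‖(e : ℂ)‖ = e := by rw [Complex.norm_real, Real.norm_of_nonneg he0.le]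
    rw [h4]
    refine (norm_add_le _ _).trans (add_le_add ?_ ?_)
    · refine (norm_smul_le _ _).trans ?_
      rw [hen]
      exact mul_le_mul_of_nonneg_left (Submodule.Quotient.norm_mk_le _ _) he0.le
    · refine (norm_smul_le _ _).trans ?_
      rw [hen]
      exact mul_le_mul_of_nonneg_left h5 he0.le
  have hsum : e ≤ ∑ i, (e * ‖Q' i‖ + e * (C * e)) := by
    conv_lhs => rw [he]
    exact Finset.sum_le_sum fun i _ => key i
  have h2 : ∑ i : Fin n, (e * ‖Q' i‖ + e * (C * e)) = e * ((∑ i, ‖Q' i‖) + n * C * e) := by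
    rw [Finset.sum_add_distrib, ← Finset.mul_sum, Finset.sum_const, Finset.card_univ,
      Fintype.card_fin, nsmul_eq_mul]
    ring
  rw [h2] at hsum
  have h3 : e * 1 ≤ e * ((∑ i, ‖Q' i‖) + n * C * e) := by rwa [mul_one]
  exact le_of_mul_le_mul_left h3 he0


end A0



end Crest.Agent.R281.OpA_450
end

-- ▼ part R281/OpI1_450
section

/-!
# OPEN-INST (row 281, LEMMA OPEN'), part 1: LEMMA A without the moving second operator

`lemmaB`, `lemmaB_filter` : LEMMA A of `OpA2_450` with the hypothesis `D1 j ∘ D0 j = 0`,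
`D1 j → d1` replaced by `‖d1 (D0 j w)‖ ≤ δ j * ‖D0 j w‖`, `δ → 0`.
-/

set_option autoImplicit false

open Filter Topology Set

namespace Crest.Agent.R281.OpI_450

open Crest.Agent.R281.Semi_450 Crest.Agent.R281.OpA_450 Module

variable {E0 E1 E2 : Type*} [NormedAddCommGroup E0] [NormedSpace ℂ E0]
  [NormedAddCommGroup E1] [NormedSpace ℂ E1] [NormedAddCommGroup E2] [NormedSpace ℂ E2]

section A0

variable {d0 : E0 →L[ℂ] E1} [FiniteDimensional ℂ (KK d0)] {π : E0 →L[ℂ] KK d0} {n : ℕ} (b : Basis (Fin n) ℂ (KK d0))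

/-- **LEMMA A'**, uniform lower bound given. -/
theorem lemmaB0 (hπ : ∀ v : KK d0, π v = v) {d1 : E1 →L[ℂ] E2} {T0 : E1 →L[ℂ] E0}
    {T1 : E2 →L[ℂ] E1} {H : E1 →L[ℂ] E1}
    (hH : FiniteDimensional ℂ (LinearMap.range (H : E1 →ₗ[ℂ] E1)))
    (hom : ∀ q, q = d0 (T0 q) + T1 (d1 q) + H q)
    {D0 : ℕ → E0 →L[ℂ] E1} {δ : ℕ → ℝ} (hDD : ∀ j w, ‖d1 (D0 j w)‖ ≤ δ j * ‖D0 j w‖)
    (h0 : Tendsto D0 atTop (𝓝 d0)) (h1 : Tendsto δ atTop (𝓝 0))
    {c : ℝ} (hc : 0 < c) (hb : ∀ j w, π w = 0 → c * ‖w‖ ≤ ‖D0 j w‖)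
    (he : ∀ j, 0 < ee π b (D0 j)) :
    ∃ (φ : ℕ → ℕ) (e : ℕ → ℝ) (u : ℕ → KK d0 →ₗ[ℂ] E0) (Qj : ℕ → KK d0 →ₗ[ℂ] E1)
      (Q : KK d0 →ₗ[ℂ] E1), StrictMono φ ∧ (∀ j, 0 < e j) ∧ Tendsto e atTop (𝓝 0) ∧
      (∀ v, Tendsto (fun j => u j v) atTop (𝓝 (v : E0))) ∧
      (∀ j v, D0 (φ j) (u j v) = (e j : ℂ) • Qj j v) ∧
      (∀ v, Tendsto (fun j => Qj j v) atTop (𝓝 (Q v))) ∧
      (∀ v, Q v ∈ LinearMap.range (H : E1 →ₗ[ℂ] E1)) ∧ Q ≠ 0 := by
  classical
  set e : ℕ → ℝ := fun j => ee π b (D0 j) with hedef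
  -- pointwise convergence of `D0 j`
  have hpt : ∀ x, Tendsto (fun j => D0 j x) atTop (𝓝 (d0 x)) := fun x =>
    ((ContinuousLinearMap.apply ℂ E1 x).continuous.tendsto d0).comp h0
  have hbi : ∀ i, Tendsto (fun j => ‖D0 j (b i : E0)‖) atTop (𝓝 0) := fun i => by
    have h2 : d0 (b i : E0) = 0 := (b i).2
    have h3 := (hpt (b i : E0)).norm
    rwa [h2, norm_zero] at h3
  have hetend : Tendsto e atTop (𝓝 0) := by
    refine squeeze_zero (fun j => ee_nonneg π b (D0 j)) (fun j => ee_le π b (D0 j)) ?_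
    have h2 := tendsto_finsetSum (Finset.univ : Finset (Fin n)) fun i _ => hbi i
    simpa using h2
  have hex : ∀ j i, ∃ w, π w = 0 ∧ ‖D0 j ((b i : E0) + w)‖ ≤ 2 * e j := fun j i =>
    exists_w π b (he j) i
  choose w hw0 hw2 using hex
  have hwt : ∀ i, Tendsto (fun j => w j i) atTop (𝓝 0) := by
    intro i
    rw [tendsto_zero_iff_norm_tendsto_zero]
    have h2 : Tendsto (fun j => c⁻¹ * (‖D0 j (b i : E0)‖ + 2 * e j)) atTop (𝓝 0) := by
      have h3 := ((hbi i).add (hetend.const_mul 2)).const_mul c⁻¹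
      simpa using h3
    refine squeeze_zero (fun _ => norm_nonneg _) (fun j => ?_) h2
    rw [← div_eq_inv_mul, le_div_iff₀ hc, mul_comm]
    refine (hb j _ (hw0 j i)).trans ?_
    have h4 : D0 j (w j i) = D0 j ((b i : E0) + w j i) - D0 j (b i : E0) := by
      rw [map_add]; abel
    rw [h4]
    have h5 := norm_sub_le (D0 j ((b i : E0) + w j i)) (D0 j (b i : E0))
    have h6 := hw2 j i
    linarith
  set q : ℕ → Fin n → E1 := fun j i => ((e j : ℂ)⁻¹) • D0 j ((b i : E0) + w j i) with hq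
  have hec : ∀ j, (e j : ℂ) ≠ 0 := fun j => by exact_mod_cast (he j).ne'
  have hen : ∀ j, ‖(e j : ℂ)‖ = e j := fun j => by
    rw [Complex.norm_real, Real.norm_of_nonneg (he j).le]
  have hq1 : ∀ j i, D0 j ((b i : E0) + w j i) = (e j : ℂ) • q j i := fun j i => by
    rw [hq, smul_inv_smul₀ (hec j)]
  have hq2 : ∀ j i, ‖q j i‖ ≤ 2 := by
    intro j i
    rw [hq]
    refine (norm_smul_le _ _).trans ?_
    rw [norm_inv, hen, inv_mul_le_iff₀ (he j), mul_comm]
    exact hw2 j i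
  have hqD : ∀ j i, ‖d1 (q j i)‖ ≤ |δ j| * 2 := fun j i => by
    have h2 : ‖d1 (q j i)‖ ≤ δ j * ‖q j i‖ := by
      rw [hq, map_smul, norm_smul, norm_smul, norm_inv, hen]
      have h3 := mul_le_mul_of_nonneg_left (hDD j ((b i : E0) + w j i)) (inv_nonneg.2 (he j).le)
      refine h3.trans (le_of_eq ?_)
      ring
    refine h2.trans ((mul_le_mul_of_nonneg_right (le_abs_self _) (norm_nonneg _)).trans ?_)
    exact mul_le_mul_of_nonneg_left (hq2 j i) (abs_nonneg _)
  set Q' : ℕ → Fin n → E1 := fun j i => q j i - D0 j (T0 (q j i)) with hQ'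
  have hid : ∀ j i, Q' j i = H (q j i) +
      ((d0 - D0 j) (T0 (q j i)) + T1 (d1 (q j i))) := by
    intro j i
    have h2 := hom (q j i)
    rw [sub_apply, hQ']
    show q j i - D0 j (T0 (q j i)) = _
    rw [sub_eq_iff_eq_add]
    exact h2.trans (by abel)
  have herr : ∀ i, Tendsto (fun j => (d0 - D0 j) (T0 (q j i)) + T1 (d1 (q j i)))
      atTop (𝓝 0) := by
    intro i
    have h00 : Tendsto (fun j => ‖d0 - D0 j‖) atTop (𝓝 0) := by
      have := (tendsto_const_nhds (x := d0)).sub h0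
      simpa using this.norm
    have h11 : Tendsto (fun j => |δ j|) atTop (𝓝 0) := by
      simpa using h1.abs
    rw [tendsto_zero_iff_norm_tendsto_zero]
    have h2 : Tendsto (fun j => ‖d0 - D0 j‖ * (‖T0‖ * 2) + ‖T1‖ * (|δ j| * 2)) atTop
        (𝓝 0) := by
      have h3 := (h00.mul_const (‖T0‖ * 2)).add ((h11.mul_const 2).const_mul ‖T1‖)
      simpa using h3
    refine squeeze_zero (fun _ => norm_nonneg _) (fun j => ?_) h2
    refine (norm_add_le _ _).trans (add_le_add ?_ ?_)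
    · refine ((d0 - D0 j).le_opNorm _).trans (mul_le_mul_of_nonneg_left ?_ (norm_nonneg _))
      exact (T0.le_opNorm _).trans (mul_le_mul_of_nonneg_left (hq2 j i) (norm_nonneg _))
    · refine (T1.le_opNorm _).trans (mul_le_mul_of_nonneg_left ?_ (norm_nonneg _))
      exact hqD j i
  -- compactness
  have hprop : ProperSpace (LinearMap.range (H : E1 →ₗ[ℂ] E1)) := FiniteDimensional.proper ℂ _
  set r : ℕ → (Fin n → LinearMap.range (H : E1 →ₗ[ℂ] E1)) := fun j i =>
    ⟨H (q j i), ⟨q j i, rfl⟩⟩ with hr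
  have hrb : ∀ j, r j ∈ Metric.closedBall (0 : Fin n → LinearMap.range (H : E1 →ₗ[ℂ] E1))
      (‖H‖ * 2) := by
    intro j
    rw [mem_closedBall_zero_iff, pi_norm_le_iff_of_nonneg (by positivity)]
    intro i
    exact (H.le_opNorm _).trans (mul_le_mul_of_nonneg_left (hq2 j i) (norm_nonneg _))
  obtain ⟨Q0, -, φ, hφ, hlim⟩ := tendsto_subseq_of_bounded Metric.isBounded_closedBall hrb
  have hHlim : ∀ i, Tendsto (fun j => H (q (φ j) i)) atTop (𝓝 (Q0 i : E1)) := fun i =>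
    (continuous_subtype_val.tendsto _).comp ((tendsto_pi_nhds.1 hlim) i)
  have hQlim : ∀ i, Tendsto (fun j => Q' (φ j) i) atTop (𝓝 (Q0 i : E1)) := by
    intro i
    have h2 := (hHlim i).add ((herr i).comp hφ.tendsto_atTop)
    rw [add_zero] at h2
    refine h2.congr fun j => ?_
    rw [hid]
    rfl
  set u' : ℕ → Fin n → E0 := fun j i => (b i : E0) + w j i - (e j : ℂ) • T0 (q j i) with hu'
  have hu'D : ∀ j i, D0 j (u' j i) = (e j : ℂ) • Q' j i := by
    intro j i
    rw [hu', map_sub, map_smul, hq1, hQ', smul_sub]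
  have hu't : ∀ i, Tendsto (fun j => u' j i) atTop (𝓝 (b i : E0)) := by
    intro i
    have h2 : Tendsto (fun j => (e j : ℂ) • T0 (q j i)) atTop (𝓝 0) := by
      rw [tendsto_zero_iff_norm_tendsto_zero]
      have h3 : Tendsto (fun j => e j * (‖T0‖ * 2)) atTop (𝓝 0) := by
        simpa using hetend.mul_const (‖T0‖ * 2)
      refine squeeze_zero (fun _ => norm_nonneg _) (fun j => ?_) h3
      refine (norm_smul_le _ _).trans ?_
      rw [hen]
      refine mul_le_mul_of_nonneg_left ?_ (he j).le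
      exact (T0.le_opNorm _).trans (mul_le_mul_of_nonneg_left (hq2 j i) (norm_nonneg _))
    have h4 := ((tendsto_const_nhds (x := (b i : E0))).add (hwt i)).sub h2
    rw [add_zero, sub_zero] at h4
    exact h4
  refine ⟨φ, fun j => e (φ j), fun j => b.constr ℂ (u' (φ j)), fun j => b.constr ℂ (Q' (φ j)),
    b.constr ℂ (fun i => (Q0 i : E1)), hφ, fun j => he _, hetend.comp hφ.tendsto_atTop,
    fun v => ?_, fun j v => ?_, fun v => ?_, fun v => ?_, ?_⟩
  · simp only [Basis.constr_apply_fintype]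
    have h2 : (v : E0) = ∑ i, b.equivFun v i • (b i : E0) := by
      conv_lhs => rw [← b.sum_equivFun v]
      rw [Submodule.coe_sum]
      rfl
    rw [h2]
    exact tendsto_finsetSum _ fun i _ => ((hu't i).comp hφ.tendsto_atTop).const_smul _
  · simp only [Basis.constr_apply_fintype]
    rw [map_sum, Finset.smul_sum]
    refine Finset.sum_congr rfl fun i _ => ?_
    rw [map_smul, hu'D, smul_comm]
  · simp only [Basis.constr_apply_fintype]
    exact tendsto_finsetSum _ fun i _ => (hQlim i).const_smul _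
  · simp only [Basis.constr_apply_fintype]
    exact Submodule.sum_mem _ fun i _ => Submodule.smul_mem _ _ (Q0 i).2
  · intro hQ0
    have h2 : ∀ i, (Q0 i : E1) = 0 := fun i => by
      have h3 := congrArg (fun T : KK d0 →ₗ[ℂ] E1 => T (b i)) hQ0
      simpa [Basis.constr_basis] using h3
    have hstep := fun j => step b hπ T0 (D := D0 (φ j)) (e := e (φ j)) rfl (he _) (w (φ j))
      (q (φ j)) (Q' (φ j)) (hw0 _) (hq1 _) (hq2 _) (fun i => rfl)
    have h3 : Tendsto (fun j => (∑ i, ‖Q' (φ j) i‖) + (n * ∑ l,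
        ‖((LinearMap.toContinuousLinearMap (b.coord l)).comp (π.comp T0) : E1 →L[ℂ] ℂ)‖ * 2) *
        e (φ j)) atTop (𝓝 0) := by
      have h4 : Tendsto (fun j => ∑ i, ‖Q' (φ j) i‖) atTop (𝓝 0) := by
        have h5 := tendsto_finsetSum (Finset.univ : Finset (Fin n)) fun i _ => (hQlim i).norm
        simpa [h2] using h5
      have h6 := h4.add ((hetend.comp hφ.tendsto_atTop).const_mul (n * ∑ l,
        ‖((LinearMap.toContinuousLinearMap (b.coord l)).comp (π.comp T0) : E1 →L[ℂ] ℂ)‖ * 2))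
      rw [mul_zero, add_zero] at h6
      exact h6
    have h4 := ge_of_tendsto h3 (Eventually.of_forall hstep)
    linarith

end A0

/-- **LEMMA A'.** -/
theorem lemmaB [CompleteSpace E0] {d0 : E0 →L[ℂ] E1} {d1 : E1 →L[ℂ] E2} {T0 : E1 →L[ℂ] E0}
    {T1 : E2 →L[ℂ] E1} {H : E1 →L[ℂ] E1}
    (hH : FiniteDimensional ℂ (LinearMap.range (H : E1 →ₗ[ℂ] E1)))
    (hom : ∀ q, q = d0 (T0 q) + T1 (d1 q) + H q) (hLP : LP d0)
    {D0 : ℕ → E0 →L[ℂ] E1} {δ : ℕ → ℝ} (hDD : ∀ j w, ‖d1 (D0 j w)‖ ≤ δ j * ‖D0 j w‖)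
    (h0 : Tendsto D0 atTop (𝓝 d0)) (h1 : Tendsto δ atTop (𝓝 0))
    {N : ℕ} (hN : Ker d0 N) (hneg : ∀ j, ¬ Ker (D0 j) N) :
    ∃ (φ : ℕ → ℕ) (e : ℕ → ℝ) (u : ℕ → KK d0 →ₗ[ℂ] E0) (Qj : ℕ → KK d0 →ₗ[ℂ] E1)
      (Q : KK d0 →ₗ[ℂ] E1), StrictMono φ ∧ (∀ j, 0 < e j) ∧ Tendsto e atTop (𝓝 0) ∧
      (∀ v, Tendsto (fun j => u j v) atTop (𝓝 (v : E0))) ∧
      (∀ j v, D0 (φ j) (u j v) = (e j : ℂ) • Qj j v) ∧
      (∀ v, Tendsto (fun j => Qj j v) atTop (𝓝 (Q v))) ∧
      (∀ v, Q v ∈ LinearMap.range (H : E1 →ₗ[ℂ] E1)) ∧ Q ≠ 0 := by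
  classical
  have hfd : FiniteDimensional ℂ (KK d0) := finiteDimensional_KK hLP
  obtain ⟨π, hπ⟩ := Submodule.ClosedComplemented.of_finiteDimensional (𝕜 := ℂ) (KK d0)
  obtain ⟨c, hc, hcb⟩ := bounded_below hLP π hπ
  set b := Module.finBasis ℂ (KK d0) with hb
  -- `N ≤ dim ker d0`
  have hNle : N ≤ finrank ℂ (KK d0) := by
    obtain ⟨v, hv, hv0⟩ := hN
    let v' : Fin N → KK d0 := fun i => ⟨v i, hv0 i⟩
    have hv' : LinearIndependent ℂ v' := by
      apply LinearIndependent.of_comp (KK d0).subtype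
      exact hv
    simpa using hv'.fintype_card_le_finrank
  -- tail
  have hev : ∀ᶠ j in atTop, ‖D0 j - d0‖ < c / 2 := by
    have := (tendsto_iff_norm_sub_tendsto_zero.1 h0)
    exact this.eventually (gt_mem_nhds (by linarith))
  obtain ⟨J, hJ⟩ := eventually_atTop.1 hev
  have hbd : ∀ j w, π w = 0 → c / 2 * ‖w‖ ≤ ‖D0 (j + J) w‖ := by
    intro j w hw
    have h2 := hcb w hw
    have h3 : ‖(D0 (j + J) - d0) w‖ ≤ c / 2 * ‖w‖ :=
      ((D0 (j + J) - d0).le_opNorm w).trans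
        (mul_le_mul_of_nonneg_right (hJ _ (by omega)).le (norm_nonneg _))
    have h4 : d0 w = D0 (j + J) w - (D0 (j + J) - d0) w := by
      rw [sub_apply]; abel
    have h5 := norm_sub_le (D0 (j + J) w) ((D0 (j + J) - d0) w)
    rw [← h4] at h5
    linarith
  have he : ∀ j, 0 < ee π b (D0 (j + J)) := by
    intro j
    refine lt_of_le_of_ne (ee_nonneg π b _) fun h => hneg (j + J) ?_
    exact (ker_of_ee_zero π b hπ (by linarith : (0 : ℝ) < c / 2) (hbd j) h.symm).mono hNle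
  have htail : Tendsto (fun j : ℕ => j + J) atTop atTop := tendsto_add_atTop_nat J
  obtain ⟨φ, e, u, Qj, Q, hφ, h2, h3, h4, h5, h6, h7, h8⟩ := lemmaB0 b hπ hH hom
    (D0 := fun j => D0 (j + J)) (δ := fun j => δ (j + J)) (fun j w => hDD _ w)
    (h0.comp htail) (h1.comp htail) (by linarith : (0 : ℝ) < c / 2) hbd he
  exact ⟨fun j => φ j + J, e, u, Qj, Q, fun i j hij => Nat.add_lt_add_right (hφ hij) J,
    h2, h3, h4, h5, h6, h7, h8⟩

/-- **LEMMA A'**, filter form: openness of `Ker _ N` at `p₁` unless there is a bad sequence. -/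
theorem lemmaB_filter [CompleteSpace E0] {d0 : E0 →L[ℂ] E1} {d1 : E1 →L[ℂ] E2}
    {T0 : E1 →L[ℂ] E0} {T1 : E2 →L[ℂ] E1} {H : E1 →L[ℂ] E1}
    (hH : FiniteDimensional ℂ (LinearMap.range (H : E1 →ₗ[ℂ] E1)))
    (hom : ∀ q, q = d0 (T0 q) + T1 (d1 q) + H q) (hLP : LP d0)
    {P : Type*} {l : Filter P} [l.IsCountablyGenerated]
    {D0 : P → E0 →L[ℂ] E1} {δ : P → ℝ}
    (hDD : ∀ᶠ p in l, ∀ w, ‖d1 (D0 p w)‖ ≤ δ p * ‖D0 p w‖)
    (h0 : Tendsto D0 l (𝓝 d0)) (h1 : Tendsto δ l (𝓝 0)) {N : ℕ} (hN : Ker d0 N)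
    (hno : ∀ (p : ℕ → P) (e : ℕ → ℝ) (u : ℕ → KK d0 →ₗ[ℂ] E0) (Qj : ℕ → KK d0 →ₗ[ℂ] E1)
      (Q : KK d0 →ₗ[ℂ] E1), Tendsto p atTop l → (∀ j, 0 < e j) → Tendsto e atTop (𝓝 0) →
      (∀ v, Tendsto (fun j => u j v) atTop (𝓝 (v : E0))) →
      (∀ j v, D0 (p j) (u j v) = (e j : ℂ) • Qj j v) →
      (∀ v, Tendsto (fun j => Qj j v) atTop (𝓝 (Q v))) →
      (∀ v, Q v ∈ LinearMap.range (H : E1 →ₗ[ℂ] E1)) → Q = 0) :
    ∀ᶠ p in l, Ker (D0 p) N := by
  by_contra hcon
  rw [not_eventually] at hcon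
  have h2 : ∃ᶠ p in l, ¬ Ker (D0 p) N ∧ ∀ w, ‖d1 (D0 p w)‖ ≤ δ p * ‖D0 p w‖ :=
    hcon.and_eventually hDD
  obtain ⟨p, hp, hpf⟩ := exists_seq_forall_of_frequently h2
  obtain ⟨φ, e, u, Qj, Q, hφ, h3, h4, h5, h6, h7, h8, h9⟩ := lemmaB hH hom hLP
    (D0 := fun j => D0 (p j)) (δ := fun j => δ (p j)) (fun j => (hpf j).2)
    (h0.comp hp) (h1.comp hp) hN (fun j => (hpf j).1)
  exact h9 (hno (fun j => p (φ j)) e u Qj Q (hp.comp hφ.tendsto_atTop) h3 h4 h5 h6 h7 h8)

end Crest.Agent.R281.OpI_450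
end

-- ▼ part R281/OpI2_450
section

/-!
# OPEN-INST (row 281, LEMMA OPEN'), part 2: completions and LEMMA A on a dense subspace

* `Cp p`, `io p`, `xt` : completion for a seminorm, extension of linear maps
* `open_abs` : LEMMA A for spaces of smooth sections (seminorms on plain vector spaces): either the
  kernels persist, with convergence, or there is a bad sequence of SMOOTH objects.
-/

set_option autoImplicit false

open Filter Topology Set

namespace Crest.Agent.R281.OpI_450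

open Crest.Agent.R281.Semi_450 Crest.Agent.R281.OpA_450 Module

noncomputable section

section compl

variable {V W : Type*} [AddCommGroup V] [Module ℂ V] [AddCommGroup W] [Module ℂ W]

/-- `V` with the seminorm `p` -/
def Nm (_p : Seminorm ℂ V) : Type _ := V

instance (p : Seminorm ℂ V) : AddCommGroup (Nm p) := inferInstanceAs (AddCommGroup V)

instance (p : Seminorm ℂ V) : Module ℂ (Nm p) := inferInstanceAs (Module ℂ V)

instance (p : Seminorm ℂ V) : SeminormedAddCommGroup (Nm p) :=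
  AddGroupSeminorm.toSeminormedAddCommGroup (E := Nm p) p.toAddGroupSeminorm


instance (p : Seminorm ℂ V) : NormedSpace ℂ (Nm p) :=
  ⟨fun c v => (map_smul_eq_mul p c v).le⟩

/-- the completion of `V` for the seminorm `p` -/
abbrev Cp (p : Seminorm ℂ V) : Type _ := UniformSpace.Completion (Nm p)

/-- `V → Cp p` -/
def io (p : Seminorm ℂ V) : V →ₗ[ℂ] Cp p :=
  ((UniformSpace.Completion.toComplₗᵢ (𝕜 := ℂ) (E := Nm p)).toLinearMap : Nm p →ₗ[ℂ] Cp p)

theorem norm_io (p : Seminorm ℂ V) (v : V) : ‖io p v‖ = p v :=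
  UniformSpace.Completion.norm_coe (E := Nm p) v

theorem dense_io (p : Seminorm ℂ V) : DenseRange (io p) :=
  UniformSpace.Completion.denseRange_coe (α := Nm p)

/-- extension of a linear map to the completions -/
def xt (p : Seminorm ℂ V) (q : Seminorm ℂ W) (T : V →ₗ[ℂ] W) : Cp p →L[ℂ] Cp q :=
  (io q ∘ₗ T).extendOfNorm (io p)

variable {p : Seminorm ℂ V} {q : Seminorm ℂ W} {T : V →ₗ[ℂ] W}

theorem xt_io (h : ∃ C, ∀ v, q (T v) ≤ C * p v) (v : V) : xt p q T (io p v) = io q (T v) := by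
  refine LinearMap.extendOfNorm_eq (f := io q ∘ₗ T) (e := io p) (dense_io p) ?_ v
  obtain ⟨C, hC⟩ := h
  refine ⟨C, fun v => ?_⟩
  rw [LinearMap.comp_apply, norm_io, norm_io]
  exact hC v

/-- two continuous functions on the completion agree if they agree on `V` -/
theorem io_ext {Z : Type*} [TopologicalSpace Z] [T2Space Z] {f g : Cp p → Z} (hf : Continuous f)
    (hg : Continuous g) (h : ∀ v, f (io p v) = g (io p v)) (x : Cp p) : f x = g x :=
  congrFun ((dense_io p).equalizer hf hg (funext h)) x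

theorem io_le {f g : Cp p → ℝ} (hf : Continuous f) (hg : Continuous g)
    (h : ∀ v, f (io p v) ≤ g (io p v)) (x : Cp p) : f x ≤ g x :=
  (dense_io p).induction_on (p := fun x => f x ≤ g x) x (isClosed_le hf hg) h

theorem exists_near (x : Cp p) {δ : ℝ} (hδ : 0 < δ) : ∃ v : V, ‖io p v - x‖ < δ := by
  obtain ⟨v, hv⟩ := (dense_io p).exists_dist_lt x hδ
  exact ⟨v, by rwa [← dist_eq_norm, dist_comm]⟩

theorem io_inj (h : ∀ v, p v = 0 → v = 0) {v w : V} (hvw : io p v = io p w) : v = w := by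
  rw [← sub_eq_zero]
  apply h
  rw [← norm_io, map_sub, hvw, sub_self, norm_zero]


/-- the range of the extension of an operator of finite rank -/
theorem xt_range (h : ∃ C, ∀ v, q (T v) ≤ C * p v) [FiniteDimensional ℂ (LinearMap.range T)]
    (x : Cp p) : ∃ w ∈ LinearMap.range T, xt p q T x = io q w := by
  have h1 : IsClosed ((LinearMap.range T).map (io q) : Set (Cp q)) :=
    Submodule.closed_of_finiteDimensional _
  have h2 : xt p q T x ∈ ((LinearMap.range T).map (io q) : Set (Cp q)) := by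
    refine (dense_io p).induction_on
      (p := fun x => xt p q T x ∈ ((LinearMap.range T).map (io q) : Set (Cp q))) x
      (h1.preimage (xt p q T).continuous) fun v => ?_
    rw [xt_io h]
    exact ⟨T v, ⟨v, rfl⟩, rfl⟩
  obtain ⟨w, hw, hw2⟩ := h2
  exact ⟨w, hw, hw2.symm⟩

theorem xt_range_fd (h : ∃ C, ∀ v, q (T v) ≤ C * p v) [FiniteDimensional ℂ (LinearMap.range T)] :
    FiniteDimensional ℂ (LinearMap.range ((xt p q T : Cp p →L[ℂ] Cp q) : Cp p →ₗ[ℂ] Cp q)) := by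
  refine Submodule.finiteDimensional_of_le (S₂ := (LinearMap.range T).map (io q)) ?_
  rintro y ⟨x, rfl⟩
  obtain ⟨w, hw, h2⟩ := xt_range h x
  exact ⟨w, hw, h2.symm⟩

end compl

end

end Crest.Agent.R281.OpI_450
end

-- ▼ part R281/OpI3_450
section

/-!
# OPEN-INST (row 281, LEMMA OPEN'), part 3: LEMMA A on spaces of smooth sections

`open_abs`: `V0 --d0--> V1 --d1--> V2` plain complex vector spaces (smooth sections) with seminorms
`p0, p1, p2`, homotopy `T0, T1, H` (and `T0 d0 = 1 - H0`), `H`, `H0` of finite rank; moving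
operators `D p`, `p1 ((D p - d0) v) ≤ ε p * p0 v`, `p2 (d1 (D p v)) ≤ ε p * p1 (D p v)`, `ε → 0`;
regularity of the kernels of `D p` in the completion.  Either there is a bad sequence (of smooth
objects) or the kernels persist: `S p : ker d0 → V0`, `D p (S p v) = 0`, `p0 (S p v - v) → 0`.
-/

set_option autoImplicit false

open Filter Topology Set

namespace Crest.Agent.R281.OpI_450

open Crest.Agent.R281.Semi_450 Crest.Agent.R281.OpA_450 Module

noncomputable section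

/-- linear maps on a finite dimensional space which tend to zero on a basis -/
theorem tendsto_of_basis {K E : Type*} [AddCommGroup K] [Module ℂ K] [NormedAddCommGroup E]
    [NormedSpace ℂ E] {n : ℕ} (b : Basis (Fin n) ℂ K) {P : Type*} {l : Filter P}
    {L : P → K →ₗ[ℂ] E} (h : ∀ i, Tendsto (fun p => L p (b i)) l (𝓝 0)) (v : K) :
    Tendsto (fun p => L p v) l (𝓝 0) := by
  have h1 : ∀ p, L p v = ∑ i, b.repr v i • L p (b i) := by
    intro p
    conv_lhs => rw [← b.sum_repr v]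
    rw [map_sum]
    exact Finset.sum_congr rfl fun i _ => map_smul _ _ _
  simp only [h1]
  have h2 := tendsto_finsetSum (Finset.univ : Finset (Fin n)) fun i _ =>
    (h i).const_smul (b.repr v i)
  simpa using h2

section abs

variable {V0 V1 V2 : Type*} [AddCommGroup V0] [Module ℂ V0] [AddCommGroup V1] [Module ℂ V1]
  [AddCommGroup V2] [Module ℂ V2] {p0 : Seminorm ℂ V0} {p1 : Seminorm ℂ V1}
  {p2 : Seminorm ℂ V2} {d0 : V0 →ₗ[ℂ] V1} {d1 : V1 →ₗ[ℂ] V2} {T0 : V1 →ₗ[ℂ] V0}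
  {T1 : V2 →ₗ[ℂ] V1} {H0 : V0 →ₗ[ℂ] V0} {H : V1 →ₗ[ℂ] V1}

/-- `ker d0 → ker (xt d0)` -/
theorem mem_ker_xt (bd0 : ∃ C, ∀ v, p1 (d0 v) ≤ C * p0 v) {v : V0} (hv : d0 v = 0) :
    io p0 v ∈ KK (xt p0 p1 d0) := by
  rw [mem_KK, xt_io bd0, hv, map_zero]

/-- the kernel of the extension consists of smooth vectors -/
theorem ker_smooth (h1z : ∀ v, p1 v = 0 → v = 0)
    (bd0 : ∃ C, ∀ v, p1 (d0 v) ≤ C * p0 v) (bT0 : ∃ C, ∀ v, p0 (T0 v) ≤ C * p1 v)
    (bH0 : ∃ C, ∀ v, p0 (H0 v) ≤ C * p0 v) [FiniteDimensional ℂ (LinearMap.range H0)]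
    (hom0 : ∀ u, u = T0 (d0 u) + H0 u) {x : Cp p0} (hx : xt p0 p1 d0 x = 0) :
    ∃ v, d0 v = 0 ∧ io p0 v = x := by
  have h1 : x = xt p1 p0 T0 (xt p0 p1 d0 x) + xt p0 p0 H0 x := by
    refine io_ext (f := fun x => x)
      (g := fun x => xt p1 p0 T0 (xt p0 p1 d0 x) + xt p0 p0 H0 x) continuous_id
      (((xt p1 p0 T0).continuous.comp (xt p0 p1 d0).continuous).add
        (xt p0 p0 H0).continuous) (fun v => ?_) x
    show io p0 v = xt p1 p0 T0 (xt p0 p1 d0 (io p0 v)) + xt p0 p0 H0 (io p0 v)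
    rw [xt_io bd0, xt_io bT0, xt_io bH0, ← map_add, ← hom0 v]
  rw [hx, map_zero, zero_add] at h1
  obtain ⟨w, -, hw⟩ := xt_range bH0 x
  refine ⟨w, ?_, by rw [← hw]; exact h1.symm⟩
  have h2 : io p1 (d0 w) = 0 := by
    rw [← xt_io bd0, ← hw, ← h1, hx]
  apply h1z
  rw [← norm_io, h2, norm_zero]

/-- `ker d0 ≃ ker (xt d0)` -/
def kerEq (h0z : ∀ v, p0 v = 0 → v = 0) (h1z : ∀ v, p1 v = 0 → v = 0)
    (bd0 : ∃ C, ∀ v, p1 (d0 v) ≤ C * p0 v) (bT0 : ∃ C, ∀ v, p0 (T0 v) ≤ C * p1 v)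
    (bH0 : ∃ C, ∀ v, p0 (H0 v) ≤ C * p0 v) [FiniteDimensional ℂ (LinearMap.range H0)]
    (hom0 : ∀ u, u = T0 (d0 u) + H0 u) : LinearMap.ker d0 ≃ₗ[ℂ] KK (xt p0 p1 d0) :=
  LinearEquiv.ofBijective
    (((io p0).domRestrict (LinearMap.ker d0)).codRestrict (KK (xt p0 p1 d0))
      fun v => mem_ker_xt bd0 v.2)
    ⟨fun v w h => Subtype.ext (io_inj h0z (congrArg Subtype.val h)), fun x => by
      obtain ⟨v, hv, h2⟩ := ker_smooth h1z bd0 bT0 bH0 hom0 x.2
      exact ⟨⟨v, hv⟩, Subtype.ext h2⟩⟩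

/-- **LEMMA A on smooth sections** -/
theorem open_abs (h0z : ∀ v, p0 v = 0 → v = 0) (h1z : ∀ v, p1 v = 0 → v = 0)
    (bd0 : ∃ C, ∀ v, p1 (d0 v) ≤ C * p0 v) (bd1 : ∃ C, ∀ v, p2 (d1 v) ≤ C * p1 v)
    (bT0 : ∃ C, ∀ v, p0 (T0 v) ≤ C * p1 v) (bT1 : ∃ C, ∀ v, p1 (T1 v) ≤ C * p2 v)
    (bH0 : ∃ C, ∀ v, p0 (H0 v) ≤ C * p0 v) (bH : ∃ C, ∀ v, p1 (H v) ≤ C * p1 v)
    [FiniteDimensional ℂ (LinearMap.range H0)] [FiniteDimensional ℂ (LinearMap.range H)]
    (hom0 : ∀ u, u = T0 (d0 u) + H0 u) (hom : ∀ q, q = d0 (T0 q) + T1 (d1 q) + H q)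
    {P : Type*} {l : Filter P} [l.IsCountablyGenerated] (D : P → V0 →ₗ[ℂ] V1) (ε : P → ℝ)
    (hε : Tendsto ε l (𝓝 0)) (hD : ∀ᶠ p in l, ∀ v, p1 (D p v - d0 v) ≤ ε p * p0 v)
    (hD1 : ∀ᶠ p in l, ∀ v, p2 (d1 (D p v)) ≤ ε p * p1 (D p v))
    (hreg : ∀ᶠ p in l, ∀ v : ℕ → V0,
      (∀ δ > 0, ∃ N, ∀ m ≥ N, ∀ k ≥ N, p0 (v m - v k) < δ) →
      Tendsto (fun m => p1 (D p (v m))) atTop (𝓝 0) →
      ∃ w, Tendsto (fun m => p0 (v m - w)) atTop (𝓝 0))
    (hno : ∀ (p : ℕ → P) (e : ℕ → ℝ) (u : ℕ → LinearMap.ker d0 →ₗ[ℂ] V0)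
      (Qj : ℕ → LinearMap.ker d0 →ₗ[ℂ] V1) (Q : LinearMap.ker d0 →ₗ[ℂ] V1),
      Tendsto p atTop l → (∀ j, 0 < e j) → Tendsto e atTop (𝓝 0) →
      (∀ v, Tendsto (fun j => p0 (u j v - v)) atTop (𝓝 0)) →
      (∀ j v, D (p j) (u j v) = (e j : ℂ) • Qj j v) →
      (∀ v, Tendsto (fun j => p1 (Qj j v - Q v)) atTop (𝓝 0)) →
      (∀ v, Q v ∈ LinearMap.range H) → Q = 0) :
    FiniteDimensional ℂ (LinearMap.ker d0) ∧
    ∃ S : P → LinearMap.ker d0 →ₗ[ℂ] V0, (∀ᶠ p in l, ∀ v, D p (S p v) = 0) ∧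
      ∀ v, Tendsto (fun p => p0 (S p v - v)) l (𝓝 0) := by
  classical
  set jE := kerEq h0z h1z bd0 bT0 bH0 hom0 with hjE
  have hjE' : ∀ v, ((jE v : KK (xt p0 p1 d0)) : Cp p0) = io p0 v := fun v => rfl
  -- the limit complex
  have hHfd := xt_range_fd bH
  have hom' : ∀ q, q = xt p0 p1 d0 (xt p1 p0 T0 q) + xt p2 p1 T1 (xt p1 p2 d1 q) +
      xt p1 p1 H q := by
    intro q
    refine io_ext (f := fun q => q) (g := fun q => xt p0 p1 d0 (xt p1 p0 T0 q) +
      xt p2 p1 T1 (xt p1 p2 d1 q) + xt p1 p1 H q) continuous_id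
      (((xt p0 p1 d0).continuous.comp (xt p1 p0 T0).continuous).add
        ((xt p2 p1 T1).continuous.comp (xt p1 p2 d1).continuous) |>.add
        (xt p1 p1 H).continuous) (fun v => ?_) q
    show io p1 v = xt p0 p1 d0 (xt p1 p0 T0 (io p1 v)) + xt p2 p1 T1 (xt p1 p2 d1 (io p1 v)) +
      xt p1 p1 H (io p1 v)
    rw [xt_io bT0, xt_io bd0, xt_io bd1, xt_io bT1, xt_io bH, ← map_add, ← map_add, ← hom v]
  have hLP : LP (xt p0 p1 d0) := by
    refine ⟨xt p1 p0 T0, ?_⟩
    have hfd := xt_range_fd bH0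
    refine Submodule.finiteDimensional_of_le (S₂ := LinearMap.range
      ((xt p0 p0 H0 : Cp p0 →L[ℂ] Cp p0) : Cp p0 →ₗ[ℂ] Cp p0)) ?_
    rintro y ⟨x, rfl⟩
    refine ⟨-x, ?_⟩
    have h1 : x = xt p1 p0 T0 (xt p0 p1 d0 x) + xt p0 p0 H0 x := by
      refine io_ext (f := fun x => x)
        (g := fun x => xt p1 p0 T0 (xt p0 p1 d0 x) + xt p0 p0 H0 x) continuous_id
        (((xt p1 p0 T0).continuous.comp (xt p0 p1 d0).continuous).add
          (xt p0 p0 H0).continuous) (fun v => ?_) x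
      show io p0 v = xt p1 p0 T0 (xt p0 p1 d0 (io p0 v)) + xt p0 p0 H0 (io p0 v)
      rw [xt_io bd0, xt_io bT0, xt_io bH0, ← map_add, ← hom0 v]
    show xt p0 p0 H0 (-x) = xt p1 p0 T0 (xt p0 p1 d0 x) - x
    rw [map_neg]
    nth_rw 3 [h1]
    abel
  have hfdK : FiniteDimensional ℂ (KK (xt p0 p1 d0)) := finiteDimensional_KK hLP
  have hfdk : FiniteDimensional ℂ (LinearMap.ker d0) := jE.symm.finiteDimensional
  refine ⟨hfdk, ?_⟩
  set b := Module.finBasis ℂ (LinearMap.ker d0) with hb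
  -- bounds of the moving operators
  obtain ⟨C0, hC0⟩ := bd0
  have bD : ∀ᶠ p in l, ∃ C, ∀ v, p1 (D p v) ≤ C * p0 v := by
    filter_upwards [hD] with p hp
    refine ⟨ε p + C0, fun v => ?_⟩
    have h1 : D p v = (D p v - d0 v) + d0 v := by abel
    rw [h1, add_mul]
    exact (map_add_le_add p1 _ _).trans (add_le_add (hp v) (hC0 v))
  have hDx : ∀ᶠ p in l, ∀ x, ‖xt p0 p1 (D p) x - xt p0 p1 d0 x‖ ≤ ε p * ‖x‖ := by
    filter_upwards [hD, bD] with p hp hb x
    refine io_le (f := fun x => ‖xt p0 p1 (D p) x - xt p0 p1 d0 x‖) (g := fun x => ε p * ‖x‖)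
      (((xt p0 p1 (D p)).continuous.sub (xt p0 p1 d0).continuous).norm)
      (continuous_const.mul continuous_norm) (fun v => ?_) x
    show ‖xt p0 p1 (D p) (io p0 v) - xt p0 p1 d0 (io p0 v)‖ ≤ ε p * ‖io p0 v‖
    rw [xt_io hb, xt_io ⟨C0, hC0⟩, ← map_sub, norm_io, norm_io]
    exact hp v
  have hlimD : Tendsto (fun p => xt p0 p1 (D p)) l (𝓝 (xt p0 p1 d0)) := by
    rw [tendsto_iff_norm_sub_tendsto_zero]
    have hεa : Tendsto (fun p => |ε p|) l (𝓝 0) := by simpa using hε.abs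
    refine squeeze_zero' (Eventually.of_forall fun _ => norm_nonneg _) ?_ hεa
    filter_upwards [hDx] with p hp
    refine ContinuousLinearMap.opNorm_le_bound _ (abs_nonneg _) fun x => ?_
    exact (hp x).trans (mul_le_mul_of_nonneg_right (le_abs_self _) (norm_nonneg _))
  have hDD : ∀ᶠ p in l, ∀ x, ‖xt p1 p2 d1 (xt p0 p1 (D p) x)‖ ≤ ε p * ‖xt p0 p1 (D p) x‖ := by
    filter_upwards [hD1, bD] with p hp hb x
    refine io_le (f := fun x => ‖xt p1 p2 d1 (xt p0 p1 (D p) x)‖)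
      (g := fun x => ε p * ‖xt p0 p1 (D p) x‖)
      (((xt p1 p2 d1).continuous.comp (xt p0 p1 (D p)).continuous).norm)
      (continuous_const.mul (xt p0 p1 (D p)).continuous.norm) (fun v => ?_) x
    show ‖xt p1 p2 d1 (xt p0 p1 (D p) (io p0 v))‖ ≤ ε p * ‖xt p0 p1 (D p) (io p0 v)‖
    rw [xt_io hb, xt_io bd1, norm_io, norm_io]
    exact hp v
  -- kernel vectors of the moving operators are smooth
  have hkerD : ∀ᶠ p in l, ∀ x, xt p0 p1 (D p) x = 0 → ∃ v, io p0 v = x := by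
    filter_upwards [hreg, bD] with p hp hb x hx
    choose v hv using fun m : ℕ => exists_near (p := p0) x
      (show (0 : ℝ) < 1 / ((m : ℝ) + 1) by positivity)
    have hvx : Tendsto (fun m => io p0 (v m)) atTop (𝓝 x) := by
      rw [tendsto_iff_norm_sub_tendsto_zero]
      exact squeeze_zero (fun _ => norm_nonneg _) (fun m => (hv m).le)
        tendsto_one_div_add_atTop_nhds_zero_nat
    obtain ⟨w, hw⟩ := hp v (by
      intro δ hδ
      obtain ⟨N, hN⟩ := (Metric.cauchySeq_iff.1 hvx.cauchySeq) δ hδ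
      refine ⟨N, fun m hm k hk => ?_⟩
      have h1 := hN m hm k hk
      rwa [dist_eq_norm, ← map_sub, norm_io] at h1) (by
      have h1 := ((xt p0 p1 (D p)).continuous.tendsto x).comp hvx
      rw [hx] at h1
      have h2 := h1.norm
      rw [norm_zero] at h2
      refine h2.congr fun m => ?_
      show ‖xt p0 p1 (D p) (io p0 (v m))‖ = _
      rw [xt_io hb, norm_io])
    refine ⟨w, ?_⟩
    have h3 : Tendsto (fun m => io p0 (v m)) atTop (𝓝 (io p0 w)) := by
      rw [tendsto_iff_norm_sub_tendsto_zero]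
      refine hw.congr fun m => ?_
      rw [← map_sub, norm_io]
    exact tendsto_nhds_unique h3 hvx
  -- LEMMA A
  have hKer : ∀ᶠ p in l, Ker (xt p0 p1 (D p)) (finrank ℂ (LinearMap.ker d0)) := by
    refine lemmaB_filter hHfd hom' hLP hDD hlimD hε ?_ ?_
    · refine ⟨fun i => io p0 (b i), ?_, fun i => mem_ker_xt ⟨C0, hC0⟩ (b i).2⟩
      have h1 : LinearIndependent ℂ fun i => jE (b i) :=
        b.linearIndependent.map' (jE : LinearMap.ker d0 →ₗ[ℂ] KK (xt p0 p1 d0)) jE.ker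
      exact h1.map' (KK (xt p0 p1 d0)).subtype (Submodule.ker_subtype _)
    · intro p e u Qj Q hp he he0 hu hDu hQ hQr
      -- a tail on which the operators are bounded
      obtain ⟨J, hJ⟩ := eventually_atTop.1 (hp.eventually (bD.and hDx))
      have hN : ∀ j i, ∃ v : V0, ‖io p0 v - u (j + J) (jE (b i))‖ <
          e (j + J) * (1 / ((j : ℝ) + 1)) :=
        fun j i => exists_near _ (mul_pos (he _) (by positivity))
      choose v hv using hN
      -- preimages of the limit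
      have hw : ∀ i, ∃ w ∈ LinearMap.range H, Q (jE (b i)) = io p1 w := by
        intro i
        obtain ⟨x, hx⟩ := hQr (jE (b i))
        obtain ⟨w, hw, h2⟩ := xt_range bH x
        exact ⟨w, hw, hx.symm.trans h2⟩
      choose w hwr hw using hw
      set u' : ℕ → LinearMap.ker d0 →ₗ[ℂ] V0 := fun j => b.constr ℂ (v j) with hu'
      have hu'b : ∀ j i, u' j (b i) = v j i := fun j i => b.constr_basis ℂ _ _
      set Qj' : ℕ → LinearMap.ker d0 →ₗ[ℂ] V1 := fun j =>
        ((e (j + J) : ℂ)⁻¹) • (D (p (j + J)) ∘ₗ u' j) with hQj'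
      set Q' : LinearMap.ker d0 →ₗ[ℂ] V1 := b.constr ℂ w with hQ'
      have hQ'io : ∀ v, io p1 (Q' v) = Q (jE v) := by
        intro v
        have h1 : io p1 ∘ₗ Q' = Q ∘ₗ (jE : LinearMap.ker d0 →ₗ[ℂ] KK (xt p0 p1 d0)) := by
          refine b.ext fun i => ?_
          show io p1 (Q' (b i)) = Q (jE (b i))
          rw [hw i, hQ', b.constr_basis]
        exact LinearMap.congr_fun h1 v
      have hec : ∀ j, (e j : ℂ) ≠ 0 := fun j => by exact_mod_cast (he j).ne'
      have hen : ∀ j, ‖(e j : ℂ)‖ = e j := fun j => by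
        rw [Complex.norm_real, Real.norm_of_nonneg (he j).le]
      have hsh : Tendsto (fun j : ℕ => j + J) atTop atTop := tendsto_add_atTop_nat J
      have hone : Tendsto (fun j : ℕ => 1 / ((j : ℝ) + 1)) atTop (𝓝 0) :=
        tendsto_one_div_add_atTop_nhds_zero_nat
      have hres := hno (fun j => p (j + J)) (fun j => e (j + J)) u' Qj' Q' (hp.comp hsh)
        (fun j => he _) (he0.comp hsh) ?_ ?_ ?_ ?_
      · ext x
        obtain ⟨y, rfl⟩ := jE.surjective x
        rw [← hQ'io, hres]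
        simp
      · -- convergence of `u'`
        intro x
        have h1 : Tendsto (fun j => (io p0 ∘ₗ u' j - (u (j + J)) ∘ₗ
            (jE : LinearMap.ker d0 →ₗ[ℂ] KK (xt p0 p1 d0))) x) atTop (𝓝 0) := by
          refine tendsto_of_basis b (fun i => ?_) x
          rw [tendsto_zero_iff_norm_tendsto_zero]
          have h2 := (he0.comp hsh).mul hone
          rw [mul_zero] at h2
          refine squeeze_zero (fun _ => norm_nonneg _) (fun j => ?_) h2
          show ‖io p0 (u' j (b i)) - u (j + J) (jE (b i))‖ ≤ _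
          rw [hu'b]
          exact (hv j i).le
        have h2 := h1.add ((hu (jE x)).comp hsh)
        rw [zero_add, hjE'] at h2
        have h3 : Tendsto (fun j => io p0 (u' j x)) atTop (𝓝 (io p0 x)) := by
          refine h2.congr fun j => ?_
          show io p0 (u' j x) - u (j + J) (jE x) + u (j + J) (jE x) = _
          abel
        rw [tendsto_iff_norm_sub_tendsto_zero] at h3
        refine h3.congr fun j => ?_
        rw [← map_sub, norm_io]
      · intro j x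
        show D (p (j + J)) (u' j x) = (e (j + J) : ℂ) • ((e (j + J) : ℂ)⁻¹ •
          D (p (j + J)) (u' j x))
        rw [smul_inv_smul₀ (hec _)]
      · -- convergence of `Qj'`
        intro x
        have h1 : Tendsto (fun j => (io p1 ∘ₗ Qj' j - (Qj (j + J)) ∘ₗ
            (jE : LinearMap.ker d0 →ₗ[ℂ] KK (xt p0 p1 d0))) x) atTop (𝓝 0) := by
          refine tendsto_of_basis b (fun i => ?_) x
          rw [tendsto_zero_iff_norm_tendsto_zero]
          have hn : Tendsto (fun j => ‖xt p0 p1 (D (p (j + J)))‖) atTop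
              (𝓝 ‖xt p0 p1 d0‖) := (hlimD.comp (hp.comp hsh)).norm
          have h2 := hn.mul hone
          rw [mul_zero] at h2
          refine squeeze_zero (fun _ => norm_nonneg _) (fun j => ?_) h2
          have hbj := (hJ (j + J) (by omega)).1
          have h3 : (io p1 ∘ₗ Qj' j - (Qj (j + J)) ∘ₗ
              (jE : LinearMap.ker d0 →ₗ[ℂ] KK (xt p0 p1 d0))) (b i) =
              ((e (j + J) : ℂ)⁻¹) • xt p0 p1 (D (p (j + J)))
                (io p0 (v j i) - u (j + J) (jE (b i))) := by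
            show io p1 (((e (j + J) : ℂ)⁻¹) • D (p (j + J)) (u' j (b i))) -
              Qj (j + J) (jE (b i)) = _
            rw [map_sub, hDu, xt_io hbj, smul_sub, inv_smul_smul₀ (hec _), hu'b, map_smul]
          rw [h3, norm_smul, norm_inv, hen, inv_mul_le_iff₀ (he _)]
          refine ((xt p0 p1 (D (p (j + J)))).le_opNorm _).trans ?_
          calc ‖xt p0 p1 (D (p (j + J)))‖ * ‖io p0 (v j i) - u (j + J) (jE (b i))‖
              ≤ ‖xt p0 p1 (D (p (j + J)))‖ * (e (j + J) * (1 / ((j : ℝ) + 1))) :=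
                mul_le_mul_of_nonneg_left (hv j i).le (norm_nonneg _)
            _ = e (j + J) * (‖xt p0 p1 (D (p (j + J)))‖ * (1 / ((j : ℝ) + 1))) := by ring
        have h2 := h1.add ((hQ (jE x)).comp hsh)
        rw [zero_add, ← hQ'io] at h2
        have h3 : Tendsto (fun j => io p1 (Qj' j x)) atTop (𝓝 (io p1 (Q' x))) := by
          refine h2.congr fun j => ?_
          show io p1 (Qj' j x) - Qj (j + J) (jE x) + Qj (j + J) (jE x) = _
          abel
        rw [tendsto_iff_norm_sub_tendsto_zero] at h3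
        refine h3.congr fun j => ?_
        rw [← map_sub, norm_io]
      · intro x
        rw [hQ', Basis.constr_apply_fintype]
        exact Submodule.sum_mem _ fun i _ => Submodule.smul_mem _ _ (hwr i)
  -- the lifts
  obtain ⟨π, hπ⟩ := Submodule.ClosedComplemented.of_finiteDimensional (𝕜 := ℂ)
    (KK (xt p0 p1 d0))
  obtain ⟨c, hc, hcb⟩ := bounded_below hLP π hπ
  obtain ⟨S, hS1, hS2⟩ := Crest.Agent.R281.Rko_396.lifts (fun p => xt p0 p1 (D p))
    (xt p0 p1 d0) hlimD (KK (xt p0 p1 d0)) (fun u hu => hu) (π : Cp p0 →ₗ[ℂ] _) hπ hc hcb (by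
      filter_upwards [hKer] with p hp
      obtain ⟨f, hf, hf0⟩ := hp
      have e1 : finrank ℂ (LinearMap.ker d0) = finrank ℂ (KK (xt p0 p1 d0)) := jE.finrank_eq
      set b' := b.map jE with hb'
      refine ⟨b'.constr ℂ f, ?_, fun x => ?_⟩
      · rw [← LinearMap.ker_eq_bot, LinearMap.ker_eq_bot']
        intro m hm
        rw [Basis.constr_apply_fintype] at hm
        have h2 := (Fintype.linearIndependent_iff.1 hf) _ hm
        have h3 : b'.equivFun m = 0 := funext h2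
        exact b'.equivFun.map_eq_zero_iff.1 h3
      · rw [Basis.constr_apply_fintype, map_sum]
        exact Finset.sum_eq_zero fun i _ => by rw [map_smul, hf0, smul_zero])
  -- back to smooth vectors
  have hchoice : ∀ p i, ∃ v : V0,
      (∃ v', io p0 v' = S p (jE (b i))) → io p0 v = S p (jE (b i)) := by
    intro p i
    by_cases h : ∃ v', io p0 v' = S p (jE (b i))
    · obtain ⟨v', hv'⟩ := h
      exact ⟨v', fun _ => hv'⟩
    · exact ⟨0, fun h' => absurd h' h⟩
  choose g hg using hchoice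
  have hgood : ∀ᶠ p in l, ∀ v, io p0 (b.constr ℂ (g p) v) = S p (jE v) := by
    filter_upwards [hkerD, hS1] with p h1 h2 v
    have h3 : io p0 ∘ₗ b.constr ℂ (g p) = S p ∘ₗ
        (jE : LinearMap.ker d0 →ₗ[ℂ] KK (xt p0 p1 d0)) := by
      refine b.ext fun i => ?_
      show io p0 (b.constr ℂ (g p) (b i)) = S p (jE (b i))
      rw [b.constr_basis]
      exact hg p i (h1 _ (h2 _))
    exact LinearMap.congr_fun h3 v
  refine ⟨fun p => b.constr ℂ (g p), ?_, fun v => ?_⟩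
  · filter_upwards [hgood, hS1, bD] with p h1 h2 h3 v
    apply h1z
    rw [← norm_io, ← xt_io h3, h1 v, h2, norm_zero]
  · have h1 := hS2 (jE v)
    rw [tendsto_iff_norm_sub_tendsto_zero] at h1
    refine h1.congr' ?_
    filter_upwards [hgood] with p hp
    rw [hjE', ← hp v, ← map_sub, norm_io]

end abs

end

end Crest.Agent.R281.OpI_450
end

-- ▼ part R281/OpI4_450

/-!
# OPEN-INST (row 281, LEMMA OPEN'), part 4: LEMMA A on the Sobolev scale of `Sec B`

* `open_graded` : abstract graded form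
* `SecQ B q` : smooth sections of degree `q`; `HolB B` : degree zero, `∇ u = 0`
* `open_sec` : moving operators `D p : Sec B → Sec B` of degree one with `D D = 0`, close to `∇`
-/

set_option autoImplicit false
set_option linter.unusedSectionVars false
set_option maxSynthPendingDepth 3

open Set Filter Topology Complex
open scoped ContDiff Matrix ComplexConjugate

namespace Crest.Agent.R281.OpI_450

noncomputable section

/-- restriction of a linear map between submodules has finite rank if the map has -/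
theorem fd_restrict {V W : Type*} [AddCommGroup V] [Module ℂ V] [AddCommGroup W] [Module ℂ W]
    {T : V →ₗ[ℂ] W} {p : Submodule ℂ V} {q : Submodule ℂ W} (h : ∀ v ∈ p, T v ∈ q)
    [FiniteDimensional ℂ (LinearMap.range T)] :
    FiniteDimensional ℂ (LinearMap.range (T.restrict h)) := by
  have h1 : ∀ y : LinearMap.range (T.restrict h), ((y : q) : W) ∈ LinearMap.range T := by
    rintro ⟨y, x, rfl⟩
    exact ⟨x, rfl⟩
  let g : LinearMap.range (T.restrict h) →ₗ[ℂ] LinearMap.range T :=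
    { toFun := fun y => ⟨((y : q) : W), h1 y⟩
      map_add' := fun _ _ => rfl
      map_smul' := fun _ _ => rfl }
  refine FiniteDimensional.of_injective g fun x y hxy => ?_
  have h2 := congrArg Subtype.val hxy
  exact Subtype.ext (Subtype.ext h2)

section graded

variable {V : Type*} [AddCommGroup V] [Module ℂ V]

/-- **LEMMA A**, graded form: `G q` = elements of degree `q` -/
theorem open_graded {G : ℕ → Submodule ℂ V} {d K H : V →ₗ[ℂ] V} {nr : ℕ → Seminorm ℂ V}
    (hdG : ∀ q, ∀ u ∈ G q, d u ∈ G (q + 1)) (hKG : ∀ q, ∀ u ∈ G (q + 1), K u ∈ G q)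
    (hHG : ∀ q, ∀ u ∈ G q, H u ∈ G q) (hK0 : ∀ u ∈ G 0, K u = 0)
    (htpy : ∀ u, u = d (K u) + K (d u) + H u)
    (bd : ∀ s, ∃ C, ∀ v, nr s (d v) ≤ C * nr (s + 1) v)
    (bK : ∀ s, ∃ C, ∀ v, nr (s + 1) (K v) ≤ C * nr s v)
    (bH : ∀ s, ∃ C, ∀ v, nr s (H v) ≤ C * nr s v) (hfd : FiniteDimensional ℂ (LinearMap.range H))
    (hz : ∀ s v, nr s v = 0 → v = 0)
    (k : ℕ) {Pm : Type*} {l : Filter Pm}
    [l.IsCountablyGenerated] (D : Pm → V →ₗ[ℂ] V) {ε : Pm → ℝ}
    (hdeg : ∀ p, ∀ u ∈ G 0, D p u ∈ G 1) (hε : Tendsto ε l (𝓝 0))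
    (hD : ∀ᶠ p in l, ∀ u, nr (k + 1) (D p u - d u) ≤ ε p * nr (k + 2) u)
    (hD' : ∀ᶠ p in l, ∀ u, nr k (D p u - d u) ≤ ε p * nr (k + 1) u)
    (hDD : ∀ᶠ p in l, ∀ u, D p (D p u) = 0)
    (hreg : ∀ᶠ p in l, ∀ v : ℕ → V, (∀ m, v m ∈ G 0) →
      (∀ δ > 0, ∃ N, ∀ m ≥ N, ∀ j ≥ N, nr (k + 2) (v m - v j) < δ) →
      Tendsto (fun m => nr (k + 1) (D p (v m))) atTop (𝓝 0) →
      ∃ w ∈ G 0, Tendsto (fun m => nr (k + 2) (v m - w)) atTop (𝓝 0))
    (hno : ∀ (p : ℕ → Pm) (e : ℕ → ℝ) (u : ℕ → (G 0 ⊓ LinearMap.ker d : Submodule ℂ V) →ₗ[ℂ] V)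
      (Qj : ℕ → (G 0 ⊓ LinearMap.ker d : Submodule ℂ V) →ₗ[ℂ] V)
      (Q : (G 0 ⊓ LinearMap.ker d : Submodule ℂ V) →ₗ[ℂ] V),
      Tendsto p atTop l → (∀ j, 0 < e j) → Tendsto e atTop (𝓝 0) →
      (∀ j v, u j v ∈ G 0) → (∀ j v, Qj j v ∈ G 1) → (∀ v, Q v ∈ G 1) →
      (∀ v, Tendsto (fun j => nr (k + 2) (u j v - v)) atTop (𝓝 0)) →
      (∀ j v, D (p j) (u j v) = (e j : ℂ) • Qj j v) →
      (∀ v, Tendsto (fun j => nr (k + 1) (Qj j v - Q v)) atTop (𝓝 0)) →
      (∀ v, Q v ∈ LinearMap.range H) → Q = 0) :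
    FiniteDimensional ℂ (G 0 ⊓ LinearMap.ker d : Submodule ℂ V) ∧
    ∃ S : Pm → (G 0 ⊓ LinearMap.ker d : Submodule ℂ V) →ₗ[ℂ] V,
      (∀ᶠ p in l, ∀ v, S p v ∈ G 0 ∧ D p (S p v) = 0) ∧
      ∀ v, Tendsto (fun p => nr (k + 2) (S p v - v)) l (𝓝 0) := by
  classical
  let p0 : Seminorm ℂ (G 0) := (nr (k + 2)).comp (G 0).subtype
  let p1 : Seminorm ℂ (G 1) := (nr (k + 1)).comp (G 1).subtype
  let p2 : Seminorm ℂ (G 2) := (nr k).comp (G 2).subtype
  let d0 : G 0 →ₗ[ℂ] G 1 := d.restrict (hdG 0)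
  let d1 : G 1 →ₗ[ℂ] G 2 := d.restrict (hdG 1)
  let T0 : G 1 →ₗ[ℂ] G 0 := K.restrict (hKG 0)
  let T1 : G 2 →ₗ[ℂ] G 1 := K.restrict (hKG 1)
  let H0 : G 0 →ₗ[ℂ] G 0 := H.restrict (hHG 0)
  let H1 : G 1 →ₗ[ℂ] G 1 := H.restrict (hHG 1)
  have hf0 : FiniteDimensional ℂ (LinearMap.range H0) := fd_restrict _
  have hf1 : FiniteDimensional ℂ (LinearMap.range H1) := fd_restrict _
  have hker : ∀ v : G 0, v ∈ LinearMap.ker d0 ↔ (v : V) ∈ (G 0 ⊓ LinearMap.ker d : Submodule ℂ V) := by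
    intro v
    rw [LinearMap.mem_ker]
    constructor
    · intro h
      exact ⟨v.2, congrArg Subtype.val h⟩
    · intro h
      exact Subtype.ext h.2
  let E : LinearMap.ker d0 ≃ₗ[ℂ] (G 0 ⊓ LinearMap.ker d : Submodule ℂ V) :=
    { toFun := fun v => ⟨((v : G 0) : V), (hker v).1 v.2⟩
      invFun := fun v => ⟨⟨(v : V), v.2.1⟩, (hker _).2 v.2⟩
      map_add' := fun _ _ => rfl
      map_smul' := fun _ _ => rfl
      left_inv := fun _ => rfl
      right_inv := fun _ => rfl }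
  have hmain := open_abs (p0 := p0) (p1 := p1) (p2 := p2) (d0 := d0) (d1 := d1) (T0 := T0)
    (T1 := T1) (H0 := H0) (H := H1)
    (fun v hv => Subtype.ext (hz _ _ hv)) (fun v hv => Subtype.ext (hz _ _ hv))
    (by
      obtain ⟨C, hC⟩ := bd (k + 1)
      exact ⟨C, fun v => hC v⟩)
    (by
      obtain ⟨C, hC⟩ := bd k
      exact ⟨C, fun v => hC v⟩)
    (by
      obtain ⟨C, hC⟩ := bK (k + 1)
      exact ⟨C, fun v => hC v⟩)
    (by
      obtain ⟨C, hC⟩ := bK k
      exact ⟨C, fun v => hC v⟩)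
    (by
      obtain ⟨C, hC⟩ := bH (k + 2)
      exact ⟨C, fun v => hC v⟩)
    (by
      obtain ⟨C, hC⟩ := bH (k + 1)
      exact ⟨C, fun v => hC v⟩)
    (fun u => by
      apply Subtype.ext
      have h := htpy (u : V)
      rw [hK0 _ u.2, map_zero, zero_add] at h
      exact h)
    (fun q => Subtype.ext (htpy (q : V)))
    (l := l) (fun p => (D p).restrict (hdeg p)) ε hε
    (by
      filter_upwards [hD] with p hp v
      exact hp v)
    (by
      filter_upwards [hD', hDD] with p hp hpp v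
      show nr k (d (D p (v : V))) ≤ ε p * nr (k + 1) (D p (v : V))
      have h1 := hp (D p (v : V))
      rw [hpp, zero_sub, map_neg_eq_map] at h1
      exact h1)
    (by
      filter_upwards [hreg] with p hp v hv hv2
      obtain ⟨w, hw, h⟩ := hp (fun m => (v m : V)) (fun m => (v m).2) hv hv2
      exact ⟨⟨w, hw⟩, h⟩)
    (by
      intro p e u Qj Q hp he he0 hu hDu hQ hQr
      have h := hno p e (fun j => (G 0).subtype ∘ₗ (u j) ∘ₗ E.symm.toLinearMap)
        (fun j => (G 1).subtype ∘ₗ (Qj j) ∘ₗ E.symm.toLinearMap)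
        ((G 1).subtype ∘ₗ Q ∘ₗ E.symm.toLinearMap) hp he he0
        (fun j v => (u j (E.symm v)).2) (fun j v => (Qj j (E.symm v)).2)
        (fun v => (Q (E.symm v)).2) (fun v => hu (E.symm v))
        (fun j v => congrArg Subtype.val (hDu j (E.symm v)))
        (fun v => hQ (E.symm v)) (fun v => by
          obtain ⟨x, hx⟩ := hQr (E.symm v)
          exact ⟨(x : V), congrArg Subtype.val hx⟩)
      refine LinearMap.ext fun x => Subtype.ext ?_
      exact LinearMap.congr_fun h (E x))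
  obtain ⟨hfdk, S, hS1, hS2⟩ := hmain
  refine ⟨E.finiteDimensional, fun p => (G 0).subtype ∘ₗ (S p) ∘ₗ E.symm.toLinearMap, ?_,
    fun v => hS2 (E.symm v)⟩
  filter_upwards [hS1] with p hp v
  exact ⟨(S p (E.symm v)).2, congrArg Subtype.val (hp (E.symm v))⟩

end graded

open Crest.Agent.R275 Crest.Agent.R275.Geo Crest.Agent.R275.Tor812 Crest.Agent.R275.TorS666
  Crest.Agent.R275.C1d194 Crest.Agent.R275.C2812 Crest.Agent.R275.Ret666
  Crest.Agent.R275.Fred685 Crest.Agent.R275.FHom556 Crest.Agent.R275.RetC666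
open Crest.Agent.R273.KRL2_803 Crest.Agent.R273.HodgeH_803

variable {n : ℕ} {M : Type} [TopologicalSpace M] {A : Atl n M}

section

variable (B : FBun A)

/-- smooth sections of degree `q` -/
def SecQ (q : ℕ) : Submodule ℂ (Sec B) := LinearMap.eqLocus (pqL B q) LinearMap.id

variable {B}

theorem mem_SecQ {q : ℕ} {u : Sec B} : u ∈ SecQ B q ↔ pqL B q u = u := Iff.rfl

variable (B) in
/-- degree zero, `∇ u = 0` -/
def HolB : Submodule ℂ (Sec B) := SecQ B 0 ⊓ LinearMap.ker (nabL B)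


theorem nab_mem {q : ℕ} {u : Sec B} (hu : u ∈ SecQ B q) : nabL B u ∈ SecQ B (q + 1) := by
  have h := (LinearMap.congr_fun (nabL_pqL (B := B) q) u).symm
  rw [mem_SecQ]
  refine h.trans ?_
  show nabL B (pqL B q u) = _
  rw [mem_SecQ.1 hu]

end

section

variable [Finite A.ι] {P : Part A} {B : FBun A}

theorem K_mem (T : HodgeOp P B) {q : ℕ} {u : Sec B} (hu : u ∈ SecQ B (q + 1)) :
    T.K u ∈ SecQ B q := by
  rw [mem_SecQ, ← T.Kpq, mem_SecQ.1 hu]

theorem H_mem (T : HodgeOp P B) {q : ℕ} {u : Sec B} (hu : u ∈ SecQ B q) :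
    T.H u ∈ SecQ B q := by
  rw [mem_SecQ, ← T.Hpq, mem_SecQ.1 hu]

theorem K_zero (T : HodgeOp P B) {u : Sec B} (hu : u ∈ SecQ B 0) : T.K u = 0 := by
  have h := T.Kpq0 u
  rwa [mem_SecQ.1 hu] at h

/-- **LEMMA A on the Sobolev scale.** -/
theorem open_sec (T : HodgeOp P B) (k : ℕ) {Pm : Type*} {l : Filter Pm}
    [l.IsCountablyGenerated] (D : Pm → Sec B →ₗ[ℂ] Sec B) {ε : Pm → ℝ}
    (hdeg : ∀ p, ∀ u ∈ SecQ B 0, D p u ∈ SecQ B 1) (hε : Tendsto ε l (𝓝 0))
    (hD : ∀ᶠ p in l, ∀ u, (S0 P B).nrm (k + 1) (D p u - nabL B u) ≤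
      ε p * (S0 P B).nrm (k + 2) u)
    (hD' : ∀ᶠ p in l, ∀ u, (S0 P B).nrm k (D p u - nabL B u) ≤ ε p * (S0 P B).nrm (k + 1) u)
    (hDD : ∀ᶠ p in l, ∀ u, D p (D p u) = 0)
    (hreg : ∀ᶠ p in l, ∀ v : ℕ → Sec B, (∀ m, v m ∈ SecQ B 0) →
      (∀ δ > 0, ∃ N, ∀ m ≥ N, ∀ j ≥ N, (S0 P B).nrm (k + 2) (v m - v j) < δ) →
      Tendsto (fun m => (S0 P B).nrm (k + 1) (D p (v m))) atTop (𝓝 0) →
      ∃ w ∈ SecQ B 0, Tendsto (fun m => (S0 P B).nrm (k + 2) (v m - w)) atTop (𝓝 0))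
    (hno : ∀ (p : ℕ → Pm) (e : ℕ → ℝ) (u : ℕ → HolB B →ₗ[ℂ] Sec B)
      (Qj : ℕ → HolB B →ₗ[ℂ] Sec B) (Q : HolB B →ₗ[ℂ] Sec B),
      Tendsto p atTop l → (∀ j, 0 < e j) → Tendsto e atTop (𝓝 0) →
      (∀ j v, u j v ∈ SecQ B 0) → (∀ j v, Qj j v ∈ SecQ B 1) → (∀ v, Q v ∈ SecQ B 1) →
      (∀ v, Tendsto (fun j => (S0 P B).nrm (k + 2) (u j v - v)) atTop (𝓝 0)) →
      (∀ j v, D (p j) (u j v) = (e j : ℂ) • Qj j v) →
      (∀ v, Tendsto (fun j => (S0 P B).nrm (k + 1) (Qj j v - Q v)) atTop (𝓝 0)) →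
      (∀ v, Q v ∈ LinearMap.range T.H) → Q = 0) :
    FiniteDimensional ℂ (HolB B) ∧
    ∃ S : Pm → HolB B →ₗ[ℂ] Sec B,
      (∀ᶠ p in l, ∀ v, S p v ∈ SecQ B 0 ∧ D p (S p v) = 0) ∧
      ∀ v, Tendsto (fun p => (S0 P B).nrm (k + 2) (S p v - v)) l (𝓝 0) :=
  open_graded (G := SecQ B) (d := nabL B) (K := T.K) (H := T.H) (nr := (S0 P B).nrm)
    (fun q u hu => nab_mem hu) (fun q u hu => K_mem T hu) (fun q u hu => H_mem T hu)
    (fun u hu => K_zero T hu)
    (fun u => by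
      rw [← T.htpy u]
      abel)
    (fun s => by
      obtain ⟨C, -, hC⟩ := nab0_le P B s
      exact ⟨C, hC⟩)
    (fun s => by
      obtain ⟨C, -, hC⟩ := T.K_le s
      exact ⟨C, hC⟩)
    (fun s => by
      obtain ⟨C, hC0, hC⟩ := T.H_le s
      exact ⟨C, fun v => (hC v).trans (mul_le_mul_of_nonneg_left
        ((S0 P B).nrm_mono (Nat.zero_le _) _) hC0)⟩)
    T.smH.1
    (fun s u hu => (S0 P B).eq_zero u (le_antisymm (((S0 P B).nrm_mono (Nat.zero_le s) u).trans
      hu.le) (apply_nonneg _ _)))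
    k D hdeg hε hD hD' hDD hreg hno

end

end

end Crest.Agent.R281.OpI_450
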