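import Crest.Agent.R281.Op3a_569
import Crest.Agent.R281.OpB4_849_Mg
import Crest.Agent.R266.Osgood
import Crest.Agent.R281.Op3b_569
import Crest.Agent.R281.OpB6_849

-- ▼ part R281/OpT1_330
section

/-!
# Row 281, OPEN-O3, second owner (helper330), file 1: holomorphic immersed tori, Liouville

`F : (d → ℝ) → M` continuous, periodic, `F ∘ T⁻¹` a holomorphic immersion (`T : ℝ^d ≃ ℂ^m` linear).

* `quot_const` : two holomorphic sections of `L`, the first one without zeros on the torus, are
  proportional on the torus;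
* `vec_const` : a holomorphic vector field with values in `L` which is tangent to the torus is
  `u • DF(η)` with `η` constant.
-/

set_option autoImplicit false
set_option linter.unusedSectionVars false

open Set Filter Topology Complex Matrix
open scoped ContDiff Matrix ComplexConjugate ComplexOrder

namespace Crest.Agent.R281.OpT_330

open Crest.Agent.R273 Crest.Agent.R275 Crest.Agent.R275.Geo Crest.Agent.R275.Core144
open Crest.Agent.R273.Defs_333 Crest.Agent.R273.HM_333 Crest.Agent.R273.Kah_333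
open Crest.Agent.R273.Vol_333
open Crest.Agent.R281.Op3_569 (Per)
open Crest.Agent.R281.OpB_849

noncomputable section

variable {m N : ℕ} {M : Type} [TopologicalSpace M] {A : Atl N M} {L : LB A} {d : Type} [Fintype d]

/-- a holomorphic immersed torus -/
structure HTor (A : Atl N M) (T : (d → ℝ) ≃L[ℝ] Cn m) (F : (d → ℝ) → M) : Prop where
  cont : Continuous F
  per : Per F
  hol : ∀ i z, F (T.symm z) ∈ (A.e i).source →
    DifferentiableAt ℂ (fun w => A.e i (F (T.symm w))) z
  inj : ∀ i z, F (T.symm z) ∈ (A.e i).source →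
    Function.Injective (fderiv ℂ (fun w => A.e i (F (T.symm w))) z)

/-- the reading of the torus in the chart `i` -/
def rd (A : Atl N M) (T : (d → ℝ) ≃L[ℝ] Cn m) (F : (d → ℝ) → M) (i : A.ι) (z : Cn m) : Cn N :=
  A.e i (F (T.symm z))

variable {T : (d → ℝ) ≃L[ℝ] Cn m} {F : (d → ℝ) → M}

/-! ### periodic entire functions are constant -/

/-- a continuous periodic function has bounded range -/
theorem per_bdd {E : Type*} [NormedAddCommGroup E] {f : (d → ℝ) → E} (hf : Continuous f)
    (hp : Per f) : Bornology.IsBounded (range f) := by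
  have h1 : range f ⊆ f '' (Icc (0 : d → ℝ) 1) := by
    rintro _ ⟨x, rfl⟩
    refine ⟨fun i => Int.fract (x i), ⟨fun i => Int.fract_nonneg _, fun i => (Int.fract_lt_one _).le⟩,
      ?_⟩
    have h2 := hp (fun i => ⌊x i⌋) (fun i => Int.fract (x i))
    rw [← h2]
    congr 1
    funext i
    exact Int.fract_add_floor (x i)
  exact ((isCompact_Icc.image hf).isBounded).subset h1

theorem per_const {E : Type*} [NormedAddCommGroup E] [NormedSpace ℂ E] {f : Cn m → E}
    (hf : Differentiable ℂ f) (hp : Per fun x => f (T x)) (z w : Cn m) : f z = f w := by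
  have h1 : range f = range fun x => f (T x) := by
    ext y
    constructor
    · rintro ⟨z, rfl⟩
      exact ⟨T.symm z, by simp⟩
    · rintro ⟨x, rfl⟩
      exact ⟨T x, rfl⟩
  have h2 : Bornology.IsBounded (range f) := by
    rw [h1]
    exact per_bdd (hf.continuous.comp T.continuous) hp
  exact hf.apply_eq_apply_of_bounded h2 z w

/-! ### holomorphic data along the torus -/

theorem HTor.nhds (hF : HTor A T F) {i : A.ι} {z : Cn m} (hz : F (T.symm z) ∈ (A.e i).source) :
    ∀ᶠ w in 𝓝 z, F (T.symm w) ∈ (A.e i).source :=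
  (hF.cont.comp T.symm.continuous).continuousAt.preimage_mem_nhds ((A.e i).open_source.mem_nhds hz)

theorem holAt_diff {i : A.ι} {f : M → ℂ} (hf : HolAt A i univ f) {x : M}
    (hx : x ∈ (A.e i).source) :
    DifferentiableAt ℂ (fun z => f ((A.e i).symm z)) (A.e i x) := by
  have h1 : DifferentiableOn ℂ (fun z => f ((A.e i).symm z)) (A.e i).target := by
    unfold HolAt at hf
    simpa using hf
  exact h1.differentiableAt ((A.e i).open_target.mem_nhds ((A.e i).map_source hx))

/-- a holomorphic function along the torus -/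
theorem HTor.comp (hF : HTor A T F) {i : A.ι} {f : M → ℂ} (hf : HolAt A i univ f) {z : Cn m}
    (hz : F (T.symm z) ∈ (A.e i).source) :
    DifferentiableAt ℂ (fun w => f (F (T.symm w))) z := by
  have h1 := holAt_diff hf hz
  have h2 : DifferentiableAt ℂ (fun w => f ((A.e i).symm (A.e i (F (T.symm w))))) z :=
    DifferentiableAt.comp (f := fun w => A.e i (F (T.symm w)))
      (g := fun z => f ((A.e i).symm z)) z h1 (hF.hol i z hz)
  refine h2.congr_of_eventuallyEq ?_
  filter_upwards [hF.nhds hz] with w hw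
  rw [(A.e i).left_inv hw]

theorem IsHS.quot {u v : A.ι → M → ℂ} (hu : IsHS L univ u) (hv : IsHS L univ v) {i j : A.ι} {x : M}
    (hi : x ∈ (A.e i).source) (hj : x ∈ (A.e j).source) : v i x / u i x = v j x / u j x := by
  rw [hu.tr i j x ⟨hi, hj⟩ (mem_univ x), hv.tr i j x ⟨hi, hj⟩ (mem_univ x)]
  exact mul_div_mul_left _ _ (L.ne_zero i j x)


/-- the section `u` has no zero on the torus -/
def NZ (u : A.ι → M → ℂ) (F : (d → ℝ) → M) : Prop :=
  ∀ i x, F x ∈ (A.e i).source → u i (F x) ≠ 0

/-- **two sections are proportional on the torus** -/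
theorem quot_const (hF : HTor A T F) {u v : A.ι → M → ℂ} (hu : IsHS L univ u)
    (hv : IsHS L univ v) (h0 : NZ u F) :
    ∃ c : ℂ, ∀ i x, F x ∈ (A.e i).source → v i (F x) = c * u i (F x) := by
  set ch : M → A.ι := fun x => (A.cover x).choose with hch
  have hchs : ∀ x, x ∈ (A.e (ch x)).source := fun x => (A.cover x).choose_spec
  set g : Cn m → ℂ := fun z => v (ch (F (T.symm z))) (F (T.symm z)) /
    u (ch (F (T.symm z))) (F (T.symm z)) with hg
  have hgi : ∀ i z, F (T.symm z) ∈ (A.e i).source →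
      g z = v i (F (T.symm z)) / u i (F (T.symm z)) := fun i z hz =>
    IsHS.quot hu hv (hchs _) hz
  have hd : Differentiable ℂ g := by
    intro z
    obtain ⟨i, hi⟩ := A.cover (F (T.symm z))
    have h1 : DifferentiableAt ℂ (fun w => v i (F (T.symm w)) / u i (F (T.symm w))) z := by
      simp only [div_eq_mul_inv]
      exact (hF.comp (hv.hol i) hi).mul ((hF.comp (hu.hol i) hi).inv (h0 i _ hi))
    refine h1.congr_of_eventuallyEq ?_
    filter_upwards [hF.nhds hi] with w hw
    exact hgi i w hw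
  have hp : Per fun x => g (T x) := by
    intro k x
    show v (ch (F (T.symm (T (x + fun i => (k i : ℝ)))))) _ / u _ _ = _
    simp only [hg, ContinuousLinearEquiv.symm_apply_apply]
    rw [hF.per k x]
  refine ⟨g 0, fun i x hx => ?_⟩
  have h1 := hgi i (T x) (by simpa using hx)
  rw [per_const hd hp (T x) 0] at h1
  simp only [ContinuousLinearEquiv.symm_apply_apply] at h1
  rw [h1, div_mul_cancel₀ _ (h0 i x hx)]

/-! ### vector fields -/

/-- `X` is tangent to the torus -/
def Tang (X : A.ι → M → Fin N → ℂ) (T : (d → ℝ) ≃L[ℝ] Cn m) (F : (d → ℝ) → M) : Prop :=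
  ∀ i z, F (T.symm z) ∈ (A.e i).source →
    ∃ v, fderiv ℂ (rd A T F i) z v = WithLp.toLp 2 (X i (F (T.symm z)))

theorem HTor.rd_diff (hF : HTor A T F) {i : A.ι} {z : Cn m}
    (hz : F (T.symm z) ∈ (A.e i).source) : DifferentiableAt ℂ (rd A T F i) z := hF.hol i z hz

/-- change of charts for the derivative -/
theorem HTor.rd_change (hF : HTor A T F) {i j : A.ι} {z : Cn m}
    (hi : F (T.symm z) ∈ (A.e i).source) (hj : F (T.symm z) ∈ (A.e j).source) (v : Cn m) :
    fderiv ℂ (rd A T F j) z v =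
      WithLp.toLp 2 (Jm A i j (F (T.symm z)) *ᵥ WithLp.ofLp (fderiv ℂ (rd A T F i) z v)) := by
  have h1 : rd A T F j =ᶠ[𝓝 z] fun w => (fun y => A.e j ((A.e i).symm y)) (rd A T F i w) := by
    filter_upwards [hF.nhds hi] with w hw
    unfold rd
    simp only [(A.e i).left_inv hw]
  have h2 : DifferentiableAt ℂ (fun y => A.e j ((A.e i).symm y)) (rd A T F i z) := by
    have h3 := A.holo i j
    have h4 : IsOpen {z | z ∈ (A.e i).target ∧ (A.e i).symm z ∈ (A.e j).source} :=
      (A.e i).isOpen_inter_preimage_symm (A.e j).open_source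
    exact h3.differentiableAt (h4.mem_nhds ⟨(A.e i).map_source hi, by
      show (A.e i).symm (A.e i (F (T.symm z))) ∈ _
      rw [(A.e i).left_inv hi]; exact hj⟩)
  rw [h1.fderiv_eq]
  have h5 : fderiv ℂ (fun w => (fun y => A.e j ((A.e i).symm y)) (rd A T F i w)) z =
      (fderiv ℂ (fun y => A.e j ((A.e i).symm y)) (rd A T F i z)).comp (fderiv ℂ (rd A T F i) z) :=
    fderiv_comp z h2 (hF.rd_diff hi)
  rw [h5]
  exact fderiv_Jm i j (F (T.symm z)) _

/-- the derivative is differentiable -/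
theorem HTor.fd_diff (hF : HTor A T F) {i : A.ι} {z : Cn m}
    (hz : F (T.symm z) ∈ (A.e i).source) : DifferentiableAt ℂ (fderiv ℂ (rd A T F i)) z := by
  set U : Set (Cn m) := {w | F (T.symm w) ∈ (A.e i).source} with hU
  have hUo : IsOpen U := (A.e i).open_source.preimage (hF.cont.comp T.symm.continuous)
  have h1 : DifferentiableOn ℂ (rd A T F i) U := fun w hw => (hF.hol i w hw).differentiableWithinAt
  have h2 := R266.SCV.analyticOnNhd_of_differentiableOn hUo h1
  exact (h2.fderiv z hz).differentiableAt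

/-- the derivative is periodic -/
theorem HTor.fd_per (hF : HTor A T F) (i : A.ι) (k : d → ℤ) (x : d → ℝ) :
    fderiv ℂ (rd A T F i) (T (x + fun j => (k j : ℝ))) = fderiv ℂ (rd A T F i) (T x) := by
  have h1 : (fun w => rd A T F i (w + T fun j => (k j : ℝ))) = rd A T F i := by
    funext w
    unfold rd
    rw [map_add, ContinuousLinearEquiv.symm_apply_apply, hF.per k]
  have h2 : fderiv ℂ (fun w => rd A T F i (w + T fun j => (k j : ℝ))) (T x) =
      fderiv ℂ (rd A T F i) (T x + T fun j => (k j : ℝ)) := fderiv_comp_add_right _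
  rw [map_add, ← h2, h1]

/-- **a tangent holomorphic vector field is `u` times a constant field** -/
theorem vec_const (hF : HTor A T F) {u : A.ι → M → ℂ} (hu : IsHS L univ u) (h0 : NZ u F)
    {X : A.ι → M → Fin N → ℂ} (hX : IsX L X) (hh : HolX X) (ht : Tang X T F) :
    ∃ η : Cn m, ∀ i z, F (T.symm z) ∈ (A.e i).source →
      WithLp.toLp 2 (X i (F (T.symm z))) = u i (F (T.symm z)) • fderiv ℂ (rd A T F i) z η := by
  set ch : M → A.ι := fun x => (A.cover x).choose with hch
  have hchs : ∀ x, x ∈ (A.e (ch x)).source := fun x => (A.cover x).choose_spec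
  have hex : ∀ i z, F (T.symm z) ∈ (A.e i).source → ∃ v, fderiv ℂ (rd A T F i) z v =
      (u i (F (T.symm z)))⁻¹ • WithLp.toLp 2 (X i (F (T.symm z))) := by
    intro i z hz
    obtain ⟨v, hv⟩ := ht i z hz
    exact ⟨(u i (F (T.symm z)))⁻¹ • v, by rw [map_smul, hv]⟩
  choose! e he using hex
  set η : Cn m → Cn m := fun z => e (ch (F (T.symm z))) z with hη
  have key : ∀ i z, F (T.symm z) ∈ (A.e i).source → fderiv ℂ (rd A T F i) z (η z) =
      (u i (F (T.symm z)))⁻¹ • WithLp.toLp 2 (X i (F (T.symm z))) := by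
    intro i z hz
    have hc := hchs (F (T.symm z))
    rw [hF.rd_change hc hz, hη]
    simp only []
    rw [he _ z hc, hX.tr i _ _ ⟨hz, hc⟩, hu.tr i _ _ ⟨hz, hc⟩ (mem_univ _)]
    set x := F (T.symm z)
    have hg := L.ne_zero i (ch x) x
    have hux := h0 (ch x) _ hc
    ext a
    simp only [WithLp.ofLp_smul, WithLp.ofLp_toLp, Matrix.mulVec_smul, PiLp.smul_apply,
      Pi.smul_apply, smul_eq_mul]
    field_simp
  -- differentiability
  have hd : Differentiable ℂ η := by
    intro z0
    obtain ⟨i, hi⟩ := A.cover (F (T.symm z0))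
    obtain ⟨P0, hP0⟩ := LinearMap.exists_leftInverse_of_injective
      (fderiv ℂ (rd A T F i) z0 : Cn m →ₗ[ℂ] Cn N) (LinearMap.ker_eq_bot.2 (hF.inj i z0 hi))
    set P : Cn N →L[ℂ] Cn m := LinearMap.toContinuousLinearMap P0 with hP
    set S : Cn m → (Cn m →L[ℂ] Cn m) := fun z => P.comp (fderiv ℂ (rd A T F i) z) with hS
    have hS0 : S z0 = 1 := by
      ext1 v
      exact LinearMap.congr_fun hP0 v
    have hSd : DifferentiableAt ℂ S z0 := (differentiableAt_const P).clm_comp (hF.fd_diff hi)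
    have hR : DifferentiableAt ℂ (fun z => P ((u i (F (T.symm z)))⁻¹ •
        WithLp.toLp 2 (X i (F (T.symm z))))) z0 := by
      refine P.differentiableAt.comp z0 ?_
      refine ((hF.comp (hu.hol i) hi).inv (h0 i _ hi)).smul ?_
      rw [differentiableAt_euclidean]
      intro k
      exact hF.comp (hh i k) hi
    have hu1 : IsUnit (S z0) := by rw [hS0]; exact isUnit_one
    have hI : DifferentiableAt ℂ (fun z => Ring.inverse (S z)) z0 :=
      (differentiableAt_inverse (𝕜 := ℂ) hu1).comp z0 hSd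
    have hunit : ∀ᶠ z in 𝓝 z0, IsUnit (S z) :=
      hSd.continuousAt.preimage_mem_nhds (Units.isOpen.mem_nhds hu1)
    refine (hI.clm_apply hR).congr_of_eventuallyEq ?_
    filter_upwards [hF.nhds hi, hunit] with z hz hzu
    show η z = _
    rw [← key i z hz]
    show η z = Ring.inverse (S z) (S z (η z))
    have h1 := Ring.inverse_mul_cancel (S z) hzu
    have h2 := congrArg (fun f : Cn m →L[ℂ] Cn m => f (η z)) h1
    exact h2.symm
  have hp : Per fun x => η (T x) := by
    intro k x
    obtain ⟨i, hi⟩ := A.cover (F x)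
    have hx1 : F (T.symm (T x)) ∈ (A.e i).source := by simpa using hi
    have hx2 : F (T.symm (T (x + fun j => (k j : ℝ)))) ∈ (A.e i).source := by
      rw [ContinuousLinearEquiv.symm_apply_apply, hF.per k]; exact hi
    have h1 := key i _ hx1
    have h2 := key i _ hx2
    rw [hF.fd_per i k x, ContinuousLinearEquiv.symm_apply_apply, hF.per k] at h2
    rw [ContinuousLinearEquiv.symm_apply_apply] at h1
    exact hF.inj i _ hx1 (h2.trans h1.symm)
  refine ⟨η 0, fun i z hz => ?_⟩
  rw [per_const hd hp 0 z, key i z hz, smul_smul, mul_inv_cancel₀ (h0 i _ hz), one_smul]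

end

end Crest.Agent.R281.OpT_330
end

-- ▼ part R281/OpT2_330
section

/-!
# Row 281, OPEN-O3, second owner (helper330), file 2: the identity `s_a X_b = s_b X_a` on a torus

* `exists_cstr` : a real vector space with `J² = -1` is `ℂ^m`;
* `torus_pair`  : `thmC` (569) + Liouville : `u X' = w X` on the torus.
-/

set_option autoImplicit false
set_option linter.unusedSectionVars false
set_option linter.style.haveILetI false

open Set Filter Topology Complex Matrix MeasureTheory Module
open scoped ContDiff Matrix ComplexConjugate ComplexOrder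

namespace Crest.Agent.R281.OpT_330

open Crest.Agent.R273 Crest.Agent.R275 Crest.Agent.R275.Geo Crest.Agent.R275.Core144
open Crest.Agent.R273.Defs_333 Crest.Agent.R273.HM_333 Crest.Agent.R273.Kah_333
open Crest.Agent.R273.Vol_333
open Crest.Agent.R281.Op3_569
open Crest.Agent.R281.OpB_849
open Crest.Agent.R275.Tor812 (box)

noncomputable section

/-! ### complex structures -/


/-! ### (0,1)-forms -/

/-- the value of the (0,1)-form `∑ q_k dz̄_k` -/
def cj {N : ℕ} (q : Fin N → ℂ) : Cn N →L[ℝ] ℂ :=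
  LinearMap.toContinuousLinearMap
    { toFun := fun v => ∑ k, q k * conj (v k)
      map_add' := fun v w => by
        rw [← Finset.sum_add_distrib]
        refine Finset.sum_congr rfl fun k _ => ?_
        simp only [PiLp.add_apply, map_add]
        ring
      map_smul' := fun c v => by
        rw [RingHom.id_apply, Finset.smul_sum]
        refine Finset.sum_congr rfl fun k _ => ?_
        simp only [PiLp.smul_apply, Complex.real_smul, map_mul, Complex.conj_ofReal]
        ring }

theorem cj_apply {N : ℕ} (q : Fin N → ℂ) (v : Cn N) : cj q v = ∑ k, q k * conj (v k) := rfl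

variable {m N : ℕ} {M : Type} [TopologicalSpace M] {A : Atl N M} {L : LB A} {d : Type} [Fintype d]
  {T : (d → ℝ) ≃L[ℝ] Cn m} {F : (d → ℝ) → M}

/-- real and complex derivative of a holomorphic torus -/
theorem HTor.fd_real (hF : HTor A T F) {i : A.ι} {x : d → ℝ} (hx : F x ∈ (A.e i).source)
    (v : d → ℝ) :
    fderiv ℝ (fun y => A.e i (F y)) x v = fderiv ℂ (rd A T F i) (T x) (T v) := by
  have hx' : F (T.symm (T x)) ∈ (A.e i).source := by simpa using hx
  have h1 : HasFDerivAt (rd A T F i) (fderiv ℂ (rd A T F i) (T x)) (T x) :=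
    (hF.rd_diff hx').hasFDerivAt
  have h2 : HasFDerivAt (fun y => rd A T F i (T y))
      (((fderiv ℂ (rd A T F i) (T x)).restrictScalars ℝ).comp (T : (d → ℝ) →L[ℝ] Cn m)) x :=
    (h1.restrictScalars ℝ).comp x T.hasFDerivAt
  have h3 : (fun y => rd A T F i (T y)) = fun y => A.e i (F y) := by
    funext y
    unfold rd
    rw [ContinuousLinearEquiv.symm_apply_apply]
  rw [h3] at h2
  rw [h2.fderiv]
  rfl

/-! ### linear combinations of vector fields -/

theorem isX_comb {X X' : A.ι → M → Fin N → ℂ} (hX : IsX L X) (hX' : IsX L X') (c : ℂ) :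
    IsX L (fun i x => X' i x - c • X i x) where
  sm i k := by
    have h1 : A.SmAt i (fun x => X' i x k - c * X i x k) :=
      ContDiffOn.sub (hX'.sm i k) (contDiffOn_const.mul (hX.sm i k))
    exact h1
  tr i j x hx := by
    rw [hX'.tr i j x hx, hX.tr i j x hx, Matrix.mulVec_sub, Matrix.mulVec_smul, smul_sub,
      smul_comm c]

theorem holX_comb {X X' : A.ι → M → Fin N → ℂ} (hX : HolX X) (hX' : HolX X') (c : ℂ) :
    HolX (fun i x => X' i x - c • X i x) := fun i k => by
  have h1 : HolAt A i univ (fun x => X' i x k - c * X i x k) := by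
    have h2 := hX i k
    have h3 := hX' i k
    unfold HolAt at h2 h3 ⊢
    exact h3.sub (h2.const_mul c)
  exact h1

theorem tang_comb {X X' : A.ι → M → Fin N → ℂ} (hX : Tang X T F) (hX' : Tang X' T F) (c : ℂ) :
    Tang (fun i x => X' i x - c • X i x) T F := by
  intro i z hz
  obtain ⟨v, hv⟩ := hX i z hz
  obtain ⟨v', hv'⟩ := hX' i z hz
  refine ⟨v' - c • v, ?_⟩
  rw [map_sub, map_smul, hv, hv']
  rfl

/-- positivity -/
theorem herm_pos {g : Matrix (Fin N) (Fin N) ℂ} (hg : g.PosDef) {W : Cn N} (hW : W ≠ 0) :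
    0 < (cj (gᵀ *ᵥ WithLp.ofLp W) W).re := by
  have h1 : star (WithLp.ofLp W) ≠ 0 := by
    intro h
    apply hW
    have h2 := congrArg star h
    rw [star_star, star_zero] at h2
    ext k
    exact congrFun h2 k
  have h2 := hg.re_dotProduct_pos (x := star (WithLp.ofLp W)) h1
  have h3 : cj (gᵀ *ᵥ WithLp.ofLp W) W =
      star (star (WithLp.ofLp W)) ⬝ᵥ g *ᵥ star (WithLp.ofLp W) := by
    rw [cj_apply, star_star, Matrix.dotProduct_mulVec, dotProduct]
    refine Finset.sum_congr rfl fun k _ => ?_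
    rw [Matrix.mulVec_transpose]
    rfl
  rw [h3]
  exact h2

/-- **one torus, two sections** -/
theorem torus_pair {α : Type*} {l : Filter α} [l.NeBot] {D : α → MovD A} {ε : α → ℝ}
    (hε : ∀ᶠ n in l, 0 < ε n) {F : α → (d → ℝ) → M} {J : α → (d → ℝ) → (d → ℝ) →L[ℝ] (d → ℝ)}
    (hF : ∀ᶠ n in l, TorF (D n) (F n) (J n))
    {F0 : (d → ℝ) → M} {J0 : (d → ℝ) →L[ℝ] (d → ℝ)}
    (hFl : ∀ x, CC l F F0 x)
    (hDF : ∀ x i, F0 x ∈ (A.e i).source →
      CC l (fun n => fderiv ℝ (fun y => A.e i (F n y))) (fderiv ℝ (fun y => A.e i (F0 y))) x)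
    (hJl : ∀ x, CC l J (fun _ => J0) x)
    (hT : HTor A T F0)
    {u w : α → A.ι → M → ℂ} {qu qw : α → A.ι → M → Cn N →L[ℝ] ℂ}
    (hu : ∀ᶠ n in l, Sol (D n) (ε n) (u n) (qu n)) (hw : ∀ᶠ n in l, Sol (D n) (ε n) (w n) (qw n))
    (hc : ∀ᶠ n in l, Cmt A (u n) (w n))
    {u0 w0 : A.ι → M → ℂ} {q q' : A.ι → M → Fin N → ℂ}
    (hul : ∀ i, ∀ x ∈ (A.e i).source, CC l (fun n => u n i) (u0 i) x)
    (hwl : ∀ i, ∀ x ∈ (A.e i).source, CC l (fun n => w n i) (w0 i) x)
    (hqul : ∀ i, ∀ x ∈ (A.e i).source, CC l (fun n => qu n i) (fun x => cj (q i x)) x)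
    (hqwl : ∀ i, ∀ x ∈ (A.e i).source, CC l (fun n => qw n i) (fun x => cj (q' i x)) x)
    (hu0 : IsHS L univ u0) (hw0 : IsHS L univ w0) (hne : NZ u0 F0) (K : Kah A)
    (hX : IsX L (shp K q)) (hX' : IsX L (shp K q')) (hh : HolX (shp K q)) (hh' : HolX (shp K q'))
    (ht : Tang (shp K q) T F0) (ht' : Tang (shp K q') T F0) :
    ∀ i x, F0 x ∈ (A.e i).source →
      u0 i (F0 x) • shp K q' i (F0 x) = w0 i (F0 x) • shp K q i (F0 x) := by
  obtain ⟨c, hcc⟩ := quot_const hT hu0 hw0 hne
  obtain ⟨η, hη⟩ := vec_const hT hu0 hne (isX_comb hX hX' c) (holX_comb hh hh' c)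
    (tang_comb ht ht' c)
  obtain ⟨B0, hB0c, hB0, hint⟩ := thmC hε hF hFl hDF hJl hu hw hc hul hwl hqul hqwl
    (fun x i hi => hne i x hi)
  set v : d → ℝ := T.symm η with hv
  -- the value of `B0 x v`
  have hval : ∀ x i, F0 x ∈ (A.e i).source → B0 x v =
      cj ((K.g i (F0 x))ᵀ *ᵥ WithLp.ofLp (fderiv ℂ (rd A T F0 i) (T x) η))
        (fderiv ℂ (rd A T F0 i) (T x) η) := by
    intro x i hi
    have hxi : F0 (T.symm (T x)) ∈ (A.e i).source := by simpa using hi
    have hux := hne i x hi
    have h1 : fderiv ℝ (fun y => A.e i (F0 y)) x v = fderiv ℂ (rd A T F0 i) (T x) η := by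
      rw [hT.fd_real hi v, hv, ContinuousLinearEquiv.apply_symm_apply]
    set W := fderiv ℂ (rd A T F0 i) (T x) η with hW
    have h2 := hη i (T x) hxi
    rw [ContinuousLinearEquiv.symm_apply_apply, ← hW] at h2
    have h3 : shp K q' i (F0 x) - c • shp K q i (F0 x) = u0 i (F0 x) • WithLp.ofLp W := by
      have := congrArg WithLp.ofLp h2
      simpa using this
    have h4 : q' i (F0 x) - c • q i (F0 x) =
        u0 i (F0 x) • ((K.g i (F0 x))ᵀ *ᵥ WithLp.ofLp W) := by
      rw [← Matrix.mulVec_smul, ← h3, Matrix.mulVec_sub, Matrix.mulVec_smul]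
      have e1 := flt_shp K q hi
      have e2 := flt_shp K q' hi
      unfold flt at e1 e2
      rw [e1, e2]
    rw [hB0 x i hi, Bf_apply, h1, hcc i x hi]
    have h5 : u0 i (F0 x) * cj (q' i (F0 x)) W - c * u0 i (F0 x) * cj (q i (F0 x)) W =
        u0 i (F0 x) * (u0 i (F0 x) * cj ((K.g i (F0 x))ᵀ *ᵥ WithLp.ofLp W) W) := by
      have h6 : cj (q' i (F0 x)) W - c * cj (q i (F0 x)) W =
          u0 i (F0 x) * cj ((K.g i (F0 x))ᵀ *ᵥ WithLp.ofLp W) W := by
        simp only [cj_apply]
        rw [Finset.mul_sum, Finset.mul_sum, ← Finset.sum_sub_distrib]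
        refine Finset.sum_congr rfl fun k _ => ?_
        have h7 := congrFun h4 k
        simp only [Pi.sub_apply, Pi.smul_apply, smul_eq_mul] at h7
        linear_combination (conj (W k)) * h7
      rw [← h6]
      ring
    rw [h5]
    field_simp
  -- positivity forces `η = 0`
  have hη0 : η = 0 := by
    have h1 : v = 0 := by
      refine eq_zero_of_int (G := fun x v' => (B0 x v').re) (η := v) ?_ ?_ ?_
      · exact Complex.continuous_re.comp (hB0c.clm_apply continuous_const)
      · intro x hvne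
        obtain ⟨i, hi⟩ := A.cover (F0 x)
        show 0 < (B0 x v).re
        rw [hval x i hi]
        refine herm_pos (K.pos i _ hi) fun h0 => hvne ?_
        have hxi : F0 (T.symm (T x)) ∈ (A.e i).source := by simpa using hi
        have h2 := hT.inj i (T x) hxi
        have h3 : η = 0 := h2 (by
          show fderiv ℂ (rd A T F0 i) (T x) η = fderiv ℂ (rd A T F0 i) (T x) 0
          rw [h0, map_zero])
        rw [hv, h3, map_zero]
      · have h2 := hint v
        have h3 := integral_re (𝕜 := ℂ) (f := fun x => B0 x v)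
          (μ := volume.restrict (box (0 : d → ℝ)))
          (integrable_box (hB0c.clm_apply continuous_const))
        have h4 : ∫ x in box (0 : d → ℝ), (B0 x v).re = (∫ x in box (0 : d → ℝ), B0 x v).re := h3
        rw [h4, h2, Complex.zero_re]
    rw [hv] at h1
    exact T.symm.map_eq_zero_iff.1 h1
  intro i x hi
  have hxi : F0 (T.symm (T x)) ∈ (A.e i).source := by simpa using hi
  have h2 := hη i (T x) hxi
  rw [hη0, map_zero, smul_zero, ContinuousLinearEquiv.symm_apply_apply] at h2
  have h3 : shp K q' i (F0 x) - c • shp K q i (F0 x) = 0 := by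
    have := congrArg WithLp.ofLp h2
    simpa using this
  rw [sub_eq_zero.1 h3, hcc i x hi, smul_smul, mul_comm c]

end

end Crest.Agent.R281.OpT_330
end

-- ▼ part R281/OpT3_330

/-!
# Row 281, OPEN-O3, second owner (helper330), file 3: the tube version

* `MTor l D x` : a moving family of tori (569's `TorF`) converging to a holomorphic torus through `x`;
* `Fib s F`    : the sections `s_a` define a constant map on the torus;
* `Ver s T F`  : vectors killed by all `d(s_a/s_b)` are tangent to the torus;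
* `tube_cross` : `s_a X_b = s_b X_a` on the union of the tori (hypothesis `hc` of 849's `open_final`);
* `open_zero`  : with 849's `open_final`: the components of degree one of the limits vanish.
-/

set_option autoImplicit false
set_option linter.unusedSectionVars false

open Set Filter Topology Complex Matrix MeasureTheory Module
open scoped ContDiff Matrix ComplexConjugate ComplexOrder

namespace Crest.Agent.R281.OpT_330

open Crest.Agent.R273 Crest.Agent.R275 Crest.Agent.R275.Geo Crest.Agent.R275.Core144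
open Crest.Agent.R273.Defs_333 Crest.Agent.R273.HM_333 Crest.Agent.R273.Kah_333
open Crest.Agent.R273.Vol_333
open Crest.Agent.R273.Fock_243 Crest.Agent.R273.Calc_243 Crest.Agent.R273.Bkn_243
open Crest.Agent.R273.LamN127 Crest.Agent.R273.DVec_733 Crest.Agent.R273.DMet_733
open Crest.Agent.R273.DMetB_733 Crest.Agent.R273.StV_37
open Crest.Agent.R273.BKNa_37 Crest.Agent.R273.BKNb_37 Crest.Agent.R273.BKNc_37
open Crest.Agent.R273.BKNd_37 Crest.Agent.R273.BKNe_37
open Crest.Agent.R281.Op3_569
open Crest.Agent.R281.OpB_849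

noncomputable section

variable {m N : ℕ} {M : Type} [TopologicalSpace M] {A : Atl N M} {L : LB A} {d : Type} [Fintype d]
  {σ : Type*} {α : Type*}

/-- a moving family of tori with limit a holomorphic torus through `x` -/
structure MTor (d : Type) [Fintype d] (m : ℕ) (l : Filter α) (D : α → MovD A) (x : M) where
  T : (d → ℝ) ≃L[ℝ] Cn m
  F : α → (d → ℝ) → M
  J : α → (d → ℝ) → (d → ℝ) →L[ℝ] (d → ℝ)
  F0 : (d → ℝ) → M
  J0 : (d → ℝ) →L[ℝ] (d → ℝ)
  tor : ∀ᶠ n in l, TorF (D n) (F n) (J n)
  cF : ∀ x, CC l F F0 x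
  cDF : ∀ x i, F0 x ∈ (A.e i).source →
    CC l (fun n => fderiv ℝ (fun y => A.e i (F n y))) (fderiv ℝ (fun y => A.e i (F0 y))) x
  cJ : ∀ x, CC l J (fun _ => J0) x
  h : HTor A T F0
  mem : x ∈ range F0

/-- the sections `s_a` define a constant map on the torus -/
def Fib (s : σ → A.ι → M → ℂ) (F : (d → ℝ) → M) : Prop :=
  ∀ a b i j x y, F x ∈ (A.e i).source → F y ∈ (A.e j).source →
    s a i (F x) * s b j (F y) = s b i (F x) * s a j (F y)

/-- the vectors killed by all `d(s_a/s_b)` are tangent to the torus -/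
def Ver (s : σ → A.ι → M → ℂ) (T : (d → ℝ) ≃L[ℝ] Cn m) (F : (d → ℝ) → M) : Prop :=
  ∀ i z, F (T.symm z) ∈ (A.e i).source → ∀ X : A.ι → M → Fin N → ℂ,
    (∀ a b, s a i (F (T.symm z)) * dX X (s b) i (F (T.symm z)) =
      s b i (F (T.symm z)) * dX X (s a) i (F (T.symm z))) →
    ∃ v, fderiv ℂ (rd A T F i) z v = WithLp.toLp 2 (X i (F (T.symm z)))

/-- vertical vector fields -/
def Vert (s : σ → A.ι → M → ℂ) (X : A.ι → M → Fin N → ℂ) : Prop :=
  ∀ i, ∀ x ∈ (A.e i).source, ∀ a b, s a i x * dX X (s b) i x = s b i x * dX X (s a) i x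

theorem Ver.tang {s : σ → A.ι → M → ℂ} {T : (d → ℝ) ≃L[ℝ] Cn m} {F : (d → ℝ) → M}
    (hv : Ver s T F) {X : A.ι → M → Fin N → ℂ} (hX : Vert s X) : Tang X T F :=
  fun i z hz => hv i z hz X (hX i _ hz)

/-- a section which does not vanish at one point of a fibre torus does not vanish on it -/
theorem Fib.nz {s : σ → A.ι → M → ℂ} {F : (d → ℝ) → M} (hf : Fib s F)
    (ne : ∀ i, ∀ x ∈ (A.e i).source, ∃ a, s a i x ≠ 0) {a : σ} {i : A.ι} {x : d → ℝ}
    (hx : F x ∈ (A.e i).source) (ha : s a i (F x) ≠ 0) : NZ (s a) F := by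
  intro j y hy h0
  obtain ⟨b, hb⟩ := ne j _ hy
  have h1 := hf a b i j x y hx hy
  rw [h0, mul_zero] at h1
  exact mul_ne_zero ha hb h1

theorem cmt_of_tr {u w : A.ι → M → ℂ}
    (hu : ∀ i j, ∀ x ∈ (A.e i).source ∩ (A.e j).source, u i x = L.g i j x * u j x)
    (hw : ∀ i j, ∀ x ∈ (A.e i).source ∩ (A.e j).source, w i x = L.g i j x * w j x) :
    Cmt A u w := fun i j x hx => ⟨L.g i j x, L.ne_zero i j x, hu i j x hx, hw i j x hx⟩

/-- **(c), tube version** -/
theorem tube_cross {l : Filter α} [l.NeBot] {D : α → MovD A} {ε : α → ℝ}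
    (hε : ∀ᶠ n in l, 0 < ε n) {s : σ → A.ι → M → ℂ} (hs : ∀ a, IsHS L univ (s a))
    (ne : ∀ i, ∀ x ∈ (A.e i).source, ∃ a, s a i x ≠ 0) (K : Kah A)
    {q : σ → A.ι → M → Fin N → ℂ} (hX : ∀ a, IsX L (shp K (q a))) (hh : ∀ a, HolX (shp K (q a)))
    (hv : ∀ a, Vert s (shp K (q a)))
    {U : α → σ → A.ι → M → ℂ} {Q : α → σ → A.ι → M → Cn N →L[ℝ] ℂ}
    (hSol : ∀ a, ∀ᶠ n in l, Sol (D n) (ε n) (U n a) (Q n a))
    (hCmt : ∀ a b, ∀ᶠ n in l, Cmt A (U n a) (U n b))
    (hUl : ∀ a i, ∀ x ∈ (A.e i).source, CC l (fun n => U n a i) (s a i) x)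
    (hQl : ∀ a i, ∀ x ∈ (A.e i).source, CC l (fun n => Q n a i) (fun x => cj (q a i x)) x)
    {V : Set M}
    (hV : ∀ x ∈ V, ∃ t : MTor d m l D x, Fib s t.F0 ∧ Ver s t.T t.F0) :
    ∀ a b i, ∀ x ∈ (A.e i).source, x ∈ V →
      s a i x • shp K (q b) i x = s b i x • shp K (q a) i x := by
  intro a b i x hx hxV
  obtain ⟨t, hf, hver⟩ := hV x hxV
  obtain ⟨a0, ha0⟩ := ne i x hx
  obtain ⟨y, hy⟩ := t.mem
  rw [← hy] at hx ha0 ⊢
  have hnz := hf.nz ne hx ha0
  have key : ∀ b, s a0 i (t.F0 y) • shp K (q b) i (t.F0 y) =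
      s b i (t.F0 y) • shp K (q a0) i (t.F0 y) := fun b =>
    torus_pair hε t.tor t.cF t.cDF t.cJ t.h (hSol a0) (hSol b) (hCmt a0 b) (hUl a0) (hUl b)
      (hQl a0) (hQl b) (hs a0) (hs b) hnz K (hX a0) (hX b) (hh a0) (hh b) (hver.tang (hv a0))
      (hver.tang (hv b)) i y hx
  have h1 : s a0 i (t.F0 y) • (s a i (t.F0 y) • shp K (q b) i (t.F0 y)) =
      s a0 i (t.F0 y) • (s b i (t.F0 y) • shp K (q a) i (t.F0 y)) := by
    rw [smul_comm (s a0 i (t.F0 y)), smul_comm (s a0 i (t.F0 y)), key b, key a, smul_smul,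
      smul_smul, mul_comm]
  exact smul_right_injective _ ha0 h1


end

end Crest.Agent.R281.OpT_330
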