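import Crest.Agent.R281.OpC5_920
import Crest.Agent.R281.OpD5_569
import Crest.Agent.R273.MolJ_106
import Crest.Agent.R273.T8A_774
import Crest.Agent.R281.OpN3_396
import Crest.Agent.R281.OpI4_450_Mg
import Crest.Agent.R281.OpD6_569
import Crest.Agent.R281.OpT3_330
import Crest.Agent.R281.OpB7_849

-- ▼ part R281/OpC6_920
section

/-!
# R281 (S0424), OPEN-INST (helper920), part 6: (H3) for 569's `bel`

* `H3_of_bel` : the hypothesis `H3` of 450's `open_mov` for `D := (bel P hJ hN hg hF).D`, without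
  hypotheses.
-/

set_option autoImplicit false
set_option linter.unusedSectionVars false
set_option linter.unusedVariables false
set_option maxSynthPendingDepth 3

open Set Filter Topology Complex
open scoped ContDiff Matrix ComplexConjugate Kronecker

namespace Crest.Agent.R281.OpC_920

open Crest.Agent.R275 Crest.Agent.R275.Geo Crest.Agent.R275.Core144
open Crest.Agent.R273.KRL2_803 Crest.Agent.R273.LamN127 Crest.Agent.R273.Mol_106
open Crest.Agent.R281.OpM_693 (Bel)
open Crest.Agent.R281.OpI_450 (SecQ)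
open Crest.Agent.R281.PL_713 Crest.Agent.R281.HkR_835 Crest.Agent.R281.OpD_569

noncomputable section

variable {n : ℕ} {M : Type} [TopologicalSpace M] {A : Atl n M}
variable {L L' : PL (ofAtl A)} (P : Pot L) {A' : Atl n M} {J : A.ι → Cn n → Cn n →L[ℝ] Cn n}

/-- **(H3) for the Beltrami operator of an integrable structure** -/
theorem H3_of_bel (hJ : JC (ofAtl A) J A') (hN : Near A J) (hg : L'.g = L.g) (hF : F11 J L')
    (v : A.ι → M → (BN P.lb).κ → ℂ) (u : ℕ → Geo.Sec (BN P.lb))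
    (hu : ∀ m, u m ∈ SecQ (BN P.lb) 0)
    (h1 : C1F (BN P.lb) v) (h2 : C1T atTop (fun m => (u m).1) v)
    (h3 : ∀ j x, Tendsto (fun m => (u m).1 j x) atTop (𝓝 (v j x)))
    (h4 : ∀ j, ∀ x ∈ (A.e j).source,
      Tendsto (fun m => ((bel P hJ hN hg hF).D (u m)).1 j x) atTop (𝓝 0)) :
    ∃ w : Geo.Sec (BN P.lb), w ∈ SecQ (BN P.lb) 0 ∧ w.1 = v := by
  refine H3_bel (bel P hJ hN hg hF) (fun f hf _ heq i => ?_) v u hu h1 h2 h3 h4
  refine sol_smooth_bel P hJ hN hF (fun z hz =>
    ((hf i).contDiffAt ((A.e i).open_target.mem_nhds hz)).differentiableAt one_ne_zero)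
    fun z hz k => ?_
  have h5 := heq i _ ((A.e i).map_target hz) k
  rw [EkM_eq _ i k (f i) ((A.e i).map_target hz), (A.e i).right_inv hz] at h5
  exact h5

end

end Crest.Agent.R281.OpC_920
end

-- ▼ part R281/OpN1_396
section

/-!
# R281, OPEN-INST (M1) (helper396), part 1: multiplication with small coefficients

* `SBt s δ p` : all partial derivatives of `p` up to order `s` are bounded by `δ`;
* `nrm_mul_le_of` : `‖p f‖_s ≤ K_s δ ‖f‖_s`;
* `nv_mulS_le_of` : the matrix form;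
* `SBt_pz` : the derivatives of a function read in a chart.
-/

set_option autoImplicit false
set_option linter.unusedSectionVars false
set_option linter.unusedSimpArgs false
set_option linter.unusedVariables false

open Set Filter Topology Complex
open scoped ContDiff Matrix ComplexConjugate

namespace Crest.Agent.R281.OpN396

open Crest.Agent.R275 Crest.Agent.R275.Geo Crest.Agent.R275.Tor812 Crest.Agent.R275.TorS666
  Crest.Agent.R275.C1d194 Crest.Agent.R275.C2812 Crest.Agent.R275.RetC666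
  Crest.Agent.R273.L2K_774 Crest.Agent.R273.TorM_106 Crest.Agent.R273.Mol_106

noncomputable section

section torus

variable {d : Type} [Fintype d]

/-- all partial derivatives of order `≤ s` are bounded by `δ` -/
def SBt : ℕ → ℝ → SPer d → Prop
  | 0, δ, p => ∀ x, ‖p x‖ ≤ δ
  | s + 1, δ, p => SBt s δ p ∧ ∀ j, SBt s δ (pd j p)

theorem norm_desc_le {p : SPer d} {δ : ℝ} (hδ : 0 ≤ δ) (h : ∀ x, ‖p x‖ ≤ δ) : ‖desc p‖ ≤ δ := by
  rw [ContinuousMap.norm_le _ hδ]
  intro t
  exact h _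

/-- the constant -/
def KC (d : Type) [Fintype d] : ℕ → ℝ
  | 0 => 1
  | s + 1 => KC d s + (Fintype.card d : ℝ) * (KC d s + KC d s * (2 * Real.pi))

theorem KC_nonneg (s : ℕ) : 0 ≤ KC d s := by
  induction s with
  | zero => exact zero_le_one
  | succ s ih =>
    unfold KC
    positivity

/-- **multiplication by a function with small derivatives** -/
theorem nrm_mul_le_of (s : ℕ) : ∀ {δ : ℝ} {p : SPer d}, 0 ≤ δ → SBt s δ p →
    ∀ f : SPer d, nrm s (p * f) ≤ KC d s * δ * nrm s f := by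
  induction s with
  | zero =>
    intro δ p hδ hp f
    show _ ≤ 1 * δ * _
    rw [one_mul]
    exact (nrm_zero_mul_le p f).trans (mul_le_mul_of_nonneg_right (norm_desc_le hδ hp)
      (nrm_nonneg _ _))
  | succ s ih =>
    intro δ p hδ hp f
    have hK := KC_nonneg (d := d) s
    refine (nrm_succ_le s (p * f)).trans ?_
    have h1 : nrm s (p * f) ≤ KC d s * δ * nrm (s + 1) f :=
      (ih hδ hp.1 f).trans (mul_le_mul_of_nonneg_left (nrm_mono (Nat.le_succ s) f) (by positivity))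
    have h2 : ∀ j, nrm s (pd j (p * f)) ≤
        (KC d s + KC d s * (2 * Real.pi)) * δ * nrm (s + 1) f := by
      intro j
      rw [pd_mul]
      refine (nrm_add_le _ _ _).trans ?_
      have h3 : nrm s (pd j p * f) ≤ KC d s * δ * nrm (s + 1) f :=
        (ih hδ (hp.2 j) f).trans (mul_le_mul_of_nonneg_left (nrm_mono (Nat.le_succ s) f)
          (by positivity))
      have h4 : nrm s (p * pd j f) ≤ KC d s * δ * (2 * Real.pi * nrm (s + 1) f) :=
        (ih hδ hp.1 (pd j f)).trans (mul_le_mul_of_nonneg_left (nrm_pd_le s j f) (by positivity))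
      calc _ ≤ _ := add_le_add h3 h4
        _ = _ := by ring
    have h5 : ∑ j, nrm s (pd j (p * f)) ≤
        (Fintype.card d : ℝ) * ((KC d s + KC d s * (2 * Real.pi)) * δ * nrm (s + 1) f) := by
      refine (Finset.sum_le_sum fun j _ => h2 j).trans (le_of_eq ?_)
      rw [Finset.sum_const, nsmul_eq_mul, Finset.card_univ]
    calc _ ≤ _ := add_le_add h1 h5
      _ = _ := by
        show _ = (KC d s + (Fintype.card d : ℝ) * (KC d s + KC d s * (2 * Real.pi))) * δ * _
        ring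

end torus

section mulS

variable {n : ℕ} {κ₁ κ₂ : Type} [Fintype κ₁] [Fintype κ₂]

theorem nv_mulS_le_of (s : ℕ) {m : Matrix κ₂ κ₁ (SPer (RI n))} {δ : ℝ} (hδ : 0 ≤ δ)
    (hm : ∀ k l, SBt s δ (m k l)) (f : κ₁ → SPer (RI n)) :
    nv s (mulS m f) ≤ (Fintype.card κ₂ : ℝ) * KC (RI n) s * δ * nv s f := by
  unfold nv
  have h : ∀ k, nrm s (mulS m f k) ≤ KC (RI n) s * δ * ∑ l, nrm s (f l) := by
    intro k
    rw [mulS_apply, Finset.mul_sum]
    exact (nrm_sum_le _ _ _).trans (Finset.sum_le_sum fun l _ => nrm_mul_le_of s hδ (hm k l) _)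
  refine (Finset.sum_le_sum fun k _ => h k).trans (le_of_eq ?_)
  rw [Finset.sum_const, nsmul_eq_mul, Finset.card_univ]
  ring

end mulS

/-! ### reading in charts -/

section chart

variable {n : ℕ} {M : Type} [TopologicalSpace M] {A : Atl n M}

theorem norm_cc_ev (p : RI n) : ‖(cc (ev p) : Cn n)‖ = 1 := by
  obtain ⟨a, b⟩ := p
  fin_cases b
  · show ‖(cc (ev (a, 0)) : Cn n)‖ = 1
    rw [cc_ev0]
    simp
  · show ‖(cc (ev (a, 1)) : Cn n)‖ = 1
    rw [cc_ev1]
    simp

/-- derivatives of a function read in a chart -/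
theorem SBt_pz {i : A.ι} {δ : ℝ} (hδ : 0 ≤ δ) (s : ℕ) : ∀ {f : M → ℂ} (h : IsCF A i f),
    (∀ m ≤ s, ∀ z ∈ (A.e i).target,
      ‖iteratedFDeriv ℝ m (fun w => f ((A.e i).symm w)) z‖ ≤ δ) → SBt s δ (pz h) := by
  induction s with
  | zero =>
    intro f h hb x
    by_cases hx : cc (fr x) ∈ (A.e i).target
    · rw [pz_apply_mem h hx]
      have := hb 0 le_rfl _ hx
      rwa [norm_iteratedFDeriv_zero] at this
    · rw [pz_apply_notMem h hx, norm_zero]
      exact hδ
  | succ s ih =>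
    intro f h hb
    refine ⟨ih h fun m hm => hb m (hm.trans (Nat.le_succ s)), fun p => ?_⟩
    rw [pd_pz]
    refine ih _ fun m hm z hz => ?_
    have h1 : (fun w => pdM A i p f ((A.e i).symm w)) =ᶠ[𝓝 z]
        fun w => fderiv ℝ (fun w => f ((A.e i).symm w)) w (cc (ev p)) := by
      filter_upwards [(A.e i).open_target.mem_nhds hz] with w hw
      exact pdM_symm hw p f
    rw [(h1.iteratedFDeriv (𝕜 := ℝ) m).eq_of_nhds]
    have h2 : ContDiffAt ℝ ∞ (fderiv ℝ (fun w => f ((A.e i).symm w))) z :=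
      ((h.sm.contDiffAt ((A.e i).open_target.mem_nhds hz)).fderiv_right (m := ∞) (by simp))
    refine (norm_iteratedFDeriv_clm_apply_const h2 (by exact_mod_cast le_top)).trans ?_
    rw [norm_cc_ev, one_mul, norm_iteratedFDeriv_fderiv]
    exact hb (m + 1) (by omega) z hz

end chart

end

end Crest.Agent.R281.OpN396
private theorem rz_777429f979 : type_of% @_root_.Crest.Agent.R281.OpN396.KC.eq_def := @_root_.Crest.Agent.R281.OpN396.KC.eq_def -- L44
end

-- ▼ part R281/OpN2_396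
section

/-!
# R281, OPEN-INST (M1) (helper396), part 2: the quantitative bound of a first order operator

* `SBt_ampT` : cut off coefficients;
* `loc_T_eq` : `loc ψ (T u) = ∑ (χ a^p) [∂_p (ψ u) - (∂_p ψ) u] + (χ b) ψ u` on the torus;
* `nrm_le`   : **(M1)** `‖T u‖_s ≤ C ε ‖u‖_{s+1}` with `C` independent of `T`.
-/

set_option autoImplicit false
set_option linter.unusedSectionVars false
set_option linter.unusedSimpArgs false
set_option linter.unusedVariables false

open Set Filter Topology Complex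
open scoped ContDiff Matrix ComplexConjugate

namespace Crest.Agent.R281.OpN396

open Crest.Agent.R275 Crest.Agent.R275.Geo Crest.Agent.R275.Tor812 Crest.Agent.R275.TorS666
  Crest.Agent.R275.C1d194 Crest.Agent.R275.C2812 Crest.Agent.R275.RetC666
  Crest.Agent.R273.L2K_774 Crest.Agent.R273.TorM_106 Crest.Agent.R273.Mol_106
open Crest.Agent.R273.KRL2_803 (S0)

noncomputable section

variable {n : ℕ} {M : Type} [TopologicalSpace M] {A : Atl n M}

/-! ### cut off coefficients -/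

section cut

variable {P : Part A} {j : A.ι}

theorem isCompact_img (P : Part A) (j : A.ι) : IsCompact (A.e j '' tsupport (P.χ j)) :=
  (P.χ_cpt j).image_of_continuousOn ((A.e j).continuousOn.mono (P.χ_sub j))

theorem img_sub (P : Part A) (j : A.ι) : A.e j '' tsupport (P.χ j) ⊆ (A.e j).target := by
  rintro _ ⟨x, hx, rfl⟩
  exact (A.e j).map_source (P.χ_sub j hx)

theorem chi_smAt (P : Part A) (j : A.ι) : A.SmAt j (fun x => ((P.χ j x : ℝ) : ℂ)) :=
  smAt_ofReal (P.χ_sm j j)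

/-- the derivatives of the cut off are bounded -/
theorem chi_bdd (P : Part A) (j : A.ι) (s : ℕ) : ∃ D, 0 ≤ D ∧ ∀ m ≤ s,
    ∀ z ∈ A.e j '' tsupport (P.χ j),
      ‖iteratedFDeriv ℝ m (fun w => ((P.χ j ((A.e j).symm w) : ℝ) : ℂ)) z‖ ≤ D := by
  have h1 : ∀ m : ℕ, ∃ D, 0 ≤ D ∧ ∀ z ∈ A.e j '' tsupport (P.χ j),
      ‖iteratedFDeriv ℝ m (fun w => ((P.χ j ((A.e j).symm w) : ℝ) : ℂ)) z‖ ≤ D := by
    intro m
    have hc : ContinuousOn (iteratedFDeriv ℝ m (fun w => ((P.χ j ((A.e j).symm w) : ℝ) : ℂ)))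
        (A.e j).target := by
      have := (chi_smAt P j).continuousOn_iteratedFDerivWithin (m := m)
        (by exact_mod_cast le_top) (A.e j).open_target.uniqueDiffOn
      exact this.congr fun z hz =>
        (iteratedFDerivWithin_of_isOpen m (A.e j).open_target hz).symm
    obtain ⟨D, hD⟩ := (isCompact_img P j).exists_bound_of_continuousOn (hc.mono (img_sub P j))
    exact ⟨max D 0, le_max_right _ _, fun z hz => (hD z hz).trans (le_max_left _ _)⟩
  choose D h0 hD using h1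
  refine ⟨∑ m ∈ Finset.range (s + 1), D m, Finset.sum_nonneg fun m _ => h0 m,
    fun m hm z hz => (hD m z hz).trans ?_⟩
  exact Finset.single_le_sum (f := D) (fun m _ => h0 m) (Finset.mem_range.2 (by omega))

/-- the derivatives of `χ a` -/
theorem bdd_chi_mul (P : Part A) (j : A.ι) {s : ℕ} {D ε : ℝ} (hD0 : 0 ≤ D) (hε : 0 ≤ ε)
    (hD : ∀ m ≤ s, ∀ z ∈ A.e j '' tsupport (P.χ j),
      ‖iteratedFDeriv ℝ m (fun w => ((P.χ j ((A.e j).symm w) : ℝ) : ℂ)) z‖ ≤ D)
    {f : M → ℂ} (hf : A.SmAt j f) (hb : ∀ m ≤ s, ∀ z ∈ A.e j '' tsupport (P.χ j),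
      ‖iteratedFDeriv ℝ m (fun w => f ((A.e j).symm w)) z‖ ≤ ε) :
    ∀ m ≤ s, ∀ z ∈ (A.e j).target,
      ‖iteratedFDeriv ℝ m (fun w => ((P.χ j ((A.e j).symm w) : ℝ) : ℂ) * f ((A.e j).symm w)) z‖ ≤
        2 ^ s * D * ε := by
  intro m hm z hz
  by_cases hz' : z ∈ A.e j '' tsupport (P.χ j)
  · have h1 := norm_iteratedFDerivWithin_mul_le (𝕜 := ℝ) (n := m) (chi_smAt P j) hf
      (A.e j).open_target.uniqueDiffOn hz (by exact_mod_cast le_top)
    rw [iteratedFDerivWithin_of_isOpen m (A.e j).open_target hz] at h1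
    refine h1.trans ?_
    have h2 : ∀ i ∈ Finset.range (m + 1), (m.choose i : ℝ) *
        ‖iteratedFDerivWithin ℝ i (fun w => ((P.χ j ((A.e j).symm w) : ℝ) : ℂ)) (A.e j).target z‖ *
        ‖iteratedFDerivWithin ℝ (m - i) (fun w => f ((A.e j).symm w)) (A.e j).target z‖ ≤
        (m.choose i : ℝ) * (D * ε) := by
      intro i hi
      have hi' : i ≤ m := Nat.lt_succ_iff.1 (Finset.mem_range.1 hi)
      rw [iteratedFDerivWithin_of_isOpen i (A.e j).open_target hz,
        iteratedFDerivWithin_of_isOpen (m - i) (A.e j).open_target hz, mul_assoc]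
      refine mul_le_mul_of_nonneg_left ?_ (by positivity)
      exact mul_le_mul (hD i (by omega) z hz') (hb (m - i) (by omega) z hz') (norm_nonneg _) hD0
    refine (Finset.sum_le_sum h2).trans ?_
    rw [← Finset.sum_mul, ← Nat.cast_sum, Nat.sum_range_choose, mul_assoc]
    refine mul_le_mul_of_nonneg_right ?_ (by positivity)
    push_cast
    exact pow_le_pow_right₀ (by norm_num) hm
  · have hev : (fun w => ((P.χ j ((A.e j).symm w) : ℝ) : ℂ) * f ((A.e j).symm w)) =ᶠ[𝓝 z]
        fun _ => (0 : ℂ) := by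
      filter_upwards [(isCompact_img P j).isClosed.isOpen_compl.mem_nhds hz',
        (A.e j).open_target.mem_nhds hz] with w hw hw'
      have h3 : (A.e j).symm w ∉ tsupport (P.χ j) := fun h =>
        hw ⟨_, h, (A.e j).right_inv hw'⟩
      rw [image_eq_zero_of_notMem_tsupport h3]
      simp
    rw [(hev.iteratedFDeriv (𝕜 := ℝ) m).eq_of_nhds]
    have h4 : iteratedFDeriv ℝ m (fun _ : Cn n => (0 : ℂ)) z = 0 := by
      rw [iteratedFDeriv_fun_zero]
      rfl
    rw [h4, norm_zero]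
    positivity

/-- entries of a cut off matrix -/
theorem SBt_ampT {κ₁ κ₂ : Type} [Fintype κ₁] [DecidableEq κ₁] [Fintype κ₂] (P : Part A) (j : A.ι)
    {s : ℕ} {D ε : ℝ}
    (hD0 : 0 ≤ D) (hε : 0 ≤ ε)
    (hD : ∀ m ≤ s, ∀ z ∈ A.e j '' tsupport (P.χ j),
      ‖iteratedFDeriv ℝ m (fun w => ((P.χ j ((A.e j).symm w) : ℝ) : ℂ)) z‖ ≤ D)
    {a : M → Matrix κ₁ κ₂ ℂ} (ha : ∀ k l, A.SmAt j (fun x => a x k l))
    (hb : ∀ k l, ∀ m ≤ s, ∀ z ∈ A.e j '' tsupport (P.χ j),
      ‖iteratedFDeriv ℝ m (fun w => a ((A.e j).symm w) k l) z‖ ≤ ε)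
    (hc : IsAmp A j (fun x => P.chi κ₁ j x * a x)) (k : κ₁) (l : κ₂) :
    SBt s (2 ^ s * D * ε) (ampT hc k l) := by
  have hent : ∀ x, (P.chi κ₁ j x * a x) k l = ((P.χ j x : ℝ) : ℂ) * a x k l := by
    intro x
    simp [Part.chi, Matrix.smul_mul]
  have hcf : IsCF A j (fun x => (P.chi κ₁ j x * a x) k l) := by
    refine ⟨hc.sm k l, tsupport (P.χ j), P.χ_cpt j, P.χ_sub j, fun x _ hx => ?_⟩
    rw [hent, image_eq_zero_of_notMem_tsupport hx]
    simp
  have h1 : ampT hc k l = pz hcf := by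
    refine SPer.ext fun x => ?_
    by_cases hx : cc (fr x) ∈ (A.e j).target
    · rw [pz_apply_mem hcf hx]
      exact ampT_mem hc k l hx
    · rw [pz_apply_notMem hcf hx]
      exact ampT_off hc k l hx
  rw [h1]
  refine SBt_pz (by positivity) s hcf fun m hm z hz => ?_
  have h2 := bdd_chi_mul P j hD0 hε hD (ha k l) (hb k l) m hm z hz
  have h3 : (fun w => (P.chi κ₁ j ((A.e j).symm w) * a ((A.e j).symm w)) k l) =
      fun w => ((P.χ j ((A.e j).symm w) : ℝ) : ℂ) * a ((A.e j).symm w) k l :=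
    funext fun w => hent _
  rw [h3]
  exact h2

end cut

/-! ### localisation of the operator -/

section loc

variable [Finite A.ι] {B B' : FBun A} (T : FOp B B') (P : Part A)

theorem amp_cb (j : A.ι) : IsAmp A j (fun x => P.chi B'.κ j x * T.b j x) :=
  isAmp_mul_right ((P.amp_chi B'.κ).amp j) (T.b_sm j)

/-- the cut off derivative `ψ ∂_p u` on the torus -/
def dpu (P : Part A) (B : FBun A) (p : RI n) (u : Sec B) (j : A.ι) : B.κ → SPer (RI n) :=
  pdv B.κ p (LocF B (P.psi B.κ) u.1 j) - LocF B (fun j => pAmp A j p (P.psi B.κ j)) u.1 j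

theorem ampF_dpsi (P : Part A) (B : FBun A) (p : RI n) :
    AmpF P (fun j => pAmp A j p (P.psi B.κ j)) :=
  ampF_of (P.amp_psi B.κ) (fun j => isAmp_pAmp ((P.amp_psi B.κ).amp j) p) fun j x hx => by
    unfold pAmp
    rw [if_neg hx]

theorem loc_T_eq (u : Sec B) (j : A.ι) :
    LocF B' (P.psi B'.κ) (T.T u).1 j =
      (∑ p, mulS (ampT (T.amp_ca P p j)) (dpu P B p u j)) +
        mulS (ampT (amp_cb T P j)) (LocF B (P.psi B.κ) u.1 j) := by
  have hs : ∀ l, A.SmAt j (fun x => u.1 j x l) := u.2.1 j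
  have hns : ∀ l, A.SmAt j (fun x => (T.T u).1 j x l) := (T.T u).2.1 j
  have hψ' := (P.amp_psi B'.κ).amp j
  have hψ := (P.amp_psi B.κ).amp j
  have hχψ : ∀ x, ((P.χ j x : ℝ) : ℂ) * ((P.ψ j x : ℝ) : ℂ) = ((P.ψ j x : ℝ) : ℂ) := by
    intro x; rw [← ofReal_mul, P.chi_mul_psi]
  funext k
  show loc A j (P.psi B'.κ j) ((T.T u).1 j) k = _
  rw [Pi.add_apply, Finset.sum_apply]
  refine SPer_ext_chart j (fun x hx => ?_) fun x hx => ?_
  · rw [SPer.add_apply, sper_sum_apply, Geo.loc_notMem hψ' hns k hx, mulS_apply, sper_sum_apply]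
    have h0 : ∀ p : RI n, mulS (ampT (T.amp_ca P p j)) (dpu P B p u j) k x = 0 := by
      intro p
      rw [mulS_apply, sper_sum_apply]
      refine Finset.sum_eq_zero fun l _ => ?_
      rw [SPer.mul_apply, ampT_off _ _ _ hx, zero_mul]
    have h0' : ∑ l, (ampT (amp_cb T P j) k l * LocF B (P.psi B.κ) u.1 j l) x = 0 := by
      refine Finset.sum_eq_zero fun l _ => ?_
      rw [SPer.mul_apply, ampT_off _ _ _ hx, zero_mul]
    rw [h0', add_zero]
    exact (Finset.sum_eq_zero fun p _ => h0 p).symm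
  · rw [SPer.add_apply, sper_sum_apply, loc_rc hψ' hns k hx, T.hT u j x hx]
    -- value of the cut off derivative
    have h1 : ∀ p l, dpu P B p u j l (rc (A.e j x)) =
        ((P.ψ j x : ℝ) : ℂ) * pdM A j p (u.1 j) x l := by
      intro p l
      show pd p (loc A j (P.psi B.κ j) (u.1 j) l) (rc (A.e j x)) -
        loc A j (pAmp A j p (P.psi B.κ j)) (u.1 j) l (rc (A.e j x)) = _
      have h2 := congrFun (pdM_mulVec hψ.sm hs hx p) l
      rw [Geo.loc_eq (hψ.cf hs l), pd_pz, pz_rc _ hx, loc_rc (isAmp_pAmp hψ p) hs l hx, pAmp_eq hx,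
        ← pdM_pi (fun k => (hψ.cf hs k).sm) hx, h2, Pi.add_apply, add_sub_cancel_left]
      simp only [Part.psi, Matrix.smul_mulVec, Matrix.one_mulVec, Pi.smul_apply, smul_eq_mul]
    have h3 : ∀ l, (LocF B (P.psi B.κ) u.1 j) l (rc (A.e j x)) =
        ((P.ψ j x : ℝ) : ℂ) * u.1 j x l := by
      intro l
      show loc A j (P.psi B.κ j) (u.1 j) l (rc (A.e j x)) = _
      rw [loc_rc hψ hs l hx]
      simp only [Part.psi, Matrix.smul_mulVec, Matrix.one_mulVec, Pi.smul_apply, smul_eq_mul]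
    have hc : ∀ a v : ℂ, ((P.χ j x : ℝ) : ℂ) * a * (((P.ψ j x : ℝ) : ℂ) * v) =
        ((P.ψ j x : ℝ) : ℂ) * (a * v) := by
      intro a v
      calc _ = (((P.χ j x : ℝ) : ℂ) * ((P.ψ j x : ℝ) : ℂ)) * (a * v) := by ring
        _ = _ := by rw [hχψ]
    have h4 : ∀ p, mulS (ampT (T.amp_ca P p j)) (dpu P B p u j) k (rc (A.e j x)) =
        ((P.ψ j x : ℝ) : ℂ) * (T.a j p x *ᵥ pdM A j p (u.1 j) x) k := by
      intro p
      rw [mulS_apply, sper_sum_apply]
      simp only [SPer.mul_apply, ampT_rc _ _ _ hx, h1, Matrix.mulVec, dotProduct, Part.chi,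
        Matrix.smul_mul, Matrix.one_mul, Matrix.smul_apply, smul_eq_mul, Finset.mul_sum]
      exact Finset.sum_congr rfl fun l _ => hc _ _
    have h5 : mulS (ampT (amp_cb T P j)) (LocF B (P.psi B.κ) u.1 j) k (rc (A.e j x)) =
        ((P.ψ j x : ℝ) : ℂ) * (T.b j x *ᵥ u.1 j x) k := by
      rw [mulS_apply, sper_sum_apply]
      simp only [SPer.mul_apply, ampT_rc _ _ _ hx, h3, Matrix.mulVec, dotProduct, Part.chi,
        Matrix.smul_mul, Matrix.one_mul, Matrix.smul_apply, smul_eq_mul, Finset.mul_sum]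
      exact Finset.sum_congr rfl fun l _ => hc _ _
    simp only [h4, h5]
    simp only [Part.psi, Matrix.smul_mulVec, Matrix.one_mulVec, Pi.smul_apply, smul_eq_mul,
      Pi.add_apply, Finset.sum_apply, mul_add, Finset.mul_sum]

end loc

/-! ### the bound -/

section main

variable [Finite A.ι] (P : Part A) (B B' : FBun A)

/-- the plain norm of the cut off derivative -/
theorem nv_dpu_le (p : RI n) (s : ℕ) : ∃ C, 0 ≤ C ∧ ∀ (u : Sec B) (j : A.ι),
    nv s (dpu P B p u j) ≤ C * nS P B (s + 1) u := by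
  obtain ⟨C, hC0, hC⟩ := nF_LocF_le P (ampF_dpsi P B p) s
  refine ⟨2 * Real.pi + C, by positivity, fun u j => ?_⟩
  unfold dpu
  refine (nv_sub_le _ _ _).trans ?_
  rw [add_mul]
  refine add_le_add ((nv_pdv_le s p _).trans ?_) ?_
  · exact mul_le_mul_of_nonneg_left (nv_le_nF (s + 1) _ j) (by positivity)
  · refine (nv_le_nF s _ j).trans ((hC u).trans ?_)
    exact mul_le_mul_of_nonneg_left (nS_mono P B (by omega) u) hC0

/-- **quantitative bound of a first order operator**, plain norms, only `s` derivatives of the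
coefficients are used -/
theorem nS_le_of (s : ℕ) : ∃ C, 0 ≤ C ∧ ∀ (T : FOp B B') (ε : ℝ), 0 ≤ ε →
    (∀ j p k l, ∀ m ≤ s, ∀ z ∈ A.e j '' tsupport (P.χ j),
      ‖iteratedFDeriv ℝ m (fun w => T.a j p ((A.e j).symm w) k l) z‖ ≤ ε) →
    (∀ j k l, ∀ m ≤ s, ∀ z ∈ A.e j '' tsupport (P.χ j),
      ‖iteratedFDeriv ℝ m (fun w => T.b j ((A.e j).symm w) k l) z‖ ≤ ε) →
    ∀ u : Sec B, nS P B' s (T.T u) ≤ C * ε * nS P B (s + 1) u := by
  have := Fintype.ofFinite A.ι
  choose D hD0 hD using fun j => chi_bdd P j s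
  choose C hC0 hC using fun p => nv_dpu_le P B p s
  refine ⟨∑ j, (Fintype.card B'.κ : ℝ) * KC (RI n) s * (2 ^ s * D j) * ((∑ p, C p) + 1),
    Finset.sum_nonneg fun j _ => ?_, fun T ε hε ha hb u => ?_⟩
  · have h1 := KC_nonneg (d := RI n) s
    have h2 : 0 ≤ ∑ p, C p := Finset.sum_nonneg fun p _ => hC0 p
    have h3 := hD0 j
    positivity
  · show nF s (LocF B' (P.psi B'.κ) (T.T u).1) ≤ _
    rw [nF_eq, Finset.sum_mul, Finset.sum_mul]
    refine Finset.sum_le_sum fun j _ => ?_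
    rw [loc_T_eq T P u j]
    have hK := KC_nonneg (d := RI n) s
    have hDj := hD0 j
    have h1 : ∀ p, nv s (mulS (ampT (T.amp_ca P p j)) (dpu P B p u j)) ≤
        (Fintype.card B'.κ : ℝ) * KC (RI n) s * (2 ^ s * D j * ε) * (C p * nS P B (s + 1) u) := by
      intro p
      refine (nv_mulS_le_of s (by positivity) (fun k l => SBt_ampT P j (hD0 j) hε (hD j)
        (T.a_sm j p) (ha j p) (T.amp_ca P p j) k l) _).trans ?_
      exact mul_le_mul_of_nonneg_left (hC p u j) (by positivity)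
    have h2 : nv s (mulS (ampT (amp_cb T P j)) (LocF B (P.psi B.κ) u.1 j)) ≤
        (Fintype.card B'.κ : ℝ) * KC (RI n) s * (2 ^ s * D j * ε) * (nS P B (s + 1) u) := by
      refine (nv_mulS_le_of s (by positivity) (fun k l => SBt_ampT P j (hD0 j) hε (hD j)
        (T.b_sm j) (hb j) (amp_cb T P j) k l) _).trans ?_
      refine mul_le_mul_of_nonneg_left ?_ (by positivity)
      exact (nv_le_nF s _ j).trans (nS_mono P B (by omega) u)
    refine (nv_add_le _ _ _).trans ((add_le_add ((nv_sum_le _ _ _).trans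
      (Finset.sum_le_sum fun p _ => h1 p)) h2).trans (le_of_eq ?_))
    rw [← Finset.mul_sum, ← Finset.sum_mul]
    ring

/-- **(M1)** the bound in the scale `S0` -/
theorem nrm_le (s : ℕ) : ∃ C, 0 ≤ C ∧ ∀ (T : FOp B B') (eps : ℝ), 0 ≤ eps →
    (∀ j p k l, ∀ m ≤ s + 1, ∀ z ∈ A.e j '' tsupport (P.χ j),
      ‖iteratedFDeriv ℝ m (fun w => T.a j p ((A.e j).symm w) k l) z‖ ≤ eps) →
    (∀ j k l, ∀ m ≤ s + 1, ∀ z ∈ A.e j '' tsupport (P.χ j),
      ‖iteratedFDeriv ℝ m (fun w => T.b j ((A.e j).symm w) k l) z‖ ≤ eps) →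
    ∀ u : Sec B, (S0 P B').nrm s (T.T u) ≤ C * eps * (S0 P B).nrm (s + 1) u := by
  obtain ⟨C, hC0, hC⟩ := nS_le_of P B B' s
  obtain ⟨C', hC0', hC'⟩ := Crest.Agent.R273.T8_774.nS_le_nrm0 P (B := B) (s + 1)
  refine ⟨C * C', mul_nonneg hC0 hC0', fun T eps he ha hb u => ?_⟩
  refine (Crest.Agent.R273.T8_774.nrm0_le_nS P s (T.T u)).trans ((hC T eps he
    (fun j p k l m hm => ha j p k l m (by omega)) (fun j k l m hm => hb j k l m (by omega)) u).trans
    ?_)
  refine (mul_le_mul_of_nonneg_left (hC' u) (mul_nonneg hC0 he)).trans (le_of_eq ?_)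
  ring

end main

end

end Crest.Agent.R281.OpN396
end

-- ▼ part R281/OpN4_396
section

/-!
# R281, OPEN-INST (M1)+(M1') (helper396), part 4: families of first order operators

`eventually_nrm_le` : a family of first order operators whose coefficients are smooth in
(parameter, chart coordinate) and vanish at the centre satisfies, for every `s` and `ε > 0`,
`‖T_q u‖_s ≤ ε ‖u‖_{s+1}` for `q` near the centre.
-/

set_option autoImplicit false
set_option linter.unusedSectionVars false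
set_option linter.unusedVariables false

open Set Filter Topology
open scoped ContDiff Matrix

namespace Crest.Agent.R281.OpN396

open Crest.Agent.R275 Crest.Agent.R275.Geo Crest.Agent.R275.Tor812
  Crest.Agent.R273.L2K_774 Crest.Agent.R273.Mol_106
open Crest.Agent.R273.KRL2_803 (S0)

noncomputable section

variable {n : ℕ} {M : Type} [TopologicalSpace M] {A : Atl n M}

variable {Q : Type*} [NormedAddCommGroup Q] [NormedSpace ℝ Q] {I : Type*}

/-- the derivatives of a matrix valued family of coefficients become small on the supports of the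
cut offs -/
theorem eventually_coeff [Finite A.ι] (P : Part A) {κ₁ κ₂ : Type} [Finite κ₁] [Finite κ₂]
    (a : Q → A.ι → M → Matrix κ₁ κ₂ ℂ) {q1 : Q} (W : A.ι → Set (Q × Cn n))
    (hW : ∀ j, IsOpen (W j)) (hqW : ∀ j, ∀ z ∈ (A.e j).target, (q1, z) ∈ W j)
    (ha : ∀ j k l, ContDiffOn ℝ ∞ (fun y : Q × Cn n => a y.1 j ((A.e j).symm y.2) k l) (W j))
    (h0 : ∀ j, ∀ x ∈ (A.e j).source, a q1 j x = 0) (s : ℕ) {ε : ℝ} (hε : 0 < ε) :
    ∀ᶠ q in 𝓝 q1, ∀ j k l, ∀ m ≤ s, ∀ z ∈ A.e j '' tsupport (P.χ j),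
      ‖iteratedFDeriv ℝ m (fun w => a q j ((A.e j).symm w) k l) z‖ ≤ ε := by
  rw [eventually_all]
  intro j
  rw [eventually_all]
  intro k
  rw [eventually_all]
  intro l
  refine eventually_small_le (f := fun q w => a q j ((A.e j).symm w) k l) (hW j) (ha j k l)
    (A.e j).open_target (hqW j) (fun z hz => ?_) (isCompact_img P j) (img_sub P j) s hε
  show a q1 j ((A.e j).symm z) k l = 0
  rw [h0 j _ ((A.e j).map_target hz)]
  rfl

/-- the coefficients of an operator may be replaced on the charts -/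
theorem iteratedFDeriv_congr_chart {j : A.ι} {f g : M → ℂ}
    (h : ∀ x ∈ (A.e j).source, f x = g x) (m : ℕ) {z : Cn n} (hz : z ∈ (A.e j).target) :
    iteratedFDeriv ℝ m (fun w => f ((A.e j).symm w)) z =
      iteratedFDeriv ℝ m (fun w => g ((A.e j).symm w)) z := by
  have h1 : (fun w => f ((A.e j).symm w)) =ᶠ[𝓝 z] fun w => g ((A.e j).symm w) := by
    filter_upwards [(A.e j).open_target.mem_nhds hz] with w hw
    exact h _ ((A.e j).map_target hw)
  exact (h1.iteratedFDeriv (𝕜 := ℝ) m).eq_of_nhds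

/-- **families of first order operators with coefficients vanishing at the centre** -/
theorem eventually_nrm_le [Finite A.ι] (P : Part A) (B B' : FBun A)
    (F : I → FOp B B') (π : I → Q) {q1 : Q} {L : Filter I} (hπ : Tendsto π L (𝓝 q1))
    (a : Q → A.ι → RI n → M → Matrix B'.κ B.κ ℂ) (b : Q → A.ι → M → Matrix B'.κ B.κ ℂ)
    (haF : ∀ i j p, ∀ x ∈ (A.e j).source, (F i).a j p x = a (π i) j p x)
    (hbF : ∀ i j, ∀ x ∈ (A.e j).source, (F i).b j x = b (π i) j x)
    (W : A.ι → Set (Q × Cn n))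
    (hW : ∀ j, IsOpen (W j)) (hqW : ∀ j, ∀ z ∈ (A.e j).target, (q1, z) ∈ W j)
    (ha : ∀ j p k l,
      ContDiffOn ℝ ∞ (fun y : Q × Cn n => a y.1 j p ((A.e j).symm y.2) k l) (W j))
    (hb : ∀ j k l, ContDiffOn ℝ ∞ (fun y : Q × Cn n => b y.1 j ((A.e j).symm y.2) k l) (W j))
    (ha0 : ∀ j p, ∀ x ∈ (A.e j).source, a q1 j p x = 0)
    (hb0 : ∀ j, ∀ x ∈ (A.e j).source, b q1 j x = 0) (s : ℕ) {ε : ℝ} (hε : 0 < ε) :
    ∀ᶠ i in L, ∀ u : Sec B,
      (S0 P B').nrm s ((F i).T u) ≤ ε * (S0 P B).nrm (s + 1) u := by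
  obtain ⟨C, hC0, hC⟩ := nrm_le P B B' s
  have hε' : 0 < ε / (C + 1) := by positivity
  have h1 : ∀ᶠ q in 𝓝 q1, ∀ p, ∀ j k l, ∀ m ≤ s + 1, ∀ z ∈ A.e j '' tsupport (P.χ j),
      ‖iteratedFDeriv ℝ m (fun w => a q j p ((A.e j).symm w) k l) z‖ ≤ ε / (C + 1) := by
    rw [eventually_all]
    intro p
    exact eventually_coeff P (fun q j x => a q j p x) W hW hqW (fun j k l => ha j p k l)
      (fun j x hx => ha0 j p x hx) (s + 1) hε'
  have h2 := eventually_coeff P b W hW hqW hb hb0 (s + 1) hε'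
  filter_upwards [hπ.eventually h1, hπ.eventually h2] with i hi1 hi2 u
  refine (hC (F i) (ε / (C + 1)) hε'.le (fun j p k l m hm z hz => ?_)
    (fun j k l m hm z hz => ?_) u).trans ?_
  · rw [iteratedFDeriv_congr_chart (f := fun x => (F i).a j p x k l)
      (g := fun x => a (π i) j p x k l) (fun x hx => by rw [haF i j p x hx]) m (img_sub P j hz)]
    exact hi1 p j k l m hm z hz
  · rw [iteratedFDeriv_congr_chart (f := fun x => (F i).b j x k l)
      (g := fun x => b (π i) j x k l) (fun x hx => by rw [hbF i j x hx]) m (img_sub P j hz)]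
    exact hi2 j k l m hm z hz
  · refine mul_le_mul_of_nonneg_right ?_ (apply_nonneg ((S0 P B).nrm (s + 1)) u)
    rw [← mul_div_assoc, div_le_iff₀ (by positivity)]
    nlinarith

end

end Crest.Agent.R281.OpN396
end

-- ▼ part R281/OpI5_450
section

/-!
# OPEN-INST (row 281, LEMMA OPEN'), part 5: (M7) assembly for families of first order operators

`open_mov`: `D i = nabL B + R i`, `R i` first order operators with coefficients jointly smooth in
(parameter, chart coordinate), vanishing at the centre `q1`; `D i` of degree one, `D i ∘ D i = 0`.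
Convergences are `C1T` (uniform `C¹` convergence on compact subsets of the charts).
-/

set_option autoImplicit false
set_option linter.unusedSectionVars false
set_option maxSynthPendingDepth 3

open Set Filter Topology Complex
open scoped ContDiff Matrix ComplexConjugate

namespace Crest.Agent.R281.OpI_450

open Crest.Agent.R275 Crest.Agent.R275.Geo Crest.Agent.R275.Tor812 Crest.Agent.R275.TorS666
  Crest.Agent.R275.C1d194 Crest.Agent.R275.C2812 Crest.Agent.R275.Ret666
  Crest.Agent.R275.Fred685 Crest.Agent.R275.FHom556 Crest.Agent.R275.RetC666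
open Crest.Agent.R273.KRL2_803 Crest.Agent.R273.HodgeH_803 Crest.Agent.R273.Mol_106
open Crest.Agent.R281.OpC_920

noncomputable section

/-- `∀ η > 0`, eventually `f ≤ η g`, gives one function `ε → 0` -/
theorem exists_eps {I U : Type*} {L : Filter I} {f : I → U → ℝ} {g : U → ℝ} (hg : ∀ u, 0 ≤ g u)
    (h : ∀ η > 0, ∀ᶠ i in L, ∀ u, f i u ≤ η * g u) :
    ∃ ε : I → ℝ, (∀ i, 0 ≤ ε i) ∧ Tendsto ε L (𝓝 0) ∧ ∀ᶠ i in L, ∀ u, f i u ≤ ε i * g u := by
  set E : I → Set ℝ := fun i => {η | 0 ≤ η ∧ ∀ u, f i u ≤ η * g u} with hE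
  have hbdd : ∀ i, BddBelow (E i) := fun i => ⟨0, fun η hη => hη.1⟩
  refine ⟨fun i => sInf (E i), fun i => Real.sInf_nonneg fun η hη => hη.1, ?_, ?_⟩
  · rw [Metric.tendsto_nhds]
    intro δ hδ
    filter_upwards [h (δ / 2) (half_pos hδ)] with i hi
    rw [Real.dist_eq, sub_zero, abs_of_nonneg (Real.sInf_nonneg fun η hη => hη.1)]
    exact (csInf_le (hbdd i) ⟨(half_pos hδ).le, hi⟩).trans_lt (half_lt_self hδ)
  · filter_upwards [h 1 one_pos] with i hi u
    have hne : (E i).Nonempty := ⟨1, zero_le_one, hi⟩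
    refine le_of_forall_pos_le_add fun δ hδ => ?_
    rcases eq_or_lt_of_le (hg u) with h0 | h0
    · obtain ⟨η, hη⟩ := hne
      have := hη.2 u
      rw [← h0, mul_zero] at this
      rw [← h0, mul_zero, zero_add]
      exact this.trans hδ.le
    · obtain ⟨η, hη, hlt⟩ := exists_lt_of_csInf_lt hne
        (show sInf (E i) < sInf (E i) + δ / g u from lt_add_of_pos_right _ (div_pos hδ h0))
      refine (hη.2 u).trans ((mul_le_mul_of_nonneg_right hlt.le h0.le).trans (le_of_eq ?_))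
      rw [add_mul, div_mul_cancel₀ _ h0.ne']

variable {n : ℕ} {M : Type} [TopologicalSpace M] {A : Atl n M}

variable [Finite A.ι] {P : Part A} {B : FBun A}

/-- **OPEN-INST**: LEMMA A for families of first order operators. -/
theorem open_mov [T2Space M] (T : HodgeOp P B) {Q : Type*} [NormedAddCommGroup Q]
    [NormedSpace ℝ Q] {q1 : Q} {I : Type*} {L : Filter I} [L.IsCountablyGenerated] (π : I → Q)
    (hπ : Tendsto π L (𝓝 q1)) (D : I → Sec B →ₗ[ℂ] Sec B) (R : I → FOp B B)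
    (hR : ∀ i u, D i u - nabL B u = (R i).T u)
    (hdeg : ∀ i, ∀ u ∈ SecQ B 0, D i u ∈ SecQ B 1) (hDD : ∀ i u, D i (D i u) = 0)
    -- the coefficients of `R i` are `a (π i)`, `b (π i)`, jointly smooth, zero at `q1`
    (a : Q → A.ι → RI n → M → Matrix B.κ B.κ ℂ) (b : Q → A.ι → M → Matrix B.κ B.κ ℂ)
    (haF : ∀ i j p, ∀ x ∈ (A.e j).source, (R i).a j p x = a (π i) j p x)
    (hbF : ∀ i j, ∀ x ∈ (A.e j).source, (R i).b j x = b (π i) j x)
    (W : A.ι → Set (Q × Cn n))
    (hW : ∀ j, IsOpen (W j)) (hqW : ∀ j, ∀ z ∈ (A.e j).target, (q1, z) ∈ W j)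
    (ha : ∀ j p k l,
      ContDiffOn ℝ ∞ (fun y : Q × Cn n => a y.1 j p ((A.e j).symm y.2) k l) (W j))
    (hb : ∀ j k l, ContDiffOn ℝ ∞ (fun y : Q × Cn n => b y.1 j ((A.e j).symm y.2) k l) (W j))
    (ha0 : ∀ j p, ∀ x ∈ (A.e j).source, a q1 j p x = 0)
    (hb0 : ∀ j, ∀ x ∈ (A.e j).source, b q1 j x = 0)
    -- regularity of `C¹` solutions
    (H3 : ∀ᶠ i in L, ∀ (v : A.ι → M → B.κ → ℂ) (u : ℕ → Sec B), (∀ m, u m ∈ SecQ B 0) →
      C1F B v → C1T atTop (fun m => (u m).1) v →
      (∀ j x, Tendsto (fun m => (u m).1 j x) atTop (𝓝 (v j x))) →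
      (∀ j, ∀ x ∈ (A.e j).source, Tendsto (fun m => (D i (u m)).1 j x) atTop (𝓝 0)) →
      ∃ w : Sec B, w ∈ SecQ B 0 ∧ w.1 = v)
    -- no bad sequence
    (hno : ∀ (p : ℕ → I) (e : ℕ → ℝ) (u : ℕ → HolB B →ₗ[ℂ] Sec B)
      (Qj : ℕ → HolB B →ₗ[ℂ] Sec B) (Q : HolB B →ₗ[ℂ] Sec B),
      Tendsto p atTop L → (∀ j, 0 < e j) → Tendsto e atTop (𝓝 0) →
      (∀ j v, u j v ∈ SecQ B 0) → (∀ j v, Qj j v ∈ SecQ B 1) → (∀ v, Q v ∈ SecQ B 1) →
      (∀ v : HolB B, C1T atTop (fun j => (u j v).1) (v : Sec B).1) →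
      (∀ j v, D (p j) (u j v) = (e j : ℂ) • Qj j v) →
      (∀ v, C1T atTop (fun j => (Qj j v).1) (Q v).1) →
      (∀ v, Q v ∈ LinearMap.range T.H) → Q = 0) :
    FiniteDimensional ℂ (HolB B) ∧
    ∃ S : I → HolB B →ₗ[ℂ] Sec B,
      (∀ᶠ i in L, ∀ v, S i v ∈ SecQ B 0 ∧ D i (S i v) = 0) ∧
      ∀ v : HolB B, C1T L (fun i => (S i v).1) (v : Sec B).1 := by
  -- the order
  set k := Fintype.card (RI n) + 1 with hk
  have hbound : ∀ s : ℕ, ∀ η > 0, ∀ᶠ i in L, ∀ u : Sec B,
      (S0 P B).nrm s (D i u - nabL B u) ≤ η * (S0 P B).nrm (s + 1) u := by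
    intro s η hη
    filter_upwards [Crest.Agent.R281.OpN396.eventually_nrm_le P B B R π hπ a b haF hbF W hW hqW
      ha hb ha0 hb0 s hη] with i hi u
    rw [hR]
    exact hi u
  obtain ⟨ε1, h10, h1t, h1⟩ := exists_eps (L := L)
    (f := fun i (u : Sec B) => (S0 P B).nrm (k + 1) (D i u - nabL B u))
    (g := fun u => (S0 P B).nrm (k + 2) u) (fun u => apply_nonneg _ _) (hbound (k + 1))
  obtain ⟨ε2, h20, h2t, h2⟩ := exists_eps (L := L)
    (f := fun i (u : Sec B) => (S0 P B).nrm k (D i u - nabL B u))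
    (g := fun u => (S0 P B).nrm (k + 1) u) (fun u => apply_nonneg _ _) (hbound k)
  have ht2 : Fintype.card (RI n) < 2 * ((k + 2) - 1) := by omega
  have ht1 : Fintype.card (RI n) < 2 * ((k + 1) - 1) := by omega
  obtain ⟨hfd, S, hS1, hS2⟩ := open_sec T k D (ε := fun i => ε1 i + ε2 i) hdeg
    (by simpa using h1t.add h2t)
    (by
      filter_upwards [h1] with i hi u
      exact (hi u).trans (mul_le_mul_of_nonneg_right (le_add_of_nonneg_right (h20 i))
        (apply_nonneg _ _)))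
    (by
      filter_upwards [h2] with i hi u
      exact (hi u).trans (mul_le_mul_of_nonneg_right (le_add_of_nonneg_left (h10 i))
        (apply_nonneg _ _)))
    (Eventually.of_forall hDD)
    (by
      filter_upwards [H3] with i hi v hv hv1 hv2
      exact hreg_of P ht2 (by omega) (D i) (SecQ B 0) hi hv hv1 hv2)
    (by
      intro p e u Qj Q hp he he0 hu0 hQ0 hQ1 hu hDu hQ hQr
      exact hno p e u Qj Q hp he he0 hu0 hQ0 hQ1 (fun v => C1T_of_nrm P ht2 (hu v)) hDu
        (fun v => C1T_of_nrm P ht1 (hQ v)) hQr)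
  exact ⟨hfd, S, hS1, fun v => C1T_of_nrm P ht2 (hS2 v)⟩

end

end Crest.Agent.R281.OpI_450
end

-- ▼ part R281/OpD7_569

/-!
# Row 281, OPEN' (helper569), part 7: no bad sequence

* `MFam.movD`, `sol_of` : `D u = e v` (Beltrami operator, `u` of degree 0) is `Sol (movD q) (2 e) ..`
* `MTor.comp`   : tori along a filter;
* `hno_bel`     : the hypothesis `hno` of 450's `open_mov` (330's `tube_cross`, 849's `open_final'`)
* `open_bel`    : **OPEN'** for a family `MFam`, from the moving tori.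
-/

set_option autoImplicit false
set_option linter.unusedSectionVars false
set_option linter.unusedSimpArgs false
set_option maxSynthPendingDepth 3

open Set Filter Topology Complex
open scoped ContDiff Matrix ComplexConjugate

namespace Crest.Agent.R281.OpD_569

open Crest.Agent.R275 Crest.Agent.R275.Geo Crest.Agent.R275.EDR890 Crest.Agent.R275.Core144
open Crest.Agent.R275.FHom556
open Crest.Agent.R281.HkR_835 Crest.Agent.R281.Ti_846 Crest.Agent.R281.PL_713
open Crest.Agent.R281.OpM_693 (Bel)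
open Crest.Agent.R273.LamN127 (BN)
open Crest.Agent.R273 Crest.Agent.R273.Defs_333 Crest.Agent.R273.HM_333 Crest.Agent.R273.Kah_333
open Crest.Agent.R273.Vol_333
open Crest.Agent.R273.KRL2_803 Crest.Agent.R273.HodgeH_803 Crest.Agent.R273.Mol_106
open Crest.Agent.R281.OpC_920 Crest.Agent.R281.OpB_849 Crest.Agent.R281.OpI_450
open Crest.Agent.R281.Op3_569 Crest.Agent.R281.OpT_330

noncomputable section

variable {n : ℕ} {M : Type} [TopologicalSpace M] {A : Atl n M}
variable {L : PL (ofAtl A)} {Q : Type*} [NormedAddCommGroup Q] [NormedSpace ℝ Q] {q1 : Q}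

/-! ### the form `∑ q_k w_k` -/

/-- `v ↦ wv J v k` -/
def wvL (J : Cn n →L[ℝ] Cn n) (k : Fin n) : Cn n →L[ℝ] ℂ :=
  (conjCLE : ℂ →L[ℝ] ℂ).comp ((EuclideanSpace.proj k : Cn n →L[ℂ] ℂ).restrictScalars ℝ) +
    I • ((conjCLE : ℂ →L[ℝ] ℂ).comp
      (((EuclideanSpace.proj k : Cn n →L[ℂ] ℂ).restrictScalars ℝ).comp J))

theorem wvL_apply (J : Cn n →L[ℝ] Cn n) (k : Fin n) (v : Cn n) : wvL J k v = wv J v k := rfl

/-- the form with components `q` on the frames `E_k`, divided by two -/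
def qL (J : Cn n →L[ℝ] Cn n) (q : Fin n → ℂ) : Cn n →L[ℝ] ℂ := (1 / 2 : ℂ) • ∑ k, q k • wvL J k

theorem qL_apply (J : Cn n →L[ℝ] Cn n) (q : Fin n → ℂ) (v : Cn n) :
    qL J q v = (1 / 2 : ℂ) * ∑ k, wv J v k * q k := by
  simp only [qL, _root_.smul_apply, FunLike.coe_sum, Finset.sum_apply, smul_eq_mul, wvL_apply]
  congr 1
  exact Finset.sum_congr rfl fun k _ => mul_comm _ _

theorem continuous_wvL (k : Fin n) : Continuous fun J : Cn n →L[ℝ] Cn n => wvL J k := by
  unfold wvL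
  refine continuous_const.add (Continuous.const_smul ?_ I)
  exact continuous_const.clm_comp (continuous_const.clm_comp continuous_id)

theorem continuous_qL : Continuous fun y : (Cn n →L[ℝ] Cn n) × (Fin n → ℂ) => qL y.1 y.2 := by
  have h : Continuous fun y : (Cn n →L[ℝ] Cn n) × (Fin n → ℂ) => ∑ k, y.2 k • wvL y.1 k := by
    refine continuous_finsetSum _ fun k _ => ?_
    exact ((continuous_apply k).comp continuous_snd).smul ((continuous_wvL k).comp continuous_fst)
  exact h.const_smul (1 / 2 : ℂ)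

theorem qL_I (q : Fin n → ℂ) : qL iL' q = OpT_330.cj q := by
  ext v
  rw [qL_apply]
  have h : OpT_330.cj q v = ∑ k, q k * conj (v k) := rfl
  rw [h, Finset.mul_sum]
  refine Finset.sum_congr rfl fun k _ => ?_
  rw [wv_of (J := iL') (fun v => iL'_apply v)]
  ring

namespace MFam

variable (F : MFam A L Q q1) (P : Pot L)

/-- the moving structure in 569's form -/
def movD (q : Q) : MovD A where
  I i x := F.J q i (A.e i x)
  a i x := tht P (F.L' q) i (A.e i x)

variable {F P} in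
/-- **the equation `D u = e v`** -/
theorem sol_of {q : F.Good} {u v : Sec (BN P.lb)} {e : ℝ} (hu : u ∈ SecQ (BN P.lb) 0)
    (h : (F.bl P q).D u = (e : ℂ) • v) :
    Sol (F.movD P q.1) (2 * e) (sOf u)
      (fun i x => qL (F.J q.1 i (A.e i x)) (qOf v i x)) where
  c1 i x hx := by
    have h1 := ((sOf_isS u).sm i).contDiffAt
      ((A.e i).open_target.mem_nhds ((A.e i).map_source hx))
    exact h1.of_le (by exact_mod_cast le_top)
  eq i x hx w := by
    set z := A.e i x with hz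
    have hzt : z ∈ (A.e i).target := (A.e i).map_source hx
    have hJ := F.at_spec q
    have hJz : ∀ v, F.J q.1 i z (F.J q.1 i z v) = -v := fun v => hJ.sq hzt v
    have hSz := q.2.2.un i z hzt
    have h1 := sol_eq (J := F.J q.1 i) (z := z) hJz hSz (tht P (F.L' q.1) i z)
      (fun y => sOf u i ((A.e i).symm y)) w
    have e0 : (A.e i).symm z = x := (A.e i).left_inv hx
    simp only [e0] at h1
    have h2 : ∀ k, Ed (fun y => mu (F.J q.1 i y)) k (fun y => sOf u i ((A.e i).symm y)) z +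
        Ek (F.J q.1 i z) (tht P (F.L' q.1) i z) k * sOf u i x = e * qOf v i x k := by
      intro k
      have h3 := D_i1 (F.bl P q) hu hx k
      rw [h] at h3
      have h4 : (((e : ℂ) • v : Sec (BN P.lb))).1 i x (i1 P.lb k) = e * qOf v i x k := rfl
      rw [h4] at h3
      rw [h3]
      have h5 : (F.bl P q).c i x k = Ek (F.J q.1 i z) (tht P (F.L' q.1) i z) k := rfl
      rw [h5]
      have h6 : u.1 i x (i0 P.lb) = sOf u i x := rfl
      rw [h6]
      congr 1
      rw [EkM_eq _ _ _ _ hx]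
      unfold Ed
      congr 1
      refine Finset.sum_congr rfl fun l _ => ?_
      have h7 : (F.bl P q).mu i ((A.e i).symm (A.e i x)) k l = mu (F.J q.1 i z) k l := by
        show mu (F.J q.1 i (A.e i ((A.e i).symm (A.e i x)))) k l = _
        rw [(A.e i).left_inv hx]
      exact congrArg (fun t : ℂ => t • wd (false, l) (fun y => sOf u i ((A.e i).symm y)) z) h7.symm
    show fderiv ℝ (fun y => sOf u i ((A.e i).symm y)) z w + tht P (F.L' q.1) i z w * sOf u i x +
      I * (fderiv ℝ (fun y => sOf u i ((A.e i).symm y)) z (F.J q.1 i z w) +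
        tht P (F.L' q.1) i z (F.J q.1 i z w) * sOf u i x) = _
    rw [h1, qL_apply]
    simp_rw [h2]
    push_cast
    rw [Finset.mul_sum, Finset.mul_sum]
    refine Finset.sum_congr rfl fun k _ => ?_
    ring

/-- continuous convergence of `J` -/
theorem J_cc {α : Type*} {l : Filter α} {p : α → Q} (hp : Tendsto p l (𝓝 q1)) {i : A.ι} {x : M}
    (hx : x ∈ (A.e i).source) :
    Tendsto (fun y : α × M => F.J (p y.1) i (A.e i y.2)) (l ×ˢ 𝓝 x) (𝓝 iL') := by
  have hz : A.e i x ∈ (A.e i).target := (A.e i).map_source hx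
  have h1 : ContinuousAt (fun y : Q × Cn n => F.J y.1 i y.2) (q1, A.e i x) :=
    (F.Js i).continuousOn.continuousAt ((F.open_dom i).mem_nhds ⟨F.mem, hz⟩)
  have h2 : Tendsto (fun y : α × M => (p y.1, A.e i y.2)) (l ×ˢ 𝓝 x) (𝓝 (q1, A.e i x)) := by
    rw [nhds_prod_eq]
    exact (hp.comp tendsto_fst).prodMk (((A.e i).continuousAt hx).tendsto.comp tendsto_snd)
  have h3 := h1.tendsto.comp h2
  have h4 : F.J q1 i (A.e i x) = iL' := by
    ext v : 1
    rw [F.J1 i _ hz, iL'_apply]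
  simp only [h4] at h3
  exact h3

end MFam

theorem CC.along {α β X Y : Type*} [TopologicalSpace X] [TopologicalSpace Y] {l : Filter α}
    {l' : Filter β} {f : α → X → Y} {f0 : X → Y} {x : X} (h : CC l f f0 x) {p : β → α}
    (hp : Tendsto p l' l) : CC l' (fun b => f (p b)) f0 x := by
  have h1 : Tendsto (fun b : β × X => (p b.1, b.2)) (l' ×ˢ 𝓝 x) (l ×ˢ 𝓝 x) :=
    (hp.comp tendsto_fst).prodMk tendsto_snd
  exact Filter.Tendsto.comp h h1

/-- tori along a filter -/
def MTor.comp {m : ℕ} {α β : Type*} {d : Type} [Fintype d] {l : Filter α} {D : α → MovD A} {x : M}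
    (t : MTor d m l D x) {l' : Filter β} {p : β → α} (hp : Tendsto p l' l) :
    MTor d m l' (fun b => D (p b)) x where
  T := t.T
  F b := t.F (p b)
  J b := t.J (p b)
  F0 := t.F0
  J0 := t.J0
  tor := hp.eventually t.tor
  cF y := CC.along (t.cF y) hp
  cDF y i hy := CC.along (t.cDF y i hy) hp
  cJ y := CC.along (t.cJ y) hp
  h := t.h
  mem := t.mem

/-! ### verticality against all sections from a basis -/

/-- evaluation of sections -/
def evH (L : LB A) (i : A.ι) (x : M) : H0S L →ₗ[ℂ] ℂ where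
  toFun u := sOf u.1 i x
  map_add' _ _ := rfl
  map_smul' _ _ := rfl

/-- derivative of sections along `X` -/
def dvH (L : LB A) (X : A.ι → M → Fin n → ℂ) (i : A.ι) (x : M) (hx : x ∈ (A.e i).source) :
    H0S L →ₗ[ℂ] ℂ where
  toFun u := dX X (sOf u.1) i x
  map_add' u v := by
    have hd : ∀ w : H0S L, DifferentiableAt ℂ (fun z => sOf w.1 i ((A.e i).symm z)) (A.e i x) := by
      intro w
      have h1 := (isHS_of_ker w.2.2).hol i
      unfold HolAt at h1
      have h2 : DifferentiableOn ℂ (fun z => sOf w.1 i ((A.e i).symm z)) (A.e i).target := by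
        simpa using h1
      exact h2.differentiableAt ((A.e i).open_target.mem_nhds ((A.e i).map_source hx))
    unfold dX
    rw [← Finset.sum_add_distrib]
    refine Finset.sum_congr rfl fun l _ => ?_
    rw [dl_hol ((isHS_of_ker (u + v).2.2).hol i) hx, dl_hol ((isHS_of_ker u.2.2).hol i) hx,
      dl_hol ((isHS_of_ker v.2.2).hol i) hx]
    have h3 : (fun z => sOf (u + v).1 i ((A.e i).symm z)) =
        (fun z => sOf u.1 i ((A.e i).symm z)) + fun z => sOf v.1 i ((A.e i).symm z) := rfl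
    rw [h3, fderiv_add (hd u) (hd v), _root_.add_apply]
    ring
  map_smul' c u := by
    have hd : DifferentiableAt ℂ (fun z => sOf u.1 i ((A.e i).symm z)) (A.e i x) := by
      have h1 := (isHS_of_ker u.2.2).hol i
      unfold HolAt at h1
      have h2 : DifferentiableOn ℂ (fun z => sOf u.1 i ((A.e i).symm z)) (A.e i).target := by
        simpa using h1
      exact h2.differentiableAt ((A.e i).open_target.mem_nhds ((A.e i).map_source hx))
    simp only [RingHom.id_apply, smul_eq_mul]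
    unfold dX
    rw [Finset.mul_sum]
    refine Finset.sum_congr rfl fun l _ => ?_
    rw [dl_hol ((isHS_of_ker (c • u).2.2).hol i) hx, dl_hol ((isHS_of_ker u.2.2).hol i) hx]
    have h3 : (fun z => sOf (c • u).1 i ((A.e i).symm z)) =
        c • fun z => sOf u.1 i ((A.e i).symm z) := rfl
    rw [h3, fderiv_const_smul hd, _root_.smul_apply, smul_eq_mul]
    ring

theorem vert_span {L : LB A} {c : ℕ} (b : Module.Basis (Fin c) ℂ (H0S L))
    {X : A.ι → M → Fin n → ℂ} {i : A.ι} {x : M} (hx : x ∈ (A.e i).source)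
    (h : ∀ a a', sOf (b a).1 i x * dX X (sOf (b a').1) i x =
      sOf (b a').1 i x * dX X (sOf (b a).1) i x) (u v : H0S L) :
    sOf u.1 i x * dX X (sOf v.1) i x = sOf v.1 i x * dX X (sOf u.1) i x := by
  have h1 : ∀ a v, evH L i x (b a) * dvH L X i x hx v = evH L i x v * dvH L X i x hx (b a) := by
    intro a v
    have e1 : evH L i x (b a) • dvH L X i x hx = dvH L X i x hx (b a) • evH L i x := by
      refine b.ext fun a' => ?_
      have h2 : sOf (b a).1 i x * dX X (sOf (b a').1) i x =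
        dX X (sOf (b a).1) i x * sOf (b a').1 i x := by rw [h a a', mul_comm]
      exact h2
    have e2 := LinearMap.congr_fun e1 v
    simp only [LinearMap.smul_apply, smul_eq_mul] at e2
    rw [e2, mul_comm]
  have e1 : dvH L X i x hx v • evH L i x = evH L i x v • dvH L X i x hx := by
    refine b.ext fun a => ?_
    have h2 := h1 a v
    simp only [LinearMap.smul_apply, smul_eq_mul]
    rw [← h2, mul_comm]
  have e2 := LinearMap.congr_fun e1 u
  simp only [LinearMap.smul_apply, smul_eq_mul] at e2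
  have e3 : dX X (sOf v.1) i x * sOf u.1 i x = sOf v.1 i x * dX X (sOf u.1) i x := e2
  rw [← e3, mul_comm]

/-! ### no bad sequence -/

section main

variable [T2Space M] [CompactSpace M] [SimplyConnectedSpace M] [Finite A.ι]

/-- **the hypothesis `hno` of 450's `open_mov`** -/
theorem hno_bel (hA : GC293.GoodA A) (Pt : Part A) {K : Kah A}
    (hR : ∀ i, ∀ x ∈ (A.e i).source, cur (volK K) i x = 0) (F : MFam A L Q q1) (P : Pot L)
    {c : ℕ} (G : GG P.lb c) (bs : Module.Basis (Fin c) ℂ (H0S P.lb))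
    (hbs : ∀ a, G.s a = sOf (bs a).1) {m : ℕ} {d : Type} [Fintype d] {V : Set M} (hV : IsOpen V)
    (hne : V.Nonempty)
    (hT : ∀ x ∈ V, ∃ t : MTor d m (𝓝 q1) (F.movD P) x,
      Fib (fun v : HolB (BN P.lb) => sOf v.1) t.F0 ∧
        Ver (fun v : HolB (BN P.lb) => sOf v.1) t.T t.F0)
    (p : ℕ → F.Good) (e : ℕ → ℝ) (u : ℕ → HolB (BN P.lb) →ₗ[ℂ] Sec (BN P.lb))
    (Qj : ℕ → HolB (BN P.lb) →ₗ[ℂ] Sec (BN P.lb)) (Qs : HolB (BN P.lb) →ₗ[ℂ] Sec (BN P.lb))
    (hp : Tendsto (fun j => (p j).1) atTop (𝓝 q1)) (he : ∀ j, 0 < e j)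
    (hu0 : ∀ j v, u j v ∈ SecQ (BN P.lb) 0) (hQ1 : ∀ v, Qs v ∈ SecQ (BN P.lb) 1)
    (hu : ∀ v : HolB (BN P.lb), C1T atTop (fun j => (u j v).1) (v : Sec (BN P.lb)).1)
    (hD : ∀ j v, (F.bl P (p j)).D (u j v) = (e j : ℂ) • Qj j v)
    (hQ : ∀ v, C1T atTop (fun j => (Qj j v).1) (Qs v).1)
    (hH : ∀ v, Qs v ∈ HarS K (HKL K (fsL G))) : Qs = 0 := by
  have hcont : ∀ w : Sec (BN P.lb), ∀ i, ContinuousOn (fun z => w.1 i ((A.e i).symm z))
      (A.e i).target := fun w i => ((C1F.of_sec w).c1 i).continuousOn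
  -- the data of `tube_cross`
  have key := tube_cross (l := (atTop : Filter ℕ)) (D := fun j => F.movD P (p j).1)
    (ε := fun j => 2 * e j) (Eventually.of_forall fun j => by have := he j; positivity)
    (s := fun v : HolB (BN P.lb) => sOf v.1) (fun v => isHS_of_ker v.2.2)
    (fun i x hx => by
      obtain ⟨a, ha⟩ := G.ne i x hx
      refine ⟨⟨_, ofS_mem (G.hs a)⟩, ?_⟩
      rwa [sOf_ofS _ hx]) K
    (q := fun v => qOf (Qs v)) (fun v => (qOf_isQ (Qs v)).shp K)
    (fun v => (har_qOf hR (hH v)).1)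
    (fun v i x hx a b => vert_span bs hx (fun a a' => by
      rw [← hbs, ← hbs]
      exact har_vert hR G (hH v) hx a a') ⟨a.1, a.2⟩ ⟨b.1, b.2⟩)
    (U := fun j v => sOf (u j v))
    (Q := fun j v i x => qL (F.J (p j).1 i (A.e i x)) (qOf (Qj j v) i x))
    (fun v => Eventually.of_forall fun j => MFam.sol_of (hu0 j v) (hD j v))
    (fun v w => Eventually.of_forall fun j =>
      cmt_of_tr (L := P.lb) (sOf_isS (u j v)).tr (sOf_isS (u j w)).tr)
    (fun v i x hx => (hu v).cc (hcont v.1) i (i0 P.lb) hx)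
    (fun v i x hx => by
      have h1 := F.J_cc hp hx
      have h2 : Tendsto (fun y : ℕ × M => qOf (Qj y.1 v) i y.2) (atTop ×ˢ 𝓝 x)
          (𝓝 (qOf (Qs v) i x)) := by
        rw [tendsto_pi_nhds]
        intro k
        exact (hQ v).cc (hcont (Qs v)) i (i1 P.lb k) hx
      have h3 := (continuous_qL.tendsto (iL', qOf (Qs v) i x)).comp (h1.prodMk_nhds h2)
      show Tendsto _ _ (𝓝 (OpT_330.cj (qOf (Qs v) i x)))
      rw [← qL_I]
      exact h3)
    (V := V) (fun x hx => by
      obtain ⟨t, h1, h2⟩ := hT x hx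
      exact ⟨MTor.comp t hp, h1, h2⟩)
  refine LinearMap.ext fun v => ?_
  have h1 := open_final' Pt hA hR G (Q := fun v : H0S P.lb => Qs ⟨v.1, v.2⟩)
    (fun v => hH _) hV hne (fun u v i x hx hxV => key ⟨u.1, u.2⟩ ⟨v.1, v.2⟩ i x hx hxV) ⟨v.1, v.2⟩
  have h2 : Geo.pqL (BN P.lb) 1 (Qs v) = Qs v := hQ1 v
  rw [LinearMap.zero_apply, ← h2]
  exact h1

end main

end

end Crest.Agent.R281.OpD_569
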