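import Crest.Agent.R281.Poi_234
import Crest.Agent.R281.Cdr2_234

-- ▼ part R281/Prim1_377
section

/-!
# Row 281, PRIM-VAR (helper377), part 1: local tools

* `pr O`  : a linear projection of `P → ℝ` onto the functions which are smooth on `O`
* `par1`  : Poincaré lemma in degree 1 with parameters (convex open sets)
* `par2`  : Poincaré lemma in degree 2 with parameters (convex open sets)
-/

set_option autoImplicit false
set_option linter.unusedSectionVars false

open Set Filter Topology MeasureTheory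
open scoped ContDiff Interval

namespace Crest.Agent.R281.Prim_377

open Crest.Agent.R216.Par Crest.Agent.R281.Poi_234

noncomputable section

section proj

variable {P : Type} [NormedAddCommGroup P] [NormedSpace ℝ P]

/-- the functions which are smooth on `O` -/
def Sm (O : Set P) : Submodule ℝ (P → ℝ) where
  carrier := {f | ContDiffOn ℝ ∞ f O}
  add_mem' ha hb := ContDiffOn.add ha hb
  zero_mem' := contDiffOn_const
  smul_mem' c _ h := ContDiffOn.const_smul c h

theorem exists_pr (O : Set P) : ∃ π : (P → ℝ) →ₗ[ℝ] (P → ℝ), (∀ f, ContDiffOn ℝ ∞ (π f) O) ∧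
    ∀ f, ContDiffOn ℝ ∞ f O → π f = f := by
  obtain ⟨g, hg⟩ := (Sm O).subtype.exists_leftInverse_of_injective (Submodule.ker_subtype _)
  refine ⟨(Sm O).subtype.comp g, fun f => (g f).2, fun f hf => ?_⟩
  have h1 : g f = (⟨f, hf⟩ : Sm O) := LinearMap.congr_fun hg (⟨f, hf⟩ : Sm O)
  show ((g f : Sm O) : P → ℝ) = f
  rw [h1]

/-- a (non canonical) linear projection onto the functions which are smooth on `O` -/
def pr (O : Set P) : (P → ℝ) →ₗ[ℝ] (P → ℝ) := (exists_pr O).choose

theorem pr_smooth (O : Set P) (f : P → ℝ) : ContDiffOn ℝ ∞ (pr O f) O :=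
  (exists_pr O).choose_spec.1 f

theorem pr_eq {O : Set P} {f : P → ℝ} (hf : ContDiffOn ℝ ∞ f O) : pr O f = f :=
  (exists_pr O).choose_spec.2 f hf

end proj

section loc

variable {P E : Type} [NormedAddCommGroup P] [NormedSpace ℝ P]
  [NormedAddCommGroup E] [NormedSpace ℝ E]

/-- slices of jointly smooth maps -/
theorem slice {W : Type*} [NormedAddCommGroup W] [NormedSpace ℝ W] {O : Set P} {U : Set E}
    {G : P → E → W} (hG : ContDiffOn ℝ ∞ (fun p : P × E => G p.1 p.2) (O ×ˢ U)) {t : P}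
    (ht : t ∈ O) : ContDiffOn ℝ ∞ (G t) U :=
  hG.comp (f := fun z => (t, z)) (contDiffOn_const.prodMk contDiffOn_id) fun _ hz => ⟨ht, hz⟩

/-- slices in the other direction -/
theorem slice' {W : Type*} [NormedAddCommGroup W] [NormedSpace ℝ W] {O : Set P} {U : Set E}
    {G : P → E → W} (hG : ContDiffOn ℝ ∞ (fun p : P × E => G p.1 p.2) (O ×ˢ U)) {z : E}
    (hz : z ∈ U) : ContDiffOn ℝ ∞ (fun t => G t z) O :=
  hG.comp (f := fun t => (t, z)) (contDiffOn_id.prodMk contDiffOn_const) fun _ ht => ⟨ht, hz⟩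

variable [FiniteDimensional ℝ P] [FiniteDimensional ℝ E]

/-- **Poincaré lemma in degree 1 with parameters** -/
theorem par1 {O : Set P} (hO : IsOpen O) {U : Set E} (hU : IsOpen U) (hc : Convex ℝ U)
    {x0 : E} (hx0 : x0 ∈ U) {θ : P → E → E →L[ℝ] ℝ}
    (hθ : ContDiffOn ℝ ∞ (fun p : P × E => θ p.1 p.2) (O ×ˢ U))
    (hcl : ∀ t ∈ O, ∀ z ∈ U, ∀ v w, fderiv ℝ (θ t) z v w = fderiv ℝ (θ t) z w v) :
    ∃ Ψ : P → E → ℝ, ContDiffOn ℝ ∞ (fun p : P × E => Ψ p.1 p.2) (O ×ˢ U) ∧
      (∀ t, Ψ t x0 = 0) ∧ ∀ t ∈ O, ∀ z ∈ U, HasFDerivAt (Ψ t) (θ t z) z := by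
  set Q : E × ℝ → E := fun p => x0 + p.2 • (p.1 - x0) with hQ
  have hQs : ContDiff ℝ ∞ Q := by
    rw [hQ]
    fun_prop
  have hmem : ∀ z ∈ U, ∀ s ∈ uIcc (0 : ℝ) 1, x0 + s • (z - x0) ∈ U := by
    intro z hz s hs
    rw [uIcc_of_le zero_le_one] at hs
    have := hc hx0 hz (a := 1 - s) (b := s) (by linarith [hs.2]) hs.1 (by ring)
    convert this using 1
    module
  set R : (P × E) × ℝ → P × E := fun q => (q.1.1, x0 + q.2 • (q.1.2 - x0)) with hR
  have hRs : ContDiff ℝ ∞ R := by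
    rw [hR]
    fun_prop
  set O' : Set ((P × E) × ℝ) := R ⁻¹' (O ×ˢ U) with hO'
  have hO'o : IsOpen O' := (hO.prod hU).preimage hRs.continuous
  have hmem' : ∀ p ∈ O ×ˢ U, ∀ s ∈ uIcc (0 : ℝ) 1, (p, s) ∈ O' := fun p hp s hs =>
    ⟨hp.1, hmem p.2 hp.2 s hs⟩
  set g : (P × E) × ℝ → ℝ := fun q => θ q.1.1 (x0 + q.2 • (q.1.2 - x0)) (q.1.2 - x0) with hg
  have hgs : ContDiffOn ℝ ∞ g O' := by
    have h1 : ContDiffOn ℝ ∞ (fun q => θ (R q).1 (R q).2) O' :=
      hθ.comp hRs.contDiffOn fun q hq => hq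
    have h2 : ContDiff ℝ ∞ (fun q : (P × E) × ℝ => q.1.2 - x0) := by fun_prop
    exact h1.clm_apply h2.contDiffOn
  refine ⟨fun t z => ∫ s in (0 : ℝ)..1, g ((t, z), s),
    contDiffOn_par (hO.prod hU) hO'o hmem' hgs, fun t => ?_, fun t ht z hz => ?_⟩
  · have : ∀ s : ℝ, g ((t, x0), s) = 0 := fun s => by simp [hg]
    simp [this]
  · obtain ⟨f, hf⟩ := poincare1 hU hc (slice hθ ht) (hcl t ht)
    have key : ∀ y ∈ U, ∫ s in (0 : ℝ)..1, g ((t, y), s) = f y - f x0 := by
      intro y hy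
      have h1 : ∀ s ∈ uIcc (0 : ℝ) 1,
          HasDerivAt (fun s : ℝ => f (x0 + s • (y - x0))) (g ((t, y), s)) s := by
        intro s hs
        have h2 : HasDerivAt (fun s : ℝ => x0 + s • (y - x0)) (y - x0) s := by
          simpa using ((hasDerivAt_id s).smul_const (y - x0)).const_add x0
        exact (hf _ (hmem y hy s hs)).comp_hasDerivAt s h2
      have h3 : ContinuousOn (fun s => g ((t, y), s)) (uIcc (0 : ℝ) 1) :=
        hgs.continuousOn.comp (by fun_prop) fun s hs => hmem' (t, y) ⟨ht, hy⟩ s hs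
      rw [intervalIntegral.integral_eq_sub_of_hasDerivAt h1 h3.intervalIntegrable]
      simp
    have h4 : (fun y => ∫ s in (0 : ℝ)..1, g ((t, y), s)) =ᶠ[𝓝 z] fun y => f y - f x0 := by
      filter_upwards [hU.mem_nhds hz] with y hy using key y hy
    exact ((hf z hz).sub_const (f x0)).congr_of_eventuallyEq h4

/-- the homotopy operator in degree 2 -/
def hom2 (x0 : E) (om : E → E →L[ℝ] E →L[ℝ] ℝ) (z : E) : E →L[ℝ] ℝ :=
  ∫ s in (0 : ℝ)..1, s • (om (x0 + s • (z - x0)) (z - x0))

/-- `d (hom2 om) = om` (the proof is helper234's proof of `poincare2`) -/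
theorem d_hom2 {U : Set E} (hU : IsOpen U) (hc : Convex ℝ U) {x0 : E} (hx0 : x0 ∈ U)
    {om : E → E →L[ℝ] E →L[ℝ] ℝ} (hom : ContDiffOn ℝ ∞ om U) (ha : Alt2 om U)
    (hcl : Closed2 om U) : ∀ z ∈ U, ∀ v w,
      fderiv ℝ (hom2 x0 om) z v w - fderiv ℝ (hom2 x0 om) z w v = om z v w := by
  set P : E × ℝ → E := fun p => x0 + p.2 • (p.1 - x0) with hP
  have hPs : ContDiff ℝ ∞ P := by
    rw [hP]
    fun_prop
  set O : Set (E × ℝ) := P ⁻¹' U with hO
  have hOo : IsOpen O := hU.preimage hPs.continuous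
  have hmem : ∀ z ∈ U, ∀ s ∈ uIcc (0 : ℝ) 1, (z, s) ∈ O := by
    intro z hz s hs
    rw [uIcc_of_le zero_le_one] at hs
    have := hc hx0 hz (a := 1 - s) (b := s) (by linarith [hs.2]) hs.1 (by ring)
    change x0 + s • (z - x0) ∈ U
    convert this using 1
    module
  set g : E × ℝ → (E →L[ℝ] ℝ) := fun p => p.2 • (om (P p) (p.1 - x0)) with hg
  have homP : ContDiffOn ℝ ∞ (fun p => om (P p)) O := hom.comp hPs.contDiffOn fun p hp => hp
  have hgs : ContDiffOn ℝ ∞ g O := by
    refine ContDiffOn.smul contDiffOn_snd ?_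
    exact homP.clm_apply (contDiff_fst.sub contDiff_const).contDiffOn
  have hg1 : ContDiffOn ℝ 1 g O := hgs.of_le (by exact_mod_cast le_top)
  change ∀ z ∈ U, ∀ v w, fderiv ℝ (fun z => ∫ s in (0 : ℝ)..1, g (z, s)) z v w -
    fderiv ℝ (fun z => ∫ s in (0 : ℝ)..1, g (z, s)) z w v = om z v w
  intro z hz v w
  have hz' := hmem z hz
  -- derivative of the integrand
  have hdg : ∀ s ∈ uIcc (0 : ℝ) 1, ∀ a b : E, fderiv ℝ g (z, s) (a, 0) b =
      s * (s * fderiv ℝ om (P (z, s)) a (z - x0) b + om (P (z, s)) a b) := by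
    intro s hs a b
    have hin : (z, s) ∈ O := hz' s hs
    have homd : DifferentiableAt ℝ om (P (z, s)) :=
      (hom.contDiffAt (hU.mem_nhds hin)).differentiableAt (by simp)
    -- along the line `z + t a`
    have h1 : HasFDerivAt g (fderiv ℝ g (z, s)) (z, s) :=
      ((hgs.contDiffAt (hOo.mem_nhds hin)).differentiableAt (by simp)).hasFDerivAt
    have hline : HasDerivAt (fun t : ℝ => ((z + t • a, s) : E × ℝ)) (a, 0) 0 := by
      have h2 : HasDerivAt (fun t : ℝ => z + t • a) a 0 := by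
        simpa using ((hasDerivAt_id (0 : ℝ)).smul_const a).const_add z
      exact h2.prodMk (hasDerivAt_const (0 : ℝ) s)
    have h3 : HasDerivAt (fun t : ℝ => g (z + t • a, s)) (fderiv ℝ g (z, s) (a, 0)) 0 := by
      have h1' : HasFDerivAt g (fderiv ℝ g (z, s)) (z + (0 : ℝ) • a, s) := by simpa using h1
      exact h1'.comp_hasDerivAt (0 : ℝ) hline
    have h4 : HasDerivAt (fun t : ℝ => g (z + t • a, s) b) (fderiv ℝ g (z, s) (a, 0) b) 0 := by
      simpa using h3.clm_apply (hasDerivAt_const (0 : ℝ) b)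
    have h5 : HasDerivAt (fun t : ℝ => P (z + t • a, s)) (s • a) 0 := by
      have : (fun t : ℝ => P (z + t • a, s)) = fun t : ℝ => P (z, s) + t • (s • a) := by
        funext t
        simp only [hP]
        module
      rw [this]
      simpa using ((hasDerivAt_id (0 : ℝ)).smul_const (s • a)).const_add (P (z, s))
    have h6 : HasDerivAt (fun t : ℝ => om (P (z + t • a, s))) (fderiv ℝ om (P (z, s)) (s • a)) 0 := by
      have h7 : HasFDerivAt om (fderiv ℝ om (P (z, s))) (P (z + (0 : ℝ) • a, s)) := by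
        simpa using homd.hasFDerivAt
      exact HasFDerivAt.comp_hasDerivAt (l := om) (0 : ℝ) h7 h5
    have h8 : HasDerivAt (fun t : ℝ => z + t • a - x0) a 0 := by
      simpa using (((hasDerivAt_id (0 : ℝ)).smul_const a).const_add z).sub_const x0
    have h9 := (h6.clm_apply h8).clm_apply (hasDerivAt_const (0 : ℝ) b)
    have h10 := h9.const_mul s
    have h11 : (fun t : ℝ => g (z + t • a, s) b) =
        fun t : ℝ => s * (om (P (z + t • a, s)) (z + t • a - x0)) b := by
      funext t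
      simp [hg]
    rw [h11] at h4
    have := h4.unique h10
    rw [this]
    simp
  have key : ∀ a b : E, fderiv ℝ (fun z => ∫ s in (0 : ℝ)..1, g (z, s)) z a b =
      ∫ s in (0 : ℝ)..1, fderiv ℝ g (z, s) (a, 0) b := by
    intro a b
    rw [fderiv_par_apply hOo hg1 hz' a]
    have hcont : ContinuousOn (fun s => fderiv ℝ g (z, s) (a, 0)) (uIcc (0 : ℝ) 1) := by
      have h1 : ContinuousOn (fderiv ℝ g) O := hg1.continuousOn_fderiv_of_isOpen hOo (by simp)
      have h2 : ContinuousOn (fun s : ℝ => fderiv ℝ g (z, s)) (uIcc (0 : ℝ) 1) :=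
        h1.comp (by fun_prop) hz'
      exact h2.clm_apply continuousOn_const
    rw [ContinuousLinearMap.intervalIntegral_apply hcont.intervalIntegrable]
  have hint : ∀ a b : E, IntervalIntegrable (fun s => fderiv ℝ g (z, s) (a, 0) b) volume 0 1 := by
    intro a b
    have h1 : ContinuousOn (fderiv ℝ g) O := hg1.continuousOn_fderiv_of_isOpen hOo (by simp)
    have h2 : ContinuousOn (fun s : ℝ => fderiv ℝ g (z, s)) (uIcc (0 : ℝ) 1) :=
      h1.comp (by fun_prop) hz'
    exact ((h2.clm_apply continuousOn_const).clm_apply continuousOn_const).intervalIntegrable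
  rw [key, key, ← intervalIntegral.integral_sub (hint v w) (hint w v)]
  -- the integrand is a derivative
  have hder : ∀ s ∈ uIcc (0 : ℝ) 1, HasDerivAt (fun s : ℝ => s ^ 2 * om (P (z, s)) v w)
      (fderiv ℝ g (z, s) (v, 0) w - fderiv ℝ g (z, s) (w, 0) v) s := by
    intro s hs
    have hin : (z, s) ∈ O := hz' s hs
    have homd : DifferentiableAt ℝ om (P (z, s)) :=
      (hom.contDiffAt (hU.mem_nhds hin)).differentiableAt (by simp)
    have h5 : HasDerivAt (fun s : ℝ => P (z, s)) (z - x0) s := by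
      simpa [hP] using ((hasDerivAt_id s).smul_const (z - x0)).const_add x0
    have h6 : HasDerivAt (fun s : ℝ => om (P (z, s)) v w)
        (fderiv ℝ om (P (z, s)) (z - x0) v w) s := by
      exact (hasFDerivAt_app homd v w).comp_hasDerivAt s h5
    have h7 := ((hasDerivAt_pow 2 s)).fun_mul h6
    refine h7.congr_deriv ?_
    rw [hdg s hs v w, hdg s hs w v]
    have e1 := hcl _ hin (z - x0) v w
    have e2 := ha.fderiv_swap hU hin homd v (z - x0) w
    have e3 := ha.swap hin w v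
    have e4 : fderiv ℝ om (P (z, s)) v (z - x0) w - fderiv ℝ om (P (z, s)) w (z - x0) v =
        fderiv ℝ om (P (z, s)) (z - x0) v w := by
      rw [e2]; linarith
    rw [e3]
    push_cast
    linear_combination (-(s ^ 2)) * e4
  rw [intervalIntegral.integral_eq_sub_of_hasDerivAt hder ((hint v w).sub (hint w v))]
  simp [hP]

/-- **Poincaré lemma in degree 2 with parameters** -/
theorem par2 {O : Set P} (hO : IsOpen O) {U : Set E} (hU : IsOpen U) (hc : Convex ℝ U)
    {x0 : E} (hx0 : x0 ∈ U) {om : P → E → E →L[ℝ] E →L[ℝ] ℝ}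
    (hom : ContDiffOn ℝ ∞ (fun p : P × E => om p.1 p.2) (O ×ˢ U))
    (ha : ∀ t ∈ O, Alt2 (om t) U) (hcl : ∀ t ∈ O, Closed2 (om t) U) :
    ∃ θ : P → E → E →L[ℝ] ℝ, ContDiffOn ℝ ∞ (fun p : P × E => θ p.1 p.2) (O ×ˢ U) ∧
      ∀ t ∈ O, ∀ z ∈ U, ∀ v w, fderiv ℝ (θ t) z v w - fderiv ℝ (θ t) z w v = om t z v w := by
  have hmem : ∀ z ∈ U, ∀ s ∈ uIcc (0 : ℝ) 1, x0 + s • (z - x0) ∈ U := by
    intro z hz s hs
    rw [uIcc_of_le zero_le_one] at hs
    have := hc hx0 hz (a := 1 - s) (b := s) (by linarith [hs.2]) hs.1 (by ring)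
    convert this using 1
    module
  set R : (P × E) × ℝ → P × E := fun q => (q.1.1, x0 + q.2 • (q.1.2 - x0)) with hR
  have hRs : ContDiff ℝ ∞ R := by
    rw [hR]
    fun_prop
  set O' : Set ((P × E) × ℝ) := R ⁻¹' (O ×ˢ U) with hO'
  have hO'o : IsOpen O' := (hO.prod hU).preimage hRs.continuous
  have hmem' : ∀ p ∈ O ×ˢ U, ∀ s ∈ uIcc (0 : ℝ) 1, (p, s) ∈ O' := fun p hp s hs =>
    ⟨hp.1, hmem p.2 hp.2 s hs⟩
  set g : (P × E) × ℝ → (E →L[ℝ] ℝ) := fun q =>
    q.2 • (om q.1.1 (x0 + q.2 • (q.1.2 - x0)) (q.1.2 - x0)) with hg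
  have hgs : ContDiffOn ℝ ∞ g O' := by
    have h1 : ContDiffOn ℝ ∞ (fun q => om (R q).1 (R q).2) O' :=
      hom.comp hRs.contDiffOn fun q hq => hq
    have h2 : ContDiff ℝ ∞ (fun q : (P × E) × ℝ => q.1.2 - x0) := by fun_prop
    exact ContDiffOn.smul contDiffOn_snd (h1.clm_apply h2.contDiffOn)
  refine ⟨fun t => hom2 x0 (om t), contDiffOn_par (hO.prod hU) hO'o hmem' hgs,
    fun t ht => d_hom2 hU hc hx0 (slice hom ht) (ha t ht) (hcl t ht)⟩

end loc

end

end Crest.Agent.R281.Prim_377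
end

-- ▼ part R281/Prim2_377
section

/-!
# Row 281, PRIM-VAR (helper377), part 2: the projection trick; local primitives; partition of unity

* `par0`     : if `h t` has differential `ψ t z - Σ c k t • φ k z` (`ψ` jointly smooth, no
               regularity of `h`, `c` in `t`), then `H t z = pr O (h · z) t` is jointly smooth with
               differential `ψ t z - Σ pr O (c k) t • φ k z`
* `Ball C U` : coordinate balls, `Ball.prim2` (parametrised primitives of families of closed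
               2-forms on `U`), `Ball.prim1` (primitives of closed 1-forms on `U`)
* `exists_part` : finite partition of unity subordinate to a cover by coordinate balls
-/

set_option autoImplicit false
set_option linter.unusedSectionVars false
set_option maxSynthPendingDepth 3

open Set Filter Topology Metric
open scoped ContDiff

namespace Crest.Agent.R281.Prim_377

open Crest.Agent.R281.HkR_835 Crest.Agent.R281.Poi_234 Crest.Agent.R281.Cdr_234
open Crest.Agent.R281.Ti_846 (F1 IsD Ex d1 d1_apply)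

noncomputable section

section par0

variable {P E : Type} [NormedAddCommGroup P] [NormedSpace ℝ P] [FiniteDimensional ℝ P]
  [NormedAddCommGroup E] [NormedSpace ℝ E] [FiniteDimensional ℝ E]

theorem pr_congr {O : Set P} {f g : P → ℝ} (h : ∀ t ∈ O, f t = g t) :
    ∀ t ∈ O, pr O f t = pr O g t := by
  intro t ht
  have h1 : ContDiffOn ℝ ∞ (f - g) O := by
    refine (contDiffOn_const (c := (0 : ℝ))).congr fun s hs => ?_
    show f s - g s = 0
    rw [h s hs, sub_self]
  have h2 : pr O f - pr O g = f - g := by rw [← map_sub, pr_eq h1]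
  have h3 := congrFun h2 t
  simp only [Pi.sub_apply, h t ht, sub_self] at h3
  linarith

variable {κ : Type} [Fintype κ]

/-- **the projection trick** -/
theorem par0 {O : Set P} (hO : IsOpen O) {S : Set E} (hS : IsOpen S) {h : P → E → ℝ}
    {ψ : P → E → E →L[ℝ] ℝ} {φ : κ → E → E →L[ℝ] ℝ} {c : κ → P → ℝ}
    (hψ : ContDiffOn ℝ ∞ (fun p : P × E => ψ p.1 p.2) (O ×ˢ S))
    (hφ : ∀ k, ContDiffOn ℝ ∞ (φ k) S)
    (cψ : ∀ t ∈ O, ∀ z ∈ S, ∀ v w, fderiv ℝ (ψ t) z v w = fderiv ℝ (ψ t) z w v)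
    (cφ : ∀ k, ∀ z ∈ S, ∀ v w, fderiv ℝ (φ k) z v w = fderiv ℝ (φ k) z w v)
    (hh : ∀ t ∈ O, ∀ z ∈ S, HasFDerivAt (h t) (ψ t z - ∑ k, c k t • φ k z) z) :
    ContDiffOn ℝ ∞ (fun p : P × E => pr O (fun t => h t p.2) p.1) (O ×ˢ S) ∧
      ∀ t ∈ O, ∀ z ∈ S, HasFDerivAt (fun y => pr O (fun t => h t y) t)
        (ψ t z - ∑ k, pr O (c k) t • φ k z) z := by
  -- local form
  have key : ∀ z1 ∈ S, ∃ N, IsOpen N ∧ z1 ∈ N ∧
      ContDiffOn ℝ ∞ (fun p : P × E => pr O (fun t => h t p.2) p.1) (O ×ˢ N) ∧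
      ∀ t ∈ O, HasFDerivAt (fun y => pr O (fun t => h t y) t)
        (ψ t z1 - ∑ k, pr O (c k) t • φ k z1) z1 := by
    intro z1 hz1
    obtain ⟨r, hr, hrS⟩ := Metric.isOpen_iff.1 hS z1 hz1
    have hN : IsOpen (ball z1 r) := isOpen_ball
    have hNc : Convex ℝ (ball z1 r) := convex_ball z1 r
    have hz1N : z1 ∈ ball z1 r := mem_ball_self hr
    obtain ⟨Ψ, Ψs, Ψ0, Ψd⟩ := par1 hO hN hNc hz1N (hψ.mono (prod_mono le_rfl hrS))
      (fun t ht z hz => cψ t ht z (hrS hz))
    have h1 : ∀ k, ∃ f : E → ℝ, ∀ z ∈ ball z1 r, HasFDerivAt f (φ k z) z := fun k =>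
      poincare1 hN hNc ((hφ k).mono hrS) fun z hz => cφ k z (hrS hz)
    choose f hf using h1
    have hfs : ∀ k, ContDiffOn ℝ ∞ (f k) (ball z1 r) := fun k =>
      contDiffOn_of_hasFDerivAt hN ((hφ k).mono hrS) (hf k)
    -- `h` in terms of `Ψ`, `f`
    have h2 : ∀ z ∈ ball z1 r, ∀ t ∈ O,
        h t z = h t z1 + Ψ t z - ∑ k, (f k z - f k z1) * c k t := by
      intro z hz t ht
      set q : E → ℝ := fun z => h t z - (Ψ t z - ∑ k, (f k z - f k z1) * c k t) with hq
      have hq' : ∀ y ∈ ball z1 r, HasFDerivAt q (0 : E →L[ℝ] ℝ) y := by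
        intro y hy
        have e1 : HasFDerivAt (fun y => ∑ k, (f k y - f k z1) * c k t) (∑ k, c k t • φ k y) y := by
          refine HasFDerivAt.fun_sum fun k _ => ?_
          exact ((hf k y hy).sub_const (f k z1)).mul_const (c k t)
        have e2 := (hh t ht y (hrS hy)).sub ((Ψd t ht y hy).sub e1)
        refine e2.congr_fderiv ?_
        abel
      have e3 : q z = q z1 := by
        refine hNc.is_const_of_fderivWithin_eq_zero (𝕜 := ℝ) (fun y hy =>
          (hq' y hy).differentiableAt.differentiableWithinAt) (fun y hy => ?_) hz hz1N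
        rw [fderivWithin_of_isOpen hN hy, (hq' y hy).fderiv]
      simp only [hq, Ψ0, sub_self, zero_mul, Finset.sum_const_zero, sub_zero] at e3
      linarith
    -- after projection
    have h3 : ∀ t ∈ O, ∀ z ∈ ball z1 r, pr O (fun t => h t z) t =
        pr O (fun t => h t z1) t + Ψ t z - ∑ k, (f k z - f k z1) * pr O (c k) t := by
      intro t ht z hz
      have e1 := pr_congr (O := O) (h2 z hz) t ht
      have e2 : (fun t => h t z1 + Ψ t z - ∑ k, (f k z - f k z1) * c k t) =
          (fun t => h t z1) + (fun t => Ψ t z) - ∑ k, (f k z - f k z1) • c k := by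
        funext s
        simp [Finset.sum_apply]
      rw [e2, map_sub, map_add, pr_eq (slice' Ψs hz), map_sum] at e1
      simp only [map_smul] at e1
      rw [e1]
      simp [Finset.sum_apply]
    refine ⟨ball z1 r, hN, hz1N, ?_, fun t ht => ?_⟩
    · have e1 : ContDiffOn ℝ ∞ (fun p : P × E => pr O (fun t => h t z1) p.1 + Ψ p.1 p.2 -
          ∑ k, (f k p.2 - f k z1) * pr O (c k) p.1) (O ×ˢ ball z1 r) := by
        refine ContDiffOn.sub (ContDiffOn.add ?_ Ψs) (ContDiffOn.sum fun k _ => ContDiffOn.mul ?_ ?_)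
        · exact (pr_smooth O _).comp contDiffOn_fst fun p hp => hp.1
        · exact ((hfs k).comp contDiffOn_snd fun p hp => hp.2).sub contDiffOn_const
        · exact (pr_smooth O _).comp contDiffOn_fst fun p hp => hp.1
      exact e1.congr fun p hp => h3 p.1 hp.1 p.2 hp.2
    · have e1 : HasFDerivAt (fun y => ∑ k, (f k y - f k z1) * pr O (c k) t)
          (∑ k, pr O (c k) t • φ k z1) z1 := by
        refine HasFDerivAt.fun_sum fun k _ => ?_
        exact ((hf k z1 hz1N).sub_const (f k z1)).mul_const (pr O (c k) t)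
      have e2 := ((Ψd t ht z1 hz1N).const_add (pr O (fun t => h t z1) t)).sub e1
      refine e2.congr_of_eventuallyEq ?_
      filter_upwards [hN.mem_nhds hz1N] with y hy using h3 t ht y hy
  refine ⟨fun p hp => ?_, fun t ht z hz => ?_⟩
  · obtain ⟨N, hN, hpN, h1, -⟩ := key p.2 hp.2
    exact (h1.contDiffAt ((hO.prod hN).mem_nhds ⟨hp.1, hpN⟩)).contDiffWithinAt
  · obtain ⟨N, hN, hpN, -, h1⟩ := key z hz
    exact h1 t ht

end par0

variable {V X : Type} [NormedAddCommGroup V] [NormedSpace ℝ V] [TopologicalSpace X]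
  {C : RCh V X}

/-- transition maps compose -/
theorem t_t3 {i j l : C.ι} {z : V} (hz : z ∈ C.ov j l) : C.t l i (C.t j l z) = C.t j i z := by
  show C.e i ((C.e l).symm (C.e l ((C.e j).symm z))) = C.e i ((C.e j).symm z)
  rw [(C.e l).left_inv hz.2]

theorem dt_t3 {i j l : C.ι} {z : V} (hz : z ∈ C.ov j l) (hi : (C.e j).symm z ∈ (C.e i).source)
    (v : V) : fderiv ℝ (C.t l i) (C.t j l z) (fderiv ℝ (C.t j l) z v) = fderiv ℝ (C.t j i) z v := by
  have h1 : (fun y => C.t l i (C.t j l y)) =ᶠ[𝓝 z] C.t j i := by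
    filter_upwards [(RCh.isOpen_ov j l).mem_nhds hz] with y hy using t_t3 hy
  have hm : C.t j l z ∈ C.ov l i := by
    refine ⟨(C.e l).map_source hz.2, ?_⟩
    show (C.e l).symm (C.e l ((C.e j).symm z)) ∈ (C.e i).source
    rwa [(C.e l).left_inv hz.2]
  have h2 := ((RCh.t_diff hm).hasFDerivAt.comp z (RCh.t_diff hz).hasFDerivAt).fderiv
  have h3 : (C.t l i ∘ C.t j l) = fun y => C.t l i (C.t j l y) := rfl
  rw [h3, h1.fderiv_eq] at h2
  exact (congrArg (fun T : V →L[ℝ] V => T v) h2).symm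

/-- coordinate balls -/
def Ball (C : RCh V X) (U : Set X) : Prop :=
  ∃ (i : C.ι) (z0 : V) (r : ℝ), 0 < r ∧ ball z0 r ⊆ (C.e i).target ∧
    U = (C.e i).source ∩ (C.e i) ⁻¹' (ball z0 r)

theorem Ball.isOpen {U : Set X} (hU : Ball C U) : IsOpen U := by
  obtain ⟨i, z0, r, hr, hs, rfl⟩ := hU
  exact (C.e i).isOpen_inter_preimage isOpen_ball

section ball

variable [FiniteDimensional ℝ V] {P : Type} [NormedAddCommGroup P] [NormedSpace ℝ P]
  [FiniteDimensional ℝ P]

/-- **primitives with parameters on a coordinate ball** -/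
theorem Ball.prim2 {U : Set X} (hU : Ball C U) {O : Set P} (hO : IsOpen O) {w : P → F2 C}
    (hw : ∀ i, ContDiffOn ℝ ∞ (fun p : P × V => (w p.1).w i p.2) (O ×ˢ (C.e i).target)) :
    ∃ th : P → C.ι → V → V →L[ℝ] ℝ,
      (∀ j, ContDiffOn ℝ ∞ (fun p : P × V => th p.1 j p.2) (O ×ˢ sh C j U)) ∧
      (∀ t j l, ∀ z ∈ C.ov j l, (C.e j).symm z ∈ U → ∀ v,
        th t j z v = th t l (C.t j l z) (fderiv ℝ (C.t j l) z v)) ∧
      ∀ t ∈ O, ∀ j, ∀ z ∈ sh C j U, ∀ u v,
        fderiv ℝ (th t j) z u v - fderiv ℝ (th t j) z v u = (w t).w j z u v := by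
  obtain ⟨i, z0, r, hr, hs, hUe⟩ := hU
  have hN : IsOpen (ball z0 r) := isOpen_ball
  obtain ⟨θ, θs, θd⟩ := par2 hO hN (convex_ball z0 r) (mem_ball_self hr)
    (om := fun t => (w t).w i) ((hw i).mono (prod_mono le_rfl hs))
    (fun t _ z hz v => by
      have := (w t).alt i z (hs hz) v v
      linarith)
    (fun t _ z hz u v q => (w t).closed i z (hs hz) u v q)
  have hov : ∀ {j : C.ι} {z : V}, z ∈ sh C j U → z ∈ C.ov j i ∧ C.t j i z ∈ ball z0 r := by
    intro j z hz
    have h1 : (C.e j).symm z ∈ (C.e i).source ∩ (C.e i) ⁻¹' (ball z0 r) := by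
      rw [← hUe]
      exact hz.2
    exact ⟨⟨hz.1, h1.1⟩, h1.2⟩
  have hUo : IsOpen U := by
    rw [hUe]
    exact (C.e i).isOpen_inter_preimage isOpen_ball
  refine ⟨fun t j => pb1 (θ t) (C.t j i), fun j => ?_, fun t j l z hz hzU v => ?_,
    fun t ht j z hz u v => ?_⟩
  · have hT : ContDiffOn ℝ ∞ (C.t j i) (sh C j U) := (RCh.t_smooth j i).mono fun z hz => (hov hz).1
    have hdT : ContDiffOn ℝ ∞ (fderiv ℝ (C.t j i)) (sh C j U) :=
      hT.fderiv_of_isOpen (isOpen_sh j hUo) (by simp)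
    have h1 : ContDiffOn ℝ ∞ (fun p : P × V => (p.1, C.t j i p.2)) (O ×ˢ sh C j U) :=
      contDiffOn_fst.prodMk (hT.comp contDiffOn_snd fun p hp => hp.2)
    have h2 : ContDiffOn ℝ ∞ (fun p : P × V => θ p.1 (C.t j i p.2)) (O ×ˢ sh C j U) :=
      θs.comp h1 fun p hp => ⟨hp.1, (hov hp.2).2⟩
    exact h2.clm_comp (hdT.comp contDiffOn_snd fun p hp => hp.2)
  · have hzi : (C.e j).symm z ∈ (C.e i).source := (hov (j := j) ⟨hz.1, hzU⟩).1.2
    simp only [pb1_apply]
    rw [t_t3 hz, dt_t3 hz hzi]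
  · obtain ⟨h1, h2⟩ := hov hz
    have hd : DifferentiableAt ℝ (θ t) (C.t j i z) :=
      ((slice θs ht).contDiffAt (hN.mem_nhds h2)).differentiableAt (by simp)
    have hT : ContDiffAt ℝ ∞ (C.t j i) z :=
      (RCh.t_smooth j i).contDiffAt ((RCh.isOpen_ov j i).mem_nhds h1)
    rw [d_pb1 hd hT, θd t ht _ h2, ← (w t).tr j i z h1]

/-- primitives of closed 1-forms on a coordinate ball -/
theorem Ball.prim1 {U : Set X} (hU : Ball C U) {α : C.ι → V → V →L[ℝ] ℝ}
    (hs : ∀ j, ContDiffOn ℝ ∞ (α j) (sh C j U))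
    (ht : ∀ j l, ∀ z ∈ C.ov j l, (C.e j).symm z ∈ U → ∀ v,
      α j z v = α l (C.t j l z) (fderiv ℝ (C.t j l) z v))
    (hd : ∀ j, ∀ z ∈ sh C j U, ∀ u v, fderiv ℝ (α j) z u v = fderiv ℝ (α j) z v u) :
    ∃ g : X → ℝ, ∀ j, ∀ z ∈ sh C j U, HasFDerivAt (fun y => g ((C.e j).symm y)) (α j z) z := by
  obtain ⟨i, z0, r, hr, hsub, hUe⟩ := hU
  have hN : IsOpen (ball z0 r) := isOpen_ball
  have hb : ball z0 r ⊆ sh C i U := by
    intro z hz
    refine ⟨hsub hz, ?_⟩
    rw [hUe]
    refine ⟨(C.e i).map_target (hsub hz), ?_⟩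
    show C.e i ((C.e i).symm z) ∈ ball z0 r
    rwa [(C.e i).right_inv (hsub hz)]
  obtain ⟨f, hf⟩ := poincare1 hN (convex_ball z0 r) ((hs i).mono hb) fun z hz => hd i z (hb hz)
  refine ⟨fun x => f (C.e i x), fun j z hz => ?_⟩
  have h1 : (C.e j).symm z ∈ (C.e i).source ∩ (C.e i) ⁻¹' (ball z0 r) := by
    rw [← hUe]
    exact hz.2
  have h2 : z ∈ C.ov j i := ⟨hz.1, h1.1⟩
  have h3 := (hf (C.t j i z) h1.2).comp z (RCh.t_diff h2).hasFDerivAt
  refine h3.congr_fderiv ?_
  ext v
  exact (ht j i z h2 hz.2 v).symm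

end ball

/-! ### partition of unity -/

section part

variable [FiniteDimensional ℝ V] [T2Space X]

/-- coordinate balls with a bump function around every point -/
theorem exists_bump (x : X) : ∃ (U K : Set X) (ψ : X → ℝ), Ball C U ∧ IsClosed K ∧ K ⊆ U ∧
    (∀ y, 0 ≤ ψ y) ∧ 0 < ψ x ∧ (∀ y ∉ K, ψ y = 0) ∧
    ∀ j, ContDiffOn ℝ ∞ (fun z => ψ ((C.e j).symm z)) (C.e j).target := by
  classical
  obtain ⟨i, hi⟩ := C.cover x
  set z0 : V := C.e i x with hz0
  have hz0t : z0 ∈ (C.e i).target := (C.e i).map_source hi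
  obtain ⟨r, hr, hrs⟩ := Metric.isOpen_iff.1 (C.e i).open_target z0 hz0t
  let b : ContDiffBump z0 := ⟨r / 4, r / 2, by positivity, by linarith⟩
  have hcb : closedBall z0 (r / 2) ⊆ ball z0 r := closedBall_subset_ball (by linarith)
  set K : Set X := (C.e i).symm '' closedBall z0 (r / 2) with hK
  set U : Set X := (C.e i).source ∩ (C.e i) ⁻¹' (ball z0 r) with hU
  have hKc : IsClosed K := by
    have : ProperSpace V := FiniteDimensional.proper ℝ V
    refine IsCompact.isClosed ?_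
    exact (isCompact_closedBall z0 (r / 2)).image_of_continuousOn
      ((C.e i).continuousOn_symm.mono (hcb.trans hrs))
  have hKU : K ⊆ U := by
    rintro _ ⟨z, hz, rfl⟩
    refine ⟨(C.e i).map_target (hrs (hcb hz)), ?_⟩
    show C.e i ((C.e i).symm z) ∈ ball z0 r
    rw [(C.e i).right_inv (hrs (hcb hz))]
    exact hcb hz
  set ψ : X → ℝ := fun y => if y ∈ (C.e i).source then b (C.e i y) else 0 with hψ
  have hψK : ∀ y ∉ K, ψ y = 0 := by
    intro y hy
    by_cases h : y ∈ (C.e i).source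
    · have h1 : C.e i y ∉ closedBall z0 (r / 2) := fun h2 =>
        hy ⟨C.e i y, h2, (C.e i).left_inv h⟩
      simp only [hψ, if_pos h]
      refine b.zero_of_le_dist ?_
      simp only [mem_closedBall, not_le] at h1
      exact h1.le
    · simp only [hψ, if_neg h]
  refine ⟨U, K, ψ, ⟨i, z0, r, hr, hrs, rfl⟩, hKc, hKU, fun y => ?_, ?_, hψK, fun j z hz => ?_⟩
  · by_cases h : y ∈ (C.e i).source
    · simp only [hψ, if_pos h]
      exact b.nonneg
    · simp only [hψ, if_neg h]
      exact le_rfl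
  · simp only [hψ, if_pos hi]
    exact b.pos_of_mem_ball (by
      show C.e i x ∈ ball z0 (r / 2)
      rw [← hz0]
      exact mem_ball_self (by positivity))
  · by_cases h : (C.e j).symm z ∈ (C.e i).source
    · have hz' : z ∈ C.ov j i := ⟨hz, h⟩
      have h1 : ContDiffAt ℝ ∞ (fun y => b (C.t j i y)) z :=
        b.contDiff.contDiffAt.comp z
          ((RCh.t_smooth j i).contDiffAt ((RCh.isOpen_ov j i).mem_nhds hz'))
      refine (h1.congr_of_eventuallyEq ?_).contDiffWithinAt
      filter_upwards [(RCh.isOpen_ov j i).mem_nhds hz'] with y hy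
      have hy2 : (C.e j).symm y ∈ (C.e i).source := hy.2
      simp only [hψ, if_pos hy2]
      rfl
    · have h1 : (C.e j).symm z ∉ K := fun h2 => h (hKU h2).1
      have h2 : sh C j Kᶜ ∈ 𝓝 z := (isOpen_sh j hKc.isOpen_compl).mem_nhds ⟨hz, h1⟩
      refine ((contDiffAt_const (c := (0 : ℝ))).congr_of_eventuallyEq ?_).contDiffWithinAt
      filter_upwards [h2] with y hy using hψK _ hy.2

/-- **finite partition of unity subordinate to coordinate balls** -/
theorem exists_part [CompactSpace X] : ∃ (s : Finset X) (U K : X → Set X) (χ : X → X → ℝ),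
    (∀ c, Ball C (U c)) ∧ (∀ x, ∃ c, x ∈ U c) ∧ (∀ c, IsClosed (K c)) ∧ (∀ c, K c ⊆ U c) ∧
    (∀ c, ∀ y ∉ K c, χ c y = 0) ∧ (∀ y, ∑ c ∈ s, χ c y = 1) ∧
    ∀ c j, ContDiffOn ℝ ∞ (fun z => χ c ((C.e j).symm z)) (C.e j).target := by
  choose U K ψ hU hK hKU h0 hpos hz hsm using exists_bump (C := C)
  have hcont : ∀ c, Continuous (ψ c) := by
    intro c
    rw [continuous_iff_continuousAt]
    intro x
    obtain ⟨i, hi⟩ := C.cover x
    have h1 : ContinuousAt (fun z => ψ c ((C.e i).symm z)) (C.e i x) :=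
      ((hsm c i).continuousOn).continuousAt ((C.e i).open_target.mem_nhds ((C.e i).map_source hi))
    have h2 : ContinuousAt (fun y => ψ c ((C.e i).symm (C.e i y))) x :=
      ContinuousAt.comp (f := C.e i) h1 ((C.e i).continuousAt hi)
    refine h2.congr ?_
    filter_upwards [(C.e i).open_source.mem_nhds hi] with y hy
    rw [(C.e i).left_inv hy]
  obtain ⟨s, hs⟩ := isCompact_univ.elim_finite_subcover (fun c : X => {y | 0 < ψ c y})
    (fun c => isOpen_lt continuous_const (hcont c)) (fun x _ => mem_iUnion.2 ⟨x, hpos x⟩)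
  have hΨ : ∀ y, 0 < ∑ c ∈ s, ψ c y := by
    intro y
    have h1 := hs (mem_univ y)
    simp only [mem_iUnion] at h1
    obtain ⟨c, hc, hcy⟩ := h1
    exact Finset.sum_pos' (fun d _ => h0 d y) ⟨c, hc, hcy⟩
  refine ⟨s, U, K, fun c y => ψ c y / ∑ d ∈ s, ψ d y, hU, fun x => ⟨x, ?_⟩, hK, hKU, ?_, ?_, ?_⟩
  · by_contra h
    have h1 : ψ x x = 0 := hz x x fun h2 => h (hKU x h2)
    exact (hpos x).ne' h1
  · intro c y hy
    simp only
    rw [hz c y hy, zero_div]
  · intro y
    rw [← Finset.sum_div, div_self (hΨ y).ne']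
  · intro c j
    refine (hsm c j).div (ContDiffOn.sum fun d _ => hsm d j) fun z _ => (hΨ _).ne'

end part

end

end Crest.Agent.R281.Prim_377
end

-- ▼ part R281/Prim3_377

/-!
# Row 281, PRIM-VAR (helper377), part 3: the parametrised basis theorem

`P` finite dimensional, `O ⊆ P` open, `w : P → F2 C` jointly smooth over `O` (`JO2 O w`),
`b : κ → F2 C` a finite family, `X` compact Hausdorff (no atlas, no good cover).

* `prim`   : if every `w t`, `t ∈ O`, is `Σ c_k b_k + exact` then `w t = Σ c_k(t) b_k + d (η t)` with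
             `c` smooth on `O` and `η` jointly smooth (`JO1 O η`)
* `coef_smooth` : if the `b k` are independent modulo exact forms, then THE coefficients are smooth
* `prim0`  : the case `κ = ∅`: families of exact forms have jointly smooth primitives
-/

set_option autoImplicit false
set_option linter.unusedSectionVars false
set_option maxSynthPendingDepth 3

open Set Filter Topology Metric
open scoped ContDiff

namespace Crest.Agent.R281.Prim_377

open Crest.Agent.R281.HkR_835 Crest.Agent.R281.Poi_234 Crest.Agent.R281.Cdr_234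
open Crest.Agent.R281.Ti_846 (F1 IsD Ex d1 d1_apply)
open Crest.Agent.R281.Dif_268 (F1dAt)

noncomputable section

variable {V X : Type} [NormedAddCommGroup V] [NormedSpace ℝ V] [TopologicalSpace X]
  {C : RCh V X} {P : Type} [NormedAddCommGroup P] [NormedSpace ℝ P]

/-- jointly smooth families of 1-forms, parameters in `O` -/
def JO1 (O : Set P) (η : P → F1 C) : Prop :=
  ∀ i, ContDiffOn ℝ ∞ (fun p : P × V => (η p.1).η i p.2) (O ×ˢ (C.e i).target)

/-- jointly smooth families of closed 2-forms, parameters in `O` -/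
def JO2 (O : Set P) (w : P → F2 C) : Prop :=
  ∀ i, ContDiffOn ℝ ∞ (fun p : P × V => (w p.1).w i p.2) (O ×ˢ (C.e i).target)

/-- the partial differential of a jointly smooth map is jointly smooth -/
theorem fderiv_snd {W : Type*} [NormedAddCommGroup W] [NormedSpace ℝ W] {O : Set P} {U : Set V}
    (hO : IsOpen O) (hU : IsOpen U) {G : P → V → W}
    (hG : ContDiffOn ℝ ∞ (fun p : P × V => G p.1 p.2) (O ×ˢ U)) :
    ContDiffOn ℝ ∞ (fun p : P × V => fderiv ℝ (G p.1) p.2) (O ×ˢ U) := by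
  have h1 : ContDiffOn ℝ ∞ (fun p => (fderiv ℝ (fun p : P × V => G p.1 p.2) p).comp
      (ContinuousLinearMap.inr ℝ P V)) (O ×ˢ U) :=
    (hG.fderiv_of_isOpen (hO.prod hU) (by simp)).clm_comp contDiffOn_const
  refine h1.congr fun p hp => ?_
  have h2 : HasFDerivAt (fun p : P × V => G p.1 p.2) (fderiv ℝ (fun p : P × V => G p.1 p.2) p)
      (p.1, p.2) :=
    ((hG.contDiffAt ((hO.prod hU).mem_nhds hp)).differentiableAt (by simp)).hasFDerivAt
  exact (h2.comp (f := fun y => (p.1, y)) p.2 (hasFDerivAt_prodMk_right p.1 p.2)).fderiv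

section main

variable [FiniteDimensional ℝ V] [FiniteDimensional ℝ P] [CompactSpace X] [T2Space X]
  {κ : Type} [Fintype κ]

theorem sub_sum_symm {f g : V → V →L[ℝ] ℝ} {φ : κ → V → V →L[ℝ] ℝ} {c : κ → ℝ} {z : V}
    (hf : DifferentiableAt ℝ f z) (hg : DifferentiableAt ℝ g z)
    (hφ : ∀ k, DifferentiableAt ℝ (φ k) z) (u v : V) :
    fderiv ℝ (fun y => f y - ∑ k, c k • φ k y - g y) z u v -
      fderiv ℝ (fun y => f y - ∑ k, c k • φ k y - g y) z v u =
      (fderiv ℝ f z u v - fderiv ℝ f z v u) -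
        ∑ k, c k * (fderiv ℝ (φ k) z u v - fderiv ℝ (φ k) z v u) -
        (fderiv ℝ g z u v - fderiv ℝ g z v u) := by
  have h1 : HasFDerivAt (fun y => f y - ∑ k, c k • φ k y - g y)
      (fderiv ℝ f z - ∑ k, c k • fderiv ℝ (φ k) z - fderiv ℝ g z) z := by
    refine (hf.hasFDerivAt.sub (HasFDerivAt.fun_sum fun k _ => ?_)).sub hg.hasFDerivAt
    exact (hφ k).hasFDerivAt.const_smul (c k)
  rw [h1.fderiv]
  simp only [sub_apply, sum_apply, smul_apply, smul_eq_mul, mul_sub, Finset.sum_sub_distrib]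
  ring

/-- main construction -/
theorem prim_aux {O : Set P} (hO : IsOpen O) {w : P → F2 C} (hw : JO2 O w) {b : κ → F2 C}
    {c : κ → P → ℝ} {η : P → F1 C}
    (h : ∀ t ∈ O, ∀ i, ∀ z ∈ (C.e i).target, ∀ u v,
      (w t).w i z u v - ∑ k, c k t * (b k).w i z u v =
        fderiv ℝ ((η t).η i) z u v - fderiv ℝ ((η t).η i) z v u) :
    ∃ η' : P → F1 C, JO1 O η' ∧ ∀ t ∈ O, ∀ i, ∀ z ∈ (C.e i).target, ∀ u v,
      (w t).w i z u v - ∑ k, pr O (c k) t * (b k).w i z u v =
        fderiv ℝ ((η' t).η i) z u v - fderiv ℝ ((η' t).η i) z v u := by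
  classical
  obtain ⟨s, U, K, χ, hU, hcov, hK, hKU, hχ0, hχ1, hχs⟩ := exists_part (C := C)
  have hUo : ∀ a, IsOpen (U a) := fun a => (hU a).isOpen
  -- local primitives
  have h1 := fun a => (hU a).prim2 hO hw
  choose th th_sm th_tr th_d using h1
  have h2 : ∀ a k, ∃ be : C.ι → V → V →L[ℝ] ℝ,
      (∀ j, ContDiffOn ℝ ∞ (be j) (sh C j (U a))) ∧
      (∀ j l, ∀ z ∈ C.ov j l, (C.e j).symm z ∈ U a → ∀ v,
        be j z v = be l (C.t j l z) (fderiv ℝ (C.t j l) z v)) ∧
      ∀ j, ∀ z ∈ sh C j (U a), ∀ u v,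
        fderiv ℝ (be j) z u v - fderiv ℝ (be j) z v u = (b k).w j z u v := by
    intro a k
    obtain ⟨be, e1, e2, e3⟩ := (hU a).prim2 (P := P) isOpen_univ (w := fun _ => b k)
      (fun i => ((b k).sm i).comp contDiffOn_snd fun p hp => hp.2)
    exact ⟨be 0, fun j => slice (G := fun t => be t j) (e1 j) (mem_univ 0), fun j l => e2 0 j l,
      fun j => e3 0 (mem_univ 0) j⟩
  choose be be_sm be_tr be_d using h2
  have th_da : ∀ a t j z, t ∈ O → z ∈ sh C j (U a) → DifferentiableAt ℝ (th a t j) z :=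
    fun a t j z ht hz => ((slice (G := fun t => th a t j) (th_sm a j) ht).contDiffAt
      (sh_nhds (hUo a) hz)).differentiableAt (by simp)
  have be_da : ∀ a k j z, z ∈ sh C j (U a) → DifferentiableAt ℝ (be a k j) z :=
    fun a k j z hz => ((be_sm a k j).contDiffAt (sh_nhds (hUo a) hz)).differentiableAt (by simp)
  -- rough potentials
  have h3 : ∀ a t, ∃ g : X → ℝ, t ∈ O → ∀ j, ∀ z ∈ sh C j (U a),
      HasFDerivAt (fun y => g ((C.e j).symm y))
        (th a t j z - ∑ k, c k t • be a k j z - (η t).η j z) z := by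
    intro a t
    by_cases ht : t ∈ O
    · obtain ⟨g, hg⟩ := (hU a).prim1
        (α := fun j z => th a t j z - ∑ k, c k t • be a k j z - (η t).η j z)
        (fun j => ((slice (G := fun t => th a t j) (th_sm a j) ht).sub
          (ContDiffOn.sum fun k _ => (be_sm a k j).const_smul (c k t))).sub
            (((η t).sm j).mono fun z hz => hz.1))
        (fun j l z hz hzU v => by
          simp only [sub_apply, sum_apply, smul_apply, smul_eq_mul]
          rw [th_tr a t j l z hz hzU v, (η t).tr j l z hz v]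
          have : ∀ k, be a k j z v = be a k l (C.t j l z) (fderiv ℝ (C.t j l) z v) :=
            fun k => be_tr a k j l z hz hzU v
          simp only [this])
        (fun j z hz u v => by
          have e1 := sub_sum_symm (c := fun k => c k t) (th_da a t j z ht hz)
            (F1dAt (η t) hz.1) (fun k => be_da a k j z hz) u v
          have e2 := th_d a t ht j z hz u v
          have e3 : ∀ k, fderiv ℝ (be a k j) z u v - fderiv ℝ (be a k j) z v u =
            (b k).w j z u v := fun k => be_d a k j z hz u v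
          have e4 := h t ht j z hz.1 u v
          simp only [e2, e3] at e1
          linarith)
      exact ⟨g, fun _ => hg⟩
    · exact ⟨0, fun h => absurd h ht⟩
  choose G hG using h3
  -- projected potentials
  set Γ : X → P → X → ℝ := fun a t x => pr O (fun t => G a t x) t with hΓ
  have hΓd : ∀ a a' j, ContDiffOn ℝ ∞ (fun p : P × V =>
      Γ a' p.1 ((C.e j).symm p.2) - Γ a p.1 ((C.e j).symm p.2)) (O ×ˢ sh C j (U a ∩ U a')) ∧
      ∀ t ∈ O, ∀ z ∈ sh C j (U a ∩ U a'), HasFDerivAt (fun y =>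
        Γ a' t ((C.e j).symm y) - Γ a t ((C.e j).symm y))
        ((th a' t j z - th a t j z) - ∑ k, pr O (c k) t • (be a' k j z - be a k j z)) z := by
    intro a a' j
    have hSo : IsOpen (sh C j (U a ∩ U a')) := isOpen_sh j ((hUo a).inter (hUo a'))
    have hSa : sh C j (U a ∩ U a') ⊆ sh C j (U a) := fun z hz => ⟨hz.1, hz.2.1⟩
    have hSa' : sh C j (U a ∩ U a') ⊆ sh C j (U a') := fun z hz => ⟨hz.1, hz.2.2⟩
    have e0 := par0 (κ := κ) hO hSo
      (h := fun t z => G a' t ((C.e j).symm z) - G a t ((C.e j).symm z))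
      (ψ := fun t z => th a' t j z - th a t j z) (φ := fun k z => be a' k j z - be a k j z)
      (c := c)
      (((th_sm a' j).mono (prod_mono le_rfl hSa')).sub ((th_sm a j).mono (prod_mono le_rfl hSa)))
      (fun k => ((be_sm a' k j).mono hSa').sub ((be_sm a k j).mono hSa))
      (fun t ht z hz u v => by
        have e1 : HasFDerivAt (fun z => th a' t j z - th a t j z)
            (fderiv ℝ (th a' t j) z - fderiv ℝ (th a t j) z) z :=
          (th_da a' t j z ht (hSa' hz)).hasFDerivAt.sub (th_da a t j z ht (hSa hz)).hasFDerivAt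
        rw [e1.fderiv]
        have e2 := th_d a t ht j z (hSa hz) u v
        have e3 := th_d a' t ht j z (hSa' hz) u v
        simp only [sub_apply]
        linarith)
      (fun k z hz u v => by
        have e1 : HasFDerivAt (fun z => be a' k j z - be a k j z)
            (fderiv ℝ (be a' k j) z - fderiv ℝ (be a k j) z) z :=
          (be_da a' k j z (hSa' hz)).hasFDerivAt.sub (be_da a k j z (hSa hz)).hasFDerivAt
        rw [e1.fderiv]
        have e2 := be_d a k j z (hSa hz) u v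
        have e3 := be_d a' k j z (hSa' hz) u v
        simp only [sub_apply]
        linarith)
      (fun t ht z hz => by
        have e1 := (hG a' t ht j z (hSa' hz)).sub (hG a t ht j z (hSa hz))
        refine e1.congr_fderiv ?_
        simp only [smul_sub, Finset.sum_sub_distrib]
        abel)
    have e1 : ∀ y : X, pr O (fun t => G a' t y - G a t y) = pr O (fun t => G a' t y) -
        pr O (fun t => G a t y) := by
      intro y
      rw [← map_sub]
      rfl
    simp only [e1, Pi.sub_apply] at e0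
    exact e0
  -- corrected potentials
  set gh : X → P → X → ℝ := fun a t x => Γ a t x - ∑ d ∈ s, χ d x * Γ d t x with hgh
  have hgh' : ∀ a t x, gh a t x = ∑ d ∈ s, χ d x * (Γ a t x - Γ d t x) := by
    intro a t x
    simp only [hgh, mul_sub, Finset.sum_sub_distrib, ← Finset.sum_mul, hχ1, one_mul]
  have gh_sm : ∀ a j, ContDiffOn ℝ ∞ (fun p : P × V => gh a p.1 ((C.e j).symm p.2))
      (O ×ˢ sh C j (U a)) := by
    intro a j
    have e1 : (fun p : P × V => gh a p.1 ((C.e j).symm p.2)) = fun p => ∑ d ∈ s,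
        χ d ((C.e j).symm p.2) * (Γ a p.1 ((C.e j).symm p.2) - Γ d p.1 ((C.e j).symm p.2)) := by
      funext p
      exact hgh' a p.1 _
    rw [e1]
    refine ContDiffOn.sum fun d _ p hp => ?_
    by_cases hd : (C.e j).symm p.2 ∈ U d
    · have e2 : IsOpen (O ×ˢ sh C j (U d ∩ U a)) :=
        hO.prod (isOpen_sh j ((hUo d).inter (hUo a)))
      have e3 : p ∈ O ×ˢ sh C j (U d ∩ U a) := ⟨hp.1, hp.2.1, hd, hp.2.2⟩
      have e4 : ContDiffOn ℝ ∞ (fun p : P × V => χ d ((C.e j).symm p.2))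
          (O ×ˢ sh C j (U d ∩ U a)) := (hχs d j).comp contDiffOn_snd fun q hq => hq.2.1
      exact ((e4.mul (hΓd d a j).1).contDiffAt (e2.mem_nhds e3)).contDiffWithinAt
    · have e2 : (C.e j).symm p.2 ∉ K d := fun h => hd (hKU d h)
      have e3 : (univ : Set P) ×ˢ sh C j (K d)ᶜ ∈ 𝓝 p :=
        (isOpen_univ.prod (isOpen_sh j (hK d).isOpen_compl)).mem_nhds
          ⟨mem_univ _, hp.2.1, e2⟩
      refine ((contDiffAt_const (c := (0 : ℝ))).congr_of_eventuallyEq ?_).contDiffWithinAt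
      filter_upwards [e3] with q hq
      rw [hχ0 d _ hq.2.2, zero_mul]
  have gh_da : ∀ a t j z, t ∈ O → z ∈ sh C j (U a) →
      ContDiffAt ℝ ∞ (fun y => gh a t ((C.e j).symm y)) z := fun a t j z ht hz =>
    (slice (G := fun t y => gh a t ((C.e j).symm y)) (gh_sm a j) ht).contDiffAt
      (sh_nhds (hUo a) hz)
  -- the final form over `U a`
  set et : X → P → C.ι → V → V →L[ℝ] ℝ := fun a t j z =>
    th a t j z - ∑ k, pr O (c k) t • be a k j z - fderiv ℝ (fun y => gh a t ((C.e j).symm y)) z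
    with het
  have et_eq : ∀ a a' t j z, t ∈ O → (C.e j).symm z ∈ U a → (C.e j).symm z ∈ U a' →
      z ∈ (C.e j).target → et a t j z = et a' t j z := by
    intro a a' t j z ht ha ha' hz
    have e1 := (hΓd a a' j).2 t ht z ⟨hz, ha, ha'⟩
    have e2 := (((gh_da a' t j z ht ⟨hz, ha'⟩).differentiableAt (by simp)).hasFDerivAt).sub
      ((gh_da a t j z ht ⟨hz, ha⟩).differentiableAt (by simp)).hasFDerivAt
    have e3 : (fun y => gh a' t ((C.e j).symm y)) - (fun y => gh a t ((C.e j).symm y)) =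
        fun y => Γ a' t ((C.e j).symm y) - Γ a t ((C.e j).symm y) := by
      funext y
      simp only [hgh, Pi.sub_apply]
      ring
    rw [e3] at e2
    have e4 := e1.unique e2
    simp only [het]
    ext v
    have e5 := congrArg (fun T : V →L[ℝ] ℝ => T v) e4
    simp only [sub_apply, sum_apply, smul_apply, smul_eq_mul, mul_sub,
      Finset.sum_sub_distrib] at e5 ⊢
    linarith
  have et_sm : ∀ a j, ContDiffOn ℝ ∞ (fun p : P × V => et a p.1 j p.2) (O ×ˢ sh C j (U a)) := by
    intro a j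
    refine ((th_sm a j).sub (ContDiffOn.sum fun k _ => ?_)).sub
      (fderiv_snd hO (isOpen_sh j (hUo a)) (G := fun t y => gh a t ((C.e j).symm y)) (gh_sm a j))
    exact ((pr_smooth O (c k)).comp contDiffOn_fst fun p hp => hp.1).smul
      ((be_sm a k j).comp contDiffOn_snd fun p hp => hp.2)
  choose cc hcc using hcov
  have ex_near : ∀ (j : C.ι) (z : V), z ∈ (C.e j).target → ∀ t ∈ O,
      ∀ y ∈ sh C j (U (cc ((C.e j).symm z))), et (cc ((C.e j).symm y)) t j y =
        et (cc ((C.e j).symm z)) t j y := fun j z _ t ht y hy =>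
    et_eq _ _ t j y ht (hcc _) hy.2 hy.1
  have fin_sm : ∀ j, ContDiffOn ℝ ∞ (fun p : P × V => et (cc ((C.e j).symm p.2)) p.1 j p.2)
      (O ×ˢ (C.e j).target) := by
    intro j p hp
    have e1 : O ×ˢ sh C j (U (cc ((C.e j).symm p.2))) ∈ 𝓝 p :=
      (hO.prod (isOpen_sh j (hUo _))).mem_nhds ⟨hp.1, hp.2, hcc _⟩
    refine (((et_sm _ j).contDiffAt e1).congr_of_eventuallyEq ?_).contDiffWithinAt
    filter_upwards [e1] with q hq using ex_near j p.2 hp.2 q.1 hq.1 q.2 hq.2
  have hF : ∀ t, ∃ β : F1 C, t ∈ O → ∀ j z, β.η j z = et (cc ((C.e j).symm z)) t j z := by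
    intro t
    by_cases ht : t ∈ O
    · refine ⟨⟨fun j z => et (cc ((C.e j).symm z)) t j z, fun j =>
        slice (G := fun t z => et (cc ((C.e j).symm z)) t j z) (fin_sm j) ht, ?_⟩,
        fun _ _ _ => rfl⟩
      intro j l z hz v
      have e0 : (C.e l).symm (C.t j l z) = (C.e j).symm z := (C.e l).left_inv hz.2
      rw [e0]
      set a := cc ((C.e j).symm z) with ha
      have hza : (C.e j).symm z ∈ U a := hcc _
      have hzl : C.t j l z ∈ sh C l (U a) := sh_ov hz hza
      have e1 : fderiv ℝ (fun y => gh a t ((C.e j).symm y)) z v =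
          fderiv ℝ (fun y => gh a t ((C.e l).symm y)) (C.t j l z) (fderiv ℝ (C.t j l) z v) := by
        have e2 := (((gh_da a t l _ ht hzl).differentiableAt (by simp)).hasFDerivAt).comp z
          (RCh.t_diff hz).hasFDerivAt
        have e3 : (fun y => gh a t ((C.e j).symm y)) =ᶠ[𝓝 z]
            (fun y => gh a t ((C.e l).symm y)) ∘ C.t j l := by
          filter_upwards [(RCh.isOpen_ov j l).mem_nhds hz] with y hy
          show _ = gh a t ((C.e l).symm (C.e l ((C.e j).symm y)))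
          rw [(C.e l).left_inv hy.2]
        rw [e3.fderiv_eq, e2.fderiv]
        rfl
      simp only [het, sub_apply, sum_apply, smul_apply, smul_eq_mul]
      rw [th_tr a t j l z hz hza v, e1]
      have : ∀ k, be a k j z v = be a k l (C.t j l z) (fderiv ℝ (C.t j l) z v) :=
        fun k => be_tr a k j l z hz hza v
      simp only [this]
    · exact ⟨⟨fun _ _ => 0, fun _ => contDiffOn_const, fun _ _ _ _ _ => by simp⟩,
        fun h => absurd h ht⟩
  choose η' hη' using hF
  refine ⟨η', fun j => (fin_sm j).congr fun p hp => hη' p.1 hp.1 j p.2, fun t ht j z hz u v => ?_⟩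
  set a := cc ((C.e j).symm z) with ha
  have hza : z ∈ sh C j (U a) := ⟨hz, hcc _⟩
  have e1 : (η' t).η j =ᶠ[𝓝 z] et a t j := by
    filter_upwards [sh_nhds (hUo a) hza] with y hy
    rw [hη' t ht j y]
    exact ex_near j z hz t ht y hy
  rw [e1.fderiv_eq]
  have hgs := gh_da a t j z ht hza
  have e2 : DifferentiableAt ℝ (fderiv ℝ (fun y => gh a t ((C.e j).symm y))) z :=
    (hgs.fderiv_right (m := ∞) (by simp)).differentiableAt (by simp)
  have e3 := sub_sum_symm (c := fun k => pr O (c k) t) (th_da a t j z ht hza) e2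
    (fun k => be_da a k j z hza) u v
  have e4 := Crest.Agent.R281.Dif_268.symm2 hgs u v
  have e5 := th_d a t ht j z hza u v
  have e6 : ∀ k, fderiv ℝ (be a k j) z u v - fderiv ℝ (be a k j) z v u =
    (b k).w j z u v := fun k => be_d a k j z hza u v
  simp only [e5, e6] at e3
  have e7 : fderiv ℝ (et a t j) z = fderiv ℝ (fun y => th a t j y -
    ∑ k, pr O (c k) t • be a k j y - fderiv ℝ (fun y => gh a t ((C.e j).symm y)) y) z := rfl
  rw [e7, e3, e4]
  ring

theorem isD_iff {w : F2 C} {b : κ → F2 C} {c : κ → ℝ} {η : F1 C} :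
    IsD (w - ∑ k, c k • b k) η ↔ ∀ i, ∀ z ∈ (C.e i).target, ∀ u v,
      w.w i z u v - ∑ k, c k * (b k).w i z u v =
        fderiv ℝ (η.η i) z u v - fderiv ℝ (η.η i) z v u := by
  have h : ∀ i z u v, (w - ∑ k, c k • b k).w i z u v =
      w.w i z u v - ∑ k, c k * (b k).w i z u v := by
    intro i z u v
    rw [F2.sub_w, F2.sum_w]
    simp [sum_apply]
  unfold IsD
  simp only [h]

/-- **the parametrised basis theorem**: a jointly smooth family of closed forms, each of them
`Σ c_k b_k + exact`, is `Σ c_k(t) b_k + d η_t` with smooth `c_k` and jointly smooth `η` -/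
theorem prim {O : Set P} (hO : IsOpen O) {w : P → F2 C} (hw : JO2 O w) (b : κ → F2 C)
    (hex : ∀ t ∈ O, ∃ c : κ → ℝ, Ex (w t - ∑ k, c k • b k)) :
    ∃ (c : κ → P → ℝ) (η : P → F1 C), (∀ k, ContDiffOn ℝ ∞ (c k) O) ∧ JO1 O η ∧
      ∀ t ∈ O, IsD (w t - ∑ k, c k t • b k) (η t) := by
  classical
  have h1 : ∀ t, ∃ (c : κ → ℝ) (η : F1 C), t ∈ O → IsD (w t - ∑ k, c k • b k) η := by
    intro t
    by_cases ht : t ∈ O
    · obtain ⟨c, η, h⟩ := hex t ht
      exact ⟨c, η, fun _ => h⟩
    · exact ⟨0, ⟨fun _ _ => 0, fun _ => contDiffOn_const, fun _ _ _ _ _ => by simp⟩,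
        fun h => absurd h ht⟩
  choose c η h using h1
  obtain ⟨η', e1, e2⟩ := prim_aux hO hw (b := b) (c := fun k t => c t k) (η := η)
    (fun t ht => isD_iff.1 (h t ht))
  exact ⟨fun k => pr O fun t => c t k, η', fun k => pr_smooth O _, e1,
    fun t ht => isD_iff.2 (e2 t ht)⟩


/-- **families of exact forms have jointly smooth primitives** -/
theorem prim0 {O : Set P} (hO : IsOpen O) {w : P → F2 C} (hw : JO2 O w)
    (hex : ∀ t ∈ O, Ex (w t)) : ∃ η : P → F1 C, JO1 O η ∧ ∀ t ∈ O, IsD (w t) (η t) := by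
  obtain ⟨c, η, -, h1, h2⟩ := prim (κ := Empty) hO hw (fun k => k.elim) fun t ht =>
    ⟨fun k => k.elim, by simpa using hex t ht⟩
  exact ⟨η, h1, fun t ht => by simpa using h2 t ht⟩

end main

end

end Crest.Agent.R281.Prim_377
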