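import Crest.Agent.R273.Sg2_101

-- ▼ part R281/Rk1_599
section

/-!
# R281 (S0424), S6-RANK part 1 (helper599): local analysis

* `factor`   : `F` is constant along the fibres of the submersion `y` at `z` (infinitesimally:
               `ker Dy ⊆ ker DF`), `R` a right inverse of `Dy(z)`.  If `F` vanishes to order `K`
               along the slice `z + range R`, then `F` vanishes to order `K` at `z`.
* `isBigO_of_slices`, `slices_of_isBigO` : order of vanishing of an analytic function in terms of its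
               diagonal Taylor coefficients
* `schwarzS` : the Schwarz lemma of order `k` (R273, helper101) with slice hypotheses
-/

set_option autoImplicit false
set_option linter.unusedSectionVars false

open Set Filter Topology Complex Metric Asymptotics
open scoped NNReal ENNReal

namespace Crest.Agent.R281.Rk_599

open Crest.Agent.R275.Geo Crest.Agent.R273.Sg1_101

noncomputable section

section Factor

variable {E G : Type*} [NormedAddCommGroup E] [NormedSpace ℂ E] [CompleteSpace E]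
  [NormedAddCommGroup G] [NormedSpace ℂ G]

theorem factor_aux {y : E → G} {F : E → ℂ} {z : E} (hy : ContDiffAt ℂ 1 y z) (R : G →L[ℂ] E)
    (hR : ∀ t, fderiv ℂ y z (R t) = t) (hF : ∀ᶠ w in 𝓝 z, DifferentiableAt ℂ F w)
    (hker : ∀ᶠ w in 𝓝 z, ∀ v, fderiv ℂ y w v = 0 → fderiv ℂ F w v = 0) :
    ∃ t : E → G, DifferentiableAt ℂ t z ∧ t z = 0 ∧ ∀ᶠ w in 𝓝 z, F w = F (z + R (t w)) := by
  set Y : E →L[ℂ] G := fderiv ℂ y z with hY
  set Ψ : E → E := fun w => w - R (Y (w - z)) + R (y w - y z) with hΨ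
  have hΨz : Ψ z = z := by simp [hΨ]
  have hΨc : ContDiffAt ℂ 1 Ψ z := by
    refine ContDiffAt.add (ContDiffAt.sub contDiffAt_id ?_) ?_
    · exact (R.contDiff.contDiffAt).comp z ((Y.contDiff.contDiffAt).comp z
        (contDiffAt_id.sub contDiffAt_const))
    · exact (R.contDiff.contDiffAt).comp z (hy.sub contDiffAt_const)
  have hdΨ : ∀ w, DifferentiableAt ℂ y w →
      HasFDerivAt Ψ (ContinuousLinearMap.id ℂ E - R.comp Y + R.comp (fderiv ℂ y w)) w := by
    intro w hw
    have h1 : HasFDerivAt (fun w => R (Y (w - z))) (R.comp Y) w := by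
      have h2 := (R.comp Y).hasFDerivAt.comp w ((hasFDerivAt_id w).sub_const z)
      rw [ContinuousLinearMap.comp_id] at h2
      exact h2
    have h3 : HasFDerivAt (fun w => R (y w - y z)) (R.comp (fderiv ℂ y w)) w :=
      R.hasFDerivAt.comp w (hw.hasFDerivAt.sub_const (y z))
    exact ((hasFDerivAt_id w).sub h1).add h3
  have hΨ' : HasFDerivAt Ψ ((ContinuousLinearEquiv.refl ℂ E : E ≃L[ℂ] E) : E →L[ℂ] E) z := by
    have h1 := hdΨ z (hy.differentiableAt one_ne_zero)
    rw [← hY, sub_add_cancel] at h1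
    exact h1
  set g : E → E := hΨc.localInverse hΨ' one_ne_zero with hg
  have hgc : ContDiffAt ℂ 1 g z := by
    have h1 := hΨc.to_localInverse hΨ' one_ne_zero
    rwa [hΨz] at h1
  set Φ := hΨc.toOpenPartialHomeomorph Ψ hΨ' one_ne_zero with hΦ
  have hzs : z ∈ Φ.source := hΨc.mem_toOpenPartialHomeomorph_source hΨ' one_ne_zero
  have hzt : z ∈ Φ.target := by
    have h1 := hΨc.image_mem_toOpenPartialHomeomorph_target hΨ' one_ne_zero
    rwa [hΨz] at h1
  have hΦc : ∀ w, Φ w = Ψ w := fun w => rfl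
  have hgΦ : ∀ p, g p = Φ.symm p := fun p => rfl
  have hgz : g z = z := by
    rw [hgΦ]
    have h1 := Φ.left_inv hzs
    rwa [hΦc, hΨz] at h1
  have hgt : Tendsto g (𝓝 z) (𝓝 z) := by
    have h1 := hgc.continuousAt.tendsto
    rwa [hgz] at h1
  have hyd : ∀ᶠ w in 𝓝 z, DifferentiableAt ℂ y w := by
    filter_upwards [hy.eventually (by simp)] with w hw
    exact hw.differentiableAt one_ne_zero
  have hgd : ∀ᶠ p in 𝓝 z, DifferentiableAt ℂ g p := by
    filter_upwards [hgc.eventually (by simp)] with w hw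
    exact hw.differentiableAt one_ne_zero
  have hev : ∀ᶠ p in 𝓝 z, p ∈ Φ.target ∧ DifferentiableAt ℂ g p ∧ DifferentiableAt ℂ y (g p) ∧
      DifferentiableAt ℂ F (g p) ∧ ∀ v, fderiv ℂ y (g p) v = 0 → fderiv ℂ F (g p) v = 0 := by
    filter_upwards [Φ.open_target.mem_nhds hzt, hgd, hgt.eventually hyd, hgt.eventually hF,
      hgt.eventually hker] with p h1 h2 h3 h4 h5
    exact ⟨h1, h2, h3, h4, h5⟩
  obtain ⟨ε, hε, hball⟩ := Metric.eventually_nhds_iff_ball.1 hev
  -- the derivative of `F ∘ g` vanishes along `ker Y`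
  have hder : ∀ p ∈ ball z ε, ∀ u, Y u = 0 → fderiv ℂ (fun p => F (g p)) p u = 0 := by
    intro p hp u hu
    obtain ⟨h1, h2, h3, h4, h5⟩ := hball p hp
    have h6 : fderiv ℂ (fun p => F (g p)) p = (fderiv ℂ F (g p)).comp (fderiv ℂ g p) :=
      fderiv_comp p h4 h2
    rw [h6, ContinuousLinearMap.comp_apply]
    apply h5
    have h7 : HasFDerivAt (fun p => Ψ (g p)) ((ContinuousLinearMap.id ℂ E - R.comp Y +
      R.comp (fderiv ℂ y (g p))).comp (fderiv ℂ g p)) p := (hdΨ _ h3).comp p h2.hasFDerivAt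
    have h8 : (fun p => Ψ (g p)) =ᶠ[𝓝 p] fun p => p := by
      filter_upwards [Φ.open_target.mem_nhds h1] with q hq
      rw [← hΦc, hgΦ]
      exact Φ.right_inv hq
    have h9 : HasFDerivAt (fun p : E => p) ((ContinuousLinearMap.id ℂ E - R.comp Y +
      R.comp (fderiv ℂ y (g p))).comp (fderiv ℂ g p)) p := h7.congr_of_eventuallyEq h8.symm
    have h10 := h9.unique (hasFDerivAt_id p)
    have h11 := congrArg (fun T : E →L[ℂ] E => Y (T u)) h10
    simp only [ContinuousLinearMap.comp_apply, add_apply,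
      sub_apply, ContinuousLinearMap.id_apply, map_add, map_sub, hR,
      hu] at h11
    simpa [hR] using h11
  -- constancy along segments
  have hconst : ∀ p p', p ∈ ball z ε → p' ∈ ball z ε → Y (p - p') = 0 → F (g p) = F (g p') := by
    intro p p' hp hp' hu
    have hseg : ∀ s ∈ Icc (0 : ℝ) 1, p' + s • (p - p') ∈ ball z ε := fun s hs =>
      (convex_ball z ε).add_smul_sub_mem hp' hp hs
    have h1 : ∀ s ∈ Icc (0 : ℝ) 1, HasDerivWithinAt (fun s : ℝ => F (g (p' + s • (p - p')))) 0
        (Icc (0 : ℝ) 1) s := by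
      intro s hs
      obtain ⟨-, h2, -, h4, -⟩ := hball _ (hseg s hs)
      have hdF : HasFDerivAt (fun p => F (g p)) (fderiv ℂ (fun p => F (g p)) (p' + s • (p - p')))
          (p' + s • (p - p')) :=
        (DifferentiableAt.comp (g := F) (f := g) _ h4 h2).hasFDerivAt
      have h5 : HasDerivAt (fun s : ℝ => p' + s • (p - p')) (p - p') s := by
        have := ((hasDerivAt_id s).smul_const (p - p')).const_add p'
        simpa using this
      have h6 := (hdF.restrictScalars ℝ).comp_hasDerivAt s h5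
      have h7 : (fderiv ℂ (fun p => F (g p)) (p' + s • (p - p'))) (p - p') = 0 :=
        hder _ (hseg s hs) _ hu
      simp only [ContinuousLinearMap.coe_restrictScalars'] at h6
      rw [h7] at h6
      exact h6.hasDerivWithinAt
    have h2 := (convex_Icc (0 : ℝ) 1).norm_image_sub_le_of_norm_hasDerivWithin_le (C := 0) h1
      (fun s _ => by simp) (left_mem_Icc.2 zero_le_one) (right_mem_Icc.2 zero_le_one)
    simp only [one_smul, zero_smul, add_zero, zero_mul] at h2
    have h3 := sub_eq_zero.1 (norm_le_zero_iff.1 h2)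
    rw [add_sub_cancel] at h3
    exact h3
  refine ⟨fun w => Y (g (z + R (y w - y z)) - z), ?_, ?_, ?_⟩
  · have h1 : DifferentiableAt ℂ (fun w => z + R (y w - y z)) z := by
      have := (R.differentiableAt).comp z ((hy.differentiableAt one_ne_zero).sub_const (y z))
      exact this.const_add z
    have h2 : DifferentiableAt ℂ g (z + R (y z - y z)) := by
      rw [sub_self, map_zero, add_zero]
      exact hgc.differentiableAt one_ne_zero
    have h3 : DifferentiableAt ℂ (fun w => g (z + R (y w - y z))) z := h2.comp z h1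
    exact Y.differentiableAt.comp z (h3.sub_const z)
  · simp [hgz]
  · have hΨt : Tendsto Ψ (𝓝 z) (𝓝 z) := by
      have := hΨc.continuousAt.tendsto
      rwa [hΨz] at this
    have ht : Tendsto (fun w => z + R (y w - y z)) (𝓝 z) (𝓝 z) := by
      have h1 : ContinuousAt (fun w => z + R (y w - y z)) z :=
        continuousAt_const.add (R.continuous.continuousAt.comp
          (hy.continuousAt.sub continuousAt_const))
      have := h1.tendsto
      simpa using this
    filter_upwards [Φ.open_source.mem_nhds hzs, hΨt.eventually (ball_mem_nhds z hε),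
      ht.eventually (ball_mem_nhds z hε)] with w hw h1 h2
    have h3 : g (Ψ w) = w := by
      rw [hgΦ, ← hΦc]
      exact Φ.left_inv hw
    have h4 : Y (Ψ w - (z + R (y w - y z))) = 0 := by
      have : Ψ w - (z + R (y w - y z)) = (w - z) - R (Y (w - z)) := by
        simp only [hΨ]; abel
      rw [this, map_sub, hR, sub_self]
    have h5 := hconst _ _ h1 h2 h4
    rw [h3] at h5
    rw [h5]
    -- `g p'` lies in the slice
    obtain ⟨h6, -⟩ := hball _ h2
    have h7 : Ψ (g (z + R (y w - y z))) = z + R (y w - y z) := by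
      rw [← hΦc, hgΦ]
      exact Φ.right_inv h6
    set w' := g (z + R (y w - y z)) with hw'
    have h8 : w' - z = R (Y (w' - z) - (y w' - y z) + (y w - y z)) := by
      simp only [hΨ] at h7
      rw [map_add, map_sub]
      have : w' = z + R (y w - y z) + R (Y (w' - z)) - R (y w' - y z) := by
        rw [← h7]; abel
      calc w' - z = (z + R (y w - y z) + R (Y (w' - z)) - R (y w' - y z)) - z := by rw [← this]
        _ = _ := by abel
    have h9 : R (Y (w' - z)) = w' - z := by
      conv_lhs => rw [h8]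
      rw [hR, ← h8]
    rw [h9, add_sub_cancel]

theorem factor {y : E → G} {F : E → ℂ} {z : E} (hy : ContDiffAt ℂ 1 y z) (R : G →L[ℂ] E)
    (hR : ∀ t, fderiv ℂ y z (R t) = t) (hF : ∀ᶠ w in 𝓝 z, DifferentiableAt ℂ F w)
    (hker : ∀ᶠ w in 𝓝 z, ∀ v, fderiv ℂ y w v = 0 → fderiv ℂ F w v = 0) {K : ℕ}
    (hO : (fun t => F (z + R t)) =O[𝓝 0] fun t => ‖t‖ ^ K) :
    F =O[𝓝 z] fun w => ‖w - z‖ ^ K := by
  obtain ⟨t, ht, ht0, hev⟩ := factor_aux hy R hR hF hker
  have h1 : Tendsto t (𝓝 z) (𝓝 0) := by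
    have := ht.continuousAt.tendsto
    rwa [ht0] at this
  have h2 := hO.comp_tendsto h1
  have h3 : (fun w => ‖t w‖ ^ K) =O[𝓝 z] fun w => ‖w - z‖ ^ K := by
    have h4 := ht.isBigO_sub
    simp only [ht0, sub_zero] at h4
    exact (h4.norm_left.norm_right).pow K
  refine (h2.trans h3).congr' ?_ EventuallyEq.rfl
  filter_upwards [hev] with w hw
  exact hw.symm

end Factor

section Orders

variable {E : Type*} [NormedAddCommGroup E] [NormedSpace ℂ E]

theorem coeff_eq {f : E → ℂ} {z : E} {p : FormalMultilinearSeries ℂ E ℂ}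
    (hp : HasFPowerSeriesAt f p z) (j : ℕ) (v : E) :
    iteratedFDeriv ℂ j f z (fun _ => v) = (j.factorial : ℂ) * p j (fun _ => v) := by
  obtain ⟨r, hr⟩ := hp
  have h2 := hr.factorial_smul v j
  rw [← h2, nsmul_eq_mul]

theorem isBigO_of_slices {f : E → ℂ} {z : E} (hf : AnalyticAt ℂ f z) {K : ℕ}
    (h : ∀ j < K, ∀ v, iteratedFDeriv ℂ j f z (fun _ => v) = 0) :
    f =O[𝓝 z] fun w => ‖w - z‖ ^ K := by
  obtain ⟨p, hp⟩ := hf
  have h1 : ∀ j < K, ∀ v, p j (fun _ => v) = 0 := by
    intro j hj v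
    have h2 := h j hj v
    rw [coeff_eq hp] at h2
    exact (mul_eq_zero.1 h2).resolve_left (Nat.cast_ne_zero.2 (Nat.factorial_ne_zero j))
  have h2 := hp.isBigO_sub_partialSum_pow K
  have h3 : ∀ w, p.partialSum K w = 0 := fun w =>
    Finset.sum_eq_zero fun j hj => h1 j (Finset.mem_range.1 hj) w
  simp only [h3, sub_zero] at h2
  have h4 : Tendsto (fun w => w - z) (𝓝 z) (𝓝 0) := by
    have : ContinuousAt (fun w => w - z) z := by fun_prop
    simpa using this.tendsto
  have h5 := h2.comp_tendsto h4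
  refine h5.congr_left fun w => ?_
  simp

theorem slices_of_isBigO {f : E → ℂ} {z : E} (hf : AnalyticAt ℂ f z) {K : ℕ}
    (h : f =O[𝓝 z] fun w => ‖w - z‖ ^ K) :
    ∀ j < K, ∀ v, iteratedFDeriv ℂ j f z (fun _ => v) = 0 := by
  obtain ⟨p, hp⟩ := hf
  have h4 : Tendsto (fun w : E => z + w) (𝓝 0) (𝓝 z) := by
    have : ContinuousAt (fun w : E => z + w) 0 := by fun_prop
    simpa using this.tendsto
  have h0 : (fun w => f (z + w)) =O[𝓝 0] fun w => ‖w‖ ^ K := by
    have h5 := h.comp_tendsto h4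
    refine h5.congr (fun w => rfl) fun w => ?_
    simp
  have key : ∀ j, j < K → ∀ v, p j (fun _ => v) = 0 := by
    intro j
    induction j using Nat.strong_induction_on with
    | _ j ih =>
      intro hj v
      have h1 := hp.isBigO_sub_partialSum_pow (j + 1)
      have h2 : ∀ w, p.partialSum (j + 1) w = p j (fun _ => w) := by
        intro w
        unfold FormalMultilinearSeries.partialSum
        rw [Finset.sum_range_succ, Finset.sum_eq_zero, zero_add]
        intro i hi
        exact ih i (Finset.mem_range.1 hi) ((Finset.mem_range.1 hi).trans hj) w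
      simp only [h2] at h1
      have h3 : (fun w : E => ‖w‖ ^ K) =O[𝓝 0] fun w => ‖w‖ ^ (j + 1) := by
        refine IsBigO.of_bound 1 ?_
        filter_upwards [ball_mem_nhds (0 : E) one_pos] with w hw
        rw [mem_ball_zero_iff] at hw
        rw [norm_pow, norm_pow, norm_norm, one_mul]
        exact pow_le_pow_of_le_one (norm_nonneg _) hw.le hj
      have h5 : (fun w => p j (fun _ => w)) =O[𝓝 0] fun w : E => ‖w‖ ^ (j + 1) := by
        have h6 := (h0.trans h3).sub h1
        refine h6.congr_left fun w => ?_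
        ring
      exact h5.continuousMultilinearMap_apply_eq_zero v
  intro j hj v
  rw [coeff_eq hp, key j hj v, mul_zero]

end Orders

/-- **Schwarz lemma of order `k`**, slice form -/
theorem schwarzS {n : ℕ} {f : Cn n → ℂ} {U : Set (Cn n)} (hU : IsOpen U)
    (hf : DifferentiableOn ℂ f U) {z : Cn n} {r m : ℝ} (hr : 0 < r) (hsub : closedBall z (2 * r) ⊆ U)
    (hm : ∀ w ∈ closedBall z (2 * r), ‖f w‖ ≤ m) {k : ℕ}
    (hk : ∀ j < k, ∀ v, iteratedFDeriv ℂ j f z (fun _ => v) = 0) {w : Cn n}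
    (hw : w ∈ closedBall z r) : ‖f w‖ ≤ m * (1 / 2) ^ k * 2 := by
  have hzU : z ∈ U := hsub (mem_closedBall_self (by positivity))
  have han : AnalyticAt ℂ f z :=
    Crest.Agent.R266.SCV.analyticOnNhd_of_differentiableOn hU hf z hzU
  have hmem : ∀ ζ ∈ closedBall (0 : ℂ) 2, z + ζ • (w - z) ∈ closedBall z (2 * r) := by
    intro ζ hζ
    rw [mem_closedBall, dist_eq_norm, add_sub_cancel_left, norm_smul]
    rw [mem_closedBall, dist_zero_right] at hζ
    rw [mem_closedBall, dist_eq_norm] at hw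
    gcongr
  have hd : DifferentiableOn ℂ (fun ζ : ℂ => f (z + ζ • (w - z))) (closedBall 0 2) := by
    refine hf.comp (f := fun ζ : ℂ => z + ζ • (w - z)) ?_ fun ζ hζ => hsub (hmem ζ hζ)
    fun_prop
  have h1 := schwarz1 (φ := fun ζ : ℂ => f (z + ζ • (w - z))) (k := k) hd
    (fun ζ hζ => hm _ (hmem ζ hζ)) fun j hj => by
      have h2 : HasFPowerSeriesOnBall (fun ζ : ℂ => f (z + ζ • (w - z)))
          (cauchyPowerSeries (fun ζ : ℂ => f (z + ζ • (w - z))) 0 ((2 : ℝ≥0) : ℝ)) 0
          ((2 : ℝ≥0) : ℝ≥0∞) :=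
        DifferentiableOn.hasFPowerSeriesOnBall (R := 2) (by simpa using hd) (by norm_num)
      exact slice_cps han h2.hasFPowerSeriesAt (hk j hj _)
  simpa using h1

end

end Crest.Agent.R281.Rk_599
end

-- ▼ part R281/Rk2_599

/-!
# R281 (S0424), S6-RANK part 2 (helper599): rank of the ratios of sections

* `rat A s i a`   : the ratio `s_(a+1) / s_0` in the chart `i`
* `Rk A s i x`    : `s_0 x ≠ 0` and the `r` ratios have independent differentials at `x`
* `Rk.chart`      : independent of the chart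
* `Rk.dense`      : on a connected manifold the points of `Rk` are dense
-/

set_option autoImplicit false
set_option linter.unusedSectionVars false

open Set Filter Topology Complex Metric Asymptotics
open scoped NNReal ENNReal

namespace Crest.Agent.R281.Rk_599

open Crest.Agent.R275.Geo Crest.Agent.R275.Core144 Crest.Agent.R273.Sg1_101
open Crest.Agent.R273.Sg2_101

noncomputable section

variable {n : ℕ} {M : Type} [TopologicalSpace M] {A : Atl n M}

/-- a section read in the chart `i` -/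
def rd (A : Atl n M) (i : A.ι) (s : A.ι → M → ℂ) (z : Cn n) : ℂ := s i ((A.e i).symm z)

/-- the ratio `s_(a+1) / s_0` in the chart `i` -/
def rat (A : Atl n M) {r : ℕ} (s : Fin (r + 1) → A.ι → M → ℂ) (i : A.ι) (a : Fin r) (z : Cn n) : ℂ :=
  s a.succ i ((A.e i).symm z) / s 0 i ((A.e i).symm z)

/-- `s_0 x ≠ 0` and the `r` ratios `s_(a+1) / s_0` have independent differentials at `x` -/
def Rk (A : Atl n M) {r : ℕ} (s : Fin (r + 1) → A.ι → M → ℂ) (i : A.ι) (x : M) : Prop :=
  x ∈ (A.e i).source ∧ s 0 i x ≠ 0 ∧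
    LinearIndependent ℂ (fun a : Fin r => fderiv ℂ (rat A s i a) (A.e i x))

theorem differentiableOn_rd {L : LB A} {s : A.ι → M → ℂ} (hs : IsHS L univ s) (i : A.ι) :
    DifferentiableOn ℂ (rd A i s) (A.e i).target := hs_diff hs i

theorem analyticOnNhd_rd {L : LB A} {s : A.ι → M → ℂ} (hs : IsHS L univ s) (i : A.ι) :
    AnalyticOnNhd ℂ (rd A i s) (A.e i).target :=
  Crest.Agent.R266.SCV.analyticOnNhd_of_differentiableOn (A.e i).open_target
    (differentiableOn_rd hs i)

theorem isHS_pow {L : LB A} {s : A.ι → M → ℂ} (hs : IsHS L univ s) (m : ℕ) (hm : 0 < m) :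
    IsHS (L ^ m) univ (s ^ m) := by
  induction m with
  | zero => omega
  | succ m ih =>
    rcases Nat.eq_zero_or_pos m with h | h
    · subst h
      simpa using hs
    · rw [pow_succ, pow_succ]
      exact (ih h).mul hs

/-- the ratios are analytic where `s_0 ≠ 0` -/
theorem analyticAt_rat {L : LB A} {r : ℕ} {s : Fin (r + 1) → A.ι → M → ℂ}
    (hs : ∀ a, IsHS L univ (s a)) {i : A.ι} {x : M} (hx : x ∈ (A.e i).source)
    (h0 : s 0 i x ≠ 0) (a : Fin r) : AnalyticAt ℂ (rat A s i a) (A.e i x) := by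
  refine AnalyticAt.div (analyticOnNhd_rd (hs a.succ) i _ ((A.e i).map_source hx))
    (analyticOnNhd_rd (hs 0) i _ ((A.e i).map_source hx)) ?_
  show s 0 i ((A.e i).symm (A.e i x)) ≠ 0
  rwa [(A.e i).left_inv hx]

/-- the differential of a ratio does not depend on the chart -/
theorem rat_chart {L : LB A} {r : ℕ} {s : Fin (r + 1) → A.ι → M → ℂ}
    (hs : ∀ a, IsHS L univ (s a)) {i j : A.ι} {x : M} (hi : x ∈ (A.e i).source)
    (hj : x ∈ (A.e j).source) (h0 : s 0 i x ≠ 0) (a : Fin r) :
    fderiv ℂ (rat A s i a) (A.e i x) =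
      (fderiv ℂ (rat A s j a) (A.e j x)).comp
        (fderiv ℂ (fun z => A.e j ((A.e i).symm z)) (A.e i x)) := by
  have hj0 : s 0 j x ≠ 0 := fun h => h0 (by rw [(hs 0).tr i j x ⟨hi, hj⟩ (mem_univ _), h, mul_zero])
  have hov : IsOpen {z | z ∈ (A.e i).target ∧ (A.e i).symm z ∈ (A.e j).source} :=
    (A.e i).isOpen_inter_preimage_symm (A.e j).open_source
  have hmem : A.e i x ∈ {z | z ∈ (A.e i).target ∧ (A.e i).symm z ∈ (A.e j).source} :=
    ⟨(A.e i).map_source hi, by rwa [(A.e i).left_inv hi]⟩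
  have hd : DifferentiableAt ℂ (fun z => A.e j ((A.e i).symm z)) (A.e i x) :=
    (A.holo i j).differentiableAt (hov.mem_nhds hmem)
  have hval : A.e j ((A.e i).symm (A.e i x)) = A.e j x := by rw [(A.e i).left_inv hi]
  have hra : DifferentiableAt ℂ (rat A s j a) (A.e j ((A.e i).symm (A.e i x))) := by
    rw [hval]
    exact (analyticAt_rat hs hj hj0 a).differentiableAt
  have heq : rat A s i a =ᶠ[𝓝 (A.e i x)] fun z => rat A s j a (A.e j ((A.e i).symm z)) := by
    filter_upwards [hov.mem_nhds hmem] with z hz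
    have hzi := (A.e i).map_target hz.1
    unfold rat
    rw [(A.e j).left_inv hz.2, (hs a.succ).tr i j _ ⟨hzi, hz.2⟩ (mem_univ _),
      (hs 0).tr i j _ ⟨hzi, hz.2⟩ (mem_univ _), mul_div_mul_left _ _ (L.ne_zero i j _)]
  rw [heq.fderiv_eq]
  have h1 := fderiv_comp (A.e i x) (g := rat A s j a) (f := fun z => A.e j ((A.e i).symm z)) hra hd
  rw [hval] at h1
  exact h1

theorem Rk.chart {L : LB A} {r : ℕ} {s : Fin (r + 1) → A.ι → M → ℂ}
    (hs : ∀ a, IsHS L univ (s a)) {i j : A.ι} {x : M} (h : Rk A s i x)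
    (hj : x ∈ (A.e j).source) : Rk A s j x := by
  obtain ⟨hi, h0, hl⟩ := h
  refine ⟨hj, fun h => h0 (by rw [(hs 0).tr i j x ⟨hi, hj⟩ (mem_univ _), h, mul_zero]), ?_⟩
  set T : (Cn n →L[ℂ] ℂ) →ₗ[ℂ] (Cn n →L[ℂ] ℂ) :=
    { toFun := fun φ => φ.comp (fderiv ℂ (fun z => A.e j ((A.e i).symm z)) (A.e i x))
      map_add' := fun φ ψ => by ext v; simp
      map_smul' := fun c φ => by ext v; simp } with hT
  refine LinearIndependent.of_comp T ?_
  have h1 : (⇑T ∘ fun a : Fin r => fderiv ℂ (rat A s j a) (A.e j x)) =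
      fun a : Fin r => fderiv ℂ (rat A s i a) (A.e i x) := by
    funext a
    exact (rat_chart hs hi hj h0 a).symm
  rw [h1]
  exact hl

/-- a dual family -/
theorem exists_dual {E : Type*} [AddCommGroup E] [Module ℂ E] [TopologicalSpace E] {r : ℕ}
    {φ : Fin r → E →L[ℂ] ℂ} (h : LinearIndependent ℂ φ) :
    ∃ v : Fin r → E, ∀ a b, φ a (v b) = if a = b then 1 else 0 := by
  classical
  have h' : LinearIndependent ℂ (fun a => (φ a : E →ₗ[ℂ] ℂ)) := by
    have h1 := h.map' (ContinuousLinearMap.coeLM ℂ : (E →L[ℂ] ℂ) →ₗ[ℂ] (E →ₗ[ℂ] ℂ))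
      (LinearMap.ker_eq_bot.2 ContinuousLinearMap.coe_injective)
    exact h1
  -- the joint map is onto
  set Φ : E →ₗ[ℂ] (Fin r → ℂ) := LinearMap.pi fun a => (φ a : E →ₗ[ℂ] ℂ) with hΦ
  have hsurj : Function.Surjective Φ := by
    rw [← LinearMap.range_eq_top]
    by_contra hne
    obtain ⟨f, hf0, hf⟩ := Submodule.exists_le_ker_of_lt_top _ (lt_top_iff_ne_top.2 hne)
    have h2 : ∑ a, f (Pi.single a 1) • (φ a : E →ₗ[ℂ] ℂ) = 0 := by
      ext v
      have h3 : f (Φ v) = 0 := hf (LinearMap.mem_range_self Φ v)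
      have h4 : Φ v = ∑ a, (φ a v) • (Pi.single a (1 : ℂ) : Fin r → ℂ) := by
        funext b
        simp [hΦ, Finset.sum_apply, Pi.single_apply]
      rw [h4, map_sum] at h3
      simp only [map_smul, smul_eq_mul] at h3
      simp only [LinearMap.sum_apply, LinearMap.smul_apply, smul_eq_mul, LinearMap.zero_apply,
        ContinuousLinearMap.coe_coe]
      rw [← h3]
      exact Finset.sum_congr rfl fun a _ => mul_comm _ _
    have h5 := Fintype.linearIndependent_iff.1 h' _ h2
    apply hf0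
    refine LinearMap.pi_ext' fun a => ?_
    refine LinearMap.ext_ring ?_
    simpa using h5 a
  choose v hv using fun b => hsurj (Pi.single b (1 : ℂ) : Fin r → ℂ)
  refine ⟨v, fun a b => ?_⟩
  have h7 := congrFun (hv b) a
  simp only [hΦ, LinearMap.pi_apply, ContinuousLinearMap.coe_coe] at h7
  rw [h7, Pi.single_apply]

/-- independence of functionals through a minor -/
theorem linInd_iff_det {E : Type*} [AddCommGroup E] [Module ℂ E] [TopologicalSpace E] {r : ℕ}
    (φ : Fin r → E →L[ℂ] ℂ) : LinearIndependent ℂ φ ↔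
      ∃ v : Fin r → E, (Matrix.of fun a b => φ a (v b)).det ≠ 0 := by
  classical
  constructor
  · intro h
    obtain ⟨v, hv⟩ := exists_dual h
    refine ⟨v, ?_⟩
    have h6 : (Matrix.of fun a b => φ a (v b)) = 1 := by
      ext a b
      rw [Matrix.of_apply, hv, Matrix.one_apply]
    rw [h6, Matrix.det_one]
    exact one_ne_zero
  · rintro ⟨v, hv⟩
    rw [Fintype.linearIndependent_iff]
    intro g hg
    have h1 : Matrix.vecMul g (Matrix.of fun a b => φ a (v b)) = 0 := by
      funext b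
      have h2 := congrArg (fun T : E →L[ℂ] ℂ => T (v b)) hg
      simp only [sum_apply, smul_apply, smul_eq_mul,
        zero_apply] at h2
      simpa [Matrix.vecMul, dotProduct] using h2
    have h3 := Matrix.eq_zero_of_vecMul_eq_zero hv h1
    exact fun a => congrFun h3 a

/-- the minors of the ratios, without denominators -/
def mnr (A : Atl n M) {r : ℕ} (s : Fin (r + 1) → A.ι → M → ℂ) (i : A.ι) (v : Fin r → Cn n)
    (z : Cn n) : ℂ :=
  rd A i (s 0) z * (Matrix.of fun a b : Fin r =>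
    rd A i (s 0) z * fderiv ℂ (rd A i (s a.succ)) z (v b) -
      rd A i (s a.succ) z * fderiv ℂ (rd A i (s 0)) z (v b)).det

theorem analyticOnNhd_mnr {L : LB A} {r : ℕ} {s : Fin (r + 1) → A.ι → M → ℂ}
    (hs : ∀ a, IsHS L univ (s a)) (i : A.ι) (v : Fin r → Cn n) :
    AnalyticOnNhd ℂ (mnr A s i v) (A.e i).target := by
  have h1 := fun a => analyticOnNhd_rd (hs a) i
  have h2 : ∀ a b, AnalyticOnNhd ℂ (fun z => fderiv ℂ (rd A i (s a)) z (v b)) (A.e i).target := by
    intro a b z hz
    exact ((ContinuousLinearMap.apply ℂ ℂ (v b)).analyticAt _).comp ((h1 a).fderiv z hz)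
  unfold mnr
  refine (h1 0).mul ?_
  simp only [Matrix.det_apply]
  refine Finset.analyticOnNhd_fun_sum _ fun σ _ => ?_
  have h3 : AnalyticOnNhd ℂ (fun z => ∏ b, (Matrix.of fun a b : Fin r =>
      rd A i (s 0) z * fderiv ℂ (rd A i (s a.succ)) z (v b) -
      rd A i (s a.succ) z * fderiv ℂ (rd A i (s 0)) z (v b)) (σ b) b) (A.e i).target := by
    refine Finset.analyticOnNhd_fun_prod _ fun b _ => ?_
    exact ((h1 0).mul (h2 _ _)).sub ((h1 _).mul (h2 _ _))
  intro z hz
  have h4 := h3 z hz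
  rcases Int.units_eq_one_or (Equiv.Perm.sign σ) with h | h
  · simpa [h] using h4
  · refine h4.neg.congr (Eventually.of_forall fun z => ?_)
    simp [h]

theorem fderiv_rat {L : LB A} {r : ℕ} {s : Fin (r + 1) → A.ι → M → ℂ}
    (hs : ∀ a, IsHS L univ (s a)) {i : A.ι} {z : Cn n} (hz : z ∈ (A.e i).target)
    (h0 : rd A i (s 0) z ≠ 0) (a : Fin r) (v : Cn n) :
    fderiv ℂ (rat A s i a) z v = ((rd A i (s 0) z) ^ 2)⁻¹ *
      (rd A i (s 0) z * fderiv ℂ (rd A i (s a.succ)) z v -
        rd A i (s a.succ) z * fderiv ℂ (rd A i (s 0)) z v) := by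
  have h1 : HasFDerivAt (rd A i (s a.succ)) (fderiv ℂ (rd A i (s a.succ)) z) z :=
    (analyticOnNhd_rd (hs a.succ) i z hz).differentiableAt.hasFDerivAt
  have h2 : HasFDerivAt (rd A i (s 0)) (fderiv ℂ (rd A i (s 0)) z) z :=
    (analyticOnNhd_rd (hs 0) i z hz).differentiableAt.hasFDerivAt
  have h3 := (h1.mul ((hasDerivAt_inv h0).comp_hasFDerivAt z h2)).fderiv
  have h4 : (rd A i (s a.succ) * (Inv.inv ∘ rd A i (s 0))) = rat A s i a := by
    funext w
    simp only [Pi.mul_apply, Function.comp_apply, rat, rd, div_eq_mul_inv]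
  rw [h4] at h3
  rw [h3]
  simp only [smul_apply, add_apply, smul_eq_mul, Function.comp_apply]
  field_simp
  ring

theorem rk_iff_mnr {L : LB A} {r : ℕ} {s : Fin (r + 1) → A.ι → M → ℂ}
    (hs : ∀ a, IsHS L univ (s a)) {i : A.ι} {x : M} (hx : x ∈ (A.e i).source) :
    Rk A s i x ↔ ∃ v, mnr A s i v (A.e i x) ≠ 0 := by
  have h0 : rd A i (s 0) (A.e i x) = s 0 i x := by unfold rd; rw [(A.e i).left_inv hx]
  have key : s 0 i x ≠ 0 → ∀ v : Fin r → Cn n,
      ((Matrix.of fun a b => fderiv ℂ (rat A s i a) (A.e i x) (v b)).det ≠ 0 ↔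
        mnr A s i v (A.e i x) ≠ 0) := by
    intro hne v
    have h1 : (Matrix.of fun a b => fderiv ℂ (rat A s i a) (A.e i x) (v b)) =
        ((s 0 i x ^ 2)⁻¹) • (Matrix.of fun a b : Fin r =>
          rd A i (s 0) (A.e i x) * fderiv ℂ (rd A i (s a.succ)) (A.e i x) (v b) -
          rd A i (s a.succ) (A.e i x) * fderiv ℂ (rd A i (s 0)) (A.e i x) (v b)) := by
      ext a b
      rw [Matrix.smul_apply, Matrix.of_apply, Matrix.of_apply, smul_eq_mul,
        fderiv_rat hs ((A.e i).map_source hx) (by rwa [h0]) a (v b), h0]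
    unfold mnr
    rw [h1, Matrix.det_smul, h0]
    have h2 : (((s 0 i x) ^ 2)⁻¹) ^ Fintype.card (Fin r) ≠ 0 := pow_ne_zero _ (inv_ne_zero (pow_ne_zero _ hne))
    constructor
    · intro h
      exact mul_ne_zero hne (right_ne_zero_of_mul h)
    · intro h
      exact mul_ne_zero h2 (right_ne_zero_of_mul h)
  constructor
  · rintro ⟨-, hne, hl⟩
    obtain ⟨v, hv⟩ := (linInd_iff_det _).1 hl
    exact ⟨v, (key hne v).1 hv⟩
  · rintro ⟨v, hv⟩
    have hne : s 0 i x ≠ 0 := by
      intro h
      apply hv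
      unfold mnr
      rw [h0, h, zero_mul]
    exact ⟨hx, hne, (linInd_iff_det _).2 ⟨v, (key hne v).2 hv⟩⟩

/-- on a connected manifold the points of `Rk` are dense -/
theorem dense_rk [PreconnectedSpace M] {L : LB A} {r : ℕ} {s : Fin (r + 1) → A.ι → M → ℂ}
    (hs : ∀ a, IsHS L univ (s a)) {i₀ : A.ι} {x₀ : M} (h₀ : Rk A s i₀ x₀) :
    Dense {x | ∃ i, Rk A s i x} := by
  classical
  set Z : Set M := {x | ∃ i, Rk A s i x}ᶜ with hZ
  -- the interior of the bad set is closed
  have hcl : IsClosed (interior Z) := by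
    refine isClosed_of_closure_subset fun x hx => ?_
    obtain ⟨i, hi⟩ := A.cover x
    obtain ⟨ε, hε, hball⟩ := Metric.isOpen_iff.1 (A.e i).open_target _ ((A.e i).map_source hi)
    have hW : IsOpen ((A.e i).source ∩ (A.e i) ⁻¹' ball (A.e i x) ε) :=
      (A.e i).isOpen_inter_preimage isOpen_ball
    obtain ⟨y, ⟨hyi, hyb⟩, hyZ⟩ := mem_closure_iff.1 hx _ hW ⟨hi, mem_ball_self hε⟩
    rw [mem_interior]
    refine ⟨_, ?_, hW, ⟨hi, mem_ball_self hε⟩⟩
    rintro w ⟨hwi, hwb⟩ ⟨j, hj⟩
    obtain ⟨v, hv⟩ := (rk_iff_mnr hs hwi).1 (hj.chart hs hwi)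
    apply hv
    have h1 : mnr A s i v =ᶠ[𝓝 (A.e i y)] 0 := by
      have h2 : Tendsto (A.e i).symm (𝓝 (A.e i y)) (𝓝 y) := by
        have := (A.e i).continuousAt_symm ((A.e i).map_source hyi)
        rw [ContinuousAt, (A.e i).left_inv hyi] at this
        exact this
      filter_upwards [h2.eventually (isOpen_interior.mem_nhds hyZ),
        (A.e i).open_target.mem_nhds ((A.e i).map_source hyi)] with z hz hzt
      by_contra hne
      have h3 : Rk A s i ((A.e i).symm z) := by
        refine (rk_iff_mnr hs ((A.e i).map_target hzt)).2 ⟨v, ?_⟩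
        rwa [(A.e i).right_inv hzt]
      exact (interior_subset hz) ⟨i, h3⟩
    exact ((analyticOnNhd_mnr hs i v).mono hball).eqOn_zero_of_preconnected_of_eventuallyEq_zero
      (convex_ball _ _).isPreconnected hyb h1 hwb
  have hclo : IsClopen (interior Z) := ⟨hcl, isOpen_interior⟩
  rcases isClopen_iff.1 hclo with h | h
  · have h1 : interior Z = ∅ := h
    rw [hZ, interior_compl, compl_empty_iff] at h1
    exact dense_iff_closure_eq.2 h1
  · have h1 : x₀ ∈ interior Z := by rw [h]; exact mem_univ x₀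
    have h2 : x₀ ∈ Z := interior_subset h1
    exact absurd ⟨i₀, h₀⟩ h2

end

end Crest.Agent.R281.Rk_599
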