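import Crest.Agent.R281.PL4_713
import Crest.Agent.R281.OpB6_849
import Crest.Agent.R281.OpD6_569
import Crest.Agent.R281.OpC5_920
import Crest.Agent.R281.OpD7_569
import Crest.Agent.R281.Rkd4_386
import Crest.Agent.R281.Prim3_377
import Mathlib
import Crest.Agent.R281.HkR4_835
import Crest.Agent.R281.Rkd5_386

-- ▼ part R281/PL6_713
section

/-!
# R281 (S0424), PREQ (helper713), part 6: all smooth sections

* `Pot.sx_isS`, `Pot.dbS_sx` : smooth sections of `L : PL (ofAtl A)` are the smooth sections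
  (849's `IsS`) of `P.lb`; `∂bar f = (1/2) exp h · db s`
* `Dic.toB : Sec L →ₗ[ℂ] Crest.Agent.R275.Geo.Sec (BN D.lb)`, injective, range `{u | pqL 0 u = u}`
* `Dic.nab_toB` : `nabL (toB s) = ofQ (dbS ..)`; `nab_toB_zero : nabL (toB s) = 0 ↔ s ∈ L.H0 J`
-/

set_option autoImplicit false
set_option linter.unusedSectionVars false
set_option maxSynthPendingDepth 3

open Set Filter Topology Complex
open scoped ContDiff ComplexConjugate

namespace Crest.Agent.R281.PL_713

open Crest.Agent.R281.HkR_835 Crest.Agent.R281.Ti_846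
open Crest.Agent.R275.Geo Crest.Agent.R275.Core144 Crest.Agent.R273.Defs_333
open Crest.Agent.R273.Kah_333 Crest.Agent.R273.Fock_243 Crest.Agent.R273.LamN127
open Crest.Agent.R273.DMetB_733 Crest.Agent.R281.OpB_849

noncomputable section

variable {X : Type} [TopologicalSpace X] {n : ℕ} {A : Atl n X}

namespace Pot

variable {L : PL (ofAtl A)} (P : Pot L)

theorem sx_isS (s : Sec L) : IsS P.lb (P.sx s) where
  sm i := by
    have h1 : ContDiffOn ℝ ∞ (fun z => s.u i z * exp (P.h i z)) (A.e i).target :=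
      (s.sm i).mul (P.sm i).cexp
    exact h1.congr fun z hz => P.sx_read s hz
  tr i j x hx := P.sx_tr s hx

open Classical in
/-- a smooth section of `P.lb` as a section of `L` -/
def sv (t : A.ι → X → ℂ) (ht : IsS P.lb t) : Sec L where
  u i z := if z ∈ (A.e i).target then t i ((A.e i).symm z) * exp (-P.h i z) else 0
  sm i := by
    have h1 : ContDiffOn ℝ ∞ (fun z => t i ((A.e i).symm z)) (A.e i).target := ht.sm i
    exact (h1.mul (P.sm i).neg.cexp).congr fun z hz => if_pos hz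
  tr i j z hz := by
    have hz1 : z ∈ (A.e i).target := hz.1
    have hz2 : (ofAtl A).t i j z ∈ (A.e j).target := (RCh.t_mem hz).1
    have hx : (A.e i).symm z ∈ (A.e i).source ∩ (A.e j).source := ⟨(A.e i).map_target hz1, hz.2⟩
    rw [if_pos hz1, if_pos hz2, ht.tr i j _ hx, P.lb_g hx, (A.e i).right_inv hz1]
    have e1 : A.e j ((A.e i).symm z) = (ofAtl A).t i j z := rfl
    have e2 : (A.e j).symm ((ofAtl A).t i j z) = (A.e i).symm z := (A.e j).left_inv hz.2
    rw [e1, e2]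
    have h1 : exp (-P.h i z) * exp (P.h i z) = 1 := by
      rw [← Complex.exp_add, neg_add_cancel, Complex.exp_zero]
    linear_combination (L.g i j z * exp (-P.h j ((ofAtl A).t i j z)) *
      t j ((A.e i).symm z)) * h1
  off i z hz := if_neg hz

theorem sv_of {t : A.ι → X → ℂ} (ht : IsS P.lb t) {i : A.ι} {z : Cn n}
    (hz : z ∈ (A.e i).target) : (P.sv t ht).u i z = t i ((A.e i).symm z) * exp (-P.h i z) :=
  if_pos hz

theorem sx_sv {t : A.ι → X → ℂ} (ht : IsS P.lb t) {i : A.ι} {x : X} (hx : x ∈ (A.e i).source) :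
    P.sx (P.sv t ht) i x = t i x := by
  rw [P.sx_of _ hx, P.sv_of ht ((A.e i).map_source hx), (A.e i).left_inv hx, mul_assoc,
      ← Complex.exp_add, neg_add_cancel, Complex.exp_zero, mul_one]

theorem sx_inj {s t : Sec L} (h : ∀ i, ∀ x ∈ (A.e i).source, P.sx s i x = P.sx t i x) : s = t := by
  refine Sec.ext' fun i z hz => ?_
  have h1 := h i _ ((A.e i).map_target hz)
  rw [P.sx_read s hz, P.sx_read t hz] at h1
  exact mul_right_cancel₀ (exp_ne_zero _) h1

theorem sx_add (s t : Sec L) {i : A.ι} {x : X} (hx : x ∈ (A.e i).source) :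
    P.sx (s + t) i x = P.sx s i x + P.sx t i x := by
  rw [P.sx_of _ hx, P.sx_of _ hx, P.sx_of _ hx, Sec.add_u, Pi.add_apply, Pi.add_apply, add_mul]

theorem sx_smul (c : ℂ) (s : Sec L) {i : A.ι} {x : X} (hx : x ∈ (A.e i).source) :
    P.sx (c • s) i x = c * P.sx s i x := by
  rw [P.sx_of _ hx, P.sx_of _ hx, Sec.smul_u, Pi.smul_apply, Pi.smul_apply, smul_eq_mul,
        mul_assoc]

/-- the derivative of a section read in the holomorphic frame -/
theorem dsx (s : Sec L) {i : A.ι} {z : Cn n} (hz : z ∈ (A.e i).target) (v : Cn n) :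
    fderiv ℝ (fun y => P.sx s i ((A.e i).symm y)) z v =
      exp (P.h i z) * (fderiv ℝ (s.u i) z v + s.u i z * fderiv ℝ (P.h i) z v) := by
  have h0 : (fun y => P.sx s i ((A.e i).symm y)) =ᶠ[𝓝 z] fun y => s.u i y * exp (P.h i y) := by
    filter_upwards [(A.e i).open_target.mem_nhds hz] with y hy using P.sx_read s hy
  have h1 : HasFDerivAt (fun y => s.u i y * exp (P.h i y)) _ z :=
    (s.diffAt (L := L) hz).hasFDerivAt.mul (P.diffAt hz).hasFDerivAt.cexp
  rw [h0.fderiv_eq, h1.fderiv]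
  simp only [add_apply, smul_apply, smul_eq_mul]
  ring

/-- `∂bar` of a section read in the holomorphic frame -/
theorem dbar_sx (s : Sec L) {i : A.ι} {z : Cn n} (hz : z ∈ (A.e i).target) (v : Cn n) :
    fderiv ℝ (fun y => P.sx s i ((A.e i).symm y)) z v +
      I * fderiv ℝ (fun y => P.sx s i ((A.e i).symm y)) z (I • v) =
      exp (P.h i z) * s.db (iJ A) i z v := by
  rw [P.dsx s hz, P.dsx s hz]
  have p1 := P.eq i z hz v
  unfold Sec.db Sec.D
  rw [iJ_apply]
  linear_combination (exp (P.h i z) * s.u i z) * p1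

theorem dbS_sx (s : Sec L) {i : A.ι} {x : X} (hx : x ∈ (A.e i).source) (k : Fin n) :
    dbS (P.sx s) i x k =
      (1 / 2) * exp (P.h i (A.e i x)) * s.db (iJ A) i (A.e i x) (EuclideanSpace.single k 1) := by
  have h1 := P.dbar_sx s ((A.e i).map_source hx) (EuclideanSpace.single k 1)
  show A.db i k (P.sx s i) x = _
  unfold Atl.db dbj
  rw [sing_I, smul_eq_mul, smul_eq_mul, h1]
  ring

/-- `∂bar = 0` -/
theorem dbS_zero_iff (s : Sec L) : (∀ i, ∀ x ∈ (A.e i).source, dbS (P.sx s) i x = 0) ↔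
    s ∈ L.H0 (iJ A) := by
  constructor
  · intro h i z hz v
    have hz' : z ∈ (A.e i).target := hz
    refine vec_zero (T := fun v => s.db (iJ A) i z v) ?_ ?_ ?_ ?_ ?_ v
    · simp [Sec.db, Sec.D]
    · intro u v
      simp only [Sec.db, Sec.D, map_add]
      push_cast
      ring
    · intro r u
      simp only [Sec.db, Sec.D, map_smul, smul_eq_mul, Complex.real_smul]
      push_cast
      ring
    · intro v
      simp only [Sec.db, Sec.D, iJ_apply, smul_smul, I_mul_I, neg_one_smul, map_neg]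
      push_cast
      linear_combination (fderiv ℝ (s.u i) z (I • v) +
        I * (L.th i z (I • v) : ℂ) * s.u i z) * I_mul_I
    · intro a
      have h1 := congrFun (h i _ ((A.e i).map_target hz')) a
      rw [P.dbS_sx s ((A.e i).map_target hz'), (A.e i).right_inv hz'] at h1
      have h2 : (1 / 2 : ℂ) * exp (P.h i z) ≠ 0 := mul_ne_zero (by norm_num) (exp_ne_zero _)
      exact (mul_eq_zero.1 h1).resolve_left h2
  · intro h i x hx
    funext k
    rw [P.dbS_sx s hx, h i _ ((A.e i).map_source hx), mul_zero]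
    rfl

/-- sections of `L` as sections of `BN P.lb` -/
def toB : Sec L →ₗ[ℂ] Crest.Agent.R275.Geo.Sec (BN P.lb) where
  toFun s := ofS (P.sx s) (P.sx_isS s)
  map_add' s t := by
    refine sec_ext' fun i x hx => ?_
    have h0 : (ofS (P.sx s) (P.sx_isS s) + ofS (P.sx t) (P.sx_isS t)).1 i x =
      (ofS (P.sx s) (P.sx_isS s)).1 i x + (ofS (P.sx t) (P.sx_isS t)).1 i x := rfl
    rw [h0, ofS_val _ hx, ofS_val _ hx, ofS_val _ hx, P.sx_add s t hx, add_smul]
    rfl
  map_smul' c s := by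
    refine sec_ext' fun i x hx => ?_
    have h0 : (c • ofS (P.sx s) (P.sx_isS s)).1 i x =
      c • (ofS (P.sx s) (P.sx_isS s)).1 i x := rfl
    rw [RingHom.id_apply, h0, ofS_val _ hx, ofS_val _ hx, P.sx_smul c s hx, mul_smul]
    rfl

theorem toB_apply (s : Sec L) : P.toB s = ofS (P.sx s) (P.sx_isS s) := rfl

theorem sOf_toB (s : Sec L) {i : A.ι} {x : X} (hx : x ∈ (A.e i).source) :
    sOf (P.toB s) i x = P.sx s i x := sOf_ofS (P.sx_isS s) hx

theorem toB_inj : Function.Injective P.toB := by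
  intro s t h
  refine P.sx_inj fun i x hx => ?_
  rw [← P.sOf_toB s hx, ← P.sOf_toB t hx, h]

theorem pqL_toB (s : Sec L) : pqL (BN P.lb) 0 (P.toB s) = P.toB s := pqL_ofS (P.sx_isS s)

theorem toB_surj {u : Crest.Agent.R275.Geo.Sec (BN P.lb)} (hu : pqL (BN P.lb) 0 u = u) : ∃ s, P.toB s = u := by
  refine ⟨P.sv (sOf u) (sOf_isS u), ?_⟩
  rw [toB_apply]
  refine Eq.trans ?_ ((ofS_sOf u).trans hu)
  refine sec_ext' fun i x hx => ?_
  rw [ofS_val _ hx, ofS_val _ hx, P.sx_sv _ hx]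

theorem nab_toB (s : Sec L) :
    nabL (BN P.lb) (P.toB s) = ofQ (dbS (P.sx s)) (P.sx_isS s).dbS := nab_ofS (P.sx_isS s)

theorem nab_toB_zero (s : Sec L) : nabL (BN P.lb) (P.toB s) = 0 ↔ s ∈ L.H0 (iJ A) := by
  rw [← P.dbS_zero_iff, nab_toB]
  constructor
  · intro h i x hx
    have h1 := qOf_ofQ (P.sx_isS s).dbS hx
    rw [h] at h1
    exact h1.symm
  · intro h
    refine sec_ext' fun i x hx => ?_
    have h0 : ((0 : Crest.Agent.R275.Geo.Sec (BN P.lb)).1 i x) = 0 := rfl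
    rw [ofQ_val _ hx, h i x hx, h0, e1_zero]
    rfl

end Pot

namespace Dic

variable {V : Type} [NormedAddCommGroup V] [NormedSpace ℝ V] {C : RCh V X}
  {J : C.ι → V → V →L[ℝ] V} {L : PL C} (D : Dic C J L A)

/-- the value of a section in the holomorphic frame -/
def sx (s : Sec L) : A.ι → X → ℂ := D.P.sx (chF D.jc.cmp D.κ D.hκ s)

theorem sx_of (s : Sec L) {a : A.ι} {x : X} (hx : x ∈ (A.e a).source) :
    D.sx s a x = s.u (D.κ a) (C.e (D.κ a) x) * exp (D.P.h a (A.e a x)) := by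
  unfold sx
  rw [D.P.sx_of _ hx, chF_u _ _ _ _ ((A.e a).map_source hx)]
  have : mt C (ofAtl A) (D.κ a) a (A.e a x) = C.e (D.κ a) x := by
    show C.e (D.κ a) ((A.e a).symm (A.e a x)) = _
    rw [(A.e a).left_inv hx]
  rw [this]

theorem sx_isS (s : Sec L) : IsS D.lb (D.sx s) := D.P.sx_isS _

/-- sections of `L` as sections of `BN D.lb` -/
def toB : Sec L →ₗ[ℂ] Crest.Agent.R275.Geo.Sec (BN D.lb) :=
  D.P.toB ∘ₗ (chS D.jc.cmp D.κ D.hκ (L := L)).toLinearMap


theorem toB_inj : Function.Injective D.toB :=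
  D.P.toB_inj.comp (chS D.jc.cmp D.κ D.hκ (L := L)).injective

theorem pqL_toB (s : Sec L) : pqL (BN D.lb) 0 (D.toB s) = D.toB s := pqL_ofS (D.sx_isS s)

theorem toB_surj {u : Crest.Agent.R275.Geo.Sec (BN D.lb)} (hu : pqL (BN D.lb) 0 u = u) : ∃ s, D.toB s = u := by
  obtain ⟨t, ht⟩ := D.P.toB_surj hu
  refine ⟨(chS D.jc.cmp D.κ D.hκ (L := L)).symm t, ?_⟩
  show D.P.toB ((chS D.jc.cmp D.κ D.hκ (L := L)) ((chS D.jc.cmp D.κ D.hκ (L := L)).symm t)) = u
  rw [LinearEquiv.apply_symm_apply]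
  exact ht

theorem nab_toB_zero (s : Sec L) : nabL (BN D.lb) (D.toB s) = 0 ↔ s ∈ L.H0 J := by
  rw [← D.jc.mem_H0 D.κ D.hκ s]
  exact D.P.nab_toB_zero _


end Dic

end

end Crest.Agent.R281.PL_713
end

-- ▼ part R281/OpG1_941
section

/-!
# R281 (S0424), OPEN' (helper941), M7a part 1: moving data read in other charts

`D : Dic C J1 L1 A` (713) is the dictionary at the centre.  A field of endomorphisms `J` on `C` and
line bundles `L` (with the same transition functions) are read in the charts of `A`: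

* `pJ C C' κ J`      : the field `J` read in the charts of `C'`
* `pJ_jc`, `pJ_F11`  : `JC C J A' → JC (ofAtl A) (pJ ..) A'`, type (1,1) of the curvature
* `pJ_sm`, `thc_jsm` : joint smoothness in parameters
* `csec`             : sections of bundles with the same transition functions
-/

set_option autoImplicit false
set_option linter.unusedSectionVars false
set_option maxSynthPendingDepth 3

open Set Filter Topology Complex
open scoped ContDiff ComplexConjugate

namespace Crest.Agent.R281.OpG_941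

open Crest.Agent.R281.HkR_835 Crest.Agent.R281.Ti_846 Crest.Agent.R281.PL_713
open Crest.Agent.R275.Geo

noncomputable section

section pull

variable {V V' X : Type} [NormedAddCommGroup V] [NormedSpace ℝ V] [NormedAddCommGroup V']
  [NormedSpace ℝ V'] [TopologicalSpace X] {C : RCh V X} {C' : RCh V' X} {κ : C'.ι → C.ι}

/-- a field of endomorphisms on `C` read in the charts of `C'` -/
def pJ (C : RCh V X) (C' : RCh V' X) (κ : C'.ι → C.ι) (J : C.ι → V → V →L[ℝ] V) (a : C'.ι)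
    (z : V') : V' →L[ℝ] V' :=
  (fderiv ℝ (mt C' C a (κ a)) (mt C C' (κ a) a z)).comp
    ((J (κ a) (mt C C' (κ a) a z)).comp (fderiv ℝ (mt C C' (κ a) a) z))


/-- the defining property -/
theorem pJ_d (h : Cmp C C') (hκ : Sub C C' κ) (J : C.ι → V → V →L[ℝ] V) {a : C'.ι} {z : V'}
    (hz : z ∈ (C'.e a).target) (v : V') :
    fderiv ℝ (mt C C' (κ a) a) z (pJ C C' κ J a z v) =
      J (κ a) (mt C C' (κ a) a z) (fderiv ℝ (mt C C' (κ a) a) z v) :=
  h.d_d' (hκ.mem hz) _


/-- type (1,1) -/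
theorem pJ_F11 (h : Cmp C C') (hκ : Sub C C' κ) {J : C.ι → V → V →L[ℝ] V} {L : PL C}
    (hF : F11 J L) : F11 (pJ C C' κ J) (L.chg h κ hκ) := by
  intro a z hz u v
  rw [PL.chg_F h κ hκ L hz, PL.chg_F h κ hκ L hz, pJ_d h hκ J hz, pJ_d h hκ J hz]
  exact hF _ _ (Cmp.mt_mem (hκ.mem hz)).1 _ _


variable {E : Type*} [NormedAddCommGroup E] [NormedSpace ℝ E] {O : Set E}

/-- joint smoothness of the pulled back fields -/
theorem pJ_sm (h : Cmp C C') (hκ : Sub C C' κ) {J : E → C.ι → V → V →L[ℝ] V}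
    (hJ : ∀ i, ContDiffOn ℝ ∞ (fun q : E × V => J q.1 i q.2) (O ×ˢ (C.e i).target)) (a : C'.ι) :
    ContDiffOn ℝ ∞ (fun q : E × V' => pJ C C' κ (J q.1) a q.2) (O ×ˢ (C'.e a).target) := by
  have hm : MapsTo (fun q : E × V' => q.2) (O ×ˢ (C'.e a).target) (mov C C' (κ a) a) :=
    fun q hq => hκ.mem hq.2
  have h2 : ContDiffOn ℝ ∞ (fun q : E × V' => q.2) (O ×ˢ (C'.e a).target) :=
    contDiff_snd.contDiffOn
  have hmt : ContDiffOn ℝ ∞ (fun q : E × V' => mt C C' (κ a) a q.2) (O ×ˢ (C'.e a).target) :=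
    (h.s (κ a) a).comp h2 hm
  have hd : ContDiffOn ℝ ∞ (fun q : E × V' => fderiv ℝ (mt C C' (κ a) a) q.2)
      (O ×ˢ (C'.e a).target) :=
    ((h.s (κ a) a).fderiv_of_isOpen (Cmp.isOpen_mov C C' (κ a) a) (m := ∞) (by simp)).comp h2 hm
  have hd' : ContDiffOn ℝ ∞ (fun q : E × V' =>
      fderiv ℝ (mt C' C a (κ a)) (mt C C' (κ a) a q.2)) (O ×ˢ (C'.e a).target) :=
    ((h.s' (κ a) a).fderiv_of_isOpen (Cmp.isOpen_mov C' C a (κ a)) (m := ∞) (by simp)).comp hmt
      fun q hq => Cmp.mt_mem (hm hq)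
  have hJ' : ContDiffOn ℝ ∞ (fun q : E × V' => J q.1 (κ a) (mt C C' (κ a) a q.2))
      (O ×ˢ (C'.e a).target) :=
    (hJ (κ a)).comp (contDiff_fst.contDiffOn.prodMk hmt)
      fun q hq => ⟨hq.1, (Cmp.mt_mem (hm hq)).1⟩
  exact hd'.clm_comp (hJ'.clm_comp hd)

/-- joint smoothness of the connection forms -/
theorem thc_jsm (h : Cmp C C') (hκ : Sub C C' κ) {L : E → PL C}
    (hL : ∀ i, ContDiffOn ℝ ∞ (fun q : E × V => (L q.1).th i q.2) (O ×ˢ (C.e i).target))
    (a : C'.ι) :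
    ContDiffOn ℝ ∞ (fun q : E × V' => ((L q.1).chg h κ hκ).th a q.2)
      (O ×ˢ (C'.e a).target) := by
  have hm : MapsTo (fun q : E × V' => q.2) (O ×ˢ (C'.e a).target) (mov C C' (κ a) a) :=
    fun q hq => hκ.mem hq.2
  have h2 : ContDiffOn ℝ ∞ (fun q : E × V' => q.2) (O ×ˢ (C'.e a).target) :=
    contDiff_snd.contDiffOn
  have hmt : ContDiffOn ℝ ∞ (fun q : E × V' => mt C C' (κ a) a q.2) (O ×ˢ (C'.e a).target) :=
    (h.s (κ a) a).comp h2 hm
  have hd : ContDiffOn ℝ ∞ (fun q : E × V' => fderiv ℝ (mt C C' (κ a) a) q.2)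
      (O ×ˢ (C'.e a).target) :=
    ((h.s (κ a) a).fderiv_of_isOpen (Cmp.isOpen_mov C C' (κ a) a) (m := ∞) (by simp)).comp h2 hm
  have hL' : ContDiffOn ℝ ∞ (fun q : E × V' => (L q.1).th (κ a) (mt C C' (κ a) a q.2))
      (O ×ˢ (C'.e a).target) :=
    (hL (κ a)).comp (contDiff_fst.contDiffOn.prodMk hmt)
      fun q hq => ⟨hq.1, (Cmp.mt_mem (hm hq)).1⟩
  exact hL'.clm_comp hd

end pull

section sec

variable {V X : Type} [NormedAddCommGroup V] [NormedSpace ℝ V] [TopologicalSpace X] {C : RCh V X}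
  {L L' : PL C}

/-- sections depend on the transition functions only -/
def csec (hg : L'.g = L.g) : Sec L' ≃ₗ[ℂ] Sec L where
  toFun s := ⟨s.u, s.sm, fun i j z hz => by rw [s.tr i j z hz, hg], s.off⟩
  invFun s := ⟨s.u, s.sm, fun i j z hz => by rw [s.tr i j z hz, hg], s.off⟩
  map_add' _ _ := rfl
  map_smul' _ _ := rfl
  left_inv _ := rfl
  right_inv _ := rfl

@[simp] theorem csec_u (hg : L'.g = L.g) (s : Sec L') : (csec hg s).u = s.u := rfl
@[simp] theorem csec_symm_u (hg : L'.g = L.g) (s : Sec L) : ((csec hg).symm s).u = s.u := rfl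

end sec

section jc

variable {V X : Type} [NormedAddCommGroup V] [NormedSpace ℝ V] [TopologicalSpace X] {C : RCh V X}
  {n : ℕ} {A A' : Atl n X} {κ : A.ι → C.ι} {J : C.ι → V → V →L[ℝ] V}

/-- the field read in the charts of `A` has the same holomorphic atlases -/
theorem pJ_jc (h : Cmp C (ofAtl A)) (hκ : Sub C (ofAtl A) κ) (hJ : JC C J A') :
    JC (ofAtl A) (pJ C (ofAtl A) κ J) A' where
  cmp := Cmp_trans h.symm hJ.cmp
  lin i a z hz v := by
    -- `z ∈ A'.e a`, `i : A.ι`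
    have hc : Cmp (ofAtl A) (ofAtl A') := Cmp_trans h.symm hJ.cmp
    have hzi : mt (ofAtl A) (ofAtl A') i a z ∈ ((ofAtl A).e i).target := (Cmp.mt_mem hz).1
    have hm := hκ.mem hzi
    have hz2 : z ∈ mov C (ofAtl A') (κ i) a := by
      refine ⟨hz.1, ?_⟩
      exact hκ i hz.2
    refine h.inj hm ?_
    rw [pJ_d h hκ J hzi, dmt_comp h hc hz hz2 (I • v), dmt_comp h hc hz hz2 v,
      mt_comp hz, hJ.lin _ _ _ hz2]

/-- at the centre the field is multiplication by `i` -/
theorem pJ_center (hJ : JC C J A) (hκ : Sub C (ofAtl A) κ) {a : A.ι} {z : Cn n}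
    (hz : z ∈ (A.e a).target) (v : Cn n) : pJ C (ofAtl A) κ J a z v = I • v := by
  refine hJ.cmp.inj (hκ.mem hz) ?_
  rw [pJ_d hJ.cmp hκ J hz, hJ.lin _ _ _ (hκ.mem hz)]

end jc

end

end Crest.Agent.R281.OpG_941
end

-- ▼ part R281/OpG2_941
section

/-!
# R281 (S0424), OPEN' (helper941), M7a part 2: holomorphic sections and the moving operator

* `sol_db`  : `exp h · db_J s = ∑ w_k (E_k f + c_k f)`, `f = s exp h`
* `bel_mem` : `s ∈ L'.H0 J ↔ (bel P ..).D (P.toB (csec hg s)) = 0`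
-/

set_option autoImplicit false
set_option linter.unusedSectionVars false
set_option maxSynthPendingDepth 3

open Set Filter Topology Complex
open scoped ContDiff ComplexConjugate

namespace Crest.Agent.R281.OpG_941

open Crest.Agent.R281.HkR_835 Crest.Agent.R281.Ti_846 Crest.Agent.R281.PL_713
open Crest.Agent.R275.Geo Crest.Agent.R275.Core144 Crest.Agent.R275.EDR890
open Crest.Agent.R281.OpD_569 Crest.Agent.R281.OpC_920
open Crest.Agent.R273.LamN127 (BN)
open Crest.Agent.R281.OpI_450 (SecQ HolB)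

noncomputable section

variable {n : ℕ} {M : Type} [TopologicalSpace M] {A : Atl n M} {L L' : PL (ofAtl A)} (P : Pot L)

theorem toB_SecQ (s : Sec L) : P.toB s ∈ SecQ (BN P.lb) 0 := P.pqL_toB s

theorem toB_i0 (s : Sec L) {i : A.ι} {x : M} (hx : x ∈ (A.e i).source) :
    (P.toB s).1 i x (i0 P.lb) = P.sx s i x := P.sOf_toB s hx

/-- the derivative of a section of `L'` read in the frames of `P.lb` -/
theorem d_read (s : Sec L') {i : A.ι} {z : Cn n} (hz : z ∈ (A.e i).target) (v : Cn n) :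
    fderiv ℝ (fun y => s.u i y * exp (P.h i y)) z v =
      exp (P.h i z) * (fderiv ℝ (s.u i) z v + s.u i z * fderiv ℝ (P.h i) z v) := by
  have h1 : HasFDerivAt (fun y => s.u i y * exp (P.h i y)) _ z :=
    (s.diffAt (L := L') hz).hasFDerivAt.mul (P.diffAt hz).hasFDerivAt.cexp
  rw [h1.fderiv]
  simp only [add_apply, smul_apply, smul_eq_mul]
  ring

theorem sol_db (s : Sec L') {J : A.ι → Cn n → Cn n →L[ℝ] Cn n} {i : A.ι} {z : Cn n}
    (hz : z ∈ (A.e i).target) (hJ : ∀ v, J i z (J i z v) = -v) (hS : IsUnit (Sm (J i z)).det)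
    (v : Cn n) : exp (P.h i z) * s.db J i z v =
      ∑ k, wv (J i z) v k * (Ed (fun y => mu (J i y)) k (fun y => s.u i y * exp (P.h i y)) z +
        Ek (J i z) (tht P L' i z) k * (s.u i z * exp (P.h i z))) := by
  rw [← sol_eq hJ hS (tht P L' i z) (fun y => s.u i y * exp (P.h i y)) v, d_read P s hz,
    d_read P s hz, tht_apply, tht_apply]
  unfold Sec.db Sec.D
  ring

variable {A' : Atl n M} {J : A.ι → Cn n → Cn n →L[ℝ] Cn n}

/-- the expression of `E_k + c_k` in the chart -/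
theorem Ek_read (s : Sec L) {i : A.ι} {x : M} (hx : x ∈ (A.e i).source) (k : Fin n) :
    OpM_693.Ek (muA A J) i k (fun x => (P.toB s).1 i x (i0 P.lb)) x +
      cA P L' J i x k * (P.toB s).1 i x (i0 P.lb) =
    Ed (fun y => mu (J i y)) k (fun y => s.u i y * exp (P.h i y)) (A.e i x) +
      Ek (J i (A.e i x)) (tht P L' i (A.e i x)) k * (s.u i (A.e i x) * exp (P.h i (A.e i x))) := by
  have hz : A.e i x ∈ (A.e i).target := (A.e i).map_source hx
  have hnb := (A.e i).open_target.mem_nhds hz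
  rw [EkM_eq _ _ _ _ hx, toB_i0 P s hx, P.sx_of s hx]
  have e1 : (fun z => (P.toB s).1 i ((A.e i).symm z) (i0 P.lb)) =ᶠ[𝓝 (A.e i x)]
      fun y => s.u i y * exp (P.h i y) := by
    filter_upwards [hnb] with y hy
    rw [toB_i0 P s ((A.e i).map_target hy), P.sx_read s hy]
  have e2 : ∀ f : Cn n → ℂ, Ed (fun z => muA A J i ((A.e i).symm z)) k f (A.e i x) =
      Ed (fun z => mu (J i z)) k f (A.e i x) := by
    intro f
    unfold Ed
    congr 1
    refine Finset.sum_congr rfl fun b _ => ?_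
    have h : muA A J i ((A.e i).symm (A.e i x)) k b = mu (J i (A.e i x)) k b := by
      show mu (J i (A.e i ((A.e i).symm (A.e i x)))) k b = _
      rw [(A.e i).left_inv hx]
    exact congrArg (fun t : ℂ => t • wd (false, b) f (A.e i x)) h
  exact congrArg₂ (· + ·) ((Ed_congr e1).trans (e2 _)) rfl

/-- **holomorphic sections are the sections killed by the Beltrami operator** -/
theorem bel_mem (hJ : JC (ofAtl A) J A') (hN : Near A J) (hg : L'.g = L.g)
    (hF : F11 (C := ofAtl A) J L')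
    (s : Sec L') : s ∈ L'.H0 J ↔ (bel P hJ hN hg hF).D (P.toB (csec hg s)) = 0 := by
  rw [D_zero_iff _ (toB_SecQ P (csec hg s))]
  constructor
  · intro h i x hx k
    have hz : A.e i x ∈ (A.e i).target := (A.e i).map_source hx
    have h1 := Ek_read (L' := L') (J := J) P (csec hg s) hx k
    refine h1.trans ?_
    have h0 : s.db J i (A.e i x) = fun _ => 0 := funext fun v => h i _ hz v
    have h2 : ∀ v, ∑ k, wv (J i (A.e i x)) v k •
        (Ed (fun y => mu (J i y)) k (fun y => s.u i y * exp (P.h i y)) (A.e i x) +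
        Ek (J i (A.e i x)) (tht P L' i (A.e i x)) k *
          (s.u i (A.e i x) * exp (P.h i (A.e i x)))) = 0 := by
      intro v
      have h3 := sol_db P s hz (fun v => hJ.sq hz v) (hN.un i _ hz) v
      rw [h0, mul_zero] at h3
      exact h3.symm
    exact congrFun (wv_inj (hN.un i _ hz) h2) k
  · intro h i z hz v
    have hz' : z ∈ (A.e i).target := hz
    have hx : (A.e i).symm z ∈ (A.e i).source := (A.e i).map_target hz'
    have h3 := sol_db P s hz' (fun v => hJ.sq hz' v) (hN.un i _ hz') v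
    have h4 : ∀ k, Ed (fun y => mu (J i y)) k (fun y => s.u i y * exp (P.h i y)) z +
        Ek (J i z) (tht P L' i z) k * (s.u i z * exp (P.h i z)) = 0 := by
      intro k
      have h5 := h i _ hx k
      have h6 := Ek_read (L' := L') (J := J) P (csec hg s) hx k
      rw [(A.e i).right_inv hz'] at h6
      exact h6.symm.trans h5
    have h7 : exp (P.h i z) * s.db J i z v = 0 := by
      rw [h3]
      exact Finset.sum_eq_zero fun k _ => by rw [h4 k, mul_zero]
    exact (mul_eq_zero.1 h7).resolve_left (exp_ne_zero _)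

end

end Crest.Agent.R281.OpG_941
end

-- ▼ part R281/OpG3_941
section

/-!
# R281 (S0424), OPEN' (helper941), M7a part 3: families on `C`

* `CFam n C E p1`  : a family of structures and bundles on `C`, jointly smooth near `p1`
* `CFam.mf D`      : the family of 569 (`MFam`) on the atlas of a dictionary `D` at `p1`
* `CFam.mem_iff`   : `s ∈ (L q).H0 (J q) ↔ ((F.mf D).bl D.P q).D (D.toB (csec s)) = 0`
-/

set_option autoImplicit false
set_option linter.unusedSectionVars false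
set_option maxSynthPendingDepth 3

open Set Filter Topology Complex
open scoped ContDiff ComplexConjugate

namespace Crest.Agent.R281.OpG_941

open Crest.Agent.R281.HkR_835 Crest.Agent.R281.Ti_846 Crest.Agent.R281.PL_713
open Crest.Agent.R275.Geo Crest.Agent.R275.Core144 Crest.Agent.R275.EDR890
open Crest.Agent.R281.OpD_569 Crest.Agent.R281.OpC_920
open Crest.Agent.R273.LamN127 (BN)
open Crest.Agent.R281.OpI_450 (SecQ HolB)

noncomputable section

section mem

variable {V X : Type} [NormedAddCommGroup V] [NormedSpace ℝ V]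
  [TopologicalSpace X] {C : RCh V X} {n : ℕ} {A A' : Atl n X} {κ : A.ι → C.ι}
  {J : C.ι → V → V →L[ℝ] V}

/-- holomorphic sections read in other charts -/
theorem mem_pJ (h : Cmp C (ofAtl A)) (hκ : Sub C (ofAtl A) κ) (hJ : JC C J A') {L : PL C}
    (s : PL_713.Sec L) :
    chF h κ hκ s ∈ (L.chg h κ hκ).H0 (pJ C (ofAtl A) κ J) ↔ s ∈ L.H0 J := by
  constructor
  · intro hs i z hz v
    obtain ⟨a, ha⟩ := Cmp.exists_mov (C' := C) (ofAtl A) (j := i) hz
    have hz2 : z ∈ C.ov i (κ a) := ⟨hz, hκ a ha.2⟩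
    set y := mt (ofAtl A) C a i z with hy
    have h1 : y ∈ mov C (ofAtl A) i a := Cmp.mt_mem (C := ofAtl A) (C' := C) ha
    have h2 : mt C (ofAtl A) (κ a) a y = C.t i (κ a) z := by
      show C.e (κ a) ((A.e a).symm (A.e a ((C.e i).symm z))) = C.e (κ a) ((C.e i).symm z)
      rw [(A.e a).left_inv ha.2]
    have h5 := hs a y h1.1
    unfold Sec.db at h5 ⊢
    rw [s.D_tr hz2, s.D_tr hz2, hJ.J_tr hz2]
    have h31 : y ∈ mov C (ofAtl A) (κ a) a := hκ.mem h1.1
    have hw' := h.d_d' h31 (fderiv ℝ (C.t i (κ a)) z v)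
    have h6 := h5 (fderiv ℝ (mt (ofAtl A) C a (κ a)) (mt C (ofAtl A) (κ a) a y)
      (fderiv ℝ (C.t i (κ a)) z v))
    rw [chF_D h κ hκ s h1.1, chF_D h κ hκ s h1.1, pJ_d h hκ J h1.1, hw', h2] at h6
    linear_combination L.g i (κ a) z * h6
  · intro hs a z hz v
    unfold Sec.db
    rw [chF_D h κ hκ s hz, chF_D h κ hκ s hz, pJ_d h hκ J hz]
    exact hs (κ a) _ (Cmp.mt_mem (hκ.mem hz)).1 _

end mem

/-! ### the family -/

variable {V X : Type} [NormedAddCommGroup V] [NormedSpace ℝ V]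
  [TopologicalSpace X] {C : RCh V X} {n : ℕ} {E : Type} [NormedAddCommGroup E] [NormedSpace ℝ E]
  {p1 : E}

/-- a family of structures and line bundles on `C`, jointly smooth near `p1` -/
structure CFam (n : ℕ) (C : RCh V X) (E : Type) [NormedAddCommGroup E] [NormedSpace ℝ E]
    (p1 : E) where
  O : Set E
  op : IsOpen O
  mem : p1 ∈ O
  J : E → C.ι → V → V →L[ℝ] V
  L : E → PL C
  Js : ∀ i, ContDiffOn ℝ ∞ (fun y : E × V => J y.1 i y.2) (O ×ˢ (C.e i).target)
  Ls : ∀ i, ContDiffOn ℝ ∞ (fun y : E × V => (L y.1).th i y.2) (O ×ˢ (C.e i).target)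
  g : ∀ q ∈ O, (L q).g = (L p1).g
  jc : ∀ q ∈ O, ∃ A' : Atl n X, JC C (J q) A'
  f11 : ∀ q ∈ O, F11 (J q) (L q)

namespace CFam

variable (F : CFam n C E p1) {A : Atl n X} (D : Dic C (F.J p1) (F.L p1) A)

/-- the family of 569 on the atlas of the dictionary -/
def mf : MFam A ((F.L p1).chg D.jc.cmp D.κ D.hκ) E p1 where
  O := F.O
  op := F.op
  mem := F.mem
  J q := pJ C (ofAtl A) D.κ (F.J q)
  L' q := (F.L q).chg D.jc.cmp D.κ D.hκ
  Js i := pJ_sm D.jc.cmp D.hκ F.Js i
  Ls i := thc_jsm D.jc.cmp D.hκ F.Ls i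
  J1 i z hz v := pJ_center D.jc D.hκ hz v
  L1 _ _ _ := rfl
  g q hq := by
    funext a b z
    exact congrFun (congrFun (congrFun (F.g q hq) (D.κ a)) (D.κ b))
      (mt C (ofAtl A) (D.κ a) a z)
  jc q hq := by
    obtain ⟨A', hA'⟩ := F.jc q hq
    exact ⟨A', pJ_jc D.jc.cmp D.hκ hA'⟩
  f11 q hq := pJ_F11 D.jc.cmp D.hκ (F.f11 q hq)

/-- **holomorphic sections of the member `q`** -/
theorem mem_iff (q : (F.mf D).Good) (s : PL_713.Sec (F.L q.1)) :
    s ∈ (F.L q.1).H0 (F.J q.1) ↔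
      ((F.mf D).bl D.P q).D (D.toB (csec (F.g q.1 q.2.1) s)) = 0 := by
  obtain ⟨A', hA'⟩ := F.jc q.1 q.2.1
  rw [← mem_pJ D.jc.cmp D.hκ hA' s]
  exact bel_mem D.P ((F.mf D).at_spec q) q.2.2 ((F.mf D).g q.1 q.2.1) ((F.mf D).f11 q.1 q.2.1)
    (chF D.jc.cmp D.κ D.hκ s)

end CFam

end

end Crest.Agent.R281.OpG_941
end

-- ▼ part R281/OpD8_569
section

/-!
# Row 281, OPEN' (helper569), part 8: lemma OPEN for a family `MFam`

* `exists_basis_GG` : generating sections which are a basis of the space of holomorphic sections;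
* `open_bel` : **OPEN'** for `MFam`, from the moving tori;
* `open_inj` : maps converging pointwise to an injective one are eventually injective.
-/

set_option autoImplicit false
set_option linter.unusedSectionVars false
set_option linter.unusedSimpArgs false
set_option maxSynthPendingDepth 3

open Set Filter Topology Complex
open scoped ContDiff Matrix ComplexConjugate

namespace Crest.Agent.R281.OpD_569

open Crest.Agent.R275 Crest.Agent.R275.Geo Crest.Agent.R275.EDR890 Crest.Agent.R275.Core144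
open Crest.Agent.R275.FHom556
open Crest.Agent.R281.HkR_835 Crest.Agent.R281.Ti_846 Crest.Agent.R281.PL_713
open Crest.Agent.R281.OpM_693 (Bel)
open Crest.Agent.R273.LamN127 (BN)
open Crest.Agent.R273 Crest.Agent.R273.Defs_333 Crest.Agent.R273.HM_333 Crest.Agent.R273.Kah_333
open Crest.Agent.R273.Vol_333
open Crest.Agent.R273.KRL2_803 Crest.Agent.R273.HodgeH_803 Crest.Agent.R273.Mol_106
open Crest.Agent.R281.OpC_920 Crest.Agent.R281.OpB_849 Crest.Agent.R281.OpI_450
open Crest.Agent.R281.Op3_569 Crest.Agent.R281.OpT_330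

noncomputable section

/-! ### eventually injective -/

/-- a finite dimensional space of functions is separated by finitely many points -/
theorem exists_sep {E Y : Type*} [AddCommGroup E] [Module ℂ E] [FiniteDimensional ℂ E]
    (S0 : E →ₗ[ℂ] Y → ℂ) (h0 : Function.Injective S0) :
    ∃ Z : Finset Y, ∀ v, (∀ y ∈ Z, S0 v y = 0) → v = 0 := by
  classical
  -- the kernels of the restrictions
  have hwf : WellFounded ((· < ·) : Submodule ℂ E → Submodule ℂ E → Prop) :=
    (inferInstance : WellFoundedLT (Submodule ℂ E)).wf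
  let Kr : Finset Y → Submodule ℂ E := fun Z => ⨅ y ∈ Z, LinearMap.ker ((LinearMap.proj y).comp S0)
  have hK : ∀ Z v, v ∈ Kr Z ↔ ∀ y ∈ Z, S0 v y = 0 := by
    intro Z v
    simp [Kr, Submodule.mem_iInf]
  obtain ⟨Z, hZ⟩ : ∃ Z, ∀ Z', ¬ Kr Z' < Kr Z := by
    obtain ⟨m, ⟨Z, rfl⟩, hm⟩ := hwf.has_min (Set.range Kr) ⟨_, ∅, rfl⟩
    exact ⟨Z, fun Z' => hm _ ⟨Z', rfl⟩⟩
  refine ⟨Z, fun v hv => ?_⟩
  by_contra hne
  have h1 : S0 v ≠ 0 := fun h => hne (h0 (by rw [h, map_zero]))
  obtain ⟨y, hy⟩ := Function.ne_iff.1 h1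
  refine hZ (insert y Z) (lt_of_le_of_ne ?_ ?_)
  · intro w hw
    rw [hK] at hw ⊢
    exact fun z hz => hw z (Finset.mem_insert_of_mem hz)
  · intro h
    have h2 : v ∈ Kr (insert y Z) := by rw [h, hK]; exact hv
    rw [hK] at h2
    exact hy (h2 y (Finset.mem_insert_self y Z))

/-- **maps converging pointwise to an injective one are eventually injective** -/
theorem open_inj {I E Y : Type*} [AddCommGroup E] [Module ℂ E] [FiniteDimensional ℂ E]
    {l : Filter I} (S : I → E →ₗ[ℂ] Y → ℂ) (S0 : E →ₗ[ℂ] Y → ℂ) (h0 : Function.Injective S0)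
    (hS : ∀ v y, Tendsto (fun i => S i v y) l (𝓝 (S0 v y))) :
    ∀ᶠ i in l, Function.Injective (S i) := by
  obtain ⟨Z, hZ⟩ := exists_sep S0 h0
  let b := Module.finBasis ℂ E
  set e := b.equivFun with he
  let T : (E →ₗ[ℂ] Y → ℂ) → ((Fin (Module.finrank ℂ E) → ℂ) →L[ℂ] (Z → ℂ)) := fun f =>
    LinearMap.toContinuousLinearMap
      (((LinearMap.funLeft ℂ ℂ (Subtype.val : Z → Y)).comp f).comp e.symm.toLinearMap)
  have hT : ∀ f w z, T f w z = f (e.symm w) z := fun f w z => rfl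
  have hinj : Function.Injective (T S0) := by
    rw [injective_iff_map_eq_zero]
    intro w hw
    have h1 : e.symm w = 0 := hZ _ fun y hy => congrFun hw ⟨y, hy⟩
    simpa using h1
  have hlim : Tendsto (fun i => T (S i)) l (𝓝 (T S0)) := by
    have h1 : ∀ f, T f = ∑ a, (ContinuousLinearMap.proj a :
        (Fin (Module.finrank ℂ E) → ℂ) →L[ℂ] ℂ).smulRight (fun z : Z => f (b a) z) := by
      intro f
      ext1 w
      funext z
      rw [hT]
      have h2 : e.symm w = ∑ a, w a • b a := by rw [he, Module.Basis.equivFun_symm_apply]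
      rw [h2, map_sum]
      simp only [Finset.sum_apply, map_smul, Pi.smul_apply, FunLike.coe_sum,
        ContinuousLinearMap.smulRight_apply, ContinuousLinearMap.proj_apply]
    simp_rw [h1]
    refine tendsto_finsetSum _ fun a _ => ?_
    have h2 : Tendsto (fun i => fun z : Z => S i (b a) z) l (𝓝 fun z : Z => S0 (b a) z) :=
      tendsto_pi_nhds.2 fun z => hS _ _
    have h3 : Continuous fun c : Z → ℂ => (ContinuousLinearMap.proj a :
        (Fin (Module.finrank ℂ E) → ℂ) →L[ℂ] ℂ).smulRight c :=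
      (ContinuousLinearMap.smulRightL ℂ (Fin (Module.finrank ℂ E) → ℂ) (Z → ℂ)
        (ContinuousLinearMap.proj a)).continuous
    exact (h3.tendsto _).comp h2
  have hop := (ContinuousLinearMap.isOpen_injective
    (𝕜 := ℂ) (E := Fin (Module.finrank ℂ E) → ℂ) (F := Z → ℂ)).mem_nhds hinj
  filter_upwards [hlim hop] with i hi v w hvw
  have h1 : T (S i) (e v) = T (S i) (e w) := by
    funext z
    rw [hT, hT, LinearEquiv.symm_apply_apply, LinearEquiv.symm_apply_apply, hvw]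
  exact e.injective (hi h1)

variable {n : ℕ} {M : Type} [TopologicalSpace M] {A : Atl n M}

/-! ### generating sections -/

section gg

variable [T2Space M] [CompactSpace M] [Finite A.ι]

theorem exists_basis_GG {L : LB A} (Pt : Part A)
    (hg : ∀ i, ∀ x ∈ (A.e i).source, ∃ s, IsHS L univ s ∧ s i x ≠ 0) :
    ∃ (N : ℕ) (G : GG L N) (b : Module.Basis (Fin N) ℂ (H0S L)), ∀ a, G.s a = sOf (b a).1 := by
  have hfd : FiniteDimensional ℂ (H0S L) := H0S_fin (L := L) Pt
  have hfree : Module.Free ℂ (H0S L) := Module.Free.of_divisionRing ℂ (H0S L)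
  let b := Module.finBasis ℂ (H0S L)
  refine ⟨_, ⟨fun a => sOf (b a).1, fun a => isHS_of_ker (b a).2.2, fun i x hx => ?_⟩,
    b, fun a => rfl⟩
  by_contra hcon
  push Not at hcon
  obtain ⟨s, hs, hne⟩ := hg i x hx
  apply hne
  have h1 : evH L i x = 0 := b.ext fun a => by
    rw [LinearMap.zero_apply]
    exact hcon a
  have h2 := LinearMap.congr_fun h1 ⟨ofS s (isS_of_isHS hs), ofS_mem hs⟩
  have h3 : sOf (ofS s (isS_of_isHS hs)) i x = 0 := h2
  rwa [sOf_ofS _ hx] at h3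

end gg

variable {L : PL (ofAtl A)} {Q : Type*} [NormedAddCommGroup Q] [NormedSpace ℝ Q] {q1 : Q}

section main

variable [T2Space M] [CompactSpace M] [SimplyConnectedSpace M] [Finite A.ι]

/-- **OPEN'** : holomorphic sections of the central fibre extend to the nearby fibres -/
theorem open_bel (hA : GC293.GoodA A) (Pt : Part A) {K : Kah A}
    (hR : ∀ i, ∀ x ∈ (A.e i).source, cur (volK K) i x = 0) (F : MFam A L Q q1) (P : Pot L)
    (hg : ∀ i, ∀ x ∈ (A.e i).source, ∃ s, IsHS P.lb univ s ∧ s i x ≠ 0)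
    {m : ℕ} {d : Type} [Fintype d] {V : Set M} (hV : IsOpen V) (hne : V.Nonempty)
    (hT : ∀ x ∈ V, ∃ t : MTor d m (𝓝 q1) (F.movD P) x,
      Fib (fun v : HolB (BN P.lb) => sOf v.1) t.F0 ∧
        Ver (fun v : HolB (BN P.lb) => sOf v.1) t.T t.F0) :
    FiniteDimensional ℂ (HolB (BN P.lb)) ∧
    ∃ S : F.Good → HolB (BN P.lb) →ₗ[ℂ] Sec (BN P.lb),
      (∀ᶠ q in comap Subtype.val (𝓝 q1), ∀ v,
        S q v ∈ SecQ (BN P.lb) 0 ∧ (F.bl P q).D (S q v) = 0) ∧
      ∀ v : HolB (BN P.lb), C1T (comap Subtype.val (𝓝 q1)) (fun q => (S q v).1)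
        (v : Sec (BN P.lb)).1 := by
  obtain ⟨N, G, bs, hbs⟩ := exists_basis_GG (L := P.lb) Pt hg
  obtain ⟨T, hT2⟩ := exists_harOp (P := Pt) (K := K) (N := P.lb)
    (h := HKL K (fsL G)) (HKL_semipos K hR (fsL_semipos G))
  refine open_mov (P := Pt) (B := BN P.lb) T (q1 := q1) (L := comap Subtype.val (𝓝 q1))
    (Subtype.val : F.Good → Q) tendsto_comap (fun q => (F.bl P q).D) (fun q => (F.bl P q).R)
    (fun q u => (F.bl P q).D_sub u) (fun q u hu => ?_) (fun q u => (F.bl P q).D_D u)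
    (F.ca P) (F.cb P) (fun q j p x hx => F.ra_eq P q j p x) (fun q j x hx => F.rb_eq P q j x)
    F.W F.open_W (fun j z hz => F.mem_W1 hz) (fun j p k l => F.ca_joint P j p k l)
    (fun j k l => F.cb_joint P j k l) (fun j p x hx => F.ca_q1 P hx p)
    (fun j x hx => F.cb_q1 P hx) ?_ ?_
  · show Geo.pqL (BN P.lb) 1 ((F.bl P q).D u) = (F.bl P q).D u
    have h1 : Geo.pqL (BN P.lb) 0 u = u := hu
    have h2 := (F.bl P q).D_pqL 0 u
    rw [h1] at h2
    exact h2.symm
  · exact Eventually.of_forall fun q v u hu h1 h2 h3 h4 =>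
      H3_of_bel P (F.at_spec q) q.2.2 (F.g q.1 q.2.1) (F.f11 q.1 q.2.1) v u hu h1 h2 h3 h4
  · intro p e u Qj Qs hp he _ hu0 _ hQ1 hu hD hQ hH
    refine hno_bel hA Pt hR F P G bs hbs hV hne hT p e u Qj Qs (tendsto_comap.comp hp) he hu0 hQ1
      hu hD hQ fun v => ?_
    obtain ⟨y, hy⟩ := hH v
    rw [← hy]
    exact hT2 y

/-- evaluation of smooth sections -/
def evS (B : FBun A) : Sec B →ₗ[ℂ] (A.ι × M × B.κ → ℂ) where
  toFun u y := u.1 y.1 y.2.1 y.2.2
  map_add' _ _ := rfl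
  map_smul' _ _ := rfl

theorem evS_inj (B : FBun A) : Function.Injective (evS B) := by
  intro u v h
  apply Subtype.ext
  funext i x k
  exact congrFun h (i, x, k)

/-- **OPEN', the count** : independent holomorphic sections of the central fibre give independent
sections in the kernel of the operators of the nearby fibres -/
theorem open_count (hA : GC293.GoodA A) (Pt : Part A) {K : Kah A}
    (hR : ∀ i, ∀ x ∈ (A.e i).source, cur (volK K) i x = 0) (F : MFam A L Q q1) (P : Pot L)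
    (hg : ∀ i, ∀ x ∈ (A.e i).source, ∃ s, IsHS P.lb univ s ∧ s i x ≠ 0)
    {m : ℕ} {d : Type} [Fintype d] {V : Set M} (hV : IsOpen V) (hne : V.Nonempty)
    (hT : ∀ x ∈ V, ∃ t : MTor d m (𝓝 q1) (F.movD P) x,
      Fib (fun v : HolB (BN P.lb) => sOf v.1) t.F0 ∧
        Ver (fun v : HolB (BN P.lb) => sOf v.1) t.T t.F0)
    {N : ℕ} (f : Fin N → Sec (BN P.lb)) (hf : LinearIndependent ℂ f)
    (hf0 : ∀ k, f k ∈ HolB (BN P.lb)) :
    ∀ᶠ q in 𝓝 q1, ∃ hq : q ∈ F.O ∧ Near A (F.J q), ∃ g : Fin N → Sec (BN P.lb),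
      LinearIndependent ℂ g ∧ ∀ k, g k ∈ SecQ (BN P.lb) 0 ∧ (F.bl P ⟨q, hq⟩).D (g k) = 0 := by
  obtain ⟨hfd, S, hS, hlim⟩ := open_bel hA Pt hR F P hg hV hne hT
  have hinj : ∀ᶠ q in comap (Subtype.val : F.Good → Q) (𝓝 q1),
      Function.Injective ((evS (BN P.lb)).comp (S q)) := by
    refine open_inj (fun q => (evS (BN P.lb)).comp (S q))
      ((evS (BN P.lb)).comp (HolB (BN P.lb)).subtype)
      ((evS_inj _).comp Subtype.val_injective) fun v y => ?_
    obtain ⟨i, x, k⟩ := y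
    show Tendsto (fun q => (S q v).1 i x k) _ (𝓝 (v.1.1 i x k))
    by_cases hx : x ∈ (A.e i).source
    · have hcont : ∀ w : Sec (BN P.lb), ∀ i, ContinuousOn (fun z => w.1 i ((A.e i).symm z))
          (A.e i).target := fun w i => ((C1F.of_sec w).c1 i).continuousOn
      have h1 : CC _ (fun q x => (S q v).1 i x k) (fun x => v.1.1 i x k) x :=
        (hlim v).cc (hcont v.1) i k hx
      exact Filter.Tendsto.comp h1 (tendsto_id.prodMk tendsto_const_nhds)
    · have h0 : ∀ w : Sec (BN P.lb), w.1 i x k = 0 := fun w =>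
        congrFun (w.2.2.1 i x hx) k
      rw [h0]
      simp only [h0]
      exact tendsto_const_nhds
  have h1 := hinj.and hS
  have h1' := Filter.eventually_comap.1 h1
  filter_upwards [h1', F.ev_near] with q h2 hq
  obtain ⟨h3, h4⟩ := h2 ⟨q, hq⟩ rfl
  refine ⟨hq, fun k => S ⟨q, hq⟩ ⟨f k, hf0 k⟩, ?_, fun k => h4 _⟩
  have h5 : LinearIndependent ℂ fun k => (⟨f k, hf0 k⟩ : HolB (BN P.lb)) := by
    apply LinearIndependent.of_comp (HolB (BN P.lb)).subtype
    exact hf
  have h6 : Function.Injective (S ⟨q, hq⟩) := Function.Injective.of_comp (f := evS (BN P.lb)) h3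
  exact h5.map' _ (LinearMap.ker_eq_bot.2 h6)

end main

end

end Crest.Agent.R281.OpD_569
end

-- ▼ part R281/OpG4_941
section

/-!
# R281 (S0424), OPEN' (helper941), part 4: the counting argument for a family on `C`

`CFam.count` : the moving tori at `p1`, global generation at `p1` and `HasN` at `p1` give `HasN`
for all parameters near `p1` (569's `open_count`).
-/

set_option autoImplicit false
set_option linter.unusedSectionVars false
set_option maxSynthPendingDepth 3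

open Set Filter Topology Complex
open scoped ContDiff ComplexConjugate

namespace Crest.Agent.R281.OpG_941

open Crest.Agent.R281.HkR_835 Crest.Agent.R281.Ti_846 Crest.Agent.R281.PL_713
open Crest.Agent.R275.Geo Crest.Agent.R275.Core144 Crest.Agent.R275.EDR890
open Crest.Agent.R281.OpD_569 Crest.Agent.R281.OpC_920 Crest.Agent.R281.OpB_849
open Crest.Agent.R273 Crest.Agent.R273.Defs_333 Crest.Agent.R273.HM_333 Crest.Agent.R273.Kah_333
open Crest.Agent.R273.Vol_333
open Crest.Agent.R273.LamN127 (BN)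
open Crest.Agent.R281.OpI_450 (SecQ HolB)
open Crest.Agent.R281.OpT_330

noncomputable section

variable {V X : Type} [NormedAddCommGroup V] [NormedSpace ℝ V]
  [TopologicalSpace X] {C : RCh V X} {n : ℕ} {E : Type} [NormedAddCommGroup E] [NormedSpace ℝ E]
  {p1 : E}

namespace CFam

variable (F : CFam n C E p1) {A : Atl n X} (D : Dic C (F.J p1) (F.L p1) A)

/-- the family of moving tori through the points of a non-empty open set, in fibres -/
def Tori : Prop :=
  ∃ (m : ℕ) (d : Type) (_ : Fintype d) (V : Set X), IsOpen V ∧ V.Nonempty ∧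
    ∀ x ∈ V, ∃ t : MTor d m (𝓝 p1) ((F.mf D).movD D.P) x,
      Fib (fun v : HolB (BN D.P.lb) => sOf v.1) t.F0 ∧
        Ver (fun v : HolB (BN D.P.lb) => sOf v.1) t.T t.F0

theorem count [T2Space X] [CompactSpace X] [SimplyConnectedSpace X] [Finite A.ι]
    (hA : Crest.Agent.R275.GC293.GoodA A) (Pt : Part A) {K : Kah A}
    (hR : ∀ i, ∀ x ∈ (A.e i).source, cur (volK K) i x = 0)
    (hg : ∀ i, ∀ x ∈ (A.e i).source, ∃ s, IsHS D.P.lb univ s ∧ s i x ≠ 0)
    (hT : F.Tori D) {N : ℕ} (hN : (F.L p1).HasN (F.J p1) N) :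
    ∀ᶠ q in 𝓝 p1, (F.L q).HasN (F.J q) N := by
  obtain ⟨m, d, _, U, hU, hne, hT⟩ := hT
  obtain ⟨f, hf, hf0⟩ := hN
  have h1 : LinearIndependent ℂ fun k => D.toB (f k) := hf.map' _ (LinearMap.ker_eq_bot.2 D.toB_inj)
  have h2 : ∀ k, D.toB (f k) ∈ HolB (BN D.P.lb) := fun k =>
    ⟨D.pqL_toB (f k), (D.nab_toB_zero (f k)).2 (hf0 k)⟩
  filter_upwards [open_count hA Pt hR (F.mf D) D.P hg hU hne hT (fun k => D.toB (f k)) h1 h2]
    with q hq
  obtain ⟨hq, g, hg1, hg2⟩ := hq
  choose s hs using fun k => D.toB_surj (hg2 k).1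
  set S : Fin N → PL_713.Sec (F.L q) := fun k => (csec (F.g q hq.1)).symm (s k) with hS
  have h3 : ∀ k, D.toB (csec (F.g q hq.1) (S k)) = g k := fun k => by
    rw [hS]
    show D.toB (csec (F.g q hq.1) ((csec (F.g q hq.1)).symm (s k))) = _
    rw [LinearEquiv.apply_symm_apply, hs]
  refine ⟨S, ?_, fun k => ?_⟩
  · have h4 : LinearIndependent ℂ
        (fun k => (D.toB ∘ₗ (csec (F.g q hq.1)).toLinearMap) (S k)) := by
      have : (fun k => (D.toB ∘ₗ (csec (F.g q hq.1)).toLinearMap) (S k)) = g := funext h3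
      rw [this]
      exact hg1
    exact LinearIndependent.of_comp _ h4
  · refine (F.mem_iff D ⟨q, hq⟩ (S k)).2 ?_
    rw [h3]
    exact (hg2 k).2

end CFam

end

end Crest.Agent.R281.OpG_941
end

-- ▼ part R281/OpP1_396
section

/-!
# Row 281, OPEN' (helper396): the (1,1)-connections of the members of the box

* `exists_aq` : over the box `B × D` there is a jointly smooth family `a q` of 1-forms such that the
  connection `L0.add (a q)` has curvature of type (1,1) for `J 0` of `B.H q.1 q.2`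
  (fields `rep`, `lnk`, and the parametrised primitives `prim0` of 377).
-/

set_option autoImplicit false
set_option linter.unusedSectionVars false
set_option maxSynthPendingDepth 3

open Set Filter Topology
open scoped ContDiff

namespace Crest.Agent.R281.OpP_396

open Crest.Agent.R275.Geo Crest.Agent.R275.Core144 Crest.Agent.R275.GC293
open Crest.Agent.R281.HkR_835 Crest.Agent.R281.Ti_846 Crest.Agent.R281.NefO_476
open Crest.Agent.R281.Nef_252 Crest.Agent.R281.PL_713 Crest.Agent.R281.Dif_268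
open Crest.Agent.R281.Alg_998 Crest.Agent.R281.RkD_902 Crest.Agent.R281.Cdr_234
open Crest.Agent.R281.Prim_377 (JO1 JO2 prim0)
open Crest.Agent.R281.Bx_557 (SmF)

noncomputable section

section gen

variable {V X : Type} [NormedAddCommGroup V] [NormedSpace ℝ V] [FiniteDimensional ℝ V]
  [TopologicalSpace X] [CompactSpace X] [T2Space X] {C : RCh V X}
  {P : Type} [NormedAddCommGroup P] [NormedSpace ℝ P] [FiniteDimensional ℝ P]

/-- a jointly smooth family of closed forms in the class `e` is, up to the factor `r`, the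
curvature of a jointly smooth family of connections on `L0` with `Cl L0.F (r • e)` -/
theorem exists_conn_fam {L0 : PL C} {e : F2 C} {r : ℝ} (hl : Cl L0.F (r • e)) {O : Set P}
    (hO : IsOpen O) {ρ : P → F2 C} (hρ : SmF O ρ) (he : ∀ p ∈ O, Cl (ρ p) e) :
    ∃ a : P → F1 C, JO1 O a ∧ ∀ p ∈ O, ∀ i, ∀ z ∈ (C.e i).target, ∀ u v,
      (L0.add (a p)).F.w i z u v = r * (ρ p).w i z u v := by
  have hw : JO2 O (fun p => r • ρ p - L0.F) := fun i =>
    ((hρ i).const_smul r).sub ((L0.F.sm i).comp contDiffOn_snd fun p hp => hp.2)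
  have hex : ∀ p ∈ O, Ex (r • ρ p - L0.F) := fun p hp =>
    (Cl.smul r (he p hp)).trans hl.symm
  obtain ⟨a, h1, h2⟩ := prim0 hO hw hex
  refine ⟨a, h1, fun p hp i z hz u v => ?_⟩
  have h3 := h2 p hp i z hz u v
  have h4 : (r • ρ p - L0.F).w i z u v = r * (ρ p).w i z u v - L0.F.w i z u v := rfl
  rw [h4] at h3
  let _ : MeasurableSpace V := borel V
  have : BorelSpace V := ⟨rfl⟩
  rw [PL.add_F _ _ hz, F1.d_w, ← h3]
  ring

/-- ... of type (1,1) -/
theorem exists_conn_fam11 {L0 : PL C} {e : F2 C} {r : ℝ} (hl : Cl L0.F (r • e)) {O : Set P}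
    (hO : IsOpen O) {ρ : P → F2 C} (hρ : SmF O ρ) (he : ∀ p ∈ O, Cl (ρ p) e)
    {J : P → AJ C} (h11 : ∀ p ∈ O, T11 (J p) (ρ p)) :
    ∃ a : P → F1 C, JO1 O a ∧ ∀ p ∈ O, T11 (J p) (L0.add (a p)).F := by
  obtain ⟨a, h1, h2⟩ := exists_conn_fam hl hO hρ he
  refine ⟨a, h1, fun p hp i z hz u v => ?_⟩
  rw [h2 p hp i z hz, h2 p hp i z hz, h11 p hp i z hz u v]

end gen

section box

variable {n : ℕ} {X : Type} [TopologicalSpace X] [CompactSpace X] [T2Space X]
  {C : RCh (Cn (2 * n)) X} {Q : F2 C →ₗ[ℝ] F2 C →ₗ[ℝ] ℝ} {H0 : HkT C} {L0 : PL C} {e : F2 C}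

/-- over the whole box -/
theorem exists_aq' (hG : Given Q H0 L0 e) (B : Box Q H0 e) :
    ∃ a : (Fin B.m → ℝ) × (Fin B.m → ℝ) → F1 C,
      (∀ i, ContDiffOn ℝ ∞ (fun y : ((Fin B.m → ℝ) × (Fin B.m → ℝ)) × Cn (2 * n) =>
        (a y.1).η i y.2) ((B.B ×ˢ B.D) ×ˢ (C.e i).target)) ∧
      ∀ q ∈ B.B ×ˢ B.D, T11 (ofHk (B.H q.1 q.2) 0) (L0.add (a q)).F := by
  obtain ⟨ρ, h1, h2⟩ := B.rep
  exact exists_conn_fam11 (J := fun q : (Fin B.m → ℝ) × (Fin B.m → ℝ) => ofHk (B.H q.1 q.2) 0)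
    hG.lnk (B.oB.prod B.oD) h1 (fun p hp => (h2 p hp).2) fun p hp => (h2 p hp).1


end box

end

end Crest.Agent.R281.OpP_396
end

-- ▼ part R281/Rko1_396
section

/-!
# Row 281, RK-OPEN (helper396), part 1: the rank condition in real form, and its openness

`jetR u z = (u_j z, D u_j z)_j`, `G r` the set of 1-jets `(a, T)` with `a 0 ≠ 0` and
`v ↦ (a 0 * T (j+1) v - a (j+1) * T 0 v)_j` onto `ℂ^r` (real linear).

* `isOpen_G`      : `G r` is open
* `RkR r u z`     : `jetR u z ∈ G r`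
* `RkR.ev`        : `C¹` convergence at the point `z` keeps `RkR` eventually
* `RkR.ev_meas`   : **`H¹` (L² of values and first derivatives) convergence on a compact set of
                    positive measure** gives eventually a point with `RkR`
* `RkR.smul`      : invariance under multiplication of all sections by one function `e ≠ 0`
* `RkR.comp`      : invariance under local diffeomorphisms
-/

set_option autoImplicit false
set_option linter.unusedSectionVars false

open Set Filter Topology MeasureTheory Complex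
open scoped ContDiff

namespace Crest.Agent.R281.Rko_396

noncomputable section

section lin

variable {V : Type*} [NormedAddCommGroup V] [NormedSpace ℝ V]
  {W : Type*} [NormedAddCommGroup W] [NormedSpace ℝ W] [FiniteDimensional ℝ W]

/-- surjective continuous linear maps onto a finite dimensional space form an open set -/
theorem isOpen_surj : IsOpen {T : V →L[ℝ] W | Function.Surjective T} := by
  rw [isOpen_iff_mem_nhds]
  intro T hT
  obtain ⟨R, hR⟩ : ∃ R : W →ₗ[ℝ] V, (T : V →ₗ[ℝ] W).comp R = LinearMap.id :=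
    LinearMap.exists_rightInverse_of_surjective _ (LinearMap.range_eq_top.2 hT)
  let R' : W →L[ℝ] V := R.toContinuousLinearMap
  have hR' : T.comp R' = ContinuousLinearMap.id ℝ W := by
    ext w
    exact congrArg (fun f : W →ₗ[ℝ] W => f w) hR
  have hc : Continuous fun S : V →L[ℝ] W => S.comp R' :=
    (ContinuousLinearMap.compL ℝ W V W).flip R' |>.continuous
  have ho : IsOpen {S : V →L[ℝ] W | IsUnit (S.comp R' : W →L[ℝ] W)} :=
    (Units.isOpen (R := W →L[ℝ] W)).preimage hc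
  have hmem : T ∈ {S : V →L[ℝ] W | IsUnit (S.comp R' : W →L[ℝ] W)} := by
    show IsUnit (T.comp R' : W →L[ℝ] W)
    rw [hR']
    exact isUnit_one
  filter_upwards [ho.mem_nhds hmem] with S hS
  obtain ⟨U, hU⟩ := hS
  intro w
  refine ⟨R' ((U⁻¹ : (W →L[ℝ] W)ˣ).1 w), ?_⟩
  have h1 : (U.1 * U⁻¹.1 : W →L[ℝ] W) = 1 := by simp
  have h2 := congrArg (fun f : W →L[ℝ] W => f w) h1
  have h3 : U.1 (U⁻¹.1 w) = w := h2
  rw [hU] at h3
  exact h3

end lin

section jets

variable {V : Type*} [NormedAddCommGroup V] [NormedSpace ℝ V]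

/-- 1-jets of `r+1` complex functions -/
abbrev Jet (r : ℕ) (V : Type*) [NormedAddCommGroup V] [NormedSpace ℝ V] : Type _ :=
  (Fin (r + 1) → ℂ) × (Fin (r + 1) → (V →L[ℝ] ℂ))

/-- numerators of the differentials of the quotients -/
def wrv (r : ℕ) (q : Jet r V) : V →L[ℝ] (Fin r → ℂ) :=
  ContinuousLinearMap.pi fun j => q.1 0 • q.2 j.succ - q.1 j.succ • q.2 0

@[simp] theorem wrv_apply (r : ℕ) (q : Jet r V) (v : V) (j : Fin r) :
    wrv r q v j = q.1 0 * q.2 j.succ v - q.1 j.succ * q.2 0 v := by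
  simp [wrv]

theorem continuous_wrv (r : ℕ) : Continuous (wrv r : Jet r V → (V →L[ℝ] (Fin r → ℂ))) := by
  have : (wrv r : Jet r V → (V →L[ℝ] (Fin r → ℂ))) = fun q =>
      ∑ j : Fin r, (ContinuousLinearMap.single ℝ (fun _ : Fin r => ℂ) j).comp
        (q.1 0 • q.2 j.succ - q.1 j.succ • q.2 0) := by
    funext q
    ext v j
    simp only [wrv_apply, sum_apply, ContinuousLinearMap.comp_apply, Finset.sum_apply,
      ContinuousLinearMap.single_apply, Pi.single_apply]
    simp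
  rw [this]
  refine continuous_finsetSum _ fun j _ => ?_
  have h1 : Continuous fun T : V →L[ℝ] ℂ =>
      (ContinuousLinearMap.single ℝ (fun _ : Fin r => ℂ) j).comp T :=
    ((ContinuousLinearMap.compL ℝ V ℂ (Fin r → ℂ))
      (ContinuousLinearMap.single ℝ (fun _ : Fin r => ℂ) j)).continuous
  exact h1.comp (by fun_prop)

/-- the good jets -/
def G (r : ℕ) (V : Type*) [NormedAddCommGroup V] [NormedSpace ℝ V] : Set (Jet r V) :=
  {q | q.1 0 ≠ 0 ∧ Function.Surjective (wrv r q)}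

theorem isOpen_G (r : ℕ) : IsOpen (G r V) := by
  refine IsOpen.inter ?_ ((isOpen_surj (V := V) (W := Fin r → ℂ)).preimage (continuous_wrv r))
  exact isOpen_ne.preimage (by fun_prop : Continuous fun q : Jet r V => q.1 0)

/-- the 1-jet of a tuple -/
def jetR (r : ℕ) (u : Fin (r + 1) → V → ℂ) (z : V) : Jet r V :=
  (fun j => u j z, fun j => fderiv ℝ (u j) z)

/-- rank `r` of the quotients `u_j / u_0` at `z` -/
def RkR (r : ℕ) (u : Fin (r + 1) → V → ℂ) (z : V) : Prop := jetR r u z ∈ G r V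

theorem rkR_iff {r : ℕ} {u : Fin (r + 1) → V → ℂ} {z : V} :
    RkR r u z ↔ u 0 z ≠ 0 ∧ Function.Surjective (wrv r (jetR r u z)) := Iff.rfl


/-- uniform openness on compact sets -/
theorem exists_delta {r : ℕ} {u : Fin (r + 1) → V → ℂ} {K : Set V} (hK : IsCompact K)
    (hc : ∀ j, ContinuousOn (u j) K) (hd : ∀ j, ContinuousOn (fderiv ℝ (u j)) K)
    (h : ∀ z ∈ K, RkR r u z) :
    ∃ δ > 0, ∀ z ∈ K, ∀ v : Fin (r + 1) → V → ℂ, (∀ j, ‖v j z - u j z‖ < δ) →
      (∀ j, ‖fderiv ℝ (v j) z - fderiv ℝ (u j) z‖ < δ) → RkR r v z := by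
  have hcont : ContinuousOn (jetR r u) K :=
    (continuousOn_pi.2 hc).prodMk (continuousOn_pi.2 hd)
  have himg : IsCompact (jetR r u '' K) := hK.image_of_continuousOn hcont
  have hsub : jetR r u '' K ⊆ G r V := by
    rintro _ ⟨z, hz, rfl⟩
    exact h z hz
  obtain ⟨δ, hδ, ht⟩ := himg.exists_thickening_subset_open (isOpen_G r) hsub
  refine ⟨δ, hδ, fun z hz v h0 h1 => ht ?_⟩
  rw [Metric.mem_thickening_iff]
  refine ⟨jetR r u z, mem_image_of_mem _ hz, ?_⟩
  rw [Prod.dist_eq, max_lt_iff]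
  constructor
  · rw [dist_pi_lt_iff hδ]
    intro j
    rw [dist_eq_norm]
    exact h0 j
  · rw [dist_pi_lt_iff hδ]
    intro j
    rw [dist_eq_norm]
    exact h1 j

/-- **openness, `H¹` version**: convergence in `L²(K)` of the values and of the first
derivatives, `K` compact of positive measure: eventually there is a point of `K` with rank `r` -/
theorem RkR.ev_meas [MeasurableSpace V] [BorelSpace V] [SecondCountableTopology V]
    {μ : Measure V} {P : Type*} {l : Filter P} {r : ℕ}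
    {u : Fin (r + 1) → V → ℂ} {up : P → Fin (r + 1) → V → ℂ} {K : Set V} (hK : IsCompact K)
    (hμ : μ K ≠ 0) (hc : ∀ j, ContinuousOn (u j) K) (hd : ∀ j, ContinuousOn (fderiv ℝ (u j)) K)
    (hcp : ∀ p j, ContinuousOn (up p j) K) (hdp : ∀ p j, ContinuousOn (fderiv ℝ (up p j)) K)
    (h : ∀ z ∈ K, RkR r u z)
    (h0 : ∀ j, Tendsto (fun p => ∫⁻ z in K, ‖up p j z - u j z‖ₑ ^ 2 ∂μ) l (𝓝 0))
    (h1 : ∀ j, Tendsto (fun p => ∫⁻ z in K, ‖fderiv ℝ (up p j) z - fderiv ℝ (u j) z‖ₑ ^ 2 ∂μ) l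
      (𝓝 0)) :
    ∀ᶠ p in l, ∃ z ∈ K, RkR r (up p) z := by
  obtain ⟨δ, hδ, hgood⟩ := exists_delta hK hc hd h
  have hKm : MeasurableSet K := hK.isClosed.measurableSet
  set δ' : ENNReal := ENNReal.ofReal δ with hδ'
  have hδ'0 : δ' ≠ 0 := by simpa [hδ'] using hδ
  have hpos : 0 < δ' ^ 2 * μ K :=
    pos_iff_ne_zero.2 (mul_ne_zero (pow_ne_zero 2 hδ'0) hμ)
  have hT : Tendsto (fun p => ∑ j, ((∫⁻ z in K, ‖up p j z - u j z‖ₑ ^ 2 ∂μ) +
      ∫⁻ z in K, ‖fderiv ℝ (up p j) z - fderiv ℝ (u j) z‖ₑ ^ 2 ∂μ)) l (𝓝 0) := by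
    have := tendsto_finsetSum (Finset.univ : Finset (Fin (r + 1)))
      fun j _ => (h0 j).add (h1 j)
    simpa using this
  filter_upwards [hT.eventually_lt_const hpos] with p hp
  by_contra hno
  push Not at hno
  have hb : ∀ z ∈ K, δ' ^ 2 ≤ ∑ j, (‖up p j z - u j z‖ₑ ^ 2 +
      ‖fderiv ℝ (up p j) z - fderiv ℝ (u j) z‖ₑ ^ 2) := by
    intro z hz
    by_contra hlt
    push Not at hlt
    refine hno z hz (hgood z hz (up p) (fun j => ?_) fun j => ?_)
    · have h2 : ‖up p j z - u j z‖ₑ ^ 2 < δ' ^ 2 :=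
        lt_of_le_of_lt (le_trans le_self_add
          (Finset.single_le_sum (f := fun j => ‖up p j z - u j z‖ₑ ^ 2 +
            ‖fderiv ℝ (up p j) z - fderiv ℝ (u j) z‖ₑ ^ 2) (fun _ _ => zero_le)
            (Finset.mem_univ j))) hlt
      have h3 : ‖up p j z - u j z‖ₑ < δ' :=
        lt_of_not_ge fun hge => absurd (pow_le_pow_left' hge 2) (not_le.2 h2)
      rw [← ofReal_norm, hδ', ENNReal.ofReal_lt_ofReal_iff hδ] at h3
      exact h3
    · have h2 : ‖fderiv ℝ (up p j) z - fderiv ℝ (u j) z‖ₑ ^ 2 < δ' ^ 2 :=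
        lt_of_le_of_lt (le_trans le_add_self
          (Finset.single_le_sum (f := fun j => ‖up p j z - u j z‖ₑ ^ 2 +
            ‖fderiv ℝ (up p j) z - fderiv ℝ (u j) z‖ₑ ^ 2) (fun _ _ => zero_le)
            (Finset.mem_univ j))) hlt
      have h3 : ‖fderiv ℝ (up p j) z - fderiv ℝ (u j) z‖ₑ < δ' :=
        lt_of_not_ge fun hge => absurd (pow_le_pow_left' hge 2) (not_le.2 h2)
      rw [← ofReal_norm, hδ', ENNReal.ofReal_lt_ofReal_iff hδ] at h3
      exact h3
  have hm0 : ∀ j, AEMeasurable (fun z => ‖up p j z - u j z‖ₑ ^ 2) (μ.restrict K) := fun j =>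
    (((hcp p j).sub (hc j)).aestronglyMeasurable hKm).enorm.pow_const 2
  have hm1 : ∀ j, AEMeasurable (fun z => ‖fderiv ℝ (up p j) z - fderiv ℝ (u j) z‖ₑ ^ 2)
      (μ.restrict K) := fun j =>
    (((hdp p j).sub (hd j)).aestronglyMeasurable_of_isCompact hK hKm).enorm.pow_const 2
  have h4 : δ' ^ 2 * μ K ≤ ∫⁻ z in K, ∑ j, (‖up p j z - u j z‖ₑ ^ 2 +
      ‖fderiv ℝ (up p j) z - fderiv ℝ (u j) z‖ₑ ^ 2) ∂μ := by
    rw [← setLIntegral_const]
    exact setLIntegral_mono' hKm hb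
  have h5 : ∫⁻ z in K, ∑ j, (‖up p j z - u j z‖ₑ ^ 2 +
      ‖fderiv ℝ (up p j) z - fderiv ℝ (u j) z‖ₑ ^ 2) ∂μ =
      ∑ j, ((∫⁻ z in K, ‖up p j z - u j z‖ₑ ^ 2 ∂μ) +
      ∫⁻ z in K, ‖fderiv ℝ (up p j) z - fderiv ℝ (u j) z‖ₑ ^ 2 ∂μ) := by
    rw [lintegral_finsetSum' (f := fun j z => ‖up p j z - u j z‖ₑ ^ 2 +
      ‖fderiv ℝ (up p j) z - fderiv ℝ (u j) z‖ₑ ^ 2) _ fun j _ => (hm0 j).add (hm1 j)]
    exact Finset.sum_congr rfl fun j _ => lintegral_add_left' (hm0 j) _
  rw [h5] at h4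
  exact absurd hp (not_lt.2 h4)

end jets

section alg

variable {V : Type*} [NormedAddCommGroup V] [NormedSpace ℝ V]

/-- multiplication of all the functions by one function `e ≠ 0` -/
theorem wrv_smul {r : ℕ} {u : Fin (r + 1) → V → ℂ} {e : V → ℂ} {z : V}
    (hu : ∀ j, DifferentiableAt ℝ (u j) z) (he : DifferentiableAt ℝ e z) (v : V) :
    wrv r (jetR r (fun j y => e y * u j y) z) v = (e z) ^ 2 • wrv r (jetR r u z) v := by
  have hd : ∀ j, fderiv ℝ (fun y => e y * u j y) z v =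
      e z * fderiv ℝ (u j) z v + u j z * fderiv ℝ e z v := by
    intro j
    have h := (he.hasFDerivAt.mul (hu j).hasFDerivAt).fderiv
    have h' : (fun y => e y * u j y) = (e * u j) := rfl
    rw [h', h]
    simp [smul_eq_mul]
  ext j
  simp only [wrv_apply, jetR, Pi.smul_apply, smul_eq_mul, hd]
  ring

theorem RkR.smul_iff {r : ℕ} {u : Fin (r + 1) → V → ℂ} {e : V → ℂ} {z : V}
    (hu : ∀ j, DifferentiableAt ℝ (u j) z) (he : DifferentiableAt ℝ e z) (h0 : e z ≠ 0) :
    RkR r (fun j y => e y * u j y) z ↔ RkR r u z := by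
  rw [rkR_iff, rkR_iff]
  refine and_congr ?_ ?_
  · constructor
    · intro h h1
      exact h (by simp [h1])
    · intro h
      exact mul_ne_zero h0 h
  · have h2 : (e z) ^ 2 ≠ 0 := pow_ne_zero 2 h0
    constructor
    · intro h w
      obtain ⟨v, hv⟩ := h ((e z) ^ 2 • w)
      refine ⟨v, ?_⟩
      rw [wrv_smul hu he] at hv
      exact smul_right_injective _ h2 hv
    · intro h w
      obtain ⟨v, hv⟩ := h (((e z) ^ 2)⁻¹ • w)
      refine ⟨v, ?_⟩
      rw [wrv_smul hu he, hv, smul_smul, mul_inv_cancel₀ h2, one_smul]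

/-- only the germs matter -/
theorem RkR.congr {r : ℕ} {u u' : Fin (r + 1) → V → ℂ} {z : V}
    (h : ∀ j, u j =ᶠ[𝓝 z] u' j) : RkR r u z ↔ RkR r u' z := by
  have : jetR r u z = jetR r u' z := by
    unfold jetR
    refine Prod.ext ?_ ?_
    · funext j
      exact (h j).eq_of_nhds
    · funext j
      exact (h j).fderiv_eq
  rw [RkR, RkR, this]

variable {V' : Type*} [NormedAddCommGroup V'] [NormedSpace ℝ V']

/-- local diffeomorphisms -/
theorem RkR.comp_iff {r : ℕ} {u : Fin (r + 1) → V → ℂ} {φ : V' → V} {z : V'}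
    (hu : ∀ j, DifferentiableAt ℝ (u j) (φ z)) (hφ : DifferentiableAt ℝ φ z)
    (hs : Function.Surjective (fderiv ℝ φ z)) :
    RkR r (fun j y => u j (φ y)) z ↔ RkR r u (φ z) := by
  have hd : ∀ j, fderiv ℝ (fun y => u j (φ y)) z = (fderiv ℝ (u j) (φ z)).comp (fderiv ℝ φ z) :=
    fun j => fderiv_comp z (hu j) hφ
  have he : ∀ v, wrv r (jetR r (fun j y => u j (φ y)) z) v =
      wrv r (jetR r u (φ z)) (fderiv ℝ φ z v) := by
    intro v
    ext j
    simp only [wrv_apply, jetR, hd, ContinuousLinearMap.comp_apply]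
  rw [rkR_iff, rkR_iff]
  refine and_congr Iff.rfl ?_
  constructor
  · intro h w
    obtain ⟨v, hv⟩ := h w
    exact ⟨fderiv ℝ φ z v, by rw [← he, hv]⟩
  · intro h w
    obtain ⟨v, hv⟩ := h w
    obtain ⟨v', hv'⟩ := hs v
    exact ⟨v', by rw [he, hv', hv]⟩

end alg

section cplx

variable {E : Type*} [NormedAddCommGroup E] [NormedSpace ℂ E]

/-- a tuple of linear forms is independent iff it is onto `ℂ^r` -/
theorem surj_iff_indep {r : ℕ} (φ : Fin r → (E →L[ℂ] ℂ)) :
    Function.Surjective (fun v => fun j => φ j v) ↔ LinearIndependent ℂ φ := by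
  constructor
  · intro h
    rw [Fintype.linearIndependent_iff]
    intro c hc k
    obtain ⟨v, hv⟩ := h (Pi.single k 1)
    have h1 := congrArg (fun T : E →L[ℂ] ℂ => T v) hc
    simp only [sum_apply, smul_apply, smul_eq_mul, zero_apply] at h1
    have h2 : ∀ j, φ j v = (Pi.single k 1 : Fin r → ℂ) j := fun j => congrFun hv j
    simp only [h2] at h1
    rw [Finset.sum_eq_single k] at h1
    · simpa using h1
    · intro j _ hj
      simp [hj]
    · intro hk
      exact absurd (Finset.mem_univ k) hk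
  · intro h
    let T : E →ₗ[ℂ] (Fin r → ℂ) := LinearMap.pi fun j => (φ j : E →ₗ[ℂ] ℂ)
    have hT : LinearMap.range T = ⊤ := by
      by_contra hne
      obtain ⟨f, hf, hle⟩ := Submodule.exists_le_ker_of_lt_top _ (lt_top_iff_ne_top.2 hne)
      apply hf
      have hc : ∑ j, f (Pi.single j 1) • φ j = 0 := by
        ext v
        have h1 : f (T v) = 0 := LinearMap.mem_ker.1 (hle (LinearMap.mem_range_self T v))
        have h2 : T v = ∑ j, φ j v • (Pi.single j 1 : Fin r → ℂ) := by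
          funext k
          simp [T, Finset.sum_apply, Pi.single_apply]
        rw [h2, map_sum] at h1
        simp only [map_smul, smul_eq_mul] at h1
        simp only [sum_apply, smul_apply, smul_eq_mul, zero_apply]
        rw [← h1]
        exact Finset.sum_congr rfl fun j _ => mul_comm _ _
      have h3 := Fintype.linearIndependent_iff.1 h _ hc
      refine LinearMap.pi_ext' fun j => ?_
      ext
      simpa using h3 j
    intro w
    obtain ⟨v, hv⟩ := LinearMap.range_eq_top.1 hT w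
    exact ⟨v, hv⟩

/-- **complex criterion** -/
theorem rkR_holo_iff [NormedSpace ℝ E] [IsScalarTower ℝ ℂ E] {r : ℕ}
    {s : Fin (r + 1) → E → ℂ} {z : E}
    (hs : ∀ j, DifferentiableAt ℂ (s j) z) :
    RkR r s z ↔ s 0 z ≠ 0 ∧
      LinearIndependent ℂ (fun j : Fin r => fderiv ℂ (fun y => s j.succ y / s 0 y) z) := by
  rw [rkR_iff]
  refine and_congr_right fun h0 => ?_
  replace h0 : s 0 z ≠ 0 := h0
  rw [← surj_iff_indep]
  have hr : ∀ j, fderiv ℝ (s j) z = (fderiv ℂ (s j) z).restrictScalars ℝ := fun j =>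
    ((hs j).hasFDerivAt.restrictScalars ℝ).fderiv
  have hq : ∀ (j : Fin r) v, fderiv ℂ (fun y => s j.succ y / s 0 y) z v =
      ((s 0 z) ^ 2)⁻¹ * (s 0 z * fderiv ℂ (s j.succ) z v - s j.succ z * fderiv ℂ (s 0) z v) := by
    intro j v
    have hqd : DifferentiableAt ℂ (fun y => s j.succ y / s 0 y) z := by
      have h5 : DifferentiableAt ℂ (fun y => (s 0 y)⁻¹) z := (hs 0).fun_inv h0
      simpa only [div_eq_mul_inv] using (hs j.succ).fun_mul h5
    have h1 : s j.succ =ᶠ[𝓝 z] fun y => (s j.succ y / s 0 y) * s 0 y := by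
      filter_upwards [(hs 0).continuousAt.eventually_ne h0] with y hy
      field_simp
    have h3 : HasFDerivAt (fun y => (s j.succ y / s 0 y) * s 0 y) _ z :=
      hqd.hasFDerivAt.mul (hs 0).hasFDerivAt
    have h2 := congrArg (fun T : E →L[ℂ] ℂ => T v) (h1.fderiv_eq.trans h3.fderiv)
    simp only [add_apply, smul_apply, smul_eq_mul] at h2
    rw [h2]
    field_simp
    ring
  have he : ∀ v, wrv r (jetR r s z) v =
      (s 0 z) ^ 2 • (fun j : Fin r => fderiv ℂ (fun y => s j.succ y / s 0 y) z v) := by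
    intro v
    funext j
    simp only [wrv_apply, jetR, hr, ContinuousLinearMap.coe_restrictScalars', Pi.smul_apply,
      smul_eq_mul, hq]
    field_simp
  have h2 : (s 0 z) ^ 2 ≠ 0 := pow_ne_zero 2 h0
  constructor
  · intro h w
    obtain ⟨v, hv⟩ := h ((s 0 z) ^ 2 • w)
    refine ⟨v, ?_⟩
    rw [he] at hv
    exact smul_right_injective _ h2 hv
  · intro h w
    obtain ⟨v, hv⟩ := h (((s 0 z) ^ 2)⁻¹ • w)
    refine ⟨v, ?_⟩
    rw [he]
    have : (fun j : Fin r => fderiv ℂ (fun y => s j.succ y / s 0 y) z v) =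
      ((s 0 z) ^ 2)⁻¹ • w := hv
    rw [this, smul_smul, mul_inv_cancel₀ h2, one_smul]

end cplx

section open_H1

variable {V : Type*} [NormedAddCommGroup V] [NormedSpace ℝ V]

theorem RkR.nhds {r : ℕ} {u : Fin (r + 1) → V → ℂ} {U : Set V} (hU : IsOpen U) {z₁ : V}
    (hz : z₁ ∈ U) (hu : ∀ j, ContDiffOn ℝ 1 (u j) U) (h : RkR r u z₁) :
    ∀ᶠ z in 𝓝 z₁, RkR r u z := by
  have hc : ContinuousAt (jetR r u) z₁ := by
    refine ContinuousAt.prodMk ?_ ?_
    · exact continuousAt_pi.2 fun j => ((hu j).continuousOn.continuousAt (hU.mem_nhds hz))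
    · exact continuousAt_pi.2 fun j =>
        ((hu j).continuousOn_fderiv_of_isOpen hU le_rfl).continuousAt (hU.mem_nhds hz)
  exact hc.eventually ((isOpen_G r).mem_nhds h)

/-- **rank `r` is open, final form on an open set of a chart**: `L²` convergence of values and
first derivatives on ONE neighbourhood `K₀` of `z₁` is enough -/
theorem RkR.open_H1 [FiniteDimensional ℝ V] [MeasurableSpace V] [BorelSpace V]
    (μ : Measure V) [μ.IsOpenPosMeasure] {P : Type*} {l : Filter P} {r : ℕ}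
    {u : Fin (r + 1) → V → ℂ} {up : P → Fin (r + 1) → V → ℂ} {U K₀ : Set V} (hU : IsOpen U)
    {z₁ : V} (hK₀ : K₀ ∈ 𝓝 z₁) (hKU : K₀ ⊆ U)
    (hu : ∀ j, ContDiffOn ℝ 1 (u j) U) (hup : ∀ p j, ContDiffOn ℝ 1 (up p j) U)
    (h : RkR r u z₁)
    (h0 : ∀ j, Tendsto (fun p => ∫⁻ z in K₀, ‖up p j z - u j z‖ₑ ^ 2 ∂μ) l (𝓝 0))
    (h1 : ∀ j, Tendsto (fun p => ∫⁻ z in K₀, ‖fderiv ℝ (up p j) z - fderiv ℝ (u j) z‖ₑ ^ 2 ∂μ) l
      (𝓝 0)) :
    ∀ᶠ p in l, ∃ z ∈ K₀, RkR r (up p) z := by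
  have hz₁ : z₁ ∈ U := hKU (mem_of_mem_nhds hK₀)
  have hn : {z | RkR r u z} ∩ K₀ ∈ 𝓝 z₁ := inter_mem (RkR.nhds hU hz₁ hu h) hK₀
  obtain ⟨K, hKn, hKs, hKc⟩ : ∃ K ∈ 𝓝 z₁, K ⊆ {z | RkR r u z} ∩ K₀ ∧ IsCompact K := by
    obtain ⟨K, h1, h2, h3⟩ := local_compact_nhds hn
    exact ⟨K, h1, h2, h3⟩
  have hKU' : K ⊆ U := fun z hz => hKU (hKs hz).2
  have hμ : μ K ≠ 0 := (Measure.measure_pos_of_mem_nhds μ hKn).ne'
  have hm : ∀ {f : P → ENNReal} {g : P → ENNReal}, (∀ p, f p ≤ g p) → Tendsto g l (𝓝 0) →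
      Tendsto f l (𝓝 0) := fun hfg hg =>
    tendsto_of_tendsto_of_tendsto_of_le_of_le tendsto_const_nhds hg (fun _ => zero_le) hfg
  have hsub : K ⊆ K₀ := fun z hz => (hKs hz).2
  have := RkR.ev_meas (μ := μ) (l := l) (up := up) hKc hμ
    (fun j => (hu j).continuousOn.mono hKU')
    (fun j => ((hu j).continuousOn_fderiv_of_isOpen hU le_rfl).mono hKU')
    (fun p j => (hup p j).continuousOn.mono hKU')
    (fun p j => ((hup p j).continuousOn_fderiv_of_isOpen hU le_rfl).mono hKU')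
    (fun z hz => (hKs hz).1)
    (fun j => hm (fun p => lintegral_mono_set hsub) (h0 j))
    (fun j => hm (fun p => lintegral_mono_set hsub) (h1 j))
  filter_upwards [this] with p hp
  obtain ⟨z, hz, hr⟩ := hp
  exact ⟨z, hsub hz, hr⟩

end open_H1

end

end Crest.Agent.R281.Rko_396
end

-- ▼ part R281/Rko2_396
section

/-!
# Row 281, RK-OPEN (helper396), part 2: real criterion in the charts of `RCh V X` against
599's `Rk` in any holomorphic atlas `A` with `Cmp C (ofAtl A)`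

`rk_iff`: `u j (C.e i y) = e (C.e i y) * s j a y` near `x`, `e ≠ 0` differentiable, `s j a`
holomorphic in the chart `a`:
`RkR r u (C.e i x) ↔ x ∈ (A.e a).source ∧ s 0 a x ≠ 0 ∧ LinearIndependent ℂ (fderiv ℂ (s_j/s_0))`.
-/

set_option autoImplicit false

open Set Filter Topology MeasureTheory Complex
open scoped ContDiff

namespace Crest.Agent.R281.Rko_396

open Crest.Agent.R275.Geo Crest.Agent.R275.EDR890 Crest.Agent.R281.HkR_835

noncomputable section

variable {V X : Type} [NormedAddCommGroup V] [NormedSpace ℝ V] [TopologicalSpace X]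
  {C : RCh V X} {d : ℕ} {A : Atl d X}

theorem rk_iff (h : Cmp C (ofAtl A)) {r : ℕ} {s : Fin (r + 1) → A.ι → X → ℂ}
    {a : A.ι} {i : C.ι} {x : X} (ha : x ∈ (A.e a).source) (hi : x ∈ (C.e i).source)
    (hs : ∀ j, DifferentiableAt ℂ (fun z => s j a ((A.e a).symm z)) (A.e a x))
    {u : Fin (r + 1) → V → ℂ} {e : V → ℂ} (he : DifferentiableAt ℝ e (C.e i x))
    (he0 : e (C.e i x) ≠ 0)
    (hus : ∀ j, ∀ᶠ y in 𝓝 x, u j (C.e i y) = e (C.e i y) * s j a y) :
    RkR r u (C.e i x) ↔ x ∈ (A.e a).source ∧ s 0 a x ≠ 0 ∧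
      LinearIndependent ℂ (fun j : Fin r => fderiv ℂ (fun z => s j.succ a ((A.e a).symm z) /
        s 0 a ((A.e a).symm z)) (A.e a x)) := by
  have hmov : C.e i x ∈ mov (ofAtl A) C a i := by
    refine ⟨(C.e i).map_source hi, ?_⟩
    rw [(C.e i).left_inv hi]
    exact ha
  set φ : V → Cn d := mt (ofAtl A) C a i with hφ
  have hφx : φ (C.e i x) = A.e a x := by
    show A.e a ((C.e i).symm (C.e i x)) = A.e a x
    rw [(C.e i).left_inv hi]
  have hφd : DifferentiableAt ℝ φ (C.e i x) := h.symm.diff hmov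
  have hφs : Function.Surjective (fderiv ℝ φ (C.e i x)) := fun w =>
    ⟨_, h.symm.d_d' hmov w⟩
  have hsR : ∀ j, DifferentiableAt ℝ (fun z => s j a ((A.e a).symm z)) (φ (C.e i x)) := fun j => by
    rw [hφx]
    exact (hs j).restrictScalars ℝ
  have hc1 : ∀ j, u j =ᶠ[𝓝 (C.e i x)]
      fun y => e y * (fun z => s j a ((A.e a).symm z)) (φ y) := by
    intro j
    have h1 : ∀ᶠ y in 𝓝 (C.e i x), u j (C.e i ((C.e i).symm y)) =
        e (C.e i ((C.e i).symm y)) * s j a ((C.e i).symm y) := by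
      have hc : Tendsto (C.e i).symm (𝓝 (C.e i x)) (𝓝 x) := by
        have := (C.e i).continuousAt_symm ((C.e i).map_source hi)
        rw [ContinuousAt, (C.e i).left_inv hi] at this
        exact this
      exact hc.eventually (hus j)
    filter_upwards [h1, (C.e i).open_target.mem_nhds ((C.e i).map_source hi),
      (Cmp.isOpen_mov (ofAtl A) C a i).mem_nhds hmov] with y hy hyt hym
    rw [(C.e i).right_inv hyt] at hy
    rw [hy]
    congr 1
    show s j a ((C.e i).symm y) = s j a ((A.e a).symm (A.e a ((C.e i).symm y)))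
    rw [(A.e a).left_inv hym.2]
  rw [RkR.congr hc1]
  rw [RkR.smul_iff (u := fun j y => (fun z => s j a ((A.e a).symm z)) (φ y))
    (fun j => (hsR j).comp (C.e i x) hφd) he he0]
  rw [RkR.comp_iff (u := fun j z => s j a ((A.e a).symm z)) hsR hφd hφs, hφx]
  rw [rkR_holo_iff hs, (A.e a).left_inv ha]
  exact (and_iff_right ha).symm

end

end Crest.Agent.R281.Rko_396
end

-- ▼ part R281/Rkd6_386
section

/-!
# R281 (S0424), RANK281, lower end (helper386), part 6: transfer of sections with a common factor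

* `fac_of_coh`  : line bundles `L`, `L'` on two holomorphic atlases of the same member with
                  cohomologous curvatures: a map `Φ` of sections with a common holomorphic factor
* `exists_fac`  : `p : Pres n H L0` ==> `Φ` from the sections of `p.L ^ m` to
                  `((L0.pow m).add a).H0 J`, `(Φ s).u i (C.e i y) = e (C.e i y) * s b y` near `x`
                  (all charts `i`, `b` at `x`; `e ≠ 0` differentiable, the same for all `s`)
* `rk_transfer` : the rank hypothesis of `OpenP` in the form `RkR`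
-/

set_option autoImplicit false
set_option linter.unusedSectionVars false
set_option maxSynthPendingDepth 3

open Set Filter Topology Complex
open scoped ContDiff Matrix

namespace Crest.Agent.R281.Rkd_386

open Crest.Agent.R275.Geo Crest.Agent.R275.Core144 Crest.Agent.R275.GC293
open Crest.Agent.R275.EDR890
open Crest.Agent.R273
open Crest.Agent.R273.Defs_333 Crest.Agent.R273.Kah_333
open Crest.Agent.R273.Map_835 (HolMap dm Jp mem_dm holMap_id Jp_comp)
open Crest.Agent.R273.PB_835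
open Crest.Agent.R260.ACM_580 Crest.Agent.R260.NNB_580
open Crest.Agent.R281.HkR_835 Crest.Agent.R281.Ti_846 Crest.Agent.R281.NefO_476
open Crest.Agent.R281.Nef_252 Crest.Agent.R281.PL_713 Crest.Agent.R281.Dif_268
open Crest.Agent.R281.Alg_998 Crest.Agent.R281.RkD_902
open Crest.Agent.R281.Pjx_648 Crest.Agent.R281.Kd_22 Crest.Agent.R281.Rk_599
open Crest.Agent.R281.Rko_396

noncomputable section

variable {X V : Type} [TopologicalSpace X] [NormedAddCommGroup V] [NormedSpace ℝ V]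
  {C : RCh V X} {d : ℕ} {A A' : Atl d X}

/-- **line bundles on two atlases with cohomologous curvature**: sections, common factor -/
theorem fac_of_coh [CompactSpace X] [T2Space X] [SimplyConnectedSpace X] {H : HkT C}
    (hA : Cp (H.acm 0) A) (hA' : Cp (H.acm 0) A') {w w' : F2 C} {L : LB A} {h : HM L}
    {L' : LB A'} {h' : HM L'} (hw : Eqv ((cmp_of_cp hA).F w) ((-2 : ℝ) • (curK h).f2))
    (hw' : Eqv ((cmp_of_cp hA').F w') ((-2 : ℝ) • (curK h').f2)) (he : Ex (w - w')) :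
    ∃ Φ : (A.ι → X → ℂ) → (A'.ι → X → ℂ), (∀ s, IsHS L univ s → IsHS L' univ (Φ s)) ∧
      ∀ (a : A.ι) (k : A'.ι) (x : X), x ∈ (A.e a).source → x ∈ (A'.e k).source →
        ∃ c : X → ℂ, Hm A' c x ∧ c x ≠ 0 ∧ ∀ s, IsHS L univ s →
          ∀ᶠ y in 𝓝 x, Φ s k y = c y * s a y := by
  obtain ⟨A₁, hfin, hgood, ⟨P⟩, hsub, ⟨R'⟩, h1, h2⟩ := Fam_835.exists_refine A'
    (fun i => (A.e i).source) (fun i => (A.e i).open_source) A.cover
  choose r hr using hsub
  have R : Ref A₁ A id := ⟨r, hr⟩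
  have hA₁ : Cp (H.acm 0) A₁ := cp_of_hol hA' h1.toHolMap h2.toHolMap
  have hid : HolMap A₁ A id := hol_of_cp hA hA₁
  have c1 := cur_tr_F hA hA₁ (PB.ref hid R L) hid hw
  have c2 := cur_tr_F hA' hA₁ (PB.ref h1.toHolMap R' L') h1.toHolMap hw'
  have hex := ex_cur hA₁ c1 c2 he
  obtain ⟨u, h0, hu, -, h3⟩ := Sc_413.Triv.iso
    (Sc_413.triv_of_coh hgood P (met H hA₁) _ _ hex)
  set T := PB.ref hid R L with hT
  have hΦ : ∀ s, IsHS L univ s → IsHS (pullLB h1.toHolMap R' L') univ (u⁻¹ * T.pull s) :=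
    fun s hs => h3 _ _ (T.pull_isHS hid isOpen_univ hs)
  refine ⟨fun s => unS R' L' (u⁻¹ * T.pull s), fun s hs => isHS_unS h2.toHolMap (hΦ s hs),
    fun a k x ha hk => ?_⟩
  obtain ⟨q, hq⟩ := A₁.cover x
  have g1 : Hm A' (L'.g k (R'.r q)) x :=
    hm_of_holAt (L'.hol k _) (A'.e _).open_source hk (R'.sub q x hq)
  have g2 : Hm A' (fun y => (u q y)⁻¹) x := by
    have : Hm A₁ (u q) x := hm_of_holAt (hu q) isOpen_univ hq (mem_univ x)
    exact (hm_change h2.toHolMap this).inv (h0 q x hq)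
  have g3 : Hm A' (T.c q a) x := by
    have : Hm A₁ (T.c q a) x := hm_of_holAt (U := id ⁻¹' (A.e a).source) (T.hol q a)
      ((A.e a).open_source.preimage continuous_id) hq ha
    exact hm_change h2.toHolMap this
  refine ⟨fun y => L'.g k (R'.r q) y * ((u q y)⁻¹ * T.c q a y), g1.mul (g2.mul g3),
    mul_ne_zero (L'.ne_zero _ _ _) (mul_ne_zero (inv_ne_zero (h0 q x hq)) (T.ne q a x hq ha)),
    fun s hs => ?_⟩
  filter_upwards [(A.e a).open_source.mem_nhds ha, (A'.e k).open_source.mem_nhds hk,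
    (A₁.e q).open_source.mem_nhds hq] with y hya hyk hyq
  rw [unS_eq (hΦ s hs) hyk hyq]
  show L'.g k (R'.r q) y * ((u q y)⁻¹ * T.pull s q y) = _
  rw [T.pull_eq hyq (j := a) hya hs (mem_univ _)]
  simp only [id]
  ring



end

end Crest.Agent.R281.Rkd_386
end

-- ▼ part R281/Rkd7_386
section

/-!
# R281 (S0424), RANK281, lower end (helper386), part 7

* `rk_of_coh` : `Rk` is transferred between line bundles on two holomorphic atlases of the same
                member with cohomologous curvatures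
* `rk_dic`    : `p : Pres n H L0`, `Rk` for sections of `p.L ^ m` ==> `Rk` for sections of the
                bundle of every dictionary of `(L0.pow m).add a`
-/

set_option autoImplicit false
set_option linter.unusedSectionVars false
set_option maxSynthPendingDepth 3

open Set Filter Topology Complex
open scoped ContDiff Matrix

namespace Crest.Agent.R281.Rkd_386

open Crest.Agent.R275.Geo Crest.Agent.R275.Core144 Crest.Agent.R275.GC293
open Crest.Agent.R275.EDR890
open Crest.Agent.R273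
open Crest.Agent.R273.Defs_333 Crest.Agent.R273.Kah_333
open Crest.Agent.R273.Map_835 (HolMap)
open Crest.Agent.R273.PB_835
open Crest.Agent.R260.ACM_580 Crest.Agent.R260.NNB_580
open Crest.Agent.R281.HkR_835 Crest.Agent.R281.Ti_846 Crest.Agent.R281.NefO_476
open Crest.Agent.R281.Nef_252 Crest.Agent.R281.PL_713 Crest.Agent.R281.Dif_268
open Crest.Agent.R281.Alg_998 Crest.Agent.R281.RkD_902
open Crest.Agent.R281.Pjx_648 Crest.Agent.R281.Kd_22 Crest.Agent.R281.Rk_599
open Crest.Agent.R281.Rko_396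

noncomputable section

variable {X V : Type} [TopologicalSpace X] [NormedAddCommGroup V] [NormedSpace ℝ V]
  {C : RCh V X} {d : ℕ} {A A' : Atl d X}

/-- the rank under a common holomorphic factor, two atlases -/
theorem rk_fac (h1 : HolMap A A' id) (h2 : HolMap A' A id) {L : LB A} {L' : LB A'} {r : ℕ}
    {s : Fin (r + 1) → A.ι → X → ℂ} {s' : Fin (r + 1) → A'.ι → X → ℂ}
    (hs : ∀ j, IsHS L univ (s j)) (hs' : ∀ j, IsHS L' univ (s' j)) {b : A.ι} {k : A'.ι} {x : X}
    (hk : x ∈ (A'.e k).source) {c : X → ℂ} (hc : Hm A' c x) (h0 : c x ≠ 0)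
    (he : ∀ j, ∀ᶠ y in 𝓝 x, s' j k y = c y * s j b y) (hR : Rk A s b x) : Rk A' s' k x := by
  have hcmp : Cmp (ofAtl A') (ofAtl A) := cmp_of_bih h1 h2
  obtain ⟨hb, h3, h4⟩ := hR
  have e1 : DifferentiableAt ℝ (fun z => c ((A'.e k).symm z)) (A'.e k x) :=
    (hc k hk).differentiableAt.restrictScalars ℝ
  have hx : (A'.e k).symm (A'.e k x) = x := (A'.e k).left_inv hk
  have key := (Rko_396.rk_iff (C := ofAtl A') (A := A) hcmp (s := s) (a := b) (i := k)
    (u := fun j z => s' j k ((A'.e k).symm z)) (e := fun z => c ((A'.e k).symm z)) hb hk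
    (fun j => (analyticOnNhd_rd (hs j) b _ ((A.e b).map_source hb)).differentiableAt) e1
    (by
      show c ((A'.e k).symm (A'.e k x)) ≠ 0
      rw [hx]
      exact h0) (fun j => by
        filter_upwards [he j, (A'.e k).open_source.mem_nhds hk] with y hy hyk
        show s' j k ((A'.e k).symm (A'.e k y)) = c ((A'.e k).symm (A'.e k y)) * s j b y
        rw [(A'.e k).left_inv hyk, hy])).2 ⟨hb, h3, h4⟩
  have h5 := (rkR_holo_iff (s := fun j z => s' j k ((A'.e k).symm z)) (z := A'.e k x)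
    fun j => (analyticOnNhd_rd (hs' j) k _ ((A'.e k).map_source hk)).differentiableAt).1 key
  refine ⟨hk, ?_, h5.2⟩
  have h6 := h5.1
  simp only [hx] at h6
  exact h6

/-- **`Rk` is transferred**: cohomologous curvatures -/
theorem rk_of_coh [CompactSpace X] [T2Space X] [SimplyConnectedSpace X] {H : HkT C}
    (hA : Cp (H.acm 0) A) (hA' : Cp (H.acm 0) A') {w w' : F2 C} {L : LB A} {h : HM L}
    {L' : LB A'} {h' : HM L'} (hw : Eqv ((cmp_of_cp hA).F w) ((-2 : ℝ) • (curK h).f2))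
    (hw' : Eqv ((cmp_of_cp hA').F w') ((-2 : ℝ) • (curK h').f2)) (he : Ex (w - w')) {r : ℕ}
    (hR : ∃ t : Fin (r + 1) → A.ι → X → ℂ, (∀ b, IsHS L univ (t b)) ∧ ∃ i x, Rk A t i x) :
    ∃ t : Fin (r + 1) → A'.ι → X → ℂ, (∀ b, IsHS L' univ (t b)) ∧ ∃ i x, Rk A' t i x := by
  obtain ⟨t, ht, b, x, hRk⟩ := hR
  obtain ⟨Φ, hΦ, hc⟩ := fac_of_coh hA hA' hw hw' he
  obtain ⟨k, hk⟩ := A'.cover x
  obtain ⟨c, c1, c2, c3⟩ := hc b k x hRk.1 hk
  exact ⟨fun j => Φ (t j), fun j => hΦ _ (ht j), k, x,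
    rk_fac (hol_of_cp hA' hA) (hol_of_cp hA hA') ht (fun j => hΦ _ (ht j)) hk c1 c2
      (fun j => c3 _ (ht j)) hRk⟩

/-- **`Rk` for every dictionary bundle of a connection of type (1,1)** -/
theorem rk_dic [FiniteDimensional ℝ V] [CompactSpace X] [T2Space X] [SimplyConnectedSpace X]
    {n : ℕ} {H : HkT C} {L0 : PL C} (p : Pres n H L0) {m r : ℕ}
    (hR : ∃ t : Fin (r + 1) → p.A.ι → X → ℂ, (∀ b, IsHS (p.L ^ m) univ (t b)) ∧
      ∃ i x, Rk p.A t i x) {a : F1 C} {A' : Atl (2 * n) X}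
    (D : Dic C (H.J 0) ((L0.pow m).add a) A') :
    ∃ t : Fin (r + 1) → A'.ι → X → ℂ, (∀ b, IsHS D.lb univ (t b)) ∧ ∃ i x, Rk A' t i x :=
  rk_of_coh p.cp (cp_of_jc D.jc) (cur_pow_F p.cp p.cur m) (dic_cur (cp_of_jc D.jc) D)
    (pres_ex p m a) hR

end

end Crest.Agent.R281.Rkd_386
end

-- ▼ part R281/OpG5_941

/-!
# R281 (S0424), OPEN' (helper941), part 5: the shell of `OpenP`

* `boxFam`      : the family over the box of 902
* `CentreP`     : the Kaehler structure of a member has vanishing Ricci curvature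
* `TorP Tub`    : the moving tori
* `openP_of`    : `CentreP → TorP Tub → OpenP Tub`
-/

set_option autoImplicit false
set_option linter.unusedSectionVars false
set_option maxSynthPendingDepth 3

open Set Filter Topology Complex
open scoped ContDiff ComplexConjugate

namespace Crest.Agent.R281.OpG_941

open Crest.Agent.R275.Geo Crest.Agent.R275.Core144 Crest.Agent.R275.GC293
open Crest.Agent.R273.Defs_333 Crest.Agent.R273.Kah_333 Crest.Agent.R273.HM_333
open Crest.Agent.R273.Vol_333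
open Crest.Agent.R260.ACM_580 Crest.Agent.R260.NNB_580
open Crest.Agent.R281.HkR_835 Crest.Agent.R281.Ti_846 Crest.Agent.R281.NefO_476
open Crest.Agent.R281.Nef_252 Crest.Agent.R281.PL_713 Crest.Agent.R281.Dif_268
open Crest.Agent.R281.Alg_998 Crest.Agent.R281.RkD_902 Crest.Agent.R281.Cdr_234
open Crest.Agent.R281.Rkd_386 Crest.Agent.R281.Rk_599

noncomputable section

section fam

variable {n : ℕ} {X : Type} [TopologicalSpace X] [CompactSpace X] [T2Space X]
  {C : RCh (Cn (2 * n)) X} {Q : F2 C →ₗ[ℝ] F2 C →ₗ[ℝ] ℝ} {H0 : HkT C} {L0 : PL C} {e : F2 C}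

/-- every member has a holomorphic atlas -/
theorem exists_jc (H : HkT C) : ∃ A : Atl (2 * n) X, JC C (H.J 0) A := by
  obtain ⟨A, -, -, -, -, -, hA⟩ := exists_atl (nnatC (2 * n)) (H.acm_int 0) (κ := Unit)
    (fun _ => (univ : Set X)) (fun _ => isOpen_univ) (fun x => ⟨(), mem_univ x⟩)
  exact ⟨A, JC.of_cp hA⟩

/-- **the family over the box** -/
def boxFam (B : Box Q H0 e) {b c : Fin B.m → ℝ} (hb : b ∈ B.B) (hc : c ∈ B.D)
    (a : (Fin B.m → ℝ) × (Fin B.m → ℝ) → F1 C)
    (ha : ∀ i, ContDiffOn ℝ ∞ (fun y : ((Fin B.m → ℝ) × (Fin B.m → ℝ)) × Cn (2 * n) =>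
      (a y.1).η i y.2) ((B.B ×ˢ B.D) ×ˢ (C.e i).target))
    (ha' : ∀ q ∈ B.B ×ˢ B.D, T11 (ofHk (B.H q.1 q.2) 0) (L0.add (a q)).F) (m : ℕ) :
    CFam (2 * n) C ((Fin B.m → ℝ) × (Fin B.m → ℝ)) (b, c) where
  O := B.B ×ˢ B.D
  op := B.oB.prod B.oD
  mem := ⟨hb, hc⟩
  J q := (B.H q.1 q.2).J 0
  L q := (L0.pow m).add ((m : ℝ) • a q)
  Js i := B.sm.J 0 i
  Ls i := by
    have h1 : ContDiffOn ℝ ∞ (fun y : ((Fin B.m → ℝ) × (Fin B.m → ℝ)) × Cn (2 * n) =>
        (L0.pow m).th i y.2) ((B.B ×ˢ B.D) ×ˢ (C.e i).target) :=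
      ((L0.pow m).th_sm i).comp contDiffOn_snd fun y hy => hy.2
    exact h1.add ((ha i).const_smul (m : ℝ))
  g _ _ := rfl
  jc q _ := exists_jc (B.H q.1 q.2)
  f11 q hq := by
    have h1 := T11.pow (ha' q hq) m
    rw [pow_add'] at h1
    exact h1

end fam

/-- the Kaehler structure of a member is Ricci flat -/
def CentreP : Prop :=
  ∀ (n : ℕ) (X : Type) [TopologicalSpace X] [CompactSpace X] [T2Space X]
    [SimplyConnectedSpace X] (C : RCh (Cn (2 * n)) X) (H : HkT C) (A : Atl (2 * n) X)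
    [Finite A.ι], 1 ≤ n → GoodA A → Nonempty (Part A) → JC C (H.J 0) A →
    ∃ K : Kah A, ∀ i, ∀ x ∈ (A.e i).source, cur (volK K) i x = 0

/-- the moving tori -/
def TorP (Tub : TubTT) : Prop :=
  ∀ (n : ℕ) (X : Type) [TopologicalSpace X] [CompactSpace X] [T2Space X]
    [SimplyConnectedSpace X] (C : RCh (Cn (2 * n)) X) (Q : F2 C →ₗ[ℝ] F2 C →ₗ[ℝ] ℝ), Ctx n C Q →
    ∀ (H0 : HkT C) (L0 : PL C) (e : F2 C), Given Q H0 L0 e → ∀ (B : Box Q H0 e)
      (b c : Fin B.m → ℝ) (hb : b ∈ B.B) (hc : c ∈ B.D),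
    Tub n X C Q e (B.H b c) → ∀ p : Pres n (B.H b c) L0, ∀ m : ℕ, 0 < m → GG (p.L ^ m) →
    (∃ t : Fin (n + 1) → p.A.ι → X → ℂ, (∀ a, IsHS (p.L ^ m) univ (t a)) ∧ ∃ i x, Rk p.A t i x) →
    ∀ (a : (Fin B.m → ℝ) × (Fin B.m → ℝ) → F1 C)
      (ha : ∀ i, ContDiffOn ℝ ∞ (fun y : ((Fin B.m → ℝ) × (Fin B.m → ℝ)) × Cn (2 * n) =>
        (a y.1).η i y.2) ((B.B ×ˢ B.D) ×ˢ (C.e i).target))
      (ha' : ∀ q ∈ B.B ×ˢ B.D, T11 (ofHk (B.H q.1 q.2) 0) (L0.add (a q)).F)
      (A : Atl (2 * n) X) [Finite A.ι], GoodA A → ∀ (_ : Part A)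
      (D : Dic C ((boxFam B hb hc a ha ha' m).J (b, c)) ((boxFam B hb hc a ha ha' m).L (b, c)) A),
    (boxFam B hb hc a ha ha' m).Tori D

/-- **the shell of `OpenP`** -/
theorem openP_of {Tub : TubTT} (hK : CentreP) (hT : TorP Tub) : OpenP Tub := by
  intro n X _ _ _ _ C Q hQ H0 L0 e hG B b c hb hc hTub p m hm hgg hrk N hN
  obtain ⟨a, ha, ha'⟩ := Crest.Agent.R281.OpP_396.exists_aq' hG B
  set F := boxFam B hb hc a ha ha' m with hF
  have hn : 1 ≤ n := hQ.n1
  -- `HasN` at the centre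
  have h11 : T11 (ofHk (B.H b c) 0) ((L0.pow m).add ((m : ℝ) • a (b, c))).F :=
    F.f11 (b, c) F.mem
  have h0 : (F.L (b, c)).HasN (F.J (b, c)) N :=
    hN_indep (nnatC (2 * n)) (by omega) hN h11
  obtain ⟨A0, hA0⟩ := F.jc (b, c) F.mem
  obtain ⟨A, hfin, hgood, ⟨P⟩, -, -, ⟨D⟩⟩ := exists_dic hA0 (F.f11 (b, c) F.mem)
  obtain ⟨K, hR⟩ := hK n X C (B.H b c) A hn hgood ⟨P⟩ D.jc
  have hg : Crest.Agent.R281.RkD_902.GG D.lb := gg_dic p hgg D
  have hg' : ∀ i, ∀ x ∈ (A.e i).source, ∃ s, IsHS D.P.lb univ s ∧ s i x ≠ 0 := by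
    intro i x hx
    obtain ⟨s, hs, j, hj, hne⟩ := hg x
    refine ⟨s, hs, ?_⟩
    rw [hs.tr i j x ⟨hx, hj⟩ (mem_univ x)]
    exact mul_ne_zero (LB.ne_zero _ i j x) hne
  have h1 := F.count D hgood P hR hg'
    (hT n X C Q hQ H0 L0 e hG B b c hb hc hTub p m hm hgg hrk a ha ha' A hgood P D) h0
  filter_upwards [h1, (B.oB.prod B.oD).mem_nhds (show (b, c) ∈ B.B ×ˢ B.D from ⟨hb, hc⟩)]
    with q hq hqO
  exact ⟨(m : ℝ) • a q, F.f11 q hqO, hq⟩

end

end Crest.Agent.R281.OpG_941
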