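import Crest.Agent.R281.Defs_273
import Crest.Agent.R281.Rk3_599
import Crest.Agent.R281.RkD_902

-- ▼ part R281/Cl1_548
section

/-!
# R281 (S0424), closure (helper548), level A of DIV 6 / DIV 7

`RkL m L`  : some power of `L` has `m + 1` sections whose ratios have rank `m` at some point;
`END6`     : (DIV 6) the hypotheses of `Main281` and `RkL n L` imply that `L` is semiample;
`RANK281`  : (DIV 7) the hypotheses of `Main281` imply `RkL n L`;
`GROWTH281`: (DIV 7, growth form) `h⁰(L^{kq}) ≥ C(q+n, n)` for all `q`;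
`main281`  : `END6 → RANK281 → Main281`.
-/

set_option autoImplicit false
set_option linter.unusedSectionVars false

open Set Filter Topology Complex
open scoped ContDiff Matrix ComplexConjugate Manifold ComplexOrder

namespace Crest.Agent.R281.Cl_548

open Crest.Agent.R275.Geo Crest.Agent.R275.Core144 Crest.Agent.R275.GC293
open Crest.Agent.R273.Defs_333 Crest.Agent.R273.Kah_333
open Crest.Agent.R281.Defs_273 Crest.Agent.R281.Rk_599

noncomputable section

section Defs

variable {N : ℕ} {M : Type} [TopologicalSpace M] {A : Atl N M}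

/-- some power of `L` has `m + 1` global sections whose `m` ratios have independent differentials
at some point -/
def RkL (m : ℕ) (L : LB A) : Prop :=
  ∃ k : ℕ, 0 < k ∧ ∃ s : Fin (m + 1) → A.ι → M → ℂ,
    (∀ a, IsHS (L ^ k) univ (s a)) ∧ ∃ i x, Rk A s i x

end Defs

/-- **DIV 6 (END)** -/
def END6 : Prop :=
  ∀ (n : ℕ) (M : Type) [TopologicalSpace M] [T2Space M] [CompactSpace M] [SimplyConnectedSpace M]
    (A : Atl (2 * n) M) [Finite A.ι], 1 ≤ n → GoodA A → ∀ (P : Part A) (K : Kah A) (σ : HSymp A),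
    σ.Uniq → ∀ L : LB A, NefW K L → NonFlat L → Isotropic P σ L → RkL n L → SemiAmple L

/-- **DIV 7 (RANK)** -/
def RANK281 : Prop :=
  ∀ (n : ℕ) (M : Type) [TopologicalSpace M] [T2Space M] [CompactSpace M] [SimplyConnectedSpace M]
    (A : Atl (2 * n) M) [Finite A.ι], 1 ≤ n → GoodA A → ∀ (P : Part A) (K : Kah A) (σ : HSymp A),
    σ.Uniq → ∀ L : LB A, NefW K L → NonFlat L → Isotropic P σ L → RkL n L


theorem main281 (h6 : END6) (h7 : RANK281) : Main281 :=
  fun n M _ _ _ _ A _ hn hA P K σ hσ L h1 h2 h3 =>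
    h6 n M A hn hA P K σ hσ L h1 h2 h3 (h7 n M A hn hA P K σ hσ L h1 h2 h3)




end

end Crest.Agent.R281.Cl_548
end

-- ▼ part R281/Rk4_599
section

/-!
# R281 (S0424), S6-RANK part 4 (helper599): rank ⇒ growth

* `eventually_val`  : the ratios at a point of `Rk` take all values near the value at the point
* `poly_zero`       : a polynomial which vanishes on the ratios near a point of `Rk` is zero
* `linInd_mon`      : the monomials of degree `q` in `s_0, .., s_r` are linearly independent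
* `growth_of_rank`  : `(q + r).choose r ≤ h⁰(L ^ (k q))`
* `rank_of_choose`  : `(q + n).choose n ≤ h⁰(L ^ (k q))` for all `q` ⇒ sections of some `L ^ k'` with
                      `n` independent ratios
-/

set_option autoImplicit false
set_option linter.unusedSectionVars false

open Set Filter Topology Complex Metric Asymptotics
open scoped NNReal ENNReal

namespace Crest.Agent.R281.Rk_599

open Crest.Agent.R275.Geo Crest.Agent.R275.Core144 Crest.Agent.R273.Sg1_101
open Crest.Agent.R273.Sg2_101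

noncomputable section

variable {n : ℕ} {M : Type} [TopologicalSpace M] {A : Atl n M}

/-- near a point of `Rk` the ratios take all values near the value at the point -/
theorem eventually_val {L : LB A} {r : ℕ} {s : Fin (r + 1) → A.ι → M → ℂ}
    (hs : ∀ a, IsHS L univ (s a)) {i : A.ι} {z : Cn n} (hz : z ∈ (A.e i).target)
    (h : Rk A s i ((A.e i).symm z)) {Q : Cn r → Prop}
    (hQ : ∀ᶠ w in 𝓝 z, Q (yv A s i w)) : ∀ᶠ p in 𝓝 (yv A s i z), Q p := by
  have h0 := h.2.1
  have hl := h.2.2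
  rw [(A.e i).right_inv hz] at hl
  obtain ⟨v, hv⟩ := exists_dual hl
  have hc := contDiffAt_yv hs hz h0
  have hst := hc.hasStrictFDerivAt one_ne_zero
  have hR : ∀ t, fderiv ℂ (yv A s i) z (rinv v t) = t := by
    intro t
    ext a
    rw [fderiv_yv hs hz h0, rinv_apply, map_sum]
    simp only [map_smul, hv, smul_eq_mul, mul_ite, mul_one, mul_zero]
    rw [Finset.sum_ite_eq Finset.univ a, if_pos (Finset.mem_univ a)]
  have hsurj : (fderiv ℂ (yv A s i) z).range = ⊤ :=
    LinearMap.range_eq_top.2 fun t => ⟨rinv v t, hR t⟩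
  have hmap := hst.map_nhds_eq_of_surj hsurj
  rw [← hmap]
  exact hQ

/-- a polynomial which vanishes on the ratios near a point of `Rk` is zero -/
theorem poly_zero {L : LB A} {r : ℕ} {s : Fin (r + 1) → A.ι → M → ℂ}
    (hs : ∀ a, IsHS L univ (s a)) {i : A.ι} {z : Cn n} (hz : z ∈ (A.e i).target)
    (h : Rk A s i ((A.e i).symm z)) {P : MvPolynomial (Fin r) ℂ}
    (hP : ∀ᶠ w in 𝓝 z, MvPolynomial.eval (fun a => rat A s i a w) P = 0) : P = 0 := by
  have h1 := eventually_val (Q := fun p : Cn r => MvPolynomial.eval (fun a => p a) P = 0) hs hz h hP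
  -- a product of discs
  have h2 : Tendsto (fun u : Fin r → ℂ => (WithLp.toLp 2 u : Cn r)) (𝓝 fun a => yv A s i z a)
      (𝓝 (yv A s i z)) := by
    have h3 : Continuous (fun u : Fin r → ℂ => (WithLp.toLp 2 u : Cn r)) := by fun_prop
    exact h3.tendsto' _ _ (by ext a; rfl)
  have h4 := h2.eventually h1
  obtain ⟨ε, hε, hball⟩ := Metric.eventually_nhds_iff_ball.1 h4
  have h5 : ∀ a, (ball (yv A s i z a) ε).Infinite := fun a =>
    infinite_of_mem_nhds (yv A s i z a) (ball_mem_nhds _ hε)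
  refine MvPolynomial.funext_set (fun a => ball (yv A s i z a) ε) h5 fun x hx => ?_
  have h6 := hball x (by
    rw [mem_ball, dist_pi_lt_iff hε]
    intro a
    exact hx a (mem_univ a))
  rw [map_zero]
  exact h6

/-- the monomials, as sections -/
def mono (A : Atl n M) {r : ℕ} (s : Fin (r + 1) → A.ι → M → ℂ) (α : Fin (r + 1) →₀ ℕ) :
    A.ι → M → ℂ := oneS A * ∏ a, s a ^ α a

theorem isHS_mono {L : LB A} {r : ℕ} {s : Fin (r + 1) → A.ι → M → ℂ}
    (hs : ∀ a, IsHS L univ (s a)) (α : Fin (r + 1) →₀ ℕ) :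
    IsHS (L ^ (∑ a, α a)) univ (mono A s α) := by
  classical
  have h1 : ∀ S : Finset (Fin (r + 1)),
      IsHS (1 * L ^ (∑ a ∈ S, α a)) univ (oneS A * ∏ a ∈ S, s a ^ α a) := by
    intro S
    induction S using Finset.induction_on with
    | empty => simpa using isHS_oneS (A := A) univ
    | insert a S ha ih =>
      rw [Finset.sum_insert ha, Finset.prod_insert ha]
      have h2 := isHS_mul_pow ih (hs a) (α a)
      have e1 : (1 : LB A) * L ^ (∑ a ∈ S, α a) * L ^ α a = 1 * L ^ (α a + ∑ a ∈ S, α a) := by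
        rw [mul_assoc, ← pow_add, add_comm]
      have e2 : (oneS A * ∏ a ∈ S, s a ^ α a) * s a ^ α a =
          oneS A * (s a ^ α a * ∏ a ∈ S, s a ^ α a) := by ring
      rw [e1, e2] at h2
      exact h2
  have h2 := h1 Finset.univ
  rw [one_mul] at h2
  exact h2

/-- the monomials of degree `q` are linearly independent -/
theorem linInd_mono {L : LB A} {r : ℕ} {s : Fin (r + 1) → A.ι → M → ℂ}
    (hs : ∀ a, IsHS L univ (s a)) {i : A.ι} {x : M} (h : Rk A s i x) (q : ℕ) :
    LinearIndependent ℂ (fun α : ((Finset.univ : Finset (Fin (r + 1))).finsuppAntidiag q) =>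
      mono A s α.1) := by
  classical
  rw [Fintype.linearIndependent_iff]
  intro c hc
  set z := A.e i x with hz
  have hzt : z ∈ (A.e i).target := (A.e i).map_source h.1
  have hzx : (A.e i).symm z = x := (A.e i).left_inv h.1
  have h' : Rk A s i ((A.e i).symm z) := by rwa [hzx]
  have h0 : rd A i (s 0) z ≠ 0 := h'.2.1
  have hne : ∀ᶠ w in 𝓝 z, rd A i (s 0) w ≠ 0 :=
    (analyticOnNhd_rd (hs 0) i z hzt).continuousAt.eventually_ne h0
  -- the dehomogenised exponents
  set β : ((Finset.univ : Finset (Fin (r + 1))).finsuppAntidiag q) → (Fin r →₀ ℕ) := fun α =>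
    Finsupp.equivFunOnFinite.symm fun a => α.1 a.succ with hβ
  have hβa : ∀ α a, β α a = α.1 a.succ := fun α a => rfl
  have hsum : ∀ α : ((Finset.univ : Finset (Fin (r + 1))).finsuppAntidiag q),
      α.1 0 + ∑ a : Fin r, α.1 a.succ = q := by
    intro α
    have h1 : ∑ a, α.1 a = q := (Finset.mem_finsuppAntidiag.1 α.2).1
    rw [Fin.sum_univ_succ] at h1
    exact h1
  have hinj : Function.Injective β := by
    intro α α' hαα'
    refine Subtype.ext (Finsupp.ext fun a => ?_)
    have h1 : ∀ b : Fin r, α.1 b.succ = α'.1 b.succ := fun b => by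
      rw [← hβa, ← hβa, hαα']
    refine Fin.cases ?_ h1 a
    have h2 := hsum α
    have h3 := hsum α'
    rw [Finset.sum_congr rfl fun b _ => h1 b] at h2
    omega
  set P : MvPolynomial (Fin r) ℂ := ∑ α, MvPolynomial.monomial (β α) (c α) with hP
  have hP0 : P = 0 := by
    refine poly_zero hs hzt h' ?_
    filter_upwards [hne, (A.e i).open_target.mem_nhds hzt] with w hw hwt
    have hws := (A.e i).map_target hwt
    have h1 := congrFun (congrFun hc i) ((A.e i).symm w)
    simp only [Finset.sum_apply, Pi.smul_apply, smul_eq_mul, Pi.zero_apply] at h1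
    have hw' : s 0 i ((A.e i).symm w) ≠ 0 := hw
    have h2 : ∀ α : ((Finset.univ : Finset (Fin (r + 1))).finsuppAntidiag q),
        mono A s α.1 i ((A.e i).symm w) =
          s 0 i ((A.e i).symm w) ^ q * ∏ a, rat A s i a w ^ β α a := by
      intro α
      have h3 : oneS A i ((A.e i).symm w) = 1 := by simp [oneS, hws]
      simp only [mono, Pi.mul_apply, Finset.prod_apply, Pi.pow_apply, h3, one_mul]
      rw [Fin.prod_univ_succ]
      have h4 : ∀ a : Fin r, s a.succ i ((A.e i).symm w) ^ α.1 a.succ =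
          s 0 i ((A.e i).symm w) ^ α.1 a.succ * rat A s i a w ^ β α a := by
        intro a
        rw [hβa, ← mul_pow]
        congr 1
        unfold rat
        field_simp
      rw [Finset.prod_congr rfl fun a _ => h4 a, Finset.prod_mul_distrib, ← mul_assoc,
        Finset.prod_pow_eq_pow_sum, ← pow_add, hsum α]
    simp only [h2] at h1
    have h5 : s 0 i ((A.e i).symm w) ^ q *
        MvPolynomial.eval (fun a => rat A s i a w) P = 0 := by
      rw [← h1, hP, map_sum, Finset.mul_sum]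
      refine Finset.sum_congr rfl fun α _ => ?_
      rw [MvPolynomial.eval_monomial, Finsupp.prod_fintype _ _ (fun a => by simp)]
      ring
    exact (mul_eq_zero.1 h5).resolve_left (pow_ne_zero _ hw')
  intro α
  have h1 : MvPolynomial.coeff (β α) P = c α := by
    rw [hP, MvPolynomial.coeff_sum, Finset.sum_eq_single α]
    · rw [MvPolynomial.coeff_monomial, if_pos rfl]
    · intro α' _ hne'
      rw [MvPolynomial.coeff_monomial, if_neg fun h => hne' (hinj h)]
    · intro h
      exact absurd (Finset.mem_univ α) h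
  rw [← h1, hP0, MvPolynomial.coeff_zero]

/-- **rank ⇒ growth** -/
theorem growth_of_rank [CompactSpace M] [T2Space M] {L : LB A} {k r : ℕ}
    {s : Fin (r + 1) → A.ι → M → ℂ} (hs : ∀ a, IsHS (L ^ k) univ (s a)) {i : A.ι} {x : M}
    (h : Rk A s i x) (q : ℕ) : (q + r).choose r ≤ Module.finrank ℂ (HS (L ^ (k * q)) univ) := by
  classical
  obtain ⟨T⟩ := exists_net A
  obtain ⟨c, hc⟩ := exists_Bd T (L ^ (k * q))
  have hfin : Module.Finite ℂ (HS (L ^ (k * q)) univ) := fin_HS hc
  have hmem : ∀ α : ((Finset.univ : Finset (Fin (r + 1))).finsuppAntidiag q),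
      mono A s α.1 ∈ HS (L ^ (k * q)) univ := by
    intro α
    have h1 := isHS_mono hs α.1
    have h2 : ∑ a, α.1 a = q := (Finset.mem_finsuppAntidiag.1 α.2).1
    rw [h2, ← pow_mul] at h1
    exact h1
  have hli : LinearIndependent ℂ (fun α : ((Finset.univ : Finset (Fin (r + 1))).finsuppAntidiag q) =>
      (⟨mono A s α.1, hmem α⟩ : HS (L ^ (k * q)) univ)) := by
    refine LinearIndependent.of_comp (HS (L ^ (k * q)) univ).subtype ?_
    exact linInd_mono hs h q
  have h1 := hli.fintype_card_le_finrank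
  rw [Fintype.card_coe, Finset.card_finsuppAntidiag_nat_eq_choose, Finset.card_univ,
    Fintype.card_fin] at h1
  have h2 : (r + 1 + q - 1).choose q = (q + r).choose r := by
    have h3 : r + 1 + q - 1 = q + r := by omega
    rw [h3, Nat.choose_symm_add]
  rwa [h2] at h1


end

end Crest.Agent.R281.Rk_599
end

-- ▼ part R281/Rank281_902

/-!
# R281 (S0424), RANK281 (helper902): the composition of the nodes of `RkD_902`

`rank281_of` : all nodes (T0)-(T9) and `END6` imply `Sk_474.RANK281`.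
-/

set_option autoImplicit false
set_option linter.unusedSectionVars false
set_option maxSynthPendingDepth 3

open Set Filter Topology
open scoped ContDiff

namespace Crest.Agent.R281.Rank281_902

open Crest.Agent.R275.Geo Crest.Agent.R275.Core144 Crest.Agent.R275.GC293
open Crest.Agent.R273.Defs_333 Crest.Agent.R273.Kah_333
open Crest.Agent.R260.ACM_580 Crest.Agent.R260.NNB_580
open Crest.Agent.R281.Defs_273 Crest.Agent.R281.Rk_599
open Crest.Agent.R281.HkR_835 Crest.Agent.R281.Ti_846 Crest.Agent.R281.Cdr_234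
open Crest.Agent.R281.Dif_268 Crest.Agent.R281.PL_713
open Crest.Agent.R281.NefO_476 Crest.Agent.R281.Nef_252
open Crest.Agent.R281.Alg_998 Crest.Agent.R281.RkD_902

noncomputable section

section lemmas

variable {V X : Type} [NormedAddCommGroup V] [NormedSpace ℝ V] [TopologicalSpace X]
  {C : RCh V X}

/-! ### small lemmas -/


theorem hN_congr {L : PL C} {J J' : AJ C} {N : ℕ}
    (h : ∀ i, ∀ z ∈ (C.e i).target, J.J i z = J'.J i z) (hJ : hN L J N) : hN L J' N := by
  obtain ⟨a, ha, v, hv, hv'⟩ := hJ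
  refine ⟨a, fun i z hz u v => ?_, v, hv, fun k i z hz w => ?_⟩
  · rw [← h i z hz]
    exact ha i z hz u v
  · have := hv' k i z hz w
    unfold Sec.db at this ⊢
    rw [← h i z hz]
    exact this

end lemmas

section ctx

variable {n : ℕ} {X : Type} [TopologicalSpace X] [CompactSpace X] {C : RCh (Cn (2 * n)) X}
  {Q : F2 C →ₗ[ℝ] F2 C →ₗ[ℝ] ℝ}

theorem cl_left (hc : Ctx n C Q) {x x' y : F2 C} (h : Cl x x') : Q x y = Q x' y := by
  have := hc.ex _ y h
  rw [map_sub, LinearMap.sub_apply] at this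
  linarith

theorem cl_right (hc : Ctx n C Q) {x x' y : F2 C} (h : Cl x x') : Q y x = Q y x' := by
  rw [hc.symm, hc.symm y]
  exact cl_left hc h

theorem q_lc (hc : Ctx n C Q) {H0 : HkT C} {e : F2 C} (B : Box Q H0 e)
    (b : Fin B.m → ℝ) : Q e (lco B.bas b) = 0 := by
  unfold lco
  rw [map_sum]
  refine Finset.sum_eq_zero fun j _ => ?_
  rw [map_smul, hc.symm, B.orth j, smul_zero]

/-- `e` at the members of the box -/
theorem given_box (hc : Ctx n C Q) {H0 : HkT C} {L0 : PL C} {e : F2 C}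
    (h : Given Q H0 L0 e) (B : Box Q H0 e) {b c : Fin B.m → ℝ} (hb : b ∈ B.B) (hd : c ∈ B.D) :
    Given Q (B.H b c) L0 e := by
  refine ⟨B.pos2 b hb c hd, h.int, h.lnk, h.ee, ?_, ?_, B.pos b hb c hd⟩
  · obtain ⟨s, -, h1⟩ := B.cl1 b hb c hd
    rw [cl_right hc h1, map_smul, q_lc hc B, smul_zero]
  · obtain ⟨s, t, -, h1⟩ := B.cl2 b hb c hd
    rw [cl_right hc h1, map_add, map_smul, map_smul, q_lc hc B, q_lc hc B, smul_zero, smul_zero,
      add_zero]

end ctx

section lemmas2

variable {X : Type} [TopologicalSpace X]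

theorem continuous_seg {m : ℕ} (b b' : Fin m → ℝ) : Continuous (seg b b') := by
  unfold seg
  fun_prop

@[simp] theorem seg_zero {m : ℕ} (b b' : Fin m → ℝ) : seg b b' 0 = b := by simp [seg]
@[simp] theorem seg_one {m : ℕ} (b b' : Fin m → ℝ) : seg b b' 1 = b' := by simp [seg]

theorem seg_mem {m : ℕ} {S : Set (Fin m → ℝ)} (hS : Convex ℝ S) {b b' : Fin m → ℝ} (hb : b ∈ S)
    (hb' : b' ∈ S) {s : ℝ} (hs : s ∈ Icc (0 : ℝ) 1) : seg b b' s ∈ S :=
  hS hb hb' (by linarith [hs.2]) hs.1 (by ring)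

/-- global generation of powers -/
theorem gg_pow {N : ℕ} {A : Atl N X} {L : LB A} (h : GG L) {m : ℕ} (hm : 0 < m) : GG (L ^ m) := by
  intro x
  obtain ⟨s, hs, i, hi, hx⟩ := h x
  exact ⟨_, isHS_pow hs m hm, i, hi, pow_ne_zero m hx⟩

/-- the ratios of the sections `s_a s_0^(j-1)` of `L^(k j)` are those of the `s_a` -/
theorem rk_pow {N : ℕ} {A : Atl N X} {L : LB A} {k r : ℕ} {s : Fin (r + 1) → A.ι → X → ℂ}
    (hs : ∀ a, IsHS (L ^ k) univ (s a)) {i : A.ι} {x : X} (h : Rk A s i x) {j : ℕ} (hj : 0 < j) :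
    ∃ t : Fin (r + 1) → A.ι → X → ℂ, (∀ a, IsHS (L ^ (k * j)) univ (t a)) ∧
      ∃ i x, Rk A t i x := by
  obtain ⟨j, rfl⟩ : ∃ l, j = l + 1 := ⟨j - 1, by omega⟩
  refine ⟨fun a => s a * s 0 ^ j, fun a => ?_, i, x, h.1, ?_, ?_⟩
  · rcases Nat.eq_zero_or_pos j with h0 | h0
    · subst h0
      simpa using hs a
    · have h1 := (hs a).mul (isHS_pow (hs 0) j h0)
      rwa [← pow_mul, ← pow_add, show k + k * j = k * (j + 1) by ring] at h1
  · exact mul_ne_zero h.2.1 (pow_ne_zero j h.2.1)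
  · have h1 : ∀ a, rat A (fun a => s a * s 0 ^ j) i a = rat A s i a := by
      intro a
      funext z
      show s a.succ i ((A.e i).symm z) * s 0 i ((A.e i).symm z) ^ j /
        (s 0 i ((A.e i).symm z) * s 0 i ((A.e i).symm z) ^ j) = _
      by_cases h0 : s 0 i ((A.e i).symm z) = 0
      · unfold rat
        rw [h0, zero_mul, div_zero, div_zero]
      · exact mul_div_mul_right _ _ (pow_ne_zero j h0)
    simp only [h1]
    exact h.2.2

end lemmas2

/-! ### the transport along the two moves -/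

/-- (T7) + (T8): a bound at the box member `(a, c)` holds at `(b₀, c₀)` -/
theorem transport {Tub : TubTT} (h9 : OpenP Tub) (h10 : SemiP) {n : ℕ} {X : Type}
    [TopologicalSpace X] [CompactSpace X] [T2Space X] [SimplyConnectedSpace X]
    {C : RCh (Cn (2 * n)) X}
    {Q : F2 C →ₗ[ℝ] F2 C →ₗ[ℝ] ℝ} (hc : Ctx n C Q) {H0 : HkT C} {L0 : PL C} {e : F2 C}
    (hg : Given Q H0 L0 e) (B : Box Q H0 e) {a c : Fin B.m → ℝ} (ha : a ∈ B.B) (hd : c ∈ B.D)
    (ht : Tub n X C Q e (B.H a c)) (p : Pres n (B.H a c) L0) {m : ℕ} (hm : 0 < m)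
    (hgg : GG (p.L ^ m))
    (hrk : ∃ t : Fin (n + 1) → p.A.ι → X → ℂ, (∀ a, IsHS (p.L ^ m) univ (t a)) ∧
      ∃ i x, Rk p.A t i x) {N : ℕ} (hN1 : hN (L0.pow m) (ofHk (B.H a c) 0) N) :
    hN (L0.pow m) (ofHk H0 0) N := by
  have ho := h9 n X C Q hc H0 L0 e hg B a c ha hd ht p m hm hgg hrk N hN1
  rw [nhds_prod_eq] at ho
  obtain ⟨P1, hP1, P2, hP2, hP⟩ := Filter.eventually_prod_iff.1 ho
  -- first: `c` moves to `c₀`
  have key : ∀ b ∈ B.B, P1 b → hN (L0.pow m) (ofHk (B.H b B.c0) 0) N := by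
    intro b hb hb1
    obtain ⟨G, hG, hs⟩ := B.mv2 b hb B.c0 B.c0D c hd
    have h1 := h10 n X C Q hc L0 e G (fun s => B.H b (seg B.c0 c s)) hG hs
      (fun s hs => given_box hc hg B hb (seg_mem B.cD B.c0D hd hs)) m N ?_
    · simpa only [seg_zero] using h1
    · have h2 : Tendsto (seg B.c0 c) (𝓝[≤] (1 : ℝ)) (𝓝 c) := by
        have := (continuous_seg B.c0 c).tendsto 1
        rw [seg_one] at this
        exact this.mono_left nhdsWithin_le_nhds
      filter_upwards [h2.eventually hP2] with s hs2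
      exact hP hb1 hs2
  -- then: `b` moves to `b₀`
  obtain ⟨G, hG, hs⟩ := B.mv1 B.b0 B.b0B a ha
  have h1 := h10 n X C Q hc L0 e G (fun s => B.H (seg B.b0 a s) B.c0) hG hs
    (fun s hs => given_box hc hg B (seg_mem B.cB B.b0B ha hs) B.c0D) m N ?_
  · have h3 : hN (L0.pow m) (ofHk (B.H B.b0 B.c0) 0) N := by simpa only [seg_zero] using h1
    exact hN_congr (fun i z hz => B.J0 i z hz) h3
  · have h2 : Tendsto (seg B.b0 a) (𝓝[≤] (1 : ℝ)) (𝓝 a) := by
      have := (continuous_seg B.b0 a).tendsto 1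
      rw [seg_one] at this
      exact this.mono_left nhdsWithin_le_nhds
    filter_upwards [h2.eventually hP1, h2.eventually (B.oB.mem_nhds ha)] with s h4 h5
    exact key _ h5 h4

/-! ### the growth at the given structure -/

/-- the growth of `h⁰(L0^(m q))` at the given structure -/
theorem growth {Alg : AlgTT} {Tub : TubTT} (h1 : BoxP) (h2 : RoadP Alg) (h3 : ChartEndP Alg)
    (h4 : NefRayP Alg) (h5 : ToriP Alg Tub) (h6 : PresP) (h7 : MemHypP) (h8 : KappaP Alg Tub)
    (hE : Sk_474.END6) (h9 : OpenP Tub) (h10 : SemiP) {n : ℕ} {X : Type}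
    [TopologicalSpace X] [CompactSpace X] [T2Space X] [SimplyConnectedSpace X]
    {C : RCh (Cn (2 * n)) X}
    {Q : F2 C →ₗ[ℝ] F2 C →ₗ[ℝ] ℝ} (hc : Ctx n C Q) {H0 : HkT C} {L0 : PL C} {e : F2 C}
    (hg : Given Q H0 L0 e) :
    ∃ m : ℕ, 0 < m ∧ ∀ q : ℕ, 0 < q → hN (L0.pow (m * q)) (ofHk H0 0) ((q + n).choose n) := by
  obtain ⟨B⟩ := h1 n X C Q hc H0 L0 e hg
  obtain ⟨R⟩ := h2 n X C Q hc H0 L0 e hg B
  obtain ⟨δ, hδ, hiso⟩ := h3 n X C Q hc H0 L0 e hg B R
  -- a rational `x` near `x₁`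
  have hD : ∀ᶠ x in 𝓝 R.x1, R.c x ∈ B.D :=
    R.c_cont.continuousAt.eventually (B.oD.mem_nhds R.cD)
  have hd : ∀ᶠ x in 𝓝 R.x1, |x - R.x1| < δ := by
    have := Metric.ball_mem_nhds R.x1 hδ
    filter_upwards [this] with x hx
    rwa [Metric.mem_ball, Real.dist_eq] at hx
  obtain ⟨x, hx⟩ := (Rat.denseRange_cast (𝕜 := ℝ)).exists_mem_open isOpen_interior
    (nonempty_of_mem (mem_interior_iff_mem_nhds.2 (hD.and hd)))
  obtain ⟨hxD, hxδ⟩ := interior_subset hx
  set H1 := B.H R.a (R.c x) with hH1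
  have hE1 : EndIso R x := hiso x hxδ
  have hg1 : Given Q H1 L0 e := given_box hc hg B R.aB hxD
  have hnef := h4 n X C Q hc H0 L0 e hg B R x hxD hE1
  have htub := h5 n X C Q hc H0 L0 e hg B R x hxD hE1
  obtain ⟨p⟩ := h6 n X C Q hc H1 L0 e hg1
  obtain ⟨k, hk, s, hs, i, y, hrk⟩ := h8 n X C Q hc H0 L0 e hg B R x hxD hE1 hnef htub p
  obtain ⟨K, σ, hu, hn, hf, hi⟩ := h7 n X C Q hc H1 L0 e hg1 hnef p
  have := p.fin
  obtain ⟨m0, hm0, hgg⟩ := hE n X p.A hc.n1 p.good p.P K σ hu p.L hn hf hi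
    ⟨k, hk, s, hs, i, y, hrk⟩
  refine ⟨k * m0, Nat.mul_pos hk hm0, fun q hq => ?_⟩
  have hm : 0 < k * m0 * q := Nat.mul_pos (Nat.mul_pos hk hm0) hq
  have hg2 : GG (p.L ^ (k * m0 * q)) := by
    have h : GG ((p.L ^ m0) ^ (k * q)) := gg_pow hgg (Nat.mul_pos hk hq)
    rwa [← pow_mul, show m0 * (k * q) = k * m0 * q by ring] at h
  have hgr := growth_of_rank hs hrk (m0 * q)
  have hle : (q + n).choose n ≤ (m0 * q + n).choose n :=
    Nat.choose_le_choose n (by nlinarith)
  have hN1 : hN (L0.pow (k * m0 * q)) (ofHk H1 0) ((q + n).choose n) := by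
    refine p.sec _ _ ?_
    rw [mul_assoc]
    exact hle.trans hgr
  refine transport h9 h10 hc hg B R.aB hxD htub p hm hg2 ?_ hN1
  have h := rk_pow hs hrk (Nat.mul_pos hm0 hq)
  rwa [← mul_assoc] at h

/-- **RANK281** from the nodes -/
theorem rank281_of {Alg : AlgTT} {Tub : TubTT} (h0 : SetupP) (h1 : BoxP) (h2 : RoadP Alg)
    (h3 : ChartEndP Alg) (h4 : NefRayP Alg) (h5 : ToriP Alg Tub) (h6 : PresP) (h7 : MemHypP)
    (h8 : KappaP Alg Tub) (hE : Sk_474.END6) (h9 : OpenP Tub) (h10 : SemiP) :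
    Sk_474.RANK281 := by
  intro n M _ _ _ _ A _ hn hA P K σ hσ L hnef hnf hiso
  obtain ⟨Q, H0, L0, e, hc, hg, hfin⟩ := h0 n M A hn hA P K σ hσ L hnef hnf hiso
  obtain ⟨m, hm, hq⟩ := growth h1 h2 h3 h4 h5 h6 h7 h8 hE h9 h10 hc hg
  obtain ⟨d, rfl⟩ : ∃ d, n = d + 1 := ⟨n - 1, by omega⟩
  refine rank_of_growth d fun c => ?_
  set q := c * m ^ d * (d + 1).factorial + 1 with hqd
  refine ⟨m * q, lt_of_lt_of_le ?_ (hfin _ _ (hq q (by omega)))⟩
  have h1 : (q + 1) ^ (d + 1) ≤ (d + 1).factorial * (q + (d + 1)).choose (d + 1) := by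
    have h2 := Nat.pow_succ_le_ascFactorial (q + 1) (d + 1)
    rw [Nat.ascFactorial_eq_factorial_mul_choose] at h2
    exact h2
  have h3 : c * (m * q + 1) ^ d * (d + 1).factorial < (q + 1) ^ (d + 1) := by
    have h4 : m * q + 1 ≤ m * (q + 1) := by nlinarith
    calc c * (m * q + 1) ^ d * (d + 1).factorial ≤ c * (m * (q + 1)) ^ d * (d + 1).factorial := by
          gcongr
      _ = (c * m ^ d * (d + 1).factorial) * (q + 1) ^ d := by rw [mul_pow]; ring
      _ < (q + 1) * (q + 1) ^ d := by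
          have h5 : 0 < (q + 1) ^ d := by positivity
          refine Nat.mul_lt_mul_of_pos_right ?_ h5
          omega
      _ = (q + 1) ^ (d + 1) := by ring
  have h6 : c * (m * q + 1) ^ d * (d + 1).factorial <
      (q + (d + 1)).choose (d + 1) * (d + 1).factorial := by
    rw [mul_comm ((q + (d + 1)).choose (d + 1))]
    exact h3.trans_le h1
  exact lt_of_mul_lt_mul_right h6 (Nat.zero_le _)

end

end Crest.Agent.R281.Rank281_902
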