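import Mathlib
import Crest.Agent.R281.Yv5_900

-- ▼ part R281/Yv1_900
section

/-!
# Row 281, YAU-VAR (helper900), part 1: abstract implicit function theorem in closed subspaces

* `contDiffOn_of_isometry` : a map into a complete subspace is smooth iff it is smooth in the
  big space.
* `exists_curve` (**V0-ABS**): `J`, `H` Banach, `j : E → J`, `h : E → H` linear, `X`, `Y` the
  closures of the ranges, `G : P × J → H` smooth, `G (p, j f) ∈ Y`, linearisation at `(p₀, 0)`
  onto `Y` modulo a line with estimate on the dense subspaces: a smooth solution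
  `p ↦ (u p, m p)` of `G (p, u) = (1 + m) e`, `ev u = 0`.
-/

set_option autoImplicit false

open Set Filter Topology
open scoped ContDiff

namespace Crest.Agent.R281.Yv_900

noncomputable section

universe u

section iso

/-- post-composition with a linear isometry -/
def postIso (E : Type u) {S W : Type u} [NormedAddCommGroup E] [NormedSpace ℝ E]
    [NormedAddCommGroup S] [NormedSpace ℝ S] [NormedAddCommGroup W] [NormedSpace ℝ W]
    (i : S →ₗᵢ[ℝ] W) : (E →L[ℝ] S) →ₗᵢ[ℝ] (E →L[ℝ] W) where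
  toFun B := i.toContinuousLinearMap.comp B
  map_add' A B := by ext; simp
  map_smul' c A := by ext; simp
  norm_map' B := by
    show ‖i.toContinuousLinearMap.comp B‖ = ‖B‖
    exact i.norm_toContinuousLinearMap_comp

theorem exists_lift {E S W : Type u} [NormedAddCommGroup E] [NormedSpace ℝ E]
    [NormedAddCommGroup S] [NormedSpace ℝ S] [CompleteSpace S]
    [NormedAddCommGroup W] [NormedSpace ℝ W]
    (i : S →ₗᵢ[ℝ] W) {g : E → S} {A : E →L[ℝ] W} {x : E}
    (h : HasFDerivAt (fun y => i (g y)) A x) :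
    ∃ B : E →L[ℝ] S, i.toContinuousLinearMap.comp B = A ∧ HasFDerivAt g B x := by
  have hcl : IsClosed (Set.range i) := i.isometry.isClosedEmbedding.isClosed_range
  have hmem : ∀ v, A v ∈ Set.range i := by
    intro v
    have h1 : HasDerivAt (fun t : ℝ => i (g (x + t • v))) (A v) 0 := by
      have h2 : HasFDerivAt (fun y => i (g y)) A (x + (0 : ℝ) • v) := by simpa using h
      have h3 : HasDerivAt (fun t : ℝ => x + t • v) v 0 := by
        simpa using ((hasDerivAt_id (0 : ℝ)).smul_const v).const_add x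
      exact h2.comp_hasDerivAt (0 : ℝ) h3
    have h4 := h1.tendsto_slope_zero
    refine hcl.mem_of_tendsto h4 (Eventually.of_forall fun t => ?_)
    refine ⟨t⁻¹ • (g (x + (0 + t) • v) - g (x + (0 : ℝ) • v)), ?_⟩
    simp
  have hker : LinearMap.ker i.toLinearMap = ⊥ := LinearMap.ker_eq_bot.2 i.injective
  set B : E →ₗ[ℝ] S := (LinearEquiv.ofInjective i.toLinearMap i.injective).symm.toLinearMap ∘ₗ
    LinearMap.codRestrict (LinearMap.range i.toLinearMap) A.toLinearMap (fun v => by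
      obtain ⟨s, hs⟩ := hmem v
      exact ⟨s, hs⟩) with hB
  have hiB : ∀ v, i (B v) = A v := by
    intro v
    have := LinearEquiv.apply_symm_apply (LinearEquiv.ofInjective i.toLinearMap i.injective)
      (LinearMap.codRestrict (LinearMap.range i.toLinearMap) A.toLinearMap (fun v => by
        obtain ⟨s, hs⟩ := hmem v
        exact ⟨s, hs⟩) v)
    exact congrArg Subtype.val this
  set B' : E →L[ℝ] S := B.mkContinuous ‖A‖ (fun v => by
    rw [← i.norm_map, hiB]
    exact A.le_opNorm v) with hB'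
  have hiB' : ∀ v, i (B' v) = A v := hiB
  refine ⟨B', by ext v; exact hiB' v, ?_⟩
  rw [hasFDerivAt_iff_isLittleO] at h ⊢
  refine Asymptotics.IsLittleO.congr_left ?_ (fun y => rfl)
  have h5 : ∀ y, ‖g y - g x - B' (y - x)‖ = ‖i (g y) - i (g x) - A (y - x)‖ := by
    intro y
    rw [← i.norm_map, map_sub, map_sub, hiB']
  rw [← Asymptotics.isLittleO_norm_left] at h ⊢
  simpa only [h5] using h

theorem contDiffOn_nat_of_isometry (k : ℕ) :
    ∀ {E S W : Type u} [NormedAddCommGroup E] [NormedSpace ℝ E]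
    [NormedAddCommGroup S] [NormedSpace ℝ S] [CompleteSpace S]
    [NormedAddCommGroup W] [NormedSpace ℝ W]
    (i : S →ₗᵢ[ℝ] W) {g : E → S} {U : Set E}, IsOpen U →
    ContDiffOn ℝ k (fun y => i (g y)) U → ContDiffOn ℝ k g U := by
  induction k with
  | zero =>
    intro E S W _ _ _ _ _ _ _ i g U hU h
    simp only [CharP.cast_eq_zero, contDiffOn_zero] at h ⊢
    exact (i.isometry.isEmbedding.isInducing.continuousOn_iff).2 h
  | succ k ih =>
    intro E S W _ _ _ _ _ _ _ i g U hU h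
    have hk : ((k + 1 : ℕ) : WithTop ℕ∞) = (k : WithTop ℕ∞) + 1 := by push_cast; rfl
    rw [hk, contDiffOn_succ_iff_fderiv_of_isOpen hU] at h ⊢
    obtain ⟨h1, -, h3⟩ := h
    have hl : ∀ x ∈ U, ∃ B : E →L[ℝ] S, i.toContinuousLinearMap.comp B =
        fderiv ℝ (fun y => i (g y)) x ∧ HasFDerivAt g B x := fun x hx =>
      exists_lift i ((h1 x hx).differentiableAt (hU.mem_nhds hx)).hasFDerivAt
    refine ⟨fun x hx => ?_, fun hh => ?_, ?_⟩
    · obtain ⟨B, -, hB⟩ := hl x hx
      exact hB.differentiableAt.differentiableWithinAt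
    · exact absurd hh (by simp)
    · refine ih (postIso E i) hU (h3.congr fun x hx => ?_)
      obtain ⟨B, hB1, hB2⟩ := hl x hx
      rw [hB2.fderiv, ← hB1]
      rfl

/-- **a map into a complete subspace is smooth iff it is smooth in the big space** -/
theorem contDiffOn_of_isometry {E S W : Type u} [NormedAddCommGroup E] [NormedSpace ℝ E]
    [NormedAddCommGroup S] [NormedSpace ℝ S] [CompleteSpace S]
    [NormedAddCommGroup W] [NormedSpace ℝ W]
    (i : S →ₗᵢ[ℝ] W) {g : E → S} {U : Set E} (hU : IsOpen U)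
    (h : ContDiffOn ℝ ∞ (fun y => i (g y)) U) : ContDiffOn ℝ ∞ g U :=
  contDiffOn_infty.2 fun k => contDiffOn_nat_of_isometry k i hU (contDiffOn_infty.1 h k)

end iso

end

end Crest.Agent.R281.Yv_900
end

-- ▼ part R281/Yv2_900
section

/-!
# Row 281, YAU-VAR (helper900), part 2: abstract implicit function theorem in closed subspaces

`ift_aux`, `exists_sol_op`, `exists_curve` (**V0-ABS**).
-/

set_option autoImplicit false
set_option linter.unusedSectionVars false

open Set Filter Topology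
open scoped ContDiff

namespace Crest.Agent.R281.Yv_900

noncomputable section

universe u

section ift

variable {P J H : Type u} [NormedAddCommGroup P] [NormedSpace ℝ P] [CompleteSpace P]
  [NormedAddCommGroup J] [NormedSpace ℝ J]
  [NormedAddCommGroup H] [NormedSpace ℝ H]

theorem hasFDerivAt_of_isometry {E S W : Type u} [NormedAddCommGroup E] [NormedSpace ℝ E]
    [NormedAddCommGroup S] [NormedSpace ℝ S] [CompleteSpace S]
    [NormedAddCommGroup W] [NormedSpace ℝ W]
    (i : S →ₗᵢ[ℝ] W) {g : E → S} {B : E →L[ℝ] S} {x : E}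
    (h : HasFDerivAt (fun y => i (g y)) (i.toContinuousLinearMap.comp B) x) :
    HasFDerivAt g B x := by
  obtain ⟨B', h1, h2⟩ := exists_lift i h
  have : B' = B := by
    ext v
    have := congrArg (fun T : E →L[ℝ] W => T v) h1
    exact i.injective (by simpa using this)
  rwa [← this]

/-- implicit function theorem in closed subspaces, with a given right inverse -/
theorem ift_aux (X : Submodule ℝ J) (Y : Submodule ℝ H) [CompleteSpace X] [CompleteSpace Y]
    {W : Set P} (hW : IsOpen W) {p₀ : P} (hp : p₀ ∈ W) {O : Set J} (hO : IsOpen O)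
    (h0 : (0 : J) ∈ O) {G : P → J → H}
    (hG : ContDiffOn ℝ ∞ (fun q : P × J => G q.1 q.2) (W ×ˢ O))
    (hY : ∀ p ∈ W, ∀ x ∈ X, x ∈ O → G p x ∈ Y)
    (e : Y) (he : G p₀ 0 = e) (S : Y →L[ℝ] X) (μ : Y →L[ℝ] ℝ)
    (hS : ∀ y : Y, fderiv ℝ (G p₀) 0 (S y) - μ y • (e : H) = y) :
    ∃ y : P → Y, ContDiffAt ℝ ∞ y p₀ ∧ y p₀ = 0 ∧
      ∀ᶠ p in 𝓝 p₀, p ∈ W ∧ (S (y p) : J) ∈ O ∧ G p (S (y p)) = (1 + μ (y p)) • (e : H) := by
  classical
  set i : Y →ₗᵢ[ℝ] H := Y.subtypeₗᵢ with hi
  set s : P × Y →L[ℝ] P × J := (ContinuousLinearMap.id ℝ P).prodMap (X.subtypeL.comp S) with hs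
  have hs' : ∀ q : P × Y, s q = (q.1, (S q.2 : J)) := fun q => rfl
  set D : Set (P × Y) := s ⁻¹' (W ×ˢ O) with hD
  have hDo : IsOpen D := (hW.prod hO).preimage s.continuous
  have hmem : ∀ q ∈ D, G q.1 (S q.2) - (1 + μ q.2) • (e : H) ∈ Y := fun q hq =>
    Y.sub_mem (hY q.1 hq.1 _ (S q.2).2 hq.2) (Y.smul_mem _ e.2)
  set F : P × Y → Y := fun q => if h : q ∈ D then
    ⟨G q.1 (S q.2) - (1 + μ q.2) • (e : H), hmem q h⟩ else 0 with hF
  have hiF : ∀ q ∈ D, i (F q) = G q.1 (S q.2) - (1 + μ q.2) • (e : H) := by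
    intro q hq
    simp only [hF, dif_pos hq]
    rfl
  have hsm : ContDiffOn ℝ ∞ (fun q : P × Y => G q.1 (S q.2) - (1 + μ q.2) • (e : H)) D := by
    have h1 : ContDiffOn ℝ ∞ (fun q : P × Y => G (s q).1 (s q).2) D :=
      hG.comp s.contDiff.contDiffOn fun q hq => hq
    refine ContDiffOn.sub h1 ?_
    exact ((contDiff_const.add (μ.contDiff.comp contDiff_snd)).smul contDiff_const).contDiffOn
  have hFs : ContDiffOn ℝ ∞ F D := contDiffOn_of_isometry i hDo (hsm.congr hiF)
  have hD0 : ((p₀, 0) : P × Y) ∈ D := by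
    refine ⟨hp, ?_⟩
    show ((S (0 : Y) : X) : J) ∈ O
    simpa using h0
  have hFat : ContDiffAt ℝ ∞ F (p₀, 0) := hFs.contDiffAt (hDo.mem_nhds hD0)
  have hF0 : F (p₀, 0) = 0 := by
    apply i.injective
    rw [hiF _ hD0]
    simp [he]
  -- partial derivative
  have hG1 : HasFDerivAt (G p₀) (fderiv ℝ (G p₀) 0) 0 := by
    have h1 : ContDiffAt ℝ ∞ (fun q : P × J => G q.1 q.2) (p₀, 0) :=
      hG.contDiffAt ((hW.prod hO).mem_nhds ⟨hp, h0⟩)
    have h2 : ContDiffAt ℝ ∞ (fun x : J => G p₀ x) 0 :=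
      ContDiffAt.comp (g := fun q : P × J => G q.1 q.2) (f := fun x : J => (p₀, x)) (0 : J) h1
        (contDiffAt_const.prodMk contDiffAt_id)
    exact (h2.differentiableAt (by simp)).hasFDerivAt
  have hpar : HasFDerivAt (fun y : Y => F (p₀, y)) (ContinuousLinearMap.id ℝ Y) 0 := by
    refine hasFDerivAt_of_isometry i ?_
    have h1 : HasFDerivAt (fun y : Y => G p₀ ((X.subtypeL.comp S) y) - (1 + μ y) • (e : H))
        ((fderiv ℝ (G p₀) 0).comp (X.subtypeL.comp S) - μ.smulRight (e : H)) 0 := by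
      refine HasFDerivAt.sub ?_ ?_
      · have h2 : HasFDerivAt (G p₀) (fderiv ℝ (G p₀) 0) ((X.subtypeL.comp S) 0) := by
          simpa using hG1
        exact h2.comp (0 : Y) (X.subtypeL.comp S).hasFDerivAt
      · have h3 : HasFDerivAt (fun y : Y => 1 + μ y) μ 0 := μ.hasFDerivAt.const_add 1
        exact h3.smul_const (e : H)
    have h2 : (fderiv ℝ (G p₀) 0).comp (X.subtypeL.comp S) - μ.smulRight (e : H) =
        i.toContinuousLinearMap.comp (ContinuousLinearMap.id ℝ Y) := by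
      ext y
      exact hS y
    rw [h2] at h1
    refine h1.congr_of_eventuallyEq ?_
    have h3 : (fun y : Y => ((p₀, y) : P × Y)) ⁻¹' D ∈ 𝓝 (0 : Y) :=
      (hDo.preimage (by fun_prop)).mem_nhds hD0
    filter_upwards [h3] with y hy
    exact hiF _ hy
  have hcomp : (fderiv ℝ F (p₀, 0) ∘L ContinuousLinearMap.inr ℝ P Y) =
      ContinuousLinearMap.id ℝ Y := by
    have h1 : HasFDerivAt F (fderiv ℝ F (p₀, 0)) (p₀, 0) :=
      (hFat.differentiableAt (by simp)).hasFDerivAt
    have h2 : HasFDerivAt (fun y : Y => ((p₀, y) : P × Y)) (ContinuousLinearMap.inr ℝ P Y) 0 :=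
      hasFDerivAt_prodMk_right p₀ 0
    have h3 := h1.comp (0 : Y) h2
    exact h3.unique hpar
  have hinv : (fderiv ℝ F (p₀, 0) ∘L ContinuousLinearMap.inr ℝ P Y).IsInvertible := by
    rw [hcomp]
    exact ⟨ContinuousLinearEquiv.refl ℝ Y, rfl⟩
  have hne : (∞ : WithTop ℕ∞) ≠ 0 := by simp
  refine ⟨hFat.implicitFunction hne hinv, hFat.contDiffAt_implicitFunction hne hinv,
    hFat.implicitFunction_apply_self hne hinv, ?_⟩
  have h1 := hFat.eventually_apply_implicitFunction hne hinv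
  have h2 : ContinuousAt (hFat.implicitFunction hne hinv) p₀ :=
    (hFat.contDiffAt_implicitFunction hne hinv).continuousAt
  have h3 : Tendsto (fun p => ((p, hFat.implicitFunction hne hinv p) : P × Y)) (𝓝 p₀)
      (𝓝 (p₀, 0)) := by
    have := hFat.implicitFunction_apply_self hne hinv
    have h4 : ContinuousAt (fun p => ((p, hFat.implicitFunction hne hinv p) : P × Y)) p₀ :=
      continuousAt_id.prodMk h2
    rw [ContinuousAt] at h4
    simpa [this] using h4
  filter_upwards [h1, h3.eventually (hDo.mem_nhds hD0)] with p hp1 hp2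
  refine ⟨hp2.1, hp2.2, ?_⟩
  rw [hF0] at hp1
  have := hiF _ hp2
  rw [hp1, map_zero] at this
  exact (sub_eq_zero.1 this.symm)

end ift

section sol

variable {E J H : Type u} [AddCommGroup E] [Module ℝ E]
  [NormedAddCommGroup J] [NormedSpace ℝ J] [CompleteSpace J]
  [NormedAddCommGroup H] [NormedSpace ℝ H] [CompleteSpace H]

/-- the solution operator on the closures -/
theorem exists_sol_op (j : E →ₗ[ℝ] J) (h : E →ₗ[ℝ] H) (T : J →L[ℝ] H) (one : E)
    (ev : J →L[ℝ] ℝ) {C : ℝ}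
    (hsol : ∀ f : E, ∃ (w : E) (m : ℝ), T (j w) = h f + m • h one ∧ ‖j w‖ ≤ C * ‖h f‖ ∧
      |m| ≤ C * ‖h f‖)
    (huniq : ∀ (w : E) (m : ℝ), T (j w) = m • h one → ev (j w) = 0 → j w = 0 ∧ m = 0)
    (hT1 : T (j one) = 0) (hev : ev (j one) = 1) :
    ∃ (S : (LinearMap.range h).topologicalClosure →L[ℝ] (LinearMap.range j).topologicalClosure)
      (μ : (LinearMap.range h).topologicalClosure →L[ℝ] ℝ),
      (∀ y, T (S y) - μ y • h one = y) ∧ ∀ y, ev (S y) = 0 := by
  classical
  set X := (LinearMap.range j).topologicalClosure with hX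
  set Y := (LinearMap.range h).topologicalClosure with hY
  choose w m hw hwb hmb using hsol
  -- normalised solution
  set w' : E → E := fun f => w f - ev (j (w f)) • one with hw'
  have h1 : ∀ f, T (j (w' f)) = h f + m f • h one := by
    intro f
    simp only [hw', map_sub, map_smul, hT1, smul_zero, sub_zero, hw]
  have h2 : ∀ f, ev (j (w' f)) = 0 := by
    intro f
    simp [hw', hev]
  have huniq2 : ∀ a b : E, ∀ m₁ m₂ : ℝ, T (j a) - m₁ • h one = T (j b) - m₂ • h one →
      ev (j a) = 0 → ev (j b) = 0 → j a = j b ∧ m₁ = m₂ := by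
    intro a b m₁ m₂ hab ha hb
    have h3 : T (j (a - b)) = (m₁ - m₂) • h one := by
      rw [map_sub, map_sub, sub_smul]
      have := hab
      rw [sub_eq_sub_iff_add_eq_add] at this
      rw [sub_eq_sub_iff_add_eq_add, this]
      abel
    have h4 := huniq (a - b) (m₁ - m₂) h3 (by rw [map_sub, map_sub, ha, hb, sub_zero])
    rw [map_sub] at h4
    exact ⟨sub_eq_zero.1 h4.1, sub_eq_zero.1 h4.2⟩
  have hjX : ∀ f, j f ∈ X := fun f => (LinearMap.range j).le_topologicalClosure ⟨f, rfl⟩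
  have hhY : ∀ f, h f ∈ Y := fun f => (LinearMap.range h).le_topologicalClosure ⟨f, rfl⟩
  -- linear maps on `E`
  set S0 : E →ₗ[ℝ] X :=
    { toFun := fun f => ⟨j (w' f), hjX _⟩
      map_add' := fun f g => by
        apply Subtype.ext
        show j (w' (f + g)) = j (w' f) + j (w' g)
        rw [← map_add]
        refine (huniq2 _ _ (m (f + g)) (m f + m g) ?_ (h2 _) ?_).1
        · rw [h1, map_add j, map_add T, h1, h1, map_add h, add_smul]
          abel
        · rw [map_add, map_add, h2, h2, add_zero]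
      map_smul' := fun c f => by
        apply Subtype.ext
        show j (w' (c • f)) = c • j (w' f)
        rw [← map_smul]
        refine (huniq2 _ _ (m (c • f)) (c * m f) ?_ (h2 _) ?_).1
        · rw [h1, map_smul j, map_smul T, h1, map_smul h, mul_smul, smul_add]
          abel
        · rw [map_smul, map_smul, h2, smul_zero] } with hS0
  set μ0 : E →ₗ[ℝ] ℝ :=
    { toFun := m
      map_add' := fun f g => by
        refine (huniq2 (w' (f + g)) (w' f + w' g) (m (f + g)) (m f + m g) ?_ (h2 _) ?_).2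
        · rw [h1, map_add j, map_add T, h1, h1, map_add h, add_smul]
          abel
        · rw [map_add, map_add, h2, h2, add_zero]
      map_smul' := fun c f => by
        refine (huniq2 (w' (c • f)) (c • w' f) (m (c • f)) (c * m f) ?_ (h2 _) ?_).2
        · rw [h1, map_smul j, map_smul T, h1, map_smul h, mul_smul, smul_add]
          abel
        · rw [map_smul, map_smul, h2, smul_zero] } with hμ0
  set hh : E →ₗ[ℝ] Y := h.codRestrict Y hhY with hhh
  have hdense : DenseRange hh := by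
    rw [denseRange_iff_closure_range]
    ext y
    simp only [mem_univ, iff_true]
    rw [closure_subtype]
    have h4 : ((↑) : Y → H) '' (Set.range hh) = (LinearMap.range h : Set H) := by
      ext z
      constructor
      · rintro ⟨-, ⟨f, rfl⟩, rfl⟩
        exact ⟨f, rfl⟩
      · rintro ⟨f, rfl⟩
        exact ⟨hh f, ⟨f, rfl⟩, rfl⟩
    rw [h4]
    exact y.2
  have hC : ∀ f, 0 ≤ C * ‖h f‖ := fun f => (abs_nonneg _).trans (hmb f)
  have hSb : ∃ K, ∀ f, ‖S0 f‖ ≤ K * ‖hh f‖ := by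
    refine ⟨C + ‖ev‖ * C * ‖j one‖, fun f => ?_⟩
    show ‖j (w' f)‖ ≤ (C + ‖ev‖ * C * ‖j one‖) * ‖h f‖
    have h3 : ‖ev (j (w f))‖ ≤ ‖ev‖ * (C * ‖h f‖) :=
      (ev.le_opNorm _).trans (mul_le_mul_of_nonneg_left (hwb f) (norm_nonneg _))
    calc ‖j (w' f)‖ = ‖j (w f) - ev (j (w f)) • j one‖ := by simp [hw']
      _ ≤ ‖j (w f)‖ + ‖ev (j (w f))‖ * ‖j one‖ := by
        refine (norm_sub_le _ _).trans (add_le_add_right ?_ _)
        rw [norm_smul]
      _ ≤ C * ‖h f‖ + (‖ev‖ * (C * ‖h f‖)) * ‖j one‖ :=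
        add_le_add (hwb f) (mul_le_mul_of_nonneg_right h3 (norm_nonneg _))
      _ = _ := by ring
  have hμb : ∃ K, ∀ f, ‖μ0 f‖ ≤ K * ‖hh f‖ := ⟨C, fun f => hmb f⟩
  refine ⟨S0.extendOfNorm hh, μ0.extendOfNorm hh, ?_, ?_⟩
  · intro y
    refine hdense.induction_on (p := fun y : Y => T ((S0.extendOfNorm hh y : X) : J) -
      μ0.extendOfNorm hh y • h one = (y : H)) y ?_ ?_
    · exact isClosed_eq (by fun_prop) (by fun_prop)
    · intro f
      rw [LinearMap.extendOfNorm_eq hdense hSb, LinearMap.extendOfNorm_eq hdense hμb]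
      show T (j (w' f)) - m f • h one = h f
      rw [h1, add_sub_cancel_right]
  · intro y
    refine hdense.induction_on (p := fun y : Y => ev ((S0.extendOfNorm hh y : X) : J) = 0) y
      ?_ ?_
    · exact isClosed_eq (by fun_prop) (by fun_prop)
    · intro f
      rw [LinearMap.extendOfNorm_eq hdense hSb]
      exact h2 f

end sol

section main

variable {P E J H : Type u} [NormedAddCommGroup P] [NormedSpace ℝ P] [CompleteSpace P]
  [AddCommGroup E] [Module ℝ E]
  [NormedAddCommGroup J] [NormedSpace ℝ J] [CompleteSpace J]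
  [NormedAddCommGroup H] [NormedSpace ℝ H] [CompleteSpace H]

/-- **V0-ABS** -/
theorem exists_curve (j : E →ₗ[ℝ] J) (h : E →ₗ[ℝ] H) (one : E) (ev : J →L[ℝ] ℝ)
    {W : Set P} (hW : IsOpen W) {p₀ : P} (hp : p₀ ∈ W) {O : Set J} (hO : IsOpen O)
    (h0 : (0 : J) ∈ O) {G : P → J → H}
    (hG : ContDiffOn ℝ ∞ (fun q : P × J => G q.1 q.2) (W ×ˢ O))
    (hY : ∀ p ∈ W, ∀ f : E, j f ∈ O → G p (j f) ∈ (LinearMap.range h).topologicalClosure)
    (he : G p₀ 0 = h one) {C : ℝ}
    (hsol : ∀ f : E, ∃ (w : E) (m : ℝ), fderiv ℝ (G p₀) 0 (j w) = h f + m • h one ∧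
      ‖j w‖ ≤ C * ‖h f‖ ∧ |m| ≤ C * ‖h f‖)
    (huniq : ∀ (w : E) (m : ℝ), fderiv ℝ (G p₀) 0 (j w) = m • h one → ev (j w) = 0 →
      j w = 0 ∧ m = 0)
    (hT1 : fderiv ℝ (G p₀) 0 (j one) = 0) (hev : ev (j one) = 1) :
    ∃ (x : P → J) (m : P → ℝ), ContDiffAt ℝ ∞ x p₀ ∧ ContDiffAt ℝ ∞ m p₀ ∧ x p₀ = 0 ∧
      m p₀ = 0 ∧ (∀ p, x p ∈ (LinearMap.range j).topologicalClosure) ∧ (∀ p, ev (x p) = 0) ∧
      ∀ᶠ p in 𝓝 p₀, p ∈ W ∧ x p ∈ O ∧ G p (x p) = (1 + m p) • h one := by
  obtain ⟨S, μ, hS, hev0⟩ := exists_sol_op j h (fderiv ℝ (G p₀) 0) one ev hsol huniq hT1 hev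
  have hmem : ∀ p ∈ W, ∀ x ∈ (LinearMap.range j).topologicalClosure, x ∈ O →
      G p x ∈ (LinearMap.range h).topologicalClosure := by
    intro p hp x hx hxO
    have hc : ContinuousOn (G p) O := by
      have h1 : ContinuousOn (fun q : P × J => G q.1 q.2) (W ×ˢ O) := hG.continuousOn
      exact h1.comp (f := fun x : J => (p, x)) (by fun_prop) fun y hy => ⟨hp, hy⟩
    have h2 : x ∈ closure ((LinearMap.range j : Set J) ∩ O) := by
      have h3 : x ∈ closure (LinearMap.range j : Set J) := hx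
      rw [mem_closure_iff_nhds] at h3 ⊢
      intro t ht
      obtain ⟨y, hy1, hy2⟩ := h3 (t ∩ O) (inter_mem ht (hO.mem_nhds hxO))
      exact ⟨y, hy1.1, hy2, hy1.2⟩
    have h3 : G p x ∈ closure (G p '' ((LinearMap.range j : Set J) ∩ O)) :=
      ((hc.continuousAt (hO.mem_nhds hxO)).continuousWithinAt).mem_closure_image h2
    have h4 : G p '' ((LinearMap.range j : Set J) ∩ O) ⊆
        ((LinearMap.range h).topologicalClosure : Set H) := by
      rintro - ⟨-, ⟨⟨f, rfl⟩, hf⟩, rfl⟩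
      exact hY p hp f hf
    exact (Submodule.isClosed_topologicalClosure _).closure_subset_iff.2 h4 h3
  have he1 : h one ∈ (LinearMap.range h).topologicalClosure :=
    (LinearMap.range h).le_topologicalClosure ⟨one, rfl⟩
  obtain ⟨y, hy1, hy2, hy3⟩ := ift_aux (LinearMap.range j).topologicalClosure
    (LinearMap.range h).topologicalClosure hW hp hO h0 hG hmem ⟨h one, he1⟩ he S μ hS
  refine ⟨fun p => S (y p), fun p => μ (y p), ?_, ?_, ?_, ?_, fun p => (S (y p)).2,
    fun p => hev0 (y p), hy3⟩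
  · exact ((Submodule.subtypeL _).comp S).contDiff.contDiffAt.comp p₀ hy1
  · exact μ.contDiff.contDiffAt.comp p₀ hy1
  · simp [hy2]
  · simp [hy2]

end main

end

end Crest.Agent.R281.Yv_900
end

-- ▼ part R281/Yv6_900

/-!
# Row 281, YAU-VAR (helper900), part 6: assembly over a holomorphic atlas

`v0_atl_of` : smoothness in the parameters at `p0`, from the leaves of part 5.
-/

set_option autoImplicit false
set_option maxSynthPendingDepth 3
set_option linter.unusedSectionVars false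

open Set Filter Topology Metric
open scoped ContDiff

namespace Crest.Agent.R281.Yv_900

open Crest.Agent.R275.Geo Crest.Agent.R275.Core144 Crest.Agent.R275.EDR890
open Crest.Agent.R273.Defs_333 Crest.Agent.R273.Kah_333
open Crest.Agent.R273.YauDefs_635 Crest.Agent.R273.SchF_152 Crest.Agent.R273.SchG_152
open Crest.Agent.R273.SchH_152
open Crest.Agent.R260.ACM_580 Crest.Agent.R281.HkR_835 Crest.Agent.R281.NefO_476
open Crest.Agent.R281.Nef_252 Crest.Agent.R281.Hjs_680 Crest.Agent.R281.Tt_476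

noncomputable section

variable {n : ℕ} {X : Type} [TopologicalSpace X] {A : Atl n X}

/-- Gram determinants of positive forms do not vanish -/
theorem det_ne_zero_of_pos {V : Type} [AddCommGroup V] [Module ℝ V] {ι : Type} [Fintype ι]
    [DecidableEq ι] (b : Module.Basis ι ℝ V) (β : V →ₗ[ℝ] V →ₗ[ℝ] ℝ)
    (h : ∀ v, v ≠ 0 → 0 < β v v) : (Matrix.of fun a c => β (b a) (b c)).det ≠ 0 := by
  intro h0
  obtain ⟨v, hv, h2⟩ := Matrix.exists_mulVec_eq_zero_iff.2 h0
  set x : V := ∑ e, v e • b e with hx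
  have h3 : ∀ a, β (b a) x = 0 := by
    intro a
    have := congrFun h2 a
    simp only [Matrix.mulVec, dotProduct, Matrix.of_apply, Pi.zero_apply] at this
    rw [← this, hx, map_sum]
    exact Finset.sum_congr rfl fun e _ => by rw [map_smul, smul_eq_mul, mul_comm]
  have h4 : β x x = 0 := by
    have h5 : β x = ∑ e, v e • β (b e) := by
      rw [hx, map_sum]
      exact Finset.sum_congr rfl fun e _ => map_smul _ _ _
    rw [h5, LinearMap.sum_apply]
    refine Finset.sum_eq_zero fun e _ => ?_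
    rw [LinearMap.smul_apply, h3, smul_zero]
  have h5 : x = 0 := by
    by_contra hne
    exact (h x hne).ne' h4
  apply hv
  have h8 : ∀ e, v e = 0 :=
    Fintype.linearIndependent_iff.1 b.linearIndependent v (by rw [← hx]; exact h5)
  funext e
  exact h8 e

section fam

variable {ι : Type} [Fintype ι] [DecidableEq ι] (b : Module.Basis ι ℝ (Cn n))
  {P : Type} [NormedAddCommGroup P] [NormedSpace ℝ P] {D : P → Dat (ofAtl A)} {u : X → ℝ}

theorem bt_eq {p : P} (hu : A.Sm u) {i : A.ι} {z : Cn n} (hz : z ∈ (A.e i).target) (a c : Cn n) :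
    ((D p).om + ddc (D p).J u hu).w i z a ((D p).J.J i z c) = bt D u i p z a c := by
  show (D p).om.w i z a ((D p).J.J i z c) + (ddc (D p).J u hu).w i z a ((D p).J.J i z c) = _
  rw [ddc_w (D p).J u hu (i := i) hz]
  rfl

/-- `bt` as a bilinear form -/
theorem exists_bt {p : P} (hu : A.Sm u) {i : A.ι} {z : Cn n} (hz : z ∈ (A.e i).target) :
    ∃ β : Cn n →ₗ[ℝ] Cn n →ₗ[ℝ] ℝ, ∀ a c, β a c = bt D u i p z a c := by
  let L : Cn n →L[ℝ] Cn n →L[ℝ] ℝ := ((D p).om + ddc (D p).J u hu).w i z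
  refine ⟨LinearMap.mk₂ ℝ (fun a c => L a ((D p).J.J i z c))
    (fun a a' c => by rw [map_add, add_apply]) (fun r a c => by rw [map_smul, smul_apply])
    (fun a c c' => by rw [map_add, map_add]) (fun r a c => by rw [map_smul, map_smul]),
    fun a c => ?_⟩
  rw [LinearMap.mk₂_apply]
  exact bt_eq hu hz a c

theorem MM_zero (i : A.ι) (p : P) (z : Cn n) :
    MM b D u i p z 0 0 = Matrix.of fun a c => bt D u i p z (b a) (b c) := by
  ext a c
  simp [MM]

theorem bt_pos {p : P} (h : SolMA b (D p) u) {i : A.ι} {z : Cn n} (hz : z ∈ (A.e i).target)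
    {v : Cn n} (hv : v ≠ 0) : 0 < bt D u i p z v v := by
  rw [← bt_eq h.sm hz]
  exact h.pos i z hz v hv

theorem bt_det {p : P} (h : SolMA b (D p) u) : ∃ k : ℝ, ∀ i, ∀ z ∈ (A.e i).target,
    (Matrix.of fun a c => bt D u i p z (b a) (b c)).det = k * (D p).r.r i z := by
  obtain ⟨k, hk⟩ := h.eq
  refine ⟨k, fun i z hz => ?_⟩
  rw [← hk i z hz]
  unfold detB
  congr 1
  ext a c
  exact (bt_eq h.sm hz (b a) (b c)).symm

theorem bt_det_ne {p : P} (h : SolMA b (D p) u) {i : A.ι} {z : Cn n}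
    (hz : z ∈ (A.e i).target) : (Matrix.of fun a c => bt D u i p z (b a) (b c)).det ≠ 0 := by
  obtain ⟨β, hβ⟩ := exists_bt (D := D) (p := p) h.sm hz
  have h1 := det_ne_zero_of_pos b β fun v hv => by
    rw [hβ]
    exact bt_pos b h hz hv
  simpa only [hβ] using h1

theorem r_ne {p : P} (h : SolMA b (D p) u) {i : A.ι} {z : Cn n}
    (hz : z ∈ (A.e i).target) : (D p).r.r i z ≠ 0 := by
  obtain ⟨k, hk⟩ := bt_det b h
  intro h0
  have := hk i z hz
  rw [h0, mul_zero] at this
  exact bt_det_ne b h hz this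

end fam

section ddc

variable {V : Type} [NormedAddCommGroup V] [NormedSpace ℝ V]

theorem ddcF_add6 {U W : V → ℝ} {T : V → V →L[ℝ] V} {z : V} (hU : ContDiffAt ℝ 2 U z)
    (hW : ContDiffAt ℝ 2 W z) (a c : V) :
    ddcF (fun y => U y + W y) T z a c = ddcF U T z a c + ddcF W T z a c := by
  have dU : ∀ᶠ y in 𝓝 z, DifferentiableAt ℝ U y := by
    filter_upwards [hU.eventually (by simp)] with y hy using hy.differentiableAt (by simp)
  have dW : ∀ᶠ y in 𝓝 z, DifferentiableAt ℝ W y := by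
    filter_upwards [hW.eventually (by simp)] with y hy using hy.differentiableAt (by simp)
  have e1 : fderiv ℝ (fun y => U y + W y) =ᶠ[𝓝 z] fun y => fderiv ℝ U y + fderiv ℝ W y := by
    filter_upwards [dU, dW] with y h1 h2 using fderiv_fun_add h1 h2
  have dU2 : DifferentiableAt ℝ (fderiv ℝ U) z :=
    (hU.fderiv_right (m := 1) (by norm_num)).differentiableAt (by simp)
  have dW2 : DifferentiableAt ℝ (fderiv ℝ W) z :=
    (hW.fderiv_right (m := 1) (by norm_num)).differentiableAt (by simp)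
  unfold ddcF
  rw [e1.fderiv_eq, fderiv_fun_add dU2 dW2, e1.self_of_nhds]
  simp only [add_apply]
  ring

end ddc

/-- **smoothness in the parameters at `p0`**, from the leaves -/
theorem v0_atl_of [CompactSpace X] [T2Space X] [ConnectedSpace X]
    {ι : Type} [Fintype ι] [DecidableEq ι] (b : Module.Basis ι ℝ (Cn n))
    {P : Type} [NormedAddCommGroup P] [NormedSpace ℝ P] [FiniteDimensional ℝ P]
    {T : Set P} (hT : IsOpen T) {D : P → Dat (ofAtl A)} (hD : JSDat T D) {u : P → X → ℝ}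
    (hu : ∀ p ∈ T, SolMA b (D p) (u p)) {x1 : X} (h1 : ∀ p ∈ T, u p x1 = 0) {p0 : P}
    (hp : p0 ∈ T) (hJ : ∀ i, ∀ z ∈ (A.e i).target, ∀ v, (D p0).J.J i z v = Complex.I • v)
    (hClos : ∀ B : Cb A, ClosSt B) (hLin : ∀ (B : Cb A) (K : Kah A), LinSt B K x1)
    (hTF : ∀ (B : Cb A) (k0 : ℝ), TH b D (u p0) k0 T p0 → TSt b B D (u p0) k0 p0)
    (hPos : ∀ B : Cb A, PosnSt B D (u p0) p0)
    (hGlob : ∀ (B : Cb A) (k0 : ℝ), (∀ p ∈ T, ∀ i, ∀ z ∈ (A.e i).target,
      k0 * (D p).r.r i z ≠ 0) → GlobSt b B D (u p0) k0 T)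
    (hTr : ∀ (B : Cb A) (D0 : Dat (ofAtl A)) (U : X → ℝ), TrSt b B D0 U) (y0 : X) :
    ContDiffAt ℝ ∞ (fun p => u p y0) p0 := by
  classical
  have : CompleteSpace P := FiniteDimensional.complete ℝ P
  obtain ⟨B⟩ := Cb.nonempty A
  set u0 := u p0 with hu0
  have hsm : A.Sm u0 := (hu p0 hp).sm
  obtain ⟨k0, hk0⟩ := bt_det b (hu p0 hp)
  have hdet0 : ∀ i, ∀ z ∈ (A.e i).target, (Matrix.of fun a c => bt D u0 i p0 z (b a) (b c)).det ≠ 0 :=
    fun i z hz => bt_det_ne b (hu p0 hp) hz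
  have hk0ne : k0 ≠ 0 := by
    rintro rfl
    obtain ⟨i, hi⟩ := A.cover x1
    have := hk0 i _ ((A.e i).map_source hi)
    rw [zero_mul] at this
    exact hdet0 i _ ((A.e i).map_source hi) this
  have hr : ∀ p ∈ T, ∀ i, ∀ z ∈ (A.e i).target, k0 * (D p).r.r i z ≠ 0 := fun p hp i z hz =>
    mul_ne_zero hk0ne (r_ne b (hu p hp) hz)
  have hth : TH b D u0 k0 T p0 := ⟨hT, hp, hD, hr, hu p0 hp, fun i z hz => by
    rw [MM_zero]; exact hk0 i z hz, hJ⟩
  obtain ⟨K, hK⟩ := hTF B k0 hth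
  obtain ⟨⟨CL, hsol⟩, huniq⟩ := hLin B K
  -- evaluation at a point
  have hcov : ∀ x : X, ∃ k, x ∈ (A.e (B.i k)).source ∧ A.e (B.i k) x ∈ KK B k := fun x => by
    obtain ⟨k, hk, hk2⟩ := B.cover x
    exact ⟨k, hk, ball_subset_closedBall hk2⟩
  choose kx hkx hkK using hcov
  let ev : X → JJ B →L[ℝ] ℝ := fun x => (HF.ev half_pos' (A.e (B.i (kx x)) x)).comp
    ((p0L (KK B (kx x))).comp (ContinuousLinearMap.proj (R := ℝ)
      (φ := fun k : B.κ => JetS (KK B k)) (kx x)))
  have hev : ∀ (x : X) (y : JJ B), ev x y = HF.fn (y (kx x)).1 (A.e (B.i (kx x)) x) :=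
    fun _ _ => rfl
  have hevj : ∀ (x : X) (f : SmE A), ev x (jj B f) = f.1 x := by
    intro x f
    rw [hev, fn_jj0 B f _ (hkK x)]
    show f.1 ((A.e (B.i (kx x))).symm (A.e (B.i (kx x)) x)) = _
    rw [(A.e (B.i (kx x))).left_inv (hkx x)]
  set G : P → JJ B → HH B := GG b B D u0 k0 with hG
  have hGs : ContDiffOn ℝ ∞ (fun q : P × JJ B => G q.1 q.2) (T ×ˢ univ) :=
    contDiffOn_GG b B u0 k0 hT hD hsm hr
  have hone : ∀ m : ℝ, ∀ k, ∀ z ∈ KK B k, Hol.fn ((m • hh B (oneE A)) k) z = m := by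
    intro m k z hz
    rw [Pi.smul_apply, Hol.fn_smul, fn_hh B _ k hz]
    show m * 1 = m
    rw [mul_one]
  have he : G p0 0 = hh B (oneE A) := by
    funext k
    refine Hol.ext fun z hz => ?_
    have hzt := KK_sub B k hz
    have e1 := hone 1 k z hz
    rw [one_smul] at e1
    rw [e1, hG, fn_GG b B u0 k0 hT hD hsm hr k hp 0 hz]
    have e2 : HF.fn ((0 : JJ B) k).2.1 z = 0 := by
      have : ((0 : JJ B) k).2.1 = 0 := rfl
      rw [this, HF.fn_zero]
    have e3 : HF.fn ((0 : JJ B) k).2.2 z = 0 := by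
      have : ((0 : JJ B) k).2.2 = 0 := rfl
      rw [this, HF.fn_zero]
    rw [e2, e3, hth.eq _ z hzt]
    exact mul_inv_cancel₀ (hr p0 hp _ z hzt)
  have hTl : ∀ w f : SmE A, IsLap (gi K) w f.1 → fderiv ℝ (G p0) 0 (jj B w) =
      hh B ((8 : ℝ) • f) := hK
  obtain ⟨x, m, hxs, hms, hx0, hm0, hxc, hxev, hxe⟩ := exists_curve (jj B) (hh B) (oneE A) (ev x1)
    hT hp isOpen_univ (mem_univ _) (G := G) hGs (fun p hp f _ => Submodule.le_topologicalClosure _
      (hGlob B k0 hr p hp f)) he (C := CL) (fun f => by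
      obtain ⟨w, m, hw1, hw2, hw3⟩ := hsol f
      refine ⟨w, m, ?_, hw2, hw3⟩
      rw [hTl w ((8 : ℝ)⁻¹ • (f + m • oneE A)) (by
        refine (cast (congrArg _ ?_) hw1)
        funext y
        show _ = (8 : ℝ)⁻¹ * (f.1 y + m * 1)
        rw [mul_one]), smul_smul, mul_inv_cancel₀ (by norm_num), one_smul, map_add, map_smul])
    (fun w m hw hwe => by
      have hf : A.Sm (Lap K w.1) := sm_Lap K w.2
      have hl : IsLap (gi K) w.1 (Lap K w.1) := isLap K w.2
      have e1 := hTl w ⟨_, hf⟩ hl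
      rw [hw] at e1
      have e2 : ∀ y : X, Lap K w.1 y = 8⁻¹ * m := by
        intro y
        have e3 : Hol.fn ((m • hh B (oneE A)) (kx y)) (A.e (B.i (kx y)) y) =
            Hol.fn (hh B ((8 : ℝ) • ⟨_, hf⟩) (kx y)) (A.e (B.i (kx y)) y) := by rw [e1]
        rw [hone m _ _ (hkK y), fn_hh B _ _ (hkK y)] at e3
        have e4 : m = 8 * Lap K w.1 ((A.e (B.i (kx y))).symm (A.e (B.i (kx y)) y)) := e3
        rw [(A.e (B.i (kx y))).left_inv (hkx y)] at e4
        rw [e4]
        ring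
      refine huniq w m (by rwa [show (Lap K w.1) = fun _ => 8⁻¹ * m from funext e2] at hl) ?_
      rwa [hevj] at hwe)
    (by
      have hl : IsLap (gi K) (oneE A) (0 : SmE A).1 := by
        intro i z hz
        have e1 : inC A i (oneE A : X → ℝ) = fun _ => (1 : ℝ) := rfl
        have e2 : cH (fun _ : Cn n => (1 : ℝ)) z = 0 := by
          have : fderiv ℝ (fun _ : Cn n => (1 : ℝ)) = fun _ => 0 := by
            funext y
            exact fderiv_const_apply 1
          ext a b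
          simp [cH, D2, this]
        rw [e1, e2, Matrix.mul_zero, Matrix.trace_zero]
        rfl
      rw [hTl _ 0 hl, smul_zero, map_zero])
    (by rw [hevj]; rfl)
  -- the functions of the curve
  choose U hUc hUv using fun p => hClos B (x p) (hxc p)
  have hUx : ∀ p y, U p y = ev y (x p) := by
    intro p y
    rw [hev, (hUv p (kx y)).1 _ (hkK y)]
    show _ = U p ((A.e (B.i (kx y))).symm (A.e (B.i (kx y)) y))
    rw [(A.e (B.i (kx y))).left_inv (hkx y)]
  obtain ⟨N, hN, δ, hδ, hpos⟩ := hPos B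
  have hsmall : ∀ᶠ p in 𝓝 p0, ‖x p‖ < δ := by
    have h1 : Tendsto (fun p => ‖x p‖) (𝓝 p0) (𝓝 ‖x p0‖) := hxs.continuousAt.norm
    rw [hx0, norm_zero] at h1
    exact h1.eventually (gt_mem_nhds hδ)
  have key : ∀ᶠ p in 𝓝 p0, ∀ y, u p y = u0 y + ev y (x p) := by
    filter_upwards [hxe, hN, hsmall] with p hp1 hpN hpδ
    obtain ⟨hpT, -, hpG⟩ := hp1
    -- norms of the entries
    have hnk : ∀ k, ‖x p k‖ ≤ δ := fun k => (norm_le_pi_norm (x p) k).trans hpδ.le
    have hn1 : ∀ k z, ‖HF.fn (x p k).2.1 z‖ ≤ δ := fun k z => by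
      have h3 : ‖(x p k).2.1‖ ≤ ‖x p k‖ := (norm_fst_le (x p k).2).trans (norm_snd_le (x p k))
      exact (HF.norm_fn _ _).trans (h3.trans (hnk k))
    have hn2 : ∀ k z, ‖HF.fn (x p k).2.2 z‖ ≤ δ := fun k z => by
      have h3 : ‖(x p k).2.2‖ ≤ ‖x p k‖ := (norm_snd_le (x p k).2).trans (norm_snd_le (x p k))
      exact (HF.norm_fn _ _).trans (h3.trans (hnk k))
    set W : X → ℝ := fun y => u0 y + U p y with hW
    have hWc : ∀ i, ContDiffOn ℝ 2 (inC A i W) (A.e i).target := fun i =>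
      ((hsm i).of_le (m := 2) ENat.LEInfty.out).add (hUc p i)
    have hbt : ∀ k, ∀ z ∈ ball (B.z k) (B.r k / 2), ∀ a c : Cn n,
        bt (fun _ : Unit => D p) W (B.i k) () z a c =
          bt D u0 (B.i k) p z a c + (c2 ((D p).J.J (B.i k)) a c z (HF.fn (x p k).2.2 z) +
            c1 ((D p).J.J (B.i k)) a c z (HF.fn (x p k).2.1 z)) := by
      intro k z hz a c
      have hzK : z ∈ KK B k := ball_subset_closedBall hz
      have hzt := KK_sub B k hzK
      have hn := (A.e (B.i k)).open_target.mem_nhds hzt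
      have e0 : ddcF (inC A (B.i k) W) ((D p).J.J (B.i k)) z a ((D p).J.J (B.i k) z c) =
          ddcF (inC A (B.i k) u0) ((D p).J.J (B.i k)) z a ((D p).J.J (B.i k) z c) +
          ddcF (inC A (B.i k) (U p)) ((D p).J.J (B.i k)) z a ((D p).J.J (B.i k) z c) :=
        ddcF_add6 (U := inC A (B.i k) u0) (W := inC A (B.i k) (U p))
          ((((hsm (B.i k)).of_le (m := 2) ENat.LEInfty.out)).contDiffAt hn)
          ((hUc p (B.i k)).contDiffAt hn) _ _
      show (D p).om.w (B.i k) z a ((D p).J.J (B.i k) z c) +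
        ddcF (inC A (B.i k) W) ((D p).J.J (B.i k)) z a ((D p).J.J (B.i k) z c) =
        ((D p).om.w (B.i k) z a ((D p).J.J (B.i k) z c) +
        ddcF (inC A (B.i k) u0) ((D p).J.J (B.i k)) z a ((D p).J.J (B.i k) z c)) + _
      rw [e0, ddcF_eq (inC A (B.i k) (U p)), ((hUv p k).2 z hz).1, ((hUv p k).2 z hz).2, add_assoc]
    obtain ⟨htr1, htr2⟩ := hTr B (D p) W hWc
    have hWpos := htr1 fun k z hz v hv => by
      rw [hbt k z hz]
      exact hpos p hpN k z (ball_subset_closedBall hz) _ _ (hn1 k z) (hn2 k z) v hv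
    have hWdet := htr2 ((1 + m p) * k0) fun k z hz => by
      have hzK : z ∈ KK B k := ball_subset_closedBall hz
      have hzt := KK_sub B k hzK
      have e1 : Hol.fn (G p (x p) k) z = Hol.fn (((1 + m p) • hh B (oneE A)) k) z := by rw [hpG]
      rw [hone _ k z hzK, hG, fn_GG b B u0 k0 hT hD hsm hr k hpT (x p) hzK] at e1
      have e2 : (Matrix.of fun a c => bt (fun _ : Unit => D p) W (B.i k) () z (b a) (b c)) =
          MM b D u0 (B.i k) p z (HF.fn (x p k).2.1 z) (HF.fn (x p k).2.2 z) := by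
        ext a c
        exact hbt k z hz (b a) (b c)
      rw [e2]
      have e3 := hr p hpT _ z hzt
      rw [mul_inv_eq_iff_eq_mul₀ e3] at e1
      rw [e1]
      ring
    have hsol := hu p hpT
    obtain ⟨k2, hk2⟩ := bt_det b hsol
    have hfin : Module.finrank ℝ (Cn n) = 2 * n := by
      rw [← Module.finrank_mul_finrank ℝ ℂ (Cn n)]
      simp
    obtain ⟨-, c, hc⟩ := Uq_250.uniqR (C := ofAtl A) hfin (D p).J hsol.cx (D p).om hsol.t11 b
      (D p).r.r (fun i z hz => r_ne b hsol hz) (U := W) (u := u p) hWc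
      (fun i => ((hsol.sm i).of_le (m := 2) ENat.LEInfty.out)) hWpos
      (fun i z hz v hv => bt_pos b hsol hz hv) hWdet hk2
    have hc0 : c = 0 := by
      have e1 : u0 x1 + U p x1 - u p x1 = c := hc x1
      rw [h1 p hpT, hUx, hxev p, hu0, h1 p0 hp] at e1
      linarith
    intro y
    have e1 := hc y
    rw [hc0] at e1
    rw [← hUx]
    show u p y = W y
    linarith
  have hfinal : ContDiffAt ℝ ∞ (fun p => u0 y0 + ev y0 (x p)) p0 :=
    contDiffAt_const.add ((ev y0).contDiff.contDiffAt.comp p0 hxs)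
  exact hfinal.congr_of_eventuallyEq (key.mono fun p hp => hp y0)

end

end Crest.Agent.R281.Yv_900
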