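import Crest.Agent.R281.Sk0_474
import Crest.Agent.R281.Rank281_902
import Crest.Agent.R281.NefRay6_326_Mg
import Crest.Agent.R281.Rkd4_386
import Crest.Agent.R281.D6y_986_Mg
import Crest.Agent.R273.AsmB_73
import Crest.Agent.R281.E6b_52
import Crest.Agent.R281.Rd4_326
import Crest.Agent.R281.BoxB_327
import Crest.Agent.R281.Alg1_867
import Crest.Agent.R281.TubT_831
import Crest.Agent.R281.Ce5_551_Mg
import Crest.Agent.R260.NN6_900
import Crest.Agent.R281.Prim3_377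
import Crest.Agent.R281.Iso2_139
import Crest.Agent.R281.Iso4_139
import Crest.Agent.R281.Tt3_476
import Crest.Agent.R281.Bx3_557
import Crest.Agent.R281.Bx2_557
import Crest.Agent.R281.Al8_830
import Crest.Agent.R281.RkD_902
import Crest.Agent.R281.Ce3_551
import Crest.Agent.R281.Yv6_900
import Crest.Agent.R281.Ly3_457
import Crest.Agent.R281.Dvp1_326
import Crest.Agent.R281.Lf3_830
import Crest.Agent.R281.Dvp2_326
import Crest.Agent.R281.OpG5_941
import Crest.Agent.R281.HkM2_835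

-- ▼ part R281/Sk1_474
section

/-!
# R281 (S0424), SKEL281 (helper474): the top of the proof

`main281_of_nodes` : `Main281` from the nodes which are not landed yet. Proved nodes are plugged
in here as they land: `SetupP`, `MemHypP` (474), `PresP` (386), `NefRayP` (326).
-/

set_option autoImplicit false
set_option linter.unusedSectionVars false

namespace Crest.Agent.R281.Sk_474

open Crest.Agent.R281.Defs_273 Crest.Agent.R281.RkD_902

/-- **`Main281` from the open nodes** -/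
theorem main281_of_nodes {Alg : AlgTT} {Tub : TubTT} (box : BoxP) (road : RoadP Alg)
    (chartEnd : ChartEndP Alg) (tori : ToriP Alg Tub) (kappa : KappaP Alg Tub) (end6 : END6)
    (op : OpenP Tub) (semi : SemiP) : Main281 :=
  main281_of end6 (Rank281_902.rank281_of SkM_474.setupP box road chartEnd
    (NefRay_326.nefRayP Alg) tori Rkd_386.presP SkM_474.memHypP kappa end6 op semi)

end Crest.Agent.R281.Sk_474
end

-- ▼ part R281/Up4_425
section

/-!
# R281 (S0424), the function `u`, part 4 (helper425): the node `UPreStmt`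
-/

set_option autoImplicit false
set_option linter.unusedSectionVars false

namespace Crest.Agent.R281.Up_425

open Crest.Agent.R281.D6_986

/-- **the node `UPreStmt` of division 6** -/
theorem uPreStmt : D6_986.UPreStmt := by
  intro n M _ _ _ _ A _ _ _ K σ L h o s hH
  have : SecondCountableTopology M := Crest.Agent.R273.AsmA_73.secM (A := A)
  obtain ⟨v, hv⟩ := Mass5_519.exists_volC_LFib o.F K
  obtain ⟨B, hB⟩ := uf_bdd s hH hv
  exact ⟨uPre_of s hv hB⟩

end Crest.Agent.R281.Up_425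
end

-- ▼ part R281/Sk3_474
section

/-!
# R281 (S0424), SKEL281 (helper474): division 6 is closed

* `end6` : `END6`, without hypothesis;
* `main281_of7` : `Main281` from the seven open nodes;
* `AlgM`, `TubM` : the predicates of 867 and 831 in the types of `RkD_902`;
* `main281_of_end` : `Main281` from `BoxFamP`, `Div2P`, `ChartEndP`, `ToriP`, `KappaP`, `OpenP`,
  `SemiP` for these predicates.
-/

set_option autoImplicit false
set_option linter.unusedSectionVars false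

namespace Crest.Agent.R281.Sk_474

open Crest.Agent.R281.Defs_273 Crest.Agent.R281.RkD_902

/-- the node `UPreP` -/
theorem uPreP : E6_373.UPreP := fun X o ⟨s⟩ H =>
  Up_425.uPreStmt X.n X.M X.A X.hn X.P X.K X.σ X.L X.h o s H

/-- **division 6** -/
theorem end6 : END6 := E6a_52.end6_of_upre uPreP

/-- **`Main281` from the seven open nodes** -/
theorem main281_of7 {Alg : AlgTT} {Tub : TubTT} (box : BoxP) (road : RoadP Alg)
    (chartEnd : ChartEndP Alg) (tori : ToriP Alg Tub) (kappa : KappaP Alg Tub)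
    (op : OpenP Tub) (semi : SemiP) : Main281 :=
  main281_of_nodes box road chartEnd tori kappa end6 op semi

/-- the algebraic data of the end (867) -/
abbrev AlgM : AlgTT := Alg_867.Alg

/-- the tube of tori (831) -/
abbrev TubM : TubTT := fun n _ _ _ _ _ C Q e H => Tub_831.Tub n C Q e H


end Crest.Agent.R281.Sk_474
end

-- ▼ part R281/Ch8_151
section

/-!
# Row 281, CHART-END (second owner, helper151), part 8: **chart member = end member**

* `isoFam_of`, `uniqMv_of` : the Props of 551 from `IsoF`, `uniq_move`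
* `chartEnd_of`            : the literal node `ChartEndP` at one road, from HK-ISO (139) and
                             MOVE-FAM (557, 835)
-/

set_option autoImplicit false
set_option maxSynthPendingDepth 3
set_option linter.unusedSectionVars false

open Set Filter Topology
open scoped ContDiff

namespace Crest.Agent.R281.Ch_151

open Crest.Agent.R275.Geo Crest.Agent.R275.Core144
open Crest.Agent.R260.ACM_580
open Crest.Agent.R281.Ti_846 hiding pb pb_apply symm2 sm'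
open Crest.Agent.R281.Dif_268 Crest.Agent.R281.Cdr_234
open Crest.Agent.R281.HkR_835 Crest.Agent.R281.Alg_998 Crest.Agent.R281.Iso_139
open Crest.Agent.R281.NefO_476 (ofHk Pos AJ)
open Crest.Agent.R281.Nef_252 (T11 KCls Bi HolM)
open Crest.Agent.R281.PL_713 (PL)
open Crest.Agent.R281.RkD_902 (IsoId MemN SameTw Ctx Given Box Road AlgT lco EndIso)
open Crest.Agent.R281.Ce_551 (Rp Iso2 lin_eqv lin3_w lin3_eq cl_eqv MoveFam UniqMv IsoFam MvTo Gt
  Gt_om0 Gt_om1)
open Crest.Agent.R281.Bx_557 (SmHk SmF)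
open Crest.Agent.R281.Sta2_684 (smulP)
open Crest.Agent.R281.NefRay_326 (rI rI_om0 rI_om1 nz2 Sc zS sc_of_at zS_sm smH_rot IsoHk HEqv_rot)

noncomputable section

section inst

variable {X : Type} [TopologicalSpace X]
variable {V : Type} [NormedAddCommGroup V] [NormedSpace ℝ V] {C : RCh V X}

/-- the metric of a jointly smooth family is jointly smooth -/
theorem smH_of_smHk {H : ℝ → HkT C} (h : SmHk univ H) : SmH H :=
  ⟨h.om, h.J, fun i => Crest.Agent.R281.Bx_557.SmHk.g h i⟩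

theorem isoFam_of (h : IsoF C) : IsoFam C := by
  intro H hH h1 h2
  obtain ⟨D, e1, e2, -⟩ := h H (smH_of_smHk hH) 0 1 2 (Or.inl rfl) h1 h2
  exact ⟨D.φ, D.ψ, D.bi, fun w => cl_of_coh (D.cls w), e1, e2⟩

theorem uniqMv_of [FiniteDimensional ℝ V] [T2Space X] [CompactSpace X] [ConnectedSpace X]
    {d : ℕ} (hd : 2 ≤ d) (hNN : NNat V d) : UniqMv C := by
  intro k H H' r hr hJ ho hk
  have h1 : (1 : Fin 3) + k ≠ k := by fin_cases k <;> decide
  have h2 : (2 : Fin 3) + k ≠ k := by fin_cases k <;> decide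
  have c0 : ∀ H : HkT C, Eqv ((H.cyc k).om 0) (H.om k) := fun H => by
    have h := cyc_om H k 0
    rw [zero_add] at h
    exact h
  refine heqv_cyc k (uniq_move hd hNN (H.cyc k) (H'.cyc k) (fun i z hz v => ?_) hr ?_ ?_ ?_).2
  · rw [cyc_J, cyc_J, zero_add]
    exact hJ i z hz v
  · exact Eqv.trans (cyc_om H' k 1) (Eqv.trans (ho _ h1) (eqv_smul r (Eqv.symm (cyc_om H k 1))))
  · exact Eqv.trans (cyc_om H' k 2) (Eqv.trans (ho _ h2) (eqv_smul r (Eqv.symm (cyc_om H k 2))))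
  · refine Eqv.ex ?_ hk
    intro i z hz u v
    show (H'.om k).w i z u v - (H.om k).w i z u v =
      ((H'.cyc k).om 0).w i z u v - ((H.cyc k).om 0).w i z u v
    rw [c0 H' i z hz, c0 H i z hz]

theorem mv2_of_mvTo {L K : HkT C} {b : F2 C} (h : MvTo L b K) : Mv2 L K := h.om

theorem has_of_mvTo {L K : HkT C} {b : F2 C} (h : MvTo L b K) : Has K b := by
  obtain ⟨q, hq⟩ := h.cl
  exact ⟨1, q, one_pos, by rw [one_smul]; exact hq⟩

end inst

variable {n : ℕ} {X : Type} [TopologicalSpace X] [CompactSpace X] [T2Space X]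
  [SimplyConnectedSpace X] {C : RCh (Cn (2 * n)) X} {Q : F2 C →ₗ[ℝ] F2 C →ₗ[ℝ] ℝ}

theorem finrank_cn (d : ℕ) : Module.finrank ℝ (Cn d) = 2 * d := by
  have h : Module.finrank ℝ (Cn d) = Module.finrank ℝ ℂ * Module.finrank ℂ (Cn d) :=
    (Module.finrank_mul_finrank ℝ ℂ (Cn d)).symm
  rw [h, Complex.finrank_real_complex, finrank_euclideanSpace, Fintype.card_fin]

/-- **chart member = end member** -/
theorem chartEnd_of (hc : Ctx n C Q) {H0 : HkT C} {L0 : PL C} {e : F2 C} (hg : Given Q H0 L0 e)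
    {Alg : AlgT Q} {B : Box Q H0 e} (R : Road Alg B) (hiso : IsoF C) (hM : MoveFam Q) :
    ∃ δ : ℝ, 0 < δ ∧ ∀ x : ℝ, |x - R.x1| < δ → EndIso R x := by
  have hd : 2 ≤ 2 * n := by have := hc.n1; omega
  have hNN : NNat (Cn (2 * n)) (2 * n) :=
    Crest.Agent.R260.NN6_900.nnat (2 * n) (Cn (2 * n)) (finrank_cn (2 * n))
  have hQ := qC_of_ctx hc
  have hU : UniqMv C := uniqMv_of hd hNN
  have hI : IsoFam C := isoFam_of hiso
  have hp2 := B.pos2 _ R.aB _ R.cD
  have hQn := qN_of_ctx hc hp2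
  have hgB := RkD_902.given_box' hc hg B R.aB R.cD
  set HB := B.H R.a (R.c R.x1) with hHB
  obtain ⟨s1, hs1, o1⟩ := R.om1 R.cD
  obtain ⟨s2, hs2, o2⟩ := R.om2 hc R.cD
  obtain ⟨r0, hr0, st0, st2⟩ := R.st
  obtain ⟨hτ0, z, hz, p1, p2⟩ := R.ph0
  have hat1 := R.K.mem_at _ _ R.mem
  have hY := R.K.mem_im _ _ R.mem
  have hY0 := R.K.hY
  have hsc1 : Sc R.F R.H1 R.τ1 (zS Q R.F R.H1) := sc_of_at hQn hat1
  obtain ⟨D1, d0, d2⟩ := leg_iso hiso hQn R.leg (x1 := R.x1) (fun τ h => h) hz p1 p2 hsc1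
  set L := nr R.H1 (zS Q R.F R.H1) hsc1.nz with hL
  set G' := sw (pH D1 L) with hG'
  have g1 : Eqv (G'.om 1) (r0 • HB.om 1) := by
    rw [hG', sw_om1]
    exact d0.trans st0
  have g2 : Eqv (G'.om 2) (r0 • HB.om 2) := by
    rw [hG', sw_om2]
    intro i y hy u v
    have h1 : ((pH D1 L).om 2).w i y u v = -r0 * (HB.om 2).w i y u v := (d2.trans st2) i y hy u v
    show (-1 : ℝ) * ((pH D1 L).om 2).w i y u v = r0 * (HB.om 2).w i y u v
    rw [h1]
    ring
  have hJ : ∀ i, ∀ y ∈ (C.e i).target, ∀ v, G'.J 0 i y v = HB.J 0 i y v :=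
    J_of_om (k := 0) (l := 1) (m := 2) (Or.inl rfl) hr0.ne' g1 g2
  obtain ⟨Ef, hE1, hE2⟩ := hc.t11 HB hp2 e hgB.e1 hgB.e2
  -- the angle
  obtain ⟨GA, ρ, hρ, mA, hasA, g1A, twA⟩ := box_mv hc R R.cD
  obtain ⟨θ, hθ, mθ⟩ := angle hQ R.AA twA hρ hs1 hs2 g1A hasA o1 o2
  have hN := R.F.hN
  have bxt : ∀ t : ℝ, R.bx R.x1 + t • e = R.bx (R.x1 + t / R.F.N) := by
    intro t
    have h1 : t • e = t • R.F.e := congrArg _ R.Fe.symm
    rw [h1]
    unfold Road.bx
    have h2 : R.F.N * (R.x1 + t / R.F.N) = R.F.N * R.x1 + t := by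
      field_simp
    rw [h2]
    module
  obtain ⟨δ1, hδ1, hcs⟩ := Ce_551.chart_side (G := HB) (G' := G') hQ hI hM hU hJ hr0 g1 g2 hE2
    (A := R.A) (b0 := R.bx R.x1) (e := e) hE1.symm (a := s1⁻¹) (c := s2⁻¹) (inv_pos.2 hs2)
    (by
      have h1 := Cl.smul s1⁻¹ o1
      rw [smul_smul, inv_mul_cancel₀ hs1.ne', one_smul] at h1
      exact h1.symm)
    (by
      have h1 := Cl.smul s2⁻¹ o2
      rw [smul_smul, inv_mul_cancel₀ hs2.ne', one_smul] at h1
      exact h1.symm) R.AA (fun t => by rw [bxt, R.bx_bx hc]; exact hN)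
    (fun t => by rw [bxt, R.A_bx]) (θ0 := θ) (abs_lt.2 hθ)
  -- the neighbourhood
  obtain ⟨δ2, hδ2, hcD⟩ : ∃ δ2 : ℝ, 0 < δ2 ∧ ∀ x : ℝ, |x - R.x1| < δ2 → R.c x ∈ B.D := by
    have h1 : R.c ⁻¹' B.D ∈ 𝓝 R.x1 := R.c_cont.continuousAt.preimage_mem_nhds (B.oD.mem_nhds R.cD)
    obtain ⟨ε, hε, h2⟩ := Metric.mem_nhds_iff.1 h1
    exact ⟨ε, hε, fun x hx => h2 (by rwa [Metric.mem_ball, Real.dist_eq])⟩
  have hκ : 0 < R.τ1.im ^ 2 - R.K.Y ^ 2 := by nlinarith
  refine ⟨min (δ1 / R.F.N) (min δ2 (Real.sqrt (R.τ1.im ^ 2 - R.K.Y ^ 2))),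
    lt_min (div_pos hδ1 hN) (lt_min hδ2 (Real.sqrt_pos.2 hκ)), fun x hx => ?_⟩
  have hx1 : |x - R.x1| < δ1 / R.F.N := hx.trans_le (min_le_left _ _)
  have hx2 : R.c x ∈ B.D := hcD x (hx.trans_le ((min_le_right _ _).trans (min_le_left _ _)))
  have hx3 : (x - R.τ1.re) ^ 2 < R.τ1.im ^ 2 - R.K.Y ^ 2 := by
    have h1 : |x - R.x1| < Real.sqrt (R.τ1.im ^ 2 - R.K.Y ^ 2) :=
      hx.trans_le ((min_le_right _ _).trans (min_le_right _ _))
    rw [Real.lt_sqrt (abs_nonneg _), sq_abs] at h1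
    rw [R.re1]
    exact h1
  -- the chart side
  obtain ⟨K, K', mK, mK', i3⟩ := hcs (R.F.N * (x - R.x1)) (by
    rw [abs_mul, abs_of_pos hN]
    have h1 := mul_lt_mul_of_pos_left hx1 hN
    rwa [mul_div_cancel₀ _ hN.ne'] at h1)
  have hbx : R.bx R.x1 + (R.F.N * (x - R.x1)) • e = R.bx x := by
    rw [bxt, mul_div_cancel_left₀ _ hN.ne']
    congr 1
    ring
  rw [hbx] at mK mK' i3
  -- the box
  obtain ⟨Gx, ρx, hρx, mx, hasx, g1x, twx⟩ := box_mv hc R hx2
  have rpA : Rp Gx R.A (Pi.single 1 ρx⁻¹) := rp_one hρx.ne' g1x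
  obtain ⟨yb, rpb⟩ : ∃ y, Rp Gx (R.bx x) y := by
    obtain ⟨p, q, -, cb⟩ := hasx
    exact ⟨![q, 0, p], rp3 (cb.trans (NefRay_326.cl_of_eq (by module)))⟩
  have i1 : Iso2 R.A (R.bx x) Gx (B.H R.a (R.c x)) := iso2_sameTw hQ R.AA twx rpA rpb
  have mK2 : Mv2 (B.base R.a) K := (mA.trans mθ).trans (mv2_of_mvTo mK)
  have i2 : Iso2 R.A (R.bx x) Gx K := Mv2.iso2 hd hNN hQ R.AA (base_pos hc R).ne' mx mK2 hasx
    (has_of_mvTo mK) rpA rpb
  -- the end
  obtain ⟨M, y, z', hz', D, hMem, hMv⟩ := end_move hiso hQn R.K R.mem hsc1 hx3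
  have hneg : R.F.v - (R.F.N * x) • R.F.e = -R.bx x := by
    unfold Road.bx
    module
  rw [hneg] at hMv
  obtain ⟨μ, hμ, m0, m2⟩ := end_cls (R.K.mem_at _ _ hMem) hz'
  have m0' : Cl ((nr M z' hz'.nz).om 0) ((1 : ℝ) • R.A) := by rwa [one_smul]
  have m2' : Cl ((nr M z' hz'.nz).om 2) ((-μ) • R.bx x) := m2
  obtain ⟨u, v, ru, rv⟩ := iso2_rp i3
  have hL0 : Q (L.om 0) (L.om 0) ≠ 0 := by
    rw [hL, nr_om0, hc.cl_cl hat1.om0 hat1.om0]
    exact R.AA.ne'
  have i4 : Iso2 R.A (R.bx x) K' (nr M z' hz'.nz) := end_half hd hNN hQ R.AA D D1 hL0 hMv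
    (mv2_of_mvTo mK') (has_of_mvTo mK') ru rv (rp_one one_ne_zero m0')
    (rp_one (neg_ne_zero.2 hμ.ne') m2')
  have i5 : Iso2 R.A (R.bx x) (B.H R.a (R.c x)) (nr M z' hz'.nz) :=
    ((i1.symm.trans hQ R.AA i2).trans hQ R.AA i3).trans hQ R.AA i4
  obtain ⟨s3, hs3, o3⟩ := R.om1 hx2
  obtain ⟨s4, hs4, o4⟩ := R.om2 hc hx2
  have hI1 := isoId_of_iso2 hQ R.AA hs3 hs4 one_pos hμ o3 o4 m0' m2' i5
  obtain ⟨N, hNs, hNt⟩ := end_ray (isoHk_of hiso) hQn R.K hMem hz'
  exact ⟨N, hNs, fun t => ⟨(hNt t).1, isoId_trans hI1 (hNt t).2⟩⟩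

end

end Crest.Agent.R281.Ch_151
end

-- ▼ part R281/Prim4_377
section

/-!
# Row 281, PRIM-VAR (helper377), part 4: in the language of HK-ISO (Iso2_139)

* `prim_var` : `w : ℝ → F2 C` jointly smooth, every `w t` exact ==> jointly smooth primitives
* `prim_dot` : `w : ℝ → F2 C` jointly smooth of constant class ==> `∂_t w = d b_t`, `b` jointly smooth
-/

set_option autoImplicit false
set_option linter.unusedSectionVars false
set_option maxSynthPendingDepth 3

open Set Filter Topology Metric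
open scoped ContDiff

namespace Crest.Agent.R281.Prim_377

open Crest.Agent.R281.HkR_835 Crest.Agent.R281.Cdr_234
open Crest.Agent.R281.Ti_846 (F1 IsD Ex d1)
open Crest.Agent.R281.Iso_139 (JS1 JS2 dotF dotF_js dotF_hd)

noncomputable section

variable {V X : Type} [NormedAddCommGroup V] [NormedSpace ℝ V] [FiniteDimensional ℝ V]
  [TopologicalSpace X] [CompactSpace X] [T2Space X] {C : RCh V X}

/-- **PRIM-VAR** -/
theorem prim_var {w : ℝ → F2 C} (hw : JS2 w) (hex : ∀ t, Ex (w t)) :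
    ∃ η : ℝ → F1 C, JS1 η ∧ ∀ t, IsD (w t) (η t) := by
  obtain ⟨η, h1, h2⟩ := prim0 (O := (univ : Set ℝ)) isOpen_univ hw fun t _ => hex t
  exact ⟨η, h1, fun t => h2 t (mem_univ t)⟩


end

end Crest.Agent.R281.Prim_377
end

-- ▼ part R281/Iso5_139
section

/-!
# Row 281, HK-ISO, part 5 (helper139): the two inputs

* `pos_open`      : positivity is open in jointly continuous families
* `densOf`        : the squared density `det (w (x, J y))`
* `ddc_var`       : **`u_p` is jointly smooth if `dd^c_{J_p} u_p` is** (from `V0 C (SolMA b)`)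
* `ddcv_of_V0`    : `V0 C (SolMA b) → DDCV C`
* `primVar`       : `PRIMVar C` (377)
* `iso_hk`, `kcls_hk` : HK-ISO with the only input `V0 C (SolMA b)`
-/

set_option autoImplicit false
set_option maxSynthPendingDepth 3
set_option linter.unusedSectionVars false

open Set Filter Topology
open scoped ContDiff

namespace Crest.Agent.R281.Iso_139

open Crest.Agent.R281.HkR_835 Crest.Agent.R260.ACM_580
open Crest.Agent.R281.Dif_268 Crest.Agent.R281.Flo_222
open Crest.Agent.R281.NefO_476 Crest.Agent.R281.Nef_252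
open Crest.Agent.R281.Ti_846 hiding pb pb_apply symm2 sm'

noncomputable section

variable {V X : Type} [NormedAddCommGroup V] [NormedSpace ℝ V] [TopologicalSpace X]
  {C : RCh V X}

section pos

variable {P : Type*} [TopologicalSpace P] [FiniteDimensional ℝ V] [CompactSpace X]
  [MeasurableSpace V] [BorelSpace V]

/-- positivity is open in jointly continuous families -/
theorem pos_open {J : P → AJ C} {b : P → F2 C}
    (hJ : ∀ i, ContinuousOn (fun q : P × V => (J q.1).J i q.2) (univ ×ˢ (C.e i).target))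
    (hb : ContF b) : IsOpen {p | Pos (J p) (b p)} := by
  rw [isOpen_iff_mem_nhds]
  intro p₀ hpos
  have : ProperSpace V := FiniteDimensional.proper ℝ V
  have hcont : ∀ i, ContinuousOn (fun q : (P × V) × V =>
      (b q.1.1).w i q.1.2 q.2 ((J q.1.1).J i q.1.2 q.2)) ((univ ×ˢ (C.e i).target) ×ˢ univ) := by
    intro i
    have m1 : MapsTo (fun q : (P × V) × V => q.1) ((univ ×ˢ (C.e i).target) ×ˢ univ)
        (univ ×ˢ (C.e i).target) := fun q hq => hq.1
    have c1 : ContinuousOn (fun q : (P × V) × V => q.1) ((univ ×ˢ (C.e i).target) ×ˢ univ) :=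
      continuous_fst.continuousOn
    have cv : ContinuousOn (fun q : (P × V) × V => q.2) ((univ ×ˢ (C.e i).target) ×ˢ univ) :=
      continuous_snd.continuousOn
    have hb' := (hb i).comp c1 m1
    have hJ0 := (hJ i).comp c1 m1
    simp only [Function.comp_def] at hb' hJ0
    exact (hb'.clm_apply cv).clm_apply (hJ0.clm_apply cv)
  have key : ∀ x : X, ∃ (i : C.ι) (N : Set P) (W : Set V), x ∈ (C.e i).source ∧ N ∈ 𝓝 p₀ ∧
      IsOpen W ∧ C.e i x ∈ W ∧ W ⊆ (C.e i).target ∧ ∀ p ∈ N, ∀ z ∈ W, ∀ v : V, ‖v‖ = 1 →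
        0 < (b p).w i z v ((J p).J i z v) := by
    intro x
    obtain ⟨i, hi⟩ := C.cover x
    have hz0 : C.e i x ∈ (C.e i).target := (C.e i).map_source hi
    have hopen : IsOpen ((univ ×ˢ (C.e i).target : Set (P × V)) ×ˢ (univ : Set V)) :=
      (isOpen_univ.prod (C.e i).open_target).prod isOpen_univ
    have hO : IsOpen (((univ ×ˢ (C.e i).target : Set (P × V)) ×ˢ (univ : Set V)) ∩
        (fun q : (P × V) × V => (b q.1.1).w i q.1.2 q.2 ((J q.1.1).J i q.1.2 q.2)) ⁻¹' Ioi 0) :=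
      (hcont i).isOpen_inter_preimage hopen isOpen_Ioi
    have hsub : ({(p₀, C.e i x)} : Set (P × V)) ×ˢ Metric.sphere (0 : V) 1 ⊆
        ((univ ×ˢ (C.e i).target : Set (P × V)) ×ˢ (univ : Set V)) ∩
        (fun q : (P × V) × V => (b q.1.1).w i q.1.2 q.2 ((J q.1.1).J i q.1.2 q.2)) ⁻¹' Ioi 0 := by
      rintro ⟨⟨p, z⟩, v⟩ ⟨hpz, hv⟩
      simp only [mem_singleton_iff, Prod.mk.injEq] at hpz
      obtain ⟨rfl, rfl⟩ := hpz
      refine ⟨⟨⟨mem_univ _, hz0⟩, mem_univ _⟩, ?_⟩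
      refine hpos i _ hz0 v fun h0 => ?_
      simp [h0] at hv
    obtain ⟨A, B, hA, hB, hA', hB', hAB⟩ := generalized_tube_lemma isCompact_singleton
      (isCompact_sphere (0 : V) 1) hO hsub
    have hA'' : A ∈ 𝓝 (p₀, C.e i x) := hA.mem_nhds (hA' rfl)
    rw [nhds_prod_eq] at hA''
    obtain ⟨N, hN, W, hW, hNW⟩ := mem_prod_iff.1 hA''
    obtain ⟨W', hW'sub, hW'o, hW'x⟩ := mem_nhds_iff.1 hW
    refine ⟨i, N, W' ∩ (C.e i).target, hi, hN, hW'o.inter (C.e i).open_target,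
      ⟨hW'x, hz0⟩, inter_subset_right, fun p hp z hz v hv => ?_⟩
    have h1 := hAB (mk_mem_prod (hNW (mk_mem_prod hp (hW'sub hz.1))) (hB' (by simp [hv] :
      v ∈ Metric.sphere (0 : V) 1)))
    exact h1.2
  choose ci N W hsrc hN hW hx hWt hP using key
  obtain ⟨t, -, ht⟩ := isCompact_univ.elim_nhds_subcover
    (fun x => (C.e (ci x)).source ∩ C.e (ci x) ⁻¹' W x) fun x _ =>
      ((C.e (ci x)).isOpen_inter_preimage (hW x)).mem_nhds ⟨hsrc x, hx x⟩
  have hNN : (⋂ x ∈ t, N x) ∈ 𝓝 p₀ := (biInter_finset_mem t).2 fun x _ => hN x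
  refine mem_of_superset hNN fun p hp => fun i z hz v hv => ?_
  obtain ⟨x, hxt, hxs, hxW⟩ := mem_iUnion₂.1 (ht (mem_univ ((C.e i).symm z)))
  have hov : z ∈ C.ov i (ci x) := ⟨hz, hxs⟩
  refine pos_tr hov (fun v' hv' => ?_) v hv
  have hn : 0 < ‖v'‖ := norm_pos_iff.2 hv'
  have h1 := hP x p (mem_iInter₂.1 hp x hxt) (C.t i (ci x) z) hxW (‖v'‖⁻¹ • v') (by
    rw [norm_smul, norm_inv, norm_norm, inv_mul_cancel₀ hn.ne'])
  simp only [map_smul, smul_apply, smul_eq_mul] at h1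
  have h2 : 0 < ‖v'‖⁻¹ * ‖v'‖⁻¹ := by positivity
  rw [← mul_assoc] at h1
  exact (mul_pos_iff_of_pos_left h2).1 h1

end pos

/-! ### densities -/

section dens

variable [FiniteDimensional ℝ V] [MeasurableSpace V] [BorelSpace V] {κ : Type} [Fintype κ]
  [DecidableEq κ] (bs : Module.Basis κ ℝ V)

theorem contDiffOn_detB {W : Type*} [NormedAddCommGroup W] [NormedSpace ℝ W] {S : Set W}
    {n : ℕ∞ω} {B : W → Bil V} {J : W → V →L[ℝ] V} (hB : ContDiffOn ℝ n B S)
    (hJ : ContDiffOn ℝ n J S) :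
    ContDiffOn ℝ n (fun q => Tt_476.detB bs (fun x y => B q x (J q y))) S := by
  have h : (fun q => Tt_476.detB bs (fun x y => B q x (J q y))) = fun q =>
      ∑ σ : Equiv.Perm κ, ((Equiv.Perm.sign σ : ℤ) : ℝ) * ∏ k, B q (bs (σ k)) (J q (bs k)) := by
    funext q
    unfold Tt_476.detB
    rw [Matrix.det_apply']
    rfl
  rw [h]
  exact ContDiffOn.sum fun σ _ => contDiffOn_const.mul (contDiffOn_prod fun k _ =>
    (hB.clm_apply contDiffOn_const).clm_apply (hJ.clm_apply contDiffOn_const))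

/-- the squared density `det (w (x, J y))` -/
def densOf (J : AJ C) (w : F2 C) : Tt_476.Dens C where
  r i z := Tt_476.detB bs (fun x y => w.w i z x (J.J i z y))
  sm i := contDiffOn_detB bs (w.sm i) (J.sm i)
  tr i j z hz := by
    have h : (fun x y => w.w i z x (J.J i z y)) = fun x y =>
        ((w.w j (C.t i j z)).bilinearComp (ContinuousLinearMap.id ℝ V) (J.J j (C.t i j z)))
          (fderiv ℝ (C.t i j) z x) (fderiv ℝ (C.t i j) z y) := by
      funext x y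
      rw [w.tr i j z hz, J.tr i j z hz]
      rfl
    rw [h, Tt_476.detB_pull]
    rfl

theorem ddc_smul (J : AJ C) {u : X → ℝ} (hu : Sm C u) (c : ℝ)
    (hu' : Sm C fun x => c * u x) {i : C.ι} {z : V} (hz : z ∈ (C.e i).target) (a b : V) :
    (ddc J (fun x => c * u x) hu').w i z a b = c * (ddc J u hu).w i z a b := by
  have h1 : fderiv ℝ (uc C (fun x => c * u x) i) = c • fderiv ℝ (uc C u i) := by
    have : uc C (fun x => c * u x) i = c • uc C u i := rfl
    rw [this]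
    exact fderiv_const_smul_field c
  have h2 : fderiv ℝ (c • fderiv ℝ (uc C u i)) z = c • fderiv ℝ (fderiv ℝ (uc C u i)) z :=
    congrFun (fderiv_const_smul_field c) z
  rw [ddc_w J _ hu' hz, ddc_w J u hu hz]
  unfold ddcF
  rw [h1, h2]
  simp only [Pi.smul_apply, smul_apply, smul_eq_mul]
  ring

end dens

/-! ### `dd^c u` jointly smooth ⟹ `u` jointly smooth -/

section ddcvar

variable [FiniteDimensional ℝ V] [CompleteSpace V] [MeasurableSpace V] [BorelSpace V] {κ : Type}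
  [Fintype κ] [DecidableEq κ] {bs : Module.Basis κ ℝ V} [CompactSpace X] [T2Space X]

/-- **if `dd^c_{J_p} u_p` is jointly smooth, so is `u_p`** (normalised at a point) -/
theorem ddc_var (hV : Tt_476.V0 C (Tt_476.SolMA (C := C) bs)) {E : Type} [NormedAddCommGroup E]
    [NormedSpace ℝ E] [FiniteDimensional ℝ E] {T : Set E} (hT : IsOpen T) {J : E → AJ C}
    (hJ : Tt_476.JSJ T J) {om w : E → F2 C} (hom : Tt_476.JS2 T om) (hw : Tt_476.JS2 T w)
    (hcx : ∀ p ∈ T, Cx (J p)) (h11 : ∀ p ∈ T, T11 (J p) (om p)) (hpos : ∀ p ∈ T, Pos (J p) (om p))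
    {u : E → X → ℝ} (hu : ∀ p ∈ T, Sm C (u p)) {x1 : X} (h1 : ∀ p ∈ T, u p x1 = 0)
    (he : ∀ p (hp : p ∈ T), Eqv (w p) (ddc (J p) (u p) (hu p hp))) : Tt_476.JS0 C T u := by
  intro i
  rintro ⟨p0, z0⟩ ⟨hp0, hz0⟩
  -- positivity
  have hJc : ∀ i, ContinuousOn (fun q : (T × ℝ) × V => (J q.1.1).J i q.2)
      (univ ×ˢ (C.e i).target) := by
    intro i
    exact (hJ i).continuousOn.comp (f := fun q : (T × ℝ) × V => ((q.1.1 : E), q.2))
      (by fun_prop) fun q hq => ⟨q.1.1.2, hq.2⟩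
  have hbc : ContF fun q : T × ℝ => om q.1 + q.2 • w q.1 := by
    intro i
    have c1 : ContinuousOn (fun q : (T × ℝ) × V => ((q.1.1 : E), q.2))
      (univ ×ˢ (C.e i).target) := by fun_prop
    have c2 : ContinuousOn (fun q : (T × ℝ) × V => q.1.2) (univ ×ˢ (C.e i).target) := by fun_prop
    exact ((hom i).continuousOn.comp c1 fun q hq => ⟨q.1.1.2, hq.2⟩).add
      (c2.smul ((hw i).continuousOn.comp c1 fun q hq => ⟨q.1.1.2, hq.2⟩))
  have hO := pos_open (P := T × ℝ) (J := fun q => J q.1) hJc hbc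
  have hm : ((⟨p0, hp0⟩, 0) : T × ℝ) ∈ {q : T × ℝ | Pos (J q.1) (om q.1 + q.2 • w q.1)} := by
    intro i z hz v hv
    have := hpos p0 hp0 i z hz v hv
    simpa [F2.add_w, F2.smul_w] using this
  obtain ⟨A, hA, B, hB, hAB⟩ := mem_nhds_prod_iff.1 (hO.mem_nhds hm)
  obtain ⟨s, hs, hs0⟩ : ∃ s : ℝ, s ∈ B ∧ 0 < s := by
    have h2 : ∀ᶠ s : ℝ in 𝓝[>] 0, s ∈ B := nhdsWithin_le_nhds hB
    obtain ⟨s, hs1, hs2⟩ := (h2.and self_mem_nhdsWithin).exists
    exact ⟨s, hs1, hs2⟩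
  obtain ⟨A', hA', hAA⟩ := mem_nhds_subtype T ⟨p0, hp0⟩ A |>.1 hA
  obtain ⟨N0, hN0, hN0o, hN0p⟩ := mem_nhds_iff.1 hA'
  have hNo : IsOpen (N0 ∩ T) := hN0o.inter hT
  have hP : ∀ p ∈ N0 ∩ T, Pos (J p) (om p + s • w p) := fun p hp =>
    hAB (mk_mem_prod (hAA (show (⟨p, hp.2⟩ : T) ∈ Subtype.val ⁻¹' A' from hN0 hp.1)) hs)
  -- the data
  let D : E → Tt_476.Dat C := fun p =>
    { J := J p
      om := om p
      r := densOf bs (J p) (om p + s • w p)
      f := fun _ => 0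
      fs := fun _ => contDiffOn_const }
  have hsub : ∀ i, (N0 ∩ T) ×ˢ (C.e i).target ⊆ T ×ˢ (C.e i).target := fun i =>
    prod_mono inter_subset_right subset_rfl
  have hD : Tt_476.JSDat (N0 ∩ T) D := by
    refine ⟨fun i => (hJ i).mono (hsub i), fun i => (hom i).mono (hsub i), fun i => ?_,
      fun i => contDiffOn_const⟩
    have hb : ContDiffOn ℝ ∞ (fun q : E × V => (om q.1 + s • w q.1).w i q.2)
        ((N0 ∩ T) ×ˢ (C.e i).target) :=
      ((hom i).mono (hsub i)).add (((hw i).mono (hsub i)).const_smul s)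
    exact contDiffOn_detB bs hb ((hJ i).mono (hsub i))
  have hsu : ∀ p ∈ T, Sm C fun x => s * u p x := fun p hp i => contDiffOn_const.mul (hu p hp i)
  have heq : ∀ p ∈ N0 ∩ T, ∀ (h : Sm C fun x => s * u p x) i, ∀ z ∈ (C.e i).target, ∀ x y,
      (om p + ddc (J p) (fun x => s * u p x) h).w i z x y = (om p + s • w p).w i z x y := by
    intro p hp h i z hz x y
    simp only [F2.add_w, F2.smul_w, add_apply, smul_apply, smul_eq_mul]
    rw [ddc_smul (J p) (hu p hp.2) s h hz, he p hp.2 i z hz]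
  have hsol : ∀ p ∈ N0 ∩ T, Tt_476.SolMA bs (D p) fun x => s * u p x := by
    intro p hp
    refine ⟨hcx p hp.2, h11 p hp.2, hpos p hp.2, hsu p hp.2, fun i z hz v hv => ?_, 1,
      fun i z hz => ?_⟩
    · show 0 < (om p + ddc (J p) (fun x => s * u p x) (hsu p hp.2)).w i z v ((J p).J i z v)
      rw [heq p hp _ i z hz]
      exact hP p hp i z hz v hv
    · show Tt_476.detB bs (fun x y => (om p + ddc (J p) (fun x => s * u p x) (hsu p hp.2)).w i z x
        ((J p).J i z y)) = 1 * Tt_476.detB bs (fun x y => (om p + s • w p).w i z x ((J p).J i z y))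
      rw [one_mul]
      congr 1
      funext x y
      exact heq p hp _ i z hz _ _
  have hj := Tt_476.joint_MA hV hNo hD hsol (x1 := x1) fun p hp => by
    show s * u p x1 = 0
    rw [h1 p hp.2, mul_zero]
  have hat : ContDiffAt ℝ ∞ (fun q : E × V => s * u q.1 ((C.e i).symm q.2)) (p0, z0) :=
    (hj i).contDiffAt ((hNo.prod (C.e i).open_target).mem_nhds ⟨⟨hN0p, hp0⟩, hz0⟩)
  have h3 : (fun q : E × V => u q.1 ((C.e i).symm q.2)) = fun q : E × V =>
      s⁻¹ * (s * u q.1 ((C.e i).symm q.2)) := by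
    funext q
    rw [← mul_assoc, inv_mul_cancel₀ hs0.ne', one_mul]
  rw [h3]
  exact (contDiffAt_const.mul hat).contDiffWithinAt

/-- `V0 C (SolMA b)` gives the `dd^c`-lemma with parameters -/
theorem ddcv_of_V0 (hV : Tt_476.V0 C (Tt_476.SolMA (C := C) bs)) : DDCV C := by
  intro H om hom h11 hpos hdd γ hγ hinv
  rcases isEmpty_or_nonempty X with hX | ⟨⟨x1⟩⟩
  · exact ⟨fun _ _ => 0, fun i => contDiffOn_const, fun t i z hz => (hX.false ((C.e i).symm z)).elim⟩
  have hex : ∀ t, ∃ (u : X → ℝ) (hu : Sm C u), u x1 = 0 ∧ Eqv ((γ t).d) (ddc (H.aj t) u hu) := by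
    intro t
    obtain ⟨v, hv, h3⟩ := hdd t (γ t).d ⟨γ t, (γ t).isD⟩ fun i z hz a b => hinv t i z hz a b
    have hu : Sm C fun x => v x - v x1 := fun i => (hv i).sub contDiffOn_const
    refine ⟨fun x => v x - v x1, hu, sub_self _, fun i z hz a b => ?_⟩
    rw [h3 i z hz, ← Tt_476.ddc_congr (H.aj t) hu hv (c := -v x1) (fun x => by ring) hz]
  choose u hu h0 he using hex
  have hw : Tt_476.JS2 (univ : Set ℝ) fun t => (γ t).d := by
    intro i
    have h4 := dx_sm (hγ i)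
    have h5 : ContDiff ℝ ∞ (fun T : V →L[ℝ] V →L[ℝ] ℝ => T - T.flip) := by
      have : (fun T : V →L[ℝ] V →L[ℝ] ℝ => T - T.flip) =
        fun T => T - ContinuousLinearMap.flipₗᵢ ℝ V V ℝ T := rfl
      rw [this]
      fun_prop
    exact h5.comp_contDiffOn h4
  have hj : Tt_476.JS0 C univ u :=
    ddc_var hV isOpen_univ (J := H.aj) H.jsJ hom hw (fun t _ => H.cx t) (fun t _ => h11 t)
      (fun t _ => hpos t) (fun t _ => hu t) (fun t _ => h0 t) fun t _ => he t
  refine ⟨fun t x => -u t x, fun i => (hj i).neg, fun t i z hz a b => ?_⟩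
  have h6 : cJ (dX C (fun x => -u t x) i) (H.J t i) = (dc (H.aj t) (u t) (hu t)).η i := by
    funext y
    ext v
    have : fderiv ℝ (fun y => -u t ((C.e i).symm y)) y = -fderiv ℝ (uc C (u t) i) y := fderiv_neg
    simp [dX, dc, this, HSF.aj]
  rw [h6]
  exact he t i z hz a b

end ddcvar

/-- **PRIM-VAR** (helper377) -/
theorem primVar [FiniteDimensional ℝ V] [CompactSpace X] [T2Space X] : PRIMVar C :=
  fun _ hw hex => Prim_377.prim_var hw hex

/-! ### HK-ISO with the only input `V0 C (SolMA bs)` -/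

section final

variable [FiniteDimensional ℝ V] [CompleteSpace V] [MeasurableSpace V] [BorelSpace V] {κ : Type}
  [Fintype κ] [DecidableEq κ] {bs : Module.Basis κ ℝ V} [CompactSpace X] [T2Space X]



end final

end

end Crest.Agent.R281.Iso_139
end

-- ▼ part R281/Bx4_557
section

/-!
# Row 281, G9 BOX (second owner helper557), part 4: positivity is open; the family of moves

* `ev_pos`     : `Pos (J p) (w p)` is an open condition on the parameter (`X` compact)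
* `cyc_neg`    : `(H.cyc k).cyc (-k)` is `H`
* `MoveFam C Q`: the family of moves of `om 0` (222 #7955 (1)), from YAU-VAR
* `moveFam_k`  : the family of moves of `om k`
-/

set_option autoImplicit false
set_option maxSynthPendingDepth 3
set_option linter.unusedSectionVars false

open Set Filter Topology
open scoped ContDiff

namespace Crest.Agent.R281.Bx_557

open Crest.Agent.R260.ACM_580 Crest.Agent.R281.HkR_835 Crest.Agent.R281.Ti_846
open Crest.Agent.R281.NefO_476 Crest.Agent.R281.Nef_252 Crest.Agent.R281.Dif_268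
open Crest.Agent.R281.Alg_998
open Crest.Agent.R281.Sta2_684 (smulP)

noncomputable section

variable {V X : Type} [NormedAddCommGroup V] [NormedSpace ℝ V] [TopologicalSpace X]
  {C : RCh V X} {E : Type} [NormedAddCommGroup E] [NormedSpace ℝ E]

/-- **positivity is an open condition on the parameter** -/
theorem ev_pos [FiniteDimensional ℝ V] [CompactSpace X] {T : Set E} (hT : IsOpen T)
    {J : E → AJ C} (hJ : SmJ T J) {w : E → F2 C} (hw : SmF T w) {p0 : E} (hp0 : p0 ∈ T)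
    (h : Pos (J p0) (w p0)) : ∀ᶠ p in 𝓝 p0, Pos (J p) (w p) := by
  have key : ∀ᶠ p in 𝓝 p0, ∀ x ∈ (univ : Set X), ∃ i, x ∈ (C.e i).source ∧
      ∀ v, v ≠ 0 → 0 < (w p).w i (C.e i x) v ((J p).J i (C.e i x) v) := by
    refine isCompact_univ.eventually_forall_of_forall_eventually fun x _ => ?_
    obtain ⟨i, hi⟩ := C.cover x
    set z0 := C.e i x with hz0
    have hz0t : z0 ∈ (C.e i).target := (C.e i).map_source hi
    have hS := isOpen_TU (C := C) hT i
    have h0 : ((p0, z0) : E × V) ∈ T ×ˢ (C.e i).target := ⟨hp0, hz0t⟩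
    have h1 : ∀ᶠ q : E × V in 𝓝 (p0, z0), ∀ v ∈ Metric.sphere (0 : V) 1,
        0 < (w q.1).w i q.2 v ((J q.1).J i q.2 v) := by
      refine (isCompact_sphere (0 : V) 1).eventually_forall_of_forall_eventually fun v hv => ?_
      have hv0 : v ≠ 0 := by
        rintro rfl
        simp at hv
      have hc1 : ContinuousAt (fun q : (E × V) × V => (w q.1.1).w i q.1.2) ((p0, z0), v) := by
        have := ((hw i).continuousOn.continuousAt (hS.mem_nhds h0))
        exact ContinuousAt.comp (f := fun q : (E × V) × V => q.1)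
          (g := fun q : E × V => (w q.1).w i q.2) this continuousAt_fst
      have hc2 : ContinuousAt (fun q : (E × V) × V => (J q.1.1).J i q.1.2) ((p0, z0), v) := by
        have := ((hJ i).continuousOn.continuousAt (hS.mem_nhds h0))
        exact ContinuousAt.comp (f := fun q : (E × V) × V => q.1)
          (g := fun q : E × V => (J q.1).J i q.2) this continuousAt_fst
      have hc : ContinuousAt (fun q : (E × V) × V =>
          (w q.1.1).w i q.1.2 q.2 ((J q.1.1).J i q.1.2 q.2)) ((p0, z0), v) :=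
        (hc1.clm_apply continuousAt_snd).clm_apply (hc2.clm_apply continuousAt_snd)
      exact hc.eventually (lt_mem_nhds (h i z0 hz0t v hv0))
    have h2 : Tendsto (fun q : E × X => (q.1, C.e i q.2)) (𝓝 (p0, x)) (𝓝 (p0, z0)) := by
      have h21 : ContinuousAt (fun q : E × X => C.e i q.2) (p0, x) :=
        ContinuousAt.comp (f := fun q : E × X => q.2) (x := (p0, x))
          ((C.e i).continuousAt hi) continuousAt_snd
      have h22 : ContinuousAt (fun q : E × X => q.1) (p0, x) := continuousAt_fst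
      exact (h22.prodMk h21).tendsto
    have h3 : ∀ᶠ q : E × X in 𝓝 (p0, x), q.2 ∈ (C.e i).source :=
      continuousAt_snd.eventually ((C.e i).open_source.mem_nhds hi)
    filter_upwards [h2.eventually h1, h3] with q hq hq3
    refine ⟨i, hq3, fun v hv => ?_⟩
    have hn : 0 < ‖v‖ := norm_pos_iff.2 hv
    have h4 := hq (‖v‖⁻¹ • v) (by
      rw [mem_sphere_zero_iff_norm, norm_smul, norm_inv, norm_norm, inv_mul_cancel₀ hn.ne'])
    simp only [map_smul, smul_apply, smul_eq_mul] at h4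
    have h5 := (pos_iff_pos_of_mul_pos h4).1 (by positivity)
    exact (pos_iff_pos_of_mul_pos h5).1 (by positivity)
  filter_upwards [key] with p hp
  intro j z hz v hv
  obtain ⟨i, hi, h1⟩ := hp ((C.e j).symm z) (mem_univ _)
  have hov : z ∈ C.ov j i := ⟨hz, hi⟩
  let _ : MeasurableSpace V := borel V
  have _ : BorelSpace V := ⟨rfl⟩
  exact Crest.Agent.R281.NefO_476.pos_tr (J := J p) (b := w p) hov h1 v hv

theorem cyc_neg (H : HkT C) (k : Fin 3) : HEqv ((H.cyc k).cyc (-k)) H := by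
  refine ⟨fun l i z hz => ?_, fun l i z hz => ?_, fun i z hz => rfl⟩
  · ext u v
    rw [cyc_om (H.cyc k) (-k) l i z hz u v, cyc_om H k (l + -k) i z hz u v, neg_add_cancel_right]
  · ext v
    rw [cyc_J, cyc_J, neg_add_cancel_right]

theorem cyc_smulP (H : HkT C) {t : ℝ} (ht : 0 < t) (k : Fin 3) :
    HEqv ((smulP t ht H).cyc k) (smulP t ht (H.cyc k)) := rot_smulP H ht (fr_cyc k)

/-- **the family of moves of `om 0`** (YAU-VAR on a family of triples) -/
def MoveFam (C : RCh V X) (Q : F2 C →ₗ[ℝ] F2 C →ₗ[ℝ] ℝ) : Prop :=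
  ∀ (E : Type) [NormedAddCommGroup E] [NormedSpace ℝ E] [FiniteDimensional ℝ E] (T : Set E)
    (H : E → HkT C) (w : E → F2 C), IsOpen T → SmHk T H →
    (∀ p ∈ T, 0 < Q ((H p).om 0) ((H p).om 0)) → SmF T w →
    (∀ p ∈ T, T11 (ofHk (H p) 0) (w p)) → (∀ p ∈ T, Pos (ofHk (H p) 0) (w p)) →
    (∀ p ∈ T, 0 < Q (w p) (w p)) →
    ∃ (H' : E → HkT C) (r : E → ℝ), SmHk T H' ∧ ContDiffOn ℝ ∞ r T ∧ ∀ p ∈ T, 0 < r p ∧
      (∀ i, ∀ z ∈ (C.e i).target, ∀ v, (H' p).J 0 i z v = (H p).J 0 i z v) ∧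
      Eqv ((H' p).om 1) (r p • (H p).om 1) ∧ Eqv ((H' p).om 2) (r p • (H p).om 2) ∧
      Ex ((H' p).om 0 - w p) ∧
      ∀ (t : ℝ) (ht : 0 < t), Eqv (w p) (t • (H p).om 0) → HEqv (H' p) (smulP t ht (H p))

/-- the cyclic permutation of a jointly smooth family -/
theorem SmHk.cyc {T : Set E} {H : E → HkT C} (hH : SmHk T H) (k : Fin 3) :
    SmHk T fun p => (H p).cyc k :=
  hH.rot (R := fun _ => cycR k) (fun _ => fr_cyc k) fun _ _ => contDiffOn_const

/-- **the family of moves of `om k`** -/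
theorem moveFam_k [FiniteDimensional ℝ E] {Q : F2 C →ₗ[ℝ] F2 C →ₗ[ℝ] ℝ} (hM : MoveFam C Q)
    (k : Fin 3)
    {T : Set E} {H : E → HkT C} {w : E → F2 C} (hT : IsOpen T) (hH : SmHk T H)
    (h0 : ∀ p ∈ T, 0 < Q (((H p).cyc k).om 0) (((H p).cyc k).om 0)) (hw : SmF T w)
    (ht : ∀ p ∈ T, T11 (ofHk (H p) k) (w p)) (hp : ∀ p ∈ T, Pos (ofHk (H p) k) (w p))
    (hq : ∀ p ∈ T, 0 < Q (w p) (w p)) :
    ∃ (H' : E → HkT C) (r : E → ℝ), SmHk T H' ∧ ContDiffOn ℝ ∞ r T ∧ ∀ p ∈ T, 0 < r p ∧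
      (∀ i, ∀ z ∈ (C.e i).target, ∀ v, (H' p).J k i z v = (H p).J k i z v) ∧
      (∀ l, l ≠ k → Eqv ((H' p).om l) (r p • (H p).om l)) ∧
      Ex ((H' p).om k - w p) ∧
      ∀ (t : ℝ) (ht : 0 < t), Eqv (w p) (t • (H p).om k) → HEqv (H' p) (smulP t ht (H p)) := by
  have eJ : ∀ p i z v, (ofHk ((H p).cyc k) 0).J i z v = (ofHk (H p) k).J i z v := by
    intro p i z v
    show ((H p).cyc k).J 0 i z v = (H p).J k i z v
    rw [cyc_J, zero_add]
  obtain ⟨H', r, hs, hr, h⟩ := hM E T (fun p => (H p).cyc k) w hT (hH.cyc k) h0 hw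
    (fun p hpT i z hz u v => by
      rw [eJ, eJ]
      exact ht p hpT i z hz u v)
    (fun p hpT i z hz v hv => by
      rw [eJ]
      exact hp p hpT i z hz v hv) hq
  refine ⟨fun p => (H' p).cyc (-k), r, hs.cyc (-k), hr, fun p hpT => ?_⟩
  obtain ⟨h1, h2, h3, h4, h5, h6⟩ := h p hpT
  refine ⟨h1, fun i z hz v => ?_, fun l hl => ?_, ?_, fun t ht hwt => ?_⟩
  · rw [cyc_J, add_neg_cancel, h2 i z hz, cyc_J, zero_add]
  · have key : ∀ m : Fin 3, m ≠ 0 → Eqv ((H' p).om m) (r p • ((H p).cyc k).om m) := by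
      intro m hm
      fin_cases m
      · exact absurd rfl hm
      · exact h3
      · exact h4
    have h7 : l + -k ≠ 0 := fun h => hl (by
      have h8 := congrArg (fun x => x + k) h
      simpa using h8)
    refine (cyc_om (H' p) (-k) l).trans ((key _ h7).trans fun i z hz u v => ?_)
    have e3 := cyc_om (H p) k (l + -k) i z hz u v
    rw [neg_add_cancel_right] at e3
    show r p * (((H p).cyc k).om (l + -k)).w i z u v = r p * ((H p).om l).w i z u v
    rw [e3]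
  · have e3 := cyc_om (H' p) (-k) k
    rw [add_neg_cancel] at e3
    have e4 := ex_add (ex_of_eqv e3) h5
    rwa [sub_add_sub_cancel] at e4
  · have e1 : Eqv (w p) (t • ((H p).cyc k).om 0) := by
      intro i z hz u v
      have e2 := cyc_om (H p) k 0 i z hz u v
      rw [zero_add] at e2
      rw [hwt i z hz u v]
      show t * ((H p).om k).w i z u v = t * (((H p).cyc k).om 0).w i z u v
      rw [e2]
    have e5 := h6 t ht e1
    exact (heqv_rot e5 (fr_cyc (-k))).trans ((cyc_smulP _ ht (-k)).trans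
      (heqv_smulP (cyc_neg (H p) k) ht))

end

end Crest.Agent.R281.Bx_557
end

-- ▼ part R281/Mf1_835
section

/-!
# Row 281, MoveFam (helper835), part 1: the family of moves from YAU-VAR

* `hd_of`        : the data `HD` of a triple and a Kaehler form of `J 0`
* `moveFam_topI` : `TopI`, `YauVar C b'` imply 557's `MoveFam C Q`, `Q = a · polar q`, `0 < a`
-/

set_option autoImplicit false
set_option linter.unusedSectionVars false
set_option maxSynthPendingDepth 3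

open Set Filter Topology Function MeasureTheory
open scoped ContDiff

namespace Crest.Agent.R281.Mf_835

open Crest.Agent.R275.EDR890
open Crest.Agent.R281.HkR_835 hiding pb pb_apply
open Crest.Agent.R281.HkR_835.Cmp
open Crest.Agent.R281.Ti_846 hiding pb pb_apply
open Crest.Agent.R281.NefO_476
open Crest.Agent.R281.Nef_252
open Crest.Agent.R281.Tt_476
open Crest.Agent.R281.Dif_268 (Eqv)
open Crest.Agent.R281.Alg_998 (HEqv Cl)
open Crest.Agent.R281.Al_830
open Crest.Agent.R281.Bx_557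
open Crest.Agent.R281.Sta2_684 (smulP)

noncomputable section

variable {V X : Type} [NormedAddCommGroup V] [NormedSpace ℝ V] [TopologicalSpace X]
  {C : RCh V X} [FiniteDimensional ℝ V]
  [MeasurableSpace V] [BorelSpace V] {μ : Measure V}
  [μ.IsAddHaarMeasure] [CompactSpace X] [T2Space X] [ConnectedSpace X] {n : ℕ}
  {b : Module.Basis (Fin (n + n) × Fin 2) ℝ V} {P : RPart C} {q : QuadraticForm ℝ (F2 C)}
  {κ : Type} [Fintype κ] [DecidableEq κ] {b' : Module.Basis κ ℝ V}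

theorem hd_of (H : HkT C) {w : F2 C} (ht : T11 (ofHk H 0) w) (hp : Pos (ofHk H 0) w) :
    HD (ofHk H 0) w (H.om 1) (H.om 2) where
  sq i z hz v := H.J_sq 0 i z hz v
  t11 := ht
  pos := hp
  typ _ _ hz u v := (H.om_J (k := 0) (l := 1) (m := 2) (Or.inl rfl) hz u v).1
  nd _ _ hz u hu := H.nondeg 1 hz u hu

/-- **the family of moves of `om 0`** -/
theorem moveFam_topI (TI : TopI μ b P q) (hY : YauVar C b') {Q : F2 C →ₗ[ℝ] F2 C →ₗ[ℝ] ℝ}
    {a : ℝ} (ha : 0 < a) (hQ : ∀ x y, Q x y = a * QuadraticMap.polar q x y) : MoveFam C Q := by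
  intro E _ _ _ T H w hT hH h0 hw ht hp hq
  rcases T.eq_empty_or_nonempty with rfl | hne
  · exact ⟨H, fun _ => 1, hH, contDiffOn_const, fun p hp => absurd hp (notMem_empty p)⟩
  let D : CFam C T :=
    { J := fun p => ofHk (H p) 0
      om := w
      s1 := fun p => (H p).om 1
      s2 := fun p => (H p).om 2
      jsJ := hH.J 0
      jsom := hw
      js1 := hH.om 1
      js2 := hH.om 2
      hd := fun p hpT => hd_of (H p) (ht p hpT) (hp p hpT) }
  have hn := TI.npos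
  have hV : Nontrivial V := by
    refine Module.nontrivial_of_finrank_pos (R := ℝ) ?_
    rw [fin_V b]
    omega
  have hq' : ∀ p ∈ T, 0 < q (D.om p) := by
    intro p hpT
    have h1 := hq p hpT
    have h2 : QuadraticMap.polar q (w p) (w p) = 2 * q (w p) := by
      rw [QuadraticMap.polar, ← two_smul ℝ (w p), QuadraticMap.map_smul, smul_eq_mul]
      ring
    rw [hQ, h2] at h1
    have h3 := (pos_iff_pos_of_mul_pos h1).1 ha
    show 0 < q (w p)
    linarith
  obtain ⟨H', r, u, hH', hr, -, hm⟩ := TI.exists_hk hY hT hne D hq'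
  refine ⟨H', r, ⟨hH'.om, hH'.J⟩, hr, fun p hpT => ?_⟩
  obtain ⟨h1, h2, ⟨hu, h3⟩, h4, h5⟩ := hm p hpT
  have hJ : ∀ i, ∀ z ∈ (C.e i).target, ∀ v, (H' p).J 0 i z v = (H p).J 0 i z v := by
    intro i z _ v
    have h6 : (ofHk (H' p) 0).J i z v = (ofHk (H p) 0).J i z v := by
      rw [h2]
    exact h6
  have hex : Ex ((H' p).om 0 - w p) := by
    have h6 : (H' p).om 0 - w p = ddc (D.J p) (u p) hu := by
      rw [h3]
      exact add_sub_cancel_left _ _
    rw [h6]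
    exact ddc_Ex _ _ _
  refine ⟨h1, hJ, fun i z hz x y => ?_, fun i z hz x y => ?_, hex, fun t ht' hwt => ?_⟩
  · rw [h4]
  · rw [h5]
  · have e1 : ∀ i, ∀ z ∈ (C.e i).target, ∀ x y,
        ((H' p).om 1).w i z x y = (r p / t) * ((smulP t ht' (H p)).om 1).w i z x y := by
      intro i z _ x y
      rw [h4]
      show r p * ((H p).om 1).w i z x y = (r p / t) * (t * ((H p).om 1).w i z x y)
      have := ht'.ne'
      field_simp
    have e2 : Ex ((H' p).om 0 - (smulP t ht' (H p)).om 0) := by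
      have e3 : Ex (w p - t • (H p).om 0) := Crest.Agent.R281.Bx_557.ex_of_eqv hwt
      have e4 := ex_add hex e3
      rwa [sub_add_sub_cancel] at e4
    have e5 := om_unique (fin_V b) (by omega) (H' p) (smulP t ht' (H p)) hJ e2 e1
    exact (hk_unique (H' p) (smulP t ht' (H p)) hJ e5 (div_pos h1 ht') e1).2

end

end Crest.Agent.R281.Mf_835
end

-- ▼ part R281/Mf2_835
section

/-!
# Row 281, MoveFam (helper835), part 2: the family of moves in the context `Ctx`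

* `Ctx.moveFam` : `Ctx n C Q` and YAU-VAR on `C` imply 557's `MoveFam C Q`
-/

set_option autoImplicit false
set_option linter.unusedSectionVars false
set_option maxSynthPendingDepth 3

open Set Filter Topology Function MeasureTheory
open scoped ContDiff

namespace Crest.Agent.R281.Mf_835

open Crest.Agent.R275.Core144 Crest.Agent.R275.EDR890 Crest.Agent.R275.GC293 Crest.Agent.R275.Geo
open Crest.Agent.R281.HkR_835 hiding pb pb_apply
open Crest.Agent.R281.Ti_846 hiding pb pb_apply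
open Crest.Agent.R281.Al_830
open Crest.Agent.R281.Bx_557
open Crest.Agent.R281.RkD_902 (Ctx)

noncomputable section

/-- **the family of moves** -/
theorem moveFam {n : ℕ} {X : Type} [TopologicalSpace X] [CompactSpace X] [T2Space X]
    [ConnectedSpace X] {C : RCh (Cn (2 * n)) X} {Q : F2 C →ₗ[ℝ] F2 C →ₗ[ℝ] ℝ} (hc : Ctx n C Q)
    {κ : Type} [Fintype κ] [DecidableEq κ] {b' : Module.Basis κ ℝ (Cn (2 * n))}
    (hY : YauVar C b') : MoveFam C Q := by
  obtain ⟨P, q, a, ha, TI, hQ⟩ := hc.top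
  exact moveFam_topI TI hY ha hQ

end

end Crest.Agent.R281.Mf_835
end

-- ▼ part R281/Mf3_835
section

/-!
# Row 281, MoveFam (helper835), part 3: positivity of `q`, 551's `MoveFam`

* `TopI.q_pos`  : `0 < q om` and `w` positive of type (1,1) for the same complex structure as `om`
                  imply `0 < q w`
* `moveFamCe`   : 551's `MoveFam Q` (all `k`, no hypothesis on `Q (w p) (w p)`)
-/

set_option autoImplicit false
set_option linter.unusedSectionVars false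
set_option maxSynthPendingDepth 3

open Set Filter Topology Function MeasureTheory
open scoped ContDiff

namespace Crest.Agent.R281.Mf_835

open Crest.Agent.R275.Core144 Crest.Agent.R275.EDR890 Crest.Agent.R275.GC293
open Crest.Agent.R275.Geo
open Crest.Agent.R281.HkR_835 hiding pb pb_apply
open Crest.Agent.R281.HkR_835.Cmp
open Crest.Agent.R281.Ti_846 hiding pb pb_apply
open Crest.Agent.R281.NefO_476
open Crest.Agent.R281.Nef_252
open Crest.Agent.R281.Tt_476
open Crest.Agent.R281.Dif_268 (Eqv)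
open Crest.Agent.R281.Alg_998 (HEqv Cl)
open Crest.Agent.R281.Al_830
open Crest.Agent.R281.Bx_557
open Crest.Agent.R281.Sta2_684 (smulP)
open Crest.Agent.R281.RkD_902 (Ctx)

noncomputable section

section qpos

variable {V X : Type} [NormedAddCommGroup V] [NormedSpace ℝ V] [TopologicalSpace X]
  {C : RCh V X} [FiniteDimensional ℝ V]
  [MeasurableSpace V] [BorelSpace V] {μ : Measure V}
  [μ.IsAddHaarMeasure] [CompactSpace X] [T2Space X] [ConnectedSpace X] {n : ℕ}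
  {b : Module.Basis (Fin (n + n) × Fin 2) ℝ V} {P : RPart C} {q : QuadraticForm ℝ (F2 C)}

/-- **positivity of `q` on Kaehler forms** -/
theorem TopI.q_pos (TI : TopI μ b P q) {J : AJ C} (hJ : Cx J) {om w : F2 C} (h11 : T11 J om)
    (hp : Pos J om) (h0 : 0 < q om) (k11 : T11 J w) (kp : Pos J w) : 0 < q w := by
  have hn := TI.npos
  obtain ⟨A, hfin, -, ⟨PA⟩, h, hI⟩ := exists_atlas (fin_V b) hJ
  -- the segment
  let f : ℝ → F2 C := fun s => om + s • (w - om)
  have hf11 : ∀ s, T11 J (f s) := by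
    intro s i z hz u v
    simp only [f, F2.add_w, F2.smul_w, F2.sub_w, add_apply, smul_apply, sub_apply, smul_eq_mul]
    rw [h11 i z hz, k11 i z hz]
  have hfp : ∀ s ∈ Icc (0 : ℝ) 1, Pos J (f s) := by
    intro s hs i z hz v hv
    simp only [f, F2.add_w, F2.smul_w, F2.sub_w, add_apply, smul_apply, sub_apply, smul_eq_mul]
    have h1 := hp i z hz v hv
    have h2 := kp i z hz v hv
    rcases eq_or_lt_of_le hs.1 with h3 | h3
    · rw [← h3]
      simpa using h1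
    · have h4 : 0 < s * (w.w i z v (J.J i z v)) := mul_pos h3 h2
      have h5 : 0 ≤ (1 - s) * (om.w i z v (J.J i z v)) := mul_nonneg (by linarith [hs.2]) h1.le
      linarith
  have hne : ∀ s ∈ Icc (0 : ℝ) 1, ∀ i, ∀ z ∈ (C.e i).target,
      TP b (fun _ : Fin (n + n) => (f s).w i z) ≠ 0 := fun s hs i z hz =>
    TP_om_ne b hI h (hf11 s) (hfp s hs) i z hz
  have hpos0 : 0 < IM μ b P (fun _ => om) := by
    rw [TI.fuj]
    exact pow_pos h0 n
  have hsgn0 := sign_pos μ b P TI.ori TI.nn (om := om) (fun i z hz => by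
    have := hne 0 ⟨le_rfl, zero_le_one⟩ i z hz
    simpa [f] using this) hpos0
  -- continuity of the top power in `s`
  have hcont : ∀ i z, Continuous fun s : ℝ => TP b (fun _ : Fin (n + n) => (f s).w i z) := by
    intro i z
    have h1 : (fun s : ℝ => TP b (fun _ : Fin (n + n) => (f s).w i z)) = fun s =>
        TPM b (fun _ : Fin (n + n) => om.w i z + s • (w.w i z - om.w i z)) := by
      funext s
      rfl
    rw [h1]
    unfold TPM
    simp only [MultilinearMap.coe_mk]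
    unfold TP
    fun_prop
  have hsgn : ∀ s ∈ Icc (0 : ℝ) 1, ∀ i, ∀ z ∈ (C.e i).target,
      0 < TP b (fun _ : Fin (n + n) => (f s).w i z) := by
    intro s hs i z hz
    by_contra hneg
    push Not at hneg
    have hsub : (0 : ℝ) ∈ (fun s : ℝ => TP b (fun _ : Fin (n + n) => (f s).w i z)) ''
        Icc 0 s := by
      refine intermediate_value_Icc' hs.1 (hcont i z).continuousOn ⟨hneg, ?_⟩
      have := hsgn0 i z hz
      simpa [f] using this.le
    obtain ⟨s', hs', h1⟩ := hsub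
    exact hne s' ⟨hs'.1, hs'.2.trans hs.2⟩ i z hz h1
  have hq0 : ∀ s ∈ Icc (0 : ℝ) 1, q (f s) ≠ 0 := by
    intro s hs h1
    have h2 : IM μ b P (fun _ => f s) = 0 := by
      rw [TI.fuj, h1, zero_pow hn.ne']
    rw [IM_apply] at h2
    have h3 := intT_eq_zero μ P TI.nn (D := TopF.of b (fun _ : Fin (n + n) => f s))
      (fun i z hz => (hsgn s hs i z hz).le) h2
    obtain ⟨x⟩ := (inferInstance : Nonempty X)
    obtain ⟨i, hi⟩ := C.cover x
    exact (hsgn s hs i _ ((C.e i).map_source hi)).ne' (h3 i _ ((C.e i).map_source hi))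
  by_contra hneg
  push Not at hneg
  have hc : Continuous fun s : ℝ => q (f s) := by
    have : (fun s : ℝ => q (f s)) = fun s =>
        q om + s * QuadraticMap.polar q om (w - om) + s ^ 2 * q (w - om) := by
      funext s
      exact FujSig_358.q_line _ _ _ _
    rw [this]
    fun_prop
  have hsub : (0 : ℝ) ∈ (fun s : ℝ => q (f s)) '' Icc 0 1 := by
    refine intermediate_value_Icc' zero_le_one hc.continuousOn ⟨?_, ?_⟩
    · simpa [f] using hneg
    · simpa [f] using h0.le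
  obtain ⟨s, hs, h1⟩ := hsub
  exact hq0 s hs h1

end qpos

/-- **551's `MoveFam`** -/
theorem moveFamCe {n : ℕ} {X : Type} [TopologicalSpace X] [CompactSpace X] [T2Space X]
    [ConnectedSpace X] {C : RCh (Cn (2 * n)) X} {Q : F2 C →ₗ[ℝ] F2 C →ₗ[ℝ] ℝ} (hc : Ctx n C Q)
    {κ : Type} [Fintype κ] [DecidableEq κ] {b' : Module.Basis κ ℝ (Cn (2 * n))}
    (hY : YauVar C b') : Ce_551.MoveFam Q := by
  intro E _ _ _ T hT k H w hH hw h0 ht hp
  obtain ⟨P, q, a, ha, TI, hQ⟩ := hc.top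
  have hpq : ∀ x, Q x x = 2 * a * q x := by
    intro x
    rw [hQ, QuadraticMap.polar, ← two_smul ℝ x, QuadraticMap.map_smul, smul_eq_mul]
    ring
  have hqk : ∀ p ∈ T, ∀ k, 0 < q ((H p).om k) := by
    intro p hpT k
    have h1 := h0 p hpT
    rw [← hc.eq (H p) k, hpq] at h1
    exact (pos_iff_pos_of_mul_pos h1).1 (by positivity)
  have hqw : ∀ p ∈ T, 0 < Q (w p) (w p) := by
    intro p hpT
    rw [hpq]
    have := TopI.q_pos TI (cx_ofHk (H p) k) (T11_hk (H p) k) (Pos_hk (H p) k) (hqk p hpT k)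
      (ht p hpT) (hp p hpT)
    positivity
  obtain ⟨H', r, h1, h2, h3⟩ := moveFam_k (moveFam hc hY) k hT hH (fun p hpT => by
    have e1 : Cl (((H p).cyc k).om 0) ((H p).om k) := by
      refine Cl.of_eq_on fun i z hz => ?_
      ext u v
      have := cyc_om (H p) k 0 i z hz u v
      rw [zero_add] at this
      exact this
    have e2 : Q (((H p).cyc k).om 0) (((H p).cyc k).om 0) = Q ((H p).om k) ((H p).om k) := by
      have f1 := hc.ex _ (((H p).cyc k).om 0) e1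
      have f2 := hc.ex _ ((H p).om k) e1
      rw [map_sub, LinearMap.sub_apply, sub_eq_zero] at f1 f2
      rw [f1, hc.symm, f2]
    rw [e2, hpq]
    have := hqk p hpT k
    positivity) hw ht hp hqw
  refine ⟨H', r, h1, h2, fun p hpT => ?_⟩
  obtain ⟨g1, g2, g3, g4, -⟩ := h3 p hpT
  exact ⟨g1, g2, g3, g4⟩

end

end Crest.Agent.R281.Mf_835
end

-- ▼ part R281/Yt1_846
section

/-!
# Row 281, YAU-VAR (L4) T-FORMULA (helper846): the derivative of the operator at `p0`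
-/

set_option autoImplicit false
set_option maxSynthPendingDepth 3
set_option linter.unusedSectionVars false

open Set Filter Topology Metric Complex
open scoped ContDiff Matrix ComplexConjugate ComplexOrder

namespace Crest.Agent.R281.Yt_846

open Crest.Agent.R275.Geo Crest.Agent.R275.Core144 Crest.Agent.R275.EDR890
open Crest.Agent.R273.Defs_333 Crest.Agent.R273.Kah_333
open Crest.Agent.R273.YauDefs_635 Crest.Agent.R273.SchF_152 Crest.Agent.R273.SchG_152
open Crest.Agent.R273.SchH_152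
open Crest.Agent.R260.ACM_580 Crest.Agent.R281.HkR_835 Crest.Agent.R281.NefO_476
open Crest.Agent.R281.Nef_252 Crest.Agent.R281.Hjs_680 Crest.Agent.R281.Tt_476
open Crest.Agent.R281.Yv_900 Crest.Agent.R281.Uq_250

noncomputable section

variable {n : ℕ} {X : Type} [TopologicalSpace X] {A : Atl n X}
variable {ι : Type} [Fintype ι] [DecidableEq ι] {b : Module.Basis ι ℝ (Cn n)} {B : Cb A}
  {P : Type} [NormedAddCommGroup P] [NormedSpace ℝ P] {D : P → Dat (ofAtl A)} {u0 : X → ℝ}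
  {k0 : ℝ} {T : Set P} {p0 : P}

/-- the real part of `hb G a c` from the form of `G` -/
theorem re_I_hb' (G : Matrix (Fin n) (Fin n) ℂ) (a c : Cn n) :
    (I * hb G a (I • c)).re = (hb G a c).re := by
  rw [hb_I_right]
  have : I * (-I * hb G a c) = hb G a c := by linear_combination (-hb G a c) * I_mul_I
  rw [this]

theorem J_eq (h : TH b D u0 k0 T p0) {i : A.ι} {z : Cn n} (hz : z ∈ (A.e i).target) :
    (D p0).J.J i z = iL := by
  ext1 v
  rw [h.hJ i z hz v, iL_apply]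

/-- the form `om + dd^c u0` has type (1,1) -/
theorem t11 (h : TH b D u0 k0 T p0) : T11 (jA A) ((D p0).om + ddc (D p0).J u0 h.sol.sm) := by
  intro i z hz u v
  have h1 := h.sol.t11 i z hz u v
  have h2 := ddc_T11 h.sol.cx u0 h.sol.sm i z hz u v
  rw [h.hJ i z hz, h.hJ i z hz] at h1 h2
  show ((D p0).om + ddc (D p0).J u0 h.sol.sm).w i z (I • u) (I • v) = _
  rw [F2.add_w]
  simp only [add_apply]
  rw [h1, h2]

/-- the metric of `om + dd^c u0` -/
def kk (h : TH b D u0 k0 T p0) : Kah A :=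
  (((D p0).om + ddc (D p0).J u0 h.sol.sm).k11 (t11 h)).kah ((pos_f2 _).1 (by
    intro i z hz v hv
    rw [F2.k11_f2 _ (t11 h) hz]
    have h1 := h.sol.pos i z hz v hv
    rw [h.hJ i z hz] at h1
    exact h1))

theorem bt_kk (h : TH b D u0 k0 T p0) {i : A.ι} {z : Cn n} (hz : z ∈ (A.e i).target)
    (a c : Cn n) : bt D u0 i p0 z a c = (hb ((kk h).g i ((A.e i).symm z)) a c).re := by
  rw [← bt_eq h.sol.sm hz, ← F2.k11_f2 _ (t11 h) hz, h.hJ i z hz, K11.f2_w _ hz, re_I_hb']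
  rfl

/-- the part of the operator which is linear in the jet -/
theorem lin_kk (h : TH b D u0 k0 T p0) {i : A.ι} {w : Cn n → ℝ}
    (hw : ContDiffOn ℝ ∞ w (A.e i).target) {z : Cn n} (hz : z ∈ (A.e i).target) (a c : Cn n) :
    c2 ((D p0).J.J i) a c z (fderiv ℝ (fderiv ℝ w) z) + c1 ((D p0).J.J i) a c z (fderiv ℝ w z) =
      (hb ((4 : ℂ) • cH w z) a c).re := by
  rw [← Yv_900.ddcF_eq]
  have h1 : ContDiffAt ℝ 2 w z :=
    (hw.contDiffAt ((A.e i).open_target.mem_nhds hz)).of_le (WithTop.coe_le_coe.2 le_top)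
  have h2 : ((D p0).J.J i) =ᶠ[𝓝 z] fun _ => (iL : Cn n →L[ℝ] Cn n) := by
    filter_upwards [(A.e i).open_target.mem_nhds hz] with y hy using J_eq h hy
  have h3 : ddcF w ((D p0).J.J i) z a ((D p0).J.J i z c) = ddcF w (fun _ => iL) z a (I • c) := by
    rw [h.hJ i z hz c]
    unfold ddcF
    rw [h2.fderiv_eq, h2.self_of_nhds]
  rw [h3, ddcF_iL h1, re_I_hb']

theorem MM_kk (h : TH b D u0 k0 T p0) (w : SmE A) {i : A.ι} {z : Cn n}
    (hz : z ∈ (A.e i).target) (s : ℝ) :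
    MM b D u0 i p0 z (s • fderiv ℝ (inC A i w) z) (s • fderiv ℝ (fderiv ℝ (inC A i w)) z) =
      RM b ((kk h).g i ((A.e i).symm z)) + s • RM b ((4 : ℂ) • cH (inC A i w) z) := by
  ext a c
  have h1 := bt_kk h hz (b a) (b c)
  have h2 := lin_kk h (SmE.cd w i) hz (b a) (b c)
  simp only [MM, Matrix.of_apply, Matrix.add_apply, Matrix.smul_apply, map_smul, smul_eq_mul]
  show _ = (hb ((kk h).g i ((A.e i).symm z)) (b a) (b c)).re +
    s * (hb ((4 : ℂ) • cH (inC A i w) z) (b a) (b c)).re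
  rw [h1, ← h2]
  ring

/-- **(L4) T-FORMULA** -/
theorem tst (h : TH b D u0 k0 T p0) : TSt b B D u0 k0 p0 := by
  refine ⟨kk h, fun w f hwf => ?_⟩
  have hsm : A.Sm u0 := h.sol.sm
  have hd : HasFDerivAt (fun x : JJ B => GG b B D u0 k0 p0 x)
      (fderiv ℝ (GG b B D u0 k0 p0) 0) 0 := by
    have h1 : ContDiffAt ℝ ∞ (fun q : P × JJ B => GG b B D u0 k0 q.1 q.2) (p0, 0) :=
      (contDiffOn_GG b B u0 k0 h.hT h.hD hsm h.hr).contDiffAt
        ((h.hT.prod isOpen_univ).mem_nhds ⟨h.hp, mem_univ _⟩)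
    have h2 : ContDiffAt ℝ ∞ (fun x : JJ B => GG b B D u0 k0 p0 x) 0 :=
      ContDiffAt.comp (g := fun q : P × JJ B => GG b B D u0 k0 q.1 q.2)
        (f := fun x : JJ B => (p0, x)) 0 h1 (contDiffAt_const.prodMk contDiffAt_id)
    exact (h2.differentiableAt (by simp)).hasFDerivAt
  funext k
  refine Hol.ext fun z hz => ?_
  have hzt := KK_sub B k hz
  set G := (kk h).g (B.i k) ((A.e (B.i k)).symm z) with hG
  have hGp : G.PosDef := (kk h).pos _ _ ((A.e (B.i k)).map_target hzt)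
  have hG0 : G.det ≠ 0 := hGp.det_pos.ne'
  -- the curve
  have c1' : HasDerivAt (fun s : ℝ => Hol.fn (GG b B D u0 k0 p0 (s • jj B w) k) z)
      (Hol.fn (fderiv ℝ (GG b B D u0 k0 p0) 0 (jj B w) k) z) 0 := by
    have e1 : HasDerivAt (fun s : ℝ => s • jj B w) (jj B w) 0 := by
      have := (hasDerivAt_id (0 : ℝ)).smul_const (jj B w)
      simpa using this
    have e2 : HasDerivAt (fun s : ℝ => GG b B D u0 k0 p0 (s • jj B w))
        (fderiv ℝ (GG b B D u0 k0 p0) 0 (jj B w)) 0 := by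
      refine HasFDerivAt.comp_hasDerivAt (0 : ℝ) (l := fun x : JJ B => GG b B D u0 k0 p0 x) ?_ e1
      rw [zero_smul]
      exact hd
    exact (Hol.valL z).hasFDerivAt.comp_hasDerivAt (0 : ℝ) ((hasDerivAt_pi.1 e2) k)
  have e3 : (RM b G).det = k0 * (D p0).r.r (B.i k) z := by
    rw [← h.eq (B.i k) z hzt]
    have := MM_kk h w hzt 0
    rw [zero_smul, zero_smul, zero_smul, add_zero] at this
    rw [this]
  have e4 : ∀ s : ℝ, Hol.fn (GG b B D u0 k0 p0 (s • jj B w) k) z =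
      (RM b G + s • RM b ((4 : ℂ) • cH (inC A (B.i k) w) z)).det / (RM b G).det := by
    intro s
    rw [fn_GG b B u0 k0 h.hT h.hD hsm h.hr k h.hp _ hz]
    have e5 : HF.fn ((s • jj B w) k).2.1 z = s • fderiv ℝ (inC A (B.i k) w) z := by
      rw [← fn_jj1 B w k hz]
      exact HF.fn_smul _ _ _
    have e6 : HF.fn ((s • jj B w) k).2.2 z = s • fderiv ℝ (fderiv ℝ (inC A (B.i k) w)) z := by
      rw [← fn_jj2 B w k hz]
      exact HF.fn_smul _ _ _
    rw [e5, e6, MM_kk h w hzt s, e3, div_eq_mul_inv]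
  have c2' : HasDerivAt (fun s : ℝ => Hol.fn (GG b B D u0 k0 p0 (s • jj B w) k) z)
      (2 * ((G⁻¹ * ((4 : ℂ) • cH (inC A (B.i k) w) z)).trace).re) 0 :=
    (hasDerivAt_RM b hG0 _).congr_of_eventuallyEq (Eventually.of_forall e4)
  have e7 := c1'.unique c2'
  rw [e7, fn_hh B _ k hz]
  have e8 := hwf (B.i k) z hzt
  have e9 : inC A (B.i k) ((8 : ℝ) • f : SmE A) z = 8 * inC A (B.i k) f z := rfl
  rw [e9]
  have e10 : (gi (kk h) (B.i k) z * cH (inC A (B.i k) w) z).trace.re = inC A (B.i k) f z := e8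
  rw [← e10, Matrix.mul_smul, Matrix.trace_smul]
  have e11 : gi (kk h) (B.i k) z = G⁻¹ := rfl
  rw [e11]
  simp
  ring

end

end Crest.Agent.R281.Yt_846
end

-- ▼ part R281/Ly4_457
section

/-!
# Row 281, **YAU-VAR** (helper457): the solutions of a jointly smooth family of Monge-Ampere
equations form a jointly smooth family

* `tForm` : `TForm X` (846's `tst`)
* `v0`    : `V0 C (SolMA b)`
* `js`    : `JS0 C T u`
-/

set_option autoImplicit false
set_option maxSynthPendingDepth 3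
set_option linter.unusedSectionVars false

open Set Filter Topology Complex
open scoped ContDiff

namespace Crest.Agent.R281.Ly4_457

open Crest.Agent.R275.Geo Crest.Agent.R275.Core144 Crest.Agent.R275.EDR890
open Crest.Agent.R273.Defs_333 Crest.Agent.R273.Kah_333
open Crest.Agent.R273.YauDefs_635 Crest.Agent.R273.SchF_152
open Crest.Agent.R260.ACM_580 Crest.Agent.R281.HkR_835 Crest.Agent.R281.NefO_476
open Crest.Agent.R281.Nef_252 Crest.Agent.R281.Tt_476 Crest.Agent.R281.Yv_900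
open Crest.Agent.R281.Ly3_457

noncomputable section

theorem tForm (X : Type) [TopologicalSpace X] : TForm X :=
  fun _ _ _ _ _ _ _ _ _ _ _ _ _ _ _ _ h => Yt_846.tst h

variable {V X : Type} [NormedAddCommGroup V] [NormedSpace ℝ V] [TopologicalSpace X]
  {C : RCh V X} {κ : Type} [Fintype κ] [DecidableEq κ] [FiniteDimensional ℝ V]
  [MeasurableSpace V] [BorelSpace V] [CompactSpace X] [T2Space X] [ConnectedSpace X]

/-- smoothness in the parameters of the solutions of the Monge-Ampere equation -/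
theorem v0 (b : Module.Basis κ ℝ V) : V0 C (SolMA (C := C) b) := v0_of (tForm X) b



end

end Crest.Agent.R281.Ly4_457
end

-- ▼ part R281/Ch9_151
section

/-!
# Row 281, CHART-END (second owner, helper151), part 9: the node `ChartEndP` of RANK281

* `isoF_cn`    : HK-ISO, unconditional (139, 457)
* `moveFam_cn` : MOVE-FAM, unconditional (835, 457)
* `chartEndP`  : **the node `RkD_902.ChartEndP Alg`**
-/

set_option autoImplicit false
set_option maxSynthPendingDepth 3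
set_option linter.unusedSectionVars false

open Set Filter Topology
open scoped ContDiff

namespace Crest.Agent.R281.Ch_151

open Crest.Agent.R275.Geo Crest.Agent.R275.Core144
open Crest.Agent.R260.ACM_580
open Crest.Agent.R281.Ti_846 hiding pb pb_apply symm2 sm'
open Crest.Agent.R281.HkR_835 Crest.Agent.R281.Alg_998 Crest.Agent.R281.Iso_139
open Crest.Agent.R281.RkD_902 (Ctx AlgTT ChartEndP)

noncomputable section

variable {n : ℕ} {X : Type} [TopologicalSpace X] [CompactSpace X] [T2Space X]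
  [SimplyConnectedSpace X] {C : RCh (Cn (2 * n)) X} {Q : F2 C →ₗ[ℝ] F2 C →ₗ[ℝ] ℝ}

/-- **HK-ISO** -/
theorem isoF_cn (hc : Ctx n C Q) : IsoF C := by
  have hd : 2 ≤ 2 * n := by have := hc.n1; omega
  have hNN : NNat (Cn (2 * n)) (2 * n) :=
    Crest.Agent.R260.NN6_900.nnat (2 * n) (Cn (2 * n)) (finrank_cn (2 * n))
  exact isoF_of hNN hd primVar
    (ddcv_of_V0 (Crest.Agent.R281.Ly4_457.v0 (C := C) (Module.finBasis ℝ (Cn (2 * n)))))

/-- **MOVE-FAM** -/
theorem moveFam_cn (hc : Ctx n C Q) : Ce_551.MoveFam Q :=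
  Crest.Agent.R281.Mf_835.moveFamCe hc (Crest.Agent.R281.Al_830.yauVar_of_V0
    (Module.finBasis ℝ (Cn (2 * n)))
    (Crest.Agent.R281.Ly4_457.v0 (C := C) (Module.finBasis ℝ (Cn (2 * n)))))

/-- **the node `ChartEndP` of RANK281** -/
theorem chartEndP (Alg : AlgTT) : ChartEndP Alg := by
  intro n X _ _ _ _ C Q hc H0 L0 e hg B R
  exact chartEnd_of hc hg R (isoF_cn hc) (moveFam_cn hc)

end

end Crest.Agent.R281.Ch_151
end

-- ▼ part R281/Sk4_474
section

/-!
# R281 (S0424), SKEL281 (helper474): the current top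

Closed here: `ChartEndP` (151, 551; 139, 835, 457).
-/

set_option autoImplicit false
set_option linter.unusedSectionVars false

namespace Crest.Agent.R281.Sk_474

open Crest.Agent.R281.Defs_273 Crest.Agent.R281.RkD_902

/-- the node `ChartEndP` -/
theorem chartEndM : ChartEndP AlgM := Ch_151.chartEndP AlgM


end Crest.Agent.R281.Sk_474
end

-- ▼ part R281/Bx5_557
section

/-!
# Row 281, G9 BOX (second owner helper557), part 5: the invariant form of a direction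

* `QD Q`     : what is used of the Fujiki form
* `Stp`      : a family over `T` with `J k` fixed, the two other forms `r p` times fixed ones, and
               the class of `om k` an affine function of `p`
* `Stp.psi`  : `ψ_v = r ∂_v (om k / r)`: closed, jointly smooth, invariant under `J 0, J 1, J 2`
* `Stp.cl`   : `[ψ_v] = w'(v) - (∂_v r / r) [om k]`
* `Stp.Q_om` : `ψ_v` is orthogonal to `om 0, om 1, om 2`
-/

set_option autoImplicit false
set_option maxSynthPendingDepth 3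
set_option linter.unusedSectionVars false

open Set Filter Topology
open scoped ContDiff

namespace Crest.Agent.R281.Bx_557

open Crest.Agent.R260.ACM_580 Crest.Agent.R281.HkR_835 Crest.Agent.R281.Ti_846
open Crest.Agent.R281.NefO_476 Crest.Agent.R281.Nef_252 Crest.Agent.R281.Dif_268
open Crest.Agent.R281.Alg_998
open Crest.Agent.R281.Sta2_684 (smulP)

noncomputable section

variable {V X : Type} [NormedAddCommGroup V] [NormedSpace ℝ V] [TopologicalSpace X]
  {C : RCh V X} {E : Type} [NormedAddCommGroup E] [NormedSpace ℝ E]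

/-- what is used of the Fujiki form -/
structure QD (Q : F2 C →ₗ[ℝ] F2 C →ₗ[ℝ] ℝ) : Prop where
  symm : ∀ x y, Q x y = Q y x
  ex : ∀ x y, Ex x → Q x y = 0
  eq : ∀ (H : HkT C) k, Q (H.om k) (H.om k) = Q (H.om 0) (H.om 0)
  ort : ∀ (H : HkT C) (k l : Fin 3), k ≠ l → Q (H.om k) (H.om l) = 0

namespace QD

variable {Q : F2 C →ₗ[ℝ] F2 C →ₗ[ℝ] ℝ} (hQ : QD Q)

include hQ

theorem cl1 {x x' : F2 C} (h : Cl x x') (y : F2 C) : Q x y = Q x' y := by
  have h1 := hQ.ex _ y h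
  rw [map_sub, LinearMap.sub_apply] at h1
  linarith

theorem cl2 {x x' : F2 C} (h : Cl x x') (y : F2 C) : Q y x = Q y x' := by
  rw [hQ.symm y x, hQ.symm y x', hQ.cl1 h]

theorem cl12 {x x' y y' : F2 C} (h : Cl x x') (h' : Cl y y') : Q x y = Q x' y' := by
  rw [hQ.cl1 h, hQ.cl2 h']

end QD

theorem cl_of_eqv {w w' : F2 C} (h : Eqv w w') : Cl w w' := ex_of_eqv h

/-- the affine family -/
def aff {κ : Type} [Fintype κ] (c : κ → E →L[ℝ] ℝ) (y : κ → F2 C) (y0 : F2 C) (p : E) : F2 C :=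
  ∑ j, c j p • y j + y0

/-- its linear part -/
def affL {κ : Type} [Fintype κ] (c : κ → E →L[ℝ] ℝ) (y : κ → F2 C) (v : E) : F2 C :=
  ∑ j, c j v • y j

section aff

variable {κ : Type} [Fintype κ] {c : κ → E →L[ℝ] ℝ} {y : κ → F2 C} {y0 : F2 C}

theorem affL_add (v v' : E) : affL c y (v + v') = affL c y v + affL c y v' := by
  simp only [affL, map_add, add_smul, Finset.sum_add_distrib]

theorem affL_smul (t : ℝ) (v : E) : affL c y (t • v) = t • affL c y v := by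
  simp only [affL, map_smul, smul_eq_mul, mul_smul, Finset.smul_sum]

theorem aff_add (p v : E) : aff c y y0 (p + v) = aff c y y0 p + affL c y v := by
  have h := affL_add (c := c) (y := y) p v
  simp only [affL] at h
  rw [aff, aff, affL, h]
  abel

theorem aff_w (i : C.ι) (z : V) (p : E) :
    (aff c y y0 p).w i z = ∑ j, c j p • (y j).w i z + y0.w i z := by
  rw [aff, F2.add_w, F2.sum_w]
  rfl

theorem aff_sm (T : Set E) : SmF T (aff c y y0) := by
  intro i
  have h1 : ∀ j, ContDiffOn ℝ ∞ (fun q : E × V => c j q.1 • (y j).w i q.2)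
      (T ×ˢ (C.e i).target) := fun j =>
    ((c j).contDiff.comp contDiff_fst).contDiffOn.smul
      (((y j).sm i).comp contDiff_snd.contDiffOn fun _ hq => hq.2)
  have h2 : ContDiffOn ℝ ∞ (fun q : E × V => y0.w i q.2) (T ×ˢ (C.e i).target) :=
    (y0.sm i).comp contDiff_snd.contDiffOn fun _ hq => hq.2
  exact ((ContDiffOn.sum fun j (_ : j ∈ Finset.univ) => h1 j).add h2).congr fun q _ =>
    aff_w i q.2 q.1

end aff

/-- a family of triples: `J k` fixed, the two other forms `r p` times fixed ones, the class of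
`om k` affine -/
structure Stp {κ : Type} [Fintype κ] (k : Fin 3) (T : Set E) (H : E → HkT C) (r : E → ℝ)
    (J0 : AJ C) (B : Fin 3 → F2 C) (c : κ → E →L[ℝ] ℝ) (y : κ → F2 C) (y0 : F2 C) : Prop where
  hT : IsOpen T
  hH : SmHk T H
  hr : ContDiffOn ℝ ∞ r T
  r0 : ∀ p ∈ T, 0 < r p
  hJ : ∀ p ∈ T, ∀ i, ∀ z ∈ (C.e i).target, ∀ u, (H p).J k i z u = J0.J i z u
  hB : ∀ p ∈ T, ∀ l, l ≠ k → Eqv ((H p).om l) (r p • B l)
  hc : ∀ p ∈ T, Cl ((H p).om k) (aff c y y0 p)

namespace Stp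

variable {κ : Type} [Fintype κ] {k : Fin 3} {T : Set E} {H : E → HkT C} {r : E → ℝ}
  {J0 : AJ C} {B : Fin 3 → F2 C} {c : κ → E →L[ℝ] ℝ} {y : κ → F2 C} {y0 : F2 C}
  (S : Stp k T H r J0 B c y y0)

include S

theorem hm : SmF T fun p => (r p)⁻¹ • (H p).om k :=
  (S.hH.om k).smul (S.hr.inv fun p hp => (S.r0 p hp).ne')

/-- the invariant form of the direction `v` -/
def psi (v p : E) : F2 C := r p • dF T S.hT (fun p => (r p)⁻¹ • (H p).om k) S.hm v p

theorem psi_sm {F : Type} [NormedAddCommGroup F] [NormedSpace ℝ F] {O : Set F} {p v : F → E}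
    (hp : ContDiffOn ℝ ∞ p O) (hv : ContDiffOn ℝ ∞ v O) (hm : MapsTo p O T) :
    SmF O fun q => S.psi (v q) (p q) :=
  (dF_sm2 S.hT S.hm hp hv hm).smul (S.hr.comp hp hm)

theorem psi_T11 (v : E) {p : E} (hp : p ∈ T) (l : Fin 3) : T11 (ofHk (H p) l) (S.psi v p) :=
  T11.smul _ (dF_inv S.hT S.hH S.hJ S.r0 S.hB S.hm v hp l)

/-- logarithmic derivative of the factor -/
def rho (_ : Stp k T H r J0 B c y y0) (v p : E) : ℝ := fderiv ℝ r p v / r p

theorem r_diff {p : E} (hp : p ∈ T) : HasFDerivAt r (fderiv ℝ r p) p :=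
  ((S.hr.contDiffAt (S.hT.mem_nhds hp)).differentiableAt (by simp)).hasFDerivAt

/-- **the class of `ψ_v`** -/
theorem cl [FiniteDimensional ℝ V] [FiniteDimensional ℝ E] [CompactSpace X] [T2Space X] (v : E)
    {p : E} (hp : p ∈ T) : Cl (S.psi v p) (affL c y v - S.rho v p • (H p).om k) := by
  have hw' : SmF T fun p => (r p)⁻¹ • (∑ j, c j p • y j + y0) :=
    (aff_sm T).smul (S.hr.inv fun p hp => (S.r0 p hp).ne')
  have h1 := ex_dF_sub S.hT S.hm hw' (fun p hp => by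
    have h2 : Cl ((r p)⁻¹ • (H p).om k) ((r p)⁻¹ • aff c y y0 p) := (S.hc p hp).smul _
    exact h2) v hp
  have h2 := cl_of_eqv (dF_smul_lin S.hT (S.hr.inv fun p hp => (S.r0 p hp).ne') hw' v hp)
  have h3 : Cl (S.psi v p) (r p • (fderiv ℝ (fun p => (r p)⁻¹) p v • aff c y y0 p +
      (r p)⁻¹ • affL c y v)) := (Cl.trans h1 h2).smul (r p)
  have h0 := (S.r0 p hp).ne'
  have h4 : fderiv ℝ (fun p => (r p)⁻¹) p v = -(fderiv ℝ r p v) / r p ^ 2 := by
    have h5 : HasFDerivAt (fun p => (r p)⁻¹) _ p :=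
      (hasDerivAt_inv h0).hasFDerivAt.comp p (S.r_diff hp)
    rw [h5.fderiv]
    simp
    field_simp
  have h6 : Cl (r p • (fderiv ℝ (fun p => (r p)⁻¹) p v • aff c y y0 p + (r p)⁻¹ • affL c y v))
      (r p • (fderiv ℝ (fun p => (r p)⁻¹) p v • (H p).om k + (r p)⁻¹ • affL c y v)) :=
    Cl.smul _ (Cl.add (Cl.smul _ (S.hc p hp).symm) (Cl.refl _))
  have h7 : r p • (fderiv ℝ (fun p => (r p)⁻¹) p v • (H p).om k + (r p)⁻¹ • affL c y v) =
      affL c y v - S.rho v p • (H p).om k := by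
    rw [h4, smul_add, smul_smul, smul_smul, mul_inv_cancel₀ h0, one_smul, rho, add_comm,
      sub_eq_add_neg, ← neg_smul]
    congr 2
    field_simp
  rw [h7] at h6
  exact h3.trans h6

/-- the linear part is orthogonal to the fixed forms -/
theorem Q_B [FiniteDimensional ℝ E] {Q : F2 C →ₗ[ℝ] F2 C →ₗ[ℝ] ℝ} (hQ : QD Q) (v : E) {p : E}
    (hp : p ∈ T) {l : Fin 3} (hl : l ≠ k) : Q (affL c y v) (B l) = 0 := by
  have h1 : ∀ p ∈ T, Q (aff c y y0 p) (B l) = 0 := by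
    intro p hp
    have h2 := hQ.ort (H p) k l (Ne.symm hl)
    rw [hQ.cl12 (S.hc p hp) (cl_of_eqv (S.hB p hp l hl)), map_smul, smul_eq_mul] at h2
    exact (mul_eq_zero.1 h2).resolve_left (S.r0 p hp).ne'
  have h3 : ∀ᶠ t : ℝ in 𝓝 0, p + t • v ∈ T := by
    have h4 : ContinuousAt (fun t : ℝ => p + t • v) 0 := by fun_prop
    exact h4.eventually (S.hT.mem_nhds (by simpa using hp))
  obtain ⟨t, ht, ht0⟩ : ∃ t : ℝ, p + t • v ∈ T ∧ t ≠ 0 := by
    obtain ⟨ε, hε, hb⟩ := Metric.eventually_nhds_iff.1 h3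
    exact ⟨ε / 2, hb (by rw [Real.dist_eq, sub_zero, abs_of_pos (by positivity)]; linarith),
      by positivity⟩
  have h5 := h1 _ ht
  rw [aff_add, map_add, LinearMap.add_apply, h1 p hp, zero_add, affL_smul, map_smul,
    LinearMap.smul_apply, smul_eq_mul] at h5
  exact (mul_eq_zero.1 h5).resolve_left ht0

/-- **orthogonality of `ψ_v` to the triple** -/
theorem Q_om [FiniteDimensional ℝ V] [FiniteDimensional ℝ E] [CompactSpace X] [T2Space X]
    {Q : F2 C →ₗ[ℝ] F2 C →ₗ[ℝ] ℝ} (hQ : QD Q) (v : E) {p : E} (hp : p ∈ T) (l : Fin 3) :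
    Q (S.psi v p) ((H p).om l) = 0 := by
  rw [hQ.cl1 (S.cl v hp)]
  by_cases hl : l = k
  · subst hl
    obtain ⟨l', hl'⟩ : ∃ l', l' ≠ l := by
      fin_cases l
      · exact ⟨1, by decide⟩
      · exact ⟨0, by decide⟩
      · exact ⟨0, by decide⟩
    -- `Q(w, w) = r² q0`
    have h1 : ∀ p ∈ T, Q (aff c y y0 p) (aff c y y0 p) = r p ^ 2 * Q (B l') (B l') := by
      intro p hp
      rw [← hQ.cl12 (S.hc p hp) (S.hc p hp), hQ.eq (H p) l, ← hQ.eq (H p) l',
        hQ.cl12 (cl_of_eqv (S.hB p hp l' hl')) (cl_of_eqv (S.hB p hp l' hl')), map_smul, map_smul,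
        LinearMap.smul_apply, smul_eq_mul, smul_eq_mul]
      ring
    have h2 : HasDerivAt (fun t : ℝ => Q (aff c y y0 (p + t • v)) (aff c y y0 (p + t • v)))
        (2 * Q (affL c y v) (aff c y y0 p)) 0 := by
      have e : (fun t : ℝ => Q (aff c y y0 (p + t • v)) (aff c y y0 (p + t • v))) =
          fun t : ℝ => Q (aff c y y0 p) (aff c y y0 p) + t * (2 * Q (affL c y v) (aff c y y0 p)) +
            t ^ 2 * Q (affL c y v) (affL c y v) := by
        funext t
        rw [aff_add, affL_smul]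
        simp only [map_add, map_smul, LinearMap.add_apply, LinearMap.smul_apply, smul_eq_mul]
        rw [hQ.symm (aff c y y0 p) (affL c y v)]
        ring
      rw [e]
      have h3 : HasDerivAt (fun t : ℝ => Q (aff c y y0 p) (aff c y y0 p) +
          t * (2 * Q (affL c y v) (aff c y y0 p)) + t ^ 2 * Q (affL c y v) (affL c y v))
          ((1 * (2 * Q (affL c y v) (aff c y y0 p))) + (2 * (0 : ℝ) ^ (2 - 1) * 1) *
            Q (affL c y v) (affL c y v)) 0 := by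
        have h31 : HasDerivAt (fun t : ℝ => t) 1 0 := hasDerivAt_id _
        exact ((h31.mul_const _).const_add _).add ((h31.pow 2).mul_const _)
      simpa using h3
    have h3 : HasDerivAt (fun t : ℝ => r (p + t • v) ^ 2 * Q (B l') (B l'))
        (2 * r p * fderiv ℝ r p v * Q (B l') (B l')) 0 := by
      have h4 : HasDerivAt (fun t : ℝ => p + t • v) v 0 := by
        have h41 : HasDerivAt (fun t : ℝ => t • v) ((1 : ℝ) • v) 0 :=
          (hasDerivAt_id (0 : ℝ)).smul_const v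
        simpa using h41.const_add p
      have h5 : HasDerivAt (fun t : ℝ => r (p + t • v)) (fderiv ℝ r p v) 0 := by
        have h51 := S.r_diff hp
        have h52 : HasFDerivAt r (fderiv ℝ r p) (p + (0 : ℝ) • v) := by simpa using h51
        exact h52.comp_hasDerivAt (0 : ℝ) h4
      have h6 := (h5.pow 2).mul_const (Q (B l') (B l'))
      simpa using h6
    have h4 : (fun t : ℝ => Q (aff c y y0 (p + t • v)) (aff c y y0 (p + t • v))) =ᶠ[𝓝 0]
        fun t : ℝ => r (p + t • v) ^ 2 * Q (B l') (B l') := by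
      have h41 : ContinuousAt (fun t : ℝ => p + t • v) 0 := by fun_prop
      filter_upwards [h41.eventually (S.hT.mem_nhds (by simpa using hp))] with t ht using h1 _ ht
    have h5 : 2 * Q (affL c y v) (aff c y y0 p) = 2 * r p * fderiv ℝ r p v * Q (B l') (B l') := by
      rw [← h2.deriv, ← h3.deriv, h4.deriv_eq]
    rw [map_sub, LinearMap.sub_apply, map_smul, LinearMap.smul_apply, smul_eq_mul,
      hQ.cl2 (S.hc p hp), hQ.cl12 (S.hc p hp) (S.hc p hp), h1 p hp, rho]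
    have h0 := (S.r0 p hp).ne'
    field_simp
    linarith
  · rw [map_sub, LinearMap.sub_apply, map_smul, LinearMap.smul_apply, smul_eq_mul,
      hQ.ort (H p) k l (Ne.symm hl), mul_zero, sub_zero, hQ.cl2 (cl_of_eqv (S.hB p hp l hl)),
      map_smul, smul_eq_mul, S.Q_B hQ v hp hl, mul_zero]

end Stp

end

end Crest.Agent.R281.Bx_557
end

-- ▼ part R281/Bx6_557
section

/-!
# Row 281, G9 BOX (second owner helper557), part 6: rotated triples, the first move

* `fr_col`, `lin_rot`, `T11_rot`, `Q_rot`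
* `Dat1`       : the data of the first move, `Dat1.exists_y` (representatives), `Dat1.first`
-/

set_option autoImplicit false
set_option maxSynthPendingDepth 3
set_option linter.unusedSectionVars false

open Set Filter Topology
open scoped ContDiff Matrix

namespace Crest.Agent.R281.Bx_557

open Crest.Agent.R260.ACM_580 Crest.Agent.R281.HkR_835 Crest.Agent.R281.Ti_846
open Crest.Agent.R281.NefO_476 Crest.Agent.R281.Nef_252 Crest.Agent.R281.Dif_268
open Crest.Agent.R281.Alg_998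
open Crest.Agent.R281.Sta2_684 (smulP)

noncomputable section

/-- the columns of a frame are orthonormal -/
theorem fr_col {R : Fin 3 → Fin 3 → ℝ} (hR : HkT.Fr R) (j k : Fin 3) :
    R 0 j * R 0 k + R 1 j * R 1 k + R 2 j * R 2 k = if j = k then 1 else 0 := by
  have c0 : R 2 0 = R 0 1 * R 1 2 - R 0 2 * R 1 1 := by rw [hR.crs]; simp
  have c1 : R 2 1 = R 0 2 * R 1 0 - R 0 0 * R 1 2 := by rw [hR.crs]; simp
  have c2 : R 2 2 = R 0 0 * R 1 1 - R 0 1 * R 1 0 := by rw [hR.crs]; simp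
  have r0 := hR.nrm 0
  have r1 := hR.nrm 1
  have r2 := hR.nrm 2
  have r01 := hR.ort
  have r02 : R 0 0 * R 2 0 + R 0 1 * R 2 1 + R 0 2 * R 2 2 = 0 := by
    rw [c0, c1, c2]; ring
  have r12 : R 1 0 * R 2 0 + R 1 1 * R 2 1 + R 1 2 * R 2 2 = 0 := by
    rw [c0, c1, c2]; ring
  have h1 : (Matrix.of R) * (Matrix.of R)ᵀ = 1 := by
    ext a b
    simp only [Matrix.mul_apply, Matrix.transpose_apply, Matrix.of_apply, Fin.sum_univ_three]
    fin_cases a <;> fin_cases b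
    · simpa using r0
    · simpa using r01
    · simpa using r02
    · simp only [Fin.mk_one, Fin.zero_eta]
      rw [Matrix.one_apply_ne (by decide)]
      linarith
    · simpa using r1
    · simpa using r12
    · simp only [Fin.reduceFinMk, Fin.zero_eta]
      rw [Matrix.one_apply_ne (by decide)]
      linarith
    · simp only [Fin.reduceFinMk, Fin.mk_one]
      rw [Matrix.one_apply_ne (by decide)]
      linarith
    · simpa using r2
  have h2 : (Matrix.of R)ᵀ * (Matrix.of R) = 1 := mul_eq_one_comm.1 h1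
  have h3 := congrFun (congrFun h2 j) k
  simp only [Matrix.mul_apply, Matrix.transpose_apply, Matrix.of_apply, Fin.sum_univ_three,
    Matrix.one_apply] at h3
  exact h3

variable {V X : Type} [NormedAddCommGroup V] [NormedSpace ℝ V] [TopologicalSpace X]
  {C : RCh V X} {E : Type} [NormedAddCommGroup E] [NormedSpace ℝ E]

/-- a form of the triple in the rotated triple -/
theorem lin_rot (H : HkT C) {R : Fin 3 → Fin 3 → ℝ} (hR : HkT.Fr R) (x0 x1 x2 : ℝ) :
    Eqv (x0 • H.om 0 + x1 • H.om 1 + x2 • H.om 2)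
      ((x0 * R 0 0 + x1 * R 0 1 + x2 * R 0 2) • (H.rot R hR).om 0 +
        (x0 * R 1 0 + x1 * R 1 1 + x2 * R 1 2) • (H.rot R hR).om 1 +
        (x0 * R 2 0 + x1 * R 2 1 + x2 * R 2 2) • (H.rot R hR).om 2) := by
  intro i z _ u v
  have e : ∀ l, ((H.rot R hR).om l).w i z u v = R l 0 * (H.om 0).w i z u v +
      R l 1 * (H.om 1).w i z u v + R l 2 * (H.om 2).w i z u v := by
    intro l
    rw [HkT.rot_om, lin3_w]
    rfl
  have c := fr_col hR
  have c00 := c 0 0
  have c11 := c 1 1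
  have c22 := c 2 2
  have c01 := c 0 1
  have c02 := c 0 2
  have c12 := c 1 2
  simp only [if_true, Fin.reduceEq, if_false] at c00 c11 c22 c01 c02 c12
  show x0 * (H.om 0).w i z u v + x1 * (H.om 1).w i z u v + x2 * (H.om 2).w i z u v =
    (x0 * R 0 0 + x1 * R 0 1 + x2 * R 0 2) * ((H.rot R hR).om 0).w i z u v +
    (x0 * R 1 0 + x1 * R 1 1 + x2 * R 1 2) * ((H.rot R hR).om 1).w i z u v +
    (x0 * R 2 0 + x1 * R 2 1 + x2 * R 2 2) * ((H.rot R hR).om 2).w i z u v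
  rw [e, e, e]
  linear_combination (-(x0 * (H.om 0).w i z u v)) * c00 + (-(x1 * (H.om 1).w i z u v)) * c11 +
    (-(x2 * (H.om 2).w i z u v)) * c22 +
    (-(x0 * (H.om 1).w i z u v + x1 * (H.om 0).w i z u v)) * c01 +
    (-(x0 * (H.om 2).w i z u v + x2 * (H.om 0).w i z u v)) * c02 +
    (-(x1 * (H.om 2).w i z u v + x2 * (H.om 1).w i z u v)) * c12

/-- a form invariant under `J 0, J 1, J 2` is invariant under the rotated structures -/
theorem T11_rot (H : HkT C) {R : Fin 3 → Fin 3 → ℝ} (hR : HkT.Fr R) {w : F2 C}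
    (h : ∀ l, T11 (ofHk H l) w) (l : Fin 3) : T11 (ofHk (H.rot R hR) l) w := by
  intro i z hz u v
  show w.w i z (H.Jv (R l) i z u) (H.Jv (R l) i z v) = w.w i z u v
  have h00 : ∀ k u v, w.w i z (H.J k i z u) (H.J k i z v) = w.w i z u v := fun k u v =>
    h k i z hz u v
  have h01 : ∀ u v, w.w i z (H.J 0 i z u) (H.J 1 i z v) = -w.w i z (H.J 1 i z u) (H.J 0 i z v) := by
    intro u v
    have e1 := h00 0 (H.J 0 i z u) (H.J 1 i z v)
    have e2 := h00 1 (H.J 1 i z u) (H.J 0 i z v)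
    rw [H.J_sq 0 i z hz, H.J_01 i z hz] at e1
    rw [H.J_sq 1 i z hz, H.J_10 hz] at e2
    simp only [map_neg, neg_apply, neg_neg] at e1 e2
    linarith
  have h02 : ∀ u v, w.w i z (H.J 0 i z u) (H.J 2 i z v) = -w.w i z (H.J 2 i z u) (H.J 0 i z v) := by
    intro u v
    have e1 := h00 0 (H.J 0 i z u) (H.J 2 i z v)
    have e2 := h00 2 (H.J 2 i z u) (H.J 0 i z v)
    rw [H.J_sq 0 i z hz, H.J_02 hz] at e1
    rw [H.J_sq 2 i z hz, H.J_20 hz] at e2
    simp only [map_neg, neg_apply, neg_neg] at e1 e2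
    linarith
  have h12 : ∀ u v, w.w i z (H.J 1 i z u) (H.J 2 i z v) = -w.w i z (H.J 2 i z u) (H.J 1 i z v) := by
    intro u v
    have e1 := h00 1 (H.J 1 i z u) (H.J 2 i z v)
    have e2 := h00 2 (H.J 2 i z u) (H.J 1 i z v)
    rw [H.J_sq 1 i z hz, H.J_12 hz] at e1
    rw [H.J_sq 2 i z hz, H.J_21 hz] at e2
    simp only [map_neg, neg_apply, neg_neg] at e1 e2
    linarith
  have hn := hR.nrm l
  rw [HkT.Jv_apply, HkT.Jv_apply]
  simp only [map_add, map_smul, add_apply, smul_apply, smul_eq_mul, h00]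
  rw [h01 u v, h02 u v, h12 u v]
  linear_combination (w.w i z u v) * hn

theorem rot_cl {H : HkT C} {R : Fin 3 → Fin 3 → ℝ} (hR : HkT.Fr R) (l : Fin 3) :
    (H.rot R hR).om l = R l 0 • H.om 0 + R l 1 • H.om 1 + R l 2 • H.om 2 := by
  rw [HkT.rot_om]
  ext1
  funext i z
  rw [lin3_w]
  rfl

/-- rotation preserves the square -/
theorem Q_rot {Q : F2 C →ₗ[ℝ] F2 C →ₗ[ℝ] ℝ} (hQ : QD Q) (H : HkT C) {R : Fin 3 → Fin 3 → ℝ}
    (hR : HkT.Fr R) (l : Fin 3) :
    Q ((H.rot R hR).om l) ((H.rot R hR).om l) = Q (H.om 0) (H.om 0) := by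
  rw [rot_cl]
  simp only [map_add, map_smul, LinearMap.add_apply, LinearMap.smul_apply, smul_eq_mul]
  rw [hQ.ort H 0 1 (by decide), hQ.ort H 0 2 (by decide), hQ.ort H 1 0 (by decide),
    hQ.ort H 1 2 (by decide), hQ.ort H 2 0 (by decide), hQ.ort H 2 1 (by decide), hQ.eq H 1,
    hQ.eq H 2]
  linear_combination (Q (H.om 0) (H.om 0)) * (hR.nrm l)

/-- sums of classes -/
theorem cl_sum {κ : Type} [Fintype κ] {a : κ → ℝ} {x x' : κ → F2 C} (h : ∀ j, Cl (x j) (x' j)) :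
    Cl (∑ j, a j • x j) (∑ j, a j • x' j) := by
  have h1 : ∑ j, a j • x j - ∑ j, a j • x' j ∈ exS C := by
    rw [← Finset.sum_sub_distrib]
    refine Submodule.sum_mem _ fun j _ => ?_
    rw [← smul_sub]
    exact Submodule.smul_mem _ _ (h j)
  exact h1

/-! ### the first move -/

/-- coordinate functionals -/
def pj (m : ℕ) (j : Fin m) : (Fin m → ℝ) →L[ℝ] ℝ := ContinuousLinearMap.proj j

/-- linear combinations of the basis -/
def lcb {m : ℕ} (bas : Fin m → F2 C) (b : Fin m → ℝ) : F2 C := ∑ j, b j • bas j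


theorem lcb_sub {m : ℕ} (bas : Fin m → F2 C) (b b' : Fin m → ℝ) :
    lcb bas (b - b') = lcb bas b - lcb bas b' := by
  simp only [lcb, Pi.sub_apply, sub_smul, Finset.sum_sub_distrib]

/-- linear functional with coefficients `a` -/
def lf {m : ℕ} (a : Fin m → ℝ) (b : Fin m → ℝ) : ℝ := ∑ j, b j * a j


theorem lf_sm {m : ℕ} (a : Fin m → ℝ) : ContDiff ℝ ∞ (lf a) := by
  unfold lf
  exact ContDiff.sum fun j _ => (contDiff_apply ℝ ℝ j).mul contDiff_const

/-- the data of the first move -/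
structure Dat1 (Q : F2 C →ₗ[ℝ] F2 C →ₗ[ℝ] ℝ) (H0 : HkT C) {m : ℕ} (bas : Fin m → F2 C)
    (b0 c0 : Fin m → ℝ) (al ga : Fin m → ℝ) (y : Fin m → F2 C) : Prop where
  hQ : QD Q
  q0 : 0 < Q (H0.om 0) (H0.om 0)
  hb0 : Cl (lcb bas b0) (H0.om 1)
  hc0 : Cl (lcb bas c0) (H0.om 2)
  hal : ∀ j, al j * Q (H0.om 0) (H0.om 0) = Q (bas j) (H0.om 0)
  hga : ∀ j, ga j * Q (H0.om 0) (H0.om 0) = Q (bas j) (H0.om 2)
  y11 : ∀ j, T11 (ofHk H0 1) (y j)
  ycl : ∀ j, Cl (y j) (bas j - al j • H0.om 0 - ga j • H0.om 2)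

/-- the representatives exist -/
theorem Dat1.exists_y {Q : F2 C →ₗ[ℝ] F2 C →ₗ[ℝ] ℝ} (hQ : QD Q) {H0 : HkT C}
    (q0 : 0 < Q (H0.om 0) (H0.om 0))
    (ht : ∀ H : HkT C, 0 < Q (H.om 0) (H.om 0) → ∀ x : F2 C, Q x (H.om 1) = 0 →
      Q x (H.om 2) = 0 → ∃ y, Cl y x ∧ T11 (ofHk H 0) y) {m : ℕ} {bas : Fin m → F2 C}
    {b0 c0 : Fin m → ℝ} (hb0 : Cl (lcb bas b0) (H0.om 1)) (hc0 : Cl (lcb bas c0) (H0.om 2)) :
    ∃ (al ga : Fin m → ℝ) (y : Fin m → F2 C), Dat1 Q H0 bas b0 c0 al ga y := by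
  have c0' : Cl ((H0.cyc 1).om 0) (H0.om 1) := cl_of_eqv (cyc_om H0 1 0)
  have c1' : Cl ((H0.cyc 1).om 1) (H0.om 2) := cl_of_eqv (cyc_om H0 1 1)
  have c2' : Cl ((H0.cyc 1).om 2) (H0.om 0) := cl_of_eqv (cyc_om H0 1 2)
  have hq : 0 < Q ((H0.cyc 1).om 0) ((H0.cyc 1).om 0) := by
    rw [hQ.cl12 c0' c0', hQ.eq H0 1]
    exact q0
  set q := Q (H0.om 0) (H0.om 0) with hqd
  have hx : ∀ j, ∃ y, Cl y (bas j - (Q (bas j) (H0.om 0) / q) • H0.om 0 -
      (Q (bas j) (H0.om 2) / q) • H0.om 2) ∧ T11 (ofHk (H0.cyc 1) 0) y := by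
    intro j
    refine ht (H0.cyc 1) hq _ ?_ ?_
    · rw [hQ.cl2 c1']
      simp only [map_sub, map_smul, LinearMap.sub_apply, LinearMap.smul_apply, smul_eq_mul]
      rw [hQ.ort H0 0 2 (by decide), hQ.eq H0 2, ← hqd]
      field_simp
      ring
    · rw [hQ.cl2 c2']
      simp only [map_sub, map_smul, LinearMap.sub_apply, LinearMap.smul_apply, smul_eq_mul]
      rw [hQ.ort H0 2 0 (by decide), ← hqd]
      field_simp
      ring
  choose y hy1 hy2 using hx
  refine ⟨fun j => Q (bas j) (H0.om 0) / q, fun j => Q (bas j) (H0.om 2) / q, y, hQ, q0, hb0, hc0,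
    fun j => ?_, fun j => ?_, fun j i z hz u v => ?_, hy1⟩
  · rw [← hqd]
    field_simp
  · rw [← hqd]
    field_simp
  · have h := hy2 j i z hz u v
    have e : ∀ v, (ofHk (H0.cyc 1) 0).J i z v = (ofHk H0 1).J i z v := by
      intro v
      show (H0.cyc 1).J 0 i z v = H0.J 1 i z v
      rw [cyc_J]
      rfl
    rw [e, e] at h
    exact h

namespace Dat1

variable {Q : F2 C →ₗ[ℝ] F2 C →ₗ[ℝ] ℝ} {H0 : HkT C} {m : ℕ} {bas : Fin m → F2 C}
  {b0 c0 : Fin m → ℝ} {al ga : Fin m → ℝ} {y : Fin m → F2 C}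
  (D : Dat1 Q H0 bas b0 c0 al ga y)

include D

theorem lf_al (b : Fin m → ℝ) :
    lf al b * Q (H0.om 0) (H0.om 0) = Q (lcb bas b) (H0.om 0) := by
  simp only [lf, lcb, Finset.sum_mul, map_sum, map_smul, LinearMap.sum_apply,
    LinearMap.smul_apply, smul_eq_mul]
  exact Finset.sum_congr rfl fun j _ => by rw [mul_assoc, D.hal j]

theorem lf_ga (b : Fin m → ℝ) :
    lf ga b * Q (H0.om 0) (H0.om 0) = Q (lcb bas b) (H0.om 2) := by
  simp only [lf, lcb, Finset.sum_mul, map_sum, map_smul, LinearMap.sum_apply,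
    LinearMap.smul_apply, smul_eq_mul]
  exact Finset.sum_congr rfl fun j _ => by rw [mul_assoc, D.hga j]

theorem al_b0 : lf al b0 = 0 := by
  have h := D.lf_al b0
  rw [D.hQ.cl1 D.hb0, D.hQ.ort H0 1 0 (by decide)] at h
  exact (mul_eq_zero.1 h).resolve_right D.q0.ne'

theorem ga_b0 : lf ga b0 = 0 := by
  have h := D.lf_ga b0
  rw [D.hQ.cl1 D.hb0, D.hQ.ort H0 1 2 (by decide)] at h
  exact (mul_eq_zero.1 h).resolve_right D.q0.ne'

theorem cl_y (b : Fin m → ℝ) :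
    Cl (affL (pj m) y b) (lcb bas b - lf al b • H0.om 0 - lf ga b • H0.om 2) := by
  have h := cl_sum (a := b) D.ycl
  have e : ∑ j, b j • (bas j - al j • H0.om 0 - ga j • H0.om 2) =
      lcb bas b - lf al b • H0.om 0 - lf ga b • H0.om 2 := by
    simp only [lcb, lf, smul_sub, Finset.sum_sub_distrib, smul_smul, Finset.sum_smul]
  rw [e] at h
  exact h

/-- the constant term -/
def y0 (_ : Dat1 Q H0 bas b0 c0 al ga y) : F2 C := H0.om 1 - affL (pj m) y b0

theorem cl_y0 : Cl D.y0 0 := by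
  have h1 := D.cl_y b0
  rw [D.al_b0, D.ga_b0, zero_smul, zero_smul, sub_zero, sub_zero] at h1
  have h2 : Ex (H0.om 1 - affL (pj m) y b0) := (h1.trans D.hb0).symm
  show Ex (D.y0 - 0)
  rw [sub_zero]
  exact h2

theorem aff_b0 : aff (pj m) y D.y0 b0 = H0.om 1 := by
  have h : aff (pj m) y D.y0 b0 = affL (pj m) y b0 + (H0.om 1 - affL (pj m) y b0) := rfl
  rw [h]
  abel

theorem cl_aff (b : Fin m → ℝ) :
    Cl (aff (pj m) y D.y0 b) (lcb bas b - lf al b • H0.om 0 - lf ga b • H0.om 2) := by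
  have h := Cl.add (D.cl_y b) D.cl_y0
  rw [add_zero] at h
  exact h

theorem t11_aff (b : Fin m → ℝ) : T11 (ofHk H0 1) (aff (pj m) y D.y0 b) := by
  have h : ∀ b, T11 (ofHk H0 1) (affL (pj m) y b) := by
    intro b i z hz u v
    have e : ∀ u v, (affL (pj m) y b).w i z u v = ∑ j, b j * (y j).w i z u v := by
      intro u v
      rw [affL, F2.sum_w]
      simp [sum_apply, pj]
    rw [e, e]
    exact Finset.sum_congr rfl fun j _ => by rw [D.y11 j i z hz u v]
  exact T11.add (h b) (T11.sub (T11_hk H0 1) (h b0))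

/-- **the first move** -/
theorem first [FiniteDimensional ℝ V] [CompactSpace X] (hM : MoveFam C Q) :
    ∃ (T : Set (Fin m → ℝ)) (G : (Fin m → ℝ) → HkT C) (r : (Fin m → ℝ) → ℝ), b0 ∈ T ∧
      Stp 1 T G r (ofHk H0 1) H0.om (pj m) y D.y0 ∧ HEqv (G b0) H0 := by
  have h1 : ∀ᶠ b in 𝓝 b0, Pos (ofHk H0 1) (aff (pj m) y D.y0 b) := by
    refine ev_pos (J := fun _ => ofHk H0 1) isOpen_univ (fun i => ?_) (aff_sm _) (mem_univ _) ?_
    · exact (H0.J_sm 1 i).comp contDiff_snd.contDiffOn fun _ hq => hq.2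
    · rw [D.aff_b0]
      exact Pos_hk H0 1
  have h2 : ∀ᶠ b in 𝓝 b0, 0 < Q (aff (pj m) y D.y0 b) (aff (pj m) y D.y0 b) := by
    have hc : Continuous fun b : Fin m → ℝ =>
        Q (aff (pj m) y D.y0 b) (aff (pj m) y D.y0 b) := by
      simp only [aff, map_add, map_sum, map_smul, LinearMap.add_apply, LinearMap.sum_apply,
        LinearMap.smul_apply, smul_eq_mul]
      have hp : ∀ j, Continuous fun b : Fin m → ℝ => (pj m j) b := fun j => (pj m j).continuous
      fun_prop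
    refine hc.continuousAt.eventually (lt_mem_nhds ?_)
    show 0 < Q (aff (pj m) y D.y0 b0) (aff (pj m) y D.y0 b0)
    rw [D.aff_b0, D.hQ.eq H0 1]
    exact D.q0
  obtain ⟨T, hTs, hT, hb⟩ := eventually_nhds_iff.1 (h1.and h2)
  have hH : SmHk T fun _ : Fin m → ℝ => H0 :=
    ⟨fun k => SmF.const T _, fun k i => (H0.J_sm k i).comp contDiff_snd.contDiffOn
      fun _ hq => hq.2⟩
  obtain ⟨G, r, hG, hr, h⟩ := moveFam_k hM 1 hT hH (fun p _ => by
      have c0' : Cl ((H0.cyc 1).om 0) (H0.om 1) := cl_of_eqv (cyc_om H0 1 0)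
      rw [D.hQ.cl12 c0' c0', D.hQ.eq H0 1]
      exact D.q0) (aff_sm (c := pj m) (y := y) (y0 := D.y0) T) (fun p _ => D.t11_aff p)
      (fun p hp => (hTs p hp).1) (fun p hp => (hTs p hp).2)
  refine ⟨T, G, r, hb, ⟨hT, hG, hr, fun p hp => (h p hp).1, fun p hp i z hz u =>
    (h p hp).2.1 i z hz u, fun p hp l hl => (h p hp).2.2.1 l hl, fun p hp => (h p hp).2.2.2.1⟩, ?_⟩
  have h3 := (h b0 hb).2.2.2.2 1 one_pos (by
    rw [D.aff_b0, one_smul]
    exact fun i z hz u v => rfl)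
  exact h3.trans (smulP_one H0)

end Dat1

end

end Crest.Agent.R281.Bx_557
end

-- ▼ part R281/Bx7_557
section

/-!
# Row 281, G9 BOX (helper557), part 7: the second move

* `Dat2`  : the output of the first move
* `L b`   : the rotated structure, `yy l b c`: coefficients, `w2 b c`: the Kaehler form
* `second`: the second move over a product of balls
-/

set_option autoImplicit false
set_option maxSynthPendingDepth 3
set_option linter.unusedSectionVars false

open Set Filter Topology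
open scoped ContDiff Matrix

namespace Crest.Agent.R281.Bx_557

open Crest.Agent.R260.ACM_580 Crest.Agent.R281.HkR_835 Crest.Agent.R281.Ti_846
open Crest.Agent.R281.NefO_476 Crest.Agent.R281.Nef_252 Crest.Agent.R281.Dif_268
open Crest.Agent.R281.Alg_998
open Crest.Agent.R281.Sta2_684 (smulP)

noncomputable section

variable {V X : Type} [NormedAddCommGroup V] [NormedSpace ℝ V] [TopologicalSpace X]
  {C : RCh V X} {E : Type} [NormedAddCommGroup E] [NormedSpace ℝ E]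

/-- derivative of a slice -/
theorem dw_slice {T : Set (E × E)} (hT : IsOpen T) {w : E × E → F2 C} (hw : SmF T w) {b c : E}
    (h : (b, c) ∈ T) {D : Set E} (hD : IsOpen D) (hw' : SmF D fun c => w (b, c)) (hc : c ∈ D)
    {i : C.ι} {z : V} (hz : z ∈ (C.e i).target) (v : E) :
    dw w (0, v) (b, c) i z = dw (fun c => w (b, c)) v c i z := by
  ext a a'
  have h1 := dw_has hT hw h hz a a'
  have h2 := dw_has hD hw' hc hz a a'
  have h3 := HasFDerivAt.comp (g := fun p' : E × E => (w p').w i z a a')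
    (f := fun c' : E => (b, c')) c h1 (hasFDerivAt_prodMk_right b c)
  have h4 := h2.unique h3
  have h5 := congrArg (fun L : E →L[ℝ] ℝ => L v) h4
  have e1 : dw w (0, v) (b, c) i z a a' = fderiv ℝ (fun p' => (w p').w i z a a') (b, c) (0, v) :=
    (fderiv_w hT hw h hz (0, v) a a').symm
  have e2 : dw (fun c => w (b, c)) v c i z a a' =
      fderiv ℝ (fun c' => (w (b, c')).w i z a a') c v :=
    (fderiv_w hD hw' hc hz v a a').symm
  rw [e1, e2, h1.fderiv, h2.fderiv]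
  simpa using h5.symm

namespace Stp

variable {κ : Type} [Fintype κ] {k : Fin 3} {T : Set E} {H : E → HkT C} {r : E → ℝ}
  {J0 : AJ C} {B : Fin 3 → F2 C} {c : κ → E →L[ℝ] ℝ} {y : κ → F2 C} {y0 : F2 C}
  (S : Stp k T H r J0 B c y y0)

include S

theorem psi_w {v p : E} (hp : p ∈ T) (i : C.ι) (z : V) :
    (S.psi v p).w i z = r p • dw (fun p => (r p)⁻¹ • (H p).om k) v p i z := by
  show r p • (dF T S.hT (fun p => (r p)⁻¹ • (H p).om k) S.hm v p).w i z = _
  rw [dF_w hp]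

theorem psi_zero {p : E} (hp : p ∈ T) (i : C.ι) (z : V) : (S.psi 0 p).w i z = 0 := by
  rw [S.psi_w hp]
  have : dw (fun p => (r p)⁻¹ • (H p).om k) 0 p i z = 0 := by
    show fderiv ℝ _ (p, z) ((0 : E), (0 : V)) = 0
    have e : (((0 : E), (0 : V)) : E × V) = 0 := rfl
    rw [e, map_zero]
  rw [this, smul_zero]

end Stp

/-- `lf` as a continuous functional -/
def lfL {m : ℕ} (a : Fin m → ℝ) : (Fin m → ℝ) →L[ℝ] ℝ := ∑ j, a j • pj m j

theorem lfL_apply {m : ℕ} (a b : Fin m → ℝ) : lfL a b = lf a b := by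
  simp [lfL, lf, pj, sum_apply, mul_comm]

/-- the output of the first move -/
structure Dat2 (Q : F2 C →ₗ[ℝ] F2 C →ₗ[ℝ] ℝ) (H0 : HkT C) {m : ℕ} (bas : Fin m → F2 C)
    (b0 c0 : Fin m → ℝ) (al ga : Fin m → ℝ) (y : Fin m → F2 C) (y0 : F2 C)
    (T : Set (Fin m → ℝ)) (G : (Fin m → ℝ) → HkT C) (r : (Fin m → ℝ) → ℝ) : Prop where
  D : Dat1 Q H0 bas b0 c0 al ga y
  S : Stp 1 T G r (ofHk H0 1) H0.om (pj m) y y0
  hy0 : y0 = D.y0
  hb : b0 ∈ T
  hG : HEqv (G b0) H0

namespace Dat2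

variable {Q : F2 C →ₗ[ℝ] F2 C →ₗ[ℝ] ℝ} {H0 : HkT C} {m : ℕ} {bas : Fin m → F2 C}
  {b0 c0 : Fin m → ℝ} {al ga : Fin m → ℝ} {y : Fin m → F2 C} {y0 : F2 C}
  {T : Set (Fin m → ℝ)} {G : (Fin m → ℝ) → HkT C} {r : (Fin m → ℝ) → ℝ}
  (Z : Dat2 Q H0 bas b0 c0 al ga y y0 T G r)

/-- the frame -/
def R (_ : Dat2 Q H0 bas b0 c0 al ga y y0 T G r) (b : Fin m → ℝ) : Fin 3 → Fin 3 → ℝ :=
  frA (lf al b / r b) (lf ga b / r b)

/-- the base of the second move -/
def L (b : Fin m → ℝ) : HkT C := (G b).rot (Z.R b) (frA_fr _ _)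

/-- linear part of the coefficients -/
def Al (l : Fin 3) (b : Fin m → ℝ) : (Fin m → ℝ) →L[ℝ] ℝ :=
  ((r b)⁻¹ * Z.R b l 0) • lfL al + ((r b)⁻¹ * Z.R b l 1) • fderiv ℝ r b +
    ((r b)⁻¹ * Z.R b l 2) • lfL ga

/-- the coefficients -/
def yy (l : Fin 3) (b c : Fin m → ℝ) : ℝ := Z.Al l b (c - c0) + (r b)⁻¹ * Z.R b l 2

/-- the Kaehler form of the second move -/
def w2 (b c : Fin m → ℝ) : F2 C := Z.S.psi (c - c0) b + Z.yy 2 b c • (Z.L b).om 2

include Z

theorem al_b0 : lf al b0 = 0 := Z.D.al_b0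
theorem ga_b0 : lf ga b0 = 0 := Z.D.ga_b0

theorem be0_sm : ContDiffOn ℝ ∞ (fun b => lf al b / r b) T :=
  (lf_sm al).contDiffOn.div Z.S.hr fun p hp => (Z.S.r0 p hp).ne'

theorem be2_sm : ContDiffOn ℝ ∞ (fun b => lf ga b / r b) T :=
  (lf_sm ga).contDiffOn.div Z.S.hr fun p hp => (Z.S.r0 p hp).ne'

theorem R_sm (k l : Fin 3) : ContDiffOn ℝ ∞ (fun b => Z.R b k l) T := frA_sm Z.be0_sm Z.be2_sm k l

theorem L_sm : SmHk T Z.L :=
  Z.S.hH.rot (R := Z.R) (fun b => frA_fr (lf al b / r b) (lf ga b / r b)) Z.R_sm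

theorem yy_sm (l : Fin 3) : ContDiffOn ℝ ∞ (fun p : (Fin m → ℝ) × (Fin m → ℝ) =>
    Z.yy l p.1 p.2) (T ×ˢ univ) := by
  have hf : MapsTo (Prod.fst : (Fin m → ℝ) × (Fin m → ℝ) → _) (T ×ˢ univ) T := fun p hp => hp.1
  have hr : ContDiffOn ℝ ∞ (fun p : (Fin m → ℝ) × (Fin m → ℝ) => (r p.1)⁻¹) (T ×ˢ univ) :=
    (Z.S.hr.comp contDiff_fst.contDiffOn hf).inv fun p hp => (Z.S.r0 p.1 hp.1).ne'
  have hR : ∀ k, ContDiffOn ℝ ∞ (fun p : (Fin m → ℝ) × (Fin m → ℝ) => Z.R p.1 l k)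
      (T ×ˢ univ) := fun k => (Z.R_sm l k).comp contDiff_fst.contDiffOn hf
  have hd : ContDiffOn ℝ ∞ (fun p : (Fin m → ℝ) × (Fin m → ℝ) => p.2 - c0) (T ×ˢ univ) :=
    (contDiff_snd.sub contDiff_const).contDiffOn
  have hfd : ContDiffOn ℝ ∞ (fun p : (Fin m → ℝ) × (Fin m → ℝ) => fderiv ℝ r p.1 (p.2 - c0))
      (T ×ˢ univ) :=
    ((Z.S.hr.fderiv_of_isOpen Z.S.hT (by simp)).comp contDiff_fst.contDiffOn hf).clm_apply hd
  have h1 : ∀ a : Fin m → ℝ, ContDiffOn ℝ ∞ (fun p : (Fin m → ℝ) × (Fin m → ℝ) =>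
      lfL a (p.2 - c0)) (T ×ˢ univ) := fun a => (lfL a).contDiff.comp_contDiffOn hd
  exact (((((hr.mul (hR 0)).smul (h1 al)).add ((hr.mul (hR 1)).smul hfd)).add
    ((hr.mul (hR 2)).smul (h1 ga))).add (hr.mul (hR 2)))

theorem w2_sm : SmF (T ×ˢ univ) fun p : (Fin m → ℝ) × (Fin m → ℝ) => Z.w2 p.1 p.2 := by
  have hf : MapsTo (Prod.fst : (Fin m → ℝ) × (Fin m → ℝ) → _) (T ×ˢ univ) T := fun p hp => hp.1
  have h1 : SmF (T ×ˢ (univ : Set (Fin m → ℝ))) fun q : (Fin m → ℝ) × (Fin m → ℝ) =>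
      Z.S.psi (q.2 - c0) q.1 :=
    Z.S.psi_sm (p := Prod.fst) (v := fun q : (Fin m → ℝ) × (Fin m → ℝ) => q.2 - c0)
      contDiff_fst.contDiffOn (contDiff_snd.sub contDiff_const).contDiffOn hf
  have h2 : SmHk (T ×ˢ (univ : Set (Fin m → ℝ))) fun q : (Fin m → ℝ) × (Fin m → ℝ) => Z.L q.1 :=
    Z.L_sm.comp (p := Prod.fst) contDiff_fst.contDiffOn hf
  exact h1.add ((h2.om 2).smul (Z.yy_sm 2))

theorem psi_L (v : Fin m → ℝ) {b : Fin m → ℝ} (hb : b ∈ T) (l : Fin 3) :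
    T11 (ofHk (Z.L b) l) (Z.S.psi v b) :=
  T11_rot (G b) (frA_fr _ _) (fun l => Z.S.psi_T11 v hb l) l

theorem w2_T11 {b : Fin m → ℝ} (hb : b ∈ T) (c : Fin m → ℝ) :
    T11 (ofHk (Z.L b) 2) (Z.w2 b c) :=
  T11.add (Z.psi_L _ hb 2) (T11.smul _ (T11_hk _ 2))

theorem yy_c0 (b : Fin m → ℝ) (l : Fin 3) : Z.yy l b c0 = (r b)⁻¹ * Z.R b l 2 := by
  rw [yy, sub_self, map_zero, zero_add]

theorem yy2_pos {b : Fin m → ℝ} (hb : b ∈ T) : 0 < Z.yy 2 b c0 := by
  rw [Z.yy_c0]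
  refine mul_pos (inv_pos.2 (Z.S.r0 b hb)) ?_
  show 0 < frA _ _ 2 2
  simp only [frA, Matrix.cons_val]
  positivity

theorem w2_c0 {b : Fin m → ℝ} (hb : b ∈ T) :
    Eqv (Z.w2 b c0) (Z.yy 2 b c0 • (Z.L b).om 2) := by
  intro i z hz u v
  have h1 : (Z.w2 b c0).w i z = (Z.S.psi (c0 - c0) b).w i z + Z.yy 2 b c0 • ((Z.L b).om 2).w i z :=
    rfl
  rw [h1, sub_self, Z.S.psi_zero hb, zero_add]
  rfl

variable [FiniteDimensional ℝ V] [CompactSpace X] [T2Space X]

/-- the forms of `G b` -/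
theorem cl_G1 {b : Fin m → ℝ} (hb : b ∈ T) : Cl ((G b).om 1)
    (lcb bas b - lf al b • H0.om 0 - lf ga b • H0.om 2) := by
  have h := Z.S.hc b hb
  rw [Z.hy0] at h
  exact h.trans (Z.D.cl_aff b)

theorem cl_H0 {b : Fin m → ℝ} (hb : b ∈ T) {l : Fin 3} (hl : l ≠ 1) :
    Cl (H0.om l) ((r b)⁻¹ • (G b).om l) := by
  have h1 := (cl_of_eqv (Z.S.hB b hb l hl)).smul (r b)⁻¹
  rw [smul_smul, inv_mul_cancel₀ (Z.S.r0 b hb).ne', one_smul] at h1
  exact h1.symm

/-- `lc b` is a positive multiple of `om 1` of `L b` -/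
theorem cl_lcb {b : Fin m → ℝ} (hb : b ∈ T) :
    Cl ((Z.L b).om 1) ((√(1 + (lf al b / r b) ^ 2 + (lf ga b / r b) ^ 2))⁻¹ • lcb bas b) := by
  have h0 := (Z.S.r0 b hb).ne'
  have h1 : (Z.L b).om 1 = Z.R b 1 0 • (G b).om 0 + Z.R b 1 1 • (G b).om 1 +
      Z.R b 1 2 • (G b).om 2 := rot_cl _ 1
  have h2 : Cl ((Z.L b).om 1) (Z.R b 1 0 • (r b • H0.om 0) +
      Z.R b 1 1 • (lcb bas b - lf al b • H0.om 0 - lf ga b • H0.om 2) +
      Z.R b 1 2 • (r b • H0.om 2)) := by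
    rw [h1]
    exact Cl.add (Cl.add ((cl_of_eqv (Z.S.hB b hb 0 (by decide))).smul _) ((Z.cl_G1 hb).smul _))
      ((cl_of_eqv (Z.S.hB b hb 2 (by decide))).smul _)
  have h3 : Z.R b 1 0 • (r b • H0.om 0) +
      Z.R b 1 1 • (lcb bas b - lf al b • H0.om 0 - lf ga b • H0.om 2) +
      Z.R b 1 2 • (r b • H0.om 2) =
      (√(1 + (lf al b / r b) ^ 2 + (lf ga b / r b) ^ 2))⁻¹ • lcb bas b := by
    set n := √(1 + (lf al b / r b) ^ 2 + (lf ga b / r b) ^ 2) with hn
    have hn0 : n ≠ 0 := by positivity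
    have e0 : Z.R b 1 0 = (lf al b / r b) / n := by simp [R, frA, hn]
    have e1 : Z.R b 1 1 = n⁻¹ := by simp [R, frA, hn]
    have e2 : Z.R b 1 2 = (lf ga b / r b) / n := by simp [R, frA, hn]
    rw [e0, e1, e2, smul_sub, smul_sub, smul_smul, smul_smul, smul_smul, smul_smul]
    have f0 : lf al b / r b / n * r b = n⁻¹ * lf al b := by field_simp
    have f2 : lf ga b / r b / n * r b = n⁻¹ * lf ga b := by field_simp
    rw [f0, f2]
    abel
  rw [h3] at h2
  exact h2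

/-- `om 0` of `L b` -/
theorem cl_L0 {b : Fin m → ℝ} (hb : b ∈ T) : ∃ s t : ℝ, 0 < s ∧
    Cl ((Z.L b).om 0) (s • H0.om 0 + t • lcb bas b) := by
  have h0 := (Z.S.r0 b hb).ne'
  have h1 : (Z.L b).om 0 = Z.R b 0 0 • (G b).om 0 + Z.R b 0 1 • (G b).om 1 +
      Z.R b 0 2 • (G b).om 2 := rot_cl _ 0
  have h2 : Cl ((Z.L b).om 0) (Z.R b 0 0 • (r b • H0.om 0) +
      Z.R b 0 1 • (lcb bas b - lf al b • H0.om 0 - lf ga b • H0.om 2) +
      Z.R b 0 2 • (r b • H0.om 2)) := by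
    rw [h1]
    exact Cl.add (Cl.add ((cl_of_eqv (Z.S.hB b hb 0 (by decide))).smul _) ((Z.cl_G1 hb).smul _))
      ((cl_of_eqv (Z.S.hB b hb 2 (by decide))).smul _)
  set n := √(1 + (lf al b / r b) ^ 2 + (lf ga b / r b) ^ 2) with hn
  set k := √(1 + (lf ga b / r b) ^ 2) with hk
  have hn0 : 0 < n := by positivity
  have hk0 : 0 < k := by positivity
  have hn2 : n ^ 2 = 1 + (lf al b / r b) ^ 2 + (lf ga b / r b) ^ 2 := Real.sq_sqrt (by positivity)
  refine ⟨r b * n / k, Z.R b 0 1, by have := Z.S.r0 b hb; positivity, ?_⟩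
  have h3 : Z.R b 0 0 • (r b • H0.om 0) +
      Z.R b 0 1 • (lcb bas b - lf al b • H0.om 0 - lf ga b • H0.om 2) +
      Z.R b 0 2 • (r b • H0.om 2) = (r b * n / k) • H0.om 0 + Z.R b 0 1 • lcb bas b := by
    have e0 : Z.R b 0 0 = (1 + (lf ga b / r b) ^ 2) / (k * n) := by simp [R, frA, hn, hk]
    have e1 : Z.R b 0 1 = -(lf al b / r b) / (k * n) := by simp [R, frA, hn, hk]
    have e2 : Z.R b 0 2 = -((lf al b / r b) * (lf ga b / r b)) / (k * n) := by
      simp [R, frA, hn, hk]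
    rw [smul_sub, smul_sub, smul_smul, smul_smul, smul_smul, smul_smul]
    have f0 : Z.R b 0 0 * r b - Z.R b 0 1 * lf al b = r b * n / k := by
      rw [e0, e1]
      have f1 : (1 + (lf ga b / r b) ^ 2) / (k * n) * r b - -(lf al b / r b) / (k * n) * lf al b =
          r b * (1 + (lf al b / r b) ^ 2 + (lf ga b / r b) ^ 2) / (k * n) := by
        field_simp
        ring
      rw [f1, ← hn2]
      field_simp
    have f2 : Z.R b 0 2 * r b = Z.R b 0 1 * lf ga b := by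
      rw [e1, e2]
      field_simp
    rw [← f0, sub_smul, f2]
    abel
  rw [h3] at h2
  exact h2

/-- **the class of `lc c`** -/
theorem cl_lcc {b : Fin m → ℝ} (hb : b ∈ T) (c : Fin m → ℝ) :
    Cl (lcb bas c) (Z.S.psi (c - c0) b + (Z.yy 0 b c • (Z.L b).om 0 + Z.yy 1 b c • (Z.L b).om 1 +
      Z.yy 2 b c • (Z.L b).om 2)) := by
  have h0 := (Z.S.r0 b hb).ne'
  set v := c - c0 with hv
  have h1 := Z.S.cl v hb
  have h2 := Z.D.cl_y v
  -- `lc v`
  have h3 : Cl (lcb bas v) (Z.S.psi v b + Z.S.rho v b • (G b).om 1 + lf al v • H0.om 0 +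
      lf ga v • H0.om 2) := by
    have h4 := (h1.symm.trans (Cl.refl _))
    have h5 := Cl.add (Cl.add (Cl.add h4 (Cl.refl (Z.S.rho v b • (G b).om 1)))
      (Cl.refl (lf al v • H0.om 0))) (Cl.refl (lf ga v • H0.om 2))
    have h6 := Cl.add (Cl.add h2.symm (Cl.refl (lf al v • H0.om 0)))
      (Cl.refl (lf ga v • H0.om 2))
    have e6 : lcb bas v - lf al v • H0.om 0 - lf ga v • H0.om 2 + lf al v • H0.om 0 +
        lf ga v • H0.om 2 = lcb bas v := by abel
    have e5 : affL (pj m) y v - Z.S.rho v b • (G b).om 1 + Z.S.rho v b • (G b).om 1 +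
        lf al v • H0.om 0 + lf ga v • H0.om 2 = affL (pj m) y v + lf al v • H0.om 0 +
        lf ga v • H0.om 2 := by abel
    rw [e6] at h6
    rw [e5] at h5
    exact h6.trans h5
  have h7 : Cl (lcb bas c) (Z.S.psi v b + (((r b)⁻¹ * lf al v) • (G b).om 0 +
      Z.S.rho v b • (G b).om 1 + ((r b)⁻¹ * (lf ga v + 1)) • (G b).om 2)) := by
    have h8 := Cl.add h3 Z.D.hc0
    have e8 : lcb bas v + lcb bas c0 = lcb bas c := by
      rw [hv, lcb_sub]
      abel
    rw [e8] at h8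
    refine h8.trans ?_
    have h9 : Cl (Z.S.psi v b + Z.S.rho v b • (G b).om 1 + lf al v • H0.om 0 +
        lf ga v • H0.om 2 + H0.om 2) (Z.S.psi v b + Z.S.rho v b • (G b).om 1 +
        lf al v • ((r b)⁻¹ • (G b).om 0) + lf ga v • ((r b)⁻¹ • (G b).om 2) +
        (r b)⁻¹ • (G b).om 2) :=
      Cl.add (Cl.add (Cl.add (Cl.refl _) ((Z.cl_H0 hb (by decide)).smul _))
        ((Z.cl_H0 hb (by decide)).smul _)) (Z.cl_H0 hb (by decide))
    have e9 : Z.S.psi v b + Z.S.rho v b • (G b).om 1 +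
        lf al v • ((r b)⁻¹ • (G b).om 0) + lf ga v • ((r b)⁻¹ • (G b).om 2) +
        (r b)⁻¹ • (G b).om 2 = Z.S.psi v b + (((r b)⁻¹ * lf al v) • (G b).om 0 +
        Z.S.rho v b • (G b).om 1 + ((r b)⁻¹ * (lf ga v + 1)) • (G b).om 2) := by
      rw [smul_smul, smul_smul, mul_comm (lf al v), mul_comm (lf ga v), mul_add, mul_one,
        add_smul]
      abel
    rw [e9] at h9
    exact h9
  refine h7.trans (Cl.add (Cl.refl _) ?_)
  have h10 := lin_rot (G b) (frA_fr (lf al b / r b) (lf ga b / r b)) ((r b)⁻¹ * lf al v)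
    (Z.S.rho v b) ((r b)⁻¹ * (lf ga v + 1))
  have hy : ∀ l, Z.yy l b c = (r b)⁻¹ * lf al v * Z.R b l 0 + Z.S.rho v b * Z.R b l 1 +
      (r b)⁻¹ * (lf ga v + 1) * Z.R b l 2 := by
    intro l
    simp only [yy, Al, add_apply, smul_apply, smul_eq_mul, lfL_apply, ← hv, Stp.rho]
    field_simp
    ring
  have h11 := cl_of_eqv h10
  rw [hy 0, hy 1, hy 2]
  exact h11

/-- the class of `w2` -/
theorem cl_w2 {b : Fin m → ℝ} (hb : b ∈ T) (c : Fin m → ℝ) :
    Cl (Z.w2 b c) (lcb bas c - Z.yy 0 b c • (Z.L b).om 0 - Z.yy 1 b c • (Z.L b).om 1) := by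
  have h1 := (Z.cl_lcc hb c).symm
  have h2 := Cl.add (Cl.add h1 (Cl.refl (-(Z.yy 0 b c • (Z.L b).om 0))))
    (Cl.refl (-(Z.yy 1 b c • (Z.L b).om 1)))
  have e1 : Z.S.psi (c - c0) b + (Z.yy 0 b c • (Z.L b).om 0 + Z.yy 1 b c • (Z.L b).om 1 +
      Z.yy 2 b c • (Z.L b).om 2) + -(Z.yy 0 b c • (Z.L b).om 0) + -(Z.yy 1 b c • (Z.L b).om 1) =
      Z.w2 b c := by
    rw [w2]
    abel
  rw [e1, ← sub_eq_add_neg, ← sub_eq_add_neg] at h2
  exact h2

/-- the square of `w2` -/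
theorem Q_w2 {b : Fin m → ℝ} (hb : b ∈ T) (c : Fin m → ℝ) :
    Q (Z.w2 b c) (Z.w2 b c) = Q (affL (pj m) y (c - c0)) (affL (pj m) y (c - c0)) -
      Z.S.rho (c - c0) b * Q (affL (pj m) y (c - c0)) (aff (pj m) y y0 b) +
      Z.yy 2 b c ^ 2 * (r b ^ 2 * Q (H0.om 0) (H0.om 0)) := by
  set v := c - c0 with hv
  have hQ := Z.D.hQ
  have h1 : ∀ l, Q (Z.S.psi v b) ((G b).om l) = 0 := fun l => Z.S.Q_om hQ v hb l
  have h2 : Q (Z.S.psi v b) ((Z.L b).om 2) = 0 := by
    have e : (Z.L b).om 2 = Z.R b 2 0 • (G b).om 0 + Z.R b 2 1 • (G b).om 1 +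
      Z.R b 2 2 • (G b).om 2 := rot_cl _ 2
    rw [e]
    simp only [map_add, map_smul, h1, smul_zero, add_zero]
  have h3 : Q ((Z.L b).om 2) ((Z.L b).om 2) = r b ^ 2 * Q (H0.om 0) (H0.om 0) := by
    have e : Q ((Z.L b).om 2) ((Z.L b).om 2) = Q ((G b).om 0) ((G b).om 0) :=
      Q_rot hQ (G b) (frA_fr _ _) 2
    have hB := cl_of_eqv (Z.S.hB b hb 0 (by decide))
    rw [e, hQ.cl12 hB hB, map_smul, map_smul, LinearMap.smul_apply, smul_eq_mul, smul_eq_mul]
    ring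
  have h4 : Q (Z.S.psi v b) (Z.S.psi v b) = Q (affL (pj m) y v) (affL (pj m) y v) -
      Z.S.rho v b * Q (affL (pj m) y v) (aff (pj m) y y0 b) := by
    have hc := Z.S.cl v hb
    rw [hQ.cl2 hc, map_sub, map_smul, h1 1, smul_zero, sub_zero, hQ.cl1 hc, map_sub,
      LinearMap.sub_apply, map_smul, LinearMap.smul_apply, smul_eq_mul,
      hQ.cl1 (Z.S.hc b hb), hQ.symm (aff (pj m) y y0 b)]
  have e : Z.w2 b c = Z.S.psi v b + Z.yy 2 b c • (Z.L b).om 2 := rfl
  rw [e]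
  simp only [map_add, map_smul, LinearMap.add_apply, LinearMap.smul_apply, smul_eq_mul]
  rw [hQ.symm ((Z.L b).om 2) (Z.S.psi v b), h2, h3, h4]
  ring

theorem ev_Q : ∀ᶠ p : (Fin m → ℝ) × (Fin m → ℝ) in 𝓝 (b0, c0),
    0 < Q (Z.w2 p.1 p.2) (Z.w2 p.1 p.2) := by
  have hO : IsOpen (T ×ˢ (univ : Set (Fin m → ℝ))) := Z.S.hT.prod isOpen_univ
  have hp0 : ((b0, c0) : (Fin m → ℝ) × (Fin m → ℝ)) ∈ T ×ˢ (univ : Set (Fin m → ℝ)) :=
    ⟨Z.hb, mem_univ _⟩
  have hr : ContinuousAt (fun p : (Fin m → ℝ) × (Fin m → ℝ) => r p.1) (b0, c0) :=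
    ContinuousAt.comp (g := r) (f := Prod.fst) (x := (b0, c0))
      (Z.S.hr.continuousOn.continuousAt (Z.S.hT.mem_nhds Z.hb)) continuousAt_fst
  have hfd : ContinuousAt (fun p : (Fin m → ℝ) × (Fin m → ℝ) => fderiv ℝ r p.1) (b0, c0) :=
    ContinuousAt.comp (g := fderiv ℝ r) (f := Prod.fst) (x := (b0, c0))
      ((Z.S.hr.fderiv_of_isOpen Z.S.hT (m := ∞) (by simp)).continuousOn.continuousAt
        (Z.S.hT.mem_nhds Z.hb)) continuousAt_fst
  have hd : ContinuousAt (fun p : (Fin m → ℝ) × (Fin m → ℝ) => p.2 - c0) (b0, c0) := by fun_prop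
  have hyy : ContinuousAt (fun p : (Fin m → ℝ) × (Fin m → ℝ) => Z.yy 2 p.1 p.2) (b0, c0) :=
    (Z.yy_sm 2).continuousOn.continuousAt (hO.mem_nhds hp0)
  have hL : ∀ x : F2 C, ContinuousAt (fun p : (Fin m → ℝ) × (Fin m → ℝ) =>
      Q (affL (pj m) y (p.2 - c0)) x) (b0, c0) := by
    intro x
    simp only [affL, map_sum, map_smul, LinearMap.sum_apply, LinearMap.smul_apply, smul_eq_mul]
    have : ∀ j, ContinuousAt (fun p : (Fin m → ℝ) × (Fin m → ℝ) => pj m j (p.2 - c0))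
      (b0, c0) := fun j => (pj m j).continuous.continuousAt.comp hd
    fun_prop
  have hLL : ContinuousAt (fun p : (Fin m → ℝ) × (Fin m → ℝ) =>
      Q (affL (pj m) y (p.2 - c0)) (affL (pj m) y (p.2 - c0))) (b0, c0) := by
    have e : (fun p : (Fin m → ℝ) × (Fin m → ℝ) =>
        Q (affL (pj m) y (p.2 - c0)) (affL (pj m) y (p.2 - c0))) =
        fun p => ∑ j, pj m j (p.2 - c0) * Q (affL (pj m) y (p.2 - c0)) (y j) := by
      funext p
      conv_lhs => rw [show Q (affL (pj m) y (p.2 - c0)) (affL (pj m) y (p.2 - c0)) =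
        Q (affL (pj m) y (p.2 - c0)) (∑ j, pj m j (p.2 - c0) • y j) from rfl]
      simp only [map_sum, map_smul, smul_eq_mul]
    rw [e]
    have : ∀ j, ContinuousAt (fun p : (Fin m → ℝ) × (Fin m → ℝ) => pj m j (p.2 - c0))
      (b0, c0) := fun j => (pj m j).continuous.continuousAt.comp hd
    exact tendsto_finsetSum _ fun j _ => (this j).mul (hL (y j))
  have hLa : ContinuousAt (fun p : (Fin m → ℝ) × (Fin m → ℝ) =>
      Q (affL (pj m) y (p.2 - c0)) (aff (pj m) y y0 p.1)) (b0, c0) := by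
    have e : (fun p : (Fin m → ℝ) × (Fin m → ℝ) =>
        Q (affL (pj m) y (p.2 - c0)) (aff (pj m) y y0 p.1)) =
        fun p => ∑ j, pj m j p.1 * Q (affL (pj m) y (p.2 - c0)) (y j) +
          Q (affL (pj m) y (p.2 - c0)) y0 := by
      funext p
      simp only [aff, map_add, map_sum, map_smul, smul_eq_mul]
    rw [e]
    have : ∀ j, ContinuousAt (fun p : (Fin m → ℝ) × (Fin m → ℝ) => pj m j p.1)
      (b0, c0) := fun j => (pj m j).continuous.continuousAt.comp continuousAt_fst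
    exact (tendsto_finsetSum _ fun j _ => (this j).mul (hL (y j))).add (hL y0)
  have hrho : ContinuousAt (fun p : (Fin m → ℝ) × (Fin m → ℝ) => Z.S.rho (p.2 - c0) p.1)
      (b0, c0) := (hfd.clm_apply hd).div hr (Z.S.r0 b0 Z.hb).ne'
  have hf := (hLL.sub (hrho.mul hLa)).add ((hyy.pow 2).mul ((hr.pow 2).mul
    (continuousAt_const (y := Q (H0.om 0) (H0.om 0)))))
  have hpos : 0 < Q (affL (pj m) y (c0 - c0)) (affL (pj m) y (c0 - c0)) -
      Z.S.rho (c0 - c0) b0 * Q (affL (pj m) y (c0 - c0)) (aff (pj m) y y0 b0) +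
      Z.yy 2 b0 c0 ^ 2 * (r b0 ^ 2 * Q (H0.om 0) (H0.om 0)) := by
    have e1 : affL (pj m) y (c0 - c0) = 0 := by simp [affL]
    rw [e1]
    simp only [map_zero, LinearMap.zero_apply, mul_zero, sub_zero, zero_add]
    have h1 := Z.yy2_pos Z.hb
    have h2 := Z.S.r0 b0 Z.hb
    have h3 := Z.D.q0
    positivity
  have h1 := hf.eventually (lt_mem_nhds hpos)
  filter_upwards [h1, hO.mem_nhds hp0] with p hp hpO
  rw [Z.Q_w2 hpO.1]
  exact hp

end Dat2

end

end Crest.Agent.R281.Bx_557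
end

-- ▼ part R281/Bx8_557
section

/-!
# Row 281, G9 BOX (helper557), part 8: the second move over a product of balls

* `Dat2.second` : `M`, `r2` over `ball b0 ε ×ˢ ball c0 ε`
* `Dat3.rep`    : the invariant forms `ψ_v`, jointly smooth in `(b, c)`
-/

set_option autoImplicit false
set_option maxSynthPendingDepth 3
set_option linter.unusedSectionVars false

open Set Filter Topology Metric
open scoped ContDiff Matrix

namespace Crest.Agent.R281.Bx_557

open Crest.Agent.R260.ACM_580 Crest.Agent.R281.HkR_835 Crest.Agent.R281.Ti_846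
open Crest.Agent.R281.NefO_476 Crest.Agent.R281.Nef_252 Crest.Agent.R281.Dif_268
open Crest.Agent.R281.Alg_998
open Crest.Agent.R281.Sta2_684 (smulP)

noncomputable section

variable {V X : Type} [NormedAddCommGroup V] [NormedSpace ℝ V] [TopologicalSpace X]
  {C : RCh V X}

variable {Q : F2 C →ₗ[ℝ] F2 C →ₗ[ℝ] ℝ} {H0 : HkT C} {m : ℕ} {bas : Fin m → F2 C}
  {b0 c0 : Fin m → ℝ} {al ga : Fin m → ℝ} {y : Fin m → F2 C} {y0 : F2 C}
  {T : Set (Fin m → ℝ)} {G : (Fin m → ℝ) → HkT C} {r : (Fin m → ℝ) → ℝ}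

/-- the output of the second move -/
structure Dat3 (Z : Dat2 Q H0 bas b0 c0 al ga y y0 T G r) (B D : Set (Fin m → ℝ))
    (M : (Fin m → ℝ) × (Fin m → ℝ) → HkT C) (r2 : (Fin m → ℝ) × (Fin m → ℝ) → ℝ) : Prop where
  BT : B ⊆ T
  oB : IsOpen B
  oD : IsOpen D
  c0D : c0 ∈ D
  M_sm : SmHk (B ×ˢ D) M
  r2_sm : ContDiffOn ℝ ∞ r2 (B ×ˢ D)
  r2_pos : ∀ p ∈ B ×ˢ D, 0 < r2 p
  J2 : ∀ p ∈ B ×ˢ D, ∀ i, ∀ z ∈ (C.e i).target, ∀ v, (M p).J 2 i z v = (Z.L p.1).J 2 i z v
  om2 : ∀ p ∈ B ×ˢ D, ∀ l, l ≠ 2 → Eqv ((M p).om l) (r2 p • (Z.L p.1).om l)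
  cls : ∀ p ∈ B ×ˢ D, Cl ((M p).om 2) (Z.w2 p.1 p.2)
  ini : ∀ p ∈ B ×ˢ D, ∀ (t : ℝ) (ht : 0 < t), Eqv (Z.w2 p.1 p.2) (t • (Z.L p.1).om 2) →
    HEqv (M p) (smulP t ht (Z.L p.1))

/-- **the second move** -/
theorem Dat2.second [FiniteDimensional ℝ V] [CompactSpace X] [T2Space X]
    (Z : Dat2 Q H0 bas b0 c0 al ga y y0 T G r) (hM : MoveFam C Q) :
    ∃ (ε : ℝ) (M : (Fin m → ℝ) × (Fin m → ℝ) → HkT C) (r2 : (Fin m → ℝ) × (Fin m → ℝ) → ℝ),
      0 < ε ∧ Dat3 Z (ball b0 ε) (ball c0 ε) M r2 := by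
  have hO : IsOpen (T ×ˢ (univ : Set (Fin m → ℝ))) := Z.S.hT.prod isOpen_univ
  have hp0 : ((b0, c0) : (Fin m → ℝ) × (Fin m → ℝ)) ∈ T ×ˢ (univ : Set (Fin m → ℝ)) :=
    ⟨Z.hb, mem_univ _⟩
  have hf : MapsTo (Prod.fst : (Fin m → ℝ) × (Fin m → ℝ) → _) (T ×ˢ univ) T := fun p hp => hp.1
  have hL : SmHk (T ×ˢ (univ : Set (Fin m → ℝ))) fun q : (Fin m → ℝ) × (Fin m → ℝ) => Z.L q.1 :=
    Z.L_sm.comp (p := Prod.fst) contDiff_fst.contDiffOn hf
  have h1 : ∀ᶠ p : (Fin m → ℝ) × (Fin m → ℝ) in 𝓝 (b0, c0),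
      Pos (ofHk (Z.L p.1) 2) (Z.w2 p.1 p.2) := by
    refine ev_pos (J := fun p : (Fin m → ℝ) × (Fin m → ℝ) => ofHk (Z.L p.1) 2) hO (hL.J 2)
      Z.w2_sm hp0 ?_
    intro i z hz u hu
    have h2 := Z.w2_c0 Z.hb i z hz u ((ofHk (Z.L b0) 2).J i z u)
    show 0 < (Z.w2 b0 c0).w i z u ((ofHk (Z.L b0) 2).J i z u)
    rw [h2]
    exact mul_pos (Z.yy2_pos Z.hb) (Pos_hk (Z.L b0) 2 i z hz u hu)
  have h2 := h1.and (Z.ev_Q.and (hO.mem_nhds hp0))
  obtain ⟨ε, hε, hb⟩ := Metric.eventually_nhds_iff_ball.1 h2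
  rw [← ball_prod_same] at hb
  have hsub : ball b0 ε ×ˢ ball c0 ε ⊆ T ×ˢ (univ : Set (Fin m → ℝ)) := fun p hp =>
    (hb p hp).2.2
  obtain ⟨M, r2, hMs, hr2, h⟩ := moveFam_k hM 2 (isOpen_ball.prod isOpen_ball)
    (H := fun p : (Fin m → ℝ) × (Fin m → ℝ) => Z.L p.1)
    (w := fun p : (Fin m → ℝ) × (Fin m → ℝ) => Z.w2 p.1 p.2)
    ⟨fun k => (hL.om k).mono hsub, fun k i => (hL.J k i).mono (prod_mono hsub Subset.rfl)⟩
    (fun p hp => by
      have c0' : Cl (((Z.L p.1).cyc 2).om 0) ((Z.L p.1).om 2) := cl_of_eqv (cyc_om (Z.L p.1) 2 0)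
      have hB := cl_of_eqv (Z.S.hB p.1 (hsub hp).1 0 (by decide))
      have hQ := Z.D.hQ
      have e : Q ((Z.L p.1).om 2) ((Z.L p.1).om 2) = Q ((G p.1).om 0) ((G p.1).om 0) :=
        Q_rot hQ (G p.1) (frA_fr _ _) 2
      rw [hQ.cl12 c0' c0', e, hQ.cl12 hB hB, map_smul, map_smul, LinearMap.smul_apply,
        smul_eq_mul, smul_eq_mul]
      have h3 := Z.S.r0 p.1 (hsub hp).1
      have h4 := Z.D.q0
      positivity)
    (Z.w2_sm.mono hsub) (fun p hp => Z.w2_T11 (hsub hp).1 p.2) (fun p hp => (hb p hp).1)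
    (fun p hp => (hb p hp).2.1)
  refine ⟨ε, M, r2, hε, ⟨fun b hb' => ?_, isOpen_ball, isOpen_ball, mem_ball_self hε, hMs, hr2,
    fun p hp => (h p hp).1, fun p hp i z hz v => (h p hp).2.1 i z hz v,
    fun p hp l hl => (h p hp).2.2.1 l hl, fun p hp => (h p hp).2.2.2.1,
    fun p hp => (h p hp).2.2.2.2⟩⟩
  exact (hsub (show (b, c0) ∈ ball b0 ε ×ˢ ball c0 ε from ⟨hb', mem_ball_self hε⟩)).1

namespace Dat3

variable {Z : Dat2 Q H0 bas b0 c0 al ga y y0 T G r} {B D : Set (Fin m → ℝ)}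
    {M : (Fin m → ℝ) × (Fin m → ℝ) → HkT C} {r2 : (Fin m → ℝ) × (Fin m → ℝ) → ℝ}
    (W : Dat3 Z B D M r2)

/-- the affine data of the slice -/
def ys (_ : Dat3 Z B D M r2) (b : Fin m → ℝ) (j : Fin m) : F2 C :=
  bas j - Z.Al 0 b (Pi.single j 1) • (Z.L b).om 0 - Z.Al 1 b (Pi.single j 1) • (Z.L b).om 1

def ys0 (_ : Dat3 Z B D M r2) (b : Fin m → ℝ) : F2 C :=
  (Z.Al 0 b c0 - (r b)⁻¹ * Z.R b 0 2) • (Z.L b).om 0 +
    (Z.Al 1 b c0 - (r b)⁻¹ * Z.R b 1 2) • (Z.L b).om 1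

include W

theorem affL_ys (b v : Fin m → ℝ) : affL (pj m) (W.ys b) v =
    lcb bas v - Z.Al 0 b v • (Z.L b).om 0 - Z.Al 1 b v • (Z.L b).om 1 := by
  have e : ∀ L : (Fin m → ℝ) →L[ℝ] ℝ, L v = ∑ j, v j * L (Pi.single j 1) := by
    intro L
    have h := LinearMap.pi_apply_eq_sum_univ (L : (Fin m → ℝ) →ₗ[ℝ] ℝ) v
    simp only [smul_eq_mul] at h
    have h2 : ∀ i : Fin m, (fun j => if i = j then (1 : ℝ) else 0) = Pi.single i 1 := by
      intro i
      funext j
      by_cases hij : i = j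
      · subst hij
        simp
      · simp [hij, Ne.symm hij]
    simp only [h2] at h
    exact h
  rw [e (Z.Al 0 b), e (Z.Al 1 b)]
  show ∑ j, v j • (bas j - Z.Al 0 b (Pi.single j 1) • (Z.L b).om 0 -
    Z.Al 1 b (Pi.single j 1) • (Z.L b).om 1) = _
  simp only [lcb, smul_sub, Finset.sum_sub_distrib, smul_smul, Finset.sum_smul]

theorem aff_ys (b c : Fin m → ℝ) : aff (pj m) (W.ys b) (W.ys0 b) c =
    lcb bas c - Z.yy 0 b c • (Z.L b).om 0 - Z.yy 1 b c • (Z.L b).om 1 := by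
  have h : aff (pj m) (W.ys b) (W.ys0 b) c = affL (pj m) (W.ys b) c + W.ys0 b := rfl
  rw [h, W.affL_ys, ys0, Dat2.yy, Dat2.yy, map_sub, map_sub]
  module

/-- the slice -/
theorem stp [FiniteDimensional ℝ V] [CompactSpace X] [T2Space X] {b : Fin m → ℝ} (hb : b ∈ B) :
    Stp 2 D (fun c => M (b, c)) (fun c => r2 (b, c)) (ofHk (Z.L b) 2) (Z.L b).om (pj m) (W.ys b)
      (W.ys0 b) where
  hT := W.oD
  hH := W.M_sm.comp (p := fun c => (b, c)) (contDiff_prodMk_right b).contDiffOn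
    fun c hc => ⟨hb, hc⟩
  hr := W.r2_sm.comp (contDiff_prodMk_right b).contDiffOn fun c hc => ⟨hb, hc⟩
  r0 c hc := W.r2_pos (b, c) ⟨hb, hc⟩
  hJ c hc i z hz u := W.J2 (b, c) ⟨hb, hc⟩ i z hz u
  hB c hc l hl := W.om2 (b, c) ⟨hb, hc⟩ l hl
  hc c hc := by
    rw [W.aff_ys]
    exact (W.cls (b, c) ⟨hb, hc⟩).trans (Z.cl_w2 (W.BT hb) c)

theorem hm : SmF (B ×ˢ D) fun p => (r2 p)⁻¹ • (M p).om 2 :=
  (W.M_sm.om 2).smul (W.r2_sm.inv fun p hp => (W.r2_pos p hp).ne')

/-- **the invariant forms** -/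
def ps (v : Fin m → ℝ) (p : (Fin m → ℝ) × (Fin m → ℝ)) : F2 C :=
  r2 p • dF (B ×ˢ D) (W.oB.prod W.oD) (fun p => (r2 p)⁻¹ • (M p).om 2) W.hm (0, v) p

theorem ps_sm (v : Fin m → ℝ) : SmF (B ×ˢ D) (W.ps v) :=
  (dF_sm (W.oB.prod W.oD) W.hm (0, v)).smul W.r2_sm

variable [FiniteDimensional ℝ V] [CompactSpace X] [T2Space X]

theorem ps_eqv (v : Fin m → ℝ) {b c : Fin m → ℝ} (hb : b ∈ B) (hc : c ∈ D) :
    Eqv (W.ps v (b, c)) ((W.stp hb).psi v c) := by
  intro i z hz u u'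
  have h1 : (W.ps v (b, c)).w i z = r2 (b, c) •
      dw (fun p => (r2 p)⁻¹ • (M p).om 2) (0, v) (b, c) i z := by
    show r2 (b, c) • (dF (B ×ˢ D) (W.oB.prod W.oD) (fun p => (r2 p)⁻¹ • (M p).om 2) W.hm
      (0, v) (b, c)).w i z = _
    rw [dF_w (show (b, c) ∈ B ×ˢ D from ⟨hb, hc⟩)]
  rw [h1, (W.stp hb).psi_w hc, dw_slice (W.oB.prod W.oD) W.hm ⟨hb, hc⟩ W.oD (W.stp hb).hm hc hz]

theorem ps_T11 (v : Fin m → ℝ) {b c : Fin m → ℝ} (hb : b ∈ B) (hc : c ∈ D) (l : Fin 3) :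
    T11 (ofHk (M (b, c)) l) (W.ps v (b, c)) := by
  intro i z hz u u'
  have h := (W.stp hb).psi_T11 v hc l i z hz u u'
  rw [W.ps_eqv v hb hc i z hz, W.ps_eqv v hb hc i z hz]
  exact h

theorem ps_Q (v : Fin m → ℝ) {b c : Fin m → ℝ} (hb : b ∈ B) (hc : c ∈ D) (l : Fin 3) :
    Q (W.ps v (b, c)) ((M (b, c)).om l) = 0 := by
  rw [Z.D.hQ.cl1 (cl_of_eqv (W.ps_eqv v hb hc))]
  exact (W.stp hb).Q_om Z.D.hQ v hc l

theorem ps_cl (v : Fin m → ℝ) {b c : Fin m → ℝ} (hb : b ∈ B) (hc : c ∈ D) :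
    ∃ x : Fin 3 → ℝ, Cl (W.ps v (b, c)) (lcb bas v + ∑ k, x k • (M (b, c)).om k) := by
  have h1 := (cl_of_eqv (W.ps_eqv v hb hc)).trans ((W.stp hb).cl v hc)
  rw [W.affL_ys] at h1
  have hp : (b, c) ∈ B ×ˢ D := ⟨hb, hc⟩
  have h0 := (W.r2_pos (b, c) hp).ne'
  have hl : ∀ l, l ≠ 2 → Cl ((Z.L b).om l) ((r2 (b, c))⁻¹ • (M (b, c)).om l) := by
    intro l hl
    have h2 := (cl_of_eqv (W.om2 (b, c) hp l hl)).smul (r2 (b, c))⁻¹
    rw [smul_smul, inv_mul_cancel₀ h0, one_smul] at h2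
    exact h2.symm
  refine ⟨![-(Z.Al 0 b v * (r2 (b, c))⁻¹), -(Z.Al 1 b v * (r2 (b, c))⁻¹),
    -((W.stp hb).rho v c)], h1.trans ?_⟩
  have h2 : Cl (lcb bas v + (-Z.Al 0 b v) • (Z.L b).om 0 + (-Z.Al 1 b v) • (Z.L b).om 1 +
      (-((W.stp hb).rho v c)) • (M (b, c)).om 2) (lcb bas v + (-Z.Al 0 b v) •
      ((r2 (b, c))⁻¹ • (M (b, c)).om 0) + (-Z.Al 1 b v) • ((r2 (b, c))⁻¹ • (M (b, c)).om 1) +
      (-((W.stp hb).rho v c)) • (M (b, c)).om 2) :=
    Cl.add (Cl.add (Cl.add (Cl.refl _) ((hl 0 (by decide)).smul _)) ((hl 1 (by decide)).smul _))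
      (Cl.refl _)
  have e1 : lcb bas v - Z.Al 0 b v • (Z.L b).om 0 - Z.Al 1 b v • (Z.L b).om 1 -
      (W.stp hb).rho v c • (M (b, c)).om 2 = lcb bas v + (-Z.Al 0 b v) • (Z.L b).om 0 +
      (-Z.Al 1 b v) • (Z.L b).om 1 + (-((W.stp hb).rho v c)) • (M (b, c)).om 2 := by
    module
  have e2 : lcb bas v + ∑ k, (![-(Z.Al 0 b v * (r2 (b, c))⁻¹), -(Z.Al 1 b v * (r2 (b, c))⁻¹),
    -((W.stp hb).rho v c)] : Fin 3 → ℝ) k • (M (b, c)).om k = lcb bas v + (-Z.Al 0 b v) •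
      ((r2 (b, c))⁻¹ • (M (b, c)).om 0) + (-Z.Al 1 b v) • ((r2 (b, c))⁻¹ • (M (b, c)).om 1) +
      (-((W.stp hb).rho v c)) • (M (b, c)).om 2 := by
    rw [Fin.sum_univ_three]
    simp only [Matrix.cons_val_zero, Matrix.cons_val_one, Matrix.cons_val]
    module
  rw [e1, e2]
  exact h2

/-- the projection of `lc c` -/
theorem prj {b c : Fin m → ℝ} (hb : b ∈ B) (hc : c ∈ D) :
    Cl (lcb bas c) ((M (b, c)).om 2 + ((r2 (b, c))⁻¹ * Z.yy 1 b c) • (M (b, c)).om 1 +
      ((r2 (b, c))⁻¹ * Z.yy 0 b c) • (M (b, c)).om 0) := by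
  have hp : (b, c) ∈ B ×ˢ D := ⟨hb, hc⟩
  have h0 := (W.r2_pos (b, c) hp).ne'
  have h1 := Z.cl_lcc (W.BT hb) c
  have hl : ∀ l, l ≠ 2 → Cl ((Z.L b).om l) ((r2 (b, c))⁻¹ • (M (b, c)).om l) := by
    intro l hl
    have h2 := (cl_of_eqv (W.om2 (b, c) hp l hl)).smul (r2 (b, c))⁻¹
    rw [smul_smul, inv_mul_cancel₀ h0, one_smul] at h2
    exact h2.symm
  have e1 : Z.S.psi (c - c0) b + (Z.yy 0 b c • (Z.L b).om 0 + Z.yy 1 b c • (Z.L b).om 1 +
      Z.yy 2 b c • (Z.L b).om 2) = Z.w2 b c + Z.yy 1 b c • (Z.L b).om 1 +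
      Z.yy 0 b c • (Z.L b).om 0 := by
    rw [Dat2.w2]
    abel
  rw [e1] at h1
  have h3 : Cl (Z.w2 b c + Z.yy 1 b c • (Z.L b).om 1 + Z.yy 0 b c • (Z.L b).om 0)
      ((M (b, c)).om 2 + Z.yy 1 b c • ((r2 (b, c))⁻¹ • (M (b, c)).om 1) +
      Z.yy 0 b c • ((r2 (b, c))⁻¹ • (M (b, c)).om 0)) :=
    Cl.add (Cl.add (W.cls (b, c) hp).symm ((hl 1 (by decide)).smul _)) ((hl 0 (by decide)).smul _)
  rw [smul_smul, smul_smul, mul_comm (Z.yy 1 b c), mul_comm (Z.yy 0 b c)] at h3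
  exact h1.trans h3

end Dat3

end

end Crest.Agent.R281.Bx_557
end

-- ▼ part R281/Bx9_557
section

/-!
# Row 281, G9 BOX (helper557), part 9: `BoxFam` of 327 and `BoxP` of 902 from YAU-VAR

* `boxFam`     : `Ctx n C Q`, `MoveFam C Q` imply `Nonempty (BoxFam Q bas b0 c0 H0)`
* `boxFamP_of`, `boxP_of_move` : `BoxFamP`, `BoxP` from `MoveFam`
* `boxP_of_yau`: `BoxP` from YAU-VAR (`YauVar C b'` for one basis `b'` of every space)
-/

set_option autoImplicit false
set_option maxSynthPendingDepth 3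
set_option linter.unusedSectionVars false

open Set Filter Topology Metric
open scoped ContDiff Matrix

namespace Crest.Agent.R281.Bx_557

open Crest.Agent.R275.Geo Crest.Agent.R275.Core144 Crest.Agent.R275.GC293
open Crest.Agent.R260.ACM_580 Crest.Agent.R281.HkR_835 Crest.Agent.R281.Ti_846
open Crest.Agent.R281.NefO_476 Crest.Agent.R281.Nef_252 Crest.Agent.R281.Dif_268
open Crest.Agent.R281.Alg_998
open Crest.Agent.R281.Sta2_684 (smulP)
open Crest.Agent.R281.RkD_902 (Ctx SameTw lco seg BoxP)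
open Crest.Agent.R281.BoxB_327 (BoxFam BoxFamP boxP_of)

noncomputable section

section gen

variable {V X : Type} [NormedAddCommGroup V] [NormedSpace ℝ V] [TopologicalSpace X]
  {C : RCh V X} {Q : F2 C →ₗ[ℝ] F2 C →ₗ[ℝ] ℝ} {H0 : HkT C} {m : ℕ} {bas : Fin m → F2 C}
  {b0 c0 : Fin m → ℝ}


theorem lcb_seg (b b' : Fin m → ℝ) (s : ℝ) :
    lcb bas (seg b b' s) = (1 - s) • lcb bas b + s • lcb bas b' := by
  simp only [lcb, seg, Pi.add_apply, Pi.smul_apply, smul_eq_mul, add_smul, mul_smul,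
    Finset.sum_add_distrib, Finset.smul_sum]

theorem affL_seg {y : Fin m → F2 C} (b b' : Fin m → ℝ) (s : ℝ) :
    affL (pj m) y (seg b b' s) = (1 - s) • affL (pj m) y b + s • affL (pj m) y b' := by
  rw [seg, affL_add, affL_smul, affL_smul]

theorem frA_zero (k l : Fin 3) : frA 0 0 k l = if k = l then 1 else 0 := by
  fin_cases k <;> fin_cases l <;> simp [frA]

/-- **the two moves** -/
theorem boxFam [FiniteDimensional ℝ V] [CompactSpace X] [T2Space X] (hQ : QD Q)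
    (ht : ∀ H : HkT C, 0 < Q (H.om 0) (H.om 0) → ∀ x : F2 C, Q x (H.om 1) = 0 →
      Q x (H.om 2) = 0 → ∃ y, Cl y x ∧ T11 (ofHk H 0) y)
    (hM : MoveFam C Q) (q0 : 0 < Q (H0.om 0) (H0.om 0)) (hb0 : Cl (H0.om 1) (lco bas b0))
    (hc0 : Cl (H0.om 2) (lco bas c0)) : Nonempty (BoxFam Q bas b0 c0 H0) := by
  obtain ⟨al, ga, y, D1⟩ := Dat1.exists_y hQ q0 ht (b0 := b0) (c0 := c0) (bas := bas)
    hb0.symm hc0.symm
  obtain ⟨T, G, r, hbT, hS, hG⟩ := D1.first hM
  have Z : Dat2 Q H0 bas b0 c0 al ga y D1.y0 T G r := ⟨D1, hS, rfl, hbT, hG⟩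
  obtain ⟨ε, M, r2, hε, W⟩ := Z.second hM
  refine ⟨{
    B := ball b0 ε
    D := ball c0 ε
    oB := isOpen_ball
    oD := isOpen_ball
    cB := convex_ball _ _
    cD := convex_ball _ _
    b0B := mem_ball_self hε
    c0D := mem_ball_self hε
    G1 := G
    w1 := aff (pj m) y D1.y0
    aff1 := ?_
    J1 := fun b hb i z hz => by
      ext v
      exact hS.hJ b (W.BT hb) i z hz v
    om1 := fun b hb => ⟨r b, hS.r0 b (W.BT hb), hS.hB b (W.BT hb) 0 (by decide),
      hS.hB b (W.BT hb) 2 (by decide)⟩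
    cls1 := fun b hb => hS.hc b (W.BT hb)
    L := Z.L
    tw1 := fun b hb => Tw_327.sameTw_rot (G b) _
    L0 := fun b hb => Z.cl_L0 (W.BT hb)
    L1 := fun b hb => ⟨_, by positivity, Z.cl_lcb (W.BT hb)⟩
    M := fun b c => M (b, c)
    w2 := fun b c => lcb bas c - Z.yy 0 b c • (Z.L b).om 0 - Z.yy 1 b c • (Z.L b).om 1
    aff2 := ?_
    J2 := fun b hb c hc i z hz => by
      ext v
      exact W.J2 (b, c) ⟨hb, hc⟩ i z hz v
    om2 := fun b hb c hc => ⟨r2 (b, c), W.r2_pos (b, c) ⟨hb, hc⟩,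
      W.om2 (b, c) ⟨hb, hc⟩ 0 (by decide), W.om2 (b, c) ⟨hb, hc⟩ 1 (by decide)⟩
    cls2 := fun b hb c hc => (W.cls (b, c) ⟨hb, hc⟩).trans (Z.cl_w2 (W.BT hb) c)
    tw2 := ?_
    smM := W.M_sm
    cen := ?_
    a := fun b c => (r2 (b, c))⁻¹ * Z.yy 0 b c
    a_sm := ?_
    prj := fun b hb c hc => ⟨1, (r2 (b, c))⁻¹ * Z.yy 1 b c, one_pos, by
      rw [one_smul, one_mul]
      exact W.prj hb hc⟩
    rep := fun v => ⟨W.ps v, W.ps_sm v, fun b hb c hc => ⟨W.ps_T11 v hb hc, W.ps_Q v hb hc,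
      W.ps_cl v hb hc⟩⟩ }⟩
  · intro b hb b' hb' s hs
    have e : aff (pj m) y D1.y0 (seg b b' s) = (1 - s) • aff (pj m) y D1.y0 b +
        s • aff (pj m) y D1.y0 b' := by
      have h : ∀ b, aff (pj m) y D1.y0 b = affL (pj m) y b + D1.y0 := fun _ => rfl
      rw [h, h, h, affL_seg]
      module
    rw [e]
    exact Cl.refl _
  · intro b hb c hc c' hc' s hs
    have ey : ∀ l, Z.yy l b (seg c c' s) = (1 - s) * Z.yy l b c + s * Z.yy l b c' := by
      intro l
      have e : seg c c' s - c0 = (1 - s) • (c - c0) + s • (c' - c0) := by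
        rw [seg]
        module
      rw [Dat2.yy, Dat2.yy, Dat2.yy, e, map_add, map_smul, map_smul]
      simp only [smul_eq_mul]
      ring
    have e : lcb bas (seg c c' s) - Z.yy 0 b (seg c c' s) • (Z.L b).om 0 -
        Z.yy 1 b (seg c c' s) • (Z.L b).om 1 =
        (1 - s) • (lcb bas c - Z.yy 0 b c • (Z.L b).om 0 - Z.yy 1 b c • (Z.L b).om 1) +
        s • (lcb bas c' - Z.yy 0 b c' • (Z.L b).om 0 - Z.yy 1 b c' • (Z.L b).om 1) := by
      rw [ey, ey, lcb_seg]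
      module
    rw [e]
    exact Cl.refl _
  · intro b hb
    have h := W.ini (b, c0) ⟨hb, mem_ball_self hε⟩ _ (Z.yy2_pos (W.BT hb)) (Z.w2_c0 (W.BT hb))
    exact Tw_327.SameTw.trans (Tw_327.sameTw_smulP (Z.L b) (Z.yy2_pos (W.BT hb)))
      (Tw_327.SameTw.of_heqv h.symm)
  · have hb := mem_ball_self (x := b0) hε
    have h := W.ini (b0, c0) ⟨hb, mem_ball_self hε⟩ _ (Z.yy2_pos (W.BT hb)) (Z.w2_c0 (W.BT hb))
    refine ⟨Z.yy 2 b0 c0, Z.yy2_pos (W.BT hb), fun k => ?_⟩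
    have h1 : HEqv (Z.L b0) H0 := by
      refine HEqv.trans (rot_one (G b0) _ fun k l => ?_) hG
      show frA (lf al b0 / r b0) (lf ga b0 / r b0) k l = _
      rw [Z.al_b0, Z.ga_b0, zero_div, frA_zero]
    have h2 := h.trans (heqv_smulP h1 (Z.yy2_pos (W.BT hb)))
    exact heqv_eqv h2 k
  · have h1 : ball b0 ε ×ˢ ball c0 ε ⊆ T ×ˢ (univ : Set (Fin m → ℝ)) := fun p hp =>
      ⟨W.BT hp.1, mem_univ _⟩
    exact (W.r2_sm.inv fun p hp => (W.r2_pos p hp).ne').mul ((Z.yy_sm 0).mono h1)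

end gen

theorem qd_ctx {n : ℕ} {X : Type} [TopologicalSpace X] [CompactSpace X]
    {C : RCh (Cn (2 * n)) X} {Q : F2 C →ₗ[ℝ] F2 C →ₗ[ℝ] ℝ} (hc : Ctx n C Q) : QD Q :=
  ⟨hc.symm, hc.ex, hc.eq, hc.ort⟩

/-- **`BoxFamP` from the family of moves** -/
theorem boxFamP_of (hM : ∀ (n : ℕ) (X : Type) [TopologicalSpace X] [CompactSpace X] [T2Space X]
    [SimplyConnectedSpace X] (C : RCh (Cn (2 * n)) X) (Q : F2 C →ₗ[ℝ] F2 C →ₗ[ℝ] ℝ),
    Ctx n C Q → MoveFam C Q) : BoxFamP := by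
  intro n X _ _ _ _ C Q hc H0 q0 m bas b0 c0 hb0 hc0
  exact boxFam (qd_ctx hc) hc.t11 (hM n X C Q hc) q0 hb0 hc0

/-- **`BoxP` from the family of moves** -/
theorem boxP_of_move (hM : ∀ (n : ℕ) (X : Type) [TopologicalSpace X] [CompactSpace X]
    [T2Space X] [SimplyConnectedSpace X] (C : RCh (Cn (2 * n)) X)
    (Q : F2 C →ₗ[ℝ] F2 C →ₗ[ℝ] ℝ), Ctx n C Q → MoveFam C Q) : BoxP :=
  boxP_of (boxFamP_of hM)

/-- **`BoxP` from YAU-VAR** -/
theorem boxP_of_yau (hY : ∀ (n : ℕ) (X : Type) [TopologicalSpace X] [CompactSpace X]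
    [T2Space X] [ConnectedSpace X] (C : RCh (Cn (2 * n)) X),
    ∃ (N : ℕ) (b' : Module.Basis (Fin N) ℝ (Cn (2 * n))), Al_830.YauVar C b') : BoxP :=
  boxP_of_move fun n X _ _ _ _ C Q hc => by
    obtain ⟨N, b', hb⟩ := hY n X C
    exact Mf_835.moveFam hc hb

end

end Crest.Agent.R281.Bx_557
end

-- ▼ part R281/Sk5_474
section

/-!
# R281 (S0424), SKEL281 (helper474): the current top

Closed here: `BoxP` (557, 327, 835, 900), `LiftP` (830).
-/

set_option autoImplicit false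
set_option linter.unusedSectionVars false

namespace Crest.Agent.R281.Sk_474

open Crest.Agent.R281.Defs_273 Crest.Agent.R281.RkD_902
open Crest.Agent.R275.Geo Crest.Agent.R275.Core144

/-- the node `BoxP` -/
theorem boxM : BoxP := Bx_557.boxP_of_yau fun n _ _ _ _ _ C =>
  ⟨_, Module.finBasis ℝ (Cn (2 * n)), Al_830.yauVar_of_V0 (Module.finBasis ℝ (Cn (2 * n)))
    (Ly4_457.v0 (C := C) (Module.finBasis ℝ (Cn (2 * n))))⟩



end Crest.Agent.R281.Sk_474
end

-- ▼ part R281/Centre_474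

/-!
# R281 (S0424), OPEN' (helper474): the Ricci flat metric at the centre
-/

set_option autoImplicit false
set_option linter.unusedSectionVars false

open Set

namespace Crest.Agent.R281.Sk_474

open Crest.Agent.R275.Geo Crest.Agent.R275.Core144 Crest.Agent.R275.EDR890
open Crest.Agent.R273.Kah_333
open Crest.Agent.R281.HkR_835 Crest.Agent.R281.Rkd_386 Crest.Agent.R260.NNB_580 Crest.Agent.R260.ACM_580

/-- **the Ricci flat metric at the centre** -/
theorem centreP : OpG_941.CentreP := by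
  intro n X _ _ _ _ C H A _ _ _ _ hJ
  have hp : Cp (H.acm 0) A := cp_of_jc hJ
  have h := ric0 (H.onA hp) (onA_J H hp)
  refine ⟨H.kah hp, fun i x hx => ?_⟩
  exact h i x hx

end Crest.Agent.R281.Sk_474
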