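import Mathlib

-- ▼ part R281/Tube1_242
section

/-!
# R281, S-TUBE part 1 (helper242): Hadamard lift

`f : X → Y`, `e : E → Y` (model: `f = (f_1, …, f_N)`, `e z = (c_j exp z_j)_j`).
If near every point of `ball y R` the map `f` has local `e`-logarithms with `C`-Lipschitz inverse,
then the local inverse at `y` extends to `ball ζ₀ (R / C)`.
-/

set_option autoImplicit false
set_option linter.unusedSectionVars false

open Set Filter Topology Metric unitInterval

namespace Crest.Agent.R281.Tube_242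

noncomputable section

/-- `φ` is a local `e`-logarithm of `f` with `C`-Lipschitz inverse. -/
structure IsLog {X E Y : Type*} [PseudoMetricSpace X] [PseudoMetricSpace E] (f : X → Y) (e : E → Y)
    (C : ℝ) (φ : OpenPartialHomeomorph X E) : Prop where
  log : ∀ x ∈ φ.source, e (φ x) = f x
  lip : ∀ x ∈ φ.source, ∀ x' ∈ φ.source, dist x x' ≤ C * dist (φ x) (φ x')

/-- `f` has local `e`-logarithms with `C`-Lipschitz inverse near the points of `U`. -/
def HasLog {X E Y : Type*} [PseudoMetricSpace X] [PseudoMetricSpace E] (f : X → Y) (e : E → Y)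
    (C : ℝ) (U : Set X) : Prop :=
  ∀ p ∈ U, ∀ ζ : E, e ζ = f p →
    ∃ φ : OpenPartialHomeomorph X E, p ∈ φ.source ∧ φ p = ζ ∧ IsLog f e C φ

/-- `e` is locally injective -/
def LocInj {E Y : Type*} [TopologicalSpace E] (e : E → Y) : Prop :=
  ∀ ζ : E, ∃ V ∈ 𝓝 ζ, InjOn e V

variable {X E Y : Type*} [MetricSpace X] [NormedAddCommGroup E] [NormedSpace ℝ E]
  {f : X → Y} {e : E → Y} {C : ℝ} {U : Set X}

/-- a lift through a local logarithm is given by the logarithm -/
theorem agree {A : Type*} [TopologicalSpace A] {b : A → E} {g : A → X} {D : Set A} {a : A}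
    (hi : LocInj e) (hb : ContinuousWithinAt b D a) (hg : ContinuousWithinAt g D a)
    (hl : ∀ z ∈ D, f (g z) = e (b z)) {φ : OpenPartialHomeomorph X E} (hφ : IsLog f e C φ)
    (hga : g a ∈ φ.source) (hφa : φ (g a) = b a) :
    ∀ᶠ z in 𝓝[D] a, g z ∈ φ.source ∧ φ (g z) = b z := by
  obtain ⟨V, hV, hinj⟩ := hi (b a)
  have h1 : ∀ᶠ z in 𝓝[D] a, g z ∈ φ.source := hg.eventually (φ.open_source.mem_nhds hga)
  have h2 : ∀ᶠ z in 𝓝[D] a, b z ∈ V := hb.eventually hV
  have h3 : ∀ᶠ z in 𝓝[D] a, φ (g z) ∈ V := by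
    have h4 : ContinuousWithinAt (fun z => φ (g z)) D a :=
      (φ.continuousAt hga).comp_continuousWithinAt hg
    have h5 : V ∈ 𝓝 (φ (g a)) := by rw [hφa]; exact hV
    exact h4.eventually h5
  filter_upwards [h1, h2, h3, self_mem_nhdsWithin] with z k1 k2 k3 k4
  refine ⟨k1, hinj k3 k2 ?_⟩
  rw [hφ.log _ k1, hl z k4]

/-- the fibre product -/
abbrev W (f : X → Y) (e : E → Y) (U : Set X) : Type _ := {q : X × E // q.1 ∈ U ∧ f q.1 = e q.2}

/-- the projection to `E` -/
def pr (q : W f e U) : E := q.1.2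

theorem continuous_pr : Continuous (pr : W f e U → E) :=
  continuous_snd.comp continuous_subtype_val

theorem continuous_fst' : Continuous (fun q : W f e U => q.1.1) :=
  continuous_fst.comp continuous_subtype_val

theorem isLocalHomeomorph_pr (hU : IsOpen U) (hi : LocInj e) (hf : HasLog f e C U) :
    IsLocalHomeomorph (pr : W f e U → E) := by
  classical
  intro w
  obtain ⟨φ, hp, hφp, hφ⟩ := hf w.1.1 w.2.1 w.1.2 w.2.2.symm
  obtain ⟨V', hV', hinj'⟩ := hi w.1.2
  obtain ⟨V, hVV, hVo, hVm⟩ := _root_.mem_nhds_iff.1 hV'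
  have hinj : InjOn e V := hinj'.mono hVV
  have key : ∀ q : W f e U, q.1.1 ∈ φ.source → φ q.1.1 ∈ V → q.1.2 ∈ V → φ q.1.1 = q.1.2 := by
    intro q h1 h2 h3
    apply hinj h2 h3
    rw [hφ.log _ h1, q.2.2]
  have hmem : ∀ z, z ∈ φ.target ∧ z ∈ V ∧ φ.symm z ∈ U →
      φ.symm z ∈ U ∧ f (φ.symm z) = e z := by
    intro z hz
    refine ⟨hz.2.2, ?_⟩
    rw [← hφ.log _ (φ.map_target hz.1), φ.right_inv hz.1]
  let ψ : OpenPartialHomeomorph (W f e U) E :=
    { toFun := pr
      invFun := fun z => if h : z ∈ φ.target ∧ z ∈ V ∧ φ.symm z ∈ U then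
        ⟨(φ.symm z, z), hmem z h⟩ else w
      source := {q | q.1.1 ∈ φ.source ∧ φ q.1.1 ∈ V ∧ q.1.2 ∈ V}
      target := {z | z ∈ φ.target ∧ z ∈ V ∧ φ.symm z ∈ U}
      map_source' := by
        rintro q ⟨h1, h2, h3⟩
        have h4 := key q h1 h2 h3
        refine ⟨?_, h3, ?_⟩
        · show q.1.2 ∈ φ.target
          rw [← h4]; exact φ.map_source h1
        · show φ.symm q.1.2 ∈ U
          rw [← h4, φ.left_inv h1]; exact q.2.1
      map_target' := by
        intro z hz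
        have hz' : z ∈ φ.target ∧ z ∈ V ∧ φ.symm z ∈ U := hz
        show (dite _ _ _ : W f e U) ∈ _
        rw [dif_pos hz']
        refine ⟨φ.map_target hz'.1, ?_, hz'.2.1⟩
        show φ (φ.symm z) ∈ V
        rw [φ.right_inv hz'.1]; exact hz'.2.1
      left_inv' := by
        rintro q ⟨h1, h2, h3⟩
        have h4 := key q h1 h2 h3
        have h5 : pr q ∈ φ.target ∧ pr q ∈ V ∧ φ.symm (pr q) ∈ U := by
          refine ⟨?_, h3, ?_⟩
          · show q.1.2 ∈ φ.target
            rw [← h4]; exact φ.map_source h1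
          · show φ.symm q.1.2 ∈ U
            rw [← h4, φ.left_inv h1]; exact q.2.1
        show (dite _ _ _ : W f e U) = q
        rw [dif_pos h5]
        apply Subtype.ext
        apply Prod.ext
        · show φ.symm q.1.2 = q.1.1
          rw [← h4, φ.left_inv h1]
        · rfl
      right_inv' := by
        intro z hz
        have hz' : z ∈ φ.target ∧ z ∈ V ∧ φ.symm z ∈ U := hz
        show pr (dite _ _ _ : W f e U) = z
        rw [dif_pos hz']
        rfl
      open_source := by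
        have h1 : IsOpen (φ.source ∩ φ ⁻¹' V) := φ.isOpen_inter_preimage hVo
        have h2 := (h1.preimage (continuous_fst' (f := f) (e := e) (U := U))).inter
          (hVo.preimage (continuous_pr (f := f) (e := e) (U := U)))
        convert h2 using 1
        ext q
        simp only [mem_ofPred_eq, mem_inter_iff, mem_preimage, and_assoc]
        rfl
      open_target := by
        have h1 : IsOpen (φ.target ∩ φ.symm ⁻¹' U) := φ.symm.isOpen_inter_preimage hU
        have h2 := h1.inter hVo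
        convert h2 using 1
        ext z
        simp only [mem_ofPred_eq, mem_inter_iff, mem_preimage]
        tauto
      continuousOn_toFun := continuous_pr.continuousOn
      continuousOn_invFun := by
        rw [continuousOn_iff_continuous_domRestrict]
        have h6 : ∀ z : {z | z ∈ φ.target ∧ z ∈ V ∧ φ.symm z ∈ U},
            (dite _ (fun h => (⟨(φ.symm z, z), hmem z h⟩ : W f e U)) (fun _ => w) : W f e U) =
              ⟨(φ.symm z, z), hmem z z.2⟩ := fun z => dif_pos z.2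
        show Continuous fun z : {z | z ∈ φ.target ∧ z ∈ V ∧ φ.symm z ∈ U} =>
          (dite _ (fun h => (⟨(φ.symm z, z), hmem z h⟩ : W f e U)) (fun _ => w) : W f e U)
        simp_rw [h6]
        refine Continuous.subtype_mk ?_ _
        refine Continuous.prodMk ?_ continuous_subtype_val
        have h7 : ContinuousOn φ.symm {z | z ∈ φ.target ∧ z ∈ V ∧ φ.symm z ∈ U} :=
          φ.continuousOn_symm.mono fun z hz => hz.1
        exact continuousOn_iff_continuous_domRestrict.1 h7 }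
  refine ⟨ψ, ?_, rfl⟩
  refine ⟨hp, ?_, hVm⟩
  show φ w.1.1 ∈ V
  rw [hφp]; exact hVm

/-- uniqueness of lifts on preconnected sets -/
theorem uniq {A : Type*} [TopologicalSpace A] {b : A → E} {g g' : A → X} {D : Set A} {a : A}
    (hU : IsOpen U) (hi : LocInj e) (hf : HasLog f e C U) (hD : IsPreconnected D)
    (hb : ContinuousOn b D) (hg : ContinuousOn g D) (hg' : ContinuousOn g' D)
    (hl : ∀ z ∈ D, g z ∈ U ∧ f (g z) = e (b z)) (hl' : ∀ z ∈ D, g' z ∈ U ∧ f (g' z) = e (b z))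
    (ha : a ∈ D) (haa : g a = g' a) : EqOn g g' D := by
  have hh : IsLocalHomeomorph (pr : W f e U → E) := isLocalHomeomorph_pr hU hi hf
  have : PreconnectedSpace D := Subtype.preconnectedSpace hD
  let G : D → W f e U := fun z => ⟨(g z, b z), hl z z.2⟩
  let G' : D → W f e U := fun z => ⟨(g' z, b z), hl' z z.2⟩
  have hbc : Continuous fun z : D => b z := continuousOn_iff_continuous_domRestrict.1 hb
  have hG : Continuous G := by
    refine Continuous.subtype_mk (Continuous.prodMk ?_ hbc) _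
    exact continuousOn_iff_continuous_domRestrict.1 hg
  have hG' : Continuous G' := by
    refine Continuous.subtype_mk (Continuous.prodMk ?_ hbc) _
    exact continuousOn_iff_continuous_domRestrict.1 hg'
  have hsep : IsSeparatedMap (pr : W f e U → E) := T2Space.isSeparatedMap _
  have h1 := hsep.eq_of_comp_eq hh.isLocallyInjective hG hG' rfl ⟨a, ha⟩ (by
    apply Subtype.ext
    exact Prod.ext haa rfl)
  intro z hz
  have h2 := congrFun h1 ⟨z, hz⟩
  exact congrArg (fun q : W f e U => q.1.1) h2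

/-- forward local Lipschitz implies Lipschitz -/
theorem lip_of_loc {G : ℝ → X} {a b K : ℝ} (hab : a ≤ b) (hG : ContinuousOn G (Icc a b))
    (h : ∀ t ∈ Ico a b, ∀ᶠ u in 𝓝[>] t, dist (G t) (G u) ≤ K * (u - t)) :
    dist (G a) (G b) ≤ K * (b - a) := by
  have h1 : Icc a b ⊆ {t | dist (G a) (G t) ≤ K * (t - a)} := by
    apply IsClosed.Icc_subset_of_forall_exists_gt
    · have h2 : {t | dist (G a) (G t) ≤ K * (t - a)} ∩ Icc a b =
          {t ∈ Icc a b | dist (G a) (G t) ≤ K * (t - a)} := by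
        ext t; simp only [mem_inter_iff, mem_ofPred_eq]; tauto
      rw [h2]
      apply IsClosed.isClosed_le isClosed_Icc
      · exact continuous_dist.comp_continuousOn (continuousOn_const.prodMk hG)
      · exact (by fun_prop : Continuous fun t : ℝ => K * (t - a)).continuousOn
    · simp
    · intro t ht y hy
      have h3 := h t ht.2
      have h4 : ∀ᶠ u in 𝓝[>] t, u ∈ Ioo t y := Ioo_mem_nhdsGT hy
      have h4' : ∀ᶠ u in 𝓝[>] t, u ∈ Ioo t b := Ioo_mem_nhdsGT ht.2.2
      obtain ⟨u, h5, h6, h7⟩ := (h3.and (h4.and h4')).exists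
      refine ⟨u, ?_, ⟨h6.1, h6.2.le⟩⟩
      have h8 : dist (G a) (G t) ≤ K * (t - a) := ht.1
      show dist (G a) (G u) ≤ K * (u - a)
      calc dist (G a) (G u) ≤ dist (G a) (G t) + dist (G t) (G u) := dist_triangle _ _ _
        _ ≤ K * (t - a) + K * (u - t) := add_le_add h8 h5
        _ = K * (u - a) := by ring
  exact h1 ⟨hab, le_rfl⟩

/-- lifts of affine paths are Lipschitz -/
theorem path_lip (hi : LocInj e) (hf : HasLog f e C U) {ζ v : E} {a b : ℝ} (hab : a ≤ b)
    {G : ℝ → X} (hG : ContinuousOn G (Icc a b))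
    (hl : ∀ t ∈ Icc a b, G t ∈ U ∧ f (G t) = e (ζ + t • v)) :
    dist (G a) (G b) ≤ C * ‖v‖ * (b - a) := by
  apply lip_of_loc hab hG
  intro t ht
  have ht' : t ∈ Icc a b := Ico_subset_Icc_self ht
  obtain ⟨φ, hp, hφp, hφ⟩ := hf (G t) (hl t ht').1 (ζ + t • v) (hl t ht').2.symm
  have hb : Continuous fun t : ℝ => ζ + t • v := by fun_prop
  have h1 := agree (b := fun t : ℝ => ζ + t • v) hi hb.continuousWithinAt (hG t ht')
    (fun z hz => (hl z hz).2) hφ hp hφp
  have h2 : ∀ᶠ u in 𝓝[>] t, u ∈ Icc a b := by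
    have h3 : ∀ᶠ u in 𝓝[>] t, u ∈ Ioo t b := Ioo_mem_nhdsGT ht.2
    filter_upwards [h3] with u hu
    exact ⟨ht.1.trans hu.1.le, hu.2.le⟩
  have h3 : ∀ᶠ u in 𝓝[>] t, G u ∈ φ.source ∧ φ (G u) = ζ + u • v := by
    have h4 : 𝓝[>] t ≤ 𝓝[Icc a b] t := by
      rw [nhdsWithin, nhdsWithin]
      refine le_inf inf_le_left ?_
      exact le_principal_iff.2 h2
    exact h4 h1
  filter_upwards [h3, self_mem_nhdsWithin] with u hu hut
  have hut' : t < u := hut
  have h5 := hφ.lip _ hp _ hu.1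
  rw [hφp, hu.2, dist_eq_norm] at h5
  have h6 : ‖(ζ + t • v) - (ζ + u • v)‖ = ‖v‖ * (u - t) := by
    have : (ζ + t • v) - (ζ + u • v) = (t - u) • v := by rw [sub_smul]; abel
    rw [this, norm_smul, Real.norm_eq_abs, abs_of_neg (by linarith)]
    ring
  rw [h6] at h5
  calc dist (G t) (G u) ≤ C * (‖v‖ * (u - t)) := h5
    _ = C * ‖v‖ * (u - t) := by ring

/-- partial lift of the ray `ζ₀ + t v` up to time `T` -/
def PL (f : X → Y) (e : E → Y) (U : Set X) (y : X) (ζ v : E) (T : ℝ) (G : ℝ → X) : Prop :=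
  ContinuousOn G (Icc 0 T) ∧ G 0 = y ∧ ∀ t ∈ Icc 0 T, G t ∈ U ∧ f (G t) = e (ζ + t • v)

theorem PL.mono {y : X} {ζ v : E} {T T' : ℝ} {G : ℝ → X} (h : PL f e U y ζ v T G) (hT : T' ≤ T) :
    PL f e U y ζ v T' G :=
  ⟨h.1.mono (Icc_subset_Icc_right hT), h.2.1, fun t ht => h.2.2 t (Icc_subset_Icc_right hT ht)⟩

theorem PL.uniq {y : X} {ζ v : E} {T : ℝ} {G G' : ℝ → X} (hU : IsOpen U) (hi : LocInj e)
    (hf : HasLog f e C U) (hT : 0 ≤ T) (h : PL f e U y ζ v T G) (h' : PL f e U y ζ v T G') :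
    EqOn G G' (Icc 0 T) := by
  have hb : Continuous fun t : ℝ => ζ + t • v := by fun_prop
  exact Tube_242.uniq (b := fun t : ℝ => ζ + t • v) (a := 0) hU hi hf isPreconnected_Icc
    hb.continuousOn h.1 h'.1 h.2.2 h'.2.2 ⟨le_rfl, hT⟩ (h.2.1.trans h'.2.1.symm)

/-- extension of a partial lift to the right -/
theorem PL.extend {y : X} {ζ v : E} {T : ℝ} {G : ℝ → X} (hU : IsOpen U)
    (hf : HasLog f e C U) (hT : 0 ≤ T) (h : PL f e U y ζ v T G) :
    ∃ δ > 0, ∃ G', PL f e U y ζ v (T + δ) G' := by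
  obtain ⟨hGU, hGe⟩ := h.2.2 T ⟨hT, le_rfl⟩
  obtain ⟨φ, hp, hφp, hφ⟩ := hf (G T) hGU (ζ + T • v) hGe.symm
  have hb : Continuous fun t : ℝ => ζ + t • v := by fun_prop
  have hTt : ζ + T • v ∈ φ.target := by rw [← hφp]; exact φ.map_source hp
  have hsym : φ.symm (ζ + T • v) = G T := by rw [← hφp, φ.left_inv hp]
  have h1 : IsOpen (φ.target ∩ φ.symm ⁻¹' U) := φ.symm.isOpen_inter_preimage hU
  have h2 : ζ + T • v ∈ φ.target ∩ φ.symm ⁻¹' U := ⟨hTt, by
    show φ.symm (ζ + T • v) ∈ U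
    rw [hsym]; exact hGU⟩
  have h3 : ∀ᶠ t in 𝓝 T, ζ + t • v ∈ φ.target ∩ φ.symm ⁻¹' U :=
    hb.continuousAt.eventually (h1.mem_nhds h2)
  obtain ⟨δ, hδ, h4⟩ := Metric.eventually_nhds_iff.1 h3
  refine ⟨δ / 2, by positivity, fun t => if t ≤ T then G t else φ.symm (ζ + t • v), ?_, ?_, ?_⟩
  · have hA : ContinuousOn (fun t => if t ≤ T then G t else φ.symm (ζ + t • v)) (Icc 0 T) := by
      refine h.1.congr fun t ht => ?_
      simp only [if_pos ht.2]
    have hB : ContinuousOn (fun t => if t ≤ T then G t else φ.symm (ζ + t • v))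
        (Icc T (T + δ / 2)) := by
      have hB' : ContinuousOn (fun t : ℝ => φ.symm (ζ + t • v)) (Icc T (T + δ / 2)) := by
        refine φ.continuousOn_symm.comp hb.continuousOn ?_
        intro t ht
        refine (h4 ?_).1
        rw [Real.dist_eq, abs_of_nonneg (by linarith [ht.1])]
        linarith [ht.2]
      refine hB'.congr fun t ht => ?_
      by_cases htT : t ≤ T
      · have : t = T := le_antisymm htT ht.1
        subst this
        simp only [le_refl, if_true]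
        exact hsym.symm
      · simp only [if_neg htT]
    have hAB := hA.union_of_isClosed hB isClosed_Icc isClosed_Icc
    rwa [Icc_union_Icc_eq_Icc hT (by linarith)] at hAB
  · simp only [if_pos hT]; exact h.2.1
  · intro t ht
    by_cases htT : t ≤ T
    · simp only [if_pos htT]; exact h.2.2 t ⟨ht.1, htT⟩
    · simp only [if_neg htT]
      push Not at htT
      have h5 := h4 (y := t) (by
        rw [Real.dist_eq, abs_of_nonneg (by linarith)]
        linarith [ht.2])
      refine ⟨h5.2, ?_⟩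
      rw [← hφ.log _ (φ.map_target h5.1), φ.right_inv h5.1]

/-- limit of partial lifts -/
theorem PL.limit [CompleteSpace X] [TopologicalSpace Y] [T2Space Y] {y : X} {R : ℝ} {ζ v : E}
    {T : ℝ} (hi : LocInj e) (he : Continuous e) (hfc : ContinuousOn f (ball y R))
    (hf : HasLog f e C (ball y R)) (hT : 0 < T) (hv : C * ‖v‖ * T < R)
    (h : ∀ t ∈ Ico 0 T, ∃ G, PL f e (ball y R) y ζ v t G) :
    ∃ G, PL f e (ball y R) y ζ v T G := by
  have hne : Nonempty X := ⟨y⟩
  choose! G hG using h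
  have h0 : ∀ s ∈ Ico 0 T, ∀ t ∈ Ico 0 T, s ≤ t → G s s = G t s := by
    intro s hs t ht hst
    exact PL.uniq isOpen_ball hi hf hs.1 (hG s hs) ((hG t ht).mono hst) ⟨hs.1, le_rfl⟩
  let F : ℝ → X := fun t => G t t
  have h1 : ∀ t ∈ Ico 0 T, PL f e (ball y R) y ζ v t F := by
    intro t ht
    have h2 : EqOn F (G t) (Icc 0 t) := fun s hs => h0 s ⟨hs.1, hs.2.trans_lt ht.2⟩ t ht hs.2
    refine ⟨(hG t ht).1.congr h2, ?_, ?_⟩
    · rw [h2 ⟨le_rfl, ht.1⟩]; exact (hG t ht).2.1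
    · intro s hs
      rw [h2 hs]; exact (hG t ht).2.2 s hs
  have hlip : ∀ s ∈ Ico 0 T, ∀ t ∈ Ico 0 T, s ≤ t → dist (F s) (F t) ≤ C * ‖v‖ * (t - s) := by
    intro s hs t ht hst
    exact path_lip hi hf hst ((h1 t ht).1.mono (Icc_subset_Icc_left hs.1))
      (fun u hu => (h1 t ht).2.2 u ⟨hs.1.trans hu.1, hu.2⟩)
  have hCv : 0 ≤ C * ‖v‖ := by
    have h3 := hlip 0 ⟨le_rfl, hT⟩ (T / 2) ⟨by linarith, by linarith⟩ (by linarith)
    have h4 : 0 ≤ C * ‖v‖ * (T / 2 - 0) := dist_nonneg.trans h3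
    by_contra h5
    push Not at h5
    nlinarith
  have hlw : LipschitzOnWith (C * ‖v‖).toNNReal F (Ico 0 T) := by
    refine LipschitzOnWith.of_dist_le_mul fun s hs t ht => ?_
    rw [Real.coe_toNNReal _ hCv, Real.dist_eq]
    rcases le_total s t with hst | hst
    · rw [abs_of_nonpos (by linarith)]
      refine (hlip s hs t ht hst).trans (le_of_eq (by ring))
    · rw [abs_of_nonneg (by linarith), dist_comm]
      exact hlip t ht s hs hst
  have hcau : Cauchy (map F (𝓝[<] T)) := by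
    refine Cauchy.map_of_le (f := 𝓝[<] T) (cauchy_nhds.mono nhdsWithin_le_nhds)
      hlw.uniformContinuousOn ?_
    rw [le_principal_iff]
    exact Ico_mem_nhdsLT hT
  obtain ⟨p, hp⟩ := CompleteSpace.complete hcau
  have hp' : Tendsto F (𝓝[<] T) (𝓝 p) := hp
  have hpy : dist y p ≤ C * ‖v‖ * T := by
    have h5 : Tendsto (fun t => dist y (F t)) (𝓝[<] T) (𝓝 (dist y p)) :=
      Tendsto.dist tendsto_const_nhds hp'
    refine le_of_tendsto h5 ?_
    filter_upwards [Ico_mem_nhdsLT hT] with t ht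
    have h6 := hlip 0 ⟨le_rfl, hT⟩ t ht ht.1
    rw [(h1 t ht).2.1] at h6
    refine h6.trans ?_
    apply mul_le_mul_of_nonneg_left _ hCv
    linarith [ht.2]
  have hpU : p ∈ ball y R := by
    rw [mem_ball, dist_comm]; exact hpy.trans_lt hv
  have hb : Continuous fun t : ℝ => ζ + t • v := by fun_prop
  have hfp : f p = e (ζ + T • v) := by
    have h7 : Tendsto (fun t => f (F t)) (𝓝[<] T) (𝓝 (f p)) :=
      (hfc.continuousAt (isOpen_ball.mem_nhds hpU)).tendsto.comp hp'
    have h8 : Tendsto (fun t : ℝ => e (ζ + t • v)) (𝓝[<] T) (𝓝 (e (ζ + T • v))) :=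
      ((he.comp hb).tendsto T).mono_left nhdsWithin_le_nhds
    refine tendsto_nhds_unique h7 (h8.congr' ?_)
    filter_upwards [Ico_mem_nhdsLT hT] with t ht
    exact ((h1 t ht).2.2 t ⟨ht.1, le_rfl⟩).2.symm
  refine ⟨Function.update F T p, ?_, ?_, ?_⟩
  · intro t ht
    rcases ht.2.eq_or_lt with rfl | htT
    · have h9 : ContinuousWithinAt (Function.update F t p) (Iic t) t := by
        rw [continuousWithinAt_update_same]
        rwa [Iic_sdiff_right]
      exact h9.mono fun u hu => hu.2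
    · have h10 : t < (t + T) / 2 := by linarith
      have h11 : ContinuousWithinAt F (Icc 0 ((t + T) / 2)) t :=
        (h1 ((t + T) / 2) ⟨by linarith [ht.1], by linarith⟩).1 t ⟨ht.1, h10.le⟩
      have h12 : ContinuousWithinAt F (Icc 0 T) t := by
        refine h11.mono_of_mem_nhdsWithin ?_
        have : Iic ((t + T) / 2) ∈ 𝓝 t := Iic_mem_nhds h10
        filter_upwards [nhdsWithin_le_nhds this, self_mem_nhdsWithin] with u hu hu'
        exact ⟨hu'.1, hu⟩
      exact (continuousWithinAt_update_of_ne htT.ne).2 h12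
  · rw [Function.update_of_ne hT.ne]
    exact (h1 0 ⟨le_rfl, hT⟩).2.1
  · intro t ht
    rcases ht.2.eq_or_lt with rfl | htT
    · rw [Function.update_self]; exact ⟨hpU, hfp⟩
    · rw [Function.update_of_ne htT.ne]
      exact (h1 t ⟨ht.1, htT⟩).2.2 t ⟨ht.1, le_rfl⟩

/-- existence of the lift of a whole ray -/
theorem ray_lift [CompleteSpace X] [TopologicalSpace Y] [T2Space Y] {y : X} {R : ℝ} {ζ v : E}
    (hi : LocInj e) (he : Continuous e) (hfc : ContinuousOn f (ball y R))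
    (hf : HasLog f e C (ball y R)) (hy : e ζ = f y) (hC : 0 ≤ C) (hv : C * ‖v‖ < R) :
    ∃ G, PL f e (ball y R) y ζ v 1 G := by
  have hR : 0 < R := lt_of_le_of_lt (by positivity) hv
  have h1 : (1 : ℝ) ∈ {t : ℝ | ∃ G, PL f e (ball y R) y ζ v t G} := by
    refine IsClosed.mem_of_ge_of_forall_exists_gt (a := 0) (b := 1) ?_ ?_ zero_le_one ?_
    · rw [← isSeqClosed_iff_isClosed]
      intro t T ht htT
      have hT : T ∈ Icc (0 : ℝ) 1 := isClosed_Icc.mem_of_tendsto htT
        (Eventually.of_forall fun n => (ht n).2)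
      refine ⟨?_, hT⟩
      by_cases h2 : ∃ n, T ≤ t n
      · obtain ⟨n, hn⟩ := h2
        obtain ⟨G, hG⟩ := (ht n).1
        exact ⟨G, hG.mono hn⟩
      · push Not at h2
        rcases hT.1.eq_or_lt with rfl | hT0
        · exact absurd (h2 0) (not_lt.2 (ht 0).2.1)
        refine PL.limit hi he hfc hf hT0 ?_ ?_
        · refine lt_of_le_of_lt ?_ hv
          have : 0 ≤ C * ‖v‖ := by positivity
          nlinarith [hT.2]
        · intro s hs
          obtain ⟨n, hn⟩ := (htT.eventually (lt_mem_nhds hs.2)).exists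
          obtain ⟨G, hG⟩ := (ht n).1
          exact ⟨G, hG.mono hn.le⟩
    · refine ⟨fun _ => y, continuousOn_const, rfl, ?_⟩
      intro t ht
      have ht0 : t = 0 := le_antisymm ht.2 ht.1
      subst ht0
      refine ⟨mem_ball_self hR, ?_⟩
      simp [hy]
    · rintro t ⟨⟨G, hG⟩, ht⟩
      obtain ⟨δ, hδ, G', hG'⟩ := hG.extend isOpen_ball hf ht.1
      refine ⟨min (t + δ) 1, ⟨G', hG'.mono (min_le_left _ _)⟩, ?_, min_le_right _ _⟩
      exact lt_min (by linarith) ht.2
  exact h1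

/-- **Hadamard lift** : the local inverse of `f` at `y` (read through `e`) extends to the ball
`{z | C ‖z - ζ₀‖ < R}`. -/
theorem hadamard [CompleteSpace X] [TopologicalSpace Y] [T2Space Y] {y : X} {R : ℝ} {ζ : E}
    (hi : LocInj e) (he : Continuous e) (hfc : ContinuousOn f (ball y R))
    (hf : HasLog f e C (ball y R)) (hy : e ζ = f y) (hC : 0 ≤ C) (hR : 0 < R) :
    ∃ Ψ : E → X, Ψ ζ = y ∧ ContinuousOn Ψ {z | C * dist z ζ < R} ∧
      (∀ z, C * dist z ζ < R → f (Ψ z) = e z ∧ dist (Ψ z) y ≤ C * dist z ζ) := by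
  classical
  have h := fun a : {v : E // C * ‖v‖ < R} => ray_lift (ζ := ζ) hi he hfc hf hy hC a.2
  choose G hG using h
  have hb : Continuous fun q : I × {v : E // C * ‖v‖ < R} => ζ + (q.1 : ℝ) • (q.2 : E) := by
    fun_prop
  let F : C(I × {v : E // C * ‖v‖ < R}, E) := ⟨_, hb⟩
  let g : I × {v : E // C * ‖v‖ < R} → W f e (ball y R) := fun q =>
    ⟨(G q.2 q.1, ζ + (q.1 : ℝ) • (q.2 : E)), (hG q.2).2.2 q.1 ⟨q.1.2.1, q.1.2.2⟩⟩
  have hh : IsLocalHomeomorph (pr : W f e (ball y R) → E) := isLocalHomeomorph_pr isOpen_ball hi hf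
  have hsep : IsSeparatedMap (pr : W f e (ball y R) → E) := T2Space.isSeparatedMap _
  have hgc : Continuous g := by
    refine hh.continuous_lift hsep F (g := g) rfl ?_ ?_
    · refine Continuous.subtype_mk (Continuous.prodMk ?_ ?_) _
      · have : (fun a : {v : E // C * ‖v‖ < R} => G a ((0 : I) : ℝ)) = fun _ => y := by
          funext a; exact (hG a).2.1
        show Continuous fun a : {v : E // C * ‖v‖ < R} => G a ((0 : I) : ℝ)
        rw [this]; exact continuous_const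
      · fun_prop
    · intro a
      refine Continuous.subtype_mk (Continuous.prodMk ?_ ?_) _
      · show Continuous fun t : I => G a (t : ℝ)
        exact (hG a).1.comp_continuous continuous_subtype_val fun t => t.2
      · fun_prop
  have hdist : ∀ a : {v : E // C * ‖v‖ < R}, dist (G a 1) y ≤ C * ‖(a : E)‖ := by
    intro a
    have h1 := path_lip hi hf zero_le_one (hG a).1 (hG a).2.2
    rw [(hG a).2.1] at h1
    rw [dist_comm]
    simpa using h1
  refine ⟨fun z => if h : C * ‖z - ζ‖ < R then (g (1, ⟨z - ζ, h⟩)).1.1 else y, ?_, ?_, ?_⟩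
  · have h0 : C * ‖ζ - ζ‖ < R := by simpa using hR
    simp only [dif_pos h0]
    show G ⟨ζ - ζ, h0⟩ ((1 : I) : ℝ) = y
    have h2 : dist (G ⟨ζ - ζ, h0⟩ 1) y ≤ C * ‖ζ - ζ‖ := hdist ⟨ζ - ζ, h0⟩
    have h2' : C * ‖ζ - ζ‖ = 0 := by simp
    rw [h2'] at h2
    exact dist_le_zero.1 h2
  · rw [continuousOn_iff_continuous_domRestrict]
    have h3 : ∀ z : {z | C * dist z ζ < R}, C * ‖(z : E) - ζ‖ < R := fun z => by
      have := z.2
      rwa [mem_ofPred_eq, dist_eq_norm] at this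
    have h4 : ({z | C * dist z ζ < R}.domRestrict fun z : E =>
        if h : C * ‖z - ζ‖ < R then (g (1, ⟨z - ζ, h⟩)).1.1 else y) =
        fun z : {z | C * dist z ζ < R} => (g (1, ⟨(z : E) - ζ, h3 z⟩)).1.1 := by
      funext z
      show (dite _ _ _ : X) = _
      rw [dif_pos (h3 z)]
    rw [h4]
    have h5 : Continuous fun z : {z | C * dist z ζ < R} =>
        g ((1 : I), (⟨(z : E) - ζ, h3 z⟩ : {v : E // C * ‖v‖ < R})) := by
      refine hgc.comp (Continuous.prodMk continuous_const ?_)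
      refine Continuous.subtype_mk ?_ _
      fun_prop
    exact continuous_fst.comp (continuous_subtype_val.comp h5)
  · intro z hz
    rw [dist_eq_norm] at hz
    simp only [dif_pos hz]
    constructor
    · have h6 := (g (1, ⟨z - ζ, hz⟩)).2.2
      rw [h6]
      show e (ζ + ((1 : I) : ℝ) • (z - ζ)) = e z
      simp
    · rw [dist_eq_norm]
      exact hdist ⟨z - ζ, hz⟩

/-- local form of a lift -/
theorem lift_eventuallyEq {Ψ : E → X} {D : Set E} (hD : IsOpen D) (hi : LocInj e)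
    (hΨ : ContinuousOn Ψ D) (hl : ∀ z ∈ D, f (Ψ z) = e z) {z : E} (hz : z ∈ D)
    {φ : OpenPartialHomeomorph X E} (hφ : IsLog f e C φ) (hs : Ψ z ∈ φ.source)
    (hφz : φ (Ψ z) = z) : ∀ᶠ w in 𝓝 z, w ∈ φ.target ∧ Ψ w = φ.symm w ∧ Ψ w ∈ φ.source := by
  have h1 := agree (b := fun w : E => w) (g := Ψ) (D := D) hi continuous_id.continuousWithinAt
    (hΨ z hz) hl hφ hs hφz
  rw [hD.nhdsWithin_eq hz] at h1
  filter_upwards [h1] with w hw
  refine ⟨?_, ?_, hw.1⟩
  · rw [← hw.2]; exact φ.map_source hw.1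
  · have := φ.left_inv hw.1
    rw [hw.2] at this
    exact this.symm

/-- a lift is locally injective on open sets -/
theorem lift_dist {Ψ : E → X} {D : Set E} (hDc : Convex ℝ D) (hi : LocInj e)
    (hf : HasLog f e C U) (hΨ : ContinuousOn Ψ D) (hl : ∀ z ∈ D, Ψ z ∈ U ∧ f (Ψ z) = e z)
    {z w : E} (hz : z ∈ D) (hw : w ∈ D) : dist (Ψ z) (Ψ w) ≤ C * dist z w := by
  have hseg : ∀ t ∈ Icc (0 : ℝ) 1, z + t • (w - z) ∈ D := by
    intro t ht
    have := hDc hz hw (sub_nonneg.2 ht.2) ht.1 (by ring)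
    convert this using 1
    module
  have hb : Continuous fun t : ℝ => z + t • (w - z) := by fun_prop
  have h1 := path_lip (G := fun t : ℝ => Ψ (z + t • (w - z))) hi hf zero_le_one
    (hΨ.comp hb.continuousOn hseg) (fun t ht => hl _ (hseg t ht))
  simp only [zero_smul, add_zero, one_smul, add_sub_cancel, sub_zero, mul_one] at h1
  rwa [← dist_eq_norm, dist_comm w z] at h1

end

end Crest.Agent.R281.Tube_242
end

-- ▼ part R281/Tube2_242
section

/-!
# R281, S-TUBE part 2 (helper242): periods and the embedded strip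
-/

set_option autoImplicit false
set_option linter.unusedSectionVars false

open Set Filter Topology Metric Complex

namespace Crest.Agent.R281.Tube_242

noncomputable section

section General

variable {X E Y : Type*} [MetricSpace X] [NormedAddCommGroup E] [NormedSpace ℝ E]
  {f : X → Y} {e : E → Y} {C : ℝ} {U : Set X} {Ψ : E → X} {D : Set E}

/-- `Ψ` is a lift on `D` -/
structure IsLift (f : X → Y) (e : E → Y) (U : Set X) (D : Set E) (Ψ : E → X) : Prop where
  cont : ContinuousOn Ψ D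
  mem : ∀ z ∈ D, Ψ z ∈ U
  eq : ∀ z ∈ D, f (Ψ z) = e z

theorem IsLift.mono {D' : Set E} (h : IsLift f e U D Ψ) (hD : D' ⊆ D) : IsLift f e U D' Ψ :=
  ⟨h.cont.mono hD, fun z hz => h.mem z (hD hz), fun z hz => h.eq z (hD hz)⟩

theorem IsLift.uniq {Ψ' : E → X} (hU : IsOpen U) (hi : LocInj e) (hf : HasLog f e C U)
    (hD : IsPreconnected D) (h : IsLift f e U D Ψ) (h' : IsLift f e U D Ψ') {a : E} (ha : a ∈ D)
    (haa : Ψ a = Ψ' a) : EqOn Ψ Ψ' D :=
  Tube_242.uniq (b := fun z : E => z) hU hi hf hD continuousOn_id h.cont h'.cont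
    (fun z hz => ⟨h.mem z hz, h.eq z hz⟩) (fun z hz => ⟨h'.mem z hz, h'.eq z hz⟩) ha haa

theorem convex_shift (hDc : Convex ℝ D) (l : E) : Convex ℝ (D ∩ {z | z + l ∈ D}) := by
  apply hDc.inter
  have h := hDc.translate_preimage_left l
  have h2 : {z | z + l ∈ D} = (fun z => z + l) ⁻¹' D := rfl
  rw [h2]
  convert h using 1

/-- a period at one point of a convex domain is a period everywhere -/
theorem inv_of_one (hU : IsOpen U) (hi : LocInj e) (hf : HasLog f e C U) (hDc : Convex ℝ D)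
    (h : IsLift f e U D Ψ) {l : E} (hl : ∀ z, e (z + l) = e z) {z₁ : E} (h1 : z₁ ∈ D)
    (h2 : z₁ + l ∈ D) (h3 : Ψ (z₁ + l) = Ψ z₁) : ∀ z ∈ D, z + l ∈ D → Ψ (z + l) = Ψ z := by
  intro z hz hzl
  have hc := convex_shift hDc l
  have hA : IsLift f e U (D ∩ {z | z + l ∈ D}) Ψ := h.mono inter_subset_left
  have hB : IsLift f e U (D ∩ {z | z + l ∈ D}) (fun z => Ψ (z + l)) := by
    refine ⟨?_, fun z hz => h.mem _ hz.2, fun z hz => ?_⟩
    · exact h.cont.comp (by fun_prop) fun z hz => hz.2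
    · rw [h.eq _ hz.2, hl]
  exact (IsLift.uniq hU hi hf hc.isPreconnected hB hA (a := z₁) ⟨h1, h2⟩ h3) ⟨hz, hzl⟩

/-- pigeonhole: finite fibres give periods -/
theorem pigeon (hU : IsOpen U) (hi : LocInj e) (hf : HasLog f e C U) (hDc : Convex ℝ D)
    (h : IsLift f e U D Ψ) {l : E} (hl : ∀ z, e (z + l) = e z) {d : ℕ}
    (hd : ∀ (q : Y) (s : Finset X), (∀ x ∈ s, x ∈ U ∧ f x = q) → s.card ≤ d) {z₀ : E}
    (h0 : ∀ i : ℕ, i ≤ d → z₀ + i • l ∈ D) :
    ∃ k : ℕ, 1 ≤ k ∧ k ≤ d ∧ ∀ z ∈ D, z + k • l ∈ D → Ψ (z + k • l) = Ψ z := by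
  classical
  have hln : ∀ (n : ℕ) (z : E), e (z + n • l) = e z := by
    intro n
    induction n with
    | zero => intro z; simp
    | succ n ih => intro z; rw [succ_nsmul, ← add_assoc, hl, ih]
  have h1 : ¬ InjOn (fun i : ℕ => Ψ (z₀ + i • l)) (Finset.range (d + 1) : Set ℕ) := by
    intro hinj
    have h2 := hd (e z₀) ((Finset.range (d + 1)).image fun i : ℕ => Ψ (z₀ + i • l)) (by
      intro x hx
      obtain ⟨i, hi', rfl⟩ := Finset.mem_image.1 hx
      have hi'' : i ≤ d := by simpa [Nat.lt_succ_iff] using hi'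
      exact ⟨h.mem _ (h0 i hi''), by rw [h.eq _ (h0 i hi''), hln]⟩)
    rw [Finset.card_image_of_injOn hinj, Finset.card_range] at h2
    omega
  rw [InjOn] at h1
  push Not at h1
  obtain ⟨i, hi', j, hj', hij, hne⟩ := h1
  have hi'' : i ≤ d := by simpa [Nat.lt_succ_iff] using hi'
  have hj'' : j ≤ d := by simpa [Nat.lt_succ_iff] using hj'
  have key : ∀ a b : ℕ, a ≤ d → b ≤ d → a < b → Ψ (z₀ + a • l) = Ψ (z₀ + b • l) →
      ∃ k : ℕ, 1 ≤ k ∧ k ≤ d ∧ ∀ z ∈ D, z + k • l ∈ D → Ψ (z + k • l) = Ψ z := by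
    intro a b ha hb hab heq
    have h5 : z₀ + a • l + (b - a) • l = z₀ + b • l := by
      rw [add_assoc, ← add_nsmul]
      congr 2
      omega
    refine ⟨b - a, by omega, by omega, ?_⟩
    refine inv_of_one hU hi hf hDc h (hln _) (z₁ := z₀ + a • l) (h0 a ha) ?_ ?_
    · rw [h5]; exact h0 b hb
    · rw [h5]; exact heq.symm
  rcases lt_or_gt_of_ne hne with hlt | hlt
  · exact key i j hi'' hj'' hlt hij
  · exact key j i hj'' hi'' hlt hij.symm

/-- multiples of a period are periods -/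
theorem inv_nsmul (hDc : Convex ℝ D) {k : E}
    (hk : ∀ z ∈ D, z + k ∈ D → Ψ (z + k) = Ψ z) (n : ℕ) :
    ∀ z ∈ D, z + n • k ∈ D → Ψ (z + n • k) = Ψ z := by
  induction n with
  | zero => intro z _ _; simp
  | succ n ih =>
    intro z hz hzn
    have h1 : z + n • k ∈ D := by
      have h2 := hDc hz hzn (a := 1 / (n + 1 : ℝ)) (b := n / (n + 1 : ℝ)) (by positivity)
        (by positivity) (by field_simp; ring)
      convert h2 using 1
      have h3 : ((n : ℝ) + 1) ≠ 0 := by positivity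
      have h4 : (1 / ((n : ℝ) + 1)) • z + (n / ((n : ℝ) + 1)) • (z + (n + 1) • k) =
          ((1 + n) / ((n : ℝ) + 1)) • z + ((n * (n + 1)) / ((n : ℝ) + 1)) • k := by
        rw [← Nat.cast_smul_eq_nsmul ℝ (n + 1) k]
        push_cast
        module
      rw [h4, add_comm (1 : ℝ) n, div_self h3, one_smul, mul_div_assoc, div_self h3, mul_one,
        Nat.cast_smul_eq_nsmul]
    have h5 : z + (n + 1) • k = z + n • k + k := by rw [succ_nsmul, add_assoc]
    rw [h5, hk _ h1 (by rw [← h5]; exact hzn), ih z hz h1]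

theorem inv_zsmul (hDc : Convex ℝ D) {k : E}
    (hk : ∀ z ∈ D, z + k ∈ D → Ψ (z + k) = Ψ z) (n : ℤ) :
    ∀ z ∈ D, z + n • k ∈ D → Ψ (z + n • k) = Ψ z := by
  intro z hz hzn
  obtain ⟨m, rfl | rfl⟩ := n.eq_nat_or_neg
  · simpa using inv_nsmul hDc hk m z hz (by simpa using hzn)
  · have h1 := inv_nsmul hDc hk m (z + (-(m : ℤ)) • k) hzn (by simpa using hz)
    have h2 : z + (-(m : ℤ)) • k + m • k = z := by simp
    rw [h2] at h1
    exact h1.symm

end General

section Coord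

/-- model space (same as `R275.Geo.Cn`) -/
abbrev Cn (N : ℕ) : Type := EuclideanSpace ℂ (Fin N)

variable {N : ℕ}

/-- `(c_j exp z_j)_j` -/
def ee (c : Fin N → ℂ) (z : Cn N) : Fin N → ℂ := fun j => c j * Complex.exp (z j)

theorem continuous_ee (c : Fin N → ℂ) : Continuous (ee c) := by
  unfold ee
  fun_prop

theorem ee_eq_iff {c : Fin N → ℂ} (hc : ∀ j, c j ≠ 0) (z w : Cn N) :
    ee c z = ee c w ↔ ∀ j, ∃ n : ℤ, z j = w j + n * (2 * Real.pi * I) := by
  constructor
  · intro h j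
    have h1 : c j * Complex.exp (z j) = c j * Complex.exp (w j) := congrFun h j
    exact Complex.exp_eq_exp_iff_exists_int.1 (mul_left_cancel₀ (hc j) h1)
  · intro h
    funext j
    show c j * Complex.exp (z j) = c j * Complex.exp (w j)
    rw [Complex.exp_eq_exp_iff_exists_int.2 (h j)]

theorem locInj_ee {c : Fin N → ℂ} (hc : ∀ j, c j ≠ 0) : LocInj (ee c) := by
  intro ζ
  refine ⟨ball ζ 1, ball_mem_nhds ζ one_pos, ?_⟩
  intro z hz w hw h
  have h1 := (ee_eq_iff hc z w).1 h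
  have h2 : dist z w < 2 := by
    calc dist z w ≤ dist z ζ + dist w ζ := dist_triangle_right _ _ _
      _ < 1 + 1 := add_lt_add hz hw
      _ = 2 := by norm_num
  ext j
  obtain ⟨n, hn⟩ := h1 j
  have h3 : ‖z j - w j‖ ≤ dist z w := by
    rw [dist_eq_norm]
    exact PiLp.norm_apply_le (z - w) j
  rw [hn, add_sub_cancel_left] at h3
  have h4 : ‖(n : ℂ) * (2 * Real.pi * I)‖ = |(n : ℝ)| * (2 * Real.pi) := by
    rw [norm_mul, norm_mul, norm_mul, Complex.norm_I, mul_one, Complex.norm_intCast,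
      Complex.norm_real, Real.norm_eq_abs, abs_of_pos Real.pi_pos]
    norm_num
  rw [h4] at h3
  have h5 : n = 0 := by
    by_contra hne
    have h6 : (1 : ℝ) ≤ |(n : ℝ)| := by
      have := Int.one_le_abs hne
      exact_mod_cast this
    have h7 := Real.pi_gt_three
    nlinarith
  rw [hn, h5]; simp

/-- real parts -/
def reV : Cn N →ₗ[ℝ] EuclideanSpace ℝ (Fin N) where
  toFun z := WithLp.toLp 2 (fun j => (z j).re)
  map_add' z w := by ext j; simp
  map_smul' a z := by ext j; simp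

/-- imaginary parts -/
def imV : Cn N →ₗ[ℝ] EuclideanSpace ℝ (Fin N) where
  toFun z := WithLp.toLp 2 (fun j => (z j).im)
  map_add' z w := by ext j; simp
  map_smul' a z := by ext j; simp

@[simp] theorem reV_apply (z : Cn N) (j : Fin N) : reV z j = (z j).re := rfl
@[simp] theorem imV_apply (z : Cn N) (j : Fin N) : imV z j = (z j).im := rfl

theorem norm_sq_eq_re_im (z : Cn N) : ‖z‖ ^ 2 = ‖reV z‖ ^ 2 + ‖imV z‖ ^ 2 := by
  rw [EuclideanSpace.norm_sq_eq, EuclideanSpace.norm_sq_eq, EuclideanSpace.norm_sq_eq,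
    ← Finset.sum_add_distrib]
  refine Finset.sum_congr rfl fun j _ => ?_
  rw [Complex.sq_norm, Complex.normSq_apply, reV_apply, imV_apply, Real.norm_eq_abs,
    Real.norm_eq_abs, sq_abs, sq_abs]
  ring


theorem norm_le_re_im (z : Cn N) : ‖z‖ ≤ ‖reV z‖ + ‖imV z‖ := by
  have h := norm_sq_eq_re_im z
  have h1 : ‖z‖ ^ 2 ≤ (‖reV z‖ + ‖imV z‖) ^ 2 := by
    nlinarith [norm_nonneg (reV z), norm_nonneg (imV z),
      mul_nonneg (norm_nonneg (reV z)) (norm_nonneg (imV z))]
  exact (sq_le_sq₀ (norm_nonneg _) (by positivity)).1 h1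

theorem continuous_reV : Continuous (reV : Cn N → EuclideanSpace ℝ (Fin N)) :=
  LinearMap.continuous_of_finiteDimensional _

/-- the strip -/
def St (ζ : Cn N) (r : ℝ) : Set (Cn N) := {z | ‖reV (z - ζ)‖ < r}

theorem isOpen_St (ζ : Cn N) (r : ℝ) : IsOpen (St ζ r) :=
  isOpen_lt ((continuous_reV.comp (continuous_id.sub continuous_const)).norm) continuous_const

theorem convex_St (ζ : Cn N) (r : ℝ) : Convex ℝ (St ζ r) := by
  intro z hz w hw a b ha hb hab
  have h1 : reV (a • z + b • w - ζ) = a • reV (z - ζ) + b • reV (w - ζ) := by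
    rw [← map_smul, ← map_smul, ← map_add]
    congr 1
    have : ζ = a • ζ + b • ζ := by rw [← add_smul, hab, one_smul]
    rw [smul_sub, smul_sub]
    nth_rewrite 1 [this]
    abel
  show ‖reV (a • z + b • w - ζ)‖ < r
  rw [h1]
  have hz' : ‖reV (z - ζ)‖ < r := hz
  have hw' : ‖reV (w - ζ)‖ < r := hw
  calc ‖a • reV (z - ζ) + b • reV (w - ζ)‖ ≤ ‖a • reV (z - ζ)‖ + ‖b • reV (w - ζ)‖ :=
        norm_add_le _ _
    _ = a * ‖reV (z - ζ)‖ + b * ‖reV (w - ζ)‖ := by
        rw [norm_smul, norm_smul, Real.norm_of_nonneg ha, Real.norm_of_nonneg hb]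
    _ < r := by
        rcases ha.eq_or_lt with rfl | ha'
        · have : b = 1 := by linarith
          subst this; simpa using hw'
        · have h3 : a * ‖reV (z - ζ)‖ < a * r := mul_lt_mul_of_pos_left hz' ha'
          have h4 : b * ‖reV (w - ζ)‖ ≤ b * r := mul_le_mul_of_nonneg_left hw'.le hb
          have h5 : a * r + b * r = r := by rw [← add_mul, hab, one_mul]
          linarith

/-- partial modification of coordinates stays in a ball -/
theorem norm_ite_sq_le (s : Finset (Fin N)) (u w : Cn N) :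
    ‖(WithLp.toLp 2 (fun j => if j ∈ s then w j else u j) : Cn N)‖ ^ 2 ≤ ‖u‖ ^ 2 + ‖w‖ ^ 2 := by
  rw [EuclideanSpace.norm_sq_eq, EuclideanSpace.norm_sq_eq, EuclideanSpace.norm_sq_eq,
    ← Finset.sum_add_distrib]
  refine Finset.sum_le_sum fun j _ => ?_
  show ‖(if j ∈ s then w j else u j : ℂ)‖ ^ 2 ≤ _
  split_ifs
  · nlinarith [sq_nonneg ‖u j‖]
  · nlinarith [sq_nonneg ‖w j‖]

/-- the lattice `⊕ ℤ · 2πi k_j` -/
def KL (k : Fin N → ℕ) : AddSubgroup (Cn N) where
  carrier := {l | ∀ j, ∃ n : ℤ, l j = n * (k j * (2 * Real.pi * I))}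
  zero_mem' := fun j => ⟨0, by simp⟩
  add_mem' := by
    intro a b ha hb j
    obtain ⟨n, hn⟩ := ha j
    obtain ⟨m, hm⟩ := hb j
    refine ⟨n + m, ?_⟩
    rw [PiLp.add_apply, hn, hm]; push_cast; ring
  neg_mem' := by
    intro a ha j
    obtain ⟨n, hn⟩ := ha j
    refine ⟨-n, ?_⟩
    rw [PiLp.neg_apply, hn]; push_cast; ring

theorem mem_KL {k : Fin N → ℕ} {l : Cn N} :
    l ∈ KL k ↔ ∀ j, ∃ n : ℤ, l j = n * (k j * (2 * Real.pi * I)) := Iff.rfl

theorem ee_add_KL {k : Fin N → ℕ} (c : Fin N → ℂ) {l : Cn N} (hl : l ∈ KL k) (z : Cn N) :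
    ee c (z + l) = ee c z := by
  funext j
  obtain ⟨n, hn⟩ := hl j
  show c j * Complex.exp ((z + l) j) = c j * Complex.exp (z j)
  rw [PiLp.add_apply, Complex.exp_eq_exp_iff_exists_int.2 ⟨n * k j, ?_⟩]
  rw [hn]; push_cast; ring

variable {X : Type*} [MetricSpace X] {Ψ : Cn N → X}

/-- if the generators are periods on the ball `ζ, ρ`, then the whole lattice acts trivially on the
half ball -/
theorem inv_KL {k : Fin N → ℕ} {ζ : Cn N} {ρ : ℝ} (hρ : 0 < ρ)
    (hk : ∀ j, ∀ z ∈ ball ζ ρ, z + EuclideanSpace.single j (k j * (2 * Real.pi * I)) ∈ ball ζ ρ →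
      Ψ (z + EuclideanSpace.single j (k j * (2 * Real.pi * I))) = Ψ z)
    {l : Cn N} (hl : l ∈ KL k) {z : Cn N} (hz : z ∈ ball ζ (ρ / 2)) (hzl : z + l ∈ ball ζ (ρ / 2)) :
    Ψ (z + l) = Ψ z := by
  classical
  choose n hn using hl
  let L : Finset (Fin N) → Cn N := fun s => WithLp.toLp 2 (fun j => if j ∈ s then l j else 0)
  have hL : ∀ s, z + L s ∈ ball ζ ρ := by
    intro s
    rw [mem_ball, dist_eq_norm] at hz hzl ⊢
    have h1 := norm_ite_sq_le s (z - ζ) (z + l - ζ)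
    have h2 : (WithLp.toLp 2 (fun j => if j ∈ s then (z + l - ζ) j else (z - ζ) j) : Cn N) =
        z + L s - ζ := by
      ext j
      show (if j ∈ s then (z + l - ζ) j else (z - ζ) j : ℂ) = z j + (if j ∈ s then l j else 0) - ζ j
      split_ifs
      · rfl
      · simp
    rw [h2] at h1
    have h3 : ‖z - ζ‖ ^ 2 < (ρ / 2) ^ 2 := by gcongr
    have h4 : ‖z + l - ζ‖ ^ 2 < (ρ / 2) ^ 2 := by gcongr
    have h5 : ‖z + L s - ζ‖ ^ 2 < ρ ^ 2 := by nlinarith
    exact (sq_lt_sq₀ (norm_nonneg _) hρ.le).1 h5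
  have key : ∀ s, Ψ (z + L s) = Ψ z := by
    intro s
    induction s using Finset.induction_on with
    | empty =>
      have : L ∅ = 0 := by ext j; simp [L]
      rw [this, add_zero]
    | insert j s hj ih =>
      have h1 : L (insert j s) = L s + n j • EuclideanSpace.single j (k j * (2 * Real.pi * I)) := by
        ext i
        show (if i ∈ insert j s then l i else 0 : ℂ) = (if i ∈ s then l i else 0) +
          (n j • EuclideanSpace.single j ((k j : ℂ) * (2 * Real.pi * I)) : Cn N) i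
        by_cases hij : i = j
        · subst hij
          simp [hj, hn i]
        · simp [hij, Finset.mem_insert]
      have h2 := inv_zsmul (convex_ball ζ ρ) (hk j) (n j) (z + L s) (hL s) (by
        rw [add_assoc, ← h1]; exact hL _)
      rw [h1, ← add_assoc, h2, ih]
  have h6 := key Finset.univ
  have h7 : L Finset.univ = l := by ext j; simp [L]
  rwa [h7] at h6

/-- reduction of the imaginary parts -/
theorem exists_red {k : Fin N → ℕ} {d : ℕ} (hk1 : ∀ j, 1 ≤ k j) (hkd : ∀ j, k j ≤ d) (ζ z : Cn N)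
    {r : ℝ} (hz : ‖reV (z - ζ)‖ < r) :
    ∃ l ∈ KL k, z + l ∈ ball ζ (r + Real.pi * d * √N) := by
  let n : Fin N → ℤ := fun j => round (((z - ζ) j).im / (2 * Real.pi * k j))
  let l : Cn N := WithLp.toLp 2 (fun j => -(n j : ℂ) * (k j * (2 * Real.pi * I)))
  have hl : l ∈ KL k := fun j => ⟨-n j, by
    show -(n j : ℂ) * (k j * (2 * Real.pi * I)) = _
    push_cast; ring⟩
  refine ⟨l, hl, ?_⟩
  rw [mem_ball, dist_eq_norm]
  have h1 : reV (z + l - ζ) = reV (z - ζ) := by
    ext j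
    rw [reV_apply, reV_apply]
    show (z j + -(n j : ℂ) * (k j * (2 * Real.pi * I)) - ζ j).re = (z j - ζ j).re
    simp
  have h2 : ∀ j, |((z + l - ζ) j).im| ≤ Real.pi * d := by
    intro j
    have hkj : (0 : ℝ) < k j := by
      have := hk1 j
      exact_mod_cast this
    have h3 : ((z + l - ζ) j).im = ((z - ζ) j).im - n j * (2 * Real.pi * k j) := by
      show (z j + -(n j : ℂ) * (k j * (2 * Real.pi * I)) - ζ j).im = (z j - ζ j).im - _
      simp
      ring
    have h4 := abs_sub_round (((z - ζ) j).im / (2 * Real.pi * k j))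
    have h5 : 0 < 2 * Real.pi * k j := by positivity
    have h6 : ((z - ζ) j).im - n j * (2 * Real.pi * k j) =
        (((z - ζ) j).im / (2 * Real.pi * k j) - n j) * (2 * Real.pi * k j) := by
      field_simp
    rw [h3, h6, abs_mul, abs_of_pos h5]
    have h7 : (k j : ℝ) ≤ d := by exact_mod_cast hkd j
    calc |((z - ζ) j).im / (2 * Real.pi * k j) - n j| * (2 * Real.pi * k j)
        ≤ 1 / 2 * (2 * Real.pi * k j) := by gcongr
      _ = Real.pi * k j := by ring
      _ ≤ Real.pi * d := by gcongr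
  have h8 : ‖imV (z + l - ζ)‖ ≤ Real.pi * d * √N := by
    rw [EuclideanSpace.norm_eq]
    have h9 : ∑ j, ‖imV (z + l - ζ) j‖ ^ 2 ≤ ∑ j : Fin N, (Real.pi * d) ^ 2 := by
      refine Finset.sum_le_sum fun j _ => ?_
      rw [imV_apply, Real.norm_eq_abs]
      exact pow_le_pow_left₀ (abs_nonneg _) (h2 j) 2
    rw [Finset.sum_const, Finset.card_univ, Fintype.card_fin, nsmul_eq_mul] at h9
    calc √(∑ j, ‖imV (z + l - ζ) j‖ ^ 2) ≤ √(N * (Real.pi * d) ^ 2) := Real.sqrt_le_sqrt h9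
      _ = Real.pi * d * √N := by
        rw [Real.sqrt_mul (by positivity), Real.sqrt_sq (by positivity)]; ring
  calc ‖z + l - ζ‖ ≤ ‖reV (z + l - ζ)‖ + ‖imV (z + l - ζ)‖ := norm_le_re_im _
    _ < r + Real.pi * d * √N := by rw [h1]; linarith

/-- **The strip.** `Ψ` is a lift on the ball `ζ, ρ`, the fibres of `f` in `U` have at most `d` points
and `ρ` is large: `Ψ` extends to a whole strip `‖Re (z - ζ)‖ < r`, and is injective modulo a
lattice `Λ ⊆ 2πi ℤ^N` containing `2πi k_j e_j`, `1 ≤ k_j ≤ d`. -/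
theorem strip {f : X → (Fin N → ℂ)} {c : Fin N → ℂ} {C : ℝ} {U : Set X} {ζ : Cn N} {ρ r : ℝ}
    {d : ℕ} (hc : ∀ j, c j ≠ 0) (hU : IsOpen U) (hf : HasLog f (ee c) C U)
    (h : IsLift f (ee c) U (ball ζ ρ) Ψ)
    (hd : ∀ (q : Fin N → ℂ) (s : Finset X), (∀ x ∈ s, x ∈ U ∧ f x = q) → s.card ≤ d)
    (hr : 0 < r) (hρ : 2 * (r + Real.pi * d * √N) ≤ ρ) :
    ∃ (Λ : AddSubgroup (Cn N)) (Ψ' : Cn N → X) (k : Fin N → ℕ),
      (∀ j, 1 ≤ k j ∧ k j ≤ d) ∧ KL k ≤ Λ ∧ Λ ≤ KL (fun _ : Fin N => 1) ∧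
      IsLift f (ee c) U (St ζ r) Ψ' ∧
      EqOn Ψ' Ψ (ball ζ (ρ / 2) ∩ St ζ r) ∧
      (∀ l ∈ Λ, ∀ z ∈ St ζ r, z + l ∈ St ζ r ∧ Ψ' (z + l) = Ψ' z) ∧
      (∀ z ∈ St ζ r, ∀ w ∈ St ζ r, Ψ' z = Ψ' w ↔ z - w ∈ Λ) := by
  classical
  have hi : LocInj (ee c) := locInj_ee hc
  have hρ0 : 0 < ρ := by
    have : 0 ≤ Real.pi * d * √N := by positivity
    linarith
  -- periods in the coordinate directions
  have hper : ∀ j : Fin N, ∃ k : ℕ, 1 ≤ k ∧ k ≤ d ∧ ∀ z ∈ ball ζ ρ,
      z + EuclideanSpace.single j (k * (2 * Real.pi * I)) ∈ ball ζ ρ →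
      Ψ (z + EuclideanSpace.single j (k * (2 * Real.pi * I))) = Ψ z := by
    intro j
    have hl : ∀ z, ee c (z + EuclideanSpace.single j (2 * Real.pi * I)) = ee c z := by
      intro z
      refine ee_add_KL (k := fun _ => 1) c ?_ z
      intro i
      by_cases hij : i = j
      · subst hij
        exact ⟨1, by simp⟩
      · exact ⟨0, by simp [hij]⟩
    have hmul : ∀ i : ℕ, (i • EuclideanSpace.single j (2 * Real.pi * I : ℂ) : Cn N) =
        EuclideanSpace.single j (i * (2 * Real.pi * I)) := by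
      intro i
      ext m
      by_cases hmj : m = j
      · subst hmj; simp
      · simp [hmj]
    obtain ⟨k, hk1, hkd, hk⟩ := pigeon hU hi hf (convex_ball ζ ρ) h hl hd (z₀ := ζ) (by
      intro i hi'
      rw [hmul, mem_ball, dist_eq_norm, add_sub_cancel_left, PiLp.norm_single]
      have h4 : ‖(i : ℂ) * (2 * Real.pi * I)‖ = i * (2 * Real.pi) := by
        rw [norm_mul, norm_mul, norm_mul, Complex.norm_I, mul_one, Complex.norm_natCast,
          Complex.norm_real, Real.norm_eq_abs, abs_of_pos Real.pi_pos]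
        norm_num
      rw [h4]
      have h5 : (i : ℝ) ≤ d := by exact_mod_cast hi'
      have h6 : (1 : ℝ) ≤ √N := by
        rw [Real.one_le_sqrt]
        have : 0 < N := Fin.pos j
        exact_mod_cast this
      have h7 : Real.pi * d * 1 ≤ Real.pi * d * √N := by gcongr
      calc (i : ℝ) * (2 * Real.pi) ≤ d * (2 * Real.pi) := by gcongr
        _ = 2 * (Real.pi * d * 1) := by ring
        _ ≤ 2 * (Real.pi * d * √N) := by linarith
        _ < 2 * (r + Real.pi * d * √N) := by linarith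
        _ ≤ ρ := hρ)
    refine ⟨k, hk1, hkd, ?_⟩
    rw [hmul] at hk
    exact hk
  choose k hk1 hkd hk using hper
  have hinv : ∀ l ∈ KL k, ∀ z, z ∈ ball ζ (ρ / 2) → z + l ∈ ball ζ (ρ / 2) → Ψ (z + l) = Ψ z :=
    fun l hl z hz hzl => inv_KL hρ0 hk hl hz hzl
  have hred : ∀ z ∈ St ζ r, ∃ l ∈ KL k, z + l ∈ ball ζ (ρ / 2) := by
    intro z hz
    obtain ⟨l, hl, hzl⟩ := exists_red hk1 hkd ζ z hz
    exact ⟨l, hl, ball_subset_ball (by linarith) hzl⟩
  have hred' : ∀ z, ∃ l, z ∈ St ζ r → l ∈ KL k ∧ z + l ∈ ball ζ (ρ / 2) := by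
    intro z
    by_cases hz : z ∈ St ζ r
    · obtain ⟨l, hl, hzl⟩ := hred z hz
      exact ⟨l, fun _ => ⟨hl, hzl⟩⟩
    · exact ⟨0, fun h => absurd h hz⟩
  choose R hR using hred'
  let Ψ' : Cn N → X := fun z => Ψ (z + R z)
  have hΨ' : ∀ z ∈ St ζ r, ∀ l ∈ KL k, z + l ∈ ball ζ (ρ / 2) → Ψ' z = Ψ (z + l) := by
    intro z hz l hl hzl
    obtain ⟨h1, h2⟩ := hR z hz
    have h3 := hinv (l - R z) ((KL k).sub_mem hl h1) (z + R z) h2 (by
      have : z + R z + (l - R z) = z + l := by abel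
      rw [this]; exact hzl)
    have h4 : z + R z + (l - R z) = z + l := by abel
    rw [h4] at h3
    exact h3.symm
  have hsub : ball ζ (ρ / 2) ⊆ ball ζ ρ := ball_subset_ball (by linarith)
  have hlift : IsLift f (ee c) U (St ζ r) Ψ' := by
    refine ⟨?_, ?_, ?_⟩
    · intro z hz
      apply ContinuousAt.continuousWithinAt
      obtain ⟨h1, h2⟩ := hR z hz
      have hev : ∀ᶠ w in 𝓝 z, Ψ (w + R z) = Ψ' w := by
        have h3 : ∀ᶠ w in 𝓝 z, w + R z ∈ ball ζ (ρ / 2) :=
          (continuous_id.add continuous_const).continuousAt.eventually (isOpen_ball.mem_nhds h2)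
        filter_upwards [h3, (isOpen_St ζ r).mem_nhds hz] with w hw hw'
        exact (hΨ' w hw' (R z) h1 hw).symm
      refine ContinuousAt.congr ?_ hev
      have h5 : ContinuousAt Ψ (z + R z) := h.cont.continuousAt (isOpen_ball.mem_nhds (hsub h2))
      exact ContinuousAt.comp (f := fun w => w + R z) h5 (by fun_prop)
    · intro z hz
      exact h.mem _ (hsub (hR z hz).2)
    · intro z hz
      obtain ⟨h1, h2⟩ := hR z hz
      show f (Ψ (z + R z)) = ee c z
      rw [h.eq _ (hsub h2), ee_add_KL c h1]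
  have hKSt : ∀ l ∈ KL (fun _ : Fin N => 1), ∀ z ∈ St ζ r, z + l ∈ St ζ r := by
    intro l hl z hz
    have h1 : reV l = 0 := by
      ext j
      obtain ⟨n, hn⟩ := hl j
      rw [reV_apply, hn]; simp
    show ‖reV (z + l - ζ)‖ < r
    have h2 : z + l - ζ = (z - ζ) + l := by abel
    rw [h2, map_add, h1, add_zero]
    exact hz
  -- the period group
  let Λ : AddSubgroup (Cn N) :=
    { carrier := {l | l ∈ KL (fun _ : Fin N => 1) ∧ ∀ z ∈ St ζ r, Ψ' (z + l) = Ψ' z}
      zero_mem' := ⟨zero_mem _, fun z _ => by rw [add_zero]⟩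
      add_mem' := by
        rintro a b ⟨ha, ha'⟩ ⟨hb, hb'⟩
        refine ⟨add_mem ha hb, fun z hz => ?_⟩
        rw [← add_assoc, hb' _ (hKSt a ha z hz), ha' z hz]
      neg_mem' := by
        rintro a ⟨ha, ha'⟩
        refine ⟨neg_mem ha, fun z hz => ?_⟩
        have h1 := ha' (z + -a) (hKSt (-a) (neg_mem ha) z hz)
        rw [neg_add_cancel_right] at h1
        exact h1.symm }
  have hKk : KL k ≤ KL (fun _ : Fin N => 1) := by
    intro l hl j
    obtain ⟨n, hn⟩ := hl j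
    exact ⟨n * k j, by rw [hn]; push_cast; ring⟩
  refine ⟨Λ, Ψ', k, fun j => ⟨hk1 j, hkd j⟩, ?_, fun l hl => hl.1, hlift, ?_, ?_, ?_⟩
  · intro l hl
    refine ⟨hKk hl, fun z hz => ?_⟩
    obtain ⟨h1, h2⟩ := hR z hz
    have h3 := hΨ' (z + l) (hKSt l (hKk hl) z hz) (R z - l) ((KL k).sub_mem h1 hl) (by
      have : z + l + (R z - l) = z + R z := by abel
      rw [this]; exact h2)
    have h4 : z + l + (R z - l) = z + R z := by abel
    rw [h3, h4]
  · intro z hz
    have := hΨ' z hz.2 0 (zero_mem _) (by rw [add_zero]; exact hz.1)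
    rw [this, add_zero]
  · intro l hl z hz
    exact ⟨hKSt l hl.1 z hz, hl.2 z hz⟩
  · intro z hz w hw
    constructor
    · intro hzw
      have h1 : ee c z = ee c w := by
        rw [← hlift.eq z hz, ← hlift.eq w hw, hzw]
      have h2 : z - w ∈ KL (fun _ : Fin N => 1) := by
        intro j
        obtain ⟨n, hn⟩ := (ee_eq_iff hc z w).1 h1 j
        exact ⟨n, by rw [PiLp.sub_apply, hn]; simp⟩
      refine ⟨h2, ?_⟩
      intro u hu
      have h3 := inv_of_one hU hi hf (convex_St ζ r) hlift (l := z - w)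
        (fun v => ee_add_KL c h2 v) (z₁ := w) hw (by rw [add_sub_cancel]; exact hz)
        (by rw [add_sub_cancel]; exact hzw)
      exact h3 u hu (hKSt _ h2 u hu)
    · intro hl
      have h1 := hl.2 w hw
      rw [add_sub_cancel] at h1
      exact h1

end Coord

end

end Crest.Agent.R281.Tube_242
end

-- ▼ part R281/Tube3_242

/-!
# R281, S-TUBE part 3 (helper242): standard coordinates on the strip modulo its lattice
-/

set_option autoImplicit false
set_option linter.unusedSectionVars false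

open Set Filter Topology Metric Complex

namespace Crest.Agent.R281.Tube_242

noncomputable section

variable {N : ℕ}

/-- `i y` for a real vector `y` -/
def iV (y : Fin N → ℝ) : Cn N := WithLp.toLp 2 (fun j => (y j : ℂ) * I)

@[simp] theorem iV_apply (y : Fin N → ℝ) (j : Fin N) : iV y j = (y j : ℂ) * I := rfl

theorem iV_add (y y' : Fin N → ℝ) : iV (y + y') = iV y + iV y' := by
  ext j; simp [add_mul]

theorem iV_zsmul (n : ℤ) (y : Fin N → ℝ) : iV (n • y) = n • iV y := by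
  ext j; simp [mul_assoc]

/-- the real lattice attached to `Λ` -/
def LL (Λ : AddSubgroup (Cn N)) : Submodule ℤ (Fin N → ℝ) where
  carrier := {y | iV y ∈ Λ}
  zero_mem' := by
    have : iV (0 : Fin N → ℝ) = 0 := by ext j; simp
    show iV (0 : Fin N → ℝ) ∈ Λ
    rw [this]; exact zero_mem _
  add_mem' := by
    intro a b ha hb
    show iV (a + b) ∈ Λ
    rw [iV_add]; exact add_mem ha hb
  smul_mem' := by
    intro n a ha
    show iV (n • a) ∈ Λ
    rw [iV_zsmul]; exact Λ.zsmul_mem ha n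

theorem mem_LL {Λ : AddSubgroup (Cn N)} {y : Fin N → ℝ} : y ∈ LL Λ ↔ iV y ∈ Λ := Iff.rfl

theorem discrete_LL {Λ : AddSubgroup (Cn N)} (h : Λ ≤ KL (fun _ => 1)) :
    DiscreteTopology (LL Λ) := by
  apply discreteTopology_of_isOpen_singleton_zero
  have h1 : ({0} : Set (LL Λ)) = {y : LL Λ | ‖(y : Fin N → ℝ)‖ < 1} := by
    ext y
    simp only [mem_singleton_iff, mem_ofPred_eq]
    constructor
    · rintro rfl; simp
    · intro hy
      apply Subtype.ext
      funext j
      obtain ⟨n, hn⟩ := h y.2 j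
      rw [iV_apply] at hn
      have h2 : ((y : Fin N → ℝ) j) = n * (2 * Real.pi) := by
        have h3 : (((y : Fin N → ℝ) j : ℂ) * I).im = ((n : ℂ) * ((1 : ℕ) * (2 * Real.pi * I))).im := by
          rw [hn]
        simpa using h3
      have h4 : |((y : Fin N → ℝ) j)| < 1 := by
        rw [← Real.norm_eq_abs]
        exact (norm_le_pi_norm (y : Fin N → ℝ) j).trans_lt hy
      have h5 : n = 0 := by
        by_contra hne
        have h6 : (1 : ℝ) ≤ |(n : ℝ)| := by
          have := Int.one_le_abs hne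
          exact_mod_cast this
        rw [h2, abs_mul, abs_of_pos (by positivity : (0 : ℝ) < 2 * Real.pi)] at h4
        nlinarith [Real.pi_gt_three]
      rw [h2, h5]; simp
  rw [h1]
  exact isOpen_lt (by fun_prop) continuous_const

theorem isZLattice_LL {Λ : AddSubgroup (Cn N)} {k : Fin N → ℕ} (hk : ∀ j, 1 ≤ k j)
    (h : KL k ≤ Λ) : Submodule.span ℝ (LL Λ : Set (Fin N → ℝ)) = ⊤ := by
  classical
  rw [eq_top_iff, ← (Pi.basisFun ℝ (Fin N)).span_eq, Submodule.span_le]
  rintro _ ⟨j, rfl⟩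
  rw [Pi.basisFun_apply]
  have h1 : (Pi.single j (2 * Real.pi * k j) : Fin N → ℝ) ∈ LL Λ := by
    rw [mem_LL]
    apply h
    intro i
    rw [iV_apply]
    by_cases hij : i = j
    · subst hij
      refine ⟨1, ?_⟩
      rw [Pi.single_eq_same]; push_cast; ring
    · refine ⟨0, ?_⟩
      rw [Pi.single_eq_of_ne hij]; simp
  have hkj : (0 : ℝ) < k j := by
    have := hk j
    exact_mod_cast this
  have h2 : (Pi.single j 1 : Fin N → ℝ) =
      (2 * Real.pi * k j)⁻¹ • (Pi.single j (2 * Real.pi * k j) : Fin N → ℝ) := by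
    funext i
    by_cases hij : i = j
    · subst hij
      rw [Pi.smul_apply, Pi.single_eq_same, Pi.single_eq_same, smul_eq_mul,
        inv_mul_cancel₀ (by positivity)]
    · rw [Pi.smul_apply, Pi.single_eq_of_ne hij, Pi.single_eq_of_ne hij, smul_zero]
  rw [h2]
  exact Submodule.smul_mem _ _ (Submodule.subset_span h1)

/-- a basis of the lattice -/
theorem exists_basis {Λ : AddSubgroup (Cn N)} {k : Fin N → ℕ} (hk : ∀ j, 1 ≤ k j)
    (h : KL k ≤ Λ) (h' : Λ ≤ KL (fun _ => 1)) :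
    ∃ A : (Fin N → ℝ) ≃L[ℝ] (Fin N → ℝ), ∀ θ : Fin N → ℝ,
      iV (A θ) ∈ Λ ↔ ∀ j, ∃ n : ℤ, θ j = n := by
  have h1 : DiscreteTopology (LL Λ) := discrete_LL h'
  have h2 : IsZLattice ℝ (LL Λ) := ⟨isZLattice_LL hk h⟩
  let b := IsZLattice.basis (LL Λ)
  let B := b.ofZLatticeBasis ℝ (LL Λ)
  refine ⟨B.equivFunL.symm, ?_⟩
  intro θ
  rw [← mem_LL]
  have h3 : (B.equivFunL.symm θ ∈ LL Λ) ↔ B.equivFunL.symm θ ∈ Submodule.span ℤ (Set.range B) := by
    rw [b.ofZLatticeBasis_span ℝ]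
  rw [h3, B.mem_span_iff_repr_mem ℤ]
  have h4 : ∀ i, B.repr (B.equivFunL.symm θ) i = θ i := by
    intro i
    have := congrFun (B.equivFunL.apply_symm_apply θ) i
    exact this
  simp only [h4]
  constructor
  · intro h5 j
    obtain ⟨n, hn⟩ := h5 j
    exact ⟨n, by simpa using hn.symm⟩
  · intro h5 j
    obtain ⟨n, hn⟩ := h5 j
    exact ⟨n, by simpa using hn.symm⟩

/-- the admissible lattices -/
def Adm (N d : ℕ) : Set (AddSubgroup (Cn N)) :=
  {Λ | (∃ k : Fin N → ℕ, (∀ j, 1 ≤ k j ∧ k j ≤ d) ∧ KL k ≤ Λ) ∧ Λ ≤ KL (fun _ => 1)}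

theorem finite_Adm (N d : ℕ) : (Adm N d).Finite := by
  classical
  let D : ℕ := d.factorial
  have hD : 0 < D := d.factorial_pos
  let S : AddSubgroup (Cn N) → Set (Fin N → Fin D) := fun Λ =>
    {m | iV (fun j => 2 * Real.pi * ((m j : ℕ) : ℝ)) ∈ Λ}
  have hinj : InjOn S (Adm N d) := by
    have key : ∀ Λ ∈ Adm N d, ∀ Λ' ∈ Adm N d, S Λ ⊆ S Λ' → Λ ≤ Λ' := by
      rintro Λ ⟨⟨k, hk, hkL⟩, hL⟩ Λ' ⟨⟨k', hk', hkL'⟩, hL'⟩ hS l hl
      choose n hn using hL hl
      -- reduce modulo `D`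
      have hK : ∀ (k : Fin N → ℕ), (∀ j, 1 ≤ k j ∧ k j ≤ d) → ∀ q : Fin N → ℤ,
          iV (fun j => 2 * Real.pi * ((D * q j : ℤ) : ℝ)) ∈ KL k := by
        intro k hk q j
        obtain ⟨a, ha⟩ := Nat.dvd_factorial (hk j).1 (hk j).2
        refine ⟨a * q j, ?_⟩
        rw [iV_apply]
        have : (D : ℤ) = k j * a := by
          show ((d.factorial : ℕ) : ℤ) = _
          rw [ha]; push_cast; ring
        rw [this]; push_cast; ring
      let q : Fin N → ℤ := fun j => n j / D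
      let m : Fin N → Fin D := fun j => ⟨(n j % D).toNat, by
        have h1 := Int.emod_lt_of_pos (n j) (by exact_mod_cast hD : (0 : ℤ) < D)
        have h2 := Int.emod_nonneg (n j) (by exact_mod_cast hD.ne' : (D : ℤ) ≠ 0)
        omega⟩
      have hm : ∀ j, (((m j : ℕ) : ℤ)) = n j % D := by
        intro j
        show (((n j % D).toNat : ℕ) : ℤ) = _
        exact Int.toNat_of_nonneg (Int.emod_nonneg _ (by exact_mod_cast hD.ne'))
      have hdec : l = iV (fun j => 2 * Real.pi * ((m j : ℕ) : ℝ)) +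
          iV (fun j => 2 * Real.pi * ((D * q j : ℤ) : ℝ)) := by
        ext j
        rw [PiLp.add_apply, iV_apply, iV_apply, hn j]
        have h3 : ((m j : ℕ) : ℝ) = ((n j % D : ℤ) : ℝ) := by
          rw [← hm j]; push_cast; ring
        have h4 : n j = n j % D + D * q j := (Int.emod_add_mul_ediv (n j) D).symm
        rw [h3]
        have h5 : (n j : ℂ) = ((n j % D : ℤ) : ℂ) + ((D * q j : ℤ) : ℂ) := by
          rw [← Int.cast_add, ← h4]
        rw [h5]; push_cast; ring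
      have h6 : iV (fun j => 2 * Real.pi * ((m j : ℕ) : ℝ)) ∈ Λ := by
        have h7 := Λ.sub_mem hl (hkL (hK k hk q))
        rw [hdec, add_sub_cancel_right] at h7
        exact h7
      have h8 : m ∈ S Λ' := hS h6
      rw [hdec]
      exact Λ'.add_mem h8 (hkL' (hK k' hk' q))
    intro Λ hΛ Λ' hΛ' hS
    exact le_antisymm (key Λ hΛ Λ' hΛ' hS.subset) (key Λ' hΛ' Λ hΛ hS.symm.subset)
  exact Set.Finite.of_injOn (f := S) (mapsTo_univ _ _) hinj Set.finite_univ

/-- bases with uniform bounds -/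
theorem exists_basis_bdd (N d : ℕ) : ∃ M : ℝ, 0 < M ∧ ∀ Λ ∈ Adm N d,
    ∃ A : (Fin N → ℝ) ≃L[ℝ] (Fin N → ℝ),
      ‖(A : (Fin N → ℝ) →L[ℝ] (Fin N → ℝ))‖ ≤ M ∧
      ‖(A.symm : (Fin N → ℝ) →L[ℝ] (Fin N → ℝ))‖ ≤ M ∧
      ∀ θ : Fin N → ℝ, iV (A θ) ∈ Λ ↔ ∀ j, ∃ n : ℤ, θ j = n := by
  classical
  have h : ∀ Λ : AddSubgroup (Cn N), ∃ A : (Fin N → ℝ) ≃L[ℝ] (Fin N → ℝ), Λ ∈ Adm N d →
      ∀ θ : Fin N → ℝ, iV (A θ) ∈ Λ ↔ ∀ j, ∃ n : ℤ, θ j = n := by
    intro Λ
    by_cases hΛ : Λ ∈ Adm N d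
    · obtain ⟨⟨k, hk, hkL⟩, hL⟩ := hΛ
      obtain ⟨A, hA⟩ := exists_basis (fun j => (hk j).1) hkL hL
      exact ⟨A, fun _ => hA⟩
    · exact ⟨ContinuousLinearEquiv.refl ℝ _, fun h => absurd h hΛ⟩
  choose A hA using h
  obtain ⟨M₁, hM₁⟩ := ((finite_Adm N d).image fun Λ =>
    ‖(A Λ : (Fin N → ℝ) →L[ℝ] (Fin N → ℝ))‖).bddAbove
  obtain ⟨M₂, hM₂⟩ := ((finite_Adm N d).image fun Λ =>
    ‖((A Λ).symm : (Fin N → ℝ) →L[ℝ] (Fin N → ℝ))‖).bddAbove
  refine ⟨max 1 (max M₁ M₂), by positivity, ?_⟩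
  intro Λ hΛ
  refine ⟨A Λ, ?_, ?_, hA Λ hΛ⟩
  · exact (hM₁ ⟨Λ, hΛ, rfl⟩).trans ((le_max_left _ _).trans (le_max_right _ _))
  · exact (hM₂ ⟨Λ, hΛ, rfl⟩).trans ((le_max_right _ _).trans (le_max_right _ _))

end

end Crest.Agent.R281.Tube_242
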