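import Crest.Agent.R281.TorD_922
import Crest.Agent.R281.SIn_14
import Crest.Agent.R281.Tube3_242
import Crest.Agent.R281.Mc5_673
import Mathlib
import Crest.Agent.R281.Per7_368
import Crest.Agent.R281.T5D_808
import Crest.Agent.R281.T5M_808
import Crest.Agent.R281.F2Mod_358
import Crest.Agent.R281.Cdr2_234
import Crest.Agent.R281.Qg4_770
import Crest.Agent.R281.Cdr10_234
import Crest.Agent.R281.RkD_902
import Crest.Agent.R281.Mem1_69
import Crest.Agent.R281.Sta2_684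
import Crest.Agent.R281.HkM2_835

-- ▼ part R281/T5L_808
section

/-!
# R281, T5-ASM (helper808), part 4: the lattice and the real coordinates

* `exists_basisPi` : uniformly bounded bases of the lattices `d! 2πi ℤ^N ⊆ Lam ⊆ 2πi ℤ^N`
* `TT A`           : `(θ, v) ↦ v + i A θ`, `W N → ℂ^N`, with bounds of `TT A` and of its inverse
* `TT_sub_mem`     : `TT A p - TT A q ∈ Lam ↔ p = q` modulo `ℤ^N` in the first variable
-/

set_option autoImplicit false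
set_option maxSynthPendingDepth 3

open Set Filter Topology Metric Complex
open scoped ContDiff ComplexConjugate

namespace Crest.Agent.R281.T5L_808

open Crest.Agent.R281.Mc673 Crest.Agent.R281.Tor_922
open Crest.Agent.R281.Tube_242 (KL mem_KL Adm iV iV_apply exists_basis_bdd)
open Crest.Agent.R275.Geo (Cn)

noncomputable section

variable {N : ℕ}

/-- the lattice seen in `Cn N` -/
def cnLat (Lam : AddSubgroup (Fin N → ℂ)) : AddSubgroup (Cn N) where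
  carrier := {z | WithLp.ofLp z ∈ Lam}
  add_mem' {a b} ha hb := by
    show WithLp.ofLp (a + b) ∈ Lam
    rw [WithLp.ofLp_add]; exact Lam.add_mem ha hb
  zero_mem' := by
    show WithLp.ofLp (0 : Cn N) ∈ Lam
    rw [WithLp.ofLp_zero]; exact Lam.zero_mem
  neg_mem' {a} ha := by
    show WithLp.ofLp (-a) ∈ Lam
    rw [WithLp.ofLp_neg]; exact Lam.neg_mem ha

theorem mem_cnLat {Lam : AddSubgroup (Fin N → ℂ)} {z : Cn N} :
    z ∈ cnLat Lam ↔ WithLp.ofLp z ∈ Lam := Iff.rfl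

theorem cnLat_adm {Lam : AddSubgroup (Fin N → ℂ)} {d : ℕ} (h1 : Lam ≤ lat (Fin N))
    (h2 : ∀ lam ∈ lat (Fin N), d.factorial • lam ∈ Lam) : cnLat Lam ∈ Adm N d.factorial := by
  refine ⟨⟨fun _ => d.factorial, fun _ => ⟨Nat.factorial_pos d, le_refl _⟩, ?_⟩, ?_⟩
  · intro z hz
    rw [mem_KL] at hz
    rw [mem_cnLat]
    choose n hn using hz
    have h3 : (fun j => (n j : ℂ) * (2 * Real.pi * I)) ∈ lat (Fin N) := fun j => ⟨n j, rfl⟩
    have h4 := h2 _ h3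
    have h5 : WithLp.ofLp z = d.factorial • fun j => (n j : ℂ) * (2 * Real.pi * I) := by
      funext j
      rw [Pi.smul_apply, hn j, nsmul_eq_mul]
      ring
    rw [h5]; exact h4
  · intro z hz
    rw [mem_cnLat] at hz
    rw [mem_KL]
    intro j
    obtain ⟨k, hk⟩ := h1 hz j
    refine ⟨k, ?_⟩
    rw [Nat.cast_one, one_mul]
    exact hk

/-- **bases with uniform bounds** -/
theorem exists_basisPi (N d : ℕ) : ∃ M : ℝ, 0 < M ∧ ∀ Lam : AddSubgroup (Fin N → ℂ),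
    Lam ≤ lat (Fin N) → (∀ lam ∈ lat (Fin N), d.factorial • lam ∈ Lam) →
    ∃ A : (Fin N → ℝ) ≃L[ℝ] (Fin N → ℝ),
      ‖(A : (Fin N → ℝ) →L[ℝ] (Fin N → ℝ))‖ ≤ M ∧
      ‖(A.symm : (Fin N → ℝ) →L[ℝ] (Fin N → ℝ))‖ ≤ M ∧
      ∀ θ : Fin N → ℝ, (fun j => ((A θ j : ℝ) : ℂ) * I) ∈ Lam ↔ ∀ j, ∃ n : ℤ, θ j = n := by
  obtain ⟨M, hM, h⟩ := exists_basis_bdd N d.factorial
  refine ⟨M, hM, fun Lam h1 h2 => ?_⟩
  obtain ⟨A, hA1, hA2, hA3⟩ := h _ (cnLat_adm h1 h2)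
  refine ⟨A, hA1, hA2, fun θ => ?_⟩
  rw [← hA3 θ]
  exact Iff.rfl

/-- `(θ, v) ↦ v + i A θ` -/
def TT (A : (Fin N → ℝ) ≃L[ℝ] (Fin N → ℝ)) : W N →L[ℝ] (Fin N → ℂ) :=
  LinearMap.toContinuousLinearMap
    { toFun := fun p j => ((p.2 j : ℝ) : ℂ) + ((A (WithLp.ofLp p.1) j : ℝ) : ℂ) * I
      map_add' := by
        intro p q
        funext j
        simp only [Prod.snd_add, Prod.fst_add, WithLp.ofLp_add, map_add, Pi.add_apply,
          PiLp.add_apply]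
        push_cast; ring
      map_smul' := by
        intro c p
        funext j
        simp only [Prod.smul_snd, Prod.smul_fst, WithLp.ofLp_smul, map_smul, Pi.smul_apply,
          PiLp.smul_apply, smul_eq_mul, RingHom.id_apply, Complex.real_smul]
        push_cast; ring }

variable {A : (Fin N → ℝ) ≃L[ℝ] (Fin N → ℝ)}

theorem TT_apply (p : W N) (j : Fin N) :
    TT A p j = ((p.2 j : ℝ) : ℂ) + ((A (WithLp.ofLp p.1) j : ℝ) : ℂ) * I := rfl

theorem TT_re (p : W N) (j : Fin N) : (TT A p j).re = p.2 j := by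
  rw [TT_apply]; simp

theorem TT_im (p : W N) (j : Fin N) : (TT A p j).im = A (WithLp.ofLp p.1) j := by
  rw [TT_apply]; simp

/-- the inverse -/
def TI (A : (Fin N → ℝ) ≃L[ℝ] (Fin N → ℝ)) (z : Fin N → ℂ) : W N :=
  (WithLp.toLp 2 (A.symm fun j => (z j).im), WithLp.toLp 2 fun j => (z j).re)

theorem TT_TI (z : Fin N → ℂ) : TT A (TI A z) = z := by
  funext j
  apply Complex.ext
  · rw [TT_re]; rfl
  · rw [TT_im]
    show A (A.symm _) j = _
    rw [A.apply_symm_apply]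

theorem TI_TT (p : W N) : TI A (TT A p) = p := by
  refine Prod.ext ?_ ?_
  · show WithLp.toLp 2 (A.symm fun j => (TT A p j).im) = p.1
    have : (fun j => (TT A p j).im) = A (WithLp.ofLp p.1) := funext fun j => TT_im p j
    rw [this, A.symm_apply_apply]
  · show WithLp.toLp 2 (fun j => (TT A p j).re) = p.2
    have : (fun j => (TT A p j).re) = WithLp.ofLp p.2 := funext fun j => TT_re p j
    rw [this]

theorem norm_TT_le {M : ℝ} (hA : ‖(A : (Fin N → ℝ) →L[ℝ] (Fin N → ℝ))‖ ≤ M) :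
    ‖TT A‖ ≤ 1 + M := by
  have hM : 0 ≤ M := (norm_nonneg _).trans hA
  refine ContinuousLinearMap.opNorm_le_bound _ (by positivity) fun p => ?_
  refine (pi_norm_le_iff_of_nonneg (by positivity)).2 fun j => ?_
  rw [TT_apply]
  have h1 : ‖((p.2 j : ℝ) : ℂ)‖ ≤ ‖p‖ := by
    rw [Complex.norm_real]
    exact (PiLp.norm_apply_le p.2 j).trans (norm_snd_le p)
  have h2 : ‖((A (WithLp.ofLp p.1) j : ℝ) : ℂ) * I‖ ≤ M * ‖p‖ := by
    rw [norm_mul, Complex.norm_I, mul_one, Complex.norm_real]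
    have h3 : ‖A (WithLp.ofLp p.1)‖ ≤ M * ‖WithLp.ofLp p.1‖ :=
      ((A : (Fin N → ℝ) →L[ℝ] (Fin N → ℝ)).le_opNorm _).trans (by gcongr)
    have h4 : ‖WithLp.ofLp p.1‖ ≤ ‖p.1‖ :=
      (pi_norm_le_iff_of_nonneg (norm_nonneg _)).2 fun i => PiLp.norm_apply_le p.1 i
    calc ‖A (WithLp.ofLp p.1) j‖ ≤ ‖A (WithLp.ofLp p.1)‖ := norm_le_pi_norm _ j
      _ ≤ M * ‖WithLp.ofLp p.1‖ := h3
      _ ≤ M * ‖p‖ := by gcongr; exact h4.trans (norm_fst_le p)
  calc ‖((p.2 j : ℝ) : ℂ) + ((A (WithLp.ofLp p.1) j : ℝ) : ℂ) * I‖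
      ≤ ‖((p.2 j : ℝ) : ℂ)‖ + ‖((A (WithLp.ofLp p.1) j : ℝ) : ℂ) * I‖ := norm_add_le _ _
    _ ≤ (1 + M) * ‖p‖ := by linarith

/-- Euclidean norm and sup norm -/
theorem norm_toLp_le (v : Fin N → ℝ) : ‖(WithLp.toLp 2 v : V N)‖ ≤ N * ‖v‖ := by
  have h1 : (WithLp.toLp 2 v : V N) = ∑ j, v j • (EuclideanSpace.single j (1 : ℝ) : V N) := by
    ext i
    simp [Finset.sum_apply, Pi.single_apply]
  rw [h1]
  refine (norm_sum_le _ _).trans ?_
  calc ∑ j, ‖v j • (EuclideanSpace.single j (1 : ℝ) : V N)‖ ≤ ∑ _j : Fin N, ‖v‖ := by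
        refine Finset.sum_le_sum fun j _ => ?_
        rw [norm_smul, PiLp.norm_single, norm_one, mul_one]
        exact norm_le_pi_norm v j
    _ = N * ‖v‖ := by simp

theorem norm_TI_le {M : ℝ} (hA : ‖(A.symm : (Fin N → ℝ) →L[ℝ] (Fin N → ℝ))‖ ≤ M)
    (z : Fin N → ℂ) : ‖TI A z‖ ≤ N * (1 + M) * ‖z‖ := by
  have hM : 0 ≤ M := (norm_nonneg _).trans hA
  have him : ‖fun j => (z j).im‖ ≤ ‖z‖ :=
    (pi_norm_le_iff_of_nonneg (norm_nonneg _)).2 fun j =>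
      ((Complex.abs_im_le_norm (z j))).trans (norm_le_pi_norm z j)
  have hre : ‖fun j => (z j).re‖ ≤ ‖z‖ :=
    (pi_norm_le_iff_of_nonneg (norm_nonneg _)).2 fun j =>
      ((Complex.abs_re_le_norm (z j))).trans (norm_le_pi_norm z j)
  refine max_le ?_ ?_
  · show ‖(WithLp.toLp 2 (A.symm fun j => (z j).im) : V N)‖ ≤ _
    refine (norm_toLp_le _).trans ?_
    rw [mul_assoc]
    gcongr
    calc ‖A.symm fun j => (z j).im‖ ≤ M * ‖fun j => (z j).im‖ :=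
          ((A.symm : (Fin N → ℝ) →L[ℝ] (Fin N → ℝ)).le_opNorm _).trans (by gcongr)
      _ ≤ M * ‖z‖ := by gcongr
      _ ≤ (1 + M) * ‖z‖ := by gcongr; linarith
  · show ‖(WithLp.toLp 2 (fun j => (z j).re) : V N)‖ ≤ _
    refine (norm_toLp_le _).trans ?_
    rw [mul_assoc]
    gcongr
    calc ‖fun j => (z j).re‖ ≤ ‖z‖ := hre
      _ ≤ (1 + M) * ‖z‖ := by nlinarith [norm_nonneg z]

theorem norm_le_TT {M : ℝ} (hA : ‖(A.symm : (Fin N → ℝ) →L[ℝ] (Fin N → ℝ))‖ ≤ M) (p : W N) :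
    ‖p‖ ≤ N * (1 + M) * ‖TT A p‖ := by
  have := norm_TI_le hA (TT A p)
  rwa [TI_TT] at this

theorem TT_mem_strip {ζ0 : Fin N → ℂ} {r : ℝ} {p : W N} (hp : ‖p.2‖ < r) :
    ζ0 + TT A p ∈ strip ζ0 r := by
  intro j
  rw [Pi.add_apply, Complex.add_re, TT_re, add_sub_cancel_left]
  exact (PiLp.norm_apply_le p.2 j).trans_lt hp

theorem TT_kv (p : W N) (k : Fin N → ℤ) :
    TT A (p.1 + kv k, p.2) = TT A p + fun j => ((A (fun i => (k i : ℝ)) j : ℝ) : ℂ) * I := by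
  have h1 : ((p.1 + kv k, p.2) : W N) = p + (kv k, 0) := by
    refine Prod.ext rfl ?_
    show p.2 = p.2 + 0
    rw [add_zero]
  rw [h1, map_add]
  congr 1
  funext j
  rw [TT_apply]
  simp [kv]

/-- **injectivity modulo the lattices** -/
theorem TT_sub_mem {Lam : AddSubgroup (Fin N → ℂ)} (h1 : Lam ≤ lat (Fin N))
    (hA : ∀ θ : Fin N → ℝ, (fun j => ((A θ j : ℝ) : ℂ) * I) ∈ Lam ↔ ∀ j, ∃ n : ℤ, θ j = n)
    (p q : W N) : TT A p - TT A q ∈ Lam ↔ ∃ k : Fin N → ℤ, p = (q.1 + kv k, q.2) := by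
  constructor
  · intro h
    have h2 : p.2 = q.2 := by
      ext j
      obtain ⟨k, hk⟩ := h1 h j
      have h3 := congrArg Complex.re hk
      rw [Pi.sub_apply, Complex.sub_re, TT_re, TT_re] at h3
      simp at h3
      linarith
    have h4 : TT A p - TT A q =
        fun j => ((A (WithLp.ofLp p.1 - WithLp.ofLp q.1) j : ℝ) : ℂ) * I := by
      funext j
      rw [Pi.sub_apply, TT_apply, TT_apply, h2, map_sub, Pi.sub_apply]
      push_cast; ring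
    rw [h4, hA] at h
    choose k hk using h
    refine ⟨k, Prod.ext ?_ h2⟩
    ext j
    have := hk j
    rw [Pi.sub_apply] at this
    show p.1 j = q.1 j + (k j : ℝ)
    have h5 : (WithLp.ofLp p.1) j - (WithLp.ofLp q.1) j = k j := this
    linarith
  · rintro ⟨k, hk⟩
    rw [hk, TT_kv, add_sub_cancel_left, hA]
    exact fun j => ⟨k j, rfl⟩

end

end Crest.Agent.R281.T5L_808
end

-- ▼ part R281/T5A2_808
section

/-!
# R281, T5-ASM (helper808), part 2: closed forms of type (2,0) have holomorphic coefficients; Cauchy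

`W` complex normed space, `y₁ y₂ : W → W →L[ℝ] W →L[ℝ] ℝ` closed alternating, `y₁(iu,v) = -y₂(u,v)`,
`y₂(iu,v) = y₁(u,v)`: the function `y₁(u,v) + i y₂(u,v)` is holomorphic; bounds of the first two
derivatives of `y₂` on `ball z R` from a bound of the forms.
-/

set_option autoImplicit false
set_option maxSynthPendingDepth 3
set_option linter.unusedVariables false

open Set Filter Topology Complex Metric
open scoped ContDiff

namespace Crest.Agent.R281.T5A_808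

noncomputable section

variable {W : Type*} [NormedAddCommGroup W] [NormedSpace ℂ W]

/-- the complexified value -/
def cv (y₁ y₂ : W → W →L[ℝ] W →L[ℝ] ℝ) (u v : W) (z : W) : ℂ := (y₁ z u v : ℂ) + (y₂ z u v : ℂ) * I

/-- closed form of type (2,0) -/
structure T20 (S : Set W) (y₁ y₂ : W → W →L[ℝ] W →L[ℝ] ℝ) : Prop where
  op : IsOpen S
  s1 : ContDiffOn ℝ ∞ y₁ S
  s2 : ContDiffOn ℝ ∞ y₂ S
  a1 : ∀ z ∈ S, ∀ u v, y₁ z u v = -y₁ z v u
  a2 : ∀ z ∈ S, ∀ u v, y₂ z u v = -y₂ z v u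
  c1 : ∀ z ∈ S, ∀ a b c, fderiv ℝ y₁ z a b c + fderiv ℝ y₁ z b c a + fderiv ℝ y₁ z c a b = 0
  c2 : ∀ z ∈ S, ∀ a b c, fderiv ℝ y₂ z a b c + fderiv ℝ y₂ z b c a + fderiv ℝ y₂ z c a b = 0
  t1 : ∀ z ∈ S, ∀ u v, y₁ z (I • u) v = -y₂ z u v
  t2 : ∀ z ∈ S, ∀ u v, y₂ z (I • u) v = y₁ z u v

variable {S : Set W} {y₁ y₂ : W → W →L[ℝ] W →L[ℝ] ℝ}

theorem fd_app {y : W → W →L[ℝ] W →L[ℝ] ℝ} {z : W} (hy : DifferentiableAt ℝ y z) (u v a : W) :
    fderiv ℝ (fun z' => y z' u v) z a = fderiv ℝ y z a u v := by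
  rw [((hy.hasFDerivAt.clm_apply (hasFDerivAt_const u z)).clm_apply (hasFDerivAt_const v z)).fderiv]
  simp

namespace T20

theorem d1 (h : T20 S y₁ y₂) {z : W} (hz : z ∈ S) : DifferentiableAt ℝ y₁ z :=
  (h.s1.contDiffAt (h.op.mem_nhds hz)).differentiableAt (by simp)

theorem d2 (h : T20 S y₁ y₂) {z : W} (hz : z ∈ S) : DifferentiableAt ℝ y₂ z :=
  (h.s2.contDiffAt (h.op.mem_nhds hz)).differentiableAt (by simp)

/-- derivative of an identity between values of the forms -/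
theorem deq {S : Set W} (ho : IsOpen S) {y y' : W → W →L[ℝ] W →L[ℝ] ℝ} {z : W} (hz : z ∈ S)
    (hy : DifferentiableAt ℝ y z) (hy' : DifferentiableAt ℝ y' z) {u v u' v' : W} {r : ℝ}
    (h : ∀ z ∈ S, y z u v = r * y' z u' v') (a : W) :
    fderiv ℝ y z a u v = r * fderiv ℝ y' z a u' v' := by
  rw [← fd_app hy, ← fd_app hy']
  have h1 : (fun z' => y z' u v) =ᶠ[𝓝 z] fun z' => r * y' z' u' v' := by
    filter_upwards [ho.mem_nhds hz] with z' hz' using h z' hz'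
  have h2 : DifferentiableAt ℝ (fun z' => y' z' u' v') z :=
    ((hy'.hasFDerivAt.clm_apply (hasFDerivAt_const u' z)).clm_apply
      (hasFDerivAt_const v' z)).differentiableAt
  rw [h1.fderiv_eq, fderiv_const_mul h2]
  rfl

theorem hI1 (h : T20 S y₁ y₂) {z : W} (hz : z ∈ S) (a b c : W) :
    fderiv ℝ y₁ z (I • a) b c = -fderiv ℝ y₂ z a b c := by
  have e1 : ∀ a b c, fderiv ℝ y₁ z a (I • b) c = -fderiv ℝ y₂ z a b c := by
    intro a b c
    rw [deq h.op hz (h.d1 hz) (h.d2 hz) (r := -1) (u' := b) (v' := c)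
      (fun z' hz' => by rw [h.t1 z' hz']; ring) a]
    ring
  have e2 : ∀ a b c, fderiv ℝ y₁ z a b (I • c) = -fderiv ℝ y₂ z a b c := by
    intro a b c
    rw [deq h.op hz (h.d1 hz) (h.d2 hz) (r := -1) (u' := b) (v' := c)
      (fun z' hz' => by rw [h.a1 z' hz', h.t1 z' hz', h.a2 z' hz' c b]; ring) a]
    ring
  have f1 := h.c1 z hz (I • a) b c
  have f2 := h.c2 z hz a b c
  rw [e2, e1] at f1
  linarith

theorem hI2 (h : T20 S y₁ y₂) {z : W} (hz : z ∈ S) (a b c : W) :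
    fderiv ℝ y₂ z (I • a) b c = fderiv ℝ y₁ z a b c := by
  have e1 : ∀ a b c, fderiv ℝ y₂ z a (I • b) c = fderiv ℝ y₁ z a b c := by
    intro a b c
    rw [deq h.op hz (h.d2 hz) (h.d1 hz) (r := 1) (u' := b) (v' := c)
      (fun z' hz' => by rw [h.t2 z' hz']; ring) a]
    ring
  have e2 : ∀ a b c, fderiv ℝ y₂ z a b (I • c) = fderiv ℝ y₁ z a b c := by
    intro a b c
    rw [deq h.op hz (h.d2 hz) (h.d1 hz) (r := 1) (u' := b) (v' := c)
      (fun z' hz' => by rw [h.a2 z' hz', h.t2 z' hz', h.a1 z' hz' c b]; ring) a]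
    ring
  have f1 := h.c2 z hz (I • a) b c
  have f2 := h.c1 z hz a b c
  rw [e2, e1] at f1
  linarith

/-- the real derivative of the complexified value -/
def cvd (y₁ y₂ : W → W →L[ℝ] W →L[ℝ] ℝ) (u v z : W) : W →L[ℝ] ℂ :=
  ofRealCLM.comp (fderiv ℝ (fun z' => y₁ z' u v) z) +
    I • ofRealCLM.comp (fderiv ℝ (fun z' => y₂ z' u v) z)

theorem cvd_apply (h : T20 S y₁ y₂) {z : W} (hz : z ∈ S) (u v a : W) :
    cvd y₁ y₂ u v z a = (fderiv ℝ y₁ z a u v : ℂ) + (fderiv ℝ y₂ z a u v : ℂ) * I := by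
  simp only [cvd, add_apply, smul_apply, ContinuousLinearMap.comp_apply, ofRealCLM_apply,
    smul_eq_mul]
  rw [fd_app (h.d1 hz), fd_app (h.d2 hz)]
  ring

theorem hasR (h : T20 S y₁ y₂) {z : W} (hz : z ∈ S) (u v : W) :
    HasFDerivAt (cv y₁ y₂ u v) (cvd y₁ y₂ u v z) z := by
  have h1 : HasFDerivAt (fun z' => y₁ z' u v) (fderiv ℝ (fun z' => y₁ z' u v) z) z :=
    (((h.d1 hz).hasFDerivAt.clm_apply (hasFDerivAt_const u z)).clm_apply
      (hasFDerivAt_const v z)).differentiableAt.hasFDerivAt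
  have h2 : HasFDerivAt (fun z' => y₂ z' u v) (fderiv ℝ (fun z' => y₂ z' u v) z) z :=
    (((h.d2 hz).hasFDerivAt.clm_apply (hasFDerivAt_const u z)).clm_apply
      (hasFDerivAt_const v z)).differentiableAt.hasFDerivAt
  have h3 := (ofRealCLM.hasFDerivAt.comp z h1).add ((ofRealCLM.hasFDerivAt.comp z h2).const_smul I)
  refine h3.congr_of_eventuallyEq (Eventually.of_forall fun z' => ?_)
  simp [cv, mul_comm]

theorem cvd_I (h : T20 S y₁ y₂) {z : W} (hz : z ∈ S) (u v a : W) :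
    cvd y₁ y₂ u v z (I • a) = I * cvd y₁ y₂ u v z a := by
  rw [h.cvd_apply hz, h.cvd_apply hz, h.hI1 hz, h.hI2 hz]
  push_cast
  linear_combination (-(fderiv ℝ y₂ z a u v : ℂ)) * I_sq

/-- the complex derivative -/
def cvD (h : T20 S y₁ y₂) {z : W} (hz : z ∈ S) (u v : W) : W →L[ℂ] ℂ where
  toFun := cvd y₁ y₂ u v z
  map_add' a b := map_add _ a b
  map_smul' c a := by
    have h1 : c • a = (c.re : ℝ) • a + (c.im : ℝ) • (I • a) := by
      rw [← Complex.coe_smul c.re a, ← Complex.coe_smul c.im (I • a), smul_smul, ← add_smul,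
        Complex.re_add_im]
    rw [h1, map_add, map_smul, map_smul, h.cvd_I hz]
    simp only [real_smul, RingHom.id_apply, smul_eq_mul]
    rw [← mul_assoc, ← add_mul, Complex.re_add_im]
  cont := (cvd y₁ y₂ u v z).continuous

theorem hasC (h : T20 S y₁ y₂) {z : W} (hz : z ∈ S) (u v : W) :
    HasFDerivAt (𝕜 := ℂ) (cv y₁ y₂ u v) (h.cvD hz u v) z := by
  refine hasFDerivAt_of_restrictScalars ℝ (h.hasR hz u v) ?_
  ext a
  rfl

/-- **holomorphy** -/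
theorem hol (h : T20 S y₁ y₂) (u v : W) : DifferentiableOn ℂ (cv y₁ y₂ u v) S :=
  fun z hz => (h.hasC hz u v).differentiableAt.differentiableWithinAt

theorem fderiv_cv (h : T20 S y₁ y₂) {z : W} (hz : z ∈ S) (u v a : W) :
    fderiv ℂ (cv y₁ y₂ u v) z a =
      (fderiv ℝ y₁ z a u v : ℂ) + (fderiv ℝ y₂ z a u v : ℂ) * I := by
  rw [(h.hasC hz u v).fderiv]
  exact h.cvd_apply hz u v a

end T20

/-- Cauchy's estimate for the directional derivative -/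
theorem cauchy_dir {f : W → ℂ} {z : W} {R B : ℝ} (hR : 0 < R) (hf : DifferentiableOn ℂ f (ball z R))
    (hB : ∀ x ∈ ball z R, ‖f x‖ ≤ B) (a : W) : ‖fderiv ℂ f z a‖ ≤ B * ‖a‖ / R := by
  have hz : z ∈ ball z R := mem_ball_self hR
  have hB0 : 0 ≤ B := (norm_nonneg _).trans (hB z hz)
  have hd : DifferentiableAt ℂ f z := (hf z hz).differentiableAt (isOpen_ball.mem_nhds hz)
  by_cases ha : a = 0
  · subst ha
    simp
  have ha' : 0 < ‖a‖ := norm_pos_iff.2 ha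
  -- one variable
  let g : ℂ → ℂ := fun t => f (z + t • a)
  have hmem : ∀ t : ℂ, ‖t‖ < R / ‖a‖ → z + t • a ∈ ball z R := by
    intro t ht
    rw [mem_ball, dist_eq_norm, add_sub_cancel_left, norm_smul]
    rwa [lt_div_iff₀ ha'] at ht
  have hg0 : HasDerivAt g (fderiv ℂ f z a) 0 := by
    have h1 : HasDerivAt (fun t : ℂ => z + t • a) a 0 := by
      simpa using ((hasDerivAt_id (0 : ℂ)).smul_const a).const_add z
    have h2 : HasFDerivAt f (fderiv ℂ f z) (z + (0 : ℂ) • a) := by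
      simpa using hd.hasFDerivAt
    exact h2.comp_hasDerivAt (0 : ℂ) h1
  have hgd : DifferentiableOn ℂ g (ball 0 (R / ‖a‖)) := by
    intro t ht
    have ht' : ‖t‖ < R / ‖a‖ := by simpa using ht
    have h1 : DifferentiableAt ℂ f (z + t • a) :=
      (hf _ (hmem t ht')).differentiableAt (isOpen_ball.mem_nhds (hmem t ht'))
    have h2 : DifferentiableAt ℂ (fun t : ℂ => z + t • a) t := by fun_prop
    exact (DifferentiableAt.comp (g := f) t h1 h2).differentiableWithinAt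
  -- limit of radii
  have key : ∀ r : ℝ, 0 < r → r < R / ‖a‖ → ‖fderiv ℂ f z a‖ ≤ B / r := by
    intro r hr hrR
    have h1 := Complex.norm_deriv_le_of_forall_mem_sphere_norm_le (f := g) (c := 0) (C := B) hr
      (by
        refine (hgd.mono fun t ht => ?_).diffContOnCl
        rw [closure_ball (0 : ℂ) hr.ne'] at ht
        exact mem_ball.2 (lt_of_le_of_lt (mem_closedBall.1 ht) hrR))
      (by
        intro t ht
        refine hB _ (hmem t ?_)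
        have : ‖t‖ = r := by simpa using ht
        rw [this]
        exact hrR)
    rwa [hg0.deriv] at h1
  have hlim : Tendsto (fun r : ℝ => B / r) (𝓝[<] (R / ‖a‖)) (𝓝 (B / (R / ‖a‖))) :=
    (tendsto_const_nhds.div tendsto_id (by positivity)).mono_left nhdsWithin_le_nhds
  have h2 : ‖fderiv ℂ f z a‖ ≤ B / (R / ‖a‖) := by
    refine ge_of_tendsto hlim ?_
    have hpos : (0 : ℝ) < R / ‖a‖ := by positivity
    filter_upwards [Ioo_mem_nhdsLT hpos] with r hr using key r hr.1 hr.2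
  calc ‖fderiv ℂ f z a‖ ≤ B / (R / ‖a‖) := h2
    _ = B * ‖a‖ / R := by field_simp

/-- second derivative -/
theorem cauchy_dir2 {f : W → ℂ} {z : W} {R B : ℝ} (hR : 0 < R)
    (hf : DifferentiableOn ℂ f (ball z R)) (hB : ∀ x ∈ ball z R, ‖f x‖ ≤ B) (a b : W) {g : W → ℂ}
    (hg : ∀ x ∈ ball z R, g x = fderiv ℂ f x b) (hgd : DifferentiableOn ℂ g (ball z R)) :
    ‖fderiv ℂ g z a‖ ≤ 4 * B * ‖a‖ * ‖b‖ / R ^ 2 := by
  have hsub : ball z (R / 2) ⊆ ball z R := ball_subset_ball (by linarith)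
  have h1 : ∀ x ∈ ball z (R / 2), ‖g x‖ ≤ B * ‖b‖ / (R / 2) := by
    intro x hx
    have hxR : ball x (R / 2) ⊆ ball z R := by
      intro y hy
      rw [mem_ball] at *
      linarith [dist_triangle y x z]
    rw [hg x (hsub hx)]
    exact cauchy_dir (by linarith) (hf.mono hxR) (fun y hy => hB y (hxR hy)) b
  have h2 := cauchy_dir (by linarith : 0 < R / 2) (hgd.mono hsub) h1 a
  calc ‖fderiv ℂ g z a‖ ≤ B * ‖b‖ / (R / 2) * ‖a‖ / (R / 2) := h2
    _ = 4 * B * ‖a‖ * ‖b‖ / R ^ 2 := by field_simp; ring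

namespace T20

/-- symmetry of the second derivative -/
theorem symd {S : Set W} (ho : IsOpen S) {y : W → W →L[ℝ] W →L[ℝ] ℝ} (hy : ContDiffOn ℝ ∞ y S)
    {z : W} (hz : z ∈ S) (a b : W) :
    fderiv ℝ (fderiv ℝ y) z a b = fderiv ℝ (fderiv ℝ y) z b a :=
  ((hy.contDiffAt (ho.mem_nhds hz)).isSymmSndFDerivAt (by
      rw [minSmoothness_of_isRCLikeNormedField]; exact WithTop.coe_le_coe.2 le_top)) a b

theorem dd (ho : IsOpen S) {y : W → W →L[ℝ] W →L[ℝ] ℝ} (hy : ContDiffOn ℝ ∞ y S)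
    {z : W} (hz : z ∈ S) : DifferentiableAt ℝ (fderiv ℝ y) z :=
  ((hy.fderiv_of_isOpen ho (m := ∞) (by simp)).contDiffAt (ho.mem_nhds hz)).differentiableAt
    (by simp)

theorem fd_dir (ho : IsOpen S) {y : W → W →L[ℝ] W →L[ℝ] ℝ} (hy : ContDiffOn ℝ ∞ y S)
    {z : W} (hz : z ∈ S) (a b : W) :
    fderiv ℝ (fun z' => fderiv ℝ y z' b) z a = fderiv ℝ (fderiv ℝ y) z a b := by
  rw [((dd ho hy hz).hasFDerivAt.clm_apply (hasFDerivAt_const b z)).fderiv]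
  simp

theorem closed_dir (ho : IsOpen S) {y : W → W →L[ℝ] W →L[ℝ] ℝ} (hy : ContDiffOn ℝ ∞ y S)
    (hc : ∀ z ∈ S, ∀ a b c, fderiv ℝ y z a b c + fderiv ℝ y z b c a + fderiv ℝ y z c a b = 0)
    {z : W} (hz : z ∈ S) (b' a b c : W) :
    fderiv ℝ (fun z' => fderiv ℝ y z' b') z a b c + fderiv ℝ (fun z' => fderiv ℝ y z' b') z b c a
      + fderiv ℝ (fun z' => fderiv ℝ y z' b') z c a b = 0 := by
  rw [fd_dir ho hy hz, fd_dir ho hy hz, fd_dir ho hy hz, symd ho hy hz a, symd ho hy hz b,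
    symd ho hy hz c]
  have h1 : (fun z' => fderiv ℝ y z' a b c + fderiv ℝ y z' b c a + fderiv ℝ y z' c a b)
      =ᶠ[𝓝 z] fun _ => (0 : ℝ) := by
    filter_upwards [ho.mem_nhds hz] with z' hz' using hc z' hz' a b c
  have h2 : ∀ p q r : W, HasFDerivAt (fun z' => fderiv ℝ y z' p q r)
      (fderiv ℝ (fun z' => fderiv ℝ y z' p q r) z) z := fun p q r =>
    ((((dd ho hy hz).hasFDerivAt.clm_apply (hasFDerivAt_const p z)).clm_apply
      (hasFDerivAt_const q z)).clm_apply (hasFDerivAt_const r z)).differentiableAt.hasFDerivAt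
  have h3 : ∀ p q r : W, fderiv ℝ (fun z' => fderiv ℝ y z' p q r) z b' =
      fderiv ℝ (fderiv ℝ y) z b' p q r := by
    intro p q r
    rw [((((dd ho hy hz).hasFDerivAt.clm_apply (hasFDerivAt_const p z)).clm_apply
      (hasFDerivAt_const q z)).clm_apply (hasFDerivAt_const r z)).fderiv]
    simp
  have h4 := (((h2 a b c).add (h2 b c a)).add (h2 c a b)).fderiv
  have h5 : fderiv ℝ (fun z' => fderiv ℝ y z' a b c + fderiv ℝ y z' b c a + fderiv ℝ y z' c a b) z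
      b' = 0 := by
    rw [h1.fderiv_eq]
    simp
  have h6 : ((fun z' => fderiv ℝ y z' a b c) + (fun z' => fderiv ℝ y z' b c a) +
      (fun z' => fderiv ℝ y z' c a b)) = fun z' => fderiv ℝ y z' a b c + fderiv ℝ y z' b c a +
      fderiv ℝ y z' c a b := rfl
  rw [h6] at h4
  rw [h4] at h5
  simpa [h3] using h5

theorem dir (h : T20 S y₁ y₂) (b : W) :
    T20 S (fun z => fderiv ℝ y₁ z b) (fun z => fderiv ℝ y₂ z b) where
  op := h.op
  s1 := (h.s1.fderiv_of_isOpen h.op (m := ∞) (by simp)).clm_apply contDiffOn_const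
  s2 := (h.s2.fderiv_of_isOpen h.op (m := ∞) (by simp)).clm_apply contDiffOn_const
  a1 z hz u v := by
    rw [deq h.op hz (h.d1 hz) (h.d1 hz) (r := -1) (u' := v) (v' := u)
      (fun z' hz' => by rw [h.a1 z' hz']; ring) b]
    ring
  a2 z hz u v := by
    rw [deq h.op hz (h.d2 hz) (h.d2 hz) (r := -1) (u' := v) (v' := u)
      (fun z' hz' => by rw [h.a2 z' hz']; ring) b]
    ring
  c1 z hz a b' c := closed_dir h.op h.s1 h.c1 hz b a b' c
  c2 z hz a b' c := closed_dir h.op h.s2 h.c2 hz b a b' c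
  t1 z hz u v := by
    rw [deq h.op hz (h.d1 hz) (h.d2 hz) (r := -1) (u' := u) (v' := v)
      (fun z' hz' => by rw [h.t1 z' hz']; ring) b]
    ring
  t2 z hz u v := by
    rw [deq h.op hz (h.d2 hz) (h.d1 hz) (r := 1) (u' := u) (v' := v)
      (fun z' hz' => by rw [h.t2 z' hz']; ring) b]
    ring

theorem cv_le {B : ℝ} {z : W} {u v : W} (h1 : |y₁ z u v| ≤ B) (h2 : |y₂ z u v| ≤ B) :
    ‖cv y₁ y₂ u v z‖ ≤ 2 * B := by
  calc ‖cv y₁ y₂ u v z‖ ≤ ‖(y₁ z u v : ℂ)‖ + ‖(y₂ z u v : ℂ) * I‖ := norm_add_le _ _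
    _ = |y₁ z u v| + |y₂ z u v| := by simp
    _ ≤ 2 * B := by linarith

/-- **first derivative** -/
theorem bd1 (h : T20 S y₁ y₂) {z : W} {R B : ℝ} (hR : 0 < R) (hS : ball z R ⊆ S)
    (b1 : ∀ x ∈ ball z R, ∀ u v, |y₁ x u v| ≤ B * ‖u‖ * ‖v‖)
    (b2 : ∀ x ∈ ball z R, ∀ u v, |y₂ x u v| ≤ B * ‖u‖ * ‖v‖) (a u v : W) :
    |fderiv ℝ y₁ z a u v| ≤ 2 * B / R * ‖a‖ * ‖u‖ * ‖v‖ ∧
      |fderiv ℝ y₂ z a u v| ≤ 2 * B / R * ‖a‖ * ‖u‖ * ‖v‖ := by
  have hz : z ∈ S := hS (mem_ball_self hR)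
  have h1 := cauchy_dir hR ((h.hol u v).mono hS) (B := 2 * (B * ‖u‖ * ‖v‖))
    (fun x hx => cv_le (b1 x hx u v) (b2 x hx u v)) a
  rw [h.fderiv_cv hz] at h1
  have e : 2 * (B * ‖u‖ * ‖v‖) * ‖a‖ / R = 2 * B / R * ‖a‖ * ‖u‖ * ‖v‖ := by ring
  rw [e] at h1
  constructor
  · refine le_trans ?_ h1
    have := Complex.abs_re_le_norm ((fderiv ℝ y₁ z a u v : ℂ) + (fderiv ℝ y₂ z a u v : ℂ) * I)
    simpa using this
  · refine le_trans ?_ h1
    have := Complex.abs_im_le_norm ((fderiv ℝ y₁ z a u v : ℂ) + (fderiv ℝ y₂ z a u v : ℂ) * I)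
    simpa using this

/-- **second derivative** -/
theorem bd2 (h : T20 S y₁ y₂) {z : W} {R B : ℝ} (hR : 0 < R) (hS : ball z R ⊆ S)
    (b1 : ∀ x ∈ ball z R, ∀ u v, |y₁ x u v| ≤ B * ‖u‖ * ‖v‖)
    (b2 : ∀ x ∈ ball z R, ∀ u v, |y₂ x u v| ≤ B * ‖u‖ * ‖v‖) (a b u v : W) :
    |fderiv ℝ (fderiv ℝ y₁) z a b u v| ≤ 8 * B / R ^ 2 * ‖a‖ * ‖b‖ * ‖u‖ * ‖v‖ ∧
      |fderiv ℝ (fderiv ℝ y₂) z a b u v| ≤ 8 * B / R ^ 2 * ‖a‖ * ‖b‖ * ‖u‖ * ‖v‖ := by
  have hz : z ∈ S := hS (mem_ball_self hR)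
  have h1 := cauchy_dir2 hR ((h.hol u v).mono hS) (B := 2 * (B * ‖u‖ * ‖v‖))
    (fun x hx => cv_le (b1 x hx u v) (b2 x hx u v)) a b
    (g := cv (fun z => fderiv ℝ y₁ z b) (fun z => fderiv ℝ y₂ z b) u v)
    (fun x hx => by rw [h.fderiv_cv (hS hx)]; rfl) (((h.dir b).hol u v).mono hS)
  rw [(h.dir b).fderiv_cv hz, fd_dir h.op h.s1 hz, fd_dir h.op h.s2 hz] at h1
  have e : 4 * (2 * (B * ‖u‖ * ‖v‖)) * ‖a‖ * ‖b‖ / R ^ 2 =
      8 * B / R ^ 2 * ‖a‖ * ‖b‖ * ‖u‖ * ‖v‖ := by ring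
  rw [e] at h1
  constructor
  · refine le_trans ?_ h1
    have := Complex.abs_re_le_norm ((fderiv ℝ (fderiv ℝ y₁) z a b u v : ℂ) +
      (fderiv ℝ (fderiv ℝ y₂) z a b u v : ℂ) * I)
    simpa using this
  · refine le_trans ?_ h1
    have := Complex.abs_im_le_norm ((fderiv ℝ (fderiv ℝ y₁) z a b u v : ℂ) +
      (fderiv ℝ (fderiv ℝ y₂) z a b u v : ℂ) * I)
    simpa using this

end T20

end

end Crest.Agent.R281.T5A_808
end

-- ▼ part R281/T5A3_808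
section

/-!
# R281, T5-ASM (helper808), part 3: estimates in coordinates (real normed spaces)

* `sum_d1`, `sum_d2`  : derivatives of `F ζ u v = Σ f_k ζ * c_k u v`
* `affine_bd`         : affine change of coordinates of a field of bilinear forms
-/

set_option autoImplicit false
set_option maxSynthPendingDepth 3

open Set Filter Topology Metric Complex
open scoped ContDiff ComplexConjugate

namespace Crest.Agent.R281.T5A_808

noncomputable section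

section der

variable {E : Type*} [NormedAddCommGroup E] [NormedSpace ℝ E] {S : Set E}

theorem fd_app' {y : E → E →L[ℝ] E →L[ℝ] ℝ} {z : E} (hy : DifferentiableAt ℝ y z) (u v a : E) :
    fderiv ℝ (fun z' => y z' u v) z a = fderiv ℝ y z a u v := by
  rw [((hy.hasFDerivAt.clm_apply (hasFDerivAt_const u z)).clm_apply (hasFDerivAt_const v z)).fderiv]
  simp

theorem dd' (ho : IsOpen S) {G : Type*} [NormedAddCommGroup G] [NormedSpace ℝ G] {y : E → G}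
    (hy : ContDiffOn ℝ ∞ y S) {z : E} (hz : z ∈ S) : DifferentiableAt ℝ (fderiv ℝ y) z :=
  ((hy.fderiv_of_isOpen ho (m := ∞) (by simp)).contDiffAt (ho.mem_nhds hz)).differentiableAt
    (by simp)

theorem fd_dir' (ho : IsOpen S) {G : Type*} [NormedAddCommGroup G] [NormedSpace ℝ G] {y : E → G}
    (hy : ContDiffOn ℝ ∞ y S) {z : E} (hz : z ∈ S) (a b : E) :
    fderiv ℝ (fun z' => fderiv ℝ y z' b) z a = fderiv ℝ (fderiv ℝ y) z a b := by
  rw [((dd' ho hy hz).hasFDerivAt.clm_apply (hasFDerivAt_const b z)).fderiv]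
  simp

variable {κ : Type*} (s : Finset κ)

theorem sum_d1 (ho : IsOpen S) {F : E → E →L[ℝ] E →L[ℝ] ℝ} {f : κ → E → ℝ} {c : κ → E → E → ℝ}
    (hF : ∀ z ∈ S, DifferentiableAt ℝ F z) (hf : ∀ k ∈ s, ∀ z ∈ S, DifferentiableAt ℝ (f k) z)
    (h : ∀ z ∈ S, ∀ u v, F z u v = ∑ k ∈ s, f k z * c k u v) {z : E} (hz : z ∈ S) (a u v : E) :
    fderiv ℝ F z a u v = ∑ k ∈ s, fderiv ℝ (f k) z a * c k u v := by
  rw [← fd_app' (hF z hz)]
  have h1 : (fun z' => F z' u v) =ᶠ[𝓝 z] fun z' => ∑ k ∈ s, f k z' * c k u v := by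
    filter_upwards [ho.mem_nhds hz] with z' hz' using h z' hz' u v
  rw [h1.fderiv_eq, (HasFDerivAt.fun_sum fun k hk =>
    (hf k hk z hz).hasFDerivAt.mul_const (c k u v)).fderiv]
  simp [sum_apply, mul_comm]

theorem sum_d2 (ho : IsOpen S) {F : E → E →L[ℝ] E →L[ℝ] ℝ} {f : κ → E → ℝ} {c : κ → E → E → ℝ}
    (hF : ContDiffOn ℝ ∞ F S) (hf : ∀ k ∈ s, ContDiffOn ℝ ∞ (f k) S)
    (h : ∀ z ∈ S, ∀ u v, F z u v = ∑ k ∈ s, f k z * c k u v) {z : E} (hz : z ∈ S) (a b u v : E) :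
    fderiv ℝ (fderiv ℝ F) z a b u v = ∑ k ∈ s, fderiv ℝ (fderiv ℝ (f k)) z a b * c k u v := by
  have hd2 : ∀ z ∈ S, DifferentiableAt ℝ (fun z' => fderiv ℝ F z' b) z := fun z hz =>
    ((dd' ho hF hz).hasFDerivAt.clm_apply (hasFDerivAt_const b z)).differentiableAt
  have hd3 : ∀ k ∈ s, ∀ z ∈ S, DifferentiableAt ℝ (fun z' => fderiv ℝ (f k) z' b) z :=
    fun k hk z hz =>
      ((dd' ho (hf k hk) hz).hasFDerivAt.clm_apply (hasFDerivAt_const b z)).differentiableAt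
  have h1 : ∀ z ∈ S, ∀ u v, fderiv ℝ F z b u v = ∑ k ∈ s, fderiv ℝ (f k) z b * c k u v :=
    fun z hz u v => sum_d1 s ho (fun z hz => (hF.contDiffAt (ho.mem_nhds hz)).differentiableAt
      (by simp)) (fun k hk z hz => ((hf k hk).contDiffAt (ho.mem_nhds hz)).differentiableAt
      (by simp)) h hz b u v
  have h2 := sum_d1 s ho hd2 hd3 h1 hz a u v
  rw [fd_dir' ho hF hz] at h2
  rw [h2]
  exact Finset.sum_congr rfl fun k hk => by rw [fd_dir' ho (hf k hk) hz]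

end der

section norms

variable {E F : Type*} [NormedAddCommGroup E] [NormedSpace ℝ E] [NormedAddCommGroup F]
  [NormedSpace ℝ F]

theorem norm2_le {B : E →L[ℝ] E →L[ℝ] ℝ} {C : ℝ} (hC : 0 ≤ C)
    (h : ∀ u v, |B u v| ≤ C * ‖u‖ * ‖v‖) : ‖B‖ ≤ C :=
  ContinuousLinearMap.opNorm_le_bound _ hC fun u =>
    ContinuousLinearMap.opNorm_le_bound _ (by positivity) fun v => by
      rw [Real.norm_eq_abs]; exact h u v

theorem norm3_le {B : F →L[ℝ] E →L[ℝ] E →L[ℝ] ℝ} {C : ℝ} (hC : 0 ≤ C)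
    (h : ∀ a u v, |B a u v| ≤ C * ‖a‖ * ‖u‖ * ‖v‖) : ‖B‖ ≤ C :=
  ContinuousLinearMap.opNorm_le_bound _ hC fun a => norm2_le (by positivity) fun u v => h a u v

theorem norm4_le {B : F →L[ℝ] F →L[ℝ] E →L[ℝ] E →L[ℝ] ℝ} {C : ℝ} (hC : 0 ≤ C)
    (h : ∀ a b u v, |B a b u v| ≤ C * ‖a‖ * ‖b‖ * ‖u‖ * ‖v‖) : ‖B‖ ≤ C :=
  ContinuousLinearMap.opNorm_le_bound _ hC fun a => norm3_le (by positivity) fun b u v => h a b u v

theorem le_norm2 (B : E →L[ℝ] E →L[ℝ] ℝ) (u v : E) : |B u v| ≤ ‖B‖ * ‖u‖ * ‖v‖ := by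
  rw [← Real.norm_eq_abs]
  exact B.le_opNorm₂ u v

theorem le_norm3 (B : F →L[ℝ] E →L[ℝ] E →L[ℝ] ℝ) (a : F) (u v : E) :
    |B a u v| ≤ ‖B‖ * ‖a‖ * ‖u‖ * ‖v‖ :=
  (le_norm2 (B a) u v).trans (by gcongr; exact B.le_opNorm a)

theorem le_norm4 (B : F →L[ℝ] F →L[ℝ] E →L[ℝ] E →L[ℝ] ℝ) (a b : F) (u v : E) :
    |B a b u v| ≤ ‖B‖ * ‖a‖ * ‖b‖ * ‖u‖ * ‖v‖ :=
  (le_norm3 (B a) b u v).trans (by gcongr; exact B.le_opNorm a)

end norms

section affine

variable {E E' : Type*} [NormedAddCommGroup E] [NormedSpace ℝ E] [NormedAddCommGroup E']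
  [NormedSpace ℝ E']

/-- **affine change of coordinates**: `x p u v = X (c + T p) (T u) (T v)` -/
theorem affine_bd {S : Set E} {S' : Set E'} (ho : IsOpen S) (ho' : IsOpen S') (T : E' →L[ℝ] E)
    (c : E) {X : E → E →L[ℝ] E →L[ℝ] ℝ} {x : E' → E' →L[ℝ] E' →L[ℝ] ℝ} (hX : ContDiffOn ℝ ∞ X S)
    (hx : ContDiffOn ℝ ∞ x S') (hm : ∀ p ∈ S', c + T p ∈ S)
    (h : ∀ p ∈ S', ∀ u v, x p u v = X (c + T p) (T u) (T v)) {p : E'} (hp : p ∈ S') :
    ‖x p‖ ≤ ‖X (c + T p)‖ * ‖T‖ ^ 2 ∧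
      ‖fderiv ℝ x p‖ ≤ ‖fderiv ℝ X (c + T p)‖ * ‖T‖ ^ 3 ∧
      ‖fderiv ℝ (fderiv ℝ x) p‖ ≤ ‖fderiv ℝ (fderiv ℝ X) (c + T p)‖ * ‖T‖ ^ 4 := by
  have dx : ∀ q ∈ S', DifferentiableAt ℝ x q := fun q hq =>
    (hx.contDiffAt (ho'.mem_nhds hq)).differentiableAt (by simp)
  have dX : ∀ q ∈ S, DifferentiableAt ℝ X q := fun q hq =>
    (hX.contDiffAt (ho.mem_nhds hq)).differentiableAt (by simp)
  have hT : ∀ q : E', HasFDerivAt (fun q : E' => c + T q) T q := fun q =>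
    T.hasFDerivAt.const_add c
  -- derivative of a composition
  have key : ∀ {Y : E → E →L[ℝ] E →L[ℝ] ℝ} {y : E' → E' →L[ℝ] E' →L[ℝ] ℝ}
      (_ : ∀ q ∈ S', DifferentiableAt ℝ y q) (_ : ∀ q ∈ S, DifferentiableAt ℝ Y q)
      (_ : ∀ p ∈ S', ∀ u v, y p u v = Y (c + T p) (T u) (T v)), ∀ q ∈ S', ∀ a u v,
      fderiv ℝ y q a u v = fderiv ℝ Y (c + T q) (T a) (T u) (T v) := by
    intro Y y dy dY hy q hq a u v
    rw [← fd_app' (dy q hq), ← fd_app' (dY _ (hm q hq))]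
    have h1 : (fun z' => y z' u v) =ᶠ[𝓝 q] fun z' => Y (c + T z') (T u) (T v) := by
      filter_upwards [ho'.mem_nhds hq] with z' hz' using hy z' hz' u v
    have h2 : HasFDerivAt (fun z' => Y z' (T u) (T v))
        (fderiv ℝ (fun z' => Y z' (T u) (T v)) (c + T q)) (c + T q) :=
      ((((dY _ (hm q hq)).hasFDerivAt.clm_apply (hasFDerivAt_const (T u) _)).clm_apply
        (hasFDerivAt_const (T v) _))).differentiableAt.hasFDerivAt
    have h3 := HasFDerivAt.comp (g := fun z' => Y z' (T u) (T v)) (f := fun z' : E' => c + T z') q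
      h2 (hT q)
    have h4 : ((fun z' => Y z' (T u) (T v)) ∘ fun z' : E' => c + T z') =
      fun z' => Y (c + T z') (T u) (T v) := rfl
    rw [h1.fderiv_eq, ← h4, h3.fderiv]
    rfl
  have k1 := key dx dX h
  have k2 : ∀ q ∈ S', ∀ a b u v, fderiv ℝ (fderiv ℝ x) q a b u v =
      fderiv ℝ (fderiv ℝ X) (c + T q) (T a) (T b) (T u) (T v) := by
    intro q hq a b u v
    have e1 := key (Y := fun z => fderiv ℝ X z (T b)) (y := fun z => fderiv ℝ x z b)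
      (fun q hq => ((dd' ho' hx hq).hasFDerivAt.clm_apply (hasFDerivAt_const b q)).differentiableAt)
      (fun q hq => ((dd' ho hX hq).hasFDerivAt.clm_apply
        (hasFDerivAt_const (T b) q)).differentiableAt)
      (fun q hq u v => k1 q hq b u v) q hq a u v
    rwa [fd_dir' ho' hx hq, fd_dir' ho hX (hm q hq)] at e1
  refine ⟨norm2_le (by positivity) fun u v => ?_, norm3_le (by positivity) fun a u v => ?_,
    norm4_le (by positivity) fun a b u v => ?_⟩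
  · rw [h p hp]
    refine (le_norm2 _ _ _).trans ?_
    calc ‖X (c + T p)‖ * ‖T u‖ * ‖T v‖ ≤ ‖X (c + T p)‖ * (‖T‖ * ‖u‖) * (‖T‖ * ‖v‖) := by
          gcongr <;> exact T.le_opNorm _
      _ = ‖X (c + T p)‖ * ‖T‖ ^ 2 * ‖u‖ * ‖v‖ := by ring
  · rw [k1 p hp]
    refine (le_norm3 _ _ _ _).trans ?_
    calc ‖fderiv ℝ X (c + T p)‖ * ‖T a‖ * ‖T u‖ * ‖T v‖
        ≤ ‖fderiv ℝ X (c + T p)‖ * (‖T‖ * ‖a‖) * (‖T‖ * ‖u‖) * (‖T‖ * ‖v‖) := by
          gcongr <;> exact T.le_opNorm _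
      _ = ‖fderiv ℝ X (c + T p)‖ * ‖T‖ ^ 3 * ‖a‖ * ‖u‖ * ‖v‖ := by ring
  · rw [k2 p hp]
    refine (le_norm4 _ _ _ _ _).trans ?_
    calc ‖fderiv ℝ (fderiv ℝ X) (c + T p)‖ * ‖T a‖ * ‖T b‖ * ‖T u‖ * ‖T v‖
        ≤ ‖fderiv ℝ (fderiv ℝ X) (c + T p)‖ * (‖T‖ * ‖a‖) * (‖T‖ * ‖b‖) * (‖T‖ * ‖u‖) *
          (‖T‖ * ‖v‖) := by
          gcongr <;> exact T.le_opNorm _
      _ = ‖fderiv ℝ (fderiv ℝ X) (c + T p)‖ * ‖T‖ ^ 4 * ‖a‖ * ‖b‖ * ‖u‖ * ‖v‖ := by ring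

end affine

end

end Crest.Agent.R281.T5A_808
end

-- ▼ part R281/T5P_808
section

/-!
# R281, T5-ASM (helper808), part 5: the three forms on the strip

`Φ` holomorphic local biholomorphism on the open `S ⊆ ℂ^N` (`HolI`, 368).

* `dPhi`, `dPhi_I`, `dPhi_inj`, `dPhi_surj` : the differential in a chart
* `pull_kah`     : `Φ^*ω (u, v) = Re (i ∑ G_ab u_a conj v_b)`, `G = pbg K Φ`
* `pull_T20`     : `(Φ^*om_1, Φ^*om_2)` is a closed form of type (2,0) when `J_0 = i`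
* `pull_le`      : `|Φ^*om_k (u, v)|² ≤ q(u) q(v)`, `q u = Φ^*om_0 (u, i u)`
* `d_kah`        : derivatives of `Φ^*ω` from those of `G`
-/

set_option autoImplicit false
set_option linter.unusedSectionVars false
set_option maxSynthPendingDepth 3

open Set Filter Topology Complex Metric
open scoped ContDiff Matrix ComplexConjugate ComplexOrder

namespace Crest.Agent.R281.T5P_808

open Crest.Agent.R275.Geo Crest.Agent.R275.Core144 Crest.Agent.R275.EDR890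
open Crest.Agent.R273.Defs_333 Crest.Agent.R273.Hess_333 Crest.Agent.R273.HessB_333
open Crest.Agent.R273.HM_333 Crest.Agent.R273.Kah_333 Crest.Agent.R273.Vol_333
open Crest.Agent.R273.Vm_333 Crest.Agent.R273.FIb0_597
open Crest.Agent.R281.Tor_922 Crest.Agent.R281.SIn_14
open Crest.Agent.R281.HkR_835 Crest.Agent.R281.Per_368 Crest.Agent.R281.T5A_808

noncomputable section

variable {N : ℕ} {M : Type} [TopologicalSpace M] {A : Atl N M}
variable {S : Set (Fin N → ℂ)} {Φ : (Fin N → ℂ) → M}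

/-! ### the differential -/

theorem fderiv_C (h : HolI A S Φ) {ζ : Fin N → ℂ} (hζ : ζ ∈ S) {i : A.ι}
    (hi : Φ ζ ∈ (A.e i).source) (u : Fin N → ℂ) :
    fderiv ℝ (fun y => A.e i (Φ y)) ζ u = fderiv ℂ (fun y => A.e i (Φ y)) ζ u := by
  rw [((h.hol ζ hζ i hi).1).fderiv_restrictScalars ℝ]; rfl

theorem dPhi (h : HolI A S Φ) {ζ : Fin N → ℂ} (hζ : ζ ∈ S) {i : A.ι}
    (hi : Φ ζ ∈ (A.e i).source) (u : Fin N → ℂ) :
    (fderiv ℝ (fun y => A.e i (Φ y)) ζ u).ofLp = jac A Φ i ζ *ᵥ u := by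
  rw [fderiv_C h hζ hi]
  set D := fderiv ℂ (fun y => A.e i (Φ y)) ζ with hD
  have h3 : D u = ∑ a, u a • D (Pi.single a 1) := by
    conv_lhs => rw [pi_eq_sum_univ' u]
    rw [map_sum]
    refine Finset.sum_congr rfl fun a _ => ?_
    rw [map_smul]
  rw [h3]
  ext b
  simp only [WithLp.ofLp_sum, WithLp.ofLp_smul, Finset.sum_apply, Pi.smul_apply, smul_eq_mul,
    Matrix.mulVec, dotProduct]
  refine Finset.sum_congr rfl fun a _ => ?_
  rw [mul_comm]; rfl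

theorem dPhi_I (h : HolI A S Φ) {ζ : Fin N → ℂ} (hζ : ζ ∈ S) {i : A.ι}
    (hi : Φ ζ ∈ (A.e i).source) (u : Fin N → ℂ) :
    fderiv ℝ (fun y => A.e i (Φ y)) ζ (I • u) = I • fderiv ℝ (fun y => A.e i (Φ y)) ζ u := by
  rw [fderiv_C h hζ hi, fderiv_C h hζ hi, map_smul]

theorem dPhi_inj (h : HolI A S Φ) {ζ : Fin N → ℂ} (hζ : ζ ∈ S) {i : A.ι}
    (hi : Φ ζ ∈ (A.e i).source) {u : Fin N → ℂ}
    (hu : fderiv ℝ (fun y => A.e i (Φ y)) ζ u = 0) : u = 0 := by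
  have h1 := dPhi h hζ hi u
  rw [hu] at h1
  exact Matrix.eq_zero_of_mulVec_eq_zero (h.hol ζ hζ i hi).2 h1.symm

theorem dPhi_surj (h : HolI A S Φ) {ζ : Fin N → ℂ} (hζ : ζ ∈ S) {i : A.ι}
    (hi : Φ ζ ∈ (A.e i).source) (w : Cn N) :
    ∃ u, fderiv ℝ (fun y => A.e i (Φ y)) ζ u = w := by
  refine ⟨(jac A Φ i ζ)⁻¹ *ᵥ w.ofLp, ?_⟩
  have h1 := dPhi h hζ hi ((jac A Φ i ζ)⁻¹ *ᵥ w.ofLp)
  rw [Matrix.mulVec_mulVec, Matrix.mul_nonsing_inv _ (Ne.isUnit (h.hol ζ hζ i hi).2),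
    Matrix.one_mulVec] at h1
  exact (WithLp.ofLp_injective 2) h1

/-! ### the Kaehler form -/

theorem pull_kah (h : HolI A S Φ) (K : Kah A) {ζ : Fin N → ℂ} (hζ : ζ ∈ S) (u v : Fin N → ℂ) :
    pull (ofKah K).f2 Φ ζ u v =
      (I * hb (pbg K Φ ζ) (WithLp.toLp 2 u) (WithLp.toLp 2 v)).re := by
  have hi := mem_ch A (Φ ζ)
  rw [h.smI.pull_eq (ofKah K).f2 (i := ch A (Φ ζ)) hζ hi, pl_apply]
  have h1 := K11.f2_w (ofKah K) (i := ch A (Φ ζ)) ((A.e (ch A (Φ ζ))).map_source hi)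
    (fderiv ℝ (fun y => A.e (ch A (Φ ζ)) (Φ y)) ζ u)
    (fderiv ℝ (fun y => A.e (ch A (Φ ζ)) (Φ y)) ζ v)
  rw [(A.e (ch A (Φ ζ))).left_inv hi] at h1
  refine h1.trans ?_
  congr 2
  exact hb_mulVec (u := WithLp.toLp 2 u) (v := WithLp.toLp 2 v) _ _ (dPhi h hζ hi u)
    (dPhi h hζ hi v)

/-! ### the forms of a hyperkaehler triple -/

variable {V X : Type} [NormedAddCommGroup V] [NormedSpace ℝ V] [TopologicalSpace X] {C : RCh V X}

/-- Cauchy-Schwarz -/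
theorem cs {B : Bil V} (hs : ∀ u v, B u v = B v u) (hp : ∀ v, 0 ≤ B v v) (u v : V) :
    (B u v) ^ 2 ≤ B u u * B v v := by
  by_cases hv : B v v = 0
  · -- `B u v = 0`
    have h1 : ∀ t : ℝ, 0 ≤ B u u + 2 * t * B u v := by
      intro t
      have := hp (u + t • v)
      simp only [map_add, map_smul, add_apply, smul_apply, smul_eq_mul] at this
      rw [hs v u, hv] at this
      linarith
    have h2 : B u v = 0 := by
      by_contra hne
      have h3 := h1 (-(B u u + 1) / (2 * B u v))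
      have h4 : 2 * (-(B u u + 1) / (2 * B u v)) * B u v = -(B u u + 1) := by
        field_simp
      rw [h4] at h3
      linarith
    rw [h2, hv]; simp
  · have hv' : 0 < B v v := lt_of_le_of_ne (hp v) (Ne.symm hv)
    have := hp (B v v • u - B u v • v)
    simp only [map_sub, map_smul, sub_apply, smul_apply, smul_eq_mul] at this
    rw [hs v u] at this
    have h2 : 0 ≤ B v v * (B u u * B v v - (B u v) ^ 2) := by nlinarith
    have h3 := nonneg_of_mul_nonneg_right h2 hv'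
    linarith

theorem om_le (H : HkT C) (k : Fin 3) {i : C.ι} {z : V} (hz : z ∈ (C.e i).target) (u v : V) :
    ((H.om k).w i z u v) ^ 2 ≤
      (H.om 0).w i z u (H.J 0 i z u) * (H.om 0).w i z v (H.J 0 i z v) := by
  have hp : ∀ v, 0 ≤ H.g i z v v := by
    intro v
    by_cases hv : v = 0
    · rw [hv]; simp
    · exact (H.g_pos i z hz v hv).le
  rw [H.om_eq k i z hz, H.om_eq 0 i z hz, H.om_eq 0 i z hz, H.g_J 0 hz, H.g_J 0 hz,
    ← H.g_J k hz u u]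
  exact cs (H.g_symm i z hz) hp _ _

variable (H : HkT (ofAtl A)) (hJ : ∀ (i : A.ι), ∀ z ∈ (A.e i).target, ∀ v : Cn N, H.J 0 i z v = I • v)

include hJ in
theorem pull_T20 (h : HolI A S Φ) : T20 S (pull (H.om 1) Φ) (pull (H.om 2) Φ) := by
  have key : ∀ z ∈ S, ∀ u v, pull (H.om 1) Φ z (I • u) v = -pull (H.om 2) Φ z u v ∧
      pull (H.om 2) Φ z (I • u) v = pull (H.om 1) Φ z u v := by
    intro z hz u v
    have hi := mem_ch A (Φ z)
    have ht := (A.e (ch A (Φ z))).map_source hi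
    rw [h.smI.pull_eq (H.om 1) (i := ch A (Φ z)) hz hi,
      h.smI.pull_eq (H.om 2) (i := ch A (Φ z)) hz hi, pl_apply, pl_apply, pl_apply, pl_apply]
    have h1 := H.om_J (k := 0) (l := 1) (m := 2) (Or.inl rfl) (i := ch A (Φ z)) ht
      (fderiv ℝ (fun y => A.e (ch A (Φ z)) (Φ y)) z u)
      (fderiv ℝ (fun y => A.e (ch A (Φ z)) (Φ y)) z v)
    rw [hJ _ _ ht, ← dPhi_I h hz hi] at h1
    exact h1
  exact {
    op := h.op
    s1 := h.smI.pull_smooth _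
    s2 := h.smI.pull_smooth _
    a1 := (h.smI.pull_cl _).alt
    a2 := (h.smI.pull_cl _).alt
    c1 := (h.smI.pull_cl _).closed
    c2 := (h.smI.pull_cl _).closed
    t1 := fun z hz u v => (key z hz u v).1
    t2 := fun z hz u v => (key z hz u v).2 }

include hJ in
theorem pull_le (h : HolI A S Φ) (k : Fin 3) {ζ : Fin N → ℂ} (hζ : ζ ∈ S) (u v : Fin N → ℂ) :
    (pull (H.om k) Φ ζ u v) ^ 2 ≤
      pull (H.om 0) Φ ζ u (I • u) * pull (H.om 0) Φ ζ v (I • v) := by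
  have hi := mem_ch A (Φ ζ)
  have ht := (A.e (ch A (Φ ζ))).map_source hi
  rw [h.smI.pull_eq (H.om k) (i := ch A (Φ ζ)) hζ hi,
      h.smI.pull_eq (H.om 0) (i := ch A (Φ ζ)) hζ hi, pl_apply, pl_apply, pl_apply]
  have h1 := om_le H k (i := ch A (Φ ζ)) ht
    (fderiv ℝ (fun y => A.e (ch A (Φ ζ)) (Φ y)) ζ u)
    (fderiv ℝ (fun y => A.e (ch A (Φ ζ)) (Φ y)) ζ v)
  rw [hJ _ _ ht, hJ _ _ ht, ← dPhi_I h hζ hi, ← dPhi_I h hζ hi] at h1
  exact h1

/-! ### lower pinching -/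

theorem hb_pinch_low {G G0 : Matrix (Fin N) (Fin N) ℂ} {c ε : ℝ} (hc : 0 ≤ c) (hε : 0 ≤ ε)
    (hup : (G0 - ((c : ℝ) : ℂ) • (1 : Matrix (Fin N) (Fin N) ℂ)).PosSemidef)
    (hcl : ∀ a b, ‖G a b - G0 a b‖ ≤ ε) (u : Fin N → ℂ) :
    (c - ε * N ^ 2) * ‖u‖ ^ 2 ≤ (hb G (WithLp.toLp 2 u) (WithLp.toLp 2 u)).re := by
  have hle : ∀ a, ‖u a‖ ≤ ‖u‖ := fun a => norm_le_pi_norm u a
  have h1 : c * ∑ a, ‖u a‖ ^ 2 ≤ (hb G0 (WithLp.toLp 2 u) (WithLp.toLp 2 u)).re := by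
    have h2 := hup.re_dotProduct_nonneg (fun a => conj (u a))
    have h3 : star (fun a => conj (u a)) = u := by funext a; simp
    rw [h3, Matrix.sub_mulVec, dotProduct_sub, Matrix.smul_mulVec, Matrix.one_mulVec,
      dotProduct_smul] at h2
    have h4 : u ⬝ᵥ (fun a => conj (u a)) = ((∑ a, ‖u a‖ ^ 2 : ℝ) : ℂ) := by
      simp only [dotProduct]
      push_cast
      exact Finset.sum_congr rfl fun a _ => by
        rw [Complex.mul_conj, Complex.normSq_eq_norm_sq]; push_cast; rfl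
    have h5 : u ⬝ᵥ (G0 *ᵥ fun a => conj (u a)) =
        hb G0 (WithLp.toLp 2 u) (WithLp.toLp 2 u) := (hb_eq_dot G0 _ _).symm
    rw [h4, h5] at h2
    simp only [RCLike.re_to_complex, Complex.sub_re, smul_eq_mul] at h2
    rw [← Complex.ofReal_mul, Complex.ofReal_re] at h2
    linarith
  have h6 : ‖u‖ ^ 2 ≤ ∑ a, ‖u a‖ ^ 2 := by
    rcases isEmpty_or_nonempty (Fin N) with hN | hN
    · have : u = 0 := Subsingleton.elim _ _
      rw [this]; simp
    · obtain ⟨a, ha⟩ := Finite.exists_max fun a => ‖u a‖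
      have h7 : ‖u‖ ≤ ‖u a‖ := (pi_norm_le_iff_of_nonneg (norm_nonneg _)).2 ha
      calc ‖u‖ ^ 2 ≤ ‖u a‖ ^ 2 := by gcongr
        _ ≤ ∑ a, ‖u a‖ ^ 2 := Finset.single_le_sum (f := fun a => ‖u a‖ ^ 2)
            (fun i _ => by positivity) (Finset.mem_univ a)
  have h8 : ‖hb (G - G0) (WithLp.toLp 2 u) (WithLp.toLp 2 u)‖ ≤ ε * N ^ 2 * ‖u‖ ^ 2 := by
    unfold hb
    calc ‖∑ a, ∑ b, (G - G0) a b * (WithLp.toLp 2 u : Cn N) a * conj ((WithLp.toLp 2 u : Cn N) b)‖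
        ≤ ∑ a, ∑ b, ‖(G - G0) a b * (WithLp.toLp 2 u : Cn N) a *
            conj ((WithLp.toLp 2 u : Cn N) b)‖ :=
          (norm_sum_le _ _).trans (Finset.sum_le_sum fun a _ => norm_sum_le _ _)
      _ ≤ ∑ _a : Fin N, ∑ _b : Fin N, ε * ‖u‖ ^ 2 := by
          refine Finset.sum_le_sum fun a _ => Finset.sum_le_sum fun b _ => ?_
          rw [norm_mul, norm_mul, RCLike.norm_conj, Matrix.sub_apply]
          calc ‖G a b - G0 a b‖ * ‖u a‖ * ‖u b‖ ≤ ε * ‖u‖ * ‖u‖ := by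
                gcongr
                · exact hcl a b
                · exact hle a
                · exact hle b
            _ = ε * ‖u‖ ^ 2 := by ring
      _ = ε * N ^ 2 * ‖u‖ ^ 2 := by simp; ring
  have h9 : hb G (WithLp.toLp 2 u) (WithLp.toLp 2 u) =
      hb G0 (WithLp.toLp 2 u) (WithLp.toLp 2 u) +
        hb (G - G0) (WithLp.toLp 2 u) (WithLp.toLp 2 u) := by
    rw [← hbL_apply, ← hbL_apply, ← hbL_apply, ← map_add, add_sub_cancel]
  have h10 := (Complex.abs_re_le_norm _).trans h8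
  have h11 := neg_abs_le (hb (G - G0) (WithLp.toLp 2 u) (WithLp.toLp 2 u)).re
  have h12 : c * ‖u‖ ^ 2 ≤ c * ∑ a, ‖u a‖ ^ 2 := by gcongr
  rw [h9, Complex.add_re]
  nlinarith

theorem pull_kah_I (h : HolI A S Φ) (K : Kah A) {ζ : Fin N → ℂ} (hζ : ζ ∈ S) (u : Fin N → ℂ) :
    pull (ofKah K).f2 Φ ζ u (I • u) =
      (hb (pbg K Φ ζ) (WithLp.toLp 2 u) (WithLp.toLp 2 u)).re := by
  rw [pull_kah h K hζ, WithLp.toLp_smul, hb_I_right]
  congr 1
  linear_combination (-(hb (pbg K Φ ζ) (WithLp.toLp 2 u) (WithLp.toLp 2 u))) * Complex.I_sq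

/-! ### derivatives -/

/-- index set of the coefficients -/
def fk (G : (Fin N → ℂ) → Matrix (Fin N) (Fin N) ℂ) (k : Fin N × Fin N × Bool) (ζ : Fin N → ℂ) :
    ℝ :=
  if k.2.2 then (G ζ k.1 k.2.1).im else (G ζ k.1 k.2.1).re

def ck (k : Fin N × Fin N × Bool) (u v : Fin N → ℂ) : ℝ :=
  if k.2.2 then -(I * u k.1 * conj (v k.2.1)).im else (I * u k.1 * conj (v k.2.1)).re

theorem abs_ck_le (k : Fin N × Fin N × Bool) (u v : Fin N → ℂ) : |ck k u v| ≤ ‖u‖ * ‖v‖ := by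
  have h1 : ‖I * u k.1 * conj (v k.2.1)‖ ≤ ‖u‖ * ‖v‖ := by
    rw [norm_mul, norm_mul, Complex.norm_I, one_mul, RCLike.norm_conj]
    gcongr
    · exact norm_le_pi_norm u _
    · exact norm_le_pi_norm v _
  unfold ck
  split_ifs
  · rw [abs_neg]; exact (Complex.abs_im_le_norm _).trans h1
  · exact (Complex.abs_re_le_norm _).trans h1

theorem hb_sum (G : (Fin N → ℂ) → Matrix (Fin N) (Fin N) ℂ) (ζ u v : Fin N → ℂ) :
    (I * hb (G ζ) (WithLp.toLp 2 u) (WithLp.toLp 2 v)).re = ∑ k, fk G k ζ * ck k u v := by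
  rw [Fintype.sum_prod_type]
  simp only [Fintype.sum_prod_type, Fintype.sum_bool]
  unfold hb
  rw [Finset.mul_sum, Complex.re_sum]
  refine Finset.sum_congr rfl fun a _ => ?_
  rw [Finset.mul_sum, Complex.re_sum]
  refine Finset.sum_congr rfl fun b _ => ?_
  have h1 : I * (G ζ a b * (WithLp.toLp 2 u : Cn N) a * conj ((WithLp.toLp 2 v : Cn N) b)) =
      G ζ a b * (I * u a * conj (v b)) := by ring
  rw [h1, Complex.mul_re]
  simp only [fk, ck, if_true, Bool.false_eq_true, if_false]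
  ring

variable {G : (Fin N → ℂ) → Matrix (Fin N) (Fin N) ℂ}

theorem fk_sm (hG : ∀ a b, ContDiffOn ℝ ∞ (fun ζ => G ζ a b) S) (k : Fin N × Fin N × Bool) :
    ContDiffOn ℝ ∞ (fk G k) S := by
  rcases k with ⟨a, b, t⟩
  cases t
  · exact Complex.reCLM.contDiff.comp_contDiffOn (hG a b)
  · exact Complex.imCLM.contDiff.comp_contDiffOn (hG a b)

theorem fk_it (hS : IsOpen S) (hG : ∀ a b, ContDiffOn ℝ ∞ (fun ζ => G ζ a b) S) {ε : ℝ} {n : ℕ}
    {ζ : Fin N → ℂ} (hζ : ζ ∈ S) (hb : ∀ a b, ‖iteratedFDeriv ℝ n (fun ζ => G ζ a b) ζ‖ ≤ ε)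
    (k : Fin N × Fin N × Bool) : ‖iteratedFDeriv ℝ n (fk G k) ζ‖ ≤ ε := by
  have hr : ‖Complex.reCLM‖ ≤ 1 := by rw [Complex.reCLM_norm]
  have hi : ‖Complex.imCLM‖ ≤ 1 := by rw [Complex.imCLM_norm]
  rcases k with ⟨a, b, t⟩
  have hc : ContDiffAt ℝ n (fun ζ => G ζ a b) ζ :=
    ((hG a b).contDiffAt (hS.mem_nhds hζ)).of_le (by exact_mod_cast le_top)
  cases t
  · have h1 := Complex.reCLM.norm_iteratedFDeriv_comp_left hc (n := n) (le_refl _)
    calc ‖iteratedFDeriv ℝ n (fk G (a, b, false)) ζ‖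
        ≤ ‖Complex.reCLM‖ * ‖iteratedFDeriv ℝ n (fun ζ => G ζ a b) ζ‖ := h1
      _ ≤ 1 * ε := by gcongr; exact hb a b
      _ = ε := one_mul ε
  · have h1 := Complex.imCLM.norm_iteratedFDeriv_comp_left hc (n := n) (le_refl _)
    calc ‖iteratedFDeriv ℝ n (fk G (a, b, true)) ζ‖
        ≤ ‖Complex.imCLM‖ * ‖iteratedFDeriv ℝ n (fun ζ => G ζ a b) ζ‖ := h1
      _ ≤ 1 * ε := by gcongr; exact hb a b
      _ = ε := one_mul ε

/-- **derivatives of the Kaehler form** -/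
theorem d_kah (h : HolI A S Φ) (K : Kah A) {ε : ℝ} (hε : 0 ≤ ε)
    (hG : ∀ a b, ContDiffOn ℝ ∞ (fun ζ => pbg K Φ ζ a b) S) {ζ : Fin N → ℂ} (hζ : ζ ∈ S)
    (hb : ∀ a b, ∀ k : ℕ, 1 ≤ k → k ≤ 2 → ‖iteratedFDeriv ℝ k (fun ζ => pbg K Φ ζ a b) ζ‖ ≤ ε) :
    ‖fderiv ℝ (pull (ofKah K).f2 Φ) ζ‖ ≤ 2 * N ^ 2 * ε ∧
      ‖fderiv ℝ (fderiv ℝ (pull (ofKah K).f2 Φ)) ζ‖ ≤ 2 * N ^ 2 * ε := by
  have hF := h.smI.pull_smooth (ofKah K).f2
  have hf : ∀ k ∈ (Finset.univ : Finset (Fin N × Fin N × Bool)),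
      ContDiffOn ℝ ∞ (fk (pbg K Φ) k) S := fun k _ => fk_sm hG k
  have hh : ∀ z ∈ S, ∀ u v, pull (ofKah K).f2 Φ z u v =
      ∑ k, fk (pbg K Φ) k z * ck k u v := fun z hz u v => by
    rw [pull_kah h K hz, hb_sum]
  have hcard : ∀ c : ℝ, ∑ _k : Fin N × Fin N × Bool, c = 2 * N ^ 2 * c := by
    intro c
    rw [Finset.sum_const, Finset.card_univ, nsmul_eq_mul, Fintype.card_prod, Fintype.card_prod,
      Fintype.card_fin, Fintype.card_bool]
    push_cast; ring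
  have b1 : ∀ k a, |fderiv ℝ (fk (pbg K Φ) k) ζ a| ≤ ε * ‖a‖ := by
    intro k a
    have h1 := fk_it h.op hG hζ (fun a b => hb a b 1 (le_refl _) (by norm_num)) k
    rw [norm_iteratedFDeriv_one] at h1
    rw [← Real.norm_eq_abs]
    exact (ContinuousLinearMap.le_opNorm _ _).trans (by gcongr)
  have b2 : ∀ k a b, |fderiv ℝ (fderiv ℝ (fk (pbg K Φ) k)) ζ a b| ≤ ε * ‖a‖ * ‖b‖ := by
    intro k a b
    have h1 := fk_it h.op hG hζ (fun a b => hb a b 2 (by norm_num) (le_refl _)) k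
    rw [← norm_iteratedFDeriv_fderiv (n := 1), norm_iteratedFDeriv_one] at h1
    rw [← Real.norm_eq_abs]
    exact (ContinuousLinearMap.le_opNorm₂ _ _ _).trans (by gcongr)
  constructor
  · refine norm3_le (by positivity) fun a u v => ?_
    rw [sum_d1 Finset.univ h.op (fun z hz => (hF.contDiffAt (h.op.mem_nhds hz)).differentiableAt
      (by simp)) (fun k hk z hz => ((hf k hk).contDiffAt (h.op.mem_nhds hz)).differentiableAt
      (by simp)) hh hζ]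
    calc |∑ k, fderiv ℝ (fk (pbg K Φ) k) ζ a * ck k u v|
        ≤ ∑ k, |fderiv ℝ (fk (pbg K Φ) k) ζ a * ck k u v| := Finset.abs_sum_le_sum_abs _ _
      _ ≤ ∑ _k : Fin N × Fin N × Bool, ε * ‖a‖ * (‖u‖ * ‖v‖) := by
          refine Finset.sum_le_sum fun k _ => ?_
          rw [abs_mul]
          gcongr
          · exact b1 k a
          · exact abs_ck_le k u v
      _ = 2 * N ^ 2 * ε * ‖a‖ * ‖u‖ * ‖v‖ := by rw [hcard]; ring
  · refine norm4_le (by positivity) fun a b u v => ?_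
    rw [sum_d2 Finset.univ h.op hF hf hh hζ]
    calc |∑ k, fderiv ℝ (fderiv ℝ (fk (pbg K Φ) k)) ζ a b * ck k u v|
        ≤ ∑ k, |fderiv ℝ (fderiv ℝ (fk (pbg K Φ) k)) ζ a b * ck k u v| :=
          Finset.abs_sum_le_sum_abs _ _
      _ ≤ ∑ _k : Fin N × Fin N × Bool, ε * ‖a‖ * ‖b‖ * (‖u‖ * ‖v‖) := by
          refine Finset.sum_le_sum fun k _ => ?_
          rw [abs_mul]
          gcongr
          · exact b2 k a b
          · exact abs_ck_le k u v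
      _ = 2 * N ^ 2 * ε * ‖a‖ * ‖b‖ * ‖u‖ * ‖v‖ := by rw [hcard]; ring

end

end Crest.Agent.R281.T5P_808
end

-- ▼ part R281/T5F_808
section

/-!
# R281, T5-ASM (helper808), part 7: from the strip of Theorem S to `TubeD`

* `SB`     : bounds of the forms on a strip, `strip_SB`
* `tubeD`  : `SB` + zero periods ==> `TubeD`
* `t5`     : the final statement with the constants
-/

set_option autoImplicit false
set_option linter.unusedSectionVars false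
set_option maxSynthPendingDepth 3

open Set Filter Topology Complex Metric
open scoped ContDiff Matrix ComplexConjugate ComplexOrder

namespace Crest.Agent.R281.T5F_808

open Crest.Agent.R275.Geo Crest.Agent.R275.Core144 Crest.Agent.R275.EDR890
open Crest.Agent.R273.Defs_333 Crest.Agent.R273.Hess_333 Crest.Agent.R273.HessB_333
open Crest.Agent.R273.HM_333 Crest.Agent.R273.Kah_333 Crest.Agent.R273.Vol_333
open Crest.Agent.R273.Vm_333 Crest.Agent.R273.FIb0_597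
open Crest.Agent.R281.Tor_922 Crest.Agent.R281.SIn_14
open Crest.Agent.R281.HkR_835 Crest.Agent.R281.Per_368 Crest.Agent.R281.T5A_808
open Crest.Agent.R281.T5P_808 Crest.Agent.R281.T5L_808 Crest.Agent.R281.T5M_808
open Crest.Agent.R281.T5D_808
open Crest.Agent.R281.Mc673 (V W tube ClF kv mn isOpen_tube mn_eq_box SP)
open Crest.Agent.R238.Sch (ee norm_ee)
open Crest.Agent.R275.Tor812 (box volume_box)

noncomputable section

variable {N : ℕ} {M : Type} [TopologicalSpace M] {A : Atl N M}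

/-- bounds of the forms on the strip of radius `R` -/
structure SB (H : HkT (ofAtl A)) (Φ : (Fin N → ℂ) → M) (ζ0 : Fin N → ℂ) (R c B δ : ℝ) : Prop where
  lo : ∀ ζ ∈ strip ζ0 R, ∀ u, c * ‖u‖ ^ 2 ≤ pull (H.om 0) Φ ζ u (I • u)
  hi : ∀ ζ ∈ strip ζ0 R, ∀ u, pull (H.om 0) Φ ζ u (I • u) ≤ B * ‖u‖ ^ 2
  bd : ∀ ζ ∈ strip ζ0 R, ∀ k u v, |pull (H.om k) Φ ζ u v| ≤ B * ‖u‖ * ‖v‖
  dx : ∀ ζ ∈ strip ζ0 R, ‖fderiv ℝ (pull (H.om 0) Φ) ζ‖ ≤ δ ∧
    ‖fderiv ℝ (fderiv ℝ (pull (H.om 0) Φ)) ζ‖ ≤ δ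
  dy : ∀ ζ ∈ strip ζ0 R, ‖fderiv ℝ (pull (H.om 2) Φ) ζ‖ ≤ δ ∧
    ‖fderiv ℝ (fderiv ℝ (pull (H.om 2) Φ)) ζ‖ ≤ δ
  inv : ∀ ζ ∈ strip ζ0 R, ∀ u v,
    pull (H.om 0) Φ ζ (I • u) (I • v) = pull (H.om 0) Φ ζ u v
  anti : ∀ ζ ∈ strip ζ0 R, ∀ u v,
    pull (H.om 2) Φ ζ (I • u) (I • v) = -pull (H.om 2) Φ ζ u v

theorem pull_congr {V X : Type} [NormedAddCommGroup V] [NormedSpace ℝ V] [TopologicalSpace X]
    {C : RCh V X} {E : Type*} [NormedAddCommGroup E] [NormedSpace ℝ E] {w w' : F2 C}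
    (h : ∀ i, ∀ z ∈ (C.e i).target, ∀ u v, w.w i z u v = w'.w i z u v) (Φ : E → X) :
    pull w Φ = pull w' Φ := by
  funext ζ
  refine ContinuousLinearMap.ext fun a => ContinuousLinearMap.ext fun b => ?_
  exact h _ _ ((C.e _).map_source (ci_mem C (Φ ζ))) _ _

theorem strip_mono {ζ0 : Fin N → ℂ} {R r : ℝ} (h : R ≤ r) : strip ζ0 R ⊆ strip ζ0 r :=
  fun _ hζ j => (hζ j).trans_le h

theorem ball_sub_strip {ζ0 ζ : Fin N → ℂ} {R r : ℝ} (hζ : ζ ∈ strip ζ0 R) :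
    ball ζ (r - R) ⊆ strip ζ0 r := by
  intro z hz j
  rw [mem_ball, dist_eq_norm] at hz
  have h1 : |(z j).re - (ζ j).re| ≤ ‖z - ζ‖ := by
    rw [← Complex.sub_re, ← Pi.sub_apply]
    exact (Complex.abs_re_le_norm _).trans (norm_le_pi_norm _ j)
  have h2 := hζ j
  calc |(z j).re - (ζ0 j).re| ≤ |(z j).re - (ζ j).re| + |(ζ j).re - (ζ0 j).re| :=
        abs_sub_le _ _ _
    _ < r := by linarith

/-- **bounds on the strip** -/
theorem strip_SB (K : Kah A) (H : HkT (ofAtl A)) {F : M → Fin N → ℂ} {d : ℕ} {ζ0 : Fin N → ℂ}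
    {r R : ℝ} {Lam : AddSubgroup (Fin N → ℂ)} {Φ : (Fin N → ℂ) → M}
    {G0 : Matrix (Fin N) (Fin N) ℂ} {e K1 δ : ℝ} (hK1 : 0 < K1) (he : 0 ≤ e) (he1 : e ≤ 1)
    (he2 : e * N ^ 2 ≤ K1⁻¹ / 2) (he3 : 2 * N ^ 2 * e ≤ δ) (hRr : R + 1 ≤ r)
    (hr : 8 * Bq N K1 ≤ δ * (r - R)) (h : Strip A F d ζ0 r Lam Φ)
    (hlo : (G0 - ((K1⁻¹ : ℝ) : ℂ) • (1 : Matrix (Fin N) (Fin N) ℂ)).PosSemidef)
    (hup : (((K1 : ℝ) : ℂ) • (1 : Matrix (Fin N) (Fin N) ℂ) - G0).PosSemidef)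
    (hcl : CloseC2 (pbg K Φ) G0 (strip ζ0 r) e)
    (hom : ∀ (i : A.ι), ∀ z ∈ (A.e i).target, ∀ u v : Cn N,
      (H.om 0).w i z u v = (ofKah K).f2.w i z u v)
    (hJ : ∀ (i : A.ι), ∀ z ∈ (A.e i).target, ∀ v : Cn N, H.J 0 i z v = I • v) :
    SB H Φ ζ0 R (K1⁻¹ / 2) (Bq N K1) δ := by
  have hh := strip_holI h
  have hX : pull (H.om 0) Φ = pull (ofKah K).f2 Φ := pull_congr hom Φ
  have hB : 0 ≤ Bq N K1 := by unfold Bq; positivity
  have hsub : strip ζ0 R ⊆ strip ζ0 r := strip_mono (by linarith)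
  have hq : ∀ ζ ∈ strip ζ0 r, ∀ u, pull (H.om 0) Φ ζ u (I • u) ≤ Bq N K1 * ‖u‖ ^ 2 := by
    intro ζ hζ u
    rw [hX, pull_kah_I hh K hζ]
    refine (hb_pinch hK1.le he hup (fun a b => (hcl.2 ζ hζ a b).1) u).trans ?_
    have : K1 * N + e * N ^ 2 ≤ Bq N K1 := by
      unfold Bq
      nlinarith [sq_nonneg (N : ℝ)]
    gcongr
  have hql : ∀ ζ ∈ strip ζ0 r, ∀ u, K1⁻¹ / 2 * ‖u‖ ^ 2 ≤ pull (H.om 0) Φ ζ u (I • u) := by
    intro ζ hζ u
    rw [hX, pull_kah_I hh K hζ]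
    refine le_trans ?_ (hb_pinch_low (inv_nonneg.2 hK1.le) he hlo
      (fun a b => (hcl.2 ζ hζ a b).1) u)
    have : K1⁻¹ / 2 ≤ K1⁻¹ - e * N ^ 2 := by linarith
    gcongr
  have hbd : ∀ ζ ∈ strip ζ0 r, ∀ k u v, |pull (H.om k) Φ ζ u v| ≤ Bq N K1 * ‖u‖ * ‖v‖ := by
    intro ζ hζ k u v
    have h1 := pull_le H hJ hh k hζ u v
    have h2 : 0 ≤ pull (H.om 0) Φ ζ u (I • u) :=
      le_trans (by positivity) (hql ζ hζ u)
    have h3 : (pull (H.om k) Φ ζ u v) ^ 2 ≤ (Bq N K1 * ‖u‖ * ‖v‖) ^ 2 := by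
      calc (pull (H.om k) Φ ζ u v) ^ 2
          ≤ pull (H.om 0) Φ ζ u (I • u) * pull (H.om 0) Φ ζ v (I • v) := h1
        _ ≤ (Bq N K1 * ‖u‖ ^ 2) * (Bq N K1 * ‖v‖ ^ 2) :=
            mul_le_mul (hq ζ hζ u) (hq ζ hζ v) (le_trans (by positivity) (hql ζ hζ v))
              (by positivity)
        _ = (Bq N K1 * ‖u‖ * ‖v‖) ^ 2 := by ring
    exact abs_le_of_sq_le_sq h3 (by positivity)
  have hT := pull_T20 H hJ hh
  have hrR : 0 < r - R := by linarith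
  have hyb : ∀ ζ ∈ strip ζ0 R, (∀ a u v, |fderiv ℝ (pull (H.om 2) Φ) ζ a u v| ≤
      δ * ‖a‖ * ‖u‖ * ‖v‖) ∧ ∀ a b u v, |fderiv ℝ (fderiv ℝ (pull (H.om 2) Φ)) ζ a b u v| ≤
      δ * ‖a‖ * ‖b‖ * ‖u‖ * ‖v‖ := by
    intro ζ hζ
    have hsb := ball_sub_strip (r := r) hζ
    have e1 : 2 * Bq N K1 / (r - R) ≤ δ := by
      rw [div_le_iff₀ hrR]; linarith
    have e2 : 8 * Bq N K1 / (r - R) ^ 2 ≤ δ := by
      rw [div_le_iff₀ (by positivity)]
      have h5 : δ * (r - R) ≤ δ * (r - R) ^ 2 := by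
        have h6 : 0 ≤ δ := by
          have : 0 ≤ δ * (r - R) := le_trans (by positivity) hr
          exact nonneg_of_mul_nonneg_left this hrR
        have h7 : r - R ≤ (r - R) ^ 2 := by nlinarith
        gcongr
      linarith
    refine ⟨fun a u v => ?_, fun a b u v => ?_⟩
    · have h5 := (hT.bd1 hrR hsb (fun x hx u v => hbd x (hsb hx) 1 u v)
        (fun x hx u v => hbd x (hsb hx) 2 u v) a u v).2
      refine h5.trans ?_
      gcongr
    · have h5 := (hT.bd2 hrR hsb (fun x hx u v => hbd x (hsb hx) 1 u v)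
        (fun x hx u v => hbd x (hsb hx) 2 u v) a b u v).2
      refine h5.trans ?_
      gcongr
  have hδ : 0 ≤ δ := by
    have : 0 ≤ δ * (r - R) := le_trans (by positivity) hr
    exact nonneg_of_mul_nonneg_left this hrR
  refine ⟨fun ζ hζ => hql ζ (hsub hζ), fun ζ hζ => hq ζ (hsub hζ), fun ζ hζ => hbd ζ (hsub hζ),
    fun ζ hζ => ?_, fun ζ hζ => ?_, fun ζ hζ u v => ?_, fun ζ hζ u v => ?_⟩
  · rw [hX]
    have h1 := d_kah hh K he hcl.1 (hsub hζ) (fun a b k hk hk' => (hcl.2 ζ (hsub hζ) a b).2 k hk hk')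
    exact ⟨h1.1.trans he3, h1.2.trans he3⟩
  · exact ⟨norm3_le hδ (hyb ζ hζ).1, norm4_le hδ (hyb ζ hζ).2⟩
  · rw [hX, pull_kah hh K (hsub hζ), pull_kah hh K (hsub hζ), WithLp.toLp_smul, WithLp.toLp_smul,
      hb_I_left, hb_I_right]
    congr 1
    have := Complex.I_sq
    linear_combination (-(I * hb (pbg K Φ ζ) (WithLp.toLp 2 u) (WithLp.toLp 2 v))) * Complex.I_sq
  · have h1 := hT.t2 ζ (hsub hζ) u (I • v)
    have h2 := hT.a1 ζ (hsub hζ) u (I • v)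
    have h3 := hT.t1 ζ (hsub hζ) v u
    have h4 := hT.a2 ζ (hsub hζ) u v
    rw [h1, h2, h3, h4]

/-- convexity of the tube -/
theorem convex_tube (N : ℕ) (R : ℝ) : Convex ℝ (tube N R) := by
  intro p hp q hq a b ha hb hab
  show ‖(a • p + b • q).2‖ < R
  have h1 : (a • p + b • q).2 = a • p.2 + b • q.2 := rfl
  have hp' : ‖p.2‖ < R := hp
  have hq' : ‖q.2‖ < R := hq
  rw [h1]
  calc ‖a • p.2 + b • q.2‖ ≤ a * ‖p.2‖ + b * ‖q.2‖ := by
        refine (norm_add_le _ _).trans ?_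
        rw [norm_smul, norm_smul, Real.norm_of_nonneg ha, Real.norm_of_nonneg hb]
    _ < R := by
        rcases eq_or_lt_of_le ha with h0 | h0
        · have hb1 : b = 1 := by linarith
          rw [← h0, hb1]; linarith
        · have h2 : a * ‖p.2‖ < a * R := by gcongr
          have h3 : b * ‖q.2‖ ≤ b * R := by gcongr
          have h4 : a * R + b * R = R := by rw [← add_mul, hab, one_mul]
          linarith

/-- a periodic form with zero mean values and small derivative is small on the `θ` directions -/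
theorem small_hh {R δ : ℝ} (hR : 0 < R) {x : Crest.Agent.R281.Mc673.Fo N} (hx : ClF R x)
    (hd : ∀ p ∈ tube N R, ‖fderiv ℝ x p‖ ≤ δ)
    (h0 : ∀ j k, mn (fun θ => x (θ, 0) (ee j, 0) (ee k, 0)) = 0) {p : W N} (hp : p ∈ tube N R)
    (u v : V N) : |x p (u, 0) (v, 0)| ≤ N ^ 2 * (N + R) * δ * ‖u‖ * ‖v‖ := by
  have hδ : 0 ≤ δ := (norm_nonneg _).trans (hd p hp)
  have hz : ∀ θ : V N, ((θ, 0) : W N) ∈ tube N R := fun θ => by
    show ‖(0 : V N)‖ < R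
    rw [norm_zero]; exact hR
  have hlip : ∀ p ∈ tube N R, ∀ q ∈ tube N R, ‖x p - x q‖ ≤ δ * ‖p - q‖ := fun p hp q hq =>
    (convex_tube N R).norm_image_sub_le_of_norm_fderiv_le (fun z hz => hx.da hz)
      (fun z hz => hd z hz) hq hp
  have ne : ∀ j : Fin N, ‖((ee j, 0) : W N)‖ = 1 := fun j => by
    rw [Prod.norm_mk, norm_zero, norm_ee, max_eq_left zero_le_one]
  have hsp : ∀ j k, SP (fun θ : V N => x (θ, 0) (ee j, 0) (ee k, 0)) := by
    intro j k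
    refine ⟨?_, fun m θ => ?_⟩
    · refine contDiff_iff_contDiffAt.2 fun θ => ?_
      have h1 : ContDiffAt ℝ ∞ (fun θ : V N => x (θ, 0)) θ :=
        ContDiffAt.comp θ (hx.cda (p := (θ, 0)) (hz θ)) (contDiffAt_id.prodMk contDiffAt_const)
      exact (h1.clm_apply contDiffAt_const).clm_apply contDiffAt_const
    · show x (θ + kv m, 0) _ _ = _
      rw [hx.per m (θ, 0) (hz θ)]
  -- the centre
  have hc : ∀ j k (θ : V N), |x (θ, 0) (ee j, 0) (ee k, 0)| ≤ δ * N := by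
    intro j k θ
    set f : V N → ℝ := fun θ => x (θ, 0) (ee j, 0) (ee k, 0) with hf
    have h1 := mn_eq_box (hsp j k) (WithLp.ofLp θ)
    rw [h0 j k] at h1
    have hfd : ∀ θ' : V N, |f θ - f θ'| ≤ δ * ‖θ - θ'‖ := by
      intro θ'
      have h2 : f θ - f θ' = (x (θ, 0) - x (θ', 0)) (ee j, 0) (ee k, 0) := rfl
      rw [h2]
      have h3 := le_norm2 (x (θ, 0) - x (θ', 0)) ((ee j, 0) : W N) ((ee k, 0) : W N)
      rw [ne, ne, mul_one, mul_one] at h3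
      refine h3.trans ((hlip _ (hz θ) _ (hz θ')).trans ?_)
      have h4 : ‖((θ, 0) : W N) - (θ', 0)‖ = ‖θ - θ'‖ := by
        rw [Prod.mk_sub_mk, sub_self, Prod.norm_mk, norm_zero, max_eq_left (norm_nonneg _)]
      rw [h4]
    set μ : MeasureTheory.Measure (Fin N → ℝ) :=
      MeasureTheory.volume.restrict (box (WithLp.ofLp θ)) with hμ
    have hμ1 : μ univ = 1 := by
      rw [hμ, MeasureTheory.Measure.restrict_apply MeasurableSet.univ, univ_inter, volume_box]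
    have : MeasureTheory.IsProbabilityMeasure μ := ⟨hμ1⟩
    obtain ⟨B, -, hB⟩ := (hsp j k).per.bdd (hsp j k).cont
    have hint : MeasureTheory.Integrable (fun x : Fin N → ℝ => f (WithLp.toLp 2 x)) μ :=
      MeasureTheory.Integrable.of_bound
        (((hsp j k).cont.comp (PiLp.continuous_toLp 2 _)).aestronglyMeasurable) B
        (Eventually.of_forall fun x => hB _)
    have h5 : f θ = ∫ y, (f θ - f (WithLp.toLp 2 y)) ∂μ := by
      rw [MeasureTheory.integral_sub (MeasureTheory.integrable_const _) hint,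
        MeasureTheory.integral_const]
      rw [← h1, sub_zero, MeasureTheory.measureReal_def, hμ1]
      simp
    have h6 : ‖∫ y, (f θ - f (WithLp.toLp 2 y)) ∂μ‖ ≤ δ * N * μ.real univ := by
      refine MeasureTheory.norm_integral_le_of_norm_le_const ?_
      rw [hμ]
      refine (MeasureTheory.ae_restrict_iff' ?_).2 (Eventually.of_forall fun y hy => ?_)
      · exact Crest.Agent.R275.Tor812.box_measurable _
      · rw [Real.norm_eq_abs]
        refine (hfd _).trans ?_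
        have h7 : θ - WithLp.toLp 2 y = WithLp.toLp 2 (WithLp.ofLp θ - y) := rfl
        rw [h7]
        have h8 : ‖WithLp.ofLp θ - y‖ ≤ 1 := by
          refine (pi_norm_le_iff_of_nonneg zero_le_one).2 fun i => ?_
          have h9 : y i ∈ Ioc (θ i) (θ i + 1) := hy i
          rw [Real.norm_eq_abs, abs_le]
          show -1 ≤ θ i - y i ∧ θ i - y i ≤ 1
          constructor
          · linarith [h9.2]
          · linarith [h9.1]
        have h10 := (norm_toLp_le (WithLp.ofLp θ - y)).trans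
          (mul_le_mul_of_nonneg_left h8 (Nat.cast_nonneg N))
        rw [mul_one] at h10
        gcongr
    rw [← h5, MeasureTheory.measureReal_def, hμ1, Real.norm_eq_abs] at h6
    simpa using h6
  -- everywhere
  have hj : ∀ j k, |x p (ee j, 0) (ee k, 0)| ≤ (N + R) * δ := by
    intro j k
    have h1 := hlip p hp (p.1, 0) (hz p.1)
    have h2 : ‖p - (p.1, 0)‖ ≤ R := by
      have h3 : p - (p.1, 0) = (0, p.2) := by
        refine Prod.ext ?_ ?_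
        · show p.1 - p.1 = 0
          rw [sub_self]
        · show p.2 - 0 = p.2
          rw [sub_zero]
      rw [h3, Prod.norm_mk, norm_zero, max_eq_right (norm_nonneg _)]
      exact (show ‖p.2‖ < R from hp).le
    have h4 := le_norm2 (x p - x (p.1, 0)) ((ee j, 0) : W N) ((ee k, 0) : W N)
    rw [ne, ne, mul_one, mul_one] at h4
    have h5 : (x p - x (p.1, 0)) (ee j, 0) (ee k, 0) =
      x p (ee j, 0) (ee k, 0) - x (p.1, 0) (ee j, 0) (ee k, 0) := rfl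
    rw [h5] at h4
    have h6 := hc j k p.1
    have h7 : δ * ‖p - (p.1, 0)‖ ≤ δ * R := by gcongr
    have h8 := abs_sub_abs_le_abs_sub (x p (ee j, 0) (ee k, 0)) (x (p.1, 0) (ee j, 0) (ee k, 0))
    nlinarith
  have hu : ∀ u : V N, ((u, 0) : W N) = ∑ j, u j • ((ee j, 0) : W N) := by
    intro u
    have h1 : (∑ j, u j • ((ee j, 0) : W N)).1 = u := by
      rw [Prod.fst_sum]
      have : ∀ j, (u j • ((ee j, 0) : W N)).1 = u j • (ee j : V N) := fun j => rfl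
      simp_rw [this]
      ext i
      simp [ee, Pi.single_apply]
    have h2 : (∑ j, u j • ((ee j, 0) : W N)).2 = 0 := by
      rw [Prod.snd_sum]
      refine Finset.sum_eq_zero fun j _ => ?_
      show u j • (0 : V N) = 0
      rw [smul_zero]
    exact Prod.ext h1.symm h2.symm
  rw [hu u, hu v]
  simp only [map_sum, map_smul, sum_apply, smul_apply, smul_eq_mul]
  calc |∑ j, v j * ∑ i, u i * x p (ee i, 0) (ee j, 0)|
      ≤ ∑ j, ‖v‖ * ∑ i : Fin N, ‖u‖ * ((N + R) * δ) := by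
        refine (Finset.abs_sum_le_sum_abs _ _).trans (Finset.sum_le_sum fun j _ => ?_)
        rw [abs_mul]
        gcongr
        · exact PiLp.norm_apply_le v j
        · refine (Finset.abs_sum_le_sum_abs _ _).trans (Finset.sum_le_sum fun i _ => ?_)
          rw [abs_mul]
          gcongr
          · exact PiLp.norm_apply_le u i
          · exact hj i j
    _ = N ^ 2 * (N + R) * δ * ‖u‖ * ‖v‖ := by
        simp only [Finset.sum_const, Finset.card_univ, Fintype.card_fin, nsmul_eq_mul]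
        ring

/-- `T (0, v) = -i T (A⁻¹ v, 0)` -/
theorem TT_snd (A' : (Fin N → ℝ) ≃L[ℝ] (Fin N → ℝ)) (v : V N) :
    TT A' ((0, v) : W N) = -(I • TT A' ((WithLp.toLp 2 (A'.symm (WithLp.ofLp v)), 0) : W N)) := by
  funext j
  rw [TT_apply, Pi.neg_apply, Pi.smul_apply, TT_apply]
  have h1 : A' (WithLp.ofLp (WithLp.toLp 2 (A'.symm (WithLp.ofLp v)) : V N)) = WithLp.ofLp v :=
    A'.apply_symm_apply _
  show ((v j : ℝ) : ℂ) + ((A' (WithLp.ofLp (0 : V N)) j : ℝ) : ℂ) * I =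
    -(I * ((((0 : V N) j : ℝ) : ℂ) +
      ((A' (WithLp.ofLp (WithLp.toLp 2 (A'.symm (WithLp.ofLp v)) : V N)) j : ℝ) : ℂ) * I))
  rw [h1]
  have h2 : A' (WithLp.ofLp (0 : V N)) = 0 := by rw [WithLp.ofLp_zero, map_zero]
  rw [h2]
  simp only [Pi.zero_apply, Complex.ofReal_zero, zero_mul, add_zero, PiLp.zero_apply, zero_add]
  linear_combination ((v j : ℝ) : ℂ) * Complex.I_sq

set_option maxHeartbeats 2000000 in
/-- **from the bounds on the strip to `TubeD`** -/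
theorem tubeD (H : HkT (ofAtl A)) (hJ : ∀ (i : A.ι), ∀ z ∈ (A.e i).target, ∀ v : Cn N,
      H.J 0 i z v = I • v) {F : M → Fin N → ℂ} {d : ℕ} {ζ0 : Fin N → ℂ}
    {r R : ℝ} {Lam : AddSubgroup (Fin N → ℂ)} {Φ : (Fin N → ℂ) → M} {c B δ1 δ Λ M' : ℝ}
    (h : Strip A F d ζ0 r Lam Φ) (hR : 0 < R) (hRr : R ≤ r) (hc : 0 < c) (hB : 0 ≤ B)
    (hb : SB H Φ ζ0 R c B δ1) (A' : (Fin N → ℝ) ≃L[ℝ] (Fin N → ℝ))
    (hA1 : ‖(A' : (Fin N → ℝ) →L[ℝ] (Fin N → ℝ))‖ ≤ M')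
    (hA2 : ‖(A'.symm : (Fin N → ℝ) →L[ℝ] (Fin N → ℝ))‖ ≤ M')
    (hA : ∀ θ : Fin N → ℝ, (fun j => ((A' θ j : ℝ) : ℂ) * I) ∈ Lam ↔ ∀ j, ∃ n : ℤ, θ j = n)
    (hper : ∀ l ∈ Lam, ∀ l' ∈ Lam, ‖l‖ ≤ M' → ‖l'‖ ≤ M' → ∀ z ∈ strip ζ0 r,
      per (pull (H.om 0) Φ) z l l' = 0 ∧ per (pull (H.om 2) Φ) z l l' = 0)
    (hΛ1 : B * (1 + M') ^ 2 ≤ Λ) (hΛ2 : c⁻¹ * (N * (1 + M')) ^ 2 ≤ Λ)
    (hδ : δ1 * (1 + M') ^ 4 * (N ^ 2 * (N + R) + 1) * (1 + (N * M') ^ 2) ≤ δ) :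
    TubeD (ofAtl A) (H.om 0) (H.om 2) N R Λ δ (fun p => Φ (ζ0 + TT A' p)) := by
  have hM0 : 0 ≤ M' := (norm_nonneg _).trans hA1
  have hsi := strip_smI h
  have hh := strip_holI h
  have hT := norm_TT_le hA1
  have hmem : ∀ p ∈ tube N R, ζ0 + TT A' p ∈ strip ζ0 R := fun p hp => TT_mem_strip hp
  have hmem' : ∀ p ∈ tube N R, ζ0 + TT A' p ∈ strip ζ0 r := fun p hp =>
    strip_mono hRr (hmem p hp)
  have hsm : SmI (ofAtl A) (tube N R) (fun p => Φ (ζ0 + TT A' p)) :=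
    (hsi.comp_affine (TT A') ζ0).mono (fun p hp => hmem' p hp) (isOpen_tube R)
  have hpu : ∀ w : F2 (ofAtl A), ∀ p ∈ tube N R, ∀ u v,
      pull w (fun p => Φ (ζ0 + TT A' p)) p u v = pull w Φ (ζ0 + TT A' p) (TT A' u) (TT A' v) :=
    fun w p hp u v => hsi.pull_affine (TT A') ζ0 w (hmem' p hp) u v
  have hΘ : ∀ (k : Fin N → ℤ), ∀ p ∈ tube N R, (fun p => Φ (ζ0 + TT A' p)) (p.1 + kv k, p.2) =
      (fun p => Φ (ζ0 + TT A' p)) p := by
    intro k p hp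
    have hp' : ((p.1 + kv k, p.2) : W N) ∈ tube N R := hp
    refine (h.eq_iff _ (hmem' _ hp') _ (hmem' p hp)).2 ?_
    have h1 : ζ0 + TT A' (p.1 + kv k, p.2) - (ζ0 + TT A' p) =
        TT A' (p.1 + kv k, p.2) - TT A' p := by abel
    rw [h1, TT_sub_mem h.le_lat hA]
    exact ⟨k, rfl⟩
  have hcl : ∀ w : F2 (ofAtl A), ClF R (pull w (fun p => Φ (ζ0 + TT A' p))) := by
    intro w
    refine ⟨hsm.pull_smooth w, (hsm.pull_cl w).alt, (hsm.pull_cl w).closed, fun k p hp => ?_⟩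
    have h1 := hsm.pull_add w (l := ((kv k, 0) : W N)) (fun q hq => ?_) hp
    · have h2 : p + ((kv k, 0) : W N) = (p.1 + kv k, p.2) := by
        refine Prod.ext rfl ?_
        show p.2 + 0 = p.2
        rw [add_zero]
      rw [h2] at h1
      exact h1
    · have h2 : q + ((kv k, 0) : W N) = (q.1 + kv k, q.2) := by
        refine Prod.ext rfl ?_
        show q.2 + 0 = q.2
        rw [add_zero]
      rw [h2]
      exact ⟨hq, hΘ k q hq⟩
  have hδ1 : 0 ≤ δ1 := by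
    have h0 : ζ0 ∈ strip ζ0 R := fun j => by rw [sub_self, abs_zero]; exact hR
    exact (norm_nonneg _).trans (hb.dx ζ0 h0).1
  have hone : 1 ≤ 1 + M' := by linarith
  have hNR : (0 : ℝ) ≤ N ^ 2 * (N + R) := by positivity
  -- constants
  have k4 : δ1 * (1 + M') ^ 4 ≤ δ := by
    refine le_trans ?_ hδ
    have h1 : δ1 * (1 + M') ^ 4 * 1 * 1 ≤
        δ1 * (1 + M') ^ 4 * (N ^ 2 * (N + R) + 1) * (1 + (N * M') ^ 2) := by
      gcongr
      · linarith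
      · nlinarith [sq_nonneg ((N : ℝ) * M')]
    linarith
  have k3 : δ1 * (1 + M') ^ 3 ≤ δ := by
    refine le_trans ?_ k4
    exact mul_le_mul_of_nonneg_left (pow_le_pow_right₀ hone (by norm_num)) hδ1
  have ha : ∀ w : F2 (ofAtl A), ∀ p ∈ tube N R,
      ‖pull w (fun p => Φ (ζ0 + TT A' p)) p‖ ≤ ‖pull w Φ (ζ0 + TT A' p)‖ * ‖TT A'‖ ^ 2 ∧
      ‖fderiv ℝ (pull w (fun p => Φ (ζ0 + TT A' p))) p‖ ≤
        ‖fderiv ℝ (pull w Φ) (ζ0 + TT A' p)‖ * ‖TT A'‖ ^ 3 ∧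
      ‖fderiv ℝ (fderiv ℝ (pull w (fun p => Φ (ζ0 + TT A' p)))) p‖ ≤
        ‖fderiv ℝ (fderiv ℝ (pull w Φ)) (ζ0 + TT A' p)‖ * ‖TT A'‖ ^ 4 := fun w p hp =>
    affine_bd (isOpen_strip ζ0 r) (isOpen_tube R) (TT A') ζ0 (hsi.pull_smooth w)
      (hsm.pull_smooth w) hmem' (hpu w) hp
  have hbd : ∀ k : Fin 3, ∀ p ∈ tube N R, ‖pull (H.om k) (fun p => Φ (ζ0 + TT A' p)) p‖ ≤ Λ := by
    intro k p hp
    refine (ha (H.om k) p hp).1.trans (le_trans ?_ hΛ1)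
    have h1 : ‖pull (H.om k) Φ (ζ0 + TT A' p)‖ ≤ B :=
      norm2_le hB fun u v => hb.bd _ (hmem p hp) k u v
    gcongr
  have hd3 : ∀ w : F2 (ofAtl A), (∀ ζ ∈ strip ζ0 R, ‖fderiv ℝ (pull w Φ) ζ‖ ≤ δ1 ∧
      ‖fderiv ℝ (fderiv ℝ (pull w Φ)) ζ‖ ≤ δ1) → ∀ p ∈ tube N R,
      ‖fderiv ℝ (pull w (fun p => Φ (ζ0 + TT A' p))) p‖ ≤ δ1 * (1 + M') ^ 3 ∧
      ‖fderiv ℝ (fderiv ℝ (pull w (fun p => Φ (ζ0 + TT A' p)))) p‖ ≤ δ1 * (1 + M') ^ 4 := by
    intro w hw p hp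
    have h1 := (ha w p hp).2
    have h2 := hw _ (hmem p hp)
    refine ⟨h1.1.trans ?_, h1.2.trans ?_⟩
    · gcongr
      exact h2.1
    · gcongr
      exact h2.2
  have hx := hd3 (H.om 0) hb.dx
  have hy := hd3 (H.om 2) hb.dy
  -- periods
  have hee : ∀ j : Fin N, TT A' ((ee j, 0) : W N) ∈ Lam ∧ ‖TT A' ((ee j, 0) : W N)‖ ≤ M' := by
    intro j
    have h1 : TT A' ((ee j, 0) : W N) =
        fun i => ((A' (WithLp.ofLp (ee j : V N)) i : ℝ) : ℂ) * I := by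
      funext i
      rw [TT_apply]
      show (((0 : V N) i : ℝ) : ℂ) + _ = _
      simp
    constructor
    · rw [h1, hA]
      intro i
      by_cases hij : i = j
      · subst hij
        exact ⟨1, by simp [ee]⟩
      · exact ⟨0, by simp [ee, hij]⟩
    · rw [h1]
      refine (pi_norm_le_iff_of_nonneg hM0).2 fun i => ?_
      rw [norm_mul, Complex.norm_I, mul_one, Complex.norm_real]
      have h2 : ‖A' (WithLp.ofLp (ee j : V N))‖ ≤ M' * ‖WithLp.ofLp (ee j : V N)‖ :=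
        ((A' : (Fin N → ℝ) →L[ℝ] (Fin N → ℝ)).le_opNorm _).trans (by gcongr)
      have h3 : ‖WithLp.ofLp (ee j : V N)‖ ≤ 1 :=
        (pi_norm_le_iff_of_nonneg zero_le_one).2 fun i => by
          have := PiLp.norm_apply_le (ee j : V N) i
          rw [norm_ee] at this
          exact this
      calc ‖A' (WithLp.ofLp (ee j : V N)) i‖ ≤ ‖A' (WithLp.ofLp (ee j : V N))‖ :=
            norm_le_pi_norm _ i
        _ ≤ M' * ‖WithLp.ofLp (ee j : V N)‖ := h2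
        _ ≤ M' * 1 := by gcongr
        _ = M' := mul_one _
  have hp0 : ∀ w : F2 (ofAtl A), (∀ l ∈ Lam, ∀ l' ∈ Lam, ‖l‖ ≤ M' → ‖l'‖ ≤ M' →
      ∀ z ∈ strip ζ0 r, per (pull w Φ) z l l' = 0) → ∀ j k,
      mn (fun θ => pull w (fun p => Φ (ζ0 + TT A' p)) (θ, 0) (ee j, 0) (ee k, 0)) = 0 := by
    intro w hw j k
    refine mn_zero hR (hcl w) j k fun θ => ?_
    have hz : ∀ θ : V N, ((θ, 0) : W N) ∈ tube N R := fun θ => by
      show ‖(0 : V N)‖ < R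
      rw [norm_zero]; exact hR
    rw [hsi.per_pull_affine (TT A') ζ0 w (z := ((θ, 0) : W N)) (v := ((ee j, 0) : W N))
      (v' := ((ee k, 0) : W N)) (fun s _ t _ => ?_)]
    · exact hw _ (hee j).1 _ (hee k).1 (hee j).2 (hee k).2 _ (hmem' _ (hz θ))
    · refine hmem' _ ?_
      have e : pt ((θ, 0) : W N) ((ee j, 0) : W N) ((ee k, 0) : W N) s t =
          ((θ + s • ee j + t • ee k, 0) : W N) := by
        refine Prod.ext rfl ?_
        simp [pt]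
      rw [e]
      exact hz _
  have hp1 := hp0 (H.om 0) fun l hl l' hl' h1 h2 z hz => (hper l hl l' hl' h1 h2 z hz).1
  have hp2 := hp0 (H.om 2) fun l hl l' hl' h1 h2 z hz => (hper l hl l' hl' h1 h2 z hz).2
  -- smallness of the `θθ` part
  set sδ : ℝ := N ^ 2 * (N + R) * (δ1 * (1 + M') ^ 3) with hsδ
  have hs0 : 0 ≤ sδ := by positivity
  have hh1 : ∀ p ∈ tube N R, ∀ u v : V N,
      |pull (H.om 0) (fun p => Φ (ζ0 + TT A' p)) p (u, 0) (v, 0)| ≤ sδ * ‖u‖ * ‖v‖ :=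
    fun p hp u v => small_hh hR (hcl _) (fun q hq => (hx q hq).1) hp1 hp u v
  have hh2 : ∀ p ∈ tube N R, ∀ u v : V N,
      |pull (H.om 2) (fun p => Φ (ζ0 + TT A' p)) p (u, 0) (v, 0)| ≤ sδ * ‖u‖ * ‖v‖ :=
    fun p hp u v => small_hh hR (hcl _) (fun q hq => (hy q hq).1) hp2 hp u v
  have hsd : sδ * (1 + (N * M') ^ 2) ≤ δ := by
    refine le_trans ?_ hδ
    have h1 : sδ ≤ δ1 * (1 + M') ^ 4 * (N ^ 2 * (N + R) + 1) := by
      rw [hsδ]
      have h2 : δ1 * (1 + M') ^ 3 ≤ δ1 * (1 + M') ^ 4 :=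
        mul_le_mul_of_nonneg_left (pow_le_pow_right₀ hone (by norm_num)) hδ1
      have h3 : (0 : ℝ) ≤ δ1 * (1 + M') ^ 4 := by positivity
      calc (N : ℝ) ^ 2 * (N + R) * (δ1 * (1 + M') ^ 3)
          ≤ (N : ℝ) ^ 2 * (N + R) * (δ1 * (1 + M') ^ 4) := by gcongr
        _ ≤ δ1 * (1 + M') ^ 4 * (N ^ 2 * (N + R) + 1) := by nlinarith
    gcongr
  have hsd1 : sδ ≤ δ := by
    refine le_trans ?_ hsd
    nlinarith [sq_nonneg ((N : ℝ) * M')]
  have hinvn : ∀ u : V N, ‖(WithLp.toLp 2 (A'.symm (WithLp.ofLp u)) : V N)‖ ≤ N * M' * ‖u‖ := by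
    intro u
    refine (norm_toLp_le _).trans ?_
    rw [mul_assoc]
    gcongr
    calc ‖A'.symm (WithLp.ofLp u)‖ ≤ M' * ‖WithLp.ofLp u‖ :=
          ((A'.symm : (Fin N → ℝ) →L[ℝ] (Fin N → ℝ)).le_opNorm _).trans (by gcongr)
      _ ≤ M' * ‖u‖ := by
          gcongr
          exact (pi_norm_le_iff_of_nonneg (norm_nonneg _)).2 fun i => PiLp.norm_apply_le u i
  refine {
    sm := hsm
    bij := ?_
    eq_iff := ?_
    cx := hcl _
    cy := hcl _
    bd := fun p hp => ⟨hbd 0 p hp, hbd 2 p hp⟩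
    nd := ?_
    dd := fun p hp => ⟨(hx p hp).1.trans k3, (hx p hp).2.trans k4, (hy p hp).1.trans k3,
      (hy p hp).2.trans k4⟩
    cpx := ?_
    per0 := fun j k => ⟨hp1 j k, hp2 j k⟩
    hh := fun p hp u v => ⟨(hh1 p hp u v).trans (by gcongr), (hh2 p hp u v).trans (by gcongr)⟩
    vv := ?_ }
  · -- local diffeomorphism
    intro p hp i hi
    have hi' : Φ (ζ0 + TT A' p) ∈ (A.e i).source := hi
    have h1 : HasFDerivAt (fun p : W N => ζ0 + TT A' p) (TT A') p :=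
      (TT A').hasFDerivAt.const_add ζ0
    have h2 := HasFDerivAt.comp (g := fun y => (ofAtl A).e i (Φ y))
      (f := fun p : W N => ζ0 + TT A' p) p (hsi.diffAt (hmem' p hp) hi).hasFDerivAt h1
    have h3 : fderiv ℝ (fun q => (ofAtl A).e i (Φ (ζ0 + TT A' q))) p = _ := h2.fderiv
    rw [h3]
    constructor
    · rw [injective_iff_map_eq_zero]
      intro u hu
      have h4 : TT A' u = 0 := dPhi_inj hh (hmem' p hp) hi' hu
      have h5 := norm_le_TT hA2 u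
      rw [h4, norm_zero, mul_zero] at h5
      exact norm_le_zero_iff.1 h5
    · intro w
      obtain ⟨u, hu⟩ := dPhi_surj hh (hmem' p hp) hi' w
      refine ⟨TI A' u, ?_⟩
      show fderiv ℝ (fun y => (ofAtl A).e i (Φ y)) (ζ0 + TT A' p) (TT A' (TI A' u)) = w
      rw [TT_TI]
      exact hu
  · -- injectivity
    intro p hp q hq
    have h1 := h.eq_iff _ (hmem' p hp) _ (hmem' q hq)
    have h2 : ζ0 + TT A' p - (ζ0 + TT A' q) = TT A' p - TT A' q := by abel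
    rw [h2, TT_sub_mem h.le_lat hA] at h1
    exact h1
  · -- nondegeneracy
    intro p hp u
    by_cases hu : TT A' u = 0
    · have h5 := norm_le_TT hA2 u
      rw [hu, norm_zero, mul_zero] at h5
      rw [norm_le_zero_iff.1 h5]; simp
    have hu' : 0 < ‖TT A' u‖ := norm_pos_iff.2 hu
    have hk : ‖u‖ ≤ N * (1 + M') * ‖TT A' u‖ := norm_le_TT hA2 u
    have h1 := hb.lo _ (hmem p hp) (TT A' u)
    have h2 := hpu (H.om 0) p hp u (TI A' (I • TT A' u))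
    rw [TT_TI] at h2
    rw [← h2] at h1
    have h3 : pull (H.om 0) (fun p => Φ (ζ0 + TT A' p)) p u (TI A' (I • TT A' u)) ≤
        ‖pull (H.om 0) (fun p => Φ (ζ0 + TT A' p)) p u‖ * (N * (1 + M') * ‖TT A' u‖) := by
      refine (le_abs_self _).trans ?_
      rw [← Real.norm_eq_abs]
      refine (ContinuousLinearMap.le_opNorm _ _).trans ?_
      gcongr
      have h4 := norm_TI_le hA2 (I • TT A' u)
      rw [norm_smul, Complex.norm_I, one_mul] at h4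
      exact h4
    have h4 : c * ‖TT A' u‖ ≤
        ‖pull (H.om 0) (fun p => Φ (ζ0 + TT A' p)) p u‖ * (N * (1 + M')) := by
      have h5 : c * ‖TT A' u‖ ^ 2 ≤
          ‖pull (H.om 0) (fun p => Φ (ζ0 + TT A' p)) p u‖ * (N * (1 + M') * ‖TT A' u‖) :=
        h1.trans h3
      have h6 : (c * ‖TT A' u‖) * ‖TT A' u‖ ≤
          (‖pull (H.om 0) (fun p => Φ (ζ0 + TT A' p)) p u‖ * (N * (1 + M'))) * ‖TT A' u‖ := by
        linarith
      exact le_of_mul_le_mul_right h6 hu'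
    have h7 : ‖TT A' u‖ ≤ c⁻¹ * (‖pull (H.om 0) (fun p => Φ (ζ0 + TT A' p)) p u‖ *
        (N * (1 + M'))) := by
      rw [le_inv_mul_iff₀ hc]; exact h4
    calc ‖u‖ ≤ N * (1 + M') * ‖TT A' u‖ := hk
      _ ≤ N * (1 + M') * (c⁻¹ * (‖pull (H.om 0) (fun p => Φ (ζ0 + TT A' p)) p u‖ *
          (N * (1 + M')))) := by gcongr
      _ = c⁻¹ * (N * (1 + M')) ^ 2 * ‖pull (H.om 0) (fun p => Φ (ζ0 + TT A' p)) p u‖ := by ring
      _ ≤ Λ * ‖pull (H.om 0) (fun p => Φ (ζ0 + TT A' p)) p u‖ := by gcongr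
  · -- the complex structure
    intro p hp
    have hi := mem_ch A (Φ (ζ0 + TT A' p))
    have ht := (A.e (ch A (Φ (ζ0 + TT A' p)))).map_source hi
    set i := ch A (Φ (ζ0 + TT A' p)) with hidef
    set ζ := ζ0 + TT A' p with hζdef
    have hζ : ζ ∈ strip ζ0 r := hmem' p hp
    have hex : ∀ u : W N, ∃ u' : W N, fderiv ℝ (fun y => A.e i (Φ y)) ζ (TT A' u') =
        -H.J 1 i (A.e i (Φ ζ)) (fderiv ℝ (fun y => A.e i (Φ y)) ζ (TT A' u)) := by
      intro u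
      obtain ⟨w, hw⟩ := dPhi_surj hh hζ hi
        (-H.J 1 i (A.e i (Φ ζ)) (fderiv ℝ (fun y => A.e i (Φ y)) ζ (TT A' u)))
      exact ⟨TI A' w, by rw [TT_TI]; exact hw⟩
    choose J hJd using hex
    refine ⟨J, fun u => ?_, fun u v => ?_⟩
    · have h1 : fderiv ℝ (fun y => A.e i (Φ y)) ζ (TT A' (J (J u) + u)) = 0 := by
        rw [map_add, map_add, hJd (J u), hJd u, map_neg, H.J_sq 1 i _ ht]
        simp
      have h2 := dPhi_inj hh hζ hi h1
      have h3 := norm_le_TT hA2 (J (J u) + u)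
      rw [h2, norm_zero, mul_zero] at h3
      exact eq_neg_of_add_eq_zero_left (norm_le_zero_iff.1 h3)
    · rw [hpu (H.om 0) p hp, hpu (H.om 2) p hp]
      rw [hsi.pull_eq (H.om 0) (i := i) hζ hi, hsi.pull_eq (H.om 2) (i := i) hζ hi, pl_apply,
        pl_apply]
      have h1 := (H.om_J (k := 1) (l := 2) (m := 0) (Or.inr (Or.inl rfl)) (i := i) ht
        (fderiv ℝ (fun y => A.e i (Φ y)) ζ (TT A' u))
        (fderiv ℝ (fun y => A.e i (Φ y)) ζ (TT A' v))).2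
      have h2 := hJd u
      show (H.om 0).w i (A.e i (Φ ζ)) (fderiv ℝ (fun y => A.e i (Φ y)) ζ (TT A' (J u)))
        (fderiv ℝ (fun y => A.e i (Φ y)) ζ (TT A' v)) =
        -(H.om 2).w i (A.e i (Φ ζ)) (fderiv ℝ (fun y => A.e i (Φ y)) ζ (TT A' u))
        (fderiv ℝ (fun y => A.e i (Φ y)) ζ (TT A' v))
      rw [h2, map_neg, neg_apply]
      exact congrArg Neg.neg h1
  · -- the `vv` part
    intro p hp u v
    have e1 : ∀ w : F2 (ofAtl A), pull w (fun p => Φ (ζ0 + TT A' p)) p (0, u) (0, v) =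
        pull w Φ (ζ0 + TT A' p)
          (I • TT A' ((WithLp.toLp 2 (A'.symm (WithLp.ofLp u)), 0) : W N))
          (I • TT A' ((WithLp.toLp 2 (A'.symm (WithLp.ofLp v)), 0) : W N)) := by
      intro w
      rw [hpu w p hp, TT_snd, TT_snd, map_neg, map_neg, neg_apply, neg_neg]
    have e2 : ‖(WithLp.toLp 2 (A'.symm (WithLp.ofLp u)) : V N)‖ *
        ‖(WithLp.toLp 2 (A'.symm (WithLp.ofLp v)) : V N)‖ ≤ (N * M') ^ 2 * ‖u‖ * ‖v‖ := by
      calc ‖(WithLp.toLp 2 (A'.symm (WithLp.ofLp u)) : V N)‖ *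
          ‖(WithLp.toLp 2 (A'.symm (WithLp.ofLp v)) : V N)‖
          ≤ (N * M' * ‖u‖) * (N * M' * ‖v‖) := by
            gcongr
            · exact hinvn u
            · exact hinvn v
        _ = (N * M') ^ 2 * ‖u‖ * ‖v‖ := by ring
    have e3 : sδ * ((N * M') ^ 2 * ‖u‖ * ‖v‖) ≤ δ * ‖u‖ * ‖v‖ := by
      have : sδ * (N * M') ^ 2 ≤ δ := by
        refine le_trans ?_ hsd
        nlinarith
      calc sδ * ((N * M') ^ 2 * ‖u‖ * ‖v‖) = sδ * (N * M') ^ 2 * ‖u‖ * ‖v‖ := by ring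
        _ ≤ δ * ‖u‖ * ‖v‖ := by gcongr
    constructor
    · rw [e1, hb.inv _ (hmem p hp), ← hpu (H.om 0) p hp]
      refine (hh1 p hp _ _).trans (le_trans ?_ e3)
      rw [mul_assoc]
      gcongr
    · rw [e1, hb.anti _ (hmem p hp), abs_neg, ← hpu (H.om 2) p hp]
      refine (hh2 p hp _ _).trans (le_trans ?_ e3)
      rw [mul_assoc]
      gcongr

end

end Crest.Agent.R281.T5F_808
end

-- ▼ part R281/T5G_808
section

/-!
# R281, T5-ASM (helper808), part 8: the final statement `t5`, pinching of the metric, scaling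

* `pin`      : `Λ⁻¹ ‖u‖² ≤ g (dΘ u, dΘ u) ≤ Λ ‖u‖²`
* `t5`       : strip of Theorem S + vanishing periods ==> `TubeD` of radius `R` + pinching
* `HkT.scl`  : the triple `(c om, c g, J)`
-/

set_option autoImplicit false
set_option linter.unusedSectionVars false
set_option maxSynthPendingDepth 3

open Set Filter Topology Complex Metric
open scoped ContDiff Matrix ComplexConjugate ComplexOrder

namespace Crest.Agent.R281.T5F_808

open Crest.Agent.R275.Geo Crest.Agent.R275.Core144 Crest.Agent.R275.EDR890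
open Crest.Agent.R273.Defs_333 Crest.Agent.R273.Hess_333 Crest.Agent.R273.HessB_333
open Crest.Agent.R273.HM_333 Crest.Agent.R273.Kah_333 Crest.Agent.R273.Vol_333
open Crest.Agent.R273.Vm_333 Crest.Agent.R273.FIb0_597
open Crest.Agent.R281.Tor_922 Crest.Agent.R281.SIn_14
open Crest.Agent.R281.HkR_835 Crest.Agent.R281.Per_368 Crest.Agent.R281.T5A_808
open Crest.Agent.R281.T5P_808 Crest.Agent.R281.T5L_808 Crest.Agent.R281.T5M_808
open Crest.Agent.R281.T5D_808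
open Crest.Agent.R281.Mc673 (V W tube ClF kv mn isOpen_tube mn_eq_box SP)

noncomputable section

variable {N : ℕ} {M : Type} [TopologicalSpace M] {A : Atl N M}

/-- pinching of the metric in the coordinates `Θ` -/
def Pin {V' X : Type} [NormedAddCommGroup V'] [NormedSpace ℝ V'] [TopologicalSpace X]
    {C : RCh V' X} (H : HkT C) (N : ℕ) (R Λ : ℝ) (Θ : W N → X) : Prop :=
  ∀ p ∈ tube N R, ∀ i, Θ p ∈ (C.e i).source → ∀ u,
    ‖u‖ ^ 2 ≤ Λ * H.g i (C.e i (Θ p)) (fderiv ℝ (fun q => C.e i (Θ q)) p u)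
      (fderiv ℝ (fun q => C.e i (Θ q)) p u) ∧
    H.g i (C.e i (Θ p)) (fderiv ℝ (fun q => C.e i (Θ q)) p u)
      (fderiv ℝ (fun q => C.e i (Θ q)) p u) ≤ Λ * ‖u‖ ^ 2

theorem pin (H : HkT (ofAtl A)) (hJ : ∀ (i : A.ι), ∀ z ∈ (A.e i).target, ∀ v : Cn N,
      H.J 0 i z v = I • v) {F : M → Fin N → ℂ} {d : ℕ} {ζ0 : Fin N → ℂ}
    {r R : ℝ} {Lam : AddSubgroup (Fin N → ℂ)} {Φ : (Fin N → ℂ) → M} {c B δ1 Λ M' : ℝ}
    (h : Strip A F d ζ0 r Lam Φ) (hRr : R ≤ r) (hc : 0 < c) (hB : 0 ≤ B)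
    (hb : SB H Φ ζ0 R c B δ1) (A' : (Fin N → ℝ) ≃L[ℝ] (Fin N → ℝ))
    (hA1 : ‖(A' : (Fin N → ℝ) →L[ℝ] (Fin N → ℝ))‖ ≤ M')
    (hA2 : ‖(A'.symm : (Fin N → ℝ) →L[ℝ] (Fin N → ℝ))‖ ≤ M')
    (hΛ1 : B * (1 + M') ^ 2 ≤ Λ) (hΛ2 : c⁻¹ * (N * (1 + M')) ^ 2 ≤ Λ) :
    Pin H N R Λ (fun p => Φ (ζ0 + TT A' p)) := by
  have hM0 : 0 ≤ M' := (norm_nonneg _).trans hA1
  have hsi := strip_smI h
  have hh := strip_holI h
  intro p hp i hi u
  have hi' : Φ (ζ0 + TT A' p) ∈ (A.e i).source := hi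
  have hmR : ζ0 + TT A' p ∈ strip ζ0 R := TT_mem_strip hp
  have hm : ζ0 + TT A' p ∈ strip ζ0 r := strip_mono hRr hmR
  have ht := (A.e i).map_source hi'
  have h1 : HasFDerivAt (fun p : W N => ζ0 + TT A' p) (TT A') p :=
    (TT A').hasFDerivAt.const_add ζ0
  have h2 := HasFDerivAt.comp (g := fun y => (ofAtl A).e i (Φ y))
    (f := fun p : W N => ζ0 + TT A' p) p (hsi.diffAt hm hi).hasFDerivAt h1
  have h3 : fderiv ℝ (fun q => (ofAtl A).e i (Φ (ζ0 + TT A' q))) p = _ := h2.fderiv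
  rw [h3]
  set D := fderiv ℝ (fun y => A.e i (Φ y)) (ζ0 + TT A' p) with hD
  have key : H.g i (A.e i (Φ (ζ0 + TT A' p))) (D (TT A' u)) (D (TT A' u)) =
      pull (H.om 0) Φ (ζ0 + TT A' p) (TT A' u) (I • TT A' u) := by
    rw [hsi.pull_eq (H.om 0) (i := i) hm hi, pl_apply]
    have e1 : fderiv ℝ (fun y => (ofAtl A).e i (Φ y)) (ζ0 + TT A' p) (I • TT A' u) =
        H.J 0 i (A.e i (Φ (ζ0 + TT A' p))) (D (TT A' u)) := by
      rw [hJ i _ ht]
      exact dPhi_I hh hm hi' _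
    rw [e1]
    have e2 := H.om_eq 0 i _ ht (D (TT A' u)) (H.J 0 i (A.e i (Φ (ζ0 + TT A' p))) (D (TT A' u)))
    have e3 := H.g_J 0 (i := i) ht (D (TT A' u)) (D (TT A' u))
    exact (e2.trans e3).symm
  have hlo := hb.lo _ hmR (TT A' u)
  have hhi := hb.hi _ hmR (TT A' u)
  rw [← key] at hlo hhi
  have hk : ‖u‖ ≤ N * (1 + M') * ‖TT A' u‖ := norm_le_TT hA2 u
  have hT : ‖TT A' u‖ ≤ (1 + M') * ‖u‖ :=
    ((TT A').le_opNorm u).trans (by gcongr; exact norm_TT_le hA1)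
  have hg0 : 0 ≤ H.g i (A.e i (Φ (ζ0 + TT A' p))) (D (TT A' u)) (D (TT A' u)) :=
    le_trans (by positivity) hlo
  show ‖u‖ ^ 2 ≤ Λ * H.g i (A.e i (Φ (ζ0 + TT A' p))) (D (TT A' u)) (D (TT A' u)) ∧
    H.g i (A.e i (Φ (ζ0 + TT A' p))) (D (TT A' u)) (D (TT A' u)) ≤ Λ * ‖u‖ ^ 2
  constructor
  · calc ‖u‖ ^ 2 ≤ (N * (1 + M') * ‖TT A' u‖) ^ 2 := by gcongr
      _ = c⁻¹ * (N * (1 + M')) ^ 2 * (c * ‖TT A' u‖ ^ 2) := by field_simp
      _ ≤ c⁻¹ * (N * (1 + M')) ^ 2 *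
          H.g i (A.e i (Φ (ζ0 + TT A' p))) (D (TT A' u)) (D (TT A' u)) := by gcongr
      _ ≤ _ := by gcongr
  · calc H.g i (A.e i (Φ (ζ0 + TT A' p))) (D (TT A' u)) (D (TT A' u)) ≤ B * ‖TT A' u‖ ^ 2 := hhi
      _ ≤ B * ((1 + M') * ‖u‖) ^ 2 := by gcongr
      _ = B * (1 + M') ^ 2 * ‖u‖ ^ 2 := by ring
      _ ≤ Λ * ‖u‖ ^ 2 := by gcongr

/-- the bound of the bases of the lattices -/
def Mb (N d : ℕ) : ℝ := (exists_basisPi N d).choose

theorem Mb_pos (N d : ℕ) : 0 < Mb N d := (exists_basisPi N d).choose_spec.1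

theorem Mb_spec (N d : ℕ) {Lam : AddSubgroup (Fin N → ℂ)} (h1 : Lam ≤ lat (Fin N))
    (h2 : ∀ lam ∈ lat (Fin N), d.factorial • lam ∈ Lam) :
    ∃ A : (Fin N → ℝ) ≃L[ℝ] (Fin N → ℝ),
      ‖(A : (Fin N → ℝ) →L[ℝ] (Fin N → ℝ))‖ ≤ Mb N d ∧
      ‖(A.symm : (Fin N → ℝ) →L[ℝ] (Fin N → ℝ))‖ ≤ Mb N d ∧
      ∀ θ : Fin N → ℝ, (fun j => ((A θ j : ℝ) : ℂ) * I) ∈ Lam ↔ ∀ j, ∃ n : ℤ, θ j = n :=
  (exists_basisPi N d).choose_spec.2 Lam h1 h2

/-- **T5** -/
theorem t5 (N d : ℕ) {K1 : ℝ} (hK1 : 0 < K1) : ∃ Λ : ℝ, 0 < Λ ∧ ∀ R δ : ℝ, 0 < R → 0 < δ →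
    ∃ r0 e0 : ℝ, R < r0 ∧ 0 < e0 ∧ e0 ≤ 1 ∧
    ∀ (M : Type) [TopologicalSpace M] (A : Atl N M) (K : Kah A) (H : HkT (ofAtl A))
      (F : M → Fin N → ℂ) (ζ0 : Fin N → ℂ) (r : ℝ) (Lam : AddSubgroup (Fin N → ℂ))
      (Φ : (Fin N → ℂ) → M) (G0 : Matrix (Fin N) (Fin N) ℂ) (e : ℝ),
      r0 ≤ r → 0 ≤ e → e ≤ e0 → Strip A F d ζ0 r Lam Φ →
      (G0 - ((K1⁻¹ : ℝ) : ℂ) • (1 : Matrix (Fin N) (Fin N) ℂ)).PosSemidef →
      (((K1 : ℝ) : ℂ) • (1 : Matrix (Fin N) (Fin N) ℂ) - G0).PosSemidef →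
      CloseC2 (pbg K Φ) G0 (strip ζ0 r) e →
      (∀ (i : A.ι), ∀ z ∈ (A.e i).target, ∀ u v : Cn N,
        (H.om 0).w i z u v = (ofKah K).f2.w i z u v) →
      (∀ (i : A.ι), ∀ z ∈ (A.e i).target, ∀ v : Cn N, H.J 0 i z v = I • v) →
      (∀ l ∈ Lam, ∀ l' ∈ Lam, ‖l‖ ≤ Mb N d → ‖l'‖ ≤ Mb N d → ∀ z ∈ strip ζ0 r,
        per (pull (H.om 0) Φ) z l l' = 0 ∧ per (pull (H.om 2) Φ) z l l' = 0) →
      ∃ Θ : W N → M, TubeD (ofAtl A) (H.om 0) (H.om 2) N R Λ δ Θ ∧ Pin H N R Λ Θ := by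
  have hM := Mb_pos N d
  have hB : 0 ≤ Bq N K1 := by unfold Bq; positivity
  have hc : 0 < K1⁻¹ / 2 := by positivity
  refine ⟨Bq N K1 * (1 + Mb N d) ^ 2 + (K1⁻¹ / 2)⁻¹ * (N * (1 + Mb N d)) ^ 2 + 1, by positivity,
    fun R δ hR hδ => ?_⟩
  set D : ℝ := (1 + Mb N d) ^ 4 * (N ^ 2 * (N + R) + 1) * (1 + (N * Mb N d) ^ 2) with hD
  have hDpos : 0 < D := by positivity
  set δ1 : ℝ := δ / D with hδ1
  have hδ1pos : 0 < δ1 := by positivity
  refine ⟨R + 1 + 8 * Bq N K1 / δ1,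
    min 1 (min (K1⁻¹ / 2 / (N ^ 2 + 1)) (δ1 / (2 * N ^ 2 + 1))), ?_, ?_, min_le_left _ _, ?_⟩
  · have : 0 ≤ 8 * Bq N K1 / δ1 := by positivity
    linarith
  · refine lt_min one_pos (lt_min ?_ ?_) <;> positivity
  intro M _ A K H F ζ0 r Lam Φ G0 e hr he he0 hS hlo hup hcl hom hJ hper
  have he1 : e ≤ 1 := he0.trans (min_le_left _ _)
  have he2 : e ≤ K1⁻¹ / 2 / (N ^ 2 + 1) :=
    he0.trans ((min_le_right _ _).trans (min_le_left _ _))
  have he3 : e ≤ δ1 / (2 * N ^ 2 + 1) :=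
    he0.trans ((min_le_right _ _).trans (min_le_right _ _))
  rw [le_div_iff₀ (by positivity)] at he2 he3
  have hRr : R + 1 ≤ r := by
    have : 0 ≤ 8 * Bq N K1 / δ1 := by positivity
    linarith
  have hr8 : 8 * Bq N K1 ≤ δ1 * (r - R) := by
    have h1 : 8 * Bq N K1 / δ1 ≤ r - R := by linarith
    rw [div_le_iff₀ hδ1pos] at h1
    linarith
  have hSB := strip_SB (δ := δ1) K H hK1 he he1 (by linarith) (by linarith) hRr hr8 hS hlo hup hcl
    hom hJ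
  obtain ⟨A', hA1, hA2, hA⟩ := Mb_spec N d hS.le_lat hS.factorial_mem
  have h1 : (0:ℝ) ≤ Bq N K1 * (1 + Mb N d) ^ 2 := by positivity
  have h2 : (0:ℝ) ≤ (K1⁻¹ / 2)⁻¹ * (N * (1 + Mb N d)) ^ 2 := by positivity
  refine ⟨fun p => Φ (ζ0 + TT A' p), ?_, ?_⟩
  · refine tubeD H hJ hS hR (by linarith) hc hB hSB A' hA1 hA2 hA hper (by linarith)
      (by linarith) ?_
    have h3 : δ1 * (1 + Mb N d) ^ 4 * (N ^ 2 * (N + R) + 1) * (1 + (N * Mb N d) ^ 2) =
        δ1 * D := by rw [hD]; ring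
    rw [h3, hδ1, div_mul_cancel₀ _ hDpos.ne']
  · exact pin H hJ hS (by linarith) hc hB hSB A' hA1 hA2 (by linarith) (by linarith)

end

end Crest.Agent.R281.T5F_808
end

-- ▼ part R281/T5H_808
section

/-!
# R281 (helper808): composition TheoremS + PER-FIN (368) + T5

`core` : polarised data at the scale `L ≥ L0` + a hyperkaehler triple whose classes `[om_0]`, `[om_2]`
are real combinations of integral classes with small representatives ==> `TubeD` of radius `R`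
-/

set_option autoImplicit false
set_option linter.unusedSectionVars false
set_option maxSynthPendingDepth 3

open Set Filter Topology Complex Metric MeasureTheory
open scoped ContDiff Matrix ComplexConjugate ComplexOrder ENNReal

namespace Crest.Agent.R281.T5F_808

open Crest.Agent.R275.Geo Crest.Agent.R275.Core144 Crest.Agent.R275.EDR890
open Crest.Agent.R273.Defs_333 Crest.Agent.R273.Hess_333 Crest.Agent.R273.HessB_333
open Crest.Agent.R273.HM_333 Crest.Agent.R273.Kah_333 Crest.Agent.R273.Vol_333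
open Crest.Agent.R273.Vm_333 Crest.Agent.R273.FIb0_597
open Crest.Agent.R281.Tor_922 Crest.Agent.R281.SIn_14
open Crest.Agent.R281.HkR_835 Crest.Agent.R281.Per_368
open Crest.Agent.R281.T5L_808 Crest.Agent.R281.T5D_808
open Crest.Agent.R281.Cdr_234 (IntF)
open Crest.Agent.R281.Ti_846 (Ex)
open Crest.Agent.R281.Mc673 (V W tube ClF kv mn isOpen_tube)
open Crest.Agent.R238.Sch (ee norm_ee)

noncomputable section

variable {N : ℕ} {M : Type} [TopologicalSpace M] {A : Atl N M}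

/-- the lattice vectors of the basis -/
theorem TT_ee {Lam : AddSubgroup (Fin N → ℂ)} {M' : ℝ} (A' : (Fin N → ℝ) ≃L[ℝ] (Fin N → ℝ))
    (hA1 : ‖(A' : (Fin N → ℝ) →L[ℝ] (Fin N → ℝ))‖ ≤ M')
    (hA : ∀ θ : Fin N → ℝ, (fun j => ((A' θ j : ℝ) : ℂ) * I) ∈ Lam ↔ ∀ j, ∃ n : ℤ, θ j = n)
    (j : Fin N) : TT A' ((ee j, 0) : W N) ∈ Lam ∧ ‖TT A' ((ee j, 0) : W N)‖ ≤ M' := by
  have hM0 : 0 ≤ M' := (norm_nonneg _).trans hA1
  have h1 : TT A' ((ee j, 0) : W N) =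
      fun i => ((A' (WithLp.ofLp (ee j : V N)) i : ℝ) : ℂ) * I := by
    funext i
    rw [TT_apply]
    show (((0 : V N) i : ℝ) : ℂ) + _ = _
    simp
  constructor
  · rw [h1, hA]
    intro i
    by_cases hij : i = j
    · subst hij
      exact ⟨1, by simp [ee]⟩
    · exact ⟨0, by simp [ee, hij]⟩
  · rw [h1]
    refine (pi_norm_le_iff_of_nonneg hM0).2 fun i => ?_
    rw [norm_mul, Complex.norm_I, mul_one, Complex.norm_real]
    have h2 : ‖A' (WithLp.ofLp (ee j : V N))‖ ≤ M' * ‖WithLp.ofLp (ee j : V N)‖ :=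
      ((A' : (Fin N → ℝ) →L[ℝ] (Fin N → ℝ)).le_opNorm _).trans (by gcongr)
    have h3 : ‖WithLp.ofLp (ee j : V N)‖ ≤ 1 :=
      (pi_norm_le_iff_of_nonneg zero_le_one).2 fun i => by
        have := PiLp.norm_apply_le (ee j : V N) i
        rw [norm_ee] at this
        exact this
    calc ‖A' (WithLp.ofLp (ee j : V N)) i‖ ≤ ‖A' (WithLp.ofLp (ee j : V N))‖ :=
          norm_le_pi_norm _ i
      _ ≤ M' * ‖WithLp.ofLp (ee j : V N)‖ := h2
      _ ≤ M' * 1 := by gcongr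
      _ = M' := mul_one _

/-- zero periods in the coordinates of the tube -/
theorem tube_per {F : M → Fin N → ℂ} {d : ℕ} {ζ0 : Fin N → ℂ} {r R : ℝ}
    {Lam : AddSubgroup (Fin N → ℂ)} {Φ : (Fin N → ℂ) → M} {M' : ℝ}
    (h : Strip A F d ζ0 r Lam Φ) (hRr : R ≤ r) (A' : (Fin N → ℝ) ≃L[ℝ] (Fin N → ℝ))
    (hA1 : ‖(A' : (Fin N → ℝ) →L[ℝ] (Fin N → ℝ))‖ ≤ M')
    (hA : ∀ θ : Fin N → ℝ, (fun j => ((A' θ j : ℝ) : ℂ) * I) ∈ Lam ↔ ∀ j, ∃ n : ℤ, θ j = n)
    (w : F2 (ofAtl A)) (hw : ∀ l ∈ Lam, ∀ l' ∈ Lam, ‖l‖ ≤ M' → ‖l'‖ ≤ M' → ∀ z ∈ strip ζ0 r,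
      per (pull w Φ) z l l' = 0) {p : W N} (hp : p ∈ tube N R) (j k : Fin N) :
    per (pull w (fun p => Φ (ζ0 + TT A' p))) p ((ee j, 0) : W N) ((ee k, 0) : W N) = 0 := by
  have hsi := strip_smI h
  have hmem' : ∀ p ∈ tube N R, ζ0 + TT A' p ∈ strip ζ0 r := fun p hp =>
    strip_mono hRr (TT_mem_strip hp)
  have hj := TT_ee A' hA1 hA j
  have hk := TT_ee A' hA1 hA k
  rw [hsi.per_pull_affine (TT A') ζ0 w (z := p) (v := ((ee j, 0) : W N))
    (v' := ((ee k, 0) : W N)) (fun s _ t _ => ?_)]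
  · exact hw _ hj.1 _ hk.1 hj.2 hk.2 _ (hmem' p hp)
  · refine hmem' _ ?_
    show ‖(pt p ((ee j, 0) : W N) ((ee k, 0) : W N) s t).2‖ < R
    have e : (pt p ((ee j, 0) : W N) ((ee k, 0) : W N) s t).2 = p.2 := by
      simp [pt]
    rw [e]
    exact hp

/-- `t5` with the periods of all forms -/
theorem t5b (N d : ℕ) {K1 : ℝ} (hK1 : 0 < K1) : ∃ Λ : ℝ, 0 < Λ ∧ ∀ R δ : ℝ, 0 < R → 0 < δ →
    ∃ r0 e0 : ℝ, R < r0 ∧ 0 < e0 ∧ e0 ≤ 1 ∧
    ∀ (M : Type) [TopologicalSpace M] (A : Atl N M) (K : Kah A) (H : HkT (ofAtl A))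
      (F : M → Fin N → ℂ) (ζ0 : Fin N → ℂ) (r : ℝ) (Lam : AddSubgroup (Fin N → ℂ))
      (Φ : (Fin N → ℂ) → M) (G0 : Matrix (Fin N) (Fin N) ℂ) (e : ℝ),
      r0 ≤ r → 0 ≤ e → e ≤ e0 → Strip A F d ζ0 r Lam Φ →
      (G0 - ((K1⁻¹ : ℝ) : ℂ) • (1 : Matrix (Fin N) (Fin N) ℂ)).PosSemidef →
      (((K1 : ℝ) : ℂ) • (1 : Matrix (Fin N) (Fin N) ℂ) - G0).PosSemidef →
      CloseC2 (pbg K Φ) G0 (strip ζ0 r) e →
      (∀ (i : A.ι), ∀ z ∈ (A.e i).target, ∀ u v : Cn N,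
        (H.om 0).w i z u v = (ofKah K).f2.w i z u v) →
      (∀ (i : A.ι), ∀ z ∈ (A.e i).target, ∀ v : Cn N, H.J 0 i z v = I • v) →
      (∀ l ∈ Lam, ∀ l' ∈ Lam, ‖l‖ ≤ Mb N d → ‖l'‖ ≤ Mb N d → ∀ z ∈ strip ζ0 r,
        per (pull (H.om 0) Φ) z l l' = 0 ∧ per (pull (H.om 2) Φ) z l l' = 0) →
      ∃ Θ : W N → M, TubeD (ofAtl A) (H.om 0) (H.om 2) N R Λ δ Θ ∧ Pin H N R Λ Θ ∧
        ∀ w : F2 (ofAtl A), (∀ l ∈ Lam, ∀ l' ∈ Lam, ‖l‖ ≤ Mb N d → ‖l'‖ ≤ Mb N d →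
          ∀ z ∈ strip ζ0 r, per (pull w Φ) z l l' = 0) →
          ∀ p ∈ tube N R, ∀ j k, per (pull w Θ) p ((ee j, 0) : W N) ((ee k, 0) : W N) = 0 := by
  have hM := Mb_pos N d
  have hB : 0 ≤ Bq N K1 := by unfold Bq; positivity
  have hc : 0 < K1⁻¹ / 2 := by positivity
  refine ⟨Bq N K1 * (1 + Mb N d) ^ 2 + (K1⁻¹ / 2)⁻¹ * (N * (1 + Mb N d)) ^ 2 + 1, by positivity,
    fun R δ hR hδ => ?_⟩
  set D : ℝ := (1 + Mb N d) ^ 4 * (N ^ 2 * (N + R) + 1) * (1 + (N * Mb N d) ^ 2) with hD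
  have hDpos : 0 < D := by positivity
  set δ1 : ℝ := δ / D with hδ1
  have hδ1pos : 0 < δ1 := by positivity
  refine ⟨R + 1 + 8 * Bq N K1 / δ1,
    min 1 (min (K1⁻¹ / 2 / (N ^ 2 + 1)) (δ1 / (2 * N ^ 2 + 1))), ?_, ?_, min_le_left _ _, ?_⟩
  · have : 0 ≤ 8 * Bq N K1 / δ1 := by positivity
    linarith
  · refine lt_min one_pos (lt_min ?_ ?_) <;> positivity
  intro M _ A K H F ζ0 r Lam Φ G0 e hr he he0 hS hlo hup hcl hom hJ hper
  have he1 : e ≤ 1 := he0.trans (min_le_left _ _)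
  have he2 : e ≤ K1⁻¹ / 2 / (N ^ 2 + 1) :=
    he0.trans ((min_le_right _ _).trans (min_le_left _ _))
  have he3 : e ≤ δ1 / (2 * N ^ 2 + 1) :=
    he0.trans ((min_le_right _ _).trans (min_le_right _ _))
  rw [le_div_iff₀ (by positivity)] at he2 he3
  have hRr : R + 1 ≤ r := by
    have : 0 ≤ 8 * Bq N K1 / δ1 := by positivity
    linarith
  have hr8 : 8 * Bq N K1 ≤ δ1 * (r - R) := by
    have h1 : 8 * Bq N K1 / δ1 ≤ r - R := by linarith
    rw [div_le_iff₀ hδ1pos] at h1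
    linarith
  have hSB := strip_SB (δ := δ1) K H hK1 he he1 (by linarith) (by linarith) hRr hr8 hS hlo hup hcl
    hom hJ
  obtain ⟨A', hA1, hA2, hA⟩ := Mb_spec N d hS.le_lat hS.factorial_mem
  have h1 : (0:ℝ) ≤ Bq N K1 * (1 + Mb N d) ^ 2 := by positivity
  have h2 : (0:ℝ) ≤ (K1⁻¹ / 2)⁻¹ * (N * (1 + Mb N d)) ^ 2 := by positivity
  refine ⟨fun p => Φ (ζ0 + TT A' p), ?_, ?_, ?_⟩
  · refine tubeD H hJ hS hR (by linarith) hc hB hSB A' hA1 hA2 hA hper (by linarith)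
      (by linarith) ?_
    have h3 : δ1 * (1 + Mb N d) ^ 4 * (N ^ 2 * (N + R) + 1) * (1 + (N * Mb N d) ^ 2) =
        δ1 * D := by rw [hD]; ring
    rw [h3, hδ1, div_mul_cancel₀ _ hDpos.ne']
  · exact pin H hJ hS (by linarith) hc hB hSB A' hA1 hA2 (by linarith) (by linarith)
  · intro w hw p hp j k
    exact tube_per hS (by linarith) A' hA1 hA w hw hp j k

/-- **composition of Theorem S, PER-FIN and T5** -/
theorem core (hS : TheoremS) (N d : ℕ) (m v C0 c : ℝ) (hN : 1 ≤ N) (hm : 0 < m) (hv : 0 < v)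
    (hc : 0 < c) : ∃ Λ : ℝ, 0 < Λ ∧ ∃ δ0 : ℝ, 0 < δ0 ∧ ∀ R δ : ℝ, 0 < R → 0 < δ →
    ∃ L0 : ℝ, 1 ≤ L0 ∧ ∀ L : ℝ, L0 ≤ L →
    ∀ (M : Type) [TopologicalSpace M] [T2Space M] [CompactSpace M] [ConnectedSpace M]
      [MeasurableSpace M] [BorelSpace M] (A : Atl N M) [Finite A.ι], Part A →
    ∀ (K : Kah A) (Lb : LB A) (h : HM Lb) (s : Fin (N + 1) → A.ι → M → ℂ) (om : A.ι → M → ℂ),
      SDat A K Lb h s om m v C0 c d L →
    ∀ H : HkT (ofAtl A),
      (∀ (i : A.ι), ∀ z ∈ (A.e i).target, ∀ u v : Cn N,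
        (H.om 0).w i z u v = (ofKah K).f2.w i z u v) →
      (∀ (i : A.ι), ∀ z ∈ (A.e i).target, ∀ v : Cn N, H.J 0 i z v = I • v) →
    ∀ {κ : Type} [Fintype κ] (b : κ → F2 (ofAtl A)) (t0 t2 : κ → ℝ), (∀ k, IntF (b k)) →
      Ex (H.om 0 - ∑ k, t0 k • b k) → Ex (H.om 2 - ∑ k, t2 k • b k) →
    ∀ f : M → ℝ≥0∞, Measurable f → ∫⁻ x, f x ∂(vm (volK K)) ≤ vm (volK K) univ →
      (∀ k i, ∀ x ∈ (A.e i).source, ∀ u v : Cn N,
        ENNReal.ofReal (((b k).w i (A.e i x) u v) ^ 2) ≤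
          ENNReal.ofReal δ0 * f x * ENNReal.ofReal
            ((hb (K.g i x) u u).re * (hb (K.g i x) v v).re)) →
      ∃ Θ : W N → M, TubeD (ofAtl A) (H.om 0) (H.om 2) N R Λ δ Θ ∧ Pin H N R Λ Θ ∧
        ∀ w : F2 (ofAtl A), (∃ τ : κ → ℝ, Ex (w - ∑ k, τ k • b k)) →
          ∀ p ∈ tube N R, ∀ j k, per (pull w Θ) p ((ee j, 0) : W N) ((ee k, 0) : W N) = 0 := by
  have hM := Mb_pos N d
  obtain ⟨K1, hK1, hS1⟩ := hS N m v C0 c (4 * Mb N d) d hN hm hv hc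
  obtain ⟨δ0, hδ0, hper⟩ := per_fin N (B0 := Mb N d) hK1 le_rfl
    (by positivity : (0:ℝ) < 4 * Mb N d)
  obtain ⟨Λ, hΛ, ht5⟩ := t5b N d hK1
  refine ⟨Λ, hΛ, δ0, hδ0, fun R δ hR hδ => ?_⟩
  obtain ⟨r0, e0, hr0, he0, he01, ht⟩ := ht5 R δ hR hδ
  obtain ⟨L0, hL0, hS2⟩ := hS1 (max r0 (4 * Mb N d)) e0 (le_max_right _ _)
    (lt_max_of_lt_left (hR.trans hr0)) he0
  refine ⟨L0, hL0, fun L hL => ?_⟩
  intro M _ _ _ _ _ _ A _ P K Lb h s om hSD H hom hJ κ _ b t0 t2 hI hE0 hE2 f hf hmean hbd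
  obtain ⟨ζ0, Lam, Φ, G0, hst, hlo, hup, hcl, hint⟩ :=
    hS2 L hL M A P K Lb h s om hSD f hf hmean
  have hpk : ∀ k, ∀ l ∈ Lam, ∀ l' ∈ Lam, ‖l‖ ≤ Mb N d → ‖l'‖ ≤ Mb N d →
      ∀ z ∈ strip ζ0 (max r0 (4 * Mb N d)), per (pull (b k) Φ) z l l' = 0 := fun k l hl l' hl'
      h1 h2 z hz => hper M A K (quo s) d ζ0 _ Lam Φ G0 e0 f hst (le_max_right _ _) he0.le he01 hup
        hcl hf hint (b k) (hI k) (hbd k) l hl l' hl' h1 h2 z hz
  have hpw : ∀ w : F2 (ofAtl A), (∃ τ : κ → ℝ, Ex (w - ∑ k, τ k • b k)) → ∀ l ∈ Lam, ∀ l' ∈ Lam,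
      ‖l‖ ≤ Mb N d → ‖l'‖ ≤ Mb N d →
      ∀ z ∈ strip ζ0 (max r0 (4 * Mb N d)), per (pull w Φ) z l l' = 0 := by
    rintro w ⟨τ, hτ⟩ l hl l' hl' h1 h2 z hz
    exact strip_comb hst hτ hz hl hl' fun k => hpk k l hl l' hl' h1 h2 z hz
  obtain ⟨Θ, hΘ1, hΘ2, hΘ3⟩ := ht M A K H (quo s) ζ0 _ Lam Φ G0 e0 (le_max_left _ _) he0.le le_rfl
    hst hlo hup hcl hom hJ (fun l hl l' hl' h1 h2 z hz =>
      ⟨hpw _ ⟨t0, hE0⟩ l hl l' hl' h1 h2 z hz, hpw _ ⟨t2, hE2⟩ l hl l' hl' h1 h2 z hz⟩)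
  exact ⟨Θ, hΘ1, hΘ2, fun w hw p hp j k => hΘ3 w (hpw w hw) p hp j k⟩

end

end Crest.Agent.R281.T5F_808
end

-- ▼ part R281/Pall1_162
section

/-!
# R281 (S0424), G29 PER-ALL (helper162), part 1: integral classes in the orthogonal of rational ones

`C : RCh V X`.
* `Gen S b`        : `b : Fin N → F2 C` are integral classes in the subspace `S` which span `S`
                     modulo exact forms
* `Gen.step`       : from `S` to `S ⊓ ker ℓ`, `ℓ` rational up to one scale on the `b k`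
* `Gen.exists_indep` : an independent subfamily
* `exists_perp`, `exists_perp_fin` : integral classes spanning `e^⊥` modulo exact forms
* `lam_perp`       : a linear map which kills the exact forms and the integral classes of `e^⊥`
                     kills `e^⊥`
* `lam_eq`         : ... and it is a multiple of `Q(·, e)`
-/

set_option autoImplicit false
set_option linter.unusedSectionVars false
set_option maxSynthPendingDepth 3

open Set Filter Topology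

namespace Crest.Agent.R281.Pall_162

open Crest.Agent.R281.HkR_835 Crest.Agent.R281.Cdr_234
open Crest.Agent.R281.Ti_846 (Ex)

noncomputable section

variable {V X : Type} [NormedAddCommGroup V] [NormedSpace ℝ V] [TopologicalSpace X]
  {C : RCh V X}

/-! ### sums of exact / integral forms -/

theorem ex_sum {κ : Type*} (s : Finset κ) {f : κ → F2 C} (h : ∀ k ∈ s, Ex (f k)) :
    Ex (∑ k ∈ s, f k) :=
  mem_exS.1 ((exS C).sum_mem fun k hk => mem_exS.2 (h k hk))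





/-- a linear map which kills the exact forms depends only on the class -/
theorem lam_congr {W : Type*} [AddCommGroup W] [Module ℝ W] {lam : F2 C →ₗ[ℝ] W}
    (h0 : ∀ x, Ex x → lam x = 0) {x y : F2 C} (h : Ex (x - y)) : lam x = lam y := by
  have := h0 _ h
  rwa [map_sub, sub_eq_zero] at this

/-! ### subspaces spanned by integral classes -/

/-- `b : Fin N → F2 C` are integral classes in the subspace `S` which span `S` modulo exact
forms -/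
structure Gen (S : Submodule ℝ (F2 C)) {N : ℕ} (b : Fin N → F2 C) : Prop where
  int : ∀ k, IntF (b k)
  mem : ∀ k, b k ∈ S
  span : ∀ x ∈ S, ∃ t : Fin N → ℝ, Ex (x - ∑ k, t k • b k)

theorem gen_top {N : ℕ} {b : Fin N → F2 C} (hb : ∀ k, IntF (b k))
    (hs : ∀ x : F2 C, ∃ t : Fin N → ℝ, Ex (x - ∑ k, t k • b k)) : Gen ⊤ b :=
  ⟨hb, fun _ => trivial, fun x _ => hs x⟩

/-- common denominators -/
theorem exists_clear {N : ℕ} (q : Fin N → ℚ) :
    ∃ (a : ℤ) (x : Fin N → ℤ), a ≠ 0 ∧ ∀ k, (x k : ℝ) = a * q k := by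
  classical
  refine ⟨∏ k, ((q k).den : ℤ), fun k => (∏ l ∈ Finset.univ.erase k, ((q l).den : ℤ)) * (q k).num,
    ?_, fun k => ?_⟩
  · exact Finset.prod_ne_zero_iff.2 fun k _ => by exact_mod_cast (q k).den_ne_zero
  · rw [← Finset.mul_prod_erase Finset.univ (fun l => ((q l).den : ℤ)) (Finset.mem_univ k)]
    have h1 : ((q k).den : ℝ) * (q k : ℝ) = (q k).num := by
      have h2 := Rat.den_mul_eq_num (q k)
      exact_mod_cast h2
    push_cast
    linear_combination (-(∏ l ∈ Finset.univ.erase k, ((q l).den : ℝ))) * h1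

/-- **the step**: `ℓ` a linear functional, zero on exact forms, rational up to one scale on the
generators -/
theorem Gen.step {S : Submodule ℝ (F2 C)} {N : ℕ} {b : Fin N → F2 C} (h : Gen S b)
    (ℓ : F2 C →ₗ[ℝ] ℝ) (h0 : ∀ x, Ex x → ℓ x = 0) (c : ℝ)
    (hr : ∀ k, ∃ r : ℚ, ℓ (b k) = c * r) :
    ∃ w : Fin N → F2 C, Gen (S ⊓ LinearMap.ker ℓ) w := by
  choose r hr using hr
  by_cases hz : ∀ k, ℓ (b k) = 0
  · exact ⟨b, h.int, fun k => ⟨h.mem k, LinearMap.mem_ker.2 (hz k)⟩, fun x hx => h.span x hx.1⟩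
  push Not at hz
  obtain ⟨k0, hk0⟩ := hz
  obtain ⟨a, y, ha, hy⟩ := exists_clear r
  have hc : c ≠ 0 := by
    rintro rfl
    exact hk0 (by rw [hr, zero_mul])
  have hr0 : (r k0 : ℝ) ≠ 0 := by
    intro h1
    exact hk0 (by rw [hr, h1, mul_zero])
  have ha' : (a : ℝ) ≠ 0 := by exact_mod_cast ha
  have hy0 : (y k0 : ℝ) ≠ 0 := by
    rw [hy]
    exact mul_ne_zero ha' hr0
  have hl : ∀ k, (a : ℝ) * ℓ (b k) = c * y k := fun k => by
    rw [hr, hy]
    ring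
  refine ⟨fun k => (y k0 : ℝ) • b k - (y k : ℝ) • b k0, fun k => ?_, fun k => ⟨?_, ?_⟩,
    fun x hx => ?_⟩
  · exact Cls.sub (IntF.zsmul (h.int k) (y k0)) (IntF.zsmul (h.int k0) (y k))
  · exact S.sub_mem (S.smul_mem _ (h.mem k)) (S.smul_mem _ (h.mem k0))
  · show ℓ ((y k0 : ℝ) • b k - (y k : ℝ) • b k0) = 0
    rw [map_sub, map_smul, map_smul, smul_eq_mul, smul_eq_mul]
    apply mul_left_cancel₀ ha'
    linear_combination (y k0 : ℝ) * hl k - (y k : ℝ) * hl k0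
  · obtain ⟨t, ht⟩ := h.span x hx.1
    have h1 : ∑ k, t k * (y k : ℝ) = 0 := by
      have h2 : ℓ x = ℓ (∑ k, t k • b k) := lam_congr h0 ht
      rw [LinearMap.mem_ker.1 hx.2, map_sum] at h2
      have h3 : c * ∑ k, t k * (y k : ℝ) = a * ∑ k, ℓ (t k • b k) := by
        rw [Finset.mul_sum, Finset.mul_sum]
        refine Finset.sum_congr rfl fun k _ => ?_
        rw [map_smul, smul_eq_mul]
        linear_combination (-(t k)) * hl k
      rw [← h2, mul_zero] at h3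
      exact (mul_eq_zero.1 h3).resolve_left hc
    refine ⟨fun k => t k / y k0, ?_⟩
    have h2 : ∑ k, (t k / (y k0 : ℝ)) • ((y k0 : ℝ) • b k - (y k : ℝ) • b k0) =
        ∑ k, t k • b k := by
      have h3 : ∀ k, (t k / (y k0 : ℝ)) • ((y k0 : ℝ) • b k - (y k : ℝ) • b k0) =
          t k • b k - (t k * (y k : ℝ)) • ((1 / (y k0 : ℝ)) • b k0) := fun k => by
        rw [smul_sub, smul_smul, smul_smul, smul_smul, div_mul_cancel₀ _ hy0]
        congr 2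
        ring
      rw [Finset.sum_congr rfl fun k _ => h3 k, Finset.sum_sub_distrib, ← Finset.sum_smul, h1,
        zero_smul, sub_zero]
    rw [h2]
    exact ht

/-- an independent subfamily -/
theorem Gen.exists_indep {S : Submodule ℝ (F2 C)} {N : ℕ} {b : Fin N → F2 C} (h : Gen S b) :
    ∃ (m : ℕ) (f : Fin m → Fin N), Function.Injective f ∧ Gen S (fun k => b (f k)) ∧
      ∀ t : Fin m → ℝ, Ex (∑ k, t k • b (f k)) → t = 0 := by
  classical
  obtain ⟨κ, a, ha, hsp, hli⟩ := exists_linearIndependent' ℝ (fun k => (exS C).mkQ (b k))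
  have hfin : Finite κ := Finite.of_injective a ha
  have := Fintype.ofFinite κ
  obtain ⟨e⟩ := Fintype.truncEquivFin κ
  refine ⟨Fintype.card κ, fun k => a (e.symm k), fun k l hkl => e.symm.injective (ha hkl),
    ⟨fun k => h.int _, fun k => h.mem _, fun x hx => ?_⟩, fun t ht => ?_⟩
  · obtain ⟨t, ht⟩ := h.span x hx
    have h1 : (exS C).mkQ x ∈ Submodule.span ℝ (range fun k => (exS C).mkQ (b k)) := by
      have h2 : (exS C).mkQ x = ∑ k, t k • (exS C).mkQ (b k) := by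
        have h3 : (exS C).mkQ (x - ∑ k, t k • b k) = 0 := by
          rw [← LinearMap.mem_ker, Submodule.ker_mkQ]
          exact mem_exS.2 ht
        rw [map_sub, sub_eq_zero] at h3
        rw [h3, map_sum]
        exact Finset.sum_congr rfl fun k _ => by rw [map_smul]
      rw [h2]
      exact Submodule.sum_mem _ fun k _ => Submodule.smul_mem _ _ (Submodule.subset_span ⟨k, rfl⟩)
    rw [← hsp] at h1
    obtain ⟨s, hs⟩ := (Submodule.mem_span_range_iff_exists_fun ℝ).1 h1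
    refine ⟨fun k => s (e.symm k), mem_exS.1 ?_⟩
    rw [← Submodule.ker_mkQ (exS C), LinearMap.mem_ker, map_sub, ← hs, map_sum, sub_eq_zero]
    rw [← Equiv.sum_comp e]
    refine Finset.sum_congr rfl fun k _ => ?_
    simp
  · have h1 : ∑ k : κ, (t (e k)) • ((fun k => (exS C).mkQ (b k)) ∘ a) k = 0 := by
      have h2 : (exS C).mkQ (∑ k, t k • b (a (e.symm k))) = 0 := by
        rw [← LinearMap.mem_ker, Submodule.ker_mkQ]
        exact mem_exS.2 ht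
      rw [map_sum, ← Equiv.sum_comp e] at h2
      rw [← h2]
      refine Finset.sum_congr rfl fun k _ => ?_
      simp
    have h3 := Fintype.linearIndependent_iff.1 hli _ h1
    funext k
    have := h3 (e.symm k)
    simpa using this


/-! ### the orthogonal of rational classes -/

/-- the orthogonal of `e` -/
def perp (Q : F2 C →ₗ[ℝ] F2 C →ₗ[ℝ] ℝ) (e : F2 C) : Submodule ℝ (F2 C) :=
  LinearMap.ker (Q.flip e)

theorem mem_perp {Q : F2 C →ₗ[ℝ] F2 C →ₗ[ℝ] ℝ} {e x : F2 C} : x ∈ perp Q e ↔ Q x e = 0 := by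
  rw [perp, LinearMap.mem_ker, LinearMap.flip_apply]

/-- **rational up to one scale** (the output of RAT-GLUE) -/
def RatQ (Q : F2 C →ₗ[ℝ] F2 C →ₗ[ℝ] ℝ) : Prop :=
  ∃ c : ℝ, 0 < c ∧ ∀ x y : F2 C, RatF x → RatF y → ∃ r : ℚ, Q x y = c * r

variable {Q : F2 C →ₗ[ℝ] F2 C →ₗ[ℝ] ℝ}

/-- one more orthogonality condition -/
theorem Gen.perp (hQ : RatQ Q) (hk : ∀ x y, Ex x → Q x y = 0) {S : Submodule ℝ (F2 C)} {N : ℕ}
    {b : Fin N → F2 C} (h : Gen S b) {e : F2 C} (he : RatF e) :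
    ∃ w : Fin N → F2 C, Gen (S ⊓ Pall_162.perp Q e) w := by
  obtain ⟨c, -, hc⟩ := hQ
  exact h.step (Q.flip e) (fun x hx => by rw [LinearMap.flip_apply]; exact hk x e hx) c
    fun k => by
      obtain ⟨r, hr⟩ := hc (b k) e (h.int k).rat he
      exact ⟨r, by rw [LinearMap.flip_apply]; exact hr⟩


/-- the version with a basis modulo exact forms -/
theorem exists_perp_basis (hQ : RatQ Q) (hk : ∀ x y, Ex x → Q x y = 0) {N : ℕ}
    {b : Fin N → F2 C} (hb : ∀ k, IntF (b k))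
    (hs : ∀ x : F2 C, ∃ t : Fin N → ℝ, Ex (x - ∑ k, t k • b k))
    {e : F2 C} (he : RatF e) : ∃ (m : ℕ) (w : Fin m → F2 C), m ≤ N ∧ (∀ k, IntF (w k)) ∧
      (∀ k, Q (w k) e = 0) ∧ (∀ x, Q x e = 0 → ∃ t : Fin m → ℝ, Ex (x - ∑ k, t k • w k)) ∧
      ∀ t : Fin m → ℝ, Ex (∑ k, t k • w k) → t = 0 := by
  obtain ⟨w, hw⟩ := (gen_top hb hs).perp hQ hk he
  obtain ⟨m, f, hf, hw', hi⟩ := hw.exists_indep
  exact ⟨m, fun k => w (f k), by simpa using Fintype.card_le_of_injective f hf, hw'.int,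
    fun k => mem_perp.1 (hw'.mem k).2, fun x hx => hw'.span x ⟨trivial, mem_perp.2 hx⟩, hi⟩









end

end Crest.Agent.R281.Pall_162
end

-- ▼ part R281/Pall2_162
section

/-!
# R281 (S0424), G29 PER-ALL (helper162), part 2: periods

* `perL`          : the period of the pull back over a parallelogram, as a linear map on `F2 C`
* `Gen.per_zero`  : the periods of generators vanish ==> all periods on `S` vanish
* `per_all`       : **all integral `w` with `Q(w, e) = 0` have period zero ==> all closed `w` with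
                    `Q(w, e) = 0` have period zero**
* `per_eq`        : ... and then `per w = Q(w, e) / Q(w0, e) * per w0`
* `strip_all`, `strip_all_fin` : the same on a strip (`SIn_14.Strip`)
-/

set_option autoImplicit false
set_option linter.unusedSectionVars false
set_option maxSynthPendingDepth 3

open Set Filter Topology MeasureTheory
open scoped ENNReal ContDiff

namespace Crest.Agent.R281.Pall_162

open Crest.Agent.R281.HkR_835 Crest.Agent.R281.Cdr_234 Crest.Agent.R281.Per_368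
open Crest.Agent.R281.Ti_846 (Ex)

noncomputable section

section gen

variable {V X : Type} [NormedAddCommGroup V] [NormedSpace ℝ V] [TopologicalSpace X]
variable {E : Type*} [NormedAddCommGroup E] [NormedSpace ℝ E]
variable {C : RCh V X} {S Λ : Set E} {Φ : E → X}

/-- the period over a parallelogram, as a linear map -/
def perL [FiniteDimensional ℝ E] (h : SmI C S Φ) {z v v' : E}
    (hin : ∀ s t : ℝ, pt z v v' s t ∈ S) : F2 C →ₗ[ℝ] ℝ where
  toFun w := per (pull w Φ) z v v'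
  map_add' a b := per_add (S := S) (h.pull_smooth a).continuousOn (h.pull_smooth b).continuousOn
    hin fun x _ => pull_add_w a b Φ x v v'
  map_smul' c a := by
    rw [RingHom.id_apply, smul_eq_mul]
    exact per_smul (S := S) c hin fun x _ => pull_smul_w c a Φ x v v'

@[simp] theorem perL_apply [FiniteDimensional ℝ E] (h : SmI C S Φ) {z v v' : E}
    (hin : ∀ s t : ℝ, pt z v v' s t ∈ S) (w : F2 C) : perL h hin w = per (pull w Φ) z v v' := rfl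


variable [FiniteDimensional ℝ E] (h : SmI C S Φ)
  (hΛ : ∀ l ∈ Λ, ∀ ζ ∈ S, ζ + l ∈ S ∧ Φ (ζ + l) = Φ ζ) {z v v' : E}
  (hv : v ∈ Λ) (hv' : v' ∈ Λ) (hin : ∀ s t : ℝ, pt z v v' s t ∈ S)


variable {Q : F2 C →ₗ[ℝ] F2 C →ₗ[ℝ] ℝ}




end gen

section strip

open Crest.Agent.R281.SIn_14 Crest.Agent.R281.Tor_922
open Crest.Agent.R275.Geo

variable {N : ℕ} {M : Type} [TopologicalSpace M] {A : Atl N M}
  {F : M → Fin N → ℂ} {d : ℕ} {ζ0 : Fin N → ℂ} {r : ℝ} {Lam : AddSubgroup (Fin N → ℂ)}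
  {Φ : (Fin N → ℂ) → M}




variable {Q : F2 (ofAtl A) →ₗ[ℝ] F2 (ofAtl A) →ₗ[ℝ] ℝ}



end strip

end

end Crest.Agent.R281.Pall_162
namespace Crest.Agent.R281.Pall_162.Gen
end Crest.Agent.R281.Pall_162.Gen
end

-- ▼ part R281/Pall4_162
section

/-!
# R281 (S0424), G29 PER-ALL (helper162), part 4: no hypothesis left

* `ibas`, `ibas_cmp`, `hbas_hk`, `ibas_hk` : the basis theorem of 234 (Cdr10) as `IBas`
* `exists_perp_M`, `lam_perp_M`, `strip_all_M` : Pall3 without the hypothesis `IBas`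
* `rat_perp`     : the test on `RatF w` (multiples are integral)
* `Ctx` (902)    : `ctx_ratQ`, **`ctx_exists_perp`**, **`ctx_lam_perp`**, `ctx_lam_perp_rat`,
                   `ctx_perp_of_lam`
-/

set_option autoImplicit false
set_option linter.unusedSectionVars false
set_option maxSynthPendingDepth 3

open Set Filter Topology MeasureTheory

namespace Crest.Agent.R281.Pall_162

open Crest.Agent.R275 Crest.Agent.R275.Geo
open Crest.Agent.R273.Defs_333 Crest.Agent.R273.Kah_333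
open Crest.Agent.R281.HkR_835 Crest.Agent.R281.Dif_268
open Crest.Agent.R281.Defs_273 (H2 HSymp)
open Crest.Agent.R281.Cdr_234
open Crest.Agent.R281.Per_368
open Crest.Agent.R281.Ti_846 (Ex)
open Crest.Agent.R281.Fuj1_207 (Qf Kills)
open Crest.Agent.R281.Fuj4_207 Crest.Agent.R281.Fuj5_207 Crest.Agent.R281.Fuj7_207
open Crest.Agent.R281.SIn_14 Crest.Agent.R281.Tor_922
open Crest.Agent.R281.RkD_902 (Ctx)

noncomputable section

section bas

variable {V X : Type} [NormedAddCommGroup V] [NormedSpace ℝ V] [TopologicalSpace X]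
  {C : RCh V X}




/-- the basis theorem on a compact hyperkaehler manifold -/
theorem hbas_hk [FiniteDimensional ℝ V] [CompactSpace X] [T2Space X] {d : ℕ}
    (hd : Module.finrank ℝ V = 2 * d) (H : HkT C) : Nonempty (HBas C) := by
  obtain ⟨A, -, -, -, h, -, -⟩ := exists_rot (Crest.Agent.R260.NN6_900.nnat d V hd) H
  exact exists_hbas_cmp A h



end bas

section mfd

variable {d : ℕ} {M : Type} [TopologicalSpace M] {A : Atl d M}
  [T2Space M] [CompactSpace M] [ConnectedSpace M] [Finite A.ι] (P : Part A) (σ : HSymp A)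
  (hu : σ.Uniq) (hc : ClH σ.toH2) {n : ℕ} (hdn : d = n + n) (hn : 1 ≤ n) (hn2 : 2 ≤ n + n)




variable {F : M → Fin d → ℂ} {dg : ℕ} {ζ0 : Fin d → ℂ} {r : ℝ} {Lam : AddSubgroup (Fin d → ℂ)}
  {Φ : (Fin d → ℂ) → M}


end mfd

section ctx

variable {n : ℕ} {X : Type} [TopologicalSpace X] [CompactSpace X] {C : RCh (Cn (2 * n)) X}
  {Q : F2 C →ₗ[ℝ] F2 C →ₗ[ℝ] ℝ}

theorem ctx_ratQ (h : Ctx n C Q) : RatQ Q :=
  ⟨1, one_pos, fun x y hx hy => by
    obtain ⟨r, hr⟩ := h.rat x y hx hy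
    exact ⟨r, by rw [hr, one_mul]⟩⟩


theorem ctx_hbas [T2Space X] (H : HkT C) : Nonempty (HBas C) :=
  hbas_hk (d := 2 * n) (Qg_770.finrank_cn (2 * n)) H

/-- **integral classes of `e^⊥`, a basis of `e^⊥` modulo exact forms** -/
theorem ctx_exists_perp [T2Space X] (h : Ctx n C Q) (H : HkT C) {e : F2 C} (he : RatF e) :
    ∃ (m : ℕ) (w : Fin m → F2 C), (∀ k, IntF (w k)) ∧ (∀ k, Q (w k) e = 0) ∧
      (∀ x, Q x e = 0 → ∃ t : Fin m → ℝ, Ex (x - ∑ k, t k • w k)) ∧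
      ∀ t : Fin m → ℝ, Ex (∑ k, t k • w k) → t = 0 := by
  obtain ⟨B⟩ := ctx_hbas H
  obtain ⟨m, w, -, h⟩ := exists_perp_basis (ctx_ratQ h) h.ex B.int B.span he
  exact ⟨m, w, h⟩



variable {E : Type*} [NormedAddCommGroup E] [NormedSpace ℝ E] [FiniteDimensional ℝ E]
  {S Λ : Set E} {Φ : E → X}


end ctx

end

end Crest.Agent.R281.Pall_162
end

-- ▼ part R281/Cr1_808

/-!
# R281, CORE-ASM (helper808), part 1: the composition at one member

`C : RCh (Cn N) X`, `H : HkT C`, `A` holomorphic atlas of `J 0` (`hp`), `K' = L g`, `SDat` at the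
scale `L`, an integral basis `b` with representatives `b'` of `h.F b` and `|b'|² ≤ Fn`,
`∫ Fn ≤ C0 vol`, `C0 ≤ δ0 L²` ==> the tube.

* `F_sum`, `ex_F_comb`, `int_F` : `Cmp.F` on combinations of classes
* `vm_scale`, `lint_le`          : the measure of `K' = L K`
* `Mtub`                        : the output at one member
* `member_tube`                 : `core` at one member
-/

set_option autoImplicit false
set_option linter.unusedSectionVars false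
set_option maxSynthPendingDepth 3

open Set Filter Topology Complex Metric MeasureTheory
open scoped ContDiff Matrix ComplexConjugate ComplexOrder ENNReal

namespace Crest.Agent.R281.Cr_808

open Crest.Agent.R275.Geo Crest.Agent.R275.Core144 Crest.Agent.R275.EDR890
open Crest.Agent.R273.Defs_333 Crest.Agent.R273.Hess_333 Crest.Agent.R273.HessB_333
open Crest.Agent.R273.HM_333 Crest.Agent.R273.Kah_333 Crest.Agent.R273.Vol_333
open Crest.Agent.R273.Vm_333 Crest.Agent.R273.FIb0_597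
open Crest.Agent.R260.ACM_580 Crest.Agent.R260.NNB_580
open Crest.Agent.R281.Tor_922 Crest.Agent.R281.SIn_14
open Crest.Agent.R281.HkR_835 Crest.Agent.R281.Per_368 Crest.Agent.R281.Dif_268
open Crest.Agent.R281.T5L_808 Crest.Agent.R281.T5D_808 Crest.Agent.R281.T5F_808
open Crest.Agent.R281.Cdr_234
open Crest.Agent.R281.Ti_846 (Ex)
open Crest.Agent.R281.Mc673 (V W tube ClF kv mn isOpen_tube)
open Crest.Agent.R281.Sta2_684 (smulP)
open Crest.Agent.R238.Sch (ee norm_ee)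

noncomputable section

/-! ### `Cmp.F` on combinations -/

section F

variable {V V' X : Type} [NormedAddCommGroup V] [NormedSpace ℝ V] [NormedAddCommGroup V']
  [NormedSpace ℝ V'] [TopologicalSpace X] {C : RCh V X} {C' : RCh V' X}

theorem F_sum (h : Cmp C C') {κ : Type*} [Fintype κ] (t : κ → ℝ) (b : κ → F2 C) :
    Eqv (h.F (∑ k, t k • b k)) (∑ k, t k • h.F (b k)) := by
  intro j z hz u v
  obtain ⟨i, hi⟩ := Cmp.exists_mov (C' := C') C (j := j) hz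
  rw [h.F_w _ hi, F2.sum_w, F2.sum_w]
  simp only [sum_apply, F2.smul_w, smul_apply, h.F_w _ hi]

theorem ex_F_comb (h : Cmp C C') {κ : Type*} [Fintype κ] {b : κ → F2 C} {b' : κ → F2 C'}
    (hb : ∀ k, Ex (b' k - h.F (b k))) {x : F2 C} {t : κ → ℝ} (hx : Ex (x - ∑ k, t k • b k)) :
    Ex (h.F x - ∑ k, t k • b' k) := by
  have h1 : Ex (h.F x - h.F (∑ k, t k • b k)) := (F_sub h _ _).ex (ex_F h hx)
  have h2 : Ex (h.F (∑ k, t k • b k) - ∑ k, t k • h.F (b k)) := ex_sub_of_eqv (F_sum h t b)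
  have h3 : Ex (∑ k, t k • (b' k - h.F (b k))) :=
    Pall_162.ex_sum _ fun k _ => Ex.smul _ (hb k)
  have h4 := Ex.add (Ex.add h1 h2) (Ex.neg h3)
  have e : h.F x - h.F (∑ k, t k • b k) + (h.F (∑ k, t k • b k) - ∑ k, t k • h.F (b k)) +
      -(∑ k, t k • (b' k - h.F (b k))) = h.F x - ∑ k, t k • b' k := by
    simp only [smul_sub, Finset.sum_sub_distrib]
    abel
  rwa [e] at h4

theorem int_F (h : Cmp C C') {w : F2 C} (hw : IntF w) : IntF (h.F w) :=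
  (Cls.pull (SMap.ofCmp h) hw).eqv (F_pull h w).symm

end F

/-! ### scaling of the metric -/

section scale

variable {n : ℕ} {M : Type} [TopologicalSpace M] {A : Atl n M}

theorem vm_scale [MeasurableSpace M] [BorelSpace M] [Countable A.ι] {K0 K : Kah A} {l : ℝ}
    (hl : 0 ≤ l) (hK : ∀ i, ∀ x ∈ (A.e i).source, K.g i x = (l : ℂ) • K0.g i x) :
    vm (volK K) = ENNReal.ofReal (l ^ n) • vm (volK K0) := by
  refine Pfa_69.vm_ratio (by positivity) fun i x hx => ?_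
  show (K.g i x).det.re = l ^ n * (K0.g i x).det.re
  rw [hK i x hx, Matrix.det_smul, Fintype.card_fin, ← Complex.ofReal_pow, Complex.re_ofReal_mul]

/-- mean `≤ 1` -/
theorem lint_le [MeasurableSpace M] [BorelSpace M] [CompactSpace M] [T2Space M] [Countable A.ι]
    {K0 K : Kah A} {l C0 : ℝ} (hl : 0 ≤ l) (hC0 : 0 < C0)
    (hK : ∀ i, ∀ x ∈ (A.e i).source, K.g i x = (l : ℂ) • K0.g i x) {Fn : M → ℝ}
    (hc : Continuous Fn) (h0 : ∀ x, 0 ≤ Fn x)
    (hi : ∫ x, Fn x ∂(vm (volK K0)) ≤ C0 * (vm (volK K0)).real univ) :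
    ∫⁻ x, ENNReal.ofReal (Fn x / C0) ∂(vm (volK K)) ≤ vm (volK K) univ := by
  have hfin : IsFiniteMeasure (vm (volK K0)) := isFinite_vm (volK K0)
  have hint : Integrable Fn (vm (volK K0)) :=
    hc.integrable_of_hasCompactSupport (HasCompactSupport.of_compactSpace _)
  rw [vm_scale hl hK, lintegral_smul_measure, Measure.smul_apply, smul_eq_mul, smul_eq_mul]
  refine mul_le_mul_right ?_ _
  rw [← ofReal_integral_eq_lintegral_ofReal (hint.div_const _)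
    (Filter.Eventually.of_forall fun x => div_nonneg (h0 x) hC0.le), integral_div]
  rw [← ofReal_measureReal (measure_ne_top _ _)]
  refine ENNReal.ofReal_le_ofReal ?_
  rw [div_le_iff₀ hC0]
  linarith

theorem hb_scale {K0 K : Kah A} {l : ℝ}
    (hK : ∀ i, ∀ x ∈ (A.e i).source, K.g i x = (l : ℂ) • K0.g i x) {i : A.ι} {x : M}
    (hx : x ∈ (A.e i).source) (u v : Cn n) :
    (hb (K.g i x) u v).re = l * (hb (K0.g i x) u v).re := by
  rw [hK i x hx]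
  have h1 : hb ((l : ℂ) • K0.g i x) u v = (l : ℂ) * hb (K0.g i x) u v := by
    rw [← hbL_apply u v, map_smul, hbL_apply, smul_eq_mul]
  rw [h1, Complex.re_ofReal_mul]

end scale

/-! ### one member -/

section member

variable {N : ℕ} {X : Type} [TopologicalSpace X] {C : RCh (Cn N) X}


/-- **the tube at one member**: `Θ` for the scaled triple `L H` in the charts of `A`;
the classes `v` of `S` have zero periods -/
structure Mtub (H : HkT C) (S : Set (F2 C)) (R Λ δ : ℝ) (A : Atl N X) (hp : Cp (H.acm 0) A)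
    (L : ℝ) (hL : 0 < L) (Θ : W N → X) : Prop where
  tub : TubeD (ofAtl A) (L • (cmp_of_cp hp).F (H.om 0)) (L • (cmp_of_cp hp).F (H.om 2)) N R Λ δ Θ
  pin : Pin (smulP L hL ((cmp_of_cp hp).hk H)) N R Λ Θ
  per : ∀ v ∈ S, ∀ p ∈ tube N R, ∀ j k,
    per (pull ((cmp_of_cp hp).F v) Θ) p ((ee j, 0) : W N) ((ee k, 0) : W N) = 0

/-- **composition at one member** -/
theorem member_tube (hS : TheoremS) (N d : ℕ) (m v C0 c : ℝ) (hN : 1 ≤ N) (hm : 0 < m)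
    (hv : 0 < v) (hc : 0 < c) : ∃ Λ : ℝ, 0 < Λ ∧ ∃ δ0 : ℝ, 0 < δ0 ∧ ∀ R δ : ℝ, 0 < R → 0 < δ →
    ∃ L0 : ℝ, 1 ≤ L0 ∧ ∀ L : ℝ, L0 ≤ L → ∀ hL : 0 < L,
    ∀ (X : Type) [TopologicalSpace X] [T2Space X] [CompactSpace X] [ConnectedSpace X]
      [MeasurableSpace X] [BorelSpace X] (C : RCh (Cn N) X) (H : HkT C) (A : Atl N X)
      [Finite A.ι], Part A → ∀ (hp : Cp (H.acm 0) A) (K : Kah A) (Lb : LB A) (h : HM Lb)
      (s : Fin (N + 1) → A.ι → X → ℂ) (om : A.ι → X → ℂ),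
      (∀ i, ∀ x ∈ (A.e i).source, K.g i x = (L : ℂ) • (H.kah hp).g i x) →
      SDat A K Lb h s om m v C0 c d L →
    ∀ {κ : Type} [Fintype κ] (b : κ → F2 C), (∀ k, IntF (b k)) →
      (∃ t : κ → ℝ, Ex (H.om 0 - ∑ k, t k • b k)) →
      (∃ t : κ → ℝ, Ex (H.om 2 - ∑ k, t k • b k)) →
    ∀ b' : κ → F2 (ofAtl A), (∀ k, Ex (b' k - (cmp_of_cp hp).F (b k))) →
    ∀ (Fn : X → ℝ) (Cf : ℝ), Continuous Fn → (∀ x, 0 ≤ Fn x) → 0 < Cf → Cf ≤ δ0 * L ^ 2 →
      (∀ k i, ∀ x ∈ (A.e i).source, ∀ u v : Cn N, ((b' k).w i (A.e i x) u v) ^ 2 ≤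
        Fn x * (hb ((H.kah hp).g i x) u u).re * (hb ((H.kah hp).g i x) v v).re) →
      ∫ x, Fn x ∂(vm (volK (H.kah hp))) ≤ Cf * (vm (volK (H.kah hp))).real univ →
      ∃ Θ : W N → X, Mtub H {w | ∃ t : κ → ℝ, Ex (w - ∑ k, t k • b k)} R Λ δ A hp L hL Θ := by
  obtain ⟨Λ, hΛ, δ0, hδ0, hcore⟩ := core hS N d m v C0 c hN hm hv hc
  refine ⟨Λ, hΛ, δ0, hδ0, fun R δ hR hδ => ?_⟩
  obtain ⟨L0, hL0, hcore⟩ := hcore R δ hR hδ
  refine ⟨L0, hL0, fun L hL1 hL => ?_⟩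
  intro X _ _ _ _ _ _ C H A _ P hp K Lb h s om hK hSD κ _ b hI h0 h2 b' hb' Fn Cf hFc hF0 hCf
    hCL hbd hint
  obtain ⟨t0, h0⟩ := h0
  obtain ⟨t2, h2⟩ := h2
  set g := cmp_of_cp hp with hg
  have hcmb : ∀ {x : F2 C} {t : κ → ℝ} (l : ℝ), Ex (x - ∑ k, t k • b k) →
      Ex (l • g.F x - ∑ k, (l * t k) • b' k) := by
    intro x t l hx
    have h3 := Ex.smul l (ex_F_comb g hb' hx)
    rw [smul_sub, Finset.smul_sum] at h3
    simpa only [smul_smul] using h3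
  have hmain := hcore L hL1 X A P K Lb h s om hSD (smulP L hL (g.hk H)) ?_ ?_ b'
    (fun k => L * t0 k) (fun k => L * t2 k) (fun k => (int_F g (hI k)).of_sub_ex (hb' k))
    (hcmb L h0) (hcmb L h2) (fun x => ENNReal.ofReal (Fn x / Cf)) ?_ ?_ ?_
  · obtain ⟨Θ, h3, h4, h5⟩ := hmain
    refine ⟨Θ, h3, h4, ?_⟩
    rintro w ⟨t, ht⟩ p hp' j k
    refine h5 (g.F w) ⟨t, ?_⟩ p hp' j k
    exact ex_F_comb g hb' ht
  · intro i z hz u v
    have h3 := K0_om0 (g.hk H) (fun i z hz v => hk_J_I hp i hz v) hz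
    have h4 := (ofKah K).f2_w hz u v
    have h5 := (ofKah (H.kah hp)).f2_w hz u v
    have h6 := hb_scale hK ((A.e i).map_target hz) (I • u) v
    rw [h4]
    show L * (g.F (H.om 0)).w i z u v = _
    have h7 : (ofKah (H.kah hp)).f2.w i z u v = (g.F (H.om 0)).w i z u v := by
      have := congrArg (fun T : Cn N →L[ℝ] Cn N →L[ℝ] ℝ => T u v) h3
      exact this
    rw [hb_I_left, hb_I_left] at h6
    rw [← h7, h5]
    exact h6.symm
  · intro i z hz v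
    exact hk_J_I hp i hz v
  · exact (ENNReal.measurable_ofReal.comp (hFc.measurable.div_const _))
  · exact lint_le hL.le hCf hK hFc hF0 hint
  · intro k i x hx u v
    rw [hb_scale hK hx u u, hb_scale hK hx v v]
    have hu : 0 ≤ (hb ((H.kah hp).g i x) u u).re :=
      (Nef_252.hb_nonneg ((H.kah hp).pos i x hx).posSemidef u)
    have hv' : 0 ≤ (hb ((H.kah hp).g i x) v v).re :=
      (Nef_252.hb_nonneg ((H.kah hp).pos i x hx).posSemidef v)
    rw [← ENNReal.ofReal_mul hδ0.le, ← ENNReal.ofReal_mul (by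
      exact mul_nonneg hδ0.le (div_nonneg (hF0 x) hCf.le))]
    refine ENNReal.ofReal_le_ofReal ((hbd k i x hx u v).trans ?_)
    have h3 : Fn x ≤ δ0 * (Fn x / Cf) * L ^ 2 := by
      rw [mul_div_assoc', div_mul_eq_mul_div, le_div_iff₀ hCf]
      nlinarith [hF0 x]
    calc Fn x * (hb ((H.kah hp).g i x) u u).re * (hb ((H.kah hp).g i x) v v).re
        ≤ (δ0 * (Fn x / Cf) * L ^ 2) * (hb ((H.kah hp).g i x) u u).re *
          (hb ((H.kah hp).g i x) v v).re := by gcongr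
      _ = _ := by ring

end member

end

end Crest.Agent.R281.Cr_808
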