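import Crest.Agent.R281.TorE_922
import Crest.Agent.R273.RMan4_798
import Crest.Agent.R281.Ins2_615

-- ▼ part R281/TorF_922
section

/-!
# R281 (S0424), leaf S-TOR (helper922), file F: the image of the strip contains a ball

`|dlog F_j (v)| ≤ C' ‖v‖` on `W`, `ball y ρ ⊆ W`, `C' * ρ ≤ r`: then `ball y ρ ⊆ Φ '' strip ζ0 r`.
-/

set_option autoImplicit false
set_option linter.unusedSectionVars false

open Set Filter Topology Metric Manifold Bundle
open scoped ContDiff Manifold Bundle ENNReal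

namespace Crest.Agent.R281.Tor_922

/-- `log ‖w‖` is smooth away from zero with derivative of norm `≤ ‖v‖ / ‖w‖` -/
theorem log_norm_deriv {w0 : ℂ} (hw : w0 ≠ 0) :
    ContDiffAt ℝ 1 (fun w : ℂ => Real.log ‖w‖) w0 ∧
    ∃ L : ℂ →L[ℝ] ℝ, HasFDerivAt (fun w : ℂ => Real.log ‖w‖) L w0 ∧ ∀ v, |L v| ≤ ‖v / w0‖ := by
  have he : (fun w : ℂ => Real.log ‖w‖) =ᶠ[𝓝 w0]
      fun w => (Complex.log (w / w0)).re + Real.log ‖w0‖ := by
    filter_upwards [isOpen_ne.mem_nhds hw] with w hw1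
    rw [Complex.log_re, norm_div, Real.log_div (norm_ne_zero_iff.2 hw1) (norm_ne_zero_iff.2 hw)]
    ring
  have h1 : w0 / w0 ∈ Complex.slitPlane := by rw [div_self hw]; exact Complex.one_mem_slitPlane
  constructor
  · refine ContDiffAt.congr_of_eventuallyEq ?_ he
    refine ContDiffAt.add ?_ contDiffAt_const
    have h2 : ContDiffAt ℝ 1 (fun w : ℂ => Complex.log (w / w0)) w0 := by
      have h3 : ContDiffAt ℂ 1 (fun w : ℂ => Complex.log (w / w0)) w0 :=
        ContDiffAt.comp (g := Complex.log) (f := fun w : ℂ => w / w0) w0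
          (Complex.contDiffAt_log h1) (contDiffAt_id.div_const w0)
      exact h3.restrict_scalars ℝ
    exact Complex.reCLM.contDiff.contDiffAt.comp w0 h2
  · have h2 : HasDerivAt (fun w : ℂ => Complex.log (w / w0)) (1 / w0) w0 := by
      have := ((hasDerivAt_id w0).div_const w0).clog h1
      simpa [div_self hw] using this
    have h3 := (Complex.reCLM.hasFDerivAt.comp w0 (h2.hasFDerivAt.restrictScalars ℝ)).add_const
      (Real.log ‖w0‖)
    refine ⟨_, h3.congr_of_eventuallyEq he, fun v => ?_⟩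
    have e : (Complex.reCLM.comp (ContinuousLinearMap.restrictScalars ℝ
        (ContinuousLinearMap.toSpanSingleton ℂ (1 / w0)))) v = (v / w0).re := by
      simp [div_eq_mul_inv]
    refine le_trans (le_of_eq ?_) (Complex.abs_re_le_norm (v / w0))
    exact congrArg abs e

variable {E : Type*} [NormedAddCommGroup E] [NormedSpace ℝ E]
  {M : Type*} [MetricSpace M] [ChartedSpace E M]
  [RiemannianBundle (fun x : M => TangentSpace 𝓘(ℝ, E) x)] [IsManifold 𝓘(ℝ, E) 1 M]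
  [IsRiemannianManifold 𝓘(ℝ, E) M]
variable {ι : Type*} [Fintype ι]

/-- along a `C¹` path in `W` the function `log ‖F_j‖` changes by at most `C'` times the length -/
theorem log_norm_path {F : M → ι → ℂ} {W : Set M} {C C' : ℝ} (hFr : FrameBd (E := E) F W C)
    (hW : IsOpen W) (hC' : 0 ≤ C')
    (hF' : ∀ p ∈ W, ∀ v : TangentSpace 𝓘(ℝ, E) p, ∀ j,
      ‖(mfderiv 𝓘(ℝ, E) 𝓘(ℝ, ι → ℂ) F p v : ι → ℂ) j / F p j‖ ≤ C' * ‖v‖)
    {γ : ℝ → M} (hγ : ContMDiffOn 𝓘(ℝ, ℝ) 𝓘(ℝ, E) 1 γ (Icc 0 1)) (hγW : ∀ t ∈ Icc (0 : ℝ) 1, γ t ∈ W)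
    (j : ι) {t : ℝ} (ht : t ∈ Icc (0 : ℝ) 1) :
    ENNReal.ofReal |Real.log ‖F (γ t) j‖ - Real.log ‖F (γ 0) j‖| ≤
      ENNReal.ofReal C' * pathELength 𝓘(ℝ, E) γ 0 1 := by
  set u : M → ℝ := fun p => Real.log ‖F p j‖ with hu
  let Du : M → E →L[ℝ] ℝ := fun p => mfderiv 𝓘(ℝ, E) 𝓘(ℝ, ℝ) u p
  have hud : ∀ p ∈ W, ContMDiffAt 𝓘(ℝ, E) 𝓘(ℝ, ℝ) 1 u p ∧
      ∀ v : TangentSpace 𝓘(ℝ, E) p, ‖Du p v‖ ≤ C' * ‖v‖ := by
    intro p hp
    obtain ⟨h1, L, hL, hLv⟩ := log_norm_deriv (hFr.ne_zero p hp j)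
    have hFp : ContMDiffAt 𝓘(ℝ, E) 𝓘(ℝ, ι → ℂ) 1 F p := hFr.smooth.contMDiffAt (hW.mem_nhds hp)
    have hFd : MDifferentiableAt 𝓘(ℝ, E) 𝓘(ℝ, ι → ℂ) F p := hFp.mdifferentiableAt (by simp)
    constructor
    · have h2 : ContDiffAt ℝ 1 (fun w : ι → ℂ => Real.log ‖w j‖) (F p) :=
        h1.comp (F p) (contDiff_apply ℝ ℂ j).contDiffAt
      exact h2.contMDiffAt.comp p hFp
    · intro v
      have h2 : HasFDerivAt (fun w : ι → ℂ => Real.log ‖w j‖)
          (L.comp (ContinuousLinearMap.proj j : (ι → ℂ) →L[ℝ] ℂ)) (F p) := by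
        have h3 : HasFDerivAt (fun w : ι → ℂ => w j)
          (ContinuousLinearMap.proj j : (ι → ℂ) →L[ℝ] ℂ) (F p) :=
          (ContinuousLinearMap.proj j : (ι → ℂ) →L[ℝ] ℂ).hasFDerivAt
        exact HasFDerivAt.comp (g := fun w : ℂ => Real.log ‖w‖) (F p) hL h3
      have h4 := (h2.hasMFDerivAt.comp p hFd.hasMFDerivAt).mfderiv
      have h5 : Du p v = L ((mfderiv 𝓘(ℝ, E) 𝓘(ℝ, ι → ℂ) F p v : ι → ℂ) j) := by
        have : mfderiv 𝓘(ℝ, E) 𝓘(ℝ, ℝ) u p = _ := h4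
        change (mfderiv 𝓘(ℝ, E) 𝓘(ℝ, ℝ) u p : E →L[ℝ] ℝ) v = _
        rw [this]
        rfl
      rw [h5, Real.norm_eq_abs]
      exact (hLv _).trans (hF' p hp v j)
  set h : ℝ → ℝ := u ∘ γ with hh
  have hs : ContMDiffOn 𝓘(ℝ, ℝ) 𝓘(ℝ, ℝ) 1 h (Icc 0 1) := fun s hs' =>
    ContMDiffAt.comp_contMDiffWithinAt s (hud _ (hγW s hs')).1 (hγ s hs')
  have h1 : riemannianEDist 𝓘(ℝ, ℝ) (h 0) (h t) ≤ pathELength 𝓘(ℝ, ℝ) h 0 t :=
    riemannianEDist_le_pathELength (hs.mono (Icc_subset_Icc_right ht.2)) rfl rfl ht.1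
  have h2 : pathELength 𝓘(ℝ, ℝ) h 0 t ≤ pathELength 𝓘(ℝ, ℝ) h 0 1 := pathELength_mono le_rfl ht.2
  have h3 : pathELength 𝓘(ℝ, ℝ) h 0 1 ≤ ENNReal.ofReal C' * pathELength 𝓘(ℝ, E) γ 0 1 := by
    rw [pathELength_eq_lintegral_mfderivWithin_Icc, pathELength_eq_lintegral_mfderivWithin_Icc,
      ← MeasureTheory.lintegral_const_mul' _ _ ENNReal.ofReal_ne_top]
    refine MeasureTheory.setLIntegral_mono' measurableSet_Icc fun s hs' => ?_
    have h4 : mfderivWithin 𝓘(ℝ, ℝ) 𝓘(ℝ, ℝ) (u ∘ γ) (Icc 0 1) s =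
        (mfderiv 𝓘(ℝ, E) 𝓘(ℝ, ℝ) u (γ s)).comp (mfderivWithin 𝓘(ℝ, ℝ) 𝓘(ℝ, E) γ (Icc 0 1) s) := by
      apply mfderiv_comp_mfderivWithin
      · exact (hud _ (hγW s hs')).1.mdifferentiableAt (by simp)
      · exact hγ.mdifferentiableOn (by simp) s hs'
      · rw [uniqueMDiffWithinAt_iff_uniqueDiffWithinAt]
        exact uniqueDiffOn_Icc zero_lt_one s hs'
    rw [hh, h4]
    have h5 := (hud _ (hγW s hs')).2 (mfderivWithin 𝓘(ℝ, ℝ) 𝓘(ℝ, E) γ (Icc 0 1) s 1)
    have h6 : ‖Du (γ s) (mfderivWithin 𝓘(ℝ, ℝ) 𝓘(ℝ, E) γ (Icc 0 1) s 1)‖ₑ ≤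
        ENNReal.ofReal C' * ‖(mfderivWithin 𝓘(ℝ, ℝ) 𝓘(ℝ, E) γ (Icc 0 1) s 1 :
          TangentSpace 𝓘(ℝ, E) (γ s))‖ₑ := by
      rw [← ofReal_norm, ← ofReal_norm, ← ENNReal.ofReal_mul hC']
      exact ENNReal.ofReal_le_ofReal h5
    rw [enorm_tangentSpace_vectorSpace]
    exact h6
  have h7 := (h1.trans h2).trans h3
  rw [← IsRiemannianManifold.out (I := 𝓘(ℝ, ℝ)), edist_dist, Real.dist_eq, abs_sub_comm] at h7
  exact h7

/-- **the image of the strip contains a ball** -/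
theorem TorusStrip.ball_subset_image {F : M → ι → ℂ} {W : Set M} {C C' : ℝ}
    (hFr : FrameBd (E := E) F W C) (hW : IsOpen W) (hC' : 0 ≤ C')
    (hF' : ∀ p ∈ W, ∀ v : TangentSpace 𝓘(ℝ, E) p, ∀ j,
      ‖(mfderiv 𝓘(ℝ, E) 𝓘(ℝ, ι → ℂ) F p v : ι → ℂ) j / F p j‖ ≤ C' * ‖v‖) {d : ℕ} {y : M}
    {ζ0 : ι → ℂ} {r : ℝ} {Lam : AddSubgroup (ι → ℂ)} {Φ : (ι → ℂ) → M}
    (h : TorusStrip F W C d y ζ0 r Lam Φ) (hr : 0 < r) {ρ : ℝ} (hρ : C' * ρ ≤ r)
    (hball : ball y ρ ⊆ W) : ball y ρ ⊆ Φ '' strip ζ0 r := by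
  intro p hp
  have hρ0 : 0 < ρ := dist_nonneg.trans_lt hp
  have h1 : riemannianEDist 𝓘(ℝ, E) y p < ENNReal.ofReal ρ := by
    rw [← IsRiemannianManifold.out (I := 𝓘(ℝ, E)), edist_dist, dist_comm]
    exact (ENNReal.ofReal_lt_ofReal_iff hρ0).2 hp
  obtain ⟨γ, h0, h1', hs, hl⟩ := exists_lt_of_riemannianEDist_lt h1
  have hγb : ∀ t ∈ Icc (0 : ℝ) 1, γ t ∈ ball y ρ := by
    intro t ht
    have h2 : riemannianEDist 𝓘(ℝ, E) y (γ t) ≤ pathELength 𝓘(ℝ, E) γ 0 1 :=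
      (riemannianEDist_le_pathELength (hs.mono (Icc_subset_Icc_right ht.2)) h0 rfl ht.1).trans
        (pathELength_mono le_rfl ht.2)
    have h3 := h2.trans_lt hl
    rw [← IsRiemannianManifold.out (I := 𝓘(ℝ, E)), edist_dist, dist_comm] at h3
    exact (ENNReal.ofReal_lt_ofReal_iff hρ0).1 h3
  have hγW : ∀ t ∈ Icc (0 : ℝ) 1, γ t ∈ W := fun t ht => hball (hγb t ht)
  have hζ0 : ζ0 ∈ strip ζ0 r := fun j => by rw [sub_self, abs_zero]; exact hr
  have hFy : ∀ j, Real.log ‖F y j‖ = (ζ0 j).re := by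
    intro j
    have := h.lift ζ0 hζ0
    rw [h.base] at this
    rw [this]
    unfold expPi
    rw [Complex.norm_exp, Real.log_exp]
  have hV : IsPreconnected (γ '' Icc 0 1) := isPreconnected_Icc.image _ hs.continuousOn
  refine h.image (γ '' Icc 0 1) ?_ hV ⟨0, ⟨le_rfl, zero_le_one⟩, h0⟩ ?_
    ⟨1, ⟨zero_le_one, le_rfl⟩, h1'⟩
  · rintro _ ⟨t, ht, rfl⟩
    exact hγW t ht
  · rintro _ ⟨t, ht, rfl⟩ j
    refine ⟨hFr.ne_zero _ (hγW t ht) j, ?_⟩
    have h4 := log_norm_path hFr hW hC' hF' hs hγW j ht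
    rw [h0, hFy] at h4
    rcases hC'.eq_or_lt with hz | hpos
    · rw [← hz, ENNReal.ofReal_zero, zero_mul] at h4
      have h5 : |Real.log ‖F (γ t) j‖ - (ζ0 j).re| ≤ 0 := by
        rwa [nonpos_iff_eq_zero, ENNReal.ofReal_eq_zero] at h4
      exact h5.trans_lt hr
    · have h5 : ENNReal.ofReal C' * pathELength 𝓘(ℝ, E) γ 0 1 <
          ENNReal.ofReal C' * ENNReal.ofReal ρ :=
        ENNReal.mul_lt_mul_right (by simpa using hpos) ENNReal.ofReal_ne_top hl
      have h6 := h4.trans_lt h5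
      rw [← ENNReal.ofReal_mul hC', ENNReal.ofReal_lt_ofReal_iff (by positivity)] at h6
      exact h6.trans_le hρ

end Crest.Agent.R281.Tor_922
end

-- ▼ part R281/Fra1_922

/-!
# R281 (S0424), S-FRAME (helper922), file 1: the frame bound on `(ofKah K).M` from chart data

`A : Atl n M`, `K : Kah A`, `X = (ofKah K).M` (798).
* `HolW A W F`   : `F` is holomorphic on `W` in the charts;
* `dlg A F i z v`: `dlog F_j (v)`, read in the chart `i` at `z`;
* `norm_sq_idx`  : `‖v‖² = g(v, v)` in the preferred chart;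
* `mfderiv_idx`  : `mfderiv F x v` in the preferred chart;
* `frameBd`      : `g(v,v) ≤ (C max_j |dlog F_j v|)²` in all charts ⟹ `FrameBd F W C`;
* `up_bound`     : `|dlog F_j v|² ≤ C'² g(v,v)` in all charts ⟹ the hypothesis of `ball_subset_image`.
-/

set_option autoImplicit false
set_option linter.unusedSectionVars false

open Set Filter Topology Complex Metric Manifold Bundle
open scoped ContDiff Matrix ComplexConjugate Manifold Bundle

namespace Crest.Agent.R281.Fra_922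

open Crest.Agent.R275.Geo
open Crest.Agent.R273.Defs_333
open Crest.Agent.R273.Kah_333
open Crest.Agent.R273.Ric_798 Crest.Agent.R273.RMan_798 Crest.Agent.R273.RMan4_798
open Crest.Agent.R281.Tor_922

noncomputable section

variable {n : ℕ} {M : Type} [TopologicalSpace M] {A : Atl n M}

/-- `F` is holomorphic on `W` in the charts of `A` -/
def HolW (A : Atl n M) (W : Set M) {V' : Type*} [NormedAddCommGroup V'] [NormedSpace ℂ V']
    (F : M → V') : Prop :=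
  ∀ i, DifferentiableOn ℂ (fun z => F ((A.e i).symm z)) {z | z ∈ (A.e i).target ∧
    (A.e i).symm z ∈ W}

theorem isOpen_chart (A : Atl n M) {W : Set M} (hW : IsOpen W) (i : A.ι) :
    IsOpen {z | z ∈ (A.e i).target ∧ (A.e i).symm z ∈ W} :=
  (A.e i).isOpen_inter_preimage_symm hW

/-- the logarithmic differential of `F`, in the chart `i`, at `z`, applied to `v` -/
def dlg {m : ℕ} (A : Atl n M) (F : M → Fin m → ℂ) (i : A.ι) (z v : Cn n) : Fin m → ℂ :=
  fun j => (fderiv ℂ (fun w => F ((A.e i).symm w)) z v) j / F ((A.e i).symm z) j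

/-- a function on `M` seen on the Riemannian manifold `(ofKah K).M` -/
def onX (K : Kah A) {β : Type*} (F : M → β) : (ofKah K).M → β := F


/-- norm of a tangent vector in the preferred chart -/
theorem norm_sq_idx (K : Kah A) (x : (ofKah K).M) (v : TangentSpace (𝓡 (2 * n)) x) :
    ‖v‖ ^ 2 = G (KK K ((ofKah K).idx x)) (A.e ((ofKah K).idx x) x) ((eR n).symm v)
      ((eR n).symm v) := by
  set i := (ofKah K).idx x with hi
  have h1 : ‖v‖ ^ 2 = inner ℝ v v := (real_inner_self_eq_norm_sq v).symm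
  have hxs : x ∈ (A.e i).source := by
    have := (ofKah K).idx_mem x
    have h2 : ((ofKah K).ch i).source = (A.e i).source := cR_source i
    rw [← h2]
    exact this
  have h0 : (eR n).symm (cR A i x) = A.e i x := (eR n).symm_apply_apply (A.e i x)
  rw [h1, RAtl.inner_M]
  have key : ∀ w : EE (2 * n), (ofKah K).inn x w w =
      G (KK K i) (A.e i x) ((eR n).symm w) ((eR n).symm w) := by
    intro w
    have h3 : (ofKah K).inn x w w = ∑ a, ∑ b, hm (eR n) (KK K i) (cR A i x) a b * w a * w b :=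
      (ofKah K).bil_apply i _ _ _
    rw [h3, sum_hm (eR n) (by
      rw [h0]
      exact ((kd K i).pd _ ((A.e i).map_source hxs)).1), h0]
  exact key v

variable {m : ℕ}

/-- smoothness and derivative of a chartwise holomorphic map, in the preferred chart -/
theorem contMDiffAt_idx (K : Kah A) {W : Set M} (hW : IsOpen W) {F : M → Fin m → ℂ}
    (hF : HolW A W F) {x : (ofKah K).M} (hx : (x : M) ∈ W) :
    ContMDiffAt (𝓡 (2 * n)) 𝓘(ℝ, Fin m → ℂ) 1 (onX K F) x ∧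
    ∀ v : EE (2 * n), (mfderiv (𝓡 (2 * n)) 𝓘(ℝ, Fin m → ℂ) (onX K F) x v :
      Fin m → ℂ) = fderiv ℂ (fun w => F ((A.e ((ofKah K).idx x)).symm w))
        (A.e ((ofKah K).idx x) x) ((eR n).symm v) := by
  set i := (ofKah K).idx x with hi
  have hxi : x ∈ ((ofKah K).ch i).source := (ofKah K).idx_mem x
  have hxs : x ∈ (A.e i).source := by
    have h2 : ((ofKah K).ch i).source = (A.e i).source := cR_source i
    rw [← h2]
    exact hxi
  have hz : A.e i x ∈ (A.e i).target := (A.e i).map_source hxs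
  have hmem : A.e i x ∈ {z | z ∈ (A.e i).target ∧ (A.e i).symm z ∈ W} :=
    ⟨hz, by rw [(A.e i).left_inv hxs]; exact hx⟩
  have hO := isOpen_chart A hW i
  have hd : DifferentiableAt ℂ (fun z => F ((A.e i).symm z)) (A.e i x) :=
    (hF i).differentiableAt (hO.mem_nhds hmem)
  have hcd : ContDiffAt ℝ 1 (fun z => F ((A.e i).symm z)) (A.e i x) := by
    have h1 := ((Crest.Agent.R266.SCV.contDiffOn_omega_of_differentiableOn hO
      (hF i)).restrict_scalars ℝ).contDiffAt (hO.mem_nhds hmem)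
    exact h1.of_le le_top
  have h0 : (eR n).symm ((ofKah K).ch i x) = A.e i x :=
    (eR n).symm_apply_apply (A.e i x)
  have hcd2 : ContDiffAt ℝ 1 (fun y : EE (2 * n) => F ((A.e i).symm ((eR n).symm y)))
      ((ofKah K).ch i x) := by
    have h1 : ContDiffAt ℝ 1 (fun z => F ((A.e i).symm z)) ((eR n).symm ((ofKah K).ch i x)) := by
      rw [h0]; exact hcd
    exact h1.comp ((ofKah K).ch i x) (eR n).symm.contDiff.contDiffAt
  have hM : ContMDiffAt (𝓡 (2 * n)) 𝓘(ℝ, Fin m → ℂ) 1 (onX K F) x :=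
    (Crest.Agent.R281.Ins_615.contMDiffAt_iff (R := ofKah K) (by simp) hxi).2 hcd2
  refine ⟨hM, fun v => ?_⟩
  have hmf := (hM.mdifferentiableAt (by simp)).mfderiv
  have h1 : HasFDerivAt (fun y : EE (2 * n) => F ((A.e i).symm ((eR n).symm y)))
      (((fderiv ℂ (fun z => F ((A.e i).symm z)) (A.e i x)).restrictScalars ℝ).comp
        ((eR n).symm : EE (2 * n) →L[ℝ] Cn n)) ((ofKah K).ch i x) := by
    have h2 : HasFDerivAt (fun z => F ((A.e i).symm z))
        ((fderiv ℂ (fun z => F ((A.e i).symm z)) (A.e i x)).restrictScalars ℝ)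
        ((eR n).symm ((ofKah K).ch i x)) := by
      rw [h0]
      exact hd.hasFDerivAt.restrictScalars ℝ
    exact h2.comp ((ofKah K).ch i x) ((eR n).symm : EE (2 * n) →L[ℝ] Cn n).hasFDerivAt
  have h3 : (mfderiv (𝓡 (2 * n)) 𝓘(ℝ, Fin m → ℂ) (onX K F) x :
      EE (2 * n) →L[ℝ] (Fin m → ℂ)) =
      fderiv ℝ (fun y : EE (2 * n) => F ((A.e i).symm ((eR n).symm y))) ((ofKah K).ch i x) := by
    rw [hmf]
    simp only [writtenInExtChartAt, extChartAt_model_space_eq_id, modelWithCornersSelf_coe,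
      range_id, fderivWithin_univ]
    rfl
  rw [h3, h1.fderiv]
  rfl

/-- **the frame bound from the charts** -/
theorem frameBd [T2Space M] [ConnectedSpace M] (K : Kah A) {W : Set M} (hW : IsOpen W)
    {F : M → Fin m → ℂ} (hF : HolW A W F) (hne : ∀ p ∈ W, ∀ j, F p j ≠ 0) {C : ℝ} (hC : 0 ≤ C)
    (hb : ∀ i, ∀ z ∈ (A.e i).target, (A.e i).symm z ∈ W → ∀ v : Cn n,
      G (KK K i) z v v ≤ (C * ‖dlg A F i z v‖) ^ 2) :
    FrameBd (E := EE (2 * n)) (onX K F) (W : Set (ofKah K).M) C where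
  smooth := fun x hx => (contMDiffAt_idx K hW hF hx).1.contMDiffWithinAt
  ne_zero := hne
  bound := by
    intro x hx v
    set i := (ofKah K).idx x with hi
    have hxs : x ∈ (A.e i).source := by
      have h2 : ((ofKah K).ch i).source = (A.e i).source := cR_source i
      rw [← h2]
      exact (ofKah K).idx_mem x
    have hz : A.e i x ∈ (A.e i).target := (A.e i).map_source hxs
    have hsx : (A.e i).symm (A.e i x) = x := (A.e i).left_inv hxs
    have h1 := norm_sq_idx K x v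
    have h2 := hb i (A.e i x) hz (by rw [hsx]; exact hx) ((eR n).symm v)
    rw [← h1] at h2
    have h3 : dlg A F i (A.e i x) ((eR n).symm v) = fun j =>
        (mfderiv (𝓡 (2 * n)) 𝓘(ℝ, Fin m → ℂ) (onX K F) x v :
          Fin m → ℂ) j / F x j := by
      funext j
      rw [(contMDiffAt_idx K hW hF hx).2 v]
      unfold dlg
      rw [hsx]
    rw [h3] at h2
    exact (pow_le_pow_iff_left₀ (norm_nonneg _) (by positivity) two_ne_zero).1 h2

/-- the reverse bound -/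
theorem up_bound [T2Space M] [ConnectedSpace M] (K : Kah A) {W : Set M} (hW : IsOpen W)
    {F : M → Fin m → ℂ} (hF : HolW A W F) {C' : ℝ} (hC' : 0 ≤ C')
    (hb : ∀ i, ∀ z ∈ (A.e i).target, (A.e i).symm z ∈ W → ∀ v : Cn n, ∀ j,
      ‖dlg A F i z v j‖ ^ 2 ≤ C' ^ 2 * G (KK K i) z v v) (x : (ofKah K).M) (hx : (x : M) ∈ W)
    (v : TangentSpace (𝓡 (2 * n)) x) (j : Fin m) :
    ‖(mfderiv (𝓡 (2 * n)) 𝓘(ℝ, Fin m → ℂ) (onX K F) x v :
      Fin m → ℂ) j / F x j‖ ≤ C' * ‖v‖ := by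
  set i := (ofKah K).idx x with hi
  have hxs : x ∈ (A.e i).source := by
    have h2 : ((ofKah K).ch i).source = (A.e i).source := cR_source i
    rw [← h2]
    exact (ofKah K).idx_mem x
  have hz : A.e i x ∈ (A.e i).target := (A.e i).map_source hxs
  have hsx : (A.e i).symm (A.e i x) = x := (A.e i).left_inv hxs
  have h1 := norm_sq_idx K x v
  have h2 := hb i (A.e i x) hz (by rw [hsx]; exact hx) ((eR n).symm v) j
  rw [← h1, ← mul_pow] at h2
  have h3 : dlg A F i (A.e i x) ((eR n).symm v) j =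
      (mfderiv (𝓡 (2 * n)) 𝓘(ℝ, Fin m → ℂ) (onX K F) x v :
        Fin m → ℂ) j / F x j := by
    rw [(contMDiffAt_idx K hW hF hx).2 v]
    unfold dlg
    rw [hsx]
  rw [h3] at h2
  exact (pow_le_pow_iff_left₀ (norm_nonneg _) (by positivity) two_ne_zero).1 h2

theorem finrank_EE (n : ℕ) : Module.finrank ℝ (EE (2 * n)) = 2 * Fintype.card (Fin n) := by
  rw [finrank_euclideanSpace_fin, Fintype.card_fin]

end

end Crest.Agent.R281.Fra_922
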