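import Crest.Agent.R281.Ins3_615
import Crest.Agent.R281.TorE_922
import Crest.Agent.R281.Tube4_242

/-!
# Row 281 (S0424), S-ASM (helper790), part 1: lengths in the charts of the atlas

* `qf K i x v`  : `g_{a b̄} v_a v̄_b` at `x` in the chart `i`
* `norm_mfderiv_sq` : length of the derivative of a map into `(ofKah K).M` read in any chart
* `dist_le_of_qf` : a map of a convex open set with `qf ≤ C²|v|²` is `C`-Lipschitz
-/

set_option autoImplicit false
set_option linter.unusedSectionVars false

open Set Filter Topology Complex Metric Manifold Bundle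
open scoped ContDiff ComplexConjugate ComplexOrder Manifold Matrix

namespace Crest.Agent.R281.SAsm_790

open Crest.Agent.R275.Geo Crest.Agent.R275.Core144
open Crest.Agent.R273.Defs_333 Crest.Agent.R273.Kah_333 Crest.Agent.R273.Vol_333
open Crest.Agent.R273.Ric_798 Crest.Agent.R273.RMan_798 Crest.Agent.R273.RMan4_798

noncomputable section

variable {n : ℕ} {M : Type} [TopologicalSpace M] {A : Atl n M}

/-- the Hermitian form of the metric at `x` in the chart `i` -/
def qf (K : Kah A) (i : A.ι) (x : M) (v : Cn n) : ℝ :=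
  (star v.ofLp ⬝ᵥ ((K.g i x)ᵀ *ᵥ v.ofLp)).re

theorem qf_eq_G (K : Kah A) {i : A.ι} {x : M} (hx : x ∈ (A.e i).source) (v : Cn n) :
    qf K i x v = G (KK K i) (A.e i x) v v := by
  unfold qf G KK
  rw [(A.e i).left_inv hx]

/-- independence of the chart -/
theorem qf_tr (K : Kah A) {i j : A.ι} {x : M} (hx : x ∈ (A.e i).source ∩ (A.e j).source)
    (v : Cn n) :
    qf K i x v = qf K j x (fderiv ℝ (fun w => A.e j ((A.e i).symm w)) (A.e i x) v) := by
  rw [qf_eq_G K hx.1, qf_eq_G K hx.2, G_tr K hx]


section gen

variable {d : ℕ} {N : Type} [TopologicalSpace N] (R : RAtl d N)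
variable {E' : Type*} [NormedAddCommGroup E'] [NormedSpace ℝ E']


end gen

variable [T2Space M] [ConnectedSpace M]

section

variable {E' : Type*} [NormedAddCommGroup E'] [NormedSpace ℝ E']

theorem mem_ch (K : Kah A) {i : A.ι} {x : M} (hx : x ∈ (A.e i).source) :
    x ∈ ((ofKah K).ch i).source := (Set.ext_iff.1 (cR_source (A := A) i) x).2 hx





end

end

end Crest.Agent.R281.SAsm_790
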