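import Crest.Agent.R281.TorE_922
import Crest.Agent.R281.Tube4_242
import Crest.Agent.R275.Geo_509
import Crest.Agent.R281.Fra1_922
import Crest.Agent.R281.SAsm1_790

-- ▼ part R281/Fra3_922

/-!
# R281 (S0424), S-FRAME (helper922), file 3: lifts are holomorphic in the charts, pull-back metric

* `lift_holo`  : a continuous lift `Ψ` of a holomorphic map through a chartwise holomorphic `F` with
  injective derivative is holomorphic in the charts;
* `dlg_lift`   : `F ∘ Ψ = c exp` ⟹ `dlog F (DΨ v) = v`;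
* `frame_tube` : frame bounds on `ball y R` ⟹ the tube of 242 with `Ψ` holomorphic in the charts and
  the pull-back metric pinched.
-/

set_option autoImplicit false
set_option linter.unusedSectionVars false

open Set Filter Topology Complex Metric Manifold Bundle
open scoped ContDiff Matrix ComplexConjugate Manifold Bundle ComplexOrder

namespace Crest.Agent.R281.Fra_922

open Crest.Agent.R275.Geo
open Crest.Agent.R273.Defs_333
open Crest.Agent.R273.Kah_333
open Crest.Agent.R273.Ric_798 Crest.Agent.R273.RMan_798 Crest.Agent.R273.RMan4_798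
open Crest.Agent.R281.Tor_922 Crest.Agent.R281.SAsm_790
open Crest.Agent.R281.Tube_242 (HasLog IsLog LocInj ee hasLog_ee_of_one IsLift St Mb iV tube)

noncomputable section

variable {n : ℕ} {M : Type} [TopologicalSpace M] {A : Atl n M}

/-- **lifts are holomorphic in the charts** -/
theorem lift_holo {W : Set M} (hW : IsOpen W) {F : M → Fin n → ℂ} (hF : HolW A W F)
    {V : Type*} [NormedAddCommGroup V] [NormedSpace ℂ V] {Ψ : V → M} {E : V → Fin n → ℂ}
    {D : Set V} (hD : IsOpen D) (hc : ContinuousOn Ψ D) (hm : ∀ z ∈ D, Ψ z ∈ W)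
    (hl : ∀ z ∈ D, F (Ψ z) = E z) {z : V} (hz : z ∈ D) (hE : DifferentiableAt ℂ E z)
    {i : A.ι} (hi : Ψ z ∈ (A.e i).source)
    (hinj : Function.Injective (fderiv ℂ (fun w => F ((A.e i).symm w)) (A.e i (Ψ z)))) :
    DifferentiableAt ℂ (fun w => A.e i (Ψ w)) z ∧
    ∀ v, fderiv ℂ (fun w => F ((A.e i).symm w)) (A.e i (Ψ z))
      (fderiv ℂ (fun w => A.e i (Ψ w)) z v) = fderiv ℂ E z v := by
  set G : Cn n → Fin n → ℂ := fun w => F ((A.e i).symm w) with hG
  set z0 : Cn n := A.e i (Ψ z) with hz0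
  have hO := isOpen_chart A hW i
  have hmem : z0 ∈ {z | z ∈ (A.e i).target ∧ (A.e i).symm z ∈ W} :=
    ⟨(A.e i).map_source hi, by rw [(A.e i).left_inv hi]; exact hm z hz⟩
  have hcd : ContDiffAt ℂ 1 G z0 :=
    ((Crest.Agent.R266.SCV.contDiffOn_omega_of_differentiableOn hO (hF i)).contDiffAt
      (hO.mem_nhds hmem)).of_le le_top
  have hstr : HasStrictFDerivAt G (fderiv ℂ G z0) z0 := hcd.hasStrictFDerivAt (by simp)
  have hfin : Module.finrank ℂ (Cn n) = Module.finrank ℂ (Fin n → ℂ) := by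
    rw [finrank_euclideanSpace_fin, Module.finrank_fin_fun]
  let L : Cn n ≃L[ℂ] (Fin n → ℂ) := (LinearEquiv.ofInjectiveOfFinrankEq
    (fderiv ℂ G z0).toLinearMap hinj hfin).toContinuousLinearEquiv
  have hLv : ∀ v, L v = fderiv ℂ G z0 v := fun v => rfl
  have hs : HasStrictFDerivAt G (L : Cn n →L[ℂ] (Fin n → ℂ)) z0 := by
    have h1 : (L : Cn n →L[ℂ] (Fin n → ℂ)) = fderiv ℂ G z0 := by
      ext v
      rfl
    rw [h1]
    exact hstr
  set g := hs.localInverse G L z0 with hg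
  have hgd : HasStrictFDerivAt g (L.symm : (Fin n → ℂ) →L[ℂ] Cn n) (G z0) := hs.to_localInverse
  have hgl : ∀ᶠ x in 𝓝 z0, g (G x) = x := hs.eventually_left_inverse
  have hΨc : ContinuousAt Ψ z := hc.continuousAt (hD.mem_nhds hz)
  have hec : ContinuousAt (fun w => A.e i (Ψ w)) z := ((A.e i).continuousAt hi).comp hΨc
  have hGE : ∀ᶠ w in 𝓝 z, A.e i (Ψ w) = g (E w) := by
    have h1 : ∀ᶠ w in 𝓝 z, g (G (A.e i (Ψ w))) = A.e i (Ψ w) := hec.eventually hgl
    have h2 : ∀ᶠ w in 𝓝 z, Ψ w ∈ (A.e i).source :=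
      hΨc.eventually_mem ((A.e i).open_source.mem_nhds hi)
    filter_upwards [h1, h2, hD.mem_nhds hz] with w k1 k2 k3
    rw [← k1]
    congr 1
    change F ((A.e i).symm (A.e i (Ψ w))) = E w
    rw [(A.e i).left_inv k2, hl w k3]
  have hGz : G z0 = E z := by
    change F ((A.e i).symm (A.e i (Ψ z))) = E z
    rw [(A.e i).left_inv hi, hl z hz]
  have hd : HasFDerivAt (fun w => A.e i (Ψ w))
      ((L.symm : (Fin n → ℂ) →L[ℂ] Cn n).comp (fderiv ℂ E z)) z := by
    have h1 : HasFDerivAt (fun w => g (E w))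
        ((L.symm : (Fin n → ℂ) →L[ℂ] Cn n).comp (fderiv ℂ E z)) z := by
      have h2 : HasFDerivAt g (L.symm : (Fin n → ℂ) →L[ℂ] Cn n) (E z) := by
        rw [← hGz]
        exact hgd.hasFDerivAt
      exact h2.comp z hE.hasFDerivAt
    exact h1.congr_of_eventuallyEq hGE
  refine ⟨hd.differentiableAt, fun v => ?_⟩
  rw [hd.fderiv]
  change fderiv ℂ G z0 (L.symm (fderiv ℂ E z v)) = fderiv ℂ E z v
  rw [← hLv, L.apply_symm_apply]



/-- the derivative of `F` in the chart is injective if the frame bound holds -/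
theorem inj_of_bound (K : Kah A) {F : M → Fin n → ℂ} {C : ℝ} {i : A.ι} {x : M}
    (hx : x ∈ (A.e i).source)
    (hb : ∀ v : Cn n, qf K i x v ≤ (C * ‖dlg A F i (A.e i x) v‖) ^ 2) :
    Function.Injective (fderiv ℂ (fun w => F ((A.e i).symm w)) (A.e i x)) := by
  rw [injective_iff_map_eq_zero]
  intro v hv
  have h1 : dlg A F i (A.e i x) v = 0 := by
    funext j
    unfold dlg
    rw [hv]
    simp
  have h2 := hb v
  rw [h1, norm_zero, mul_zero, zero_pow two_ne_zero] at h2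
  by_contra hne
  have hne' : v.ofLp ≠ 0 := by
    intro h
    apply hne
    ext j
    exact congrFun h j
  have h3 := ((K.pos i x hx).transpose).dotProduct_mulVec_pos hne'
  have h4 : (0 : ℝ) < qf K i x v := by
    have h5 := (Complex.lt_def.1 h3).1
    simpa [qf] using h5
  linarith



/-- the Riemannian ball as a subset of `M` -/
def bX [T2Space M] [ConnectedSpace M] (K : Kah A) (y : (ofKah K).M) (R : ℝ) : Set M :=
  show Set (ofKah K).M from ball y R


theorem isOpen_bX [T2Space M] [ConnectedSpace M] (K : Kah A) (y : (ofKah K).M) (R : ℝ) :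
    IsOpen (bX K y R) := (isOpen_ball : IsOpen (ball y R))

/-- the output of S-FRAME: 242's tube with `Ψ` holomorphic in the charts and the pull-back metric
pinched -/
structure TubeOut [T2Space M] [ConnectedSpace M] (K : Kah A) (F : M → Fin n → ℂ)
    (y : (ofKah K).M) (C C' R r : ℝ) (d : ℕ) (T : (Fin n → ℝ) ≃L[ℝ] (Fin n → ℝ))
    (Ψ : Cn n → (ofKah K).M) : Prop where
  nT : ‖(T : (Fin n → ℝ) →L[ℝ] (Fin n → ℝ))‖ ≤ Mb n d
  nTs : ‖(T.symm : (Fin n → ℝ) →L[ℝ] (Fin n → ℝ))‖ ≤ Mb n d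
  lift : IsLift (onX K F) (ee (onX K F y)) (ball y R) (St 0 r) Ψ
  base : Ψ 0 = y
  eq_iff : ∀ z ∈ St 0 r, ∀ w ∈ St 0 r, Ψ z = Ψ w ↔
    ∃ k : Fin n → ℤ, z = w + iV (T fun j => (k j : ℝ))
  lip : ∀ z ∈ St 0 r, ∀ w ∈ St 0 r, dist (Ψ z) (Ψ w) ≤ C * dist z w
  isOpen_image : ∀ S, IsOpen S → S ⊆ St 0 r → IsOpen (Ψ '' S)
  int : ∀ k : Fin n → ℤ, ∀ j, ∃ m : ℤ, T (fun j => (k j : ℝ)) j = 2 * Real.pi * m
  holo : ∀ z ∈ St 0 r, ∀ i, Ψ z ∈ (A.e i).source → DifferentiableAt ℂ (fun w => A.e i (Ψ w)) z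
  dl : ∀ z ∈ St 0 r, ∀ i, Ψ z ∈ (A.e i).source → ∀ v : Cn n,
    dlg A F i (A.e i (Ψ z)) (fderiv ℂ (fun w => A.e i (Ψ w)) z v) = v.ofLp
  up : ∀ z ∈ St 0 r, ∀ i, Ψ z ∈ (A.e i).source → ∀ v : Cn n,
    qf K i (Ψ z) (fderiv ℂ (fun w => A.e i (Ψ w)) z v) ≤ C ^ 2 * ‖v‖ ^ 2
  lo : ∀ z ∈ St 0 r, ∀ i, Ψ z ∈ (A.e i).source → ∀ v : Cn n,
    ‖v‖ ^ 2 ≤ n * C' ^ 2 * qf K i (Ψ z) (fderiv ℂ (fun w => A.e i (Ψ w)) z v)


end

end Crest.Agent.R281.Fra_922
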