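import Crest.Agent.R281.St1_405
import Mathlib

-- ▼ part R281/T6a_16
section

/-! Row 281, S-T6 (helper16), part 1: abstract half of (T6') ("det is free").

`T = ∑ |η_j|²`, `q = |J|²`, `P = |∂J|²`, `a + i b = J`, all cut off outside the ball, on
405's calculus `Calc` / `Sp`. -/

set_option autoImplicit false
open MeasureTheory Metric Set Filter Topology
open scoped ENNReal NNReal ContDiff

namespace Crest.Agent.R281.T6_16
open Crest.Agent.R281.Mx_405 Crest.Agent.R281.St_405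

noncomputable section

/-- the data of (T6') on one ball -/
structure T6D {X : Type*} [PseudoMetricSpace X] [MeasurableSpace X] {μ : Measure X}
    (cal : Calc μ) (N : ℕ) (y : X) (R K : ℝ) (T P q a b : X → ℝ) : Prop where
  T_mem : T ∈ cal.Sm
  P_mem : P ∈ cal.Sm
  q_mem : q ∈ cal.Sm
  a_mem : a ∈ cal.Sm
  b_mem : b ∈ cal.Sm
  T_nonneg : ∀ x, 0 ≤ T x
  P_nonneg : ∀ x, 0 ≤ P x
  q_nonneg : ∀ x, 0 ≤ q x
  Lap_T : ∀ x ∈ closedBall y R, 0 ≤ cal.Lap T x
  Lap_P : ∀ x ∈ closedBall y R, 0 ≤ cal.Lap P x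
  Lap_q : ∀ x ∈ closedBall y R, P x ≤ cal.Lap q x
  q_eq : ∀ x ∈ closedBall y R, q x = a x ^ 2 + b x ^ 2
  q_le : ∀ x ∈ closedBall y R, q x ≤ T x ^ N
  Gam_a : ∀ x ∈ closedBall y R, cal.Gam a x ≤ P x
  Gam_b : ∀ x ∈ closedBall y R, cal.Gam b x ≤ P x
  mean_T : ⨍ z in closedBall y R, T z ∂μ ≤ K

/-- the constant in `P ≤ CP / R²` -/
def CP (C K : ℝ) (N : ℕ) : ℝ := 4 * C ^ 2 * (C * K) ^ N

/-- the constant in `|J p - J q| ≤ CJ / R * dist p q` -/
def CJ (C K : ℝ) (N : ℕ) : ℝ := C * Real.sqrt (CP C K N)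

variable {X : Type*} [PseudoMetricSpace X] [MeasurableSpace X] {μ : Measure X}
  {cal : Calc μ} {C : ℝ≥0} {N : ℕ} {y : X} {R K : ℝ} {T P q a b : X → ℝ}

theorem T6D.mean_nonneg (h : T6D cal N y R K T P q a b) : 0 ≤ K :=
  le_trans (integral_nonneg fun x => h.T_nonneg x) h.mean_T

/-- `T ≤ C K` on the half ball -/
theorem T6D.T_le (S : Sp cal C) (h : T6D cal N y R K T P q a b) (hR : 0 < R) :
    ∀ x ∈ closedBall y (R / 2), T x ≤ C * K := by
  intro x hx
  have h1 := S.DG1 T h.T_mem h.T_nonneg y R 0 0 hR le_rfl le_rfl (by simp)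
    (fun z hz => by simpa using h.Lap_T z hz) x hx
  simp only [zero_mul, add_zero] at h1
  exact h1.trans (mul_le_mul_of_nonneg_left h.mean_T (NNReal.coe_nonneg C))

theorem T6D.q_le' (S : Sp cal C) (h : T6D cal N y R K T P q a b) (hR : 0 < R) :
    ∀ x ∈ closedBall y (R / 2), q x ≤ (C * K) ^ N := by
  intro x hx
  have hx' : x ∈ closedBall y R := closedBall_subset_closedBall (by linarith) hx
  exact (h.q_le x hx').trans (pow_le_pow_left₀ (h.T_nonneg x) (h.T_le S hR x hx) N)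

/-- mean of `P` on the quarter ball -/
theorem T6D.mean_P (S : Sp cal C) (h : T6D cal N y R K T P q a b) (hR : 0 < R) :
    ⨍ x in closedBall y (R / 4), P x ∂μ ≤ 4 * C * (C * K) ^ N / R ^ 2 := by
  have hK := h.mean_nonneg
  have hA : 0 ≤ ((C : ℝ) * K) ^ N := by positivity
  have hc : Continuous P := cal.cont P h.P_mem
  have h1 := S.CAC q h.q_mem h.q_nonneg P hc h.P_nonneg y (R / 2) (((C : ℝ) * K) ^ N) 0
    (by linarith) hA le_rfl (h.q_le' S hR)
    (fun x hx => by
      have hx' : x ∈ closedBall y R := closedBall_subset_closedBall (by linarith) hx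
      simpa using h.Lap_q x hx')
  have e1 : R / 2 / 2 = R / 4 := by ring
  rw [e1] at h1
  refine h1.trans (le_of_eq ?_)
  field_simp
  ring

/-- `P ≤ CP / R²` on the ball of radius `R / 8` -/
theorem T6D.P_le (S : Sp cal C) (h : T6D cal N y R K T P q a b) (hR : 0 < R) :
    ∀ x ∈ closedBall y (R / 8), P x ≤ CP C K N / R ^ 2 := by
  intro x hx
  have hK := h.mean_nonneg
  have h1 := S.DG1 P h.P_mem h.P_nonneg y (R / 4) 0 0 (by linarith) le_rfl le_rfl (by simp)
    (fun z hz => by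
      have hz' : z ∈ closedBall y R := closedBall_subset_closedBall (by linarith) hz
      simpa using h.Lap_P z hz') x (by
        have e1 : R / 4 / 2 = R / 8 := by ring
        rw [e1]; exact hx)
  simp only [zero_mul, add_zero] at h1
  refine h1.trans ((mul_le_mul_of_nonneg_left (h.mean_P S hR) (NNReal.coe_nonneg C)).trans ?_)
  have hA : 0 ≤ ((C : ℝ) * K) ^ N := by positivity
  have hC : (0 : ℝ) ≤ C := NNReal.coe_nonneg C
  unfold CP
  rw [← mul_div_assoc]
  refine div_le_div_of_nonneg_right (le_of_eq ?_) (by positivity)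
  ring

theorem CP_nonneg {C K : ℝ} (hC : 0 ≤ C) (hK : 0 ≤ K) (N : ℕ) : 0 ≤ CP C K N := by
  unfold CP; positivity

theorem CJ_nonneg {C K : ℝ} (hC : 0 ≤ C) (N : ℕ) : 0 ≤ CJ C K N := by
  unfold CJ; positivity

theorem T6D.lip_of (S : Sp cal C) (h : T6D cal N y R K T P q a b) (hR : 0 < R) {f : X → ℝ}
    (hf : f ∈ cal.Sm) (hG : ∀ x ∈ closedBall y R, cal.Gam f x ≤ P x) :
    ∀ p ∈ closedBall y (R / 24), ∀ p' ∈ closedBall y (R / 24),
      |f p - f p'| ≤ CJ C K N / R * dist p p' := by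
  intro p hp p' hp'
  have hK := h.mean_nonneg
  have hC : (0 : ℝ) ≤ C := NNReal.coe_nonneg C
  have hCP := CP_nonneg hC hK N
  have h1 := S.LIP f hf y (R / 8) (Real.sqrt (CP C K N) / R) (by linarith) (by positivity)
    (fun x hx => by
      have hx' : x ∈ closedBall y R := closedBall_subset_closedBall (by linarith) hx
      rw [div_pow, Real.sq_sqrt hCP]
      exact (hG x hx').trans (h.P_le S hR x hx)) p (by
        have e1 : R / 8 / 3 = R / 24 := by ring
        rw [e1]; exact hp) p' (by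
        have e1 : R / 8 / 3 = R / 24 := by ring
        rw [e1]; exact hp')
  refine h1.trans (le_of_eq ?_)
  unfold CJ
  ring

/-- **(T6'), first part** -/
theorem T6D.main (S : Sp cal C) (h : T6D cal N y R K T P q a b) (hR : 0 < R) :
    (∀ x ∈ closedBall y (R / 2), T x ≤ C * K) ∧
    (∀ x ∈ closedBall y (R / 8), P x ≤ CP C K N / R ^ 2) ∧
    (∀ p ∈ closedBall y (R / 24), ∀ p' ∈ closedBall y (R / 24),
      |a p - a p'| ≤ CJ C K N / R * dist p p') ∧
    (∀ p ∈ closedBall y (R / 24), ∀ p' ∈ closedBall y (R / 24),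
      |b p - b p'| ≤ CJ C K N / R * dist p p') :=
  ⟨h.T_le S hR, h.P_le S hR, h.lip_of S hR h.a_mem h.Gam_a, h.lip_of S hR h.b_mem h.Gam_b⟩

/-- the radius factor `θ` -/
def th (C K : ℝ) (N : ℕ) (c : ℝ) : ℝ := min (1 / 24) (c / (4 * CJ C K N + 1))

theorem th_pos {C K : ℝ} (hC : 0 ≤ C) (N : ℕ) {c : ℝ} (hc : 0 < c) : 0 < th C K N c := by
  unfold th
  have := CJ_nonneg (K := K) hC N
  refine lt_min (by norm_num) (div_pos hc (by positivity))

theorem th_le (C K : ℝ) (N : ℕ) (c : ℝ) : th C K N c ≤ 1 / 24 := min_le_left _ _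

/-- elementary: a vector of length `≥ c` moved by at most `c/4` in each coordinate -/
theorem sq_ge {a b a' b' c : ℝ} (h : c ^ 2 ≤ a ^ 2 + b ^ 2) (ha : |a' - a| ≤ c / 4)
    (hb : |b' - b| ≤ c / 4) : c ^ 2 / 4 ≤ a' ^ 2 + b' ^ 2 := by
  have h1 := abs_le.1 ha
  have h2 := abs_le.1 hb
  have e1 : (a' - a) ^ 2 ≤ (c / 4) ^ 2 := sq_le_sq' (by linarith [h1.1]) h1.2
  have e2 : (b' - b) ^ 2 ≤ (c / 4) ^ 2 := sq_le_sq' (by linarith [h2.1]) h2.2
  -- a² ≤ 2 a'² + 2 (a' - a)²
  have e3 : a ^ 2 ≤ 2 * a' ^ 2 + 2 * (a' - a) ^ 2 := by nlinarith [sq_nonneg (2 * a' - a)]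
  have e4 : b ^ 2 ≤ 2 * b' ^ 2 + 2 * (b' - b) ^ 2 := by nlinarith [sq_nonneg (2 * b' - b)]
  nlinarith [sq_nonneg c]

/-- **(T6'), second part**: `|J|² ≥ c²/4` on the ball of radius `θ R` -/
theorem T6D.pinch (S : Sp cal C) (h : T6D cal N y R K T P q a b) (hR : 0 < R) {c : ℝ}
    (hc : 0 < c) (hq : c ^ 2 ≤ q y) :
    ∀ x ∈ closedBall y (th C K N c * R), c ^ 2 / 4 ≤ q x := by
  intro x hx
  have hC : (0 : ℝ) ≤ C := NNReal.coe_nonneg C
  have hCJ := CJ_nonneg (K := K) hC N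
  have hth := th_le C K N c
  have hx1 : dist x y ≤ th C K N c * R := hx
  have hx2 : x ∈ closedBall y (R / 24) := by
    refine closedBall_subset_closedBall ?_ hx
    calc th C K N c * R ≤ 1 / 24 * R := mul_le_mul_of_nonneg_right hth hR.le
      _ = R / 24 := by ring
  have hxR : x ∈ closedBall y R := closedBall_subset_closedBall (by linarith) hx2
  have hyR : y ∈ closedBall y R := mem_closedBall_self hR.le
  have hy2 : y ∈ closedBall y (R / 24) := mem_closedBall_self (by linarith)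
  have hb : CJ C K N / R * dist x y ≤ c / 4 := by
    have h1 : dist x y ≤ c / (4 * CJ C K N + 1) * R :=
      hx1.trans (mul_le_mul_of_nonneg_right (min_le_right _ _) hR.le)
    calc CJ C K N / R * dist x y ≤ CJ C K N / R * (c / (4 * CJ C K N + 1) * R) :=
          mul_le_mul_of_nonneg_left h1 (by positivity)
      _ = CJ C K N * c / (4 * CJ C K N + 1) := by field_simp
      _ ≤ c / 4 := by
        rw [div_le_div_iff₀ (by positivity) (by norm_num)]
        nlinarith
  rw [h.q_eq x hxR]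
  rw [h.q_eq y hyR] at hq
  exact sq_ge hq ((h.lip_of S hR h.a_mem h.Gam_a x hx2 y hy2).trans hb)
    ((h.lip_of S hR h.b_mem h.Gam_b x hx2 y hy2).trans hb)

end

end Crest.Agent.R281.T6_16
end

-- ▼ part R281/T6b_16

/-! Row 281, S-T6 (helper16), part 2: pinching of a Gram matrix by trace and determinant,
and the final form of (T6'). -/

set_option autoImplicit false
open MeasureTheory Metric Set Filter Topology Matrix
open scoped ENNReal NNReal ContDiff ComplexOrder

namespace Crest.Agent.R281.T6_16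
open Crest.Agent.R281.Mx_405 Crest.Agent.R281.St_405

noncomputable section

section mat

variable {ι : Type*} [Fintype ι] [DecidableEq ι] {G : Matrix ι ι ℂ}

theorem tr_eig (hG : G.PosSemidef) : G.trace.re = ∑ i, hG.1.eigenvalues i := by
  rw [hG.1.trace_eq_sum_eigenvalues, Complex.re_sum]
  simp

theorem det_eig (hG : G.PosSemidef) : G.det.re = ∏ i, hG.1.eigenvalues i := by
  rw [hG.1.det_eq_prod_eigenvalues]
  have : (∏ i, ((hG.1.eigenvalues i : ℝ) : ℂ)) = ((∏ i, hG.1.eigenvalues i : ℝ) : ℂ) := by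
    push_cast; rfl
  exact (congrArg Complex.re this).trans (Complex.ofReal_re _)

theorem eig_le_tr (hG : G.PosSemidef) (i : ι) : hG.1.eigenvalues i ≤ G.trace.re := by
  rw [tr_eig hG]
  exact Finset.single_le_sum (f := hG.1.eigenvalues) (fun j _ => hG.eigenvalues_nonneg j)
    (Finset.mem_univ i)


/-- `det G ≤ (tr G)^N` -/
theorem det_le_tr_pow (hG : G.PosSemidef) : G.det.re ≤ G.trace.re ^ Fintype.card ι := by
  rw [det_eig hG]
  calc ∏ i, hG.1.eigenvalues i ≤ ∏ _i : ι, G.trace.re :=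
        Finset.prod_le_prod (fun i _ => hG.eigenvalues_nonneg i) fun i _ => eig_le_tr hG i
    _ = G.trace.re ^ Fintype.card ι := by rw [Finset.prod_const]; rfl

/-- lower bound of the eigenvalues -/
theorem eig_ge (hG : G.PosSemidef) {c B : ℝ} (hc : 0 < c) (hd : c ≤ G.det.re)
    (hB : G.trace.re ≤ B) (i : ι) : c / B ^ (Fintype.card ι - 1) ≤ hG.1.eigenvalues i := by
  have h0 : ∀ j, 0 ≤ hG.1.eigenvalues j := hG.eigenvalues_nonneg
  have hp : 0 < ∏ j, hG.1.eigenvalues j := by rw [← det_eig hG]; linarith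
  have hi : 0 < hG.1.eigenvalues i := by
    rcases (h0 i).lt_or_eq with h | h
    · exact h
    · exact absurd (Finset.prod_eq_zero (Finset.mem_univ i) h.symm) hp.ne'
  have hBpos : 0 < B := hi.trans_le ((eig_le_tr hG i).trans hB)
  rw [div_le_iff₀ (by positivity)]
  have h1 : ∏ j, hG.1.eigenvalues j =
      hG.1.eigenvalues i * ∏ j ∈ Finset.univ.erase i, hG.1.eigenvalues j :=
    (Finset.mul_prod_erase Finset.univ _ (Finset.mem_univ i)).symm
  have h2 : ∏ j ∈ Finset.univ.erase i, hG.1.eigenvalues j ≤ B ^ (Fintype.card ι - 1) := by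
    calc ∏ j ∈ Finset.univ.erase i, hG.1.eigenvalues j ≤ ∏ _j ∈ Finset.univ.erase i, B :=
          Finset.prod_le_prod (fun j _ => h0 j) fun j _ => (eig_le_tr hG j).trans hB
      _ = B ^ (Fintype.card ι - 1) := by
        rw [Finset.prod_const, Finset.card_erase_of_mem (Finset.mem_univ i)]; rfl
  rw [det_eig hG] at hd
  calc c ≤ ∏ j, hG.1.eigenvalues j := hd
    _ = hG.1.eigenvalues i * ∏ j ∈ Finset.univ.erase i, hG.1.eigenvalues j := h1
    _ ≤ hG.1.eigenvalues i * B ^ (Fintype.card ι - 1) :=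
        mul_le_mul_of_nonneg_left h2 (h0 i)

/-- from eigenvalues to the Loewner order -/
theorem sub_posSemidef (hG : G.PosSemidef) {a : ℝ} (ha : ∀ i, a ≤ hG.1.eigenvalues i) :
    (G - (a : ℂ) • (1 : Matrix ι ι ℂ)).PosSemidef := by
  set U : Matrix ι ι ℂ := (hG.1.eigenvectorUnitary : Matrix ι ι ℂ) with hU
  have h1 : G = U * diagonal (fun i => ((hG.1.eigenvalues i : ℝ) : ℂ)) * Uᴴ := by
    have h := hG.1.spectral_theorem
    rw [Unitary.conjStarAlgAut_apply] at h
    exact h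
  have h2 : U * Uᴴ = 1 := Unitary.mul_star_self_of_mem hG.1.eigenvectorUnitary.2
  have h3 : G - (a : ℂ) • (1 : Matrix ι ι ℂ) =
      U * diagonal (fun i => ((hG.1.eigenvalues i - a : ℝ) : ℂ)) * Uᴴ := by
    have e : (diagonal (fun i => ((hG.1.eigenvalues i - a : ℝ) : ℂ)) : Matrix ι ι ℂ) =
        diagonal (fun i => ((hG.1.eigenvalues i : ℝ) : ℂ)) - (a : ℂ) • (1 : Matrix ι ι ℂ) := by
      ext i j
      by_cases hij : i = j
      · subst hij
        simp
      · simp [hij]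
    rw [e, Matrix.mul_sub, Matrix.sub_mul, ← h1, Matrix.mul_smul, Matrix.smul_mul,
      Matrix.mul_one, h2]
  rw [h3]
  refine PosSemidef.mul_mul_conjTranspose_same ?_ U
  rw [posSemidef_diagonal_iff]
  intro i
  have := ha i
  exact_mod_cast sub_nonneg.2 this

theorem sub_posSemidef' (hG : G.PosSemidef) {a : ℝ} (ha : ∀ i, hG.1.eigenvalues i ≤ a) :
    ((a : ℂ) • (1 : Matrix ι ι ℂ) - G).PosSemidef := by
  set U : Matrix ι ι ℂ := (hG.1.eigenvectorUnitary : Matrix ι ι ℂ) with hU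
  have h1 : G = U * diagonal (fun i => ((hG.1.eigenvalues i : ℝ) : ℂ)) * Uᴴ := by
    have h := hG.1.spectral_theorem
    rw [Unitary.conjStarAlgAut_apply] at h
    exact h
  have h2 : U * Uᴴ = 1 := Unitary.mul_star_self_of_mem hG.1.eigenvectorUnitary.2
  have h3 : (a : ℂ) • (1 : Matrix ι ι ℂ) - G =
      U * diagonal (fun i => ((a - hG.1.eigenvalues i : ℝ) : ℂ)) * Uᴴ := by
    have e : (diagonal (fun i => ((a - hG.1.eigenvalues i : ℝ) : ℂ)) : Matrix ι ι ℂ) =
        (a : ℂ) • (1 : Matrix ι ι ℂ) - diagonal (fun i => ((hG.1.eigenvalues i : ℝ) : ℂ)) := by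
      ext i j
      by_cases hij : i = j
      · subst hij
        simp
      · simp [hij]
    rw [e, Matrix.mul_sub, Matrix.sub_mul, ← h1, Matrix.mul_smul, Matrix.smul_mul,
      Matrix.mul_one, h2]
  rw [h3]
  refine PosSemidef.mul_mul_conjTranspose_same ?_ U
  rw [posSemidef_diagonal_iff]
  intro i
  have := ha i
  exact_mod_cast sub_nonneg.2 this

/-- **pinching of a Gram matrix** -/
theorem gram_pinch (hG : G.PosSemidef) {c B : ℝ} (hc : 0 < c) (hd : c ≤ G.det.re)
    (hB : G.trace.re ≤ B) :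
    (G - ((c / B ^ (Fintype.card ι - 1) : ℝ) : ℂ) • (1 : Matrix ι ι ℂ)).PosSemidef ∧
      (((B : ℝ) : ℂ) • (1 : Matrix ι ι ℂ) - G).PosSemidef :=
  ⟨sub_posSemidef hG (eig_ge hG hc hd hB),
    sub_posSemidef' hG fun i => (eig_le_tr hG i).trans hB⟩



end mat

/-! ### final form of (T6') -/

section fin

variable {X : Type*} [PseudoMetricSpace X] [MeasurableSpace X] {μ : Measure X}
  {cal : Calc μ} {C : ℝ≥0} {N : ℕ} {y : X} {R K : ℝ} {T P q a b : X → ℝ}

/-- **(T6')**: `Gm x` = Gram matrix of the `η_j` at `x`. Constants do not depend on `R`. -/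
theorem T6D.gram (S : Sp cal C) (h : T6D cal N y R K T P q a b) (hR : 0 < R) {c : ℝ}
    (hc : 0 < c) (hq : c ^ 2 ≤ q y) {Gm : X → Matrix (Fin N) (Fin N) ℂ}
    (hG : ∀ x ∈ closedBall y R, (Gm x).PosSemidef)
    (hdet : ∀ x ∈ closedBall y R, (Gm x).det.re = q x)
    (htr : ∀ x ∈ closedBall y R, (Gm x).trace.re = T x) :
    ∀ x ∈ closedBall y (th C K N c * R),
      (Gm x - ((c ^ 2 / 4 / (C * K) ^ (N - 1) : ℝ) : ℂ) • (1 : Matrix (Fin N) (Fin N) ℂ)).PosSemidef ∧
      (((C * K : ℝ) : ℂ) • (1 : Matrix (Fin N) (Fin N) ℂ) - Gm x).PosSemidef := by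
  intro x hx
  have hth := th_le C K N c
  have hx2 : x ∈ closedBall y (R / 2) := by
    refine closedBall_subset_closedBall ?_ hx
    calc th C K N c * R ≤ 1 / 24 * R := mul_le_mul_of_nonneg_right hth hR.le
      _ ≤ R / 2 := by linarith
  have hxR : x ∈ closedBall y R := closedBall_subset_closedBall (by linarith) hx2
  have h1 := gram_pinch (hG x hxR) (c := c ^ 2 / 4) (B := C * K) (by positivity)
    (by rw [hdet x hxR]; exact h.pinch S hR hc hq x hx)
    (by rw [htr x hxR]; exact h.T_le S hR x hx2)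
  rw [Fintype.card_fin] at h1
  exact h1

end fin

end

end Crest.Agent.R281.T6_16
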