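import Crest.Agent.R281.Bo2_815
import Crest.Agent.R281.Glob2_484
import Crest.Agent.R275.QN2b_734
import Crest.Agent.R281.T6b_16
import Crest.Agent.R281.SIn_14

-- ▼ part R281/TI1_671
section

/-!
# R281 (S0424), leaf S-T6-INST (helper671), part 1: norms of tuples of holomorphic 1-forms

`O : Set M` open, `V i x : Matrix (Fin n) ρ ℂ` = coefficients in the chart `i` of holomorphic
1-forms `η_r` (`r : ρ`) on `O`.

* `HF O V`      : holomorphic on `O`, transformation law;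
* `gm K V i x`  : the Gram matrix `(⟨η_r, η_s⟩)`, `gM K V x`, `gM_eq` (chart independent);
* `T0 K V x`    : `∑ |η_r|²` (trace of the Gram matrix); `T0_smP` (smooth on `O`);
* `lap_T0`      : `RicFlat K → 0 ≤ tr g⁻¹ ∂∂̄ T0` on `O`;
* `trC_eq_lap`, `gq_eq_gsq` : dictionary with the pointwise calculus of `Bo1_815`.
-/

set_option autoImplicit false
set_option linter.unusedSectionVars false

open Set Filter Topology Complex MeasureTheory
open scoped ContDiff Matrix ComplexConjugate ComplexOrder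

namespace Crest.Agent.R281.TI_671

open Crest.Agent.R275 Crest.Agent.R275.Geo Crest.Agent.R275.Core144 Crest.Agent.R275.EDR890
open Crest.Agent.R273.Defs_333 Crest.Agent.R273.Hess_333 Crest.Agent.R273.HessB_333
open Crest.Agent.R273.HM_333 hiding nsq
open Crest.Agent.R273.Kah_333 Crest.Agent.R273.Vol_333
open Crest.Agent.R273.Calc_243 Crest.Agent.R273.Bkn_243 Crest.Agent.R273.BKNa_37
open Crest.Agent.R273.BochA_101 Crest.Agent.R273.BochB_101 Crest.Agent.R273.BochC_101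
open Crest.Agent.R273.BochD_101 Crest.Agent.R273.BochF_101
open Crest.Agent.R273.FIa0_597 Crest.Agent.R273.FIb0_597
open Crest.Agent.R275.QN2b734 (SmP smP_of sm_iff)
open Crest.Agent.R281.Bo1_815 Crest.Agent.R281.Bo2_815 Crest.Agent.R281.Glob1_484

noncomputable section

variable {n : ℕ} {M : Type} [TopologicalSpace M] {A : Atl n M} {ρ : Type} [Fintype ρ]
  [DecidableEq ρ] {O : Set M}

/-- tuples of holomorphic 1-forms on the open set `O` -/
structure HF (A : Atl n M) (O : Set M) (V : A.ι → M → Matrix (Fin n) ρ ℂ) : Prop where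
  hol : ∀ i a r, HolAt A i O (fun x => V i x a r)
  tr : ∀ i j, ∀ x ∈ (A.e i).source ∩ (A.e j).source, x ∈ O → V i x = (Jm A i j x)ᵀ * V j x

/-- the Gram matrix in the chart `i` -/
def gm (K : Kah A) (V : A.ι → M → Matrix (Fin n) ρ ℂ) (i : A.ι) (x : M) : Matrix ρ ρ ℂ :=
  (V i x)ᴴ * (K.g i x)⁻¹ * V i x

/-- the Gram matrix -/
def gM (K : Kah A) (V : A.ι → M → Matrix (Fin n) ρ ℂ) (x : M) : Matrix ρ ρ ℂ :=
  gm K V (ch A x) x

theorem gm_indep (K : Kah A) {V : A.ι → M → Matrix (Fin n) ρ ℂ} (hV : HF A O V) {i j : A.ι}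
    {x : M} (hx : x ∈ (A.e i).source ∩ (A.e j).source) (hO : x ∈ O) :
    gm K V i x = gm K V j x := by
  unfold gm
  rw [K.tr i j x hx, hV.tr i j x hx hO]
  set J := Jm A i j x with hJ
  have h1 : IsUnit (Jᵀ).det := by
    rw [Matrix.det_transpose]; exact (det_Jm_ne hx).isUnit
  have h2 : IsUnit (J.map conj).det := (det_conj_ne hx).isUnit
  have h3 : (Jᵀ * V j x)ᴴ = (V j x)ᴴ * J.map conj := by
    rw [Matrix.conjTranspose_mul]
    rfl
  rw [Matrix.mul_inv_rev, Matrix.mul_inv_rev, h3]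
  calc (V j x)ᴴ * J.map conj * ((J.map conj)⁻¹ * ((K.g j x)⁻¹ * (Jᵀ)⁻¹)) * (Jᵀ * V j x)
      = (V j x)ᴴ * (J.map conj * (J.map conj)⁻¹) * (K.g j x)⁻¹ * (((Jᵀ)⁻¹ * Jᵀ) * V j x) := by
        simp only [Matrix.mul_assoc]
    _ = _ := by rw [Matrix.mul_nonsing_inv _ h2, Matrix.nonsing_inv_mul _ h1, Matrix.mul_one,
        Matrix.one_mul]

theorem gM_eq (K : Kah A) {V : A.ι → M → Matrix (Fin n) ρ ℂ} (hV : HF A O V) {i : A.ι}
    {x : M} (hx : x ∈ (A.e i).source) (hO : x ∈ O) : gM K V x = gm K V i x :=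
  gm_indep K hV ⟨mem_ch A x, hx⟩ hO

theorem gm_posSemidef (K : Kah A) (V : A.ι → M → Matrix (Fin n) ρ ℂ) {i : A.ι} {x : M}
    (hx : x ∈ (A.e i).source) : (gm K V i x).PosSemidef :=
  (K.pos i x hx).inv.posSemidef.conjTranspose_mul_mul_same (V i x)

theorem gM_posSemidef (K : Kah A) (V : A.ι → M → Matrix (Fin n) ρ ℂ) (x : M) :
    (gM K V x).PosSemidef := gm_posSemidef K V (mem_ch A x)

/-- `∑ |η_r|²` -/
def T0 (K : Kah A) (V : A.ι → M → Matrix (Fin n) ρ ℂ) (x : M) : ℝ := (gM K V x).trace.re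

theorem T0_nonneg (K : Kah A) (V : A.ι → M → Matrix (Fin n) ρ ℂ) (x : M) : 0 ≤ T0 K V x :=
  (Complex.le_def.1 (gM_posSemidef K V x).trace_nonneg).1

/-- the coefficients read in the chart `i` -/
def rdM (V : A.ι → M → Matrix (Fin n) ρ ℂ) (i : A.ι) (z : Cn n) : Matrix (Fin n) ρ ℂ :=
  V i ((A.e i).symm z)

theorem Kd_Kr (K : Kah A) (i : A.ι) (z : Cn n) : Kd (Kr K i) z = (K.g i ((A.e i).symm z))⁻¹ := by
  show (((K.g i ((A.e i).symm z))ᵀ)⁻¹)ᵀ = _
  rw [← Matrix.transpose_nonsing_inv, Matrix.transpose_transpose]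

theorem nsq_rd (K : Kah A) (V : A.ι → M → Matrix (Fin n) ρ ℂ) (i : A.ι) (z : Cn n) :
    nsq (Kd (Kr K i)) (rdM V i) z = (gm K V i ((A.e i).symm z)).trace.re := by
  unfold nsq
  rw [Kd_Kr]
  rfl

theorem ev_target (i : A.ι) {x : M} (hx : x ∈ (A.e i).source) :
    ∀ᶠ z in 𝓝 (A.e i x), z ∈ (A.e i).target :=
  (A.e i).open_target.mem_nhds ((A.e i).map_source hx)

theorem ev_O (hO : IsOpen O) (i : A.ι) {x : M} (hx : x ∈ (A.e i).source) (hxO : x ∈ O) :
    ∀ᶠ z in 𝓝 (A.e i x), z ∈ (A.e i).target ∩ (A.e i).symm ⁻¹' O :=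
  (isOpen_ti (A := A) hO).mem_nhds
    ⟨(A.e i).map_source hx, by rw [mem_preimage, (A.e i).left_inv hx]; exact hxO⟩

theorem T0_read (K : Kah A) {V : A.ι → M → Matrix (Fin n) ρ ℂ} (hO : IsOpen O) (hV : HF A O V)
    {i : A.ι} {x : M} (hx : x ∈ (A.e i).source) (hxO : x ∈ O) :
    (fun z => T0 K V ((A.e i).symm z)) =ᶠ[𝓝 (A.e i x)] nsq (Kd (Kr K i)) (rdM V i) := by
  filter_upwards [ev_O hO i hx hxO] with z hz
  rw [nsq_rd]
  unfold T0
  rw [gM_eq K hV ((A.e i).map_target hz.1) hz.2]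

theorem holM_rd {V : A.ι → M → Matrix (Fin n) ρ ℂ} (hO : IsOpen O) (hV : HF A O V)
    {i : A.ι} {x : M} (hx : x ∈ (A.e i).source) (hxO : x ∈ O) : HolM (A.e i x) (rdM V i) := by
  intro a r
  filter_upwards [ev_O hO i hx hxO] with z hz
  exact DifferentiableOn.differentiableAt (hV.hol i a r) ((isOpen_ti hO).mem_nhds hz)

theorem smE_Kr (K : Kah A) {i : A.ι} {x : M} (hx : x ∈ (A.e i).source) :
    ∀ᶠ y in 𝓝 (A.e i x), SmM y (Kr K i) := by
  filter_upwards [ev_target i hx] with z hz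
  exact smM_Kr K i hz

theorem pE_Kr (K : Kah A) {i : A.ι} {x : M} (hx : x ∈ (A.e i).source) :
    ∀ᶠ y in 𝓝 (A.e i x), (Kr K i y).PosDef := by
  filter_upwards [ev_target i hx] with z hz
  exact Kr_posDef K i hz

theorem kE_Kr (K : Kah A) {i : A.ι} {x : M} (hx : x ∈ (A.e i).source) :
    ∀ᶠ y in 𝓝 (A.e i x), KahAt (Kr K i) y := by
  filter_upwards [ev_target i hx] with z hz
  exact kahAt K i hz

theorem T0_smP (K : Kah A) {V : A.ι → M → Matrix (Fin n) ρ ℂ} (hO : IsOpen O) (hV : HF A O V)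
    {x : M} (hxO : x ∈ O) : SmP A (T0 K V) x := by
  intro i hx
  have h1 : ContDiffAt ℝ ∞ (nsq (Kd (Kr K i)) (rdM V i)) (A.e i x) :=
    sm_nsq (smE_Kd (smE_Kr K hx) (pE_Kr K hx)).self_of_nhds (holM_rd hO hV hx hxO).sm
  exact h1.congr_of_eventuallyEq (T0_read K hO hV hx hxO)

/-! ### dictionary -/

theorem trC_eq_tk (K : Kah A) (S : A.ι → M → Matrix (Fin n) (Fin n) ℂ) {i : A.ι} {x : M}
    (hx : x ∈ (A.e i).source) : trC K S i x = tk (Kr K i) (A.e i x) (fun c d => S i x c d) := by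
  unfold trC tk
  have h1 : (Kr K i (A.e i x))⁻¹ = ((K.g i x)⁻¹)ᵀ := by
    show ((K.g i ((A.e i).symm (A.e i x)))ᵀ)⁻¹ = _
    rw [(A.e i).left_inv hx, Matrix.transpose_nonsing_inv]
  rw [h1]
  simp only [Matrix.trace, Matrix.diag, Matrix.mul_apply, Matrix.transpose_apply]
  rw [Finset.sum_comm]

theorem trC_eq_lap (K : Kah A) (f : M → ℝ) {i : A.ι} {x : M} (hx : x ∈ (A.e i).source) :
    (trC K (hsf A f) i x).re = lap (Kr K i) (fun z => f ((A.e i).symm z)) (A.e i x) := by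
  rw [trC_eq_tk K _ hx]
  rfl

theorem gq_eq_gsq (K : Kah A) {f : M → ℝ} {i : A.ι} {x : M} (hx : x ∈ (A.e i).source)
    (hf : DifferentiableAt ℝ (fun z => f ((A.e i).symm z)) (A.e i x)) :
    gq K f i x = gsq (Kr K i) (fun z => f ((A.e i).symm z)) (A.e i x) := by
  have h1 : gq K f i x = (trC K (fun i x =>
      Matrix.vecMulVec (gr (fun z => f ((A.e i).symm z)) (A.e i x))
        (star (gr (fun z => f ((A.e i).symm z)) (A.e i x)))) i x).re := rfl
  rw [h1, trC_eq_tk K _ hx]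
  unfold gsq
  congr 2
  funext c d
  rw [Matrix.vecMulVec_apply, star_gr hf, wd_eq_dS']
  unfold gr
  rw [wd_eq_dS]

/-- `Ric = 0` -/
def Rf (K : Kah A) : Prop := ∀ i, ∀ x ∈ (A.e i).source, cur (volK K) i x = 0

theorem ric_zero {K : Kah A} (hK : Rf K) {i : A.ι} {x : M} (hx : x ∈ (A.e i).source) :
    Matrix.of (ric (Kr K i) (A.e i x)) = 0 := by
  rw [ric_eq K i hx, hK i x hx]

/-- **Bochner**: `∑ |η_r|²` is subharmonic -/
theorem lap_T0 {K : Kah A} (hK : Rf K) {V : A.ι → M → Matrix (Fin n) ρ ℂ} (hO : IsOpen O)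
    (hV : HF A O V) {i : A.ι} {x : M} (hx : x ∈ (A.e i).source) (hxO : x ∈ O) :
    0 ≤ (trC K (hsf A (T0 K V)) i x).re := by
  rw [trC_eq_lap K _ hx, lap_congr (T0_read K hO hV hx hxO)]
  exact lap_form_nonneg (smE_Kr K hx) (pE_Kr K hx) (kE_Kr K hx) (ric_zero hK hx)
    (holM_rd hO hV hx hxO)

end

end Crest.Agent.R281.TI_671
end

-- ▼ part R281/TI2_671
section

/-!
# R281 (S0424), leaf S-T6-INST (helper671), part 2: `dF`, `dlog F_r`, `J = det (dlog F) / Ω`

* `dF A F i x a`   : `∂_a F` in the chart `i`; `dF_hol`, `dF_tr`;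
* `Vl A F`         : the log-differentials `dlog F_r`, `hf_Vl : HF A O (Vl A F)`;
* `V1 A F`         : the 1-form `dF` as a one-column matrix, `hf_V1`;
* `Jf V Om`        : `det V / Ω`; `Jf_eq`, `Jf_hol`;
* `lap_normSq`     : `tr g⁻¹ ∂∂̄ |F|² = |∂F|²` for `F` holomorphic;
* `gq_re`, `gq_im` : `|∂ Re F|² = |∂ Im F|² = |∂F|² / 4`.
-/

set_option autoImplicit false
set_option linter.unusedSectionVars false

open Set Filter Topology Complex MeasureTheory
open scoped ContDiff Matrix ComplexConjugate ComplexOrder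

namespace Crest.Agent.R281.TI_671

open Crest.Agent.R275 Crest.Agent.R275.Geo Crest.Agent.R275.Core144 Crest.Agent.R275.EDR890
open Crest.Agent.R273.Defs_333 Crest.Agent.R273.Hess_333 Crest.Agent.R273.HessB_333
open Crest.Agent.R273.HM_333 hiding nsq
open Crest.Agent.R273.Kah_333 Crest.Agent.R273.Vol_333
open Crest.Agent.R273.Calc_243 Crest.Agent.R273.Bkn_243 Crest.Agent.R273.BKNa_37
open Crest.Agent.R273.BochA_101 Crest.Agent.R273.BochB_101 Crest.Agent.R273.BochC_101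
open Crest.Agent.R273.BochD_101 Crest.Agent.R273.BochF_101
open Crest.Agent.R273.FIa0_597 Crest.Agent.R273.FIb0_597
open Crest.Agent.R275.QN2b734 (SmP smP_of sm_iff)
open Crest.Agent.R281.Bo1_815 Crest.Agent.R281.Bo2_815 Crest.Agent.R281.Glob1_484

noncomputable section

variable {n : ℕ} {M : Type} [TopologicalSpace M] {A : Atl n M} {ρ : Type} [Fintype ρ]
  [DecidableEq ρ] {O : Set M}

/-- `∂_a F` in the chart `i` -/
def dF (A : Atl n M) (F : M → ℂ) (i : A.ι) (x : M) (a : Fin n) : ℂ :=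
  fderiv ℂ (fun z => F ((A.e i).symm z)) (A.e i x) (EuclideanSpace.single a 1)

theorem dF_hol (hO : IsOpen O) {F : M → ℂ} {i : A.ι} (hF : HolAt A i O F) (a : Fin n) :
    HolAt A i O (fun x => dF A F i x a) := by
  have ho := isOpen_ti (A := A) (i := i) hO
  have h1 : DifferentiableOn ℂ (fderiv ℂ (fun z => F ((A.e i).symm z)))
      ((A.e i).target ∩ (A.e i).symm ⁻¹' O) :=
    ((Crest.Agent.R266.SCV.analyticOnNhd_of_differentiableOn ho hF).fderiv).differentiableOn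
  have h3 : DifferentiableOn ℂ (fun z => (fderiv ℂ (fun z => F ((A.e i).symm z)) z
      (EuclideanSpace.single a 1))) ((A.e i).target ∩ (A.e i).symm ⁻¹' O) :=
    h1.clm_apply (differentiableOn_const _)
  refine DifferentiableOn.congr h3 fun z hz => ?_
  simp only [dF, (A.e i).right_inv hz.1]

theorem dF_tr (hO : IsOpen O) {F : M → ℂ} (hF : ∀ i, HolAt A i O F) {i j : A.ι} {x : M}
    (hx : x ∈ (A.e i).source ∩ (A.e j).source) (hxO : x ∈ O) (a : Fin n) :
    dF A F i x a = ∑ b, Jm A i j x b a * dF A F j x b := by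
  have hij : DifferentiableAt ℂ (fun z => A.e j ((A.e i).symm z)) (A.e i x) :=
    (A.holo i j).differentiableAt ((isOpen_ov (A := A) i j).mem_nhds (mem_ov hx))
  have hj : DifferentiableAt ℂ (fun z => F ((A.e j).symm z)) (A.e j x) :=
    (hF j).diffAt hO hx.2 hxO
  have he : (fun z => F ((A.e i).symm z)) =ᶠ[𝓝 (A.e i x)]
      (fun z => F ((A.e j).symm z)) ∘ (fun z => A.e j ((A.e i).symm z)) := by
    filter_upwards [(isOpen_ov (A := A) i j).mem_nhds (mem_ov hx)] with z hz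
    simp [(A.e j).left_inv hz.2]
  have hval : A.e j ((A.e i).symm (A.e i x)) = A.e j x := by rw [(A.e i).left_inv hx.1]
  have hch : fderiv ℂ (fun z => F ((A.e i).symm z)) (A.e i x) =
      (fderiv ℂ (fun z => F ((A.e j).symm z)) (A.e j x)).comp
        (fderiv ℂ (fun z => A.e j ((A.e i).symm z)) (A.e i x)) := by
    rw [he.fderiv_eq, fderiv_comp _ (by rw [hval]; exact hj) hij, hval]
  unfold dF
  rw [hch, ContinuousLinearMap.comp_apply]
  set v := (fderiv ℂ (fun z => A.e j ((A.e i).symm z)) (A.e i x)) (EuclideanSpace.single a 1)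
    with hvd
  have hv : v = ∑ c, v c • (EuclideanSpace.single c (1 : ℂ) : Cn n) := by
    ext d
    simp [Finset.sum_apply, Pi.single_apply]
  conv_lhs => rw [hv, map_sum]
  refine Finset.sum_congr rfl fun b _ => ?_
  rw [map_smul, smul_eq_mul]
  rfl

/-- the log-differentials `dlog F_r` -/
def Vl (A : Atl n M) (F : ρ → M → ℂ) (i : A.ι) (x : M) : Matrix (Fin n) ρ ℂ :=
  Matrix.of fun a r => dF A (F r) i x a / F r x

theorem hf_Vl (hO : IsOpen O) {F : ρ → M → ℂ} (hF : ∀ r i, HolAt A i O (F r))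
    (h0 : ∀ r, ∀ x ∈ O, F r x ≠ 0) : HF A O (Vl A F) where
  hol i a r := by
    have h1 := (dF_hol hO (hF r i) a).mul ((hF r i).inv fun x _ hx => h0 r x hx)
    exact h1.congr fun x _ _ => by rw [Vl, Matrix.of_apply, div_eq_mul_inv]
  tr i j x hx hxO := by
    ext a r
    rw [Vl, Matrix.of_apply, dF_tr hO (hF r) hx hxO a, Matrix.mul_apply, Finset.sum_div]
    refine Finset.sum_congr rfl fun b _ => ?_
    rw [Matrix.transpose_apply, Vl, Matrix.of_apply, mul_div_assoc]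

/-- the 1-form `dF` -/
def V1 (A : Atl n M) (F : M → ℂ) (i : A.ι) (x : M) : Matrix (Fin n) Unit ℂ :=
  Matrix.of fun a _ => dF A F i x a

theorem hf_V1 (hO : IsOpen O) {F : M → ℂ} (hF : ∀ i, HolAt A i O F) : HF A O (V1 A F) where
  hol i a _ := dF_hol hO (hF i) a
  tr i j x hx hxO := by
    ext a r
    rw [V1, Matrix.of_apply, dF_tr hO hF hx hxO a, Matrix.mul_apply]
    rfl

/-! ### the function `J` -/

/-- `det V / Ω` -/
def Jf (V : A.ι → M → Matrix (Fin n) (Fin n) ℂ) (Om : A.ι → M → ℂ) (x : M) : ℂ :=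
  (V (ch A x) x).det / Om (ch A x) x

theorem Jf_eq {V : A.ι → M → Matrix (Fin n) (Fin n) ℂ} (hV : HF A O V) {Om : A.ι → M → ℂ}
    (hOm : IsHS (KB A) univ Om) {i : A.ι} {x : M} (hx : x ∈ (A.e i).source) (hxO : x ∈ O) :
    Jf V Om x = (V i x).det / Om i x := by
  unfold Jf
  have hx' : x ∈ (A.e (ch A x)).source ∩ (A.e i).source := ⟨mem_ch A x, hx⟩
  rw [hV.tr _ i x hx' hxO, hOm.tr _ i x hx' (mem_univ x), KB_g hx', Matrix.det_mul,
    Matrix.det_transpose, mul_div_mul_left _ _ (det_Jm_ne hx')]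

theorem holAt_det {i : A.ι} {V : M → Matrix (Fin n) (Fin n) ℂ}
    (h : ∀ a b, HolAt A i O (fun x => V x a b)) : HolAt A i O (fun x => (V x).det) := by
  simp only [Matrix.det_apply]
  refine HolAt.sum _ fun σ _ => ?_
  have h2 : HolAt A i O fun x => ∏ b, V x (σ b) b := HolAt.prod _ fun b _ => h (σ b) b
  simp only [Units.smul_def, zsmul_eq_mul]
  exact h2.const_mul _

theorem Jf_hol {V : A.ι → M → Matrix (Fin n) (Fin n) ℂ} (hV : HF A O V) {Om : A.ι → M → ℂ}
    (hOm : IsHS (KB A) univ Om) (h0 : ∀ i, ∀ x ∈ (A.e i).source, Om i x ≠ 0) (i : A.ι) :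
    HolAt A i O (Jf V Om) := by
  have h1 : HolAt A i O (fun x => (V i x).det) := holAt_det (hV.hol i)
  have h2 : HolAt A i O (Om i) := (hOm.hol i).mono (subset_univ O)
  exact (h1.mul (h2.inv fun x hx _ => h0 i x hx)).congr fun x hx hxO => by
    rw [Jf_eq hV hOm hx hxO, div_eq_mul_inv]

theorem normSq_Jf (K : Kah A) (V : A.ι → M → Matrix (Fin n) (Fin n) ℂ)
    {Om : A.ι → M → ℂ}
    (hdet : ∀ i, ∀ x ∈ (A.e i).source, (K.g i x).det = ((‖Om i x‖ ^ 2 : ℝ) : ℂ))
    (x : M) : ((‖Jf V Om x‖ ^ 2 : ℝ) : ℂ) = (gM K V x).det := by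
  have hx := mem_ch A x
  unfold gM gm
  rw [Matrix.det_mul, Matrix.det_mul, Matrix.det_conjTranspose, Matrix.det_nonsing_inv,
    Ring.inverse_eq_inv', hdet _ x hx, Jf, norm_div, div_pow]
  push_cast
  have h1 : (starRingEnd ℂ) (V (ch A x) x).det * (V (ch A x) x).det =
      ((‖(V (ch A x) x).det‖ ^ 2 : ℝ) : ℂ) := by
    rw [Complex.conj_mul']
    norm_cast
  rw [mul_right_comm]
  have h2 : star (V (ch A x) x).det * (V (ch A x) x).det =
      ((‖(V (ch A x) x).det‖ ^ 2 : ℝ) : ℂ) := h1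
  rw [h2]
  push_cast
  rw [div_eq_mul_inv]

/-! ### Laplacian of `|F|²`, gradients of `Re F`, `Im F` -/

theorem dM_V1 {F : M → ℂ} (hO : IsOpen O) (hF : ∀ i, HolAt A i O F) {i : A.ι} {x : M}
    (hx : x ∈ (A.e i).source) (hxO : x ∈ O) (c : Fin n) :
    dS (-I) c (fun z => F ((A.e i).symm z)) (A.e i x) = dF A F i x c := by
  have h1 : DifferentiableAt ℂ (fun z => F ((A.e i).symm z)) (A.e i x) := (hF i).diffAt hO hx hxO
  rw [← wd_eq_dS, wd_hol' h1]
  rfl

/-- `T0` of one form -/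
theorem T0_V1 (K : Kah A) {F : M → ℂ} (hO : IsOpen O) (hF : ∀ i, HolAt A i O F) {i : A.ι}
    {x : M} (hx : x ∈ (A.e i).source) (hxO : x ∈ O) :
    T0 K (V1 A F) x = (tk (Kr K i) (A.e i x) (fun c d => dF A F i x c * conj (dF A F i x d))).re := by
  have h0 := trC_eq_tk K (fun i x => Matrix.of fun c d => dF A F i x c * conj (dF A F i x d)) hx
  simp only [Matrix.of_apply] at h0
  unfold T0
  rw [gM_eq K (hf_V1 hO hF) hx hxO, ← h0]
  unfold gm trC
  rw [Matrix.mul_assoc, Matrix.trace_mul_comm, Matrix.mul_assoc]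
  congr 3
  ext c d
  rw [Matrix.mul_apply]
  simp [V1]

theorem lap_normSq (K : Kah A) {F : M → ℂ} (hO : IsOpen O) (hF : ∀ i, HolAt A i O F) {i : A.ι}
    {x : M} (hx : x ∈ (A.e i).source) (hxO : x ∈ O) :
    (trC K (hsf A fun y => ‖F y‖ ^ 2) i x).re = T0 K (V1 A F) x := by
  set V : Cn n → Matrix Unit Unit ℂ := fun z => Matrix.of fun _ _ => F ((A.e i).symm z) with hVdef
  have hV : HolM (A.e i x) V := by
    intro _ _
    filter_upwards [ev_O hO i hx hxO] with z hz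
    exact DifferentiableOn.differentiableAt (hF i) ((isOpen_ti hO).mem_nhds hz)
  have hdc : ∀ (s : ℂ) (a : Fin n) (z : Cn n),
      dM s a (fun _ : Cn n => (1 : Matrix Unit Unit ℂ)) z = 0 := by
    intro s a z
    ext S T
    exact dS_const
  have hrm : ∀ c d, rm (fun _ : Cn n => (1 : Matrix Unit Unit ℂ)) (A.e i x) c d = 0 := by
    intro c d
    unfold rm
    have h1 : dM I d (fun _ : Cn n => (1 : Matrix Unit Unit ℂ)) = fun _ => 0 := by
      funext z
      exact hdc _ _ z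
    rw [h1]
    have h2 : dM (-I) c (fun _ : Cn n => (0 : Matrix Unit Unit ℂ)) (A.e i x) = 0 := by
      ext S T
      exact dS_const
    rw [h2]
    simp
  have h1 : (fun z => ‖F ((A.e i).symm z)‖ ^ 2) =
      nsq (fun _ : Cn n => (1 : Matrix Unit Unit ℂ)) V := by
    funext z
    unfold nsq
    rw [Matrix.mul_one]
    simp only [Matrix.trace, Matrix.diag, Matrix.mul_apply, Matrix.conjTranspose_apply, hVdef,
      Matrix.of_apply, Finset.univ_unique, Finset.sum_singleton]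
    rw [RCLike.star_def, Complex.conj_mul']
    norm_cast
  rw [T0_V1 K hO hF hx hxO, trC_eq_lap K _ hx, h1]
  unfold lap
  congr 2
  funext c d
  have hh := hess_nsq (G := fun _ : Cn n => (1 : Matrix Unit Unit ℂ)) (V := V)
    (z := A.e i x) (Eventually.of_forall fun y S T => contDiffAt_const)
    (Eventually.of_forall fun y => Matrix.isHermitian_one) (by simp) hV c d
  rw [hh, hrm]
  simp only [Matrix.mul_zero, Matrix.zero_mul, Matrix.trace_zero, sub_zero]
  unfold Dp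
  rw [hdc, hdc]
  simp only [Matrix.mul_zero, Matrix.zero_mul, add_zero, Matrix.mul_one]
  simp only [Matrix.trace, Matrix.diag, Matrix.mul_apply, Matrix.conjTranspose_apply,
    Finset.univ_unique, Finset.sum_singleton]
  have h3 : ∀ c, dM (-I) c V (A.e i x) () () = dF A F i x c := fun c => dM_V1 hO hF hx hxO c
  have h4 : ∀ c, dM (-I) c V (A.e i x) default default = dF A F i x c := fun c => h3 c
  rw [h4, h4, RCLike.star_def, mul_comm]

theorem fderiv_cu_re {f : Cn n → ℂ} {z : Cn n} (hf : DifferentiableAt ℂ f z) (v : Cn n) :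
    fderiv ℝ (cu fun w => (f w).re) z v = (((fderiv ℂ f z v).re : ℝ) : ℂ) := by
  have h1 : HasFDerivAt f ((fderiv ℂ f z).restrictScalars ℝ) z :=
    hf.hasFDerivAt.restrictScalars ℝ
  have h2 : HasFDerivAt (fun w => ((f w).re : ℂ)) _ z :=
    (Complex.ofRealCLM.comp Complex.reCLM).hasFDerivAt.comp z h1
  have h3 : fderiv ℝ (cu fun w => (f w).re) z = _ := h2.fderiv
  rw [h3]
  rfl

theorem fderiv_cu_im {f : Cn n → ℂ} {z : Cn n} (hf : DifferentiableAt ℂ f z) (v : Cn n) :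
    fderiv ℝ (cu fun w => (f w).im) z v = (((fderiv ℂ f z v).im : ℝ) : ℂ) := by
  have h1 : HasFDerivAt f ((fderiv ℂ f z).restrictScalars ℝ) z :=
    hf.hasFDerivAt.restrictScalars ℝ
  have h2 : HasFDerivAt (fun w => ((f w).im : ℂ)) _ z :=
    (Complex.ofRealCLM.comp Complex.imCLM).hasFDerivAt.comp z h1
  have h3 : fderiv ℝ (cu fun w => (f w).im) z = _ := h2.fderiv
  rw [h3]
  rfl

theorem single_I (a : Fin n) : (EuclideanSpace.single a I : Cn n) =
    I • EuclideanSpace.single a (1 : ℂ) := by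
  ext b
  by_cases hb : b = a <;> simp [hb]

theorem dS_re {f : Cn n → ℂ} {z : Cn n} (hf : DifferentiableAt ℂ f z) (c : Fin n) :
    dS (-I) c (cu fun w => (f w).re) z =
      (1 / 2) * fderiv ℂ f z (EuclideanSpace.single c 1) := by
  unfold dS
  rw [fderiv_cu_re hf, fderiv_cu_re hf, single_I, map_smul, smul_eq_mul]
  set w := fderiv ℂ f z (EuclideanSpace.single c 1)
  apply Complex.ext <;> simp

theorem dS_im {f : Cn n → ℂ} {z : Cn n} (hf : DifferentiableAt ℂ f z) (c : Fin n) :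
    dS (-I) c (cu fun w => (f w).im) z =
      -(I / 2) * fderiv ℂ f z (EuclideanSpace.single c 1) := by
  unfold dS
  rw [fderiv_cu_im hf, fderiv_cu_im hf, single_I, map_smul, smul_eq_mul]
  set w := fderiv ℂ f z (EuclideanSpace.single c 1)
  apply Complex.ext <;> simp

theorem gq_re (K : Kah A) {F : M → ℂ} (hO : IsOpen O) (hF : ∀ i, HolAt A i O F) {i : A.ι}
    {x : M} (hx : x ∈ (A.e i).source) (hxO : x ∈ O) :
    gq K (fun y => (F y).re) i x = T0 K (V1 A F) x / 4 := by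
  have h1 : DifferentiableAt ℂ (fun z => F ((A.e i).symm z)) (A.e i x) := (hF i).diffAt hO hx hxO
  have h2 : DifferentiableAt ℝ (fun z => (F ((A.e i).symm z)).re) (A.e i x) :=
    Complex.reCLM.differentiableAt.comp _ (h1.restrictScalars ℝ)
  rw [gq_eq_gsq K hx h2, T0_V1 K hO hF hx hxO]
  unfold gsq
  rw [tk_congr (F' := fun c d => (1 / 4 : ℂ) * (dF A F i x c * conj (dF A F i x d)))
    (fun c d => by
      rw [dS_bar h2, dS_re h1, dS_re h1, map_mul]
      have : conj (1 / 2 : ℂ) = 1 / 2 := by rw [map_div₀, map_one, map_ofNat]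
      rw [this]
      unfold dF
      ring), tk_smul]
  have h4 : (1 / 4 : ℂ) = ((1 / 4 : ℝ) : ℂ) := by push_cast; rfl
  rw [h4, Complex.re_ofReal_mul]
  ring

theorem gq_im (K : Kah A) {F : M → ℂ} (hO : IsOpen O) (hF : ∀ i, HolAt A i O F) {i : A.ι}
    {x : M} (hx : x ∈ (A.e i).source) (hxO : x ∈ O) :
    gq K (fun y => (F y).im) i x = T0 K (V1 A F) x / 4 := by
  have h1 : DifferentiableAt ℂ (fun z => F ((A.e i).symm z)) (A.e i x) := (hF i).diffAt hO hx hxO
  have h2 : DifferentiableAt ℝ (fun z => (F ((A.e i).symm z)).im) (A.e i x) :=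
    Complex.imCLM.differentiableAt.comp _ (h1.restrictScalars ℝ)
  rw [gq_eq_gsq K hx h2, T0_V1 K hO hF hx hxO]
  unfold gsq
  rw [tk_congr (F' := fun c d => (1 / 4 : ℂ) * (dF A F i x c * conj (dF A F i x d)))
    (fun c d => by
      rw [dS_bar h2, dS_im h1, dS_im h1, map_mul]
      have : conj (-(I / 2) : ℂ) = I / 2 := by
        rw [map_neg, map_div₀, Complex.conj_I, map_ofNat]; ring
      rw [this]
      unfold dF
      linear_combination (-(1 / 4) * (fderiv ℂ (fun z => F ((A.e i).symm z)) (A.e i x)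
        (EuclideanSpace.single c 1)) * conj (fderiv ℂ (fun z => F ((A.e i).symm z)) (A.e i x)
        (EuclideanSpace.single d 1))) * Complex.I_mul_I), tk_smul]
  have h4 : (1 / 4 : ℂ) = ((1 / 4 : ℝ) : ℂ) := by push_cast; rfl
  rw [h4, Complex.re_ofReal_mul]
  ring

end

end Crest.Agent.R281.TI_671
end

-- ▼ part R281/TI3_671
section

/-!
# R281 (S0424), leaf S-T6-INST (helper671), part 3: the global fields of (T6')

* `rf_of_Om`   : `det g = |Ω|²`, `Ω` holomorphic without zeros ⟹ `Ric = 0`;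
* `cut_sm`, `Lap_germ`, `Dg_germ` : cut-off of functions smooth on an open set;
* `T6F`, `exists_T6F` : `V` an `n`-tuple of holomorphic 1-forms on the open set `O`, `B ⊆ O` compact:
  global smooth functions `T, P, q, a, b` with (on `B`) `T = ∑|η_j|²`, `q = |J|² = a² + b²`,
  `P = |∂J|²`, `J = a + i b = det V / Ω`, `0 ≤ Lap T`, `0 ≤ Lap P`, `Lap q = P`,
  `Dg a = Dg b = P / 4`, `q ≤ T ^ n`, `det Gram = q`, `tr Gram = T`.
-/

set_option autoImplicit false
set_option linter.unusedSectionVars false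

open Set Filter Topology Complex MeasureTheory
open scoped ContDiff Matrix ComplexConjugate ComplexOrder

namespace Crest.Agent.R281.TI_671

open Crest.Agent.R275 Crest.Agent.R275.Geo Crest.Agent.R275.Core144 Crest.Agent.R275.EDR890
open Crest.Agent.R273.Defs_333 Crest.Agent.R273.Hess_333 Crest.Agent.R273.HessB_333
open Crest.Agent.R273.HM_333 hiding nsq
open Crest.Agent.R273.Kah_333 Crest.Agent.R273.Vol_333
open Crest.Agent.R273.Calc_243 Crest.Agent.R273.Bkn_243 Crest.Agent.R273.BKNa_37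
open Crest.Agent.R273.BochA_101 Crest.Agent.R273.BochB_101 Crest.Agent.R273.BochC_101
open Crest.Agent.R273.BochD_101 Crest.Agent.R273.BochF_101
open Crest.Agent.R273.FIa0_597 Crest.Agent.R273.FIb0_597
open Crest.Agent.R273.SchI_152 (Dg)
open Crest.Agent.R275.QN2b734 (SmP smP_of sm_iff tendsto_symm)
open Crest.Agent.R281.Bo1_815 Crest.Agent.R281.Bo2_815 Crest.Agent.R281.Glob1_484

noncomputable section

variable {n : ℕ} {M : Type} [TopologicalSpace M] {A : Atl n M} {ρ : Type} [Fintype ρ]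
  [DecidableEq ρ] {O : Set M}

/-! ### Ricci flatness -/

theorem rf_of_Om {K : Kah A} {Om : A.ι → M → ℂ} (hOm : IsHS (KB A) univ Om)
    (hdet : ∀ i, ∀ x ∈ (A.e i).source, (K.g i x).det = ((‖Om i x‖ ^ 2 : ℝ) : ℂ)) : Rf K := by
  intro i x hx
  have hne : ∀ y ∈ (A.e i).source, Om i y ≠ 0 := by
    intro y hy h0
    have h1 := (K.pos i y hy).det_pos
    rw [hdet i y hy, h0] at h1
    simp at h1
  have hz := (A.e i).map_source hx
  have hz' := (A.e i).left_inv hx
  rw [← hz', cur_read _ i hz]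
  have e1 : (volK K).wt i =ᶠ[𝓝 (A.e i x)] fun w =>
      (-1 : ℝ) * Real.log (‖Om i ((A.e i).symm w)‖ ^ 2) := by
    filter_upwards [(A.e i).open_target.mem_nhds hz] with w hw
    have h1 := hdet i _ ((A.e i).map_target hw)
    change - Real.log ((K.g i ((A.e i).symm w)).det.re) = _
    rw [h1, Complex.ofReal_re]
    ring
  have hd := hol_at hOm i hz
  have h0 : Om i ((A.e i).symm (A.e i x)) ≠ 0 := by rw [hz']; exact hne x hx
  have hsm : ContDiffAt ℝ ∞ (fun w => Real.log (‖Om i ((A.e i).symm w)‖ ^ 2)) (A.e i x) := by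
    have h3 := ((cd_at hOm i).norm_sq ℝ).contDiffAt ((A.e i).open_target.mem_nhds hz)
    exact h3.log (pow_ne_zero 2 (norm_ne_zero_iff.2 h0))
  rw [hess_congr e1, hess_const_mul _ hsm, hess_log_norm hd h0, smul_zero]

/-! ### cut-offs -/

theorem cut_sm {χ f : M → ℝ} (hχ : ∀ y, SmP A χ y) (hs : tsupport χ ⊆ O)
    (hf : ∀ x ∈ O, SmP A f x) : A.Sm (fun y => χ y * f y) := by
  rw [sm_iff]
  intro y
  by_cases hy : y ∈ tsupport χ
  · exact (hχ y).mul (hf y (hs hy))
  · have h1 : (fun _ : M => (0 : ℝ)) =ᶠ[𝓝 y] fun y => χ y * f y := by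
      filter_upwards [(isClosed_tsupport χ).isOpen_compl.mem_nhds hy] with z hz
      rw [image_eq_zero_of_notMem_tsupport hz, zero_mul]
    have h0 : SmP A (fun _ : M => (0 : ℝ)) y := fun i _ => contDiffAt_const
    exact h0.congr h1

theorem Lap_germ (K : Kah A) {u f : M → ℝ} (hu : A.Sm u) {i : A.ι} {x : M}
    (hx : x ∈ (A.e i).source) (he : u =ᶠ[𝓝 x] f) :
    Lap K u x = (trC K (hsf A f) i x).re := by
  rw [Lap_read K hu hx]
  have h1 : hsf A u i x = hsf A f i x := by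
    show hess (fun z => u ((A.e i).symm z)) (A.e i x) = hess (fun z => f ((A.e i).symm z)) (A.e i x)
    exact hess_congr ((tendsto_symm hx).eventually he)
  unfold trC
  rw [h1]

theorem Dg_germ (K : Kah A) {u f : M → ℝ} (hu : A.Sm u) {i : A.ι} {x : M}
    (hx : x ∈ (A.e i).source) (he : u =ᶠ[𝓝 x] f) : Dg K u x = gq K f i x := by
  rw [Dg_eq K hu hx]
  have h1 : gr (fun z => u ((A.e i).symm z)) (A.e i x) =
      gr (fun z => f ((A.e i).symm z)) (A.e i x) := by
    have h2 : cu (fun z => u ((A.e i).symm z)) =ᶠ[𝓝 (A.e i x)]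
        cu (fun z => f ((A.e i).symm z)) := by
      filter_upwards [(tendsto_symm hx).eventually he] with z hz
      show ((u ((A.e i).symm z) : ℝ) : ℂ) = ((f ((A.e i).symm z) : ℝ) : ℂ)
      rw [hz]
    funext a
    exact wd_congr h2 (false, a)
  unfold gq
  rw [h1]

/-! ### the fields -/

/-- the global functions of (T6') on the compact set `B` -/
structure T6F (K : Kah A) (B : Set M) (V : A.ι → M → Matrix (Fin n) (Fin n) ℂ) (Om : A.ι → M → ℂ)
    (T P q a b : M → ℝ) : Prop where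
  T_sm : A.Sm T
  P_sm : A.Sm P
  q_sm : A.Sm q
  a_sm : A.Sm a
  b_sm : A.Sm b
  T_nonneg : ∀ x, 0 ≤ T x
  P_nonneg : ∀ x, 0 ≤ P x
  q_nonneg : ∀ x, 0 ≤ q x
  Lap_T : ∀ x ∈ B, 0 ≤ Lap K T x
  Lap_P : ∀ x ∈ B, 0 ≤ Lap K P x
  Lap_q : ∀ x ∈ B, P x = Lap K q x
  q_eq : ∀ x ∈ B, q x = a x ^ 2 + b x ^ 2
  q_le : ∀ x ∈ B, q x ≤ T x ^ n
  Dg_a : ∀ x ∈ B, Dg K a x = P x / 4
  Dg_b : ∀ x ∈ B, Dg K b x = P x / 4
  T_tr : ∀ x ∈ B, (gM K V x).trace.re = T x
  q_det : ∀ x ∈ B, (gM K V x).det.re = q x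
  q_J : ∀ x ∈ B, q x = ‖Jf V Om x‖ ^ 2
  a_J : ∀ x ∈ B, a x = (Jf V Om x).re
  b_J : ∀ x ∈ B, b x = (Jf V Om x).im

theorem exists_T6F [T2Space M] {K : Kah A} {V : A.ι → M → Matrix (Fin n) (Fin n) ℂ}
    {Om : A.ι → M → ℂ} (hO : IsOpen O) (hV : HF A O V) (hOm : IsHS (KB A) univ Om)
    (hdet : ∀ i, ∀ x ∈ (A.e i).source, (K.g i x).det = ((‖Om i x‖ ^ 2 : ℝ) : ℂ))
    {B : Set M} (hB : IsCompact B) (hBO : B ⊆ O) :
    ∃ T P q a b : M → ℝ, T6F K B V Om T P q a b := by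
  have hRf : Rf K := rf_of_Om hOm hdet
  have hOm0 : ∀ i, ∀ x ∈ (A.e i).source, Om i x ≠ 0 := by
    intro i y hy h0
    have h1 := (K.pos i y hy).det_pos
    rw [hdet i y hy, h0] at h1
    simp at h1
  obtain ⟨χ, hχ, h01, h1, -, hs⟩ := Crest.Agent.R275.QN2b734.exists_bump A hB hO hBO
  have h1' : ∀ x ∈ B, ∀ᶠ y in 𝓝 x, χ y = 1 := fun x hx =>
    (eventually_nhdsSet_iff_forall.1 h1) x hx
  set J : M → ℂ := Jf V Om with hJdef
  have hJ : ∀ i, HolAt A i O J := fun i => Jf_hol hV hOm hOm0 i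
  have hJs : ∀ x ∈ O, SmP A J x := by
    intro x hxO i hx
    exact sm_of_hol (by
      filter_upwards [ev_O hO i hx hxO] with z hz
      exact DifferentiableOn.differentiableAt (hJ i) ((isOpen_ti hO).mem_nhds hz))
  -- the local functions
  set P0 : M → ℝ := T0 K (V1 A J) with hP0
  have hV1 := hf_V1 (A := A) hO hJ
  have sT : ∀ x ∈ O, SmP A (T0 K V) x := fun x hx => T0_smP K hO hV hx
  have sP : ∀ x ∈ O, SmP A P0 x := fun x hx => T0_smP K hO hV1 hx
  have sq : ∀ x ∈ O, SmP A (fun y => ‖J y‖ ^ 2) x := fun x hx i hi =>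
    (hJs x hx i hi).norm_sq ℝ
  have sa : ∀ x ∈ O, SmP A (fun y => (J y).re) x := fun x hx => (hJs x hx).re
  have sb : ∀ x ∈ O, SmP A (fun y => (J y).im) x := fun x hx =>
    SmP.comp (F := fun t : ℂ => t.im) Complex.imCLM.contDiff.contDiffAt (hJs x hx)
  have cT := cut_sm hχ hs sT
  have cP := cut_sm hχ hs sP
  have cq := cut_sm hχ hs sq
  have ca := cut_sm hχ hs sa
  have cb := cut_sm hχ hs sb
  have ge : ∀ (f : M → ℝ), ∀ x ∈ B, (fun y => χ y * f y) =ᶠ[𝓝 x] f := by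
    intro f x hx
    filter_upwards [h1' x hx] with y hy
    rw [hy, one_mul]
  have gx : ∀ (f : M → ℝ), ∀ x ∈ B, χ x * f x = f x := fun f x hx => (ge f x hx).self_of_nhds
  refine ⟨fun y => χ y * T0 K V y, fun y => χ y * P0 y, fun y => χ y * ‖J y‖ ^ 2,
    fun y => χ y * (J y).re, fun y => χ y * (J y).im,
    { T_sm := cT, P_sm := cP, q_sm := cq, a_sm := ca, b_sm := cb
      T_nonneg := fun x => mul_nonneg (h01 x).1 (T0_nonneg K V x)
      P_nonneg := fun x => mul_nonneg (h01 x).1 (T0_nonneg K _ x)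
      q_nonneg := fun x => mul_nonneg (h01 x).1 (by positivity)
      Lap_T := fun x hx => ?_
      Lap_P := fun x hx => ?_
      Lap_q := fun x hx => ?_
      q_eq := fun x hx => ?_
      q_le := fun x hx => ?_
      Dg_a := fun x hx => ?_
      Dg_b := fun x hx => ?_
      T_tr := fun x hx => ?_
      q_det := fun x hx => ?_
      q_J := fun x hx => gx (fun y => ‖J y‖ ^ 2) x hx
      a_J := fun x hx => gx (fun y => (J y).re) x hx
      b_J := fun x hx => gx (fun y => (J y).im) x hx }⟩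
  · rw [Lap_germ K cT (mem_ch A x) (ge _ x hx)]
    exact lap_T0 hRf hO hV (mem_ch A x) (hBO hx)
  · rw [Lap_germ K cP (mem_ch A x) (ge _ x hx)]
    exact lap_T0 hRf hO hV1 (mem_ch A x) (hBO hx)
  · show χ x * P0 x = _
    rw [gx P0 x hx, Lap_germ K cq (mem_ch A x) (ge (fun y => ‖J y‖ ^ 2) x hx),
      lap_normSq K hO hJ (mem_ch A x) (hBO hx)]
  · show χ x * ‖J x‖ ^ 2 = (χ x * (J x).re) ^ 2 + (χ x * (J x).im) ^ 2
    rw [(h1' x hx).self_of_nhds, one_mul, one_mul, one_mul, ← Complex.normSq_eq_norm_sq,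
      Complex.normSq_apply]
    ring
  · show χ x * ‖J x‖ ^ 2 ≤ (χ x * T0 K V x) ^ n
    rw [(h1' x hx).self_of_nhds, one_mul, one_mul]
    have h2 := normSq_Jf K V hdet x
    have h3 := Crest.Agent.R281.T6_16.det_le_tr_pow (gM_posSemidef K V x)
    rw [← h2, Complex.ofReal_re, Fintype.card_fin] at h3
    exact h3
  · rw [Dg_germ K ca (mem_ch A x) (ge _ x hx)]
    show _ = χ x * P0 x / 4
    rw [gx P0 x hx]
    exact gq_re K hO hJ (mem_ch A x) (hBO hx)
  · rw [Dg_germ K cb (mem_ch A x) (ge _ x hx)]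
    show _ = χ x * P0 x / 4
    rw [gx P0 x hx]
    exact gq_im K hO hJ (mem_ch A x) (hBO hx)
  · show _ = χ x * T0 K V x
    rw [gx (T0 K V) x hx]
    rfl
  · show _ = χ x * ‖J x‖ ^ 2
    rw [gx (fun y => ‖J y‖ ^ 2) x hx, ← normSq_Jf K V hdet x]
    rfl

end

end Crest.Agent.R281.TI_671
end

-- ▼ part R281/TI4_671

/-!
# R281 (S0424), leaf S-T6-INST (helper671), part 4: sections, energy comparison

`s : Fin (N+1) → sections of Lb`, `O = {NZ s}`, `F_r = quo s · r`, `V = Vl A F = (eta s)ᵀ`.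
* `quo_eq`, `NZ_iff`, `isOpen_NZ`, `quo_hol`, `Vl_eq_eta`, `Jsq_eq` : `Jsq K s = |J|² = det Gram`;
* `T0_le` : `∑ |η_j|² ≤ 2 ∑_j (Dg u_j / u_j² + Dg u_0 / u_0²)`, `u_j = |s_j|²_h`;
* `exists_fields` : the fields of (T6') for the sections on a compact `B ⊆ {NZ s}`.
-/

set_option autoImplicit false
set_option linter.unusedSectionVars false

open Set Filter Topology Complex MeasureTheory
open scoped ContDiff Matrix ComplexConjugate ComplexOrder

namespace Crest.Agent.R281.TI_671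

open Crest.Agent.R275 Crest.Agent.R275.Geo Crest.Agent.R275.Core144 Crest.Agent.R275.EDR890
open Crest.Agent.R273.Defs_333 Crest.Agent.R273.Hess_333 Crest.Agent.R273.HessB_333
open Crest.Agent.R273.HM_333 hiding nsq
open Crest.Agent.R273.Kah_333 Crest.Agent.R273.Vol_333
open Crest.Agent.R273.Calc_243 Crest.Agent.R273.Bkn_243 Crest.Agent.R273.BKNa_37
open Crest.Agent.R273.BochA_101 Crest.Agent.R273.BochB_101 Crest.Agent.R273.BochC_101
open Crest.Agent.R273.BochD_101 Crest.Agent.R273.BochF_101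
open Crest.Agent.R273.FIa0_597 Crest.Agent.R273.FIb0_597 Crest.Agent.R273.FIc0_597
open Crest.Agent.R273.SchI_152 (Dg)
open Crest.Agent.R275.QN2b734 (SmP smP_of sm_iff tendsto_symm)
open Crest.Agent.R281.Bo1_815 Crest.Agent.R281.Bo2_815 Crest.Agent.R281.Glob1_484
open Crest.Agent.R281.SIn_14

noncomputable section

variable {n : ℕ} {M : Type} [TopologicalSpace M] {A : Atl n M} {Lb : LB A}
  {s : Fin (n + 1) → A.ι → M → ℂ}

/-! ### sections and quotients -/

theorem sec_tr (hs : ∀ j, IsHS Lb univ (s j)) {i : A.ι} {x : M} (hx : x ∈ (A.e i).source)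
    (j : Fin (n + 1)) : s j (ch A x) x = Lb.g (ch A x) i x * s j i x :=
  (hs j).tr _ i x ⟨mem_ch A x, hx⟩ (mem_univ x)

theorem NZ_iff (hs : ∀ j, IsHS Lb univ (s j)) {i : A.ι} {x : M} (hx : x ∈ (A.e i).source) :
    NZ s x ↔ ∀ j, s j i x ≠ 0 := by
  unfold NZ
  refine forall_congr' fun j => ?_
  rw [sec_tr hs hx j, mul_ne_zero_iff]
  exact ⟨fun h => h.2, fun h => ⟨Lb.ne_zero _ _ _, h⟩⟩

theorem quo_eq (hs : ∀ j, IsHS Lb univ (s j)) {i : A.ι} {x : M} (hx : x ∈ (A.e i).source)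
    (j : Fin n) : quo s x j = s j.succ i x / s 0 i x := by
  unfold quo
  rw [sec_tr hs hx, sec_tr hs hx, mul_div_mul_left _ _ (Lb.ne_zero _ _ _)]

theorem nsM_pos_iff (h : HM Lb) {x : M} (j : Fin (n + 1)) :
    0 < nsM h (s j) x ↔ s j (ch A x) x ≠ 0 := by
  have hp := h.pos _ x (mem_ch A x)
  unfold nsM Crest.Agent.R273.HM_333.nsq
  constructor
  · intro h0 h1
    rw [h1] at h0
    simp at h0
  · intro h0
    have := norm_pos_iff.2 h0
    positivity

theorem NZ_iff_pos (h : HM Lb) {x : M} :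
    NZ s x ↔ ∀ j, 0 < nsM h (s j) x :=
  forall_congr' fun j => (nsM_pos_iff h j).symm

theorem isOpen_NZ (h : HM Lb) (hs : ∀ j, IsHS Lb univ (s j)) : IsOpen {x : M | NZ s x} := by
  have h1 : {x : M | NZ s x} = ⋂ j, {x | 0 < nsM h (s j) x} := by
    ext x
    rw [Set.mem_ofPred_eq, NZ_iff_pos h, mem_iInter]
    rfl
  rw [h1]
  exact isOpen_iInter_of_finite fun j => isOpen_lt continuous_const (cont_sm (sm_nsM h (hs j)))

theorem quo_hol (hs : ∀ j, IsHS Lb univ (s j)) (r : Fin n) (i : A.ι) :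
    HolAt A i {x : M | NZ s x} (fun x => quo s x r) := by
  have h1 : HolAt A i {x : M | NZ s x} (s r.succ i) := ((hs r.succ).hol i).mono (subset_univ _)
  have h2 : HolAt A i {x : M | NZ s x} (s 0 i) := ((hs 0).hol i).mono (subset_univ _)
  refine (h1.mul (h2.inv fun x hx hxO => (NZ_iff hs hx).1 hxO 0)).congr fun x hx _ => ?_
  rw [quo_eq hs hx, div_eq_mul_inv]

theorem quo_ne {x : M} (hx : NZ s x) (r : Fin n) : quo s x r ≠ 0 :=
  div_ne_zero (hx _) (hx _)

/-- the log-differentials of the quotients -/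
def VS (s : Fin (n + 1) → A.ι → M → ℂ) : A.ι → M → Matrix (Fin n) (Fin n) ℂ :=
  Vl A fun r x => quo s x r

theorem hf_VS (h : HM Lb) (hs : ∀ j, IsHS Lb univ (s j)) : HF A {x : M | NZ s x} (VS s) :=
  hf_Vl (isOpen_NZ h hs) (fun r i => quo_hol hs r i) fun r _ hx => quo_ne hx r

theorem VS_eq_eta (h : HM Lb) (hs : ∀ j, IsHS Lb univ (s j)) {i : A.ι} {x : M}
    (hx : x ∈ (A.e i).source) (hO : NZ s x) : VS s i x = (eta s i x)ᵀ := by
  have h0 := (NZ_iff hs hx).1 hO
  ext a r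
  show dF A (fun x => quo s x r) i x a / quo s x r =
    pd A i (s r.succ i) x a / s r.succ i x - pd A i (s 0 i) x a / s 0 i x
  have hz := (A.e i).map_source hx
  have hF : DifferentiableAt ℂ (fun z => quo s ((A.e i).symm z) r) (A.e i x) :=
    (quo_hol hs r i).diffAt (isOpen_NZ h hs) hx hO
  have hs0 : DifferentiableAt ℂ (fun z => s 0 i ((A.e i).symm z)) (A.e i x) :=
    (hol_at (hs 0) i hz).self_of_nhds
  have e1 : (fun z => s r.succ i ((A.e i).symm z)) =ᶠ[𝓝 (A.e i x)]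
      fun z => quo s ((A.e i).symm z) r * s 0 i ((A.e i).symm z) := by
    filter_upwards [ev_O (isOpen_NZ h hs) i hx hO] with z hz
    have hz' := (A.e i).map_target hz.1
    rw [quo_eq hs hz', div_mul_cancel₀ _ ((NZ_iff hs hz').1 hz.2 0)]
  have e2 : pd A i (s r.succ i) x a = dF A (fun x => quo s x r) i x a * s 0 i x +
      quo s x r * pd A i (s 0 i) x a := by
    unfold pd dF
    rw [e1.fderiv_eq, fderiv_fun_mul hF hs0]
    simp only [_root_.add_apply, _root_.smul_apply, smul_eq_mul,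
      (A.e i).left_inv hx]
    ring
  rw [e2, quo_eq hs hx]
  have a1 := h0 0
  have a2 := h0 r.succ
  field_simp
  ring

theorem Jsq_eq (h : HM Lb) (hs : ∀ j, IsHS Lb univ (s j)) {K : Kah A} {om : A.ι → M → ℂ}
    (homn : ∀ i, ∀ x ∈ (A.e i).source, ‖om i x‖ ^ 2 = (K.g i x).det.re) {x : M} (hO : NZ s x) :
    ‖Jf (VS s) om x‖ ^ 2 = Jsq K s x := by
  unfold Jf Jsq
  rw [VS_eq_eta h hs (mem_ch A x) hO, Matrix.det_transpose, norm_div, div_pow,
    homn _ x (mem_ch A x)]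

theorem det_of_omn {K : Kah A} {om : A.ι → M → ℂ}
    (homn : ∀ i, ∀ x ∈ (A.e i).source, ‖om i x‖ ^ 2 = (K.g i x).det.re) :
    ∀ i, ∀ x ∈ (A.e i).source, (K.g i x).det = ((‖om i x‖ ^ 2 : ℝ) : ℂ) := by
  intro i x hx
  have h1 := (Complex.lt_def.1 (K.pos i x hx).det_pos).2
  rw [homn i x hx]
  exact Complex.ext rfl (by simpa using h1.symm)

/-! ### the gradient form -/

/-- `w^* g⁻¹ w` -/
def qv (G : Matrix (Fin n) (Fin n) ℂ) (w : Fin n → ℂ) : ℝ :=
  (G⁻¹ * Matrix.vecMulVec w (star w)).trace.re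

theorem qv_nonneg {G : Matrix (Fin n) (Fin n) ℂ} (hG : G.PosDef) (w : Fin n → ℂ) : 0 ≤ qv G w :=
  tr_re_nonneg hG (Matrix.posSemidef_vecMulVec_self_star _)

theorem qv_sub_le {G : Matrix (Fin n) (Fin n) ℂ} (hG : G.PosDef) (u w : Fin n → ℂ) :
    qv G (fun a => u a - w a) ≤ 2 * qv G u + 2 * qv G w := by
  have h1 := qv_nonneg hG (fun a => u a + w a)
  have h2 : qv G (fun a => u a - w a) + qv G (fun a => u a + w a) = 2 * qv G u + 2 * qv G w := by
    have e : G⁻¹ * Matrix.vecMulVec (fun a => u a - w a) (star fun a => u a - w a) +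
        G⁻¹ * Matrix.vecMulVec (fun a => u a + w a) (star fun a => u a + w a) =
        ((2 : ℝ) : ℂ) • (G⁻¹ * Matrix.vecMulVec u (star u)) +
          ((2 : ℝ) : ℂ) • (G⁻¹ * Matrix.vecMulVec w (star w)) := by
      rw [← Matrix.mul_add, ← Matrix.mul_smul, ← Matrix.mul_smul, ← Matrix.mul_add]
      congr 1
      ext a b
      simp only [Matrix.add_apply, Matrix.vecMulVec_apply, Matrix.smul_apply, Pi.star_apply,
        star_sub, star_add, smul_eq_mul]
      push_cast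
      ring
    unfold qv
    rw [← Complex.add_re, ← Matrix.trace_add, e, Matrix.trace_add, Matrix.trace_smul,
      Matrix.trace_smul, smul_eq_mul, smul_eq_mul, Complex.add_re, Complex.re_ofReal_mul,
      Complex.re_ofReal_mul]
  linarith

theorem qv_smul (G : Matrix (Fin n) (Fin n) ℂ) (c : ℝ) (w : Fin n → ℂ) :
    qv G (fun a => (c : ℂ) * w a) = c ^ 2 * qv G w := by
  have e : Matrix.vecMulVec (fun a => (c : ℂ) * w a) (star fun a => (c : ℂ) * w a) =
      ((c ^ 2 : ℝ) : ℂ) • Matrix.vecMulVec w (star w) := by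
    ext a b
    simp only [Matrix.vecMulVec_apply, Matrix.smul_apply, Pi.star_apply, star_mul',
      RCLike.star_def, Complex.conj_ofReal, smul_eq_mul]
    push_cast
    ring
  unfold qv
  rw [e, Matrix.mul_smul, Matrix.trace_smul, smul_eq_mul, Complex.re_ofReal_mul]

theorem T0_eq_sum (K : Kah A) {ρ : Type} [Fintype ρ] [DecidableEq ρ]
    (V : A.ι → M → Matrix (Fin n) ρ ℂ) (x : M) :
    T0 K V x = ∑ r, qv (K.g (ch A x) x) (fun a => V (ch A x) x a r) := by
  unfold T0 gM gm qv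
  rw [Matrix.mul_assoc, Matrix.trace_mul_comm, Matrix.mul_assoc]
  have e : V (ch A x) x * (V (ch A x) x)ᴴ =
      ∑ r, Matrix.vecMulVec (fun a => V (ch A x) x a r) (star fun a => V (ch A x) x a r) := by
    ext a b
    rw [Matrix.mul_apply, Matrix.sum_apply]
    refine Finset.sum_congr rfl fun r _ => ?_
    rw [Matrix.vecMulVec_apply, Matrix.conjTranspose_apply]
    rfl
  rw [e, Matrix.mul_sum, Matrix.trace_sum, Complex.re_sum]

theorem gq_eq_qv (K : Kah A) (u : M → ℝ) (i : A.ι) (x : M) :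
    gq K u i x = qv (K.g i x) (gr (fun z => u ((A.e i).symm z)) (A.e i x)) := rfl

/-- `∂ log |f|² = f' / f` -/
theorem gr_log_normSq {f : Cn n → ℂ} {z : Cn n} (hf : DifferentiableAt ℂ f z) (h0 : f z ≠ 0)
    (a : Fin n) : gr (fun w => Real.log (‖f w‖ ^ 2)) z a =
      fderiv ℂ f z (EuclideanSpace.single a 1) / f z := by
  have h1 : HasFDerivAt f ((fderiv ℂ f z).restrictScalars ℝ) z :=
    hf.hasFDerivAt.restrictScalars ℝ
  have hn : ‖f z‖ ^ 2 ≠ 0 := pow_ne_zero 2 (norm_ne_zero_iff.2 h0)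
  have h2 := (h1.norm_sq).log hn
  have h3 : HasFDerivAt (cu fun w => Real.log (‖f w‖ ^ 2)) _ z :=
    Complex.ofRealCLM.hasFDerivAt.comp z h2
  have hv : ∀ v, fderiv ℝ (cu fun w => Real.log (‖f w‖ ^ 2)) z v =
      ((2 * (fderiv ℂ f z v / f z).re : ℝ) : ℂ) := by
    intro v
    rw [h3.fderiv]
    simp only [ContinuousLinearMap.comp_apply, Complex.ofRealCLM_apply,
      _root_.smul_apply, smul_eq_mul, innerSL_apply_apply,
      ContinuousLinearMap.coe_restrictScalars', Complex.inner]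
    congr 1
    have h4 : (fderiv ℂ f z v / f z).re = (conj (f z) * fderiv ℂ f z v).re / ‖f z‖ ^ 2 := by
      have h5 : fderiv ℂ f z v / f z = (conj (f z) * fderiv ℂ f z v) / ((‖f z‖ ^ 2 : ℝ) : ℂ) := by
        have h6 : ((‖f z‖ ^ 2 : ℝ) : ℂ) = conj (f z) * f z := by
          rw [Complex.conj_mul']
          push_cast
          rfl
        rw [h6, mul_div_mul_left]
        exact (map_ne_zero _).2 h0
      rw [h5, Complex.div_ofReal_re]
    rw [h4]
    have h7 : (conj (f z) * fderiv ℂ f z v).re = (fderiv ℂ f z v * conj (f z)).re := by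
      rw [mul_comm]
    field_simp
    simp [mul_comm]
    ring
  unfold gr
  rw [wd_eq_dS]
  unfold dS
  rw [hv, hv, single_I, map_smul, smul_eq_mul, mul_div_assoc]
  set w := fderiv ℂ f z (EuclideanSpace.single a 1) / f z
  apply Complex.ext <;> simp

theorem gr_log {u : Cn n → ℝ} {z : Cn n} (hu : DifferentiableAt ℝ u z) (h0 : 0 < u z)
    (a : Fin n) : gr (fun w => Real.log (u w)) z a = (((u z)⁻¹ : ℝ) : ℂ) * gr u z a :=
  wd_comp_real (false, a) hu (Real.hasDerivAt_log h0.ne')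

theorem gr_add {u v : Cn n → ℝ} {z : Cn n} (hu : DifferentiableAt ℝ u z)
    (hv : DifferentiableAt ℝ v z) (a : Fin n) :
    gr (fun w => u w + v w) z a = gr u z a + gr v z a := by
  have h1 : DifferentiableAt ℝ (cu u) z := Complex.ofRealCLM.differentiableAt.comp z hu
  have h2 : DifferentiableAt ℝ (cu v) z := Complex.ofRealCLM.differentiableAt.comp z hv
  have h3 : cu (fun w => u w + v w) = fun w => cu u w + cu v w := by
    funext w
    simp [cu]
  unfold gr
  rw [h3, wd_add h1 h2]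

/-- `η_r = ∂ log u_{r+1} - ∂ log u_0` -/
theorem VS_gr (h : HM Lb) (hs : ∀ j, IsHS Lb univ (s j)) {x : M} (hO : NZ s x) (r a : Fin n) :
    VS s (ch A x) x a r =
      (((nsM h (s r.succ) x)⁻¹ : ℝ) : ℂ) *
        gr (fun z => nsM h (s r.succ) ((A.e (ch A x)).symm z)) (A.e (ch A x) x) a -
      (((nsM h (s 0) x)⁻¹ : ℝ) : ℂ) *
        gr (fun z => nsM h (s 0) ((A.e (ch A x)).symm z)) (A.e (ch A x) x) a := by
  set i := ch A x with hi
  have hx : x ∈ (A.e i).source := mem_ch A x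
  have hxx := (A.e i).left_inv hx
  have hpos := (NZ_iff_pos h).1 hO
  have hu : ∀ j, DifferentiableAt ℝ (fun z => nsM h (s j) ((A.e i).symm z)) (A.e i x) := fun j =>
    (sm_at (sm_nsM h (hs j)) hx).differentiableAt (by simp)
  have hF : DifferentiableAt ℂ (fun z => quo s ((A.e i).symm z) r) (A.e i x) :=
    (quo_hol hs r i).diffAt (isOpen_NZ h hs) hx hO
  have hF0 : quo s ((A.e i).symm (A.e i x)) r ≠ 0 := by rw [hxx]; exact quo_ne hO r
  have hlF : DifferentiableAt ℝ (fun z => Real.log (‖quo s ((A.e i).symm z) r‖ ^ 2)) (A.e i x) :=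
    (((hF.restrictScalars ℝ).norm_sq ℝ)).log (pow_ne_zero 2 (norm_ne_zero_iff.2 hF0))
  have hl0 : DifferentiableAt ℝ (fun z => Real.log (nsM h (s 0) ((A.e i).symm z))) (A.e i x) :=
    (hu 0).log (by rw [hxx]; exact (hpos 0).ne')
  have e1 : (fun z => Real.log (nsM h (s r.succ) ((A.e i).symm z))) =ᶠ[𝓝 (A.e i x)]
      fun z => Real.log (‖quo s ((A.e i).symm z) r‖ ^ 2) +
        Real.log (nsM h (s 0) ((A.e i).symm z)) := by
    filter_upwards [ev_O (isOpen_NZ h hs) i hx hO] with z hz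
    have hz' := (A.e i).map_target hz.1
    have hnz := (NZ_iff hs hz').1 hz.2
    have hp := h.pos i _ hz'
    have hne : quo s ((A.e i).symm z) r ≠ 0 := quo_ne hz.2 r
    rw [nsM_eq h (hs _) hz', nsM_eq h (hs _) hz', Crest.Agent.R273.HM_333.nsq,
      Crest.Agent.R273.HM_333.nsq, ← Real.log_mul (pow_ne_zero 2 (norm_ne_zero_iff.2 hne))
      (mul_ne_zero (pow_ne_zero 2 (norm_ne_zero_iff.2 (hnz 0))) hp.ne'), quo_eq hs hz', norm_div,
      div_pow]
    congr 1
    have := norm_ne_zero_iff.2 (hnz 0)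
    field_simp
  have e2 : gr (fun z => Real.log (nsM h (s r.succ) ((A.e i).symm z))) (A.e i x) a =
      gr (fun z => Real.log (‖quo s ((A.e i).symm z) r‖ ^ 2) +
        Real.log (nsM h (s 0) ((A.e i).symm z))) (A.e i x) a := by
    have h2 : cu (fun z => Real.log (nsM h (s r.succ) ((A.e i).symm z))) =ᶠ[𝓝 (A.e i x)]
        cu (fun z => Real.log (‖quo s ((A.e i).symm z) r‖ ^ 2) +
        Real.log (nsM h (s 0) ((A.e i).symm z))) := by
      filter_upwards [e1] with z hz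
      exact congrArg (fun t : ℝ => (t : ℂ)) hz
    exact wd_congr h2 (false, a)
  rw [gr_add hlF hl0, gr_log (hu _) (by rw [hxx]; exact hpos _),
    gr_log (hu _) (by rw [hxx]; exact hpos _), gr_log_normSq hF hF0, hxx] at e2
  rw [e2]
  have e3 : VS s i x a r = fderiv ℂ (fun z => quo s ((A.e i).symm z) r) (A.e i x)
      (EuclideanSpace.single a 1) / quo s x r := rfl
  rw [e3]
  ring

/-- **energy comparison** -/
theorem T0_le (K : Kah A) (h : HM Lb) (hs : ∀ j, IsHS Lb univ (s j)) {x : M} (hO : NZ s x) :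
    T0 K (VS s) x ≤ ∑ r : Fin n, (2 * (Dg K (nsM h (s r.succ)) x / nsM h (s r.succ) x ^ 2) +
      2 * (Dg K (nsM h (s 0)) x / nsM h (s 0) x ^ 2)) := by
  rw [T0_eq_sum]
  refine Finset.sum_le_sum fun r _ => ?_
  have hx := mem_ch A x
  have h1 : (fun a => VS s (ch A x) x a r) = fun a =>
      (fun a => (((nsM h (s r.succ) x)⁻¹ : ℝ) : ℂ) *
        gr (fun z => nsM h (s r.succ) ((A.e (ch A x)).symm z)) (A.e (ch A x) x) a) a -
      (fun a => (((nsM h (s 0) x)⁻¹ : ℝ) : ℂ) *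
        gr (fun z => nsM h (s 0) ((A.e (ch A x)).symm z)) (A.e (ch A x) x) a) a := by
    funext a
    exact VS_gr h hs hO r a
  rw [h1]
  refine (qv_sub_le (K.pos _ x hx) _ _).trans (le_of_eq ?_)
  rw [qv_smul, qv_smul, ← gq_eq_qv, ← gq_eq_qv, ← Dg_eq K (sm_nsM h (hs _)) hx,
    ← Dg_eq K (sm_nsM h (hs _)) hx]
  simp only [div_eq_mul_inv, inv_pow]
  ring

/-- **the fields of (T6')** -/
theorem exists_fields [T2Space M] {K : Kah A} (h : HM Lb) (hs : ∀ j, IsHS Lb univ (s j))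
    {om : A.ι → M → ℂ} (homh : IsHS (KB A) univ om)
    (homn : ∀ i, ∀ x ∈ (A.e i).source, ‖om i x‖ ^ 2 = (K.g i x).det.re)
    {B : Set M} (hB : IsCompact B) (hBO : ∀ x ∈ B, NZ s x) :
    ∃ T P q a b : M → ℝ, T6F K B (VS s) om T P q a b ∧ (∀ x ∈ B, q x = Jsq K s x) ∧
      ∀ x ∈ B, T x ≤ ∑ r : Fin n, (2 * (Dg K (nsM h (s r.succ)) x / nsM h (s r.succ) x ^ 2) +
        2 * (Dg K (nsM h (s 0)) x / nsM h (s 0) x ^ 2)) := by
  obtain ⟨T, P, q, a, b, hT⟩ := exists_T6F (isOpen_NZ h hs) (hf_VS h hs) homh (det_of_omn homn)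
    hB hBO
  refine ⟨T, P, q, a, b, hT, fun x hx => ?_, fun x hx => ?_⟩
  · rw [hT.q_J x hx, Jsq_eq h hs homn (hBO x hx)]
  · rw [← hT.T_tr x hx]
    exact T0_le K h hs (hBO x hx)

end

end Crest.Agent.R281.TI_671
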