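import Crest.Agent.R273.YauSchF_635
import Crest.Agent.R273.YauPf_635
import Crest.Agent.R281.LioC3_346

-- ▼ part R281/LioA_346
section

/-!
# R281 (S0424), leaf S-T7, part 2 (helper346): uniform families of smooth functions

All families live on `ball 0 1` of `Cn n` and the estimates on `ball 0 (1/2)`.

* `Sf F`      : smooth on the unit ball
* `UH m F`    : uniform `C^{m,1/2}` bounds on every `closedBall 0 ρ`, `ρ < 1/2`
* closure of `UH m` under sums, products, directional derivatives, inverse matrices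
-/

set_option autoImplicit false
set_option linter.unusedSectionVars false

open Set Filter Topology Complex Metric
open scoped ContDiff Matrix ComplexConjugate

namespace Crest.Agent.R281.LioA_346

open Crest.Agent.R275.Geo Crest.Agent.R273.SchA_152 Crest.Agent.R273.YauSchF_635
  Crest.Agent.R273.YauQ_635

noncomputable section

variable {n : ℕ} {ι : Type}

/-- smooth family -/
def Sf (F : ι → Cn n → ℂ) : Prop := ∀ i, ContDiffOn ℝ ∞ (F i) (ball 0 1)

/-- uniform local Hölder bound in `ball 0 (1/2)` -/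
def H0 (F : ι → Cn n → ℂ) : Prop :=
  ∀ ρ : ℝ, 0 < ρ → ρ < 1 / 2 → ∃ M : ℝ, 0 ≤ M ∧ ∀ i, HO (1 / 2) M (closedBall 0 ρ) (F i)

/-- directional derivative -/
def dv (v : Cn n) (F : ι → Cn n → ℂ) : ι → Cn n → ℂ := fun i z => fderiv ℝ (F i) z v

/-- uniform `C^{m,1/2}` bounds -/
def UH : ℕ → (ι → Cn n → ℂ) → Prop
  | 0, F => H0 F
  | m + 1, F => H0 F ∧ ∀ v, UH m (dv v F)

/-! ### smoothness -/

theorem Sf.at {F : ι → Cn n → ℂ} (h : Sf F) (i : ι) {z : Cn n} (hz : z ∈ ball (0 : Cn n) 1) :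
    ContDiffAt ℝ ∞ (F i) z := (h i).contDiffAt (isOpen_ball.mem_nhds hz)

theorem Sf.diff {F : ι → Cn n → ℂ} (h : Sf F) (i : ι) {z : Cn n} (hz : z ∈ ball (0 : Cn n) 1) :
    DifferentiableAt ℝ (F i) z := (h.at i hz).differentiableAt (by simp)

theorem Sf.dv {F : ι → Cn n → ℂ} (h : Sf F) (v : Cn n) : Sf (dv v F) := fun i =>
  ((h i).fderiv_of_isOpen (m := ∞) isOpen_ball (by simp)).clm_apply contDiffOn_const

theorem Sf.congr {F G : ι → Cn n → ℂ} (h : Sf F)
    (e : ∀ i, ∀ z ∈ ball (0 : Cn n) 1, G i z = F i z) : Sf G := fun i => (h i).congr (e i)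

theorem Sf.add {F G : ι → Cn n → ℂ} (h : Sf F) (h' : Sf G) : Sf (fun i z => F i z + G i z) :=
  fun i => (h i).add (h' i)

theorem Sf.mul {F G : ι → Cn n → ℂ} (h : Sf F) (h' : Sf G) : Sf (fun i z => F i z * G i z) :=
  fun i => (h i).mul (h' i)

theorem Sf.const (c : ι → ℂ) : Sf (fun i (_ : Cn n) => c i) := fun _ => contDiffOn_const

theorem Sf.sum {κ : Type*} (s : Finset κ) {F : κ → ι → Cn n → ℂ} (h : ∀ k ∈ s, Sf (F k)) :
    Sf (fun i z => ∑ k ∈ s, F k i z) := fun i => ContDiffOn.sum fun k hk => h k hk i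

/-! ### Hölder -/

theorem H0.congr {F G : ι → Cn n → ℂ} (h : H0 F)
    (e : ∀ i, ∀ z ∈ ball (0 : Cn n) (1 / 2), G i z = F i z) : H0 G := fun ρ h0 h1 => by
  obtain ⟨M, hM, H⟩ := h ρ h0 h1
  exact ⟨M, hM, fun i => (H i).congr fun z hz => e i z (closedBall_subset_ball h1 hz)⟩

theorem H0.add {F G : ι → Cn n → ℂ} (h : H0 F) (h' : H0 G) : H0 (fun i z => F i z + G i z) :=
  fun ρ h0 h1 => by
  obtain ⟨M, hM, H⟩ := h ρ h0 h1
  obtain ⟨N, hN, H'⟩ := h' ρ h0 h1
  exact ⟨M + N, add_nonneg hM hN, fun i => (H i).add (H' i)⟩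

theorem H0.mul {F G : ι → Cn n → ℂ} (h : H0 F) (h' : H0 G) : H0 (fun i z => F i z * G i z) :=
  fun ρ h0 h1 => by
  obtain ⟨M, hM, H⟩ := h ρ h0 h1
  obtain ⟨N, hN, H'⟩ := h' ρ h0 h1
  exact ⟨2 * M * N, by positivity, fun i => ho_mul hM hN (H i) (H' i)⟩

theorem H0.const (c : ℂ) : H0 (fun (_ : ι) (_ : Cn n) => c) := fun ρ _ _ =>
  ⟨‖c‖, norm_nonneg _, fun _ => ⟨fun _ _ => le_rfl, fun x _ y _ => by
    rw [sub_self, norm_zero]
    exact mul_nonneg (norm_nonneg _) (Real.rpow_nonneg (norm_nonneg _) _)⟩⟩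

theorem H0.sum {κ : Type*} (s : Finset κ) {F : κ → ι → Cn n → ℂ} (h : ∀ k ∈ s, H0 (F k)) :
    H0 (fun i z => ∑ k ∈ s, F k i z) := by
  classical
  induction s using Finset.induction_on with
  | empty => simpa using H0.const 0
  | insert k s hk ih =>
    have h1 := (h k (Finset.mem_insert_self k s)).add
      (ih fun j hj => h j (Finset.mem_insert_of_mem hj))
    simpa only [Finset.sum_insert hk] using h1

/-! ### `UH` -/

theorem UH.h0 {m : ℕ} {F : ι → Cn n → ℂ} (h : UH m F) : H0 F := by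
  cases m with
  | zero => exact h
  | succ m => exact h.1

theorem UH.dv {m : ℕ} {F : ι → Cn n → ℂ} (h : UH (m + 1) F) (v : Cn n) : UH m (dv v F) := h.2 v

theorem UH.of_succ {m : ℕ} {F : ι → Cn n → ℂ} (h : UH (m + 1) F) : UH m F := by
  induction m generalizing F with
  | zero => exact h.1
  | succ m ih => exact ⟨h.1, fun v => ih (h.2 v)⟩

theorem UH.of_le {m k : ℕ} {F : ι → Cn n → ℂ} (h : UH m F) (hk : k ≤ m) : UH k F := by
  induction m with
  | zero =>
    rw [Nat.le_zero] at hk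
    exact hk ▸ h
  | succ m ih =>
    rcases Nat.lt_or_ge k (m + 1) with h1 | h1
    · exact ih h.of_succ (by omega)
    · have : k = m + 1 := by omega
      exact this ▸ h

theorem dv_congr {F G : ι → Cn n → ℂ} (e : ∀ i, ∀ z ∈ ball (0 : Cn n) 1, G i z = F i z)
    (v : Cn n) : ∀ i, ∀ z ∈ ball (0 : Cn n) 1, dv v G i z = dv v F i z := fun i z hz => by
  have h1 : G i =ᶠ[𝓝 z] F i := Filter.eventually_of_mem (isOpen_ball.mem_nhds hz) (e i)
  show fderiv ℝ (G i) z v = fderiv ℝ (F i) z v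
  rw [h1.fderiv_eq]

theorem sub_half {z : Cn n} (hz : z ∈ ball (0 : Cn n) (1 / 2)) : z ∈ ball (0 : Cn n) 1 :=
  ball_subset_ball (by norm_num) hz

theorem UH.congr {m : ℕ} {F G : ι → Cn n → ℂ} (h : UH m F)
    (e : ∀ i, ∀ z ∈ ball (0 : Cn n) 1, G i z = F i z) : UH m G := by
  induction m generalizing F G with
  | zero => exact H0.congr h fun i z hz => e i z (sub_half hz)
  | succ m ih =>
    exact ⟨H0.congr h.1 fun i z hz => e i z (sub_half hz), fun v => ih (h.2 v) (dv_congr e v)⟩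

theorem UH.add {m : ℕ} {F G : ι → Cn n → ℂ} (sF : Sf F) (sG : Sf G) (h : UH m F) (h' : UH m G) :
    UH m (fun i z => F i z + G i z) := by
  induction m generalizing F G with
  | zero => exact H0.add h h'
  | succ m ih =>
    refine ⟨H0.add h.1 h'.1, fun v => ?_⟩
    refine (ih (sF.dv v) (sG.dv v) (h.2 v) (h'.2 v)).congr fun i z hz => ?_
    show fderiv ℝ (fun z => F i z + G i z) z v = _
    rw [fderiv_fun_add (sF.diff i hz) (sG.diff i hz)]
    rfl

theorem UH.mul {m : ℕ} {F G : ι → Cn n → ℂ} (sF : Sf F) (sG : Sf G) (h : UH m F) (h' : UH m G) :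
    UH m (fun i z => F i z * G i z) := by
  induction m generalizing F G with
  | zero => exact H0.mul h h'
  | succ m ih =>
    refine ⟨H0.mul h.1 h'.1, fun v => ?_⟩
    have h1 := ih sF (sG.dv v) h.of_succ (h'.2 v)
    have h2 := ih (sF.dv v) sG (h.2 v) h'.of_succ
    refine (UH.add (sF.mul (sG.dv v)) ((sF.dv v).mul sG) h1 h2).congr fun i z hz => ?_
    show fderiv ℝ (fun z => F i z * G i z) z v = _
    rw [fderiv_fun_mul (sF.diff i hz) (sG.diff i hz)]
    simp only [_root_.add_apply, _root_.smul_apply, smul_eq_mul]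
    show F i z * LioA_346.dv v G i z + G i z * LioA_346.dv v F i z = _
    ring

theorem UH.const (m : ℕ) (c : ℂ) : UH m (fun (_ : ι) (_ : Cn n) => c) := by
  induction m generalizing c with
  | zero => exact H0.const c
  | succ m ih =>
    refine ⟨H0.const c, fun v => (ih 0).congr fun i z _ => ?_⟩
    show fderiv ℝ (fun _ : Cn n => c) z v = 0
    simp

theorem UH.sum {m : ℕ} {κ : Type*} (s : Finset κ) {F : κ → ι → Cn n → ℂ}
    (hs : ∀ k ∈ s, Sf (F k)) (h : ∀ k ∈ s, UH m (F k)) : UH m (fun i z => ∑ k ∈ s, F k i z) := by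
  classical
  induction s using Finset.induction_on with
  | empty => simpa using UH.const m 0
  | insert k s hk ih =>
    have h1 := UH.add (hs k (Finset.mem_insert_self k s))
      (Sf.sum s fun j hj => hs j (Finset.mem_insert_of_mem hj)) (h k (Finset.mem_insert_self k s))
      (ih (fun j hj => hs j (Finset.mem_insert_of_mem hj))
        fun j hj => h j (Finset.mem_insert_of_mem hj))
    simpa only [Finset.sum_insert hk] using h1

theorem UH.const_mul {m : ℕ} {F : ι → Cn n → ℂ} (sF : Sf F) (h : UH m F) (c : ℂ) :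
    UH m (fun i z => c * F i z) := UH.mul (Sf.const fun _ => c) sF (UH.const m c) h

theorem UH.sub {m : ℕ} {F G : ι → Cn n → ℂ} (sF : Sf F) (sG : Sf G) (h : UH m F) (h' : UH m G) :
    UH m (fun i z => F i z - G i z) := by
  have h1 := UH.add sF ((Sf.const fun _ => (-1 : ℂ)).mul sG) h (h'.const_mul sG (-1))
  refine h1.congr fun i z _ => ?_
  ring

/-! ### matrices -/

/-- families of matrices -/
abbrev MF (ι : Type) (n : ℕ) : Type := ι → Cn n → Matrix (Fin n) (Fin n) ℂ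

/-- entries -/
def en (A : MF ι n) (a b : Fin n) : ι → Cn n → ℂ := fun i z => A i z a b

/-- directional derivative of a matrix family -/
def dm (v : Cn n) (A : MF ι n) : MF ι n := fun i z => Matrix.of fun a b => dv v (en A a b) i z

def SM (A : MF ι n) : Prop := ∀ a b, Sf (en A a b)

def UM (m : ℕ) (A : MF ι n) : Prop := ∀ a b, UH m (en A a b)

theorem SM.dm {A : MF ι n} (h : SM A) (v : Cn n) : SM (dm v A) := fun a b => (h a b).dv v

theorem UM.dm {m : ℕ} {A : MF ι n} (h : UM (m + 1) A) (v : Cn n) : UM m (dm v A) :=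
  fun a b => (h a b).dv v

theorem UM.of_succ {m : ℕ} {A : MF ι n} (h : UM (m + 1) A) : UM m A := fun a b => (h a b).of_succ

theorem SM.mul {A B : MF ι n} (h : SM A) (h' : SM B) : SM (fun i z => A i z * B i z) :=
  fun a b => by
  have h1 := Sf.sum Finset.univ fun c (_ : c ∈ Finset.univ) => (h a c).mul (h' c b)
  exact h1

theorem UM.mul {m : ℕ} {A B : MF ι n} (sA : SM A) (sB : SM B) (h : UM m A) (h' : UM m B) :
    UM m (fun i z => A i z * B i z) := fun a b =>
  UH.sum Finset.univ (fun c _ => (sA a c).mul (sB c b))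
    (fun c _ => UH.mul (sA a c) (sB c b) (h a c) (h' c b))

theorem SM.tr {A : MF ι n} (h : SM A) : Sf (fun i z => (A i z).trace) :=
  Sf.sum Finset.univ fun c _ => h c c

theorem UM.tr {m : ℕ} {A : MF ι n} (sA : SM A) (h : UM m A) : UH m (fun i z => (A i z).trace) :=
  UH.sum Finset.univ (fun c _ => sA c c) fun c _ => h c c

theorem UM.congr {m : ℕ} {A B : MF ι n} (h : UM m A)
    (e : ∀ i, ∀ z ∈ ball (0 : Cn n) 1, B i z = A i z) : UM m B := fun a b =>
  (h a b).congr fun i z hz => by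
    show B i z a b = A i z a b
    rw [e i z hz]

theorem dm_mul {A B : MF ι n} (sA : SM A) (sB : SM B) (v : Cn n) (i : ι) {z : Cn n}
    (hz : z ∈ ball (0 : Cn n) 1) :
    dm v (fun i z => A i z * B i z) i z = dm v A i z * B i z + A i z * dm v B i z := by
  ext a b
  have hd : ∀ c ∈ (Finset.univ : Finset (Fin n)), DifferentiableAt ℝ
      (fun z => en A a c i z * en B c b i z) z := fun c _ =>
    ((sA a c).diff i hz).mul ((sB c b).diff i hz)
  show fderiv ℝ (fun z => ∑ c, en A a c i z * en B c b i z) z v = _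
  rw [fderiv_fun_sum hd, Matrix.add_apply, Matrix.mul_apply, Matrix.mul_apply,
    ← Finset.sum_add_distrib, _root_.sum_apply]
  refine Finset.sum_congr rfl fun c _ => ?_
  rw [fderiv_fun_mul ((sA a c).diff i hz) ((sB c b).diff i hz)]
  simp only [_root_.add_apply, _root_.smul_apply, smul_eq_mul]
  show A i z a c * dv v (en B c b) i z + B i z c b * dv v (en A a c) i z
    = dv v (en A a c) i z * B i z c b + A i z a c * dv v (en B c b) i z
  ring

theorem dm_tr {A : MF ι n} (sA : SM A) (v : Cn n) (i : ι) {z : Cn n}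
    (hz : z ∈ ball (0 : Cn n) 1) : dv v (fun i z => (A i z).trace) i z = (dm v A i z).trace := by
  have hd : ∀ c ∈ (Finset.univ : Finset (Fin n)), DifferentiableAt ℝ
      (fun z => en A c c i z) z := fun c _ => (sA c c).diff i hz
  show fderiv ℝ (fun z => ∑ c, en A c c i z) z v = _
  rw [fderiv_fun_sum hd, _root_.sum_apply]
  rfl

/-- derivative of the inverse -/
theorem dm_inv {A G : MF ι n} (sA : SM A) (sG : SM G)
    (h1 : ∀ i, ∀ z ∈ ball (0 : Cn n) 1, A i z * G i z = 1) (v : Cn n) (i : ι)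
    {z : Cn n} (hz : z ∈ ball (0 : Cn n) 1) :
    dm v G i z = (fun i z => (-1 : ℂ) • (G i z * dm v A i z * G i z)) i z := by
  have h2 : dm v A i z * G i z + A i z * dm v G i z = 0 := by
    rw [← dm_mul sA sG v i hz]
    ext a b
    have := dv_congr (F := fun _ _ => (1 : Matrix (Fin n) (Fin n) ℂ) a b)
      (G := en (fun i z => A i z * G i z) a b) (fun i z hz => by
        show (A i z * G i z) a b = _
        rw [h1 i z hz]) v i z hz
    show dv v (en (fun i z => A i z * G i z) a b) i z = 0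
    rw [this]
    show fderiv ℝ (fun _ : Cn n => _) z v = 0
    simp
  have h3 : G i z * A i z = 1 := mul_eq_one_comm.1 (h1 i z hz)
  have h4 : G i z * (dm v A i z * G i z + A i z * dm v G i z) = 0 := by rw [h2, mul_zero]
  rw [mul_add, ← mul_assoc (G i z) (A i z), h3, one_mul] at h4
  show dm v G i z = (-1 : ℂ) • (G i z * dm v A i z * G i z)
  rw [neg_smul, one_smul, mul_assoc]
  exact eq_neg_of_add_eq_zero_right h4

theorem UM.smul {m : ℕ} {A : MF ι n} (sA : SM A) (h : UM m A) (c : ℂ) :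
    UM m (fun i z => c • A i z) := fun a b => (h a b).const_mul (sA a b) c

theorem SM.smul {A : MF ι n} (h : SM A) (c : ℂ) : SM (fun i z => c • A i z) :=
  fun a b => (Sf.const fun _ => c).mul (h a b)

/-- regularity of the inverse -/
theorem UM.inv {m : ℕ} {A G : MF ι n} (sA : SM A) (sG : SM G)
    (h1 : ∀ i, ∀ z ∈ ball (0 : Cn n) 1, A i z * G i z = 1) (hA : UM m A) (hG : UM 0 G) :
    UM m G := by
  induction m with
  | zero => exact hG
  | succ m ih =>
    have hG' := ih hA.of_succ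
    refine fun a b => ⟨hG a b, fun v => ?_⟩
    have h2 : UM m (fun i z => (-1 : ℂ) • (G i z * LioA_346.dm v A i z * G i z)) :=
      UM.smul ((sG.mul (sA.dm v)).mul sG)
        (UM.mul (sG.mul (sA.dm v)) sG (UM.mul sG (sA.dm v) hG' (hA.dm v)) hG') _
    have h3 : UM m (LioA_346.dm v G) := h2.congr fun i z hz => dm_inv sA sG h1 v i hz
    exact h3 a b

/-! ### from `UH` to iterated derivatives -/

theorem iter_succ {F : ι → Cn n → ℂ} (sF : Sf F) (i : ι) {z : Cn n}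
    (hz : z ∈ ball (0 : Cn n) 1) (k : ℕ) (v : Fin (k + 1) → Cn n) :
    iteratedFDeriv ℝ (k + 1) (F i) z v
      = iteratedFDeriv ℝ k (dv (v (Fin.last k)) F i) z (Fin.init v) := by
  have h1 : ContDiffOn ℝ k (fderiv ℝ (F i)) (ball 0 1) :=
    ((sF i).fderiv_of_isOpen (m := ∞) isOpen_ball (by simp)).of_le (by exact_mod_cast le_top)
  have h2 := iteratedFDerivWithin_clm_apply_const_apply (isOpen_ball.uniqueDiffOn) h1 le_rfl hz
    (u := v (Fin.last k)) (m := Fin.init v)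
  rw [iteratedFDerivWithin_of_isOpen k isOpen_ball hz,
    iteratedFDerivWithin_of_isOpen k isOpen_ball hz] at h2
  rw [iteratedFDeriv_succ_apply_right]
  exact h2.symm

theorem UH.iter {k : ℕ} {F : ι → Cn n → ℂ} (sF : Sf F) (h : UH k F) (v : Fin k → Cn n) :
    ∃ M, ∀ i, ‖iteratedFDeriv ℝ k (F i) 0 v‖ ≤ M := by
  induction k generalizing F with
  | zero =>
    obtain ⟨M, _, H⟩ := h (1 / 4) (by norm_num) (by norm_num)
    refine ⟨M, fun i => ?_⟩
    rw [iteratedFDeriv_zero_apply]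
    exact (H i).bdd 0 (by simp)
  | succ k ih =>
    obtain ⟨M, H⟩ := ih (sF.dv (v (Fin.last k))) (h.2 _) (Fin.init v)
    refine ⟨M, fun i => ?_⟩
    rw [iter_succ sF i (by simp) k v]
    exact H i

end

end Crest.Agent.R281.LioA_346
end

-- ▼ part R281/LioB_346
section

/-!
# R281 (S0424), leaf S-T7, part 3 (helper346): point picking and Schauder for families

* `cH_sc`     : complex Hessian of `z ↦ u (c + R z) - k`
* `point_pick`: semilinear elliptic systems with natural growth: from `|W|, |DW|` bounded to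
                `|D²W|` bounded
-/

set_option autoImplicit false
set_option linter.unusedSectionVars false

open Set Filter Topology Complex Metric
open scoped ContDiff Matrix ComplexConjugate

namespace Crest.Agent.R281.LioB_346

open Crest.Agent.R275.Geo Crest.Agent.R273.SchA_152 Crest.Agent.R273.YauSchF_635
  Crest.Agent.R273.YauQ_635 Crest.Agent.R273.SchE_152 Crest.Agent.R273.SchD_152
  Crest.Agent.R273.YauDefs_635 Crest.Agent.R281.LioA_346 Crest.Agent.R281.LioC3_346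

noncomputable section

variable {n : ℕ} {ι : Type}

/-- rescaled function, normalised at `c` -/
def nz (c : Cn n) (R : ℝ) (u : Cn n → ℝ) (k : ℝ) : Cn n → ℝ := fun z => u (c + R • z) - k

theorem fd_nz (c : Cn n) (R : ℝ) (u : Cn n → ℝ) (k : ℝ) (z : Cn n) :
    fderiv ℝ (nz c R u k) z = R • fderiv ℝ u (c + R • z) := by
  have h1 : nz c R u k = fun z => sc c R u z - k := rfl
  rw [h1, fderiv_sub_const]
  exact fderiv_sc c R u z

theorem fd2_nz (c : Cn n) (R : ℝ) (u : Cn n → ℝ) (k : ℝ) (z : Cn n) :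
    fderiv ℝ (fderiv ℝ (nz c R u k)) z = (R * R) • fderiv ℝ (fderiv ℝ u) (c + R • z) := by
  have h1 : fderiv ℝ (nz c R u k) = fun z => R • fderiv ℝ u (c + R • z) := by
    funext z
    exact fd_nz c R u k z
  rw [h1]
  exact fderiv_smul_sc R c R (fderiv ℝ u) z

theorem cH_nz (c : Cn n) (R : ℝ) (u : Cn n → ℝ) (k : ℝ) (z : Cn n) :
    cH (nz c R u k) z = ((R * R : ℝ) : ℂ) • cH u (c + R • z) := by
  ext a b
  have h1 : ∀ v w, D2 (nz c R u k) z v w = (R * R) * D2 u (c + R • z) v w := by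
    intro v w
    rw [D2, fd2_nz]
    rfl
  rw [Matrix.smul_apply]
  simp only [cH, Matrix.of_apply, h1, smul_eq_mul]
  push_cast
  ring

theorem contDiffOn_nz {c : Cn n} {R : ℝ} {u : Cn n → ℝ} {k : ℝ} {U V : Set (Cn n)}
    (hu : ContDiffOn ℝ ∞ u U) (hV : ∀ z ∈ V, c + R • z ∈ U) : ContDiffOn ℝ ∞ (nz c R u k) V := by
  have h1 : ContDiff ℝ ∞ fun z : Cn n => c + R • z := contDiff_const.add (contDiff_id.const_smul R)
  exact (hu.comp h1.contDiffOn fun z hz => hV z hz).sub contDiffOn_const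

theorem nsm2 (c : ℝ) (B : Cn n →L[ℝ] Cn n →L[ℝ] ℝ) : ‖c • B‖ = |c| * ‖B‖ := by
  have := @norm_smul ℝ (Cn n →L[ℝ] Cn n →L[ℝ] ℝ) _ _ _ NormedSpace.toNormSMulClass c B
  exact this

theorem cont_norm {X F : Type*} [TopologicalSpace X] [NormedAddCommGroup F] {f : X → F}
    {s : Set X} (h : ContinuousOn f s) : ContinuousOn (fun x => ‖f x‖) s := h.norm

theorem two_mul_rpow {t : ℝ} (h0 : 0 ≤ t) (h2 : t ≤ 2) : t ≤ 2 * t ^ (1 / 2 : ℝ) :=
  le_two_rpow h0 h2

/-- Hölder from Lipschitz on the closed unit ball -/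
theorem ho_of_lip {F : Type*} [NormedAddCommGroup F] {g : Cn n → F} {M L : ℝ}
    (hM : ∀ x ∈ closedBall (0 : Cn n) 1, ‖g x‖ ≤ M) (hL : 0 ≤ L)
    (hg : ∀ x ∈ closedBall (0 : Cn n) 1, ∀ y ∈ closedBall (0 : Cn n) 1,
      ‖g x - g y‖ ≤ L * ‖x - y‖) :
    HO (1 / 2) (max M (2 * L)) (closedBall 0 1) g := by
  refine ⟨fun x hx => (hM x hx).trans (le_max_left _ _), fun x hx y hy => ?_⟩
  have h1 := two_mul_rpow (norm_nonneg _) (norm_sub_le_two le_rfl hx hy)
  have h2 : 0 ≤ ‖x - y‖ ^ (1 / 2 : ℝ) := Real.rpow_nonneg (norm_nonneg _) _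
  calc ‖g x - g y‖ ≤ L * ‖x - y‖ := hg x hx y hy
    _ ≤ L * (2 * ‖x - y‖ ^ (1 / 2 : ℝ)) := mul_le_mul_of_nonneg_left h1 hL
    _ = (2 * L) * ‖x - y‖ ^ (1 / 2 : ℝ) := by ring
    _ ≤ _ := mul_le_mul_of_nonneg_right (le_max_right _ _) h2

/-- **point picking** -/
theorem point_pick {κ : Type} [Fintype κ] {lo hi C M : ℝ} (hlo : 0 < lo) (hlohi : lo ≤ hi)
    (hC : 0 ≤ C) (hM : 0 ≤ M) {ρ : ℝ} (hρ0 : 0 < ρ) (hρ : ρ < 1 / 2) : ∃ B : ℝ,
    ∀ (W : κ → Cn n → ℝ) (G : Cn n → Matrix (Fin n) (Fin n) ℂ) (h : κ → Cn n → ℝ),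
      (∀ k, ContDiffOn ℝ ∞ (W k) (ball 0 1)) →
      (∀ z ∈ ball (0 : Cn n) (1 / 2), EllC lo hi (G z)) →
      (∀ a b, ∀ z ∈ ball (0 : Cn n) (1 / 2), DifferentiableAt ℝ (fun w => G w a b) z ∧
        ‖G z a b‖ ≤ C ∧ ‖fderiv ℝ (fun w => G w a b) z‖ ≤ C) →
      (∀ k, ∀ z ∈ ball (0 : Cn n) (1 / 2), ‖fderiv ℝ (W k) z‖ ≤ C) →
      (∀ k, ∀ z ∈ ball (0 : Cn n) (1 / 2), h k z = ((G z * cH (W k) z).trace).re ∧
        DifferentiableAt ℝ (h k) z ∧ |h k z| ≤ M ∧
        ‖fderiv ℝ (h k) z‖ ≤ M * (1 + ∑ j, ‖fderiv ℝ (fderiv ℝ (W j)) z‖)) →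
      ∀ z ∈ closedBall (0 : Cn n) ρ, ∑ j, ‖fderiv ℝ (fderiv ℝ (W j)) z‖ ≤ B := by
  set s : ℝ := (ρ + 1 / 2) / 2 with hs
  have hs1 : s < 1 / 2 := by rw [hs]; linarith
  have hs0 : 0 < s := by rw [hs]; linarith
  have hρs : ρ < s := by rw [hs]; linarith
  obtain ⟨CS, hCS, HS⟩ := int_schauder_cx n (a := 1 / 2) (lo := lo) (hi := hi) (by norm_num)
    (by norm_num) hlo hlohi (max C (2 * C)) one_pos le_rfl
  set A : ℝ := Fintype.card κ * (CS * (10 * M + C)) with hA
  have hA0 : 0 ≤ A := by positivity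
  refine ⟨max 16 (A ^ 2) / (s - ρ) ^ 2, ?_⟩
  intro W G h hW hell hG hWC hh z hz
  set N : Cn n → ℝ := fun z => ∑ j, ‖fderiv ℝ (fderiv ℝ (W j)) z‖ with hN
  have hN0 : ∀ z, 0 ≤ N z := fun z => Finset.sum_nonneg fun j _ => ContinuousLinearMap.opNorm_nonneg _
  have hsub : closedBall (0 : Cn n) s ⊆ ball 0 1 := closedBall_subset_ball (by linarith)
  have hNc : ContinuousOn N (closedBall 0 s) := by
    refine continuousOn_finsetSum _ fun j _ => ?_
    have h1 : ContDiffOn ℝ ∞ (fderiv ℝ (W j)) (ball 0 1) :=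
      (hW j).fderiv_of_isOpen isOpen_ball (by simp)
    have h2 : ContDiffOn ℝ ∞ (fderiv ℝ (fderiv ℝ (W j))) (ball 0 1) :=
      h1.fderiv_of_isOpen isOpen_ball (by simp)
    exact cont_norm (h2.continuousOn.mono hsub)
  have hΦ : ContinuousOn (fun z : Cn n => (s - ‖z‖) ^ 2 * N z) (closedBall 0 s) :=
    ((continuousOn_const.sub continuous_norm.continuousOn).pow 2).mul hNc
  obtain ⟨z₁, hz₁, hmax⟩ := (isCompact_closedBall (0 : Cn n) s).exists_isMaxOn
    ⟨0, by simp [hs0.le]⟩ hΦ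
  rw [isMaxOn_iff] at hmax
  have key : (s - ‖z₁‖) ^ 2 * N z₁ ≤ max 16 (A ^ 2) := by
    by_contra hcon
    rw [not_le, max_lt_iff] at hcon
    obtain ⟨hc1, hc2⟩ := hcon
    have hz₁s : ‖z₁‖ ≤ s := mem_closedBall_zero_iff.1 hz₁
    set d : ℝ := s - ‖z₁‖ with hd
    have hd0 : 0 ≤ d := by rw [hd]; linarith
    have hd1 : 0 < d := by
      rcases hd0.eq_or_lt with h0 | h0
      · rw [← h0] at hc1
        norm_num at hc1
      · exact h0
    have hds : d ≤ s := by
      have := norm_nonneg z₁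
      rw [hd]; linarith
    have hNpos : 0 < N z₁ := by
      by_contra h0
      have h1 : N z₁ = 0 := le_antisymm (not_lt.1 h0) (hN0 _)
      rw [h1] at hc1
      norm_num at hc1
    set lam : ℝ := Real.sqrt (N z₁) with hlam
    have hlam0 : 0 < lam := Real.sqrt_pos.2 hNpos
    have hlam2 : lam ^ 2 = N z₁ := Real.sq_sqrt (hN0 _)
    have hdl : 4 < d * lam := by
      by_contra h0
      rw [not_lt] at h0
      have h1 : (d * lam) ^ 2 ≤ 4 ^ 2 := pow_le_pow_left₀ (by positivity) h0 2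
      rw [mul_pow, hlam2] at h1
      linarith
    have hlam1 : 8 < lam := by
      have : d * lam < 1 / 2 * lam := mul_lt_mul_of_pos_right (by linarith) hlam0
      linarith
    have hli : 0 < lam⁻¹ := inv_pos.2 hlam0
    -- the points of the small ball
    have hball : ∀ y ∈ ball (0 : Cn n) 2, z₁ + lam⁻¹ • y ∈ ball (0 : Cn n) (1 / 2) ∧
        N (z₁ + lam⁻¹ • y) ≤ 4 * lam ^ 2 := by
      intro y hy
      rw [mem_ball_zero_iff] at hy
      have h1 : ‖lam⁻¹ • y‖ < d / 2 := by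
        rw [norm_smul, Real.norm_of_nonneg hli.le, inv_mul_lt_iff₀ hlam0]
        nlinarith
      have h2 : ‖z₁ + lam⁻¹ • y‖ ≤ ‖z₁‖ + d / 2 := (norm_add_le _ _).trans (by linarith)
      have h3 : d / 2 ≤ s - ‖z₁ + lam⁻¹ • y‖ := by
        rw [hd] at h2 ⊢
        linarith
      have h4 : z₁ + lam⁻¹ • y ∈ closedBall (0 : Cn n) s := by
        rw [mem_closedBall_zero_iff]
        linarith
      refine ⟨closedBall_subset_ball hs1 h4, ?_⟩
      have h5 := hmax _ h4
      have h6 : (d / 2) ^ 2 * N (z₁ + lam⁻¹ • y) ≤ d ^ 2 * N z₁ :=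
        le_trans (mul_le_mul_of_nonneg_right (pow_le_pow_left₀ (by positivity) h3 2) (hN0 _)) h5
      rw [hlam2]
      have hd2 : 0 < d ^ 2 := by positivity
      nlinarith
    have hsm : closedBall (0 : Cn n) 1 ⊆ ball 0 2 := closedBall_subset_ball (by norm_num)
    -- derivative bounds give Lipschitz bounds along the rescaled ball
    have hlip : ∀ (F : Type) [NormedAddCommGroup F] [NormedSpace ℝ F] (g : Cn n → F) (L : ℝ),
        (∀ y ∈ ball (0 : Cn n) 2, DifferentiableAt ℝ g (z₁ + lam⁻¹ • y) ∧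
          ‖fderiv ℝ g (z₁ + lam⁻¹ • y)‖ ≤ L) →
        ∀ x ∈ closedBall (0 : Cn n) 1, ∀ y ∈ closedBall (0 : Cn n) 1,
          ‖g (z₁ + lam⁻¹ • x) - g (z₁ + lam⁻¹ • y)‖ ≤ (lam⁻¹ * L) * ‖x - y‖ := by
      intro F _ _ g L hg x hx y hy
      have hcv : Convex ℝ (ball (0 : Cn n) 2) := convex_ball _ _
      refine hcv.norm_image_sub_le_of_norm_fderiv_le (𝕜 := ℝ) (f := sc z₁ lam⁻¹ g) (fun w hw => ?_)
        (fun w hw => ?_) (hsm hy) (hsm hx)
      · have h1 : DifferentiableAt ℝ (fun y : Cn n => z₁ + lam⁻¹ • y) w :=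
          (differentiableAt_id.const_smul lam⁻¹).const_add z₁
        exact (hg w hw).1.comp w h1
      · rw [fderiv_sc, norm_smul, Real.norm_of_nonneg hli.le]
        exact mul_le_mul_of_nonneg_left (hg w hw).2 hli.le
    have hlam1' : lam⁻¹ ≤ 1 := inv_le_one_of_one_le₀ (by linarith)
    -- Schauder on the rescaled ball
    have hmain : ∀ k, ‖fderiv ℝ (fderiv ℝ (W k)) z₁‖ ≤ lam * (CS * (10 * M + C)) := by
      intro k
      have e1 := HS 0 (fun y => G (z₁ + lam⁻¹ • y))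
        (fun y hy => hell _ (hball y (hsm hy)).1)
        (fun a b => ((ho_of_lip (L := C) (fun y hy => (hG a b _ (hball y (hsm hy)).1).2.1) hC
          (fun x hx y hy => (hlip ℂ (fun w => G w a b) C
            (fun y hy => ⟨(hG a b _ (hball y hy).1).1, (hG a b _ (hball y hy).1).2.2⟩)
            x hx y hy).trans (mul_le_mul_of_nonneg_right (by nlinarith) (norm_nonneg _))))))
        (ball 0 2) isOpen_ball hsm (nz z₁ lam⁻¹ (W k) (W k z₁)) (10 * M * lam⁻¹) (C * lam⁻¹)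
        ((contDiffOn_nz (hW k) fun y hy => sub_half (hball y hy).1).of_le
          Crest.Agent.R273.YauCh_635.two_le_inf)
        (ho_smooth isOpen_ball (contDiffOn_nz (hW k) fun y hy => sub_half (hball y hy).1) le_rfl
          hsm)
        ?_ ?_
      · have e2 := (e1.h2).bdd 0 (by simp)
        rw [fd2_nz, smul_zero, add_zero] at e2
        have e3 : ‖(lam⁻¹ * lam⁻¹) • fderiv ℝ (fderiv ℝ (W k)) z₁‖
            = (lam⁻¹ * lam⁻¹) * ‖fderiv ℝ (fderiv ℝ (W k)) z₁‖ := by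
          rw [nsm2, abs_of_nonneg (by positivity)]
        rw [e3] at e2
        have e4 : (lam⁻¹ * lam⁻¹) * ‖fderiv ℝ (fderiv ℝ (W k)) z₁‖ ≤
            lam⁻¹ * (CS * (10 * M + C)) := by
          refine e2.trans (le_of_eq ?_)
          ring
        rw [mul_assoc] at e4
        have e5 := le_of_mul_le_mul_left e4 hli
        rwa [inv_mul_le_iff₀ hlam0] at e5
      · -- the right hand side
        have f1 : ∀ y ∈ closedBall (0 : Cn n) 1,
            ((G (z₁ + lam⁻¹ • y) * cH (nz z₁ lam⁻¹ (W k) (W k z₁)) y).trace).re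
              = (lam⁻¹ * lam⁻¹) * h k (z₁ + lam⁻¹ • y) := by
          intro y hy
          rw [cH_nz, Matrix.mul_smul, Matrix.trace_smul, smul_eq_mul, Complex.re_ofReal_mul,
            (hh k _ (hball y (hsm hy)).1).1]
        have f2 : ∀ x ∈ closedBall (0 : Cn n) 1, ∀ y ∈ closedBall (0 : Cn n) 1,
            ‖h k (z₁ + lam⁻¹ • x) - h k (z₁ + lam⁻¹ • y)‖ ≤
              (lam⁻¹ * (M * (5 * lam ^ 2))) * ‖x - y‖ := by
          refine hlip ℝ (h k) _ fun y hy => ?_
          obtain ⟨g1, g2⟩ := hball y hy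
          obtain ⟨-, g3, -, g4⟩ := hh k _ g1
          refine ⟨g3, g4.trans (mul_le_mul_of_nonneg_left ?_ hM)⟩
          have g5 : ∑ j, ‖fderiv ℝ (fderiv ℝ (W j)) (z₁ + lam⁻¹ • y)‖ ≤ 4 * lam ^ 2 := g2
          nlinarith
        have f3 : HO (1 / 2) (10 * M * lam⁻¹) (closedBall (0 : Cn n) 1)
            (fun y => (lam⁻¹ * lam⁻¹) * h k (z₁ + lam⁻¹ • y)) := by
          have g0 : (lam⁻¹ * lam⁻¹) * (lam⁻¹ * (M * (5 * lam ^ 2))) = 5 * M * lam⁻¹ := by
            field_simp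
          refine (ho_of_lip (M := lam⁻¹ * M) (L := 5 * M * lam⁻¹) (fun y hy => ?_)
            (by positivity) (fun x hx y hy => ?_)).mono (max_le ?_ ?_)
          · rw [Real.norm_eq_abs, abs_mul, abs_of_nonneg (by positivity : 0 ≤ lam⁻¹ * lam⁻¹),
              mul_assoc]
            refine mul_le_mul_of_nonneg_left ?_ hli.le
            have g1 := (hh k _ (hball y (hsm hy)).1).2.2.1
            have g2 := abs_nonneg (h k (z₁ + lam⁻¹ • y))
            nlinarith
          · rw [← mul_sub, norm_mul, Real.norm_of_nonneg (by positivity : 0 ≤ lam⁻¹ * lam⁻¹),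
              ← g0, mul_assoc (lam⁻¹ * lam⁻¹)]
            exact mul_le_mul_of_nonneg_left (f2 x hx y hy) (by positivity)
          · nlinarith [mul_nonneg hM hli.le]
          · nlinarith [mul_nonneg hM hli.le]
        exact f3.congr f1
      · -- the sup bound
        intro y hy
        have g1 := hlip ℝ (W k) C (fun y hy =>
          ⟨((hW k).contDiffAt (isOpen_ball.mem_nhds (sub_half (hball y hy).1))).differentiableAt
            (by simp), hWC k _ (hball y hy).1⟩) y hy 0 (by simp)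
        rw [smul_zero, add_zero, sub_zero] at g1
        have g2 : ‖y‖ ≤ 1 := mem_closedBall_zero_iff.1 hy
        show |W k (z₁ + lam⁻¹ • y) - W k z₁| ≤ C * lam⁻¹
        rw [← Real.norm_eq_abs]
        refine g1.trans ?_
        have g3 : 0 ≤ lam⁻¹ * C := by positivity
        nlinarith
    -- conclusion
    have hfin : lam ^ 2 ≤ A * lam := by
      rw [hlam2, hA]
      calc N z₁ ≤ ∑ _j : κ, lam * (CS * (10 * M + C)) := Finset.sum_le_sum fun j _ => hmain j
        _ = Fintype.card κ * (CS * (10 * M + C)) * lam := by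
          rw [Finset.sum_const, Finset.card_univ, nsmul_eq_mul]
          ring
    have hlA : lam ≤ A := by
      have : lam * lam ≤ A * lam := by rw [← pow_two]; exact hfin
      exact le_of_mul_le_mul_right this hlam0
    have h9 : d ^ 2 * N z₁ ≤ A ^ 2 := by
      rw [← hlam2]
      have h10 : d ^ 2 ≤ 1 := by nlinarith
      have h11 : lam ^ 2 ≤ A ^ 2 := pow_le_pow_left₀ hlam0.le hlA 2
      nlinarith [sq_nonneg lam]
    linarith
  have hzs : z ∈ closedBall (0 : Cn n) s := closedBall_subset_closedBall hρs.le hz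
  have h1 := (hmax z hzs).trans key
  have h2 : s - ρ ≤ s - ‖z‖ := by
    have := mem_closedBall_zero_iff.1 hz
    linarith
  rw [le_div_iff₀ (by have : 0 < s - ρ := by linarith
                      positivity)]
  calc N z * (s - ρ) ^ 2 ≤ N z * (s - ‖z‖) ^ 2 :=
        mul_le_mul_of_nonneg_left (pow_le_pow_left₀ (by linarith) h2 2) (hN0 z)
    _ = (s - ‖z‖) ^ 2 * N z := by ring
    _ ≤ _ := h1

end

end Crest.Agent.R281.LioB_346
end

-- ▼ part R281/LioD_346

/-!
# R281 (S0424), leaf S-T7, part 4 (helper346): Schauder bootstrapping for uniform families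

* `schauder_uh` : `tr (G ∂∂̄w) ∈ C^{1/2}` ⟹ `w ∈ C^{2,1/2}`, uniformly
* `lift`        : `tr (G ∂∂̄w) ∈ C^{m,1/2}`, `w, G ∈ C^{m+1,1/2}` ⟹ `w ∈ C^{m+2,1/2}`
* `B1`          : families with bounds `|F| ≤ M`, `|DF| ≤ M (1 + N)`
-/

set_option autoImplicit false
set_option linter.unusedSectionVars false

open Set Filter Topology Complex Metric
open scoped ContDiff Matrix ComplexConjugate

namespace Crest.Agent.R281.LioD_346

open Crest.Agent.R275.Geo Crest.Agent.R273.SchA_152 Crest.Agent.R273.YauSchF_635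
  Crest.Agent.R273.YauQ_635 Crest.Agent.R273.SchE_152 Crest.Agent.R273.SchD_152
  Crest.Agent.R273.YauDefs_635 Crest.Agent.R281.LioA_346 Crest.Agent.R281.LioC3_346
  Crest.Agent.R281.LioB_346

noncomputable section

variable {n : ℕ} {ι : Type}

/-! ### real families -/

/-- complexification of a real family -/
def cx (w : ι → Cn n → ℝ) : ι → Cn n → ℂ := fun i z => (w i z : ℂ)

/-- smooth real family -/
def Rf (w : ι → Cn n → ℝ) : Prop := ∀ i, ContDiffOn ℝ ∞ (w i) (ball 0 1)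

/-- directional derivative of a real family -/
def dr (v : Cn n) (w : ι → Cn n → ℝ) : ι → Cn n → ℝ := fun i z => fderiv ℝ (w i) z v

theorem Rf.at {w : ι → Cn n → ℝ} (h : Rf w) (i : ι) {z : Cn n} (hz : z ∈ ball (0 : Cn n) 1) :
    ContDiffAt ℝ ∞ (w i) z := (h i).contDiffAt (isOpen_ball.mem_nhds hz)

theorem Rf.diff {w : ι → Cn n → ℝ} (h : Rf w) (i : ι) {z : Cn n} (hz : z ∈ ball (0 : Cn n) 1) :
    DifferentiableAt ℝ (w i) z := (h.at i hz).differentiableAt (by simp)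

theorem Rf.dr {w : ι → Cn n → ℝ} (h : Rf w) (v : Cn n) : Rf (dr v w) := fun i =>
  ((h i).fderiv_of_isOpen (m := ∞) isOpen_ball (by simp)).clm_apply contDiffOn_const

theorem Rf.sf {w : ι → Cn n → ℝ} (h : Rf w) : Sf (cx w) := fun i =>
  Complex.ofRealCLM.contDiff.comp_contDiffOn (h i)

theorem Rf.fd {w : ι → Cn n → ℝ} (h : Rf w) (i : ι) :
    ContDiffOn ℝ ∞ (fderiv ℝ (w i)) (ball 0 1) := (h i).fderiv_of_isOpen isOpen_ball (by simp)

theorem fderiv_ofReal {w : Cn n → ℝ} {z : Cn n} (h : DifferentiableAt ℝ w z) (v : Cn n) :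
    fderiv ℝ (fun z => (w z : ℂ)) z v = ((fderiv ℝ w z v : ℝ) : ℂ) := by
  have h1 : HasFDerivAt (fun z => (w z : ℂ)) (Complex.ofRealCLM.comp (fderiv ℝ w z)) z :=
    Complex.ofRealCLM.hasFDerivAt.comp z h.hasFDerivAt
  rw [h1.fderiv]
  rfl

theorem dv_cx {w : ι → Cn n → ℝ} (h : Rf w) (v : Cn n) (i : ι) {z : Cn n}
    (hz : z ∈ ball (0 : Cn n) 1) : dv v (cx w) i z = cx (dr v w) i z :=
  fderiv_ofReal (h.diff i hz) v

/-! ### local to global -/

theorem ho_glue {F : Type*} [NormedAddCommGroup F] {r : Cn n → F} {Q δ ρ : ℝ} (hQ : 0 ≤ Q)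
    (hδ : 0 < δ) (h : ∀ z0 ∈ closedBall (0 : Cn n) ρ, HO (1 / 2) Q (closedBall z0 δ) r) :
    HO (1 / 2) (max Q (2 * Q / δ ^ (1 / 2 : ℝ))) (closedBall 0 ρ) r := by
  have hδ' : 0 < δ ^ (1 / 2 : ℝ) := Real.rpow_pos_of_pos hδ _
  have hb : ∀ x ∈ closedBall (0 : Cn n) ρ, ‖r x‖ ≤ Q := fun x hx =>
    (h x hx).bdd x (mem_closedBall_self hδ.le)
  refine ⟨fun x hx => (hb x hx).trans (le_max_left _ _), fun x hx y hy => ?_⟩
  have h0 : 0 ≤ ‖x - y‖ ^ (1 / 2 : ℝ) := Real.rpow_nonneg (norm_nonneg _) _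
  rcases le_or_gt ‖x - y‖ δ with h1 | h1
  · have h2 := (h x hx).hol x (mem_closedBall_self hδ.le) y (by
      rw [mem_closedBall, dist_comm, dist_eq_norm]
      exact h1)
    exact h2.trans (mul_le_mul_of_nonneg_right (le_max_left _ _) h0)
  · have h2 : ‖r x - r y‖ ≤ 2 * Q := (norm_sub_le _ _).trans (by linarith [hb x hx, hb y hy])
    have h3 : δ ^ (1 / 2 : ℝ) ≤ ‖x - y‖ ^ (1 / 2 : ℝ) :=
      Real.rpow_le_rpow hδ.le h1.le (by norm_num)
    refine h2.trans ((?_ : 2 * Q ≤ 2 * Q / δ ^ (1 / 2 : ℝ) * ‖x - y‖ ^ (1 / 2 : ℝ)).trans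
      (mul_le_mul_of_nonneg_right (le_max_right _ _) h0))
    rw [div_mul_eq_mul_div, le_div_iff₀ hδ']
    exact mul_le_mul_of_nonneg_left h3 (by positivity)

theorem ho_eval {a Q : ℝ} {s : Set (Cn n)} {r : Cn n → Cn n →L[ℝ] ℝ} (h : HO a Q s r)
    (v : Cn n) : HO a (‖v‖ * Q) s (fun z => ((r z v : ℝ) : ℂ)) := by
  refine ho_clm (fun L : Cn n →L[ℝ] ℝ => ((L v : ℝ) : ℂ)) (norm_nonneg v) (fun L => ?_)
    (fun L L' => ?_) h
  · rw [Complex.norm_real, mul_comm]
    exact L.le_opNorm v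
  · rw [← Complex.ofReal_sub]
    rfl

theorem ho_eval2 {a Q : ℝ} {s : Set (Cn n)} {r : Cn n → Cn n →L[ℝ] Cn n →L[ℝ] ℝ}
    (h : HO a Q s r) (v w : Cn n) :
    HO a (‖v‖ * ‖w‖ * Q) s (fun z => ((r z v w : ℝ) : ℂ)) := by
  refine ho_clm (fun L : Cn n →L[ℝ] Cn n →L[ℝ] ℝ => ((L v w : ℝ) : ℂ)) (by positivity)
    (fun L => ?_) (fun L L' => ?_) h
  · rw [Complex.norm_real]
    have h1 := (L v).le_opNorm w
    have h2 := L.le_opNorm v
    calc ‖L v w‖ ≤ ‖L v‖ * ‖w‖ := h1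
      _ ≤ (‖L‖ * ‖v‖) * ‖w‖ := mul_le_mul_of_nonneg_right h2 (norm_nonneg _)
      _ = ‖v‖ * ‖w‖ * ‖L‖ := by ring
  · rw [← Complex.ofReal_sub]
    rfl

theorem exists_unif {κ : Type*} [Finite κ] {P : κ → ℝ → Prop}
    (hP : ∀ k x y, x ≤ y → P k x → P k y) (h : ∀ k, ∃ x, 0 ≤ x ∧ P k x) :
    ∃ x, 0 ≤ x ∧ ∀ k, P k x := by
  choose f hf0 hf using h
  cases nonempty_fintype κ
  refine ⟨∑ k, f k, Finset.sum_nonneg fun k _ => hf0 k, fun k => hP k _ _ ?_ (hf k)⟩
  exact Finset.single_le_sum (fun j _ => hf0 j) (Finset.mem_univ k)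

/-- **Schauder estimate for uniform families** -/
theorem schauder_uh {lo hi : ℝ} (hlo : 0 < lo) (hlohi : lo ≤ hi) {G : MF ι n} (hG : UM 0 G)
    (hell : ∀ i, ∀ z ∈ ball (0 : Cn n) (1 / 2), EllC lo hi (G i z)) {w : ι → Cn n → ℝ}
    (sw : Rf w) (hw : H0 (cx w)) (hh : H0 (fun i z => (G i z * cH (w i) z).trace)) :
    UH 2 (cx w) := by
  have main : ∀ ρ : ℝ, 0 < ρ → ρ < 1 / 2 → ∃ Q : ℝ, 0 ≤ Q ∧ ∀ i,
      HO (1 / 2) Q (closedBall 0 ρ) (w i) ∧ HO (1 / 2) Q (closedBall 0 ρ) (fderiv ℝ (w i)) ∧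
        HO (1 / 2) Q (closedBall 0 ρ) (fderiv ℝ (fderiv ℝ (w i))) := by
    intro ρ hρ0 hρ
    set δ : ℝ := (1 / 2 - ρ) / 2 with hδ
    have hδ0 : 0 < δ := by rw [hδ]; linarith
    have hδ1 : δ ≤ 1 := by rw [hδ]; linarith
    have hρδ : ρ + δ < 1 / 2 := by rw [hδ]; linarith
    obtain ⟨MG, hMG0, hMG⟩ : ∃ x, 0 ≤ x ∧ ∀ k : Fin n × Fin n, ∀ i,
        HO (1 / 2) x (closedBall 0 (ρ + δ)) (en G k.1 k.2 i) :=
      exists_unif (fun k x y hxy h i => (h i).mono hxy)
        (fun k => hG k.1 k.2 (ρ + δ) (by linarith) hρδ)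
    obtain ⟨N, hN0, hN⟩ := hh (ρ + δ) (by linarith) hρδ
    obtain ⟨S, hS0, hS⟩ := hw (ρ + δ) (by linarith) hρδ
    obtain ⟨C, hC0, HC⟩ := int_schauder_cx n (a := 1 / 2) (lo := lo) (hi := hi) (by norm_num)
      (by norm_num) hlo hlohi MG hδ0 hδ1
    have hsub : ∀ z0 ∈ closedBall (0 : Cn n) ρ, closedBall z0 δ ⊆ closedBall 0 (ρ + δ) := by
      intro z0 hz0
      refine closedBall_subset_closedBall' ?_
      rw [mem_closedBall] at hz0
      linarith
    have hsub' : closedBall (0 : Cn n) (ρ + δ) ⊆ ball 0 (1 / 2) := closedBall_subset_ball hρδ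
    set Q : ℝ := C * (N + S) with hQ
    have hQ0 : 0 ≤ Q := by positivity
    have loc : ∀ i, ∀ z0 ∈ closedBall (0 : Cn n) ρ, C2A (1 / 2) Q (closedBall z0 (δ / 2)) (w i) := by
      intro i z0 hz0
      have hs := hsub z0 hz0
      refine HC z0 (G i) (fun z hz => hell i z (hsub' (hs hz)))
        (fun a b => (hMG (a, b) i).subset hs) (ball 0 1) isOpen_ball
        (fun z hz => sub_half (hsub' (hs hz))) (w i) N S ((sw i).of_le
          Crest.Agent.R273.YauCh_635.two_le_inf)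
        (ho_smooth isOpen_ball (sw i) hδ1 fun z hz => sub_half (hsub' (hs hz))) ?_ ?_
      · exact Crest.Agent.R273.YauPf_635.ho_re ((hN i).subset hs)
      · intro z hz
        have := (hS i).bdd z (hs hz)
        rwa [cx, Complex.norm_real, Real.norm_eq_abs] at this
    refine ⟨max Q (2 * Q / (δ / 2) ^ (1 / 2 : ℝ)), hQ0.trans (le_max_left _ _), fun i => ?_⟩
    exact ⟨ho_glue hQ0 (by positivity) fun z0 hz0 => (loc i z0 hz0).h0,
      ho_glue hQ0 (by positivity) fun z0 hz0 => (loc i z0 hz0).h1,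
      ho_glue hQ0 (by positivity) fun z0 hz0 => (loc i z0 hz0).h2⟩
  refine ⟨hw, fun v => ⟨fun ρ h0 h1 => ?_, fun v' => ?_⟩⟩
  · obtain ⟨Q, hQ0, H⟩ := main ρ h0 h1
    refine ⟨‖v‖ * Q, by positivity, fun i => ?_⟩
    exact (ho_eval (H i).2.1 v).congr fun z hz =>
      dv_cx sw v i (sub_half (closedBall_subset_ball h1 hz))
  · have h2 : H0 (dv v' (cx (dr v w))) := by
      intro ρ h0 h1
      obtain ⟨Q, hQ0, H⟩ := main ρ h0 h1
      refine ⟨‖v'‖ * ‖v‖ * Q, by positivity, fun i => ?_⟩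
      refine (ho_eval2 (H i).2.2 v' v).congr fun z hz => ?_
      have hz' := sub_half (closedBall_subset_ball h1 hz)
      rw [dv_cx (sw.dr v) v' i hz']
      have h3 : DifferentiableAt ℝ (fderiv ℝ (w i)) z :=
        ((sw.fd i).contDiffAt (isOpen_ball.mem_nhds hz')).differentiableAt (by simp)
      show ((fderiv ℝ (fun z => fderiv ℝ (w i) z v) z v' : ℝ) : ℂ) = _
      rw [fderiv_clm_apply h3 (differentiableAt_const v)]
      simp
    exact h2.congr fun i z hz => dv_congr (fun i z hz => dv_cx sw v i hz) v' i z (sub_half hz)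

/-! ### commuting derivatives -/

theorem fd2_eval {F : Type*} [NormedAddCommGroup F] [NormedSpace ℝ F] {u : Cn n → F} {z : Cn n}
    (hu : ContDiffAt ℝ 2 u z) (v w : Cn n) :
    fderiv ℝ (fun y => fderiv ℝ u y w) z v = fderiv ℝ (fderiv ℝ u) z v w := by
  have h3 : DifferentiableAt ℝ (fderiv ℝ u) z :=
    (hu.fderiv_right (m := 1) (by norm_num)).differentiableAt (by norm_num)
  rw [fderiv_clm_apply h3 (differentiableAt_const w)]
  simp

theorem fd_comm {F : Type*} [NormedAddCommGroup F] [NormedSpace ℝ F] {u : Cn n → F} {z : Cn n}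
    (hu : ContDiffAt ℝ 2 u z) (v w : Cn n) :
    fderiv ℝ (fun y => fderiv ℝ u y w) z v = fderiv ℝ (fun y => fderiv ℝ u y v) z w := by
  rw [fd2_eval hu, fd2_eval hu]
  exact Crest.Agent.R273.Levi_145.fd_symm hu v w

/-- `D_w` commutes with the second derivatives -/
theorem D2_fd {u : Cn n → ℝ} {U : Set (Cn n)} (hU : IsOpen U) (hu : ContDiffOn ℝ ∞ u U)
    {z : Cn n} (hz : z ∈ U) (x y w : Cn n) :
    D2 (fun z => fderiv ℝ u z w) z x y = fderiv ℝ (fun z => D2 u z x y) z w := by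
  have hinf : (2 : WithTop ℕ∞) ≤ ∞ := Crest.Agent.R273.YauCh_635.two_le_inf
  have hd : ∀ w, ContDiffOn ℝ ∞ (fun z => fderiv ℝ u z w) U := fun w =>
    (hu.fderiv_of_isOpen (m := ∞) hU (by simp)).clm_apply contDiffOn_const
  have hat : ∀ {g : Cn n → ℝ}, ContDiffOn ℝ ∞ g U → ∀ y ∈ U, ContDiffAt ℝ 2 g y :=
    fun hg y hy => (hg.contDiffAt (hU.mem_nhds hy)).of_le hinf
  have h1 : D2 (fun z => fderiv ℝ u z w) z x y
      = fderiv ℝ (fun z' => fderiv ℝ (fun z => fderiv ℝ u z w) z' y) z x := by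
    rw [fd2_eval (hat (hd w) z hz)]
    rfl
  have h2 : (fun z' => fderiv ℝ (fun z => fderiv ℝ u z w) z' y)
      =ᶠ[𝓝 z] fun z' => fderiv ℝ (fun z => fderiv ℝ u z y) z' w :=
    Filter.eventually_of_mem (hU.mem_nhds hz) fun z' hz' => fd_comm (hat hu z' hz') y w
  have h3 : (fun z' => fderiv ℝ (fun z => fderiv ℝ u z y) z' x)
      =ᶠ[𝓝 z] fun z' => D2 u z' x y :=
    Filter.eventually_of_mem (hU.mem_nhds hz) fun z' hz' => fd2_eval (hat hu z' hz') x y
  rw [h1, h2.fderiv_eq, fd_comm (hat (hd y) z hz) x w, h3.fderiv_eq]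

theorem cH_fd {u : Cn n → ℝ} {U : Set (Cn n)} (hU : IsOpen U) (hu : ContDiffOn ℝ ∞ u U)
    {z : Cn n} (hz : z ∈ U) (w : Cn n) (a b : Fin n) :
    cH (fun z => fderiv ℝ u z w) z a b = fderiv ℝ (fun z => cH u z a b) z w := by
  have hD : ∀ x y, DifferentiableAt ℝ (fun z => D2 u z x y) z := by
    intro x y
    have h1 : ContDiffOn ℝ ∞ (fderiv ℝ (fderiv ℝ u)) U :=
      (hu.fderiv_of_isOpen (m := ∞) hU (by simp)).fderiv_of_isOpen hU (by simp)
    have h2 : ContDiffOn ℝ ∞ (fun z => D2 u z x y) U :=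
      (h1.clm_apply contDiffOn_const).clm_apply contDiffOn_const
    exact (h2.contDiffAt (hU.mem_nhds hz)).differentiableAt (by simp)
  have hc : ∀ x y, HasFDerivAt (fun z => ((D2 u z x y : ℝ) : ℂ))
      (Complex.ofRealCLM.comp (fderiv ℝ (fun z => D2 u z x y) z)) z := fun x y =>
    Complex.ofRealCLM.hasFDerivAt.comp z (hD x y).hasFDerivAt
  set e1 : Cn n := EuclideanSpace.single a 1
  set e2 : Cn n := EuclideanSpace.single a I
  set f1 : Cn n := EuclideanSpace.single b 1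
  set f2 : Cn n := EuclideanSpace.single b I
  have h4 : HasFDerivAt (fun z => cH u z a b)
      ((1 / 4 : ℂ) • ((Complex.ofRealCLM.comp (fderiv ℝ (fun z => D2 u z e1 f1) z)
        + Complex.ofRealCLM.comp (fderiv ℝ (fun z => D2 u z e2 f2) z))
        + I • (Complex.ofRealCLM.comp (fderiv ℝ (fun z => D2 u z e1 f2) z)
        - Complex.ofRealCLM.comp (fderiv ℝ (fun z => D2 u z e2 f1) z)))) z := by
    have h5 := (((hc e1 f1).add (hc e2 f2)).add (((hc e1 f2).sub (hc e2 f1)).const_mul I)).const_mul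
      (1 / 4 : ℂ)
    refine h5.congr_of_eventuallyEq (Filter.Eventually.of_forall fun y => ?_)
    simp only [cH, Matrix.of_apply]
    push_cast
    rfl
  rw [h4.fderiv]
  simp only [cH, Matrix.of_apply, D2_fd hU hu hz]
  simp only [_root_.smul_apply, _root_.add_apply, _root_.sub_apply, ContinuousLinearMap.comp_apply,
    Complex.ofRealCLM_apply, smul_eq_mul]
  push_cast
  rfl

/-! ### lifting -/

/-- the complex Hessian of a real family -/
def hm (w : ι → Cn n → ℝ) : MF ι n := fun i z => cH (w i) z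

theorem Rf.hm {w : ι → Cn n → ℝ} (h : Rf w) : SM (hm w) := fun a b i =>
  Crest.Agent.R273.YauLoc_635.contDiffOn_cH isOpen_ball (h i) a b

theorem hm_dr {w : ι → Cn n → ℝ} (h : Rf w) (v : Cn n) (i : ι) {z : Cn n}
    (hz : z ∈ ball (0 : Cn n) 1) : hm (dr v w) i z = dm v (hm w) i z := by
  ext a b
  exact cH_fd isOpen_ball (h i) hz v a b

/-- entries of the complex Hessian as second derivatives -/
theorem hm_entry {w : ι → Cn n → ℝ} (h : Rf w) (a b : Fin n) (i : ι) {z : Cn n}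
    (hz : z ∈ ball (0 : Cn n) 1) : en (hm w) a b i z = (1 / 4 : ℂ) *
      ((dv (EuclideanSpace.single a 1) (dv (EuclideanSpace.single b 1) (cx w)) i z
        + dv (EuclideanSpace.single a I) (dv (EuclideanSpace.single b I) (cx w)) i z)
      + I * (dv (EuclideanSpace.single a 1) (dv (EuclideanSpace.single b I) (cx w)) i z
        + (-1) * dv (EuclideanSpace.single a I) (dv (EuclideanSpace.single b 1) (cx w)) i z)) := by
  have key : ∀ x y, dv x (dv y (cx w)) i z = ((D2 (w i) z x y : ℝ) : ℂ) := by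
    intro x y
    rw [dv_congr (F := cx (dr y w)) (fun i z hz => dv_cx h y i hz) x i z hz,
      dv_cx (h.dr y) x i hz]
    show ((fderiv ℝ (fun z => fderiv ℝ (w i) z y) z x : ℝ) : ℂ) = _
    rw [fd2_eval ((h.at i hz).of_le Crest.Agent.R273.YauCh_635.two_le_inf)]
    rfl
  simp only [key]
  show cH (w i) z a b = _
  simp only [cH, Matrix.of_apply]
  push_cast
  ring

theorem UH.hm {m : ℕ} {w : ι → Cn n → ℝ} (h : Rf w) (hw : UH (m + 2) (cx w)) : UM m (hm w) := by
  intro a b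
  have s2 : ∀ x y, Sf (dv x (dv y (cx w))) := fun x y => (h.sf.dv y).dv x
  have u2 : ∀ x y, UH m (dv x (dv y (cx w))) := fun x y => (hw.dv y).dv x
  have h1 := UH.const_mul ((s2 (EuclideanSpace.single a 1) (EuclideanSpace.single b 1)).add
      (s2 (EuclideanSpace.single a I) (EuclideanSpace.single b I)) |>.add
      ((Sf.const fun _ => I).mul ((s2 (EuclideanSpace.single a 1) (EuclideanSpace.single b I)).add
        ((Sf.const fun _ => (-1 : ℂ)).mul
          (s2 (EuclideanSpace.single a I) (EuclideanSpace.single b 1))))))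
    (UH.add ((s2 _ _).add (s2 _ _)) ((Sf.const fun _ => I).mul ((s2 _ _).add
      ((Sf.const fun _ => (-1 : ℂ)).mul (s2 _ _))))
      (UH.add (s2 _ _) (s2 _ _) (u2 _ _) (u2 _ _))
      (UH.const_mul ((s2 _ _).add ((Sf.const fun _ => (-1 : ℂ)).mul (s2 _ _)))
        (UH.add (s2 _ _) ((Sf.const fun _ => (-1 : ℂ)).mul (s2 _ _)) (u2 _ _)
          (UH.const_mul (s2 _ _) (u2 _ _) (-1))) I)) (1 / 4)
  exact h1.congr fun i z hz => hm_entry h a b i hz

/-- **lifting**: one more derivative -/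
theorem lift {lo hi : ℝ} (hlo : 0 < lo) (hlohi : lo ≤ hi) {G : MF ι n} (sG : SM G)
    (hell : ∀ i, ∀ z ∈ ball (0 : Cn n) (1 / 2), EllC lo hi (G i z)) (m : ℕ)
    (hG : UM (m + 1) G) {w : ι → Cn n → ℝ} (sw : Rf w) (hw : UH (m + 1) (cx w))
    (hh : UH m (fun i z => (G i z * hm w i z).trace)) : UH (m + 2) (cx w) := by
  induction m generalizing w with
  | zero => exact schauder_uh hlo hlohi (fun a b => (hG a b).h0) hell sw hw.h0 hh
  | succ m ih =>
    refine ⟨hw.h0, fun v => ?_⟩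
    have h2 : UH (m + 2) (cx w) := ih hG.of_succ sw hw.of_succ hh.of_succ
    have h3 : UH (m + 2) (cx (dr v w)) := by
      refine ih hG.of_succ (sw.dr v) ((hw.dv v).congr fun i z hz => (dv_cx sw v i hz).symm) ?_
      -- the differentiated equation
      have s1 : SM (fun i z => G i z * hm w i z) := sG.mul sw.hm
      have s2 : SM (fun i z => dm v G i z * hm w i z) := (sG.dm v).mul sw.hm
      have e1 : UH m (dv v (fun i z => (G i z * hm w i z).trace)) := hh.dv v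
      have e2 : UH m (fun i z => (dm v G i z * hm w i z).trace) :=
        UM.tr s2 (UM.mul (sG.dm v) sw.hm (hG.dm v).of_succ (UH.hm sw h2))
      refine (UH.sub (s1.tr.dv v) s2.tr e1 e2).congr fun i z hz => ?_
      rw [hm_dr sw v i hz, dm_tr s1 v i hz, dm_mul sG sw.hm v i hz, Matrix.trace_add]
      ring
    exact h3.congr fun i z hz => dv_cx sw v i hz

/-! ### Hölder bounds from derivative bounds -/

theorem h0_of_fderiv {F : ι → Cn n → ℂ} (sF : Sf F)
    (h : ∀ ρ : ℝ, 0 < ρ → ρ < 1 / 2 → ∃ M : ℝ, 0 ≤ M ∧ ∀ i, ∀ z ∈ closedBall (0 : Cn n) ρ,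
      ‖F i z‖ ≤ M ∧ ‖fderiv ℝ (F i) z‖ ≤ M) : H0 F := by
  intro ρ h0 h1
  obtain ⟨M, hM, H⟩ := h ρ h0 h1
  refine ⟨2 * M, by positivity, fun i => ⟨fun x hx => (H i x hx).1.trans (by linarith),
    fun x hx y hy => ?_⟩⟩
  have h3 : ‖F i x - F i y‖ ≤ M * ‖x - y‖ :=
    (convex_closedBall (0 : Cn n) ρ).norm_image_sub_le_of_norm_fderiv_le
      (fun w hw => sF.diff i (sub_half (closedBall_subset_ball h1 hw)))
      (fun w hw => (H i w hw).2) hy hx
  have h4 := le_two_rpow (norm_nonneg _) (norm_sub_le_two (by linarith : ρ ≤ 1) hx hy)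
  calc ‖F i x - F i y‖ ≤ M * ‖x - y‖ := h3
    _ ≤ M * (2 * ‖x - y‖ ^ (1 / 2 : ℝ)) := mul_le_mul_of_nonneg_left h4 hM
    _ = 2 * M * ‖x - y‖ ^ (1 / 2 : ℝ) := by ring

/-- bounded derivatives of all orders -/
def AB (F : ι → Cn n → ℂ) : Prop :=
  ∀ j : ℕ, ∃ K : ℝ, 0 ≤ K ∧ ∀ i, ∀ z ∈ ball (0 : Cn n) 1, ‖iteratedFDeriv ℝ j (F i) z‖ ≤ K

theorem norm_iter_dv {F : ι → Cn n → ℂ} (sF : Sf F) (v : Cn n) (j : ℕ) (i : ι) {z : Cn n}
    (hz : z ∈ ball (0 : Cn n) 1) : ‖iteratedFDeriv ℝ j (dv v F i) z‖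
      ≤ ‖v‖ * ‖iteratedFDeriv ℝ (j + 1) (F i) z‖ := by
  refine ContinuousMultilinearMap.opNorm_le_bound (by positivity) fun m => ?_
  have h1 := iter_succ sF i hz j (Fin.snoc (α := fun _ => Cn n) m v)
  rw [Fin.snoc_last, Fin.init_snoc] at h1
  rw [← h1]
  refine (ContinuousMultilinearMap.le_opNorm _ _).trans (le_of_eq ?_)
  rw [Fin.prod_univ_castSucc]
  simp only [Fin.snoc_castSucc, Fin.snoc_last]
  ring

theorem AB.dv {F : ι → Cn n → ℂ} (sF : Sf F) (h : AB F) (v : Cn n) : AB (dv v F) := fun j => by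
  obtain ⟨K, hK, H⟩ := h (j + 1)
  exact ⟨‖v‖ * K, by positivity, fun i z hz =>
    (norm_iter_dv sF v j i hz).trans (mul_le_mul_of_nonneg_left (H i z hz) (norm_nonneg _))⟩

theorem AB.h0 {F : ι → Cn n → ℂ} (sF : Sf F) (h : AB F) : H0 F := by
  refine h0_of_fderiv sF fun ρ h0 h1 => ?_
  obtain ⟨K0, hK0, H0⟩ := h 0
  obtain ⟨K1, hK1, H1⟩ := h 1
  refine ⟨max K0 K1, hK0.trans (le_max_left _ _), fun i z hz => ?_⟩
  have hz' := sub_half (closedBall_subset_ball h1 hz)
  have e0 := H0 i z hz'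
  have e1 := H1 i z hz'
  rw [norm_iteratedFDeriv_zero] at e0
  rw [norm_iteratedFDeriv_one] at e1
  exact ⟨e0.trans (le_max_left _ _), e1.trans (le_max_right _ _)⟩

theorem AB.uh {F : ι → Cn n → ℂ} (sF : Sf F) (h : AB F) (m : ℕ) : UH m F := by
  induction m generalizing F with
  | zero => exact h.h0 sF
  | succ m ih => exact ⟨h.h0 sF, fun v => ih (sF.dv v) (h.dv sF v)⟩

/-! ### the class `B1` -/

/-- `|F| ≤ M`, `|DF| ≤ M (1 + N)` -/
def B1 (N : ι → Cn n → ℝ) (F : ι → Cn n → ℂ) : Prop :=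
  ∃ M : ℝ, 0 ≤ M ∧ ∀ i, ∀ z ∈ ball (0 : Cn n) (1 / 2),
    ‖F i z‖ ≤ M ∧ ‖fderiv ℝ (F i) z‖ ≤ M * (1 + N i z)

variable {N : ι → Cn n → ℝ}

theorem B1.congr {F G : ι → Cn n → ℂ} (h : B1 N F)
    (e : ∀ i, ∀ z ∈ ball (0 : Cn n) 1, G i z = F i z) : B1 N G := by
  obtain ⟨M, hM, H⟩ := h
  refine ⟨M, hM, fun i z hz => ?_⟩
  have h1 : G i =ᶠ[𝓝 z] F i :=
    Filter.eventually_of_mem (isOpen_ball.mem_nhds (sub_half hz)) (e i)
  rw [e i z (sub_half hz), h1.fderiv_eq]
  exact H i z hz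

theorem B1.add {F G : ι → Cn n → ℂ} (sF : Sf F) (sG : Sf G) (h : B1 N F) (h' : B1 N G) :
    B1 N (fun i z => F i z + G i z) := by
  obtain ⟨M, hM, H⟩ := h
  obtain ⟨M', hM', H'⟩ := h'
  refine ⟨M + M', by positivity, fun i z hz => ?_⟩
  obtain ⟨a1, a2⟩ := H i z hz
  obtain ⟨b1, b2⟩ := H' i z hz
  refine ⟨(norm_add_le _ _).trans (add_le_add a1 b1), ?_⟩
  rw [fderiv_fun_add (sF.diff i (sub_half hz)) (sG.diff i (sub_half hz)), add_mul]
  exact (norm_add_le _ _).trans (add_le_add a2 b2)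

theorem B1.mul (hN : ∀ i z, 0 ≤ N i z) {F G : ι → Cn n → ℂ} (sF : Sf F) (sG : Sf G)
    (h : B1 N F) (h' : B1 N G) : B1 N (fun i z => F i z * G i z) := by
  obtain ⟨M, hM, H⟩ := h
  obtain ⟨M', hM', H'⟩ := h'
  refine ⟨2 * M * M', by positivity, fun i z hz => ?_⟩
  obtain ⟨a1, a2⟩ := H i z hz
  obtain ⟨b1, b2⟩ := H' i z hz
  have hN1 := hN i z
  constructor
  · rw [norm_mul]
    have := mul_le_mul a1 b1 (norm_nonneg _) hM
    nlinarith [mul_nonneg hM hM']
  · rw [fderiv_fun_mul (sF.diff i (sub_half hz)) (sG.diff i (sub_half hz))]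
    refine (norm_add_le _ _).trans ?_
    rw [norm_smul, norm_smul]
    have c1 := mul_le_mul a1 b2 (norm_nonneg _) hM
    have c2 := mul_le_mul b1 a2 (norm_nonneg _) hM'
    linarith

theorem B1.const (hN : ∀ i z, 0 ≤ N i z) (c : ℂ) : B1 N (fun (_ : ι) (_ : Cn n) => c) :=
  ⟨‖c‖, norm_nonneg _, fun i z _ => ⟨le_rfl, by
    have h1 : fderiv ℝ (fun _ : Cn n => c) z = 0 := by simp
    rw [h1, norm_zero]
    have := hN i z
    positivity⟩⟩

theorem B1.sum (hN : ∀ i z, 0 ≤ N i z) {κ : Type*} (s : Finset κ) {F : κ → ι → Cn n → ℂ}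
    (hs : ∀ k ∈ s, Sf (F k)) (h : ∀ k ∈ s, B1 N (F k)) : B1 N (fun i z => ∑ k ∈ s, F k i z) := by
  classical
  induction s using Finset.induction_on with
  | empty => simpa using B1.const hN 0
  | insert k s hk ih =>
    have h1 := B1.add (hs k (Finset.mem_insert_self k s))
      (Sf.sum s fun j hj => hs j (Finset.mem_insert_of_mem hj)) (h k (Finset.mem_insert_self k s))
      (ih (fun j hj => hs j (Finset.mem_insert_of_mem hj))
        fun j hj => h j (Finset.mem_insert_of_mem hj))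
    simpa only [Finset.sum_insert hk] using h1

theorem B1.const_mul (hN : ∀ i z, 0 ≤ N i z) {F : ι → Cn n → ℂ} (sF : Sf F) (h : B1 N F) (c : ℂ) :
    B1 N (fun i z => c * F i z) := B1.mul hN (Sf.const fun _ => c) sF (B1.const hN c) h

theorem B1.matmul (hN : ∀ i z, 0 ≤ N i z) {A B : MF ι n} (sA : SM A) (sB : SM B)
    (h : ∀ a b, B1 N (en A a b)) (h' : ∀ a b, B1 N (en B a b)) (a b : Fin n) :
    B1 N (en (fun i z => A i z * B i z) a b) :=
  B1.sum hN Finset.univ (fun c _ => (sA a c).mul (sB c b))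
    (fun c _ => B1.mul hN (sA a c) (sB c b) (h a c) (h' c b))

end

end Crest.Agent.R281.LioD_346
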