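import Crest.Agent.R281.SIn_14
import Crest.Agent.R281.Fra3_922

/-!
# Row 281 (S0424), S-ASM (helper790): frame bounds on a ball give the strip of `SIn_14`

`F : M → (Fin n → ℂ)` chartwise holomorphic without zeros on `bX K y R`,
`qf v ≤ (C |dlog F v|)²`, `|dlog F_j v|² ≤ C'² qf v` there, fibres of at most `d` points:
`StripOut K F y C C' R r d ζ0 Lam Φ` (Strip of SIn_14, pinching, the image contains balls).
-/

set_option autoImplicit false
set_option linter.unusedSectionVars false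

open Set Filter Topology Complex Metric Manifold Bundle
open scoped ContDiff Matrix ComplexConjugate Manifold Bundle ComplexOrder

namespace Crest.Agent.R281.SG2_790

open Crest.Agent.R275.Geo
open Crest.Agent.R273.Defs_333
open Crest.Agent.R273.Kah_333
open Crest.Agent.R273.Ric_798 Crest.Agent.R273.RMan_798 Crest.Agent.R273.RMan4_798
open Crest.Agent.R281.Tor_922 Crest.Agent.R281.SAsm_790 Crest.Agent.R281.Fra_922
open Crest.Agent.R281.SIn_14

noncomputable section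

variable {n : ℕ} {M : Type} [TopologicalSpace M] {A : Atl n M}



theorem jac_mulVec (Φ : (Fin n → ℂ) → M) (i : A.ι) (ζ v : Fin n → ℂ) (b : Fin n) :
    (jac A Φ i ζ *ᵥ v) b = (fderiv ℂ (fun w => A.e i (Φ w)) ζ v) b := by
  have hv : v = ∑ c, v c • (Pi.single c (1 : ℂ) : Fin n → ℂ) := by
    ext b
    simp [Finset.sum_apply, Pi.single_apply]
  conv_rhs => rw [hv]
  simp only [map_sum, map_smul]
  simp [Matrix.mulVec, dotProduct, jac, mul_comm]

/-- the strip of `SIn_14` over a ball of the manifold -/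
structure StripOut [T2Space M] [ConnectedSpace M] (K : Kah A) (F : M → Fin n → ℂ)
    (y : (ofKah K).M) (C C' R r : ℝ) (d : ℕ) (ζ0 : Fin n → ℂ) (Lam : AddSubgroup (Fin n → ℂ))
    (Φ : (Fin n → ℂ) → M) : Prop where
  str : Strip A F d ζ0 r Lam Φ
  base : Φ ζ0 = y
  mem : ∀ ζ ∈ strip ζ0 r, Φ ζ ∈ bX K y R
  up : ∀ ζ ∈ strip ζ0 r, ∀ i, Φ ζ ∈ (A.e i).source → ∀ v : Fin n → ℂ,
    qf K i (Φ ζ) (fderiv ℂ (fun w => A.e i (Φ w)) ζ v) ≤ C ^ 2 * ∑ j, ‖v j‖ ^ 2
  lo : ∀ ζ ∈ strip ζ0 r, ∀ i, Φ ζ ∈ (A.e i).source → ∀ v : Fin n → ℂ,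
    ∑ j, ‖v j‖ ^ 2 ≤ n * C' ^ 2 * qf K i (Φ ζ) (fderiv ℂ (fun w => A.e i (Φ w)) ζ v)
  ball_sub : ∀ ρ : ℝ, C' * ρ ≤ r → ρ ≤ R → bX K y ρ ⊆ Φ '' strip ζ0 r


end

end Crest.Agent.R281.SG2_790
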