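import Crest.Agent.R281.Glob1_484
import Crest.Agent.R281.LioC3_346
import Crest.Agent.R273.YauMax_635
import Crest.Agent.R281.SIn_14
import Crest.Agent.R281.LioD_346
import Crest.Agent.R273.C2a_793
import Crest.Agent.R266.SCV
import Crest.Agent.R281.SG2_790
import Crest.Agent.R273.Vm_333
import Mathlib.MeasureTheory.Measure.Haar.Unique
import Mathlib.MeasureTheory.Constructions.Polish.Basic
import Crest.Agent.R275.FmP_96
import Crest.Agent.R281.HfG1_615

-- ▼ part R281/SPot1_790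
section

/-!
# Row 281 (S0424), S-ASM (helper790): the potential on the strip

`Ψ : U ⊆ ℂⁿ → M` continuous, holomorphic in the charts (`HolM A U Ψ`), `s` a section of `L` without
zeros on `Ψ(U)`, `cur h = c⁻¹ K.g`.

* `Jc A Ψ i z`     : Jacobian matrix of `e_i ∘ Ψ`
* `pot h s c Ψ`    : `- c log |s|²_h ∘ Ψ`, smooth on `U` (`pot_smooth`)
* `hess_pot`       : `∂∂̄ pot = Jᵀ g J̄`
-/

set_option autoImplicit false
set_option linter.unusedSectionVars false

open Set Filter Topology Complex Metric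
open scoped ContDiff Matrix ComplexConjugate ComplexOrder

namespace Crest.Agent.R281.SPot_790

open Crest.Agent.R275 Crest.Agent.R275.Geo Crest.Agent.R275.Core144 Crest.Agent.R275.EDR890
open Crest.Agent.R273.Defs_333 Crest.Agent.R273.Hess_333 Crest.Agent.R273.HessB_333
open Crest.Agent.R273.HM_333 Crest.Agent.R273.Kah_333 Crest.Agent.R273.Vol_333
open Crest.Agent.R281.Glob1_484 (nsM nsM_eq nsM_nonneg sm_nsM hol_at cd_at)

noncomputable section

variable {n : ℕ} {M : Type} [TopologicalSpace M] {A : Atl n M} {L : LB A}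

/-- continuous and holomorphic in the charts -/
structure HolM (A : Atl n M) (U : Set (Cn n)) (Ψ : Cn n → M) : Prop where
  cont : ContinuousOn Ψ U
  hol : ∀ i, DifferentiableOn ℂ (fun z => A.e i (Ψ z)) (U ∩ Ψ ⁻¹' (A.e i).source)

/-- Jacobian matrix of `e_i ∘ Ψ` -/
def Jc (A : Atl n M) (Ψ : Cn n → M) (i : A.ι) (z : Cn n) : Matrix (Fin n) (Fin n) ℂ :=
  Matrix.of fun c a => (fderiv ℂ (fun w => A.e i (Ψ w)) z (EuclideanSpace.single a 1)) c

variable {U : Set (Cn n)} {Ψ : Cn n → M}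

theorem HolM.isOpen (h : HolM A U Ψ) (hU : IsOpen U) (i : A.ι) :
    IsOpen (U ∩ Ψ ⁻¹' (A.e i).source) :=
  h.cont.isOpen_inter_preimage hU (A.e i).open_source

theorem HolM.diffAt (h : HolM A U Ψ) (hU : IsOpen U) {i : A.ι} {z : Cn n} (hz : z ∈ U)
    (hi : Ψ z ∈ (A.e i).source) : ∀ᶠ w in 𝓝 z, DifferentiableAt ℂ (fun w => A.e i (Ψ w)) w := by
  filter_upwards [(h.isOpen hU i).mem_nhds ⟨hz, hi⟩] with w hw
  exact (h.hol i).differentiableAt ((h.isOpen hU i).mem_nhds hw)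

theorem HolM.contDiffOn (h : HolM A U Ψ) (hU : IsOpen U) (i : A.ι) :
    ContDiffOn ℝ ∞ (fun z => A.e i (Ψ z)) (U ∩ Ψ ⁻¹' (A.e i).source) :=
  ((Crest.Agent.R266.SCV.contDiffOn_omega_of_differentiableOn (h.isOpen hU i)
    (h.hol i)).restrict_scalars ℝ).of_le le_top

theorem hsf_log_nsM (h : HM L) {s : A.ι → M → ℂ} (hs : IsHS L univ s) {i : A.ι}
    {x : M} (hx : x ∈ (A.e i).source) (hp : 0 < nsM h s x) :
    hsf A (fun y => Real.log (nsM h s y)) i x = - cur h i x := by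
  have hz := (A.e i).map_source hx
  have h0 : s i x ≠ 0 := by
    intro h0
    rw [nsM_eq h hs hx, nsq, h0] at hp
    simp at hp
  have h0' : (fun w => s i ((A.e i).symm w)) (A.e i x) ≠ 0 := by
    show s i ((A.e i).symm (A.e i x)) ≠ 0
    rw [(A.e i).left_inv hx]; exact h0
  have hhol := hol_at hs i hz
  have h1 : (fun z => Real.log (nsM h s ((A.e i).symm z))) =ᶠ[𝓝 (A.e i x)]
      fun z => Real.log (‖s i ((A.e i).symm z)‖ ^ 2) - h.wt i z := by
    have hc : ContinuousAt (fun w => s i ((A.e i).symm w)) (A.e i x) :=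
      hhol.self_of_nhds.continuousAt
    filter_upwards [hc.eventually_ne h0', (A.e i).open_target.mem_nhds hz] with z hz1 hz2
    have hz3 := (A.e i).map_target hz2
    rw [nsM_eq h hs hz3, nsq, HM.wt, Real.log_mul _ (h.pos i _ hz3).ne', sub_neg_eq_add]
    exact pow_ne_zero 2 (norm_ne_zero_iff.2 hz1)
  have hw : ContDiffAt ℝ ∞ (h.wt i) (A.e i x) :=
    (wt_smooth h i).contDiffAt ((A.e i).open_target.mem_nhds hz)
  have hs2 : ContDiffAt ℝ ∞ (fun z => Real.log (‖s i ((A.e i).symm z)‖ ^ 2)) (A.e i x) := by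
    have h3 := ((cd_at hs i).norm_sq ℝ).contDiffAt ((A.e i).open_target.mem_nhds hz)
    exact h3.log (pow_ne_zero 2 (norm_ne_zero_iff.2 h0'))
  show hess (fun z => Real.log (nsM h s ((A.e i).symm z))) (A.e i x) = _
  rw [hess_congr h1, hess_sub hs2 hw, hess_log_norm hhol h0', zero_sub]
  rfl

/-- the potential -/
def pot (h : HM L) (s : A.ι → M → ℂ) (c : ℝ) (Ψ : Cn n → M) (z : Cn n) : ℝ :=
  -c * Real.log (nsM h s (Ψ z))

theorem log_nsM_smooth (h : HM L) {s : A.ι → M → ℂ} (hs : IsHS L univ s) {i : A.ι} {x : M}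
    (hx : x ∈ (A.e i).source) (hp : 0 < nsM h s x) :
    ContDiffAt ℝ ∞ (fun w => Real.log (nsM h s ((A.e i).symm w))) (A.e i x) := by
  have h1 : ContDiffAt ℝ ∞ (fun w => nsM h s ((A.e i).symm w)) (A.e i x) :=
    (sm_nsM h hs i).contDiffAt ((A.e i).open_target.mem_nhds ((A.e i).map_source hx))
  refine h1.log ?_
  rw [(A.e i).left_inv hx]
  exact hp.ne'

theorem pot_ev (h : HM L) (s : A.ι → M → ℂ) (c : ℝ) (hΨ : HolM A U Ψ) (hU : IsOpen U) {i : A.ι}
    {z : Cn n} (hz : z ∈ U) (hi : Ψ z ∈ (A.e i).source) :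
    pot h s c Ψ =ᶠ[𝓝 z] fun w => (fun y => -c * Real.log (nsM h s ((A.e i).symm y)))
      (A.e i (Ψ w)) := by
  filter_upwards [(hΨ.isOpen hU i).mem_nhds ⟨hz, hi⟩] with w hw
  have : (A.e i).symm (A.e i (Ψ w)) = Ψ w := (A.e i).left_inv hw.2
  simp only [pot, this]

theorem pot_smooth (h : HM L) {s : A.ι → M → ℂ} (hs : IsHS L univ s) (c : ℝ) (hΨ : HolM A U Ψ)
    (hU : IsOpen U) (hne : ∀ z ∈ U, 0 < nsM h s (Ψ z)) : ContDiffOn ℝ ∞ (pot h s c Ψ) U := by
  intro z hz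
  obtain ⟨i, hi⟩ := A.cover (Ψ z)
  refine ContDiffAt.contDiffWithinAt ?_
  refine ContDiffAt.congr_of_eventuallyEq ?_ (pot_ev h s c hΨ hU hz hi)
  have h1 : ContDiffAt ℝ ∞ (fun w => A.e i (Ψ w)) z :=
    (hΨ.contDiffOn hU i).contDiffAt ((hΨ.isOpen hU i).mem_nhds ⟨hz, hi⟩)
  have h2 : ContDiffAt ℝ ∞ (fun y => -c * Real.log (nsM h s ((A.e i).symm y))) (A.e i (Ψ z)) :=
    contDiffAt_const.mul (log_nsM_smooth h hs hi (hne z hz))
  exact ContDiffAt.comp (g := fun y => -c * Real.log (nsM h s ((A.e i).symm y)))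
    (f := fun w => A.e i (Ψ w)) z h2 h1

/-- **the Hessian of the potential is the pull-back of the metric** -/
theorem hess_pot (K : Kah A) (h : HM L) {s : A.ι → M → ℂ} (hs : IsHS L univ s) {c : ℝ}
    (hc : c ≠ 0) (hΨ : HolM A U Ψ) (hU : IsOpen U) {z : Cn n} (hz : z ∈ U)
    (hne : 0 < nsM h s (Ψ z)) {i : A.ι} (hi : Ψ z ∈ (A.e i).source)
    (hcur : cur h i (Ψ z) = (c⁻¹ : ℂ) • K.g i (Ψ z)) :
    hess (pot h s c Ψ) z = (Jc A Ψ i z)ᵀ * K.g i (Ψ z) * (Jc A Ψ i z).map conj := by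
  have h2 := log_nsM_smooth h hs hi hne
  have h3 : ContDiffAt ℝ ∞ (fun y => -c * Real.log (nsM h s ((A.e i).symm y))) (A.e i (Ψ z)) :=
    contDiffAt_const.mul h2
  have h4 : hess (fun y => -c * Real.log (nsM h s ((A.e i).symm y))) (A.e i (Ψ z)) =
      K.g i (Ψ z) := by
    have h5 := hsf_log_nsM h hs hi hne
    have h6 : hess (fun y => -c * Real.log (nsM h s ((A.e i).symm y))) (A.e i (Ψ z)) =
        ((-c : ℝ) : ℂ) • hess (fun y => Real.log (nsM h s ((A.e i).symm y))) (A.e i (Ψ z)) :=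
      hess_const_mul (-c) h2
    rw [h6]
    have h7 : hess (fun y => Real.log (nsM h s ((A.e i).symm y))) (A.e i (Ψ z)) =
      - cur h i (Ψ z) := h5
    rw [h7, hcur, smul_neg, smul_smul]
    have hc' : (c : ℂ) ≠ 0 := by exact_mod_cast hc
    push_cast
    rw [neg_mul, mul_inv_cancel₀ hc', neg_smul, one_smul, neg_neg]
  rw [hess_congr (pot_ev h s c hΨ hU hz hi)]
  ext a b
  rw [hess_comp (u := fun y => -c * Real.log (nsM h s ((A.e i).symm y)))
    (T := fun w => A.e i (Ψ w)) h3 (hΨ.diffAt hU hz hi), h4]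
  simp only [Matrix.mul_apply, Matrix.transpose_apply, Matrix.map_apply, Finset.sum_mul]
  rw [Finset.sum_comm]
  rfl

end

end Crest.Agent.R281.SPot_790
end

-- ▼ part R281/SPot2_790
section

/-!
# Row 281 (S0424), S-ASM (helper790): potential and determinant of the metric on the strip

`Ψ : U ⊆ ℂⁿ → M` holomorphic in charts.
* `Jc_tr`    : `Jc j = Jm i j * Jc i`
* `omJ`      : `det (Jc i z) * om_i (Ψ z)`, independent of `i` (`omJ_eq`), holomorphic (`omJ_diff`)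
* `det_pull` : `det (Jᵀ g J̄) = |omJ|²` if `det g = |om|²`
* `pu K Ψ z` : the pulled back metric (chart `ch A (Ψ z)`), `pu_eq`
-/

set_option autoImplicit false
set_option linter.unusedSectionVars false

open Set Filter Topology Complex Metric
open scoped ContDiff Matrix ComplexConjugate ComplexOrder

namespace Crest.Agent.R281.SPot_790

open Crest.Agent.R275 Crest.Agent.R275.Geo Crest.Agent.R275.Core144 Crest.Agent.R275.EDR890
open Crest.Agent.R273.Defs_333 Crest.Agent.R273.Hess_333 Crest.Agent.R273.HessB_333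
open Crest.Agent.R273.HM_333 Crest.Agent.R273.Kah_333 Crest.Agent.R273.Vol_333
open Crest.Agent.R273.FIb0_597
open Crest.Agent.R281.Glob1_484 (nsM nsM_eq nsM_nonneg sm_nsM hol_at cd_at)

noncomputable section

variable {n : ℕ} {M : Type} [TopologicalSpace M] {A : Atl n M} {L : LB A}
  {U : Set (Cn n)} {Ψ : Cn n → M}

theorem lin_sum (T : Cn n →L[ℂ] Cn n) (v : Cn n) (b : Fin n) :
    (T v) b = ∑ c, (T (EuclideanSpace.single c 1)) b * v c := by
  have hv : v = ∑ c, v c • EuclideanSpace.single c (1 : ℂ) := by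
    ext b
    simp [Finset.sum_apply, Pi.single_apply]
  conv_lhs => rw [hv]
  simp only [map_sum, map_smul]
  simp [Finset.sum_apply, mul_comm]

theorem Jc_tr (hΨ : HolM A U Ψ) (hU : IsOpen U) {i j : A.ι} {z : Cn n} (hz : z ∈ U)
    (hi : Ψ z ∈ (A.e i).source) (hj : Ψ z ∈ (A.e j).source) :
    Jc A Ψ j z = Jm A i j (Ψ z) * Jc A Ψ i z := by
  have h1 : (fun w => A.e j (Ψ w)) =ᶠ[𝓝 z]
      (fun y => A.e j ((A.e i).symm y)) ∘ fun w => A.e i (Ψ w) := by
    filter_upwards [(hΨ.isOpen hU i).mem_nhds ⟨hz, hi⟩] with w hw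
    have : (A.e i).symm (A.e i (Ψ w)) = Ψ w := (A.e i).left_inv hw.2
    simp only [Function.comp, this]
  have h2 : DifferentiableAt ℂ (fun y => A.e j ((A.e i).symm y)) (A.e i (Ψ z)) := by
    have ho : IsOpen (A.ov i j) := isOpen_ov i j
    exact (A.holo i j).differentiableAt (ho.mem_nhds (mem_ov ⟨hi, hj⟩))
  have h3 : DifferentiableAt ℂ (fun w => A.e i (Ψ w)) z := (hΨ.diffAt hU hz hi).self_of_nhds
  have h4 : fderiv ℂ (fun w => A.e j (Ψ w)) z =
      (fderiv ℂ (fun y => A.e j ((A.e i).symm y)) (A.e i (Ψ z))).comp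
        (fderiv ℂ (fun w => A.e i (Ψ w)) z) := by
    rw [h1.fderiv_eq]
    exact fderiv_comp z h2 h3
  ext b a
  rw [Matrix.mul_apply]
  simp only [Jc, Matrix.of_apply, h4, ContinuousLinearMap.comp_apply]
  rw [lin_sum]
  rfl

/-- the pulled back metric -/
def pu (K : Kah A) (Ψ : Cn n → M) (z : Cn n) : Matrix (Fin n) (Fin n) ℂ :=
  (Jc A Ψ (ch A (Ψ z)) z)ᵀ * K.g (ch A (Ψ z)) (Ψ z) * (Jc A Ψ (ch A (Ψ z)) z).map conj


/-- `det (Jc) * om` -/
def omJ (om : A.ι → M → ℂ) (Ψ : Cn n → M) (z : Cn n) : ℂ :=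
  (Jc A Ψ (ch A (Ψ z)) z).det * om (ch A (Ψ z)) (Ψ z)

theorem omJ_eq {om : A.ι → M → ℂ} (hom : IsHS (KB A) univ om) (hΨ : HolM A U Ψ) (hU : IsOpen U)
    {i : A.ι} {z : Cn n} (hz : z ∈ U) (hi : Ψ z ∈ (A.e i).source) :
    omJ om Ψ z = (Jc A Ψ i z).det * om i (Ψ z) := by
  have hc := mem_ch A (Ψ z)
  rw [omJ, Jc_tr hΨ hU hz hi hc, Matrix.det_mul, hom.tr i (ch A (Ψ z)) (Ψ z) ⟨hi, hc⟩
    (mem_univ _), KB_g ⟨hi, hc⟩]
  ring

theorem Jc_diff (hΨ : HolM A U Ψ) (hU : IsOpen U) {i : A.ι} (c a : Fin n) :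
    DifferentiableOn ℂ (fun z => Jc A Ψ i z c a) (U ∩ Ψ ⁻¹' (A.e i).source) := by
  have h1 : DifferentiableOn ℂ (fderiv ℂ (fun w => A.e i (Ψ w))) (U ∩ Ψ ⁻¹' (A.e i).source) :=
    ((Crest.Agent.R266.SCV.analyticOnNhd_of_differentiableOn (hΨ.isOpen hU i)
      (hΨ.hol i)).fderiv).differentiableOn
  have h2 : DifferentiableOn ℂ (fun z => fderiv ℂ (fun w => A.e i (Ψ w)) z
      (EuclideanSpace.single a 1)) (U ∩ Ψ ⁻¹' (A.e i).source) :=
    h1.clm_apply (differentiableOn_const _)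
  exact ((EuclideanSpace.proj c : Cn n →L[ℂ] ℂ).differentiable).comp_differentiableOn h2

theorem omJ_diff {om : A.ι → M → ℂ} (hom : IsHS (KB A) univ om) (hΨ : HolM A U Ψ) (hU : IsOpen U) :
    DifferentiableOn ℂ (omJ om Ψ) U := by
  intro z hz
  obtain ⟨i, hi⟩ := A.cover (Ψ z)
  have hO := (hΨ.isOpen hU i).mem_nhds ⟨hz, hi⟩
  have h1 : omJ om Ψ =ᶠ[𝓝 z] fun w => (Jc A Ψ i w).det * om i (Ψ w) := by
    filter_upwards [hO] with w hw
    exact omJ_eq hom hΨ hU hw.1 hw.2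
  refine DifferentiableAt.differentiableWithinAt ?_
  refine DifferentiableAt.congr_of_eventuallyEq ?_ h1
  have h2 : DifferentiableAt ℂ (fun w => (Jc A Ψ i w).det) z := by
    simp only [Matrix.det_apply]
    refine DifferentiableAt.fun_sum fun σ _ => ?_
    refine DifferentiableAt.const_smul ?_ _
    have hp : ∀ S : Finset (Fin n), DifferentiableAt ℂ
        (fun w => ∏ b ∈ S, Jc A Ψ i w (σ b) b) z := by
      intro S
      induction S using Finset.induction_on with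
      | empty => simp
      | insert b S hb ih =>
        simp only [Finset.prod_insert hb]
        exact ((Jc_diff hΨ hU (σ b) b).differentiableAt hO).mul ih
    exact hp _
  have h3 : DifferentiableAt ℂ (fun w => om i (Ψ w)) z := by
    have h4 : DifferentiableAt ℂ (fun y => om i ((A.e i).symm y)) (A.e i (Ψ z)) :=
      (hom.hol i).diffAt isOpen_univ hi (mem_univ _)
    have h5 : DifferentiableAt ℂ (fun w => A.e i (Ψ w)) z := (hΨ.diffAt hU hz hi).self_of_nhds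
    have h6 := DifferentiableAt.comp (g := fun y => om i ((A.e i).symm y))
      (f := fun w => A.e i (Ψ w)) z h4 h5
    refine h6.congr_of_eventuallyEq ?_
    filter_upwards [hO] with w hw
    have : (A.e i).symm (A.e i (Ψ w)) = Ψ w := (A.e i).left_inv hw.2
    simp only [Function.comp, this]
  exact h2.mul h3

/-- **determinant of the pulled back metric** -/
theorem det_pu (K : Kah A) {om : A.ι → M → ℂ}
    (homn : ∀ i, ∀ x ∈ (A.e i).source, ‖om i x‖ ^ 2 = (K.g i x).det.re) (z : Cn n) :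
    (pu K Ψ z).det = ((‖omJ om Ψ z‖ ^ 2 : ℝ) : ℂ) := by
  have hc := mem_ch A (Ψ z)
  have h1 : (((K.g (ch A (Ψ z)) (Ψ z)).det.re : ℝ) : ℂ) = (K.g (ch A (Ψ z)) (Ψ z)).det :=
    det_real (K.pos _ _ hc).1
  rw [pu, Matrix.det_mul, Matrix.det_mul, Matrix.det_transpose, ← h1, ← homn _ _ hc, omJ, norm_mul,
    mul_pow]
  have h2 : ((Jc A Ψ (ch A (Ψ z)) z).map conj).det = conj (Jc A Ψ (ch A (Ψ z)) z).det := by
    rw [← RingHom.mapMatrix_apply, ← RingHom.map_det]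
  rw [h2]
  push_cast
  rw [← Complex.mul_conj' (Jc A Ψ (ch A (Ψ z)) z).det]
  ring

/-- **the Hessian of the potential is the pulled back metric** -/
theorem hess_pot_pu (K : Kah A) (h : HM L) {s : A.ι → M → ℂ} (hs : IsHS L univ s) {c : ℝ}
    (hc : c ≠ 0) (hΨ : HolM A U Ψ) (hU : IsOpen U)
    (hcur : ∀ i, ∀ x ∈ (A.e i).source, cur h i x = (c⁻¹ : ℂ) • K.g i x) {z : Cn n} (hz : z ∈ U)
    (hne : 0 < nsM h s (Ψ z)) : hess (pot h s c Ψ) z = pu K Ψ z :=
  hess_pot K h hs hc hΨ hU hz hne (mem_ch A (Ψ z)) (hcur _ _ (mem_ch A (Ψ z)))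

end

end Crest.Agent.R281.SPot_790
end

-- ▼ part R281/LioE_346
section

/-!
# R281 (S0424), leaf S-T7, part 5 (helper346): linear algebra of pinched Hermitian matrices and the
differentiated Monge-Ampere equation

* `ell_entry` : entries of a pinched matrix
* `ell_inv`   : the inverse of a pinched matrix is pinched
* `ell_of_lev`: pinched Levi form = pinched complex Hessian
* `norm_mult_le` : norm of a multilinear map on `Cn n` from the values on a real basis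
-/

set_option autoImplicit false
set_option linter.unusedSectionVars false

open Set Filter Topology Complex Metric
open scoped ContDiff Matrix ComplexConjugate

namespace Crest.Agent.R281.LioE_346

open Crest.Agent.R275.Geo Crest.Agent.R273.SchE_152 Crest.Agent.R273.YauDefs_635
  Crest.Agent.R273.Defs_333 Crest.Agent.R273.HessB_333 Crest.Agent.R273.Hess_333

noncomputable section

variable {n : ℕ}

/-! ### pinched matrices -/

theorem form_expand (G : Matrix (Fin n) (Fin n) ℂ) (x y : Fin n → ℂ) :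
    star (x + y) ⬝ᵥ (G *ᵥ (x + y)) - star (x - y) ⬝ᵥ (G *ᵥ (x - y))
      = 2 * (star x ⬝ᵥ (G *ᵥ y) + star y ⬝ᵥ (G *ᵥ x)) := by
  simp only [star_add, star_sub, Matrix.mulVec_add, Matrix.mulVec_sub, add_dotProduct,
    sub_dotProduct, dotProduct_add, dotProduct_sub]
  ring

theorem form_herm {G : Matrix (Fin n) (Fin n) ℂ} (hG : G.IsHermitian) (x y : Fin n → ℂ) :
    star y ⬝ᵥ (G *ᵥ x) = conj (star x ⬝ᵥ (G *ᵥ y)) := by
  have h1 : conj (star x ⬝ᵥ (G *ᵥ y)) = star (star x ⬝ᵥ (G *ᵥ y)) := rfl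
  rw [h1, ← Matrix.star_dotProduct_star, star_star, Matrix.star_mulVec, hG.eq, dotProduct_comm,
    ← Matrix.dotProduct_mulVec]
  exact dotProduct_comm _ _

theorem sum_norm_single (a : Fin n) (c : ℂ) : ∑ i, ‖(Pi.single a c : Fin n → ℂ) i‖ ^ 2 = ‖c‖ ^ 2 := by
  rw [Finset.sum_eq_single a]
  · simp
  · intro b _ hb
    simp [Pi.single_eq_of_ne hb]
  · intro h
    exact absurd (Finset.mem_univ a) h

theorem sum_norm_add_le (x y : Fin n → ℂ) :
    ∑ i, ‖(x + y) i‖ ^ 2 ≤ 2 * ∑ i, ‖x i‖ ^ 2 + 2 * ∑ i, ‖y i‖ ^ 2 := by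
  rw [Finset.mul_sum, Finset.mul_sum, ← Finset.sum_add_distrib]
  refine Finset.sum_le_sum fun i _ => ?_
  have h1 : ‖x i + y i‖ ≤ ‖x i‖ + ‖y i‖ := norm_add_le _ _
  have h2 : ‖x i + y i‖ ^ 2 ≤ (‖x i‖ + ‖y i‖) ^ 2 := pow_le_pow_left₀ (norm_nonneg _) h1 2
  show ‖x i + y i‖ ^ 2 ≤ _
  nlinarith [sq_nonneg (‖x i‖ - ‖y i‖)]

theorem re_form_le {lo hi : ℝ} (hlo : 0 ≤ lo) {G : Matrix (Fin n) (Fin n) ℂ} (hG : EllC lo hi G)
    (x y : Fin n → ℂ) (hx : ∑ i, ‖x i‖ ^ 2 = 1) (hy : ∑ i, ‖y i‖ ^ 2 = 1) (hhi : 0 ≤ hi) :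
    (star x ⬝ᵥ (G *ᵥ y)).re ≤ hi := by
  have h1 := form_expand G x y
  rw [form_herm hG.1 x y] at h1
  have h2 := congrArg Complex.re h1
  simp only [Complex.sub_re, Complex.mul_re, Complex.add_re, Complex.re_ofNat, Complex.conj_re,
    Complex.im_ofNat, zero_mul, sub_zero] at h2
  have h3 := (hG.2 (x + y)).2
  have h4 := (hG.2 (x - y)).1
  have h5 : 0 ≤ ∑ i, ‖(x - y) i‖ ^ 2 := Finset.sum_nonneg fun i _ => by positivity
  have h6 := sum_norm_add_le x y
  rw [hx, hy] at h6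
  have h7 : hi * ∑ i, ‖(x + y) i‖ ^ 2 ≤ hi * (2 * 1 + 2 * 1) := mul_le_mul_of_nonneg_left h6 hhi
  have h8 : 0 ≤ lo * ∑ i, ‖(x - y) i‖ ^ 2 := mul_nonneg hlo h5
  linarith

theorem ell_entry {lo hi : ℝ} (hlo : 0 ≤ lo) (hhi : 0 ≤ hi) {G : Matrix (Fin n) (Fin n) ℂ}
    (hG : EllC lo hi G) (a b : Fin n) : ‖G a b‖ ≤ 2 * hi := by
  have key : ∀ c : ℂ, ‖c‖ = 1 → (G a b * c).re ≤ hi := by
    intro c hc
    have h1 := re_form_le hlo hG (Pi.single a 1) (Pi.single b c)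
      (by rw [sum_norm_single]; simp) (by rw [sum_norm_single, hc]; simp) hhi
    have h2 : star (Pi.single a (1 : ℂ) : Fin n → ℂ) = Pi.single a 1 := by
      ext i
      by_cases h : i = a
      · subst h; simp
      · simp [Pi.single_eq_of_ne h]
    rw [h2, single_dotProduct, one_mul, Matrix.mulVec, dotProduct_single] at h1
    exact h1
  have h1 := key 1 (by simp)
  have h2 := key (-1) (by simp)
  have h3 := key I (by simp)
  have h4 := key (-I) (by simp)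
  simp only [mul_one, mul_neg, Complex.neg_re, Complex.mul_I_re, neg_neg] at h1 h2 h3 h4
  have h5 := Complex.norm_le_abs_re_add_abs_im (G a b)
  have h6 : |(G a b).re| ≤ hi := abs_le.2 ⟨by linarith, h1⟩
  have h7 : |(G a b).im| ≤ hi := abs_le.2 ⟨by linarith, by linarith⟩
  linarith

theorem dot_cs (x y : Fin n → ℂ) :
    ‖star x ⬝ᵥ y‖ ^ 2 ≤ (∑ i, ‖x i‖ ^ 2) * ∑ i, ‖y i‖ ^ 2 := by
  have h1 : ‖star x ⬝ᵥ y‖ ≤ ∑ i, ‖x i‖ * ‖y i‖ := by
    refine (norm_sum_le _ _).trans (le_of_eq ?_)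
    refine Finset.sum_congr rfl fun i _ => ?_
    rw [norm_mul, Pi.star_apply, norm_star]
  refine (pow_le_pow_left₀ (norm_nonneg _) h1 2).trans ?_
  exact Finset.sum_mul_sq_le_sq_mul_sq _ _ _

/-- the inverse of a pinched matrix -/
theorem ell_inv {lo hi : ℝ} (hlo : 0 < lo) (hhi : 0 < hi) {G : Matrix (Fin n) (Fin n) ℂ}
    (hG : EllC lo hi G) (hd : G.det ≠ 0) : EllC (lo / hi ^ 2) (1 / lo) G⁻¹ := by
  refine ⟨hG.1.inv, fun ζ => ?_⟩
  have hu : IsUnit G.det := isUnit_iff_ne_zero.2 hd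
  set η : Fin n → ℂ := G⁻¹ *ᵥ ζ with hη
  have h1 : G *ᵥ η = ζ := by
    rw [hη, Matrix.mulVec_mulVec, Matrix.mul_nonsing_inv G hu, Matrix.one_mulVec]
  have h2 : (star ζ ⬝ᵥ η).re = (star η ⬝ᵥ (G *ᵥ η)).re := by
    have h3 : star ζ ⬝ᵥ η = conj (star η ⬝ᵥ (G *ᵥ η)) := by
      rw [← form_herm hG.1 η η, h1]
      have h4 : star η ⬝ᵥ ζ = conj (star ζ ⬝ᵥ η) := by
        have : conj (star ζ ⬝ᵥ η) = star (star ζ ⬝ᵥ η) := rfl
        rw [this, ← Matrix.star_dotProduct_star, star_star, dotProduct_comm]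
      have h5 : star η ⬝ᵥ (G *ᵥ η) = conj (star η ⬝ᵥ (G *ᵥ η)) := form_herm hG.1 η η
      rw [h1] at h5
      rw [h5, h4, Complex.conj_conj]
    rw [h3, Complex.conj_re]
  have hE := hG.2 η
  set Z : ℝ := ∑ a, ‖ζ a‖ ^ 2 with hZ
  set E : ℝ := ∑ a, ‖η a‖ ^ 2 with hEd
  have hZ0 : 0 ≤ Z := Finset.sum_nonneg fun i _ => by positivity
  have hE0 : 0 ≤ E := Finset.sum_nonneg fun i _ => by positivity
  set q : ℝ := (star ζ ⬝ᵥ η).re with hq
  rw [← h2] at hE
  have h6 : q ^ 2 ≤ Z * E := by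
    refine le_trans ?_ (dot_cs ζ η)
    rw [hq]
    exact (sq_le_sq' (by linarith [neg_abs_le (star ζ ⬝ᵥ η).re,
      Complex.abs_re_le_norm (star ζ ⬝ᵥ η)]) ((le_abs_self _).trans (Complex.abs_re_le_norm _)))
  have hq0 : 0 ≤ q := le_trans (by positivity) hE.1
  -- `|ζ|^2 = ζ^* G η ≤ hi |ζ| |η|`
  have h8 : Z ≤ hi ^ 2 * E := by
    have form_cs : ∀ x y : Fin n → ℂ, (star x ⬝ᵥ (G *ᵥ y)).re ^ 2 ≤
        (hi * ∑ i, ‖x i‖ ^ 2) * (hi * ∑ i, ‖y i‖ ^ 2) := by
      intro x y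
      -- nonnegativity of the form at `x + t y`
      have hx0 : 0 ≤ (star x ⬝ᵥ (G *ᵥ x)).re := le_trans (by positivity) (hG.2 x).1
      have hy0 : 0 ≤ (star y ⬝ᵥ (G *ᵥ y)).re := le_trans (by positivity) (hG.2 y).1
      have hpos : ∀ t : ℝ, 0 ≤ (star y ⬝ᵥ (G *ᵥ y)).re * (t * t)
          + (2 * (star x ⬝ᵥ (G *ᵥ y)).re) * t + (star x ⬝ᵥ (G *ᵥ x)).re := by
        intro t
        have h := le_trans (by positivity) (hG.2 (x + (t : ℂ) • y)).1
        have e : star (x + (t : ℂ) • y) ⬝ᵥ (G *ᵥ (x + (t : ℂ) • y))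
            = star x ⬝ᵥ (G *ᵥ x) + (t : ℂ) * (star x ⬝ᵥ (G *ᵥ y) + star y ⬝ᵥ (G *ᵥ x))
              + (t : ℂ) * (t : ℂ) * (star y ⬝ᵥ (G *ᵥ y)) := by
          have hs : star ((t : ℂ) • y) = (t : ℂ) • star y := by
            rw [star_smul]
            congr 1
            exact Complex.conj_ofReal t
          simp only [star_add, hs, Matrix.mulVec_add, Matrix.mulVec_smul, add_dotProduct,
            dotProduct_add, smul_dotProduct, dotProduct_smul, smul_eq_mul]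
          ring
        rw [e, form_herm hG.1 x y] at h
        simp only [Complex.add_re, Complex.re_ofReal_mul, Complex.conj_re, mul_assoc] at h
        nlinarith
      have hdisc := discrim_le_zero hpos
      rw [discrim] at hdisc
      have a1 : (star x ⬝ᵥ (G *ᵥ y)).re ^ 2 ≤
          (star x ⬝ᵥ (G *ᵥ x)).re * (star y ⬝ᵥ (G *ᵥ y)).re := by nlinarith
      exact a1.trans (mul_le_mul (hG.2 x).2 (hG.2 y).2 hy0 (hx0.trans (hG.2 x).2))
    have h9 := form_cs ζ η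
    rw [h1] at h9
    have h10 : (star ζ ⬝ᵥ ζ).re = Z := by
      rw [dotProduct, Complex.re_sum, hZ]
      refine Finset.sum_congr rfl fun i _ => ?_
      rw [Pi.star_apply, RCLike.star_def, mul_comm, Complex.mul_conj, Complex.normSq_eq_norm_sq,
        Complex.ofReal_re]
    rw [h10] at h9
    rcases hZ0.eq_or_lt with h0 | h0
    · rw [← h0]; positivity
    · have h11 : Z * Z ≤ Z * (hi ^ 2 * E) := by
        calc Z * Z = Z ^ 2 := by ring
          _ ≤ hi * Z * (hi * E) := h9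
          _ = Z * (hi ^ 2 * E) := by ring
      exact le_of_mul_le_mul_left h11 h0
  constructor
  · rw [div_mul_eq_mul_div, div_le_iff₀ (by positivity)]
    calc lo * Z ≤ lo * (hi ^ 2 * E) := mul_le_mul_of_nonneg_left h8 hlo.le
      _ = lo * E * hi ^ 2 := by ring
      _ ≤ q * hi ^ 2 := mul_le_mul_of_nonneg_right hE.1 (by positivity)
  · rw [div_mul_eq_mul_div, one_mul, le_div_iff₀ hlo]
    rcases hq0.eq_or_lt with h0 | h0
    · rw [← h0]; simpa using hZ0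
    · have h12 : q * (q * lo) ≤ q * Z := by
        have h13 : lo * q ^ 2 ≤ Z * (lo * E) := by
          calc lo * q ^ 2 ≤ lo * (Z * E) := mul_le_mul_of_nonneg_left h6 hlo.le
            _ = Z * (lo * E) := by ring
        have h14 : Z * (lo * E) ≤ Z * q := mul_le_mul_of_nonneg_left hE.1 hZ0
        nlinarith
      exact le_of_mul_le_mul_left h12 h0

theorem ell_of_lev {lo hi : ℝ} {u : Cn n → ℝ} {z : Cn n} (hu : ContDiffAt ℝ ∞ u z)
    (h : ∀ v, lo * ‖v‖ ^ 2 ≤ lev u z v ∧ lev u z v ≤ hi * ‖v‖ ^ 2) :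
    EllC (lo / 4) (hi / 4) (cH u z) := by
  rw [Crest.Agent.R273.YauMax_635.cH_eq_hess hu]
  refine ⟨hess_herm hu, fun ζ => ?_⟩
  rw [hq_eq_dot, hq_re hu]
  have h1 := h (WithLp.toLp 2 (fun a => conj (ζ a)))
  have h2 : ‖(WithLp.toLp 2 (fun a => conj (ζ a)) : Cn n)‖ ^ 2 = ∑ a, ‖ζ a‖ ^ 2 := by
    rw [EuclideanSpace.norm_sq_eq]
    refine Finset.sum_congr rfl fun a _ => ?_
    show ‖conj (ζ a)‖ ^ 2 = _
    rw [Complex.norm_conj]
  rw [h2] at h1
  constructor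
  · linarith [h1.1]
  · linarith [h1.2]

/-! ### multilinear maps -/

/-- the real basis of `Cn n` -/
def rb (p : Fin n × Bool) : Cn n := EuclideanSpace.single p.1 (if p.2 then I else 1)

/-- real coordinates -/
def rc (v : Cn n) (p : Fin n × Bool) : ℝ := if p.2 then (v p.1).im else (v p.1).re

theorem rb_sum (v : Cn n) : v = ∑ p : Fin n × Bool, rc v p • rb p := by
  rw [Fintype.sum_prod_type]
  ext a
  simp only [Fintype.sum_bool, rc, rb]
  rw [WithLp.ofLp_sum, Finset.sum_apply, Finset.sum_eq_single a]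
  · simp only [if_true, Bool.false_eq_true, if_false, PiLp.add_apply, PiLp.smul_apply,
      PiLp.single_apply, Complex.real_smul, mul_one]
    rw [add_comm]
    exact (Complex.re_add_im _).symm
  · intro b _ hb
    simp [hb.symm]
  · intro h
    exact absurd (Finset.mem_univ a) h

theorem rc_le (v : Cn n) (p : Fin n × Bool) : |rc v p| ≤ ‖v‖ := by
  have h1 : ‖v p.1‖ ≤ ‖v‖ := PiLp.norm_apply_le v p.1
  rw [rc]
  split_ifs
  · exact (Complex.abs_im_le_norm _).trans h1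
  · exact (Complex.abs_re_le_norm _).trans h1

theorem norm_mult_le {k : ℕ} (T : ContinuousMultilinearMap ℝ (fun _ : Fin k => Cn n) ℂ) :
    ‖T‖ ≤ ∑ J : Fin k → Fin n × Bool, ‖T fun i => rb (J i)‖ := by
  refine ContinuousMultilinearMap.opNorm_le_bound
    (Finset.sum_nonneg fun J _ => norm_nonneg _) fun m => ?_
  have h1 : m = fun i => ∑ p : Fin n × Bool, rc (m i) p • rb p := funext fun i => rb_sum (m i)
  have h2 : T m = ∑ J : Fin k → Fin n × Bool, T (fun i => rc (m i) (J i) • rb (J i)) := by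
    conv_lhs => rw [h1]
    exact T.toMultilinearMap.map_sum (fun i (p : Fin n × Bool) => rc (m i) p • rb p)
  rw [h2, Finset.sum_mul]
  refine (norm_sum_le _ _).trans (Finset.sum_le_sum fun J _ => ?_)
  rw [T.map_smul_univ (fun i => rc (m i) (J i)) (fun i => rb (J i)), norm_smul, mul_comm]
  refine mul_le_mul_of_nonneg_left ?_ (norm_nonneg _)
  rw [Real.norm_eq_abs, Finset.abs_prod]
  exact Finset.prod_le_prod (fun i _ => abs_nonneg _) fun i _ => rc_le (m i) (J i)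

end

end Crest.Agent.R281.LioE_346
end

-- ▼ part R281/LioCk_346
section

/-!
# R281 (S0424), leaf S-T7, part 6 (helper346): interior estimates of all orders

* `pinch_ck` : metric pinched between `lo` and `hi` on `ball z₀ R`, `det = e^f` with
               `|D^j f| ≤ K j / R^j` for all `j ≥ 1` ⟹ `|D^k (cH u)| ≤ C_k / R^k` on
               `ball z₀ (R/2)`, for every `k`
-/

set_option autoImplicit false
set_option linter.unusedSectionVars false

open Set Filter Topology Complex Metric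
open scoped ContDiff Matrix ComplexConjugate

namespace Crest.Agent.R281.LioCk_346

open Crest.Agent.R275.Geo Crest.Agent.R273.SchA_152 Crest.Agent.R273.SchE_152
  Crest.Agent.R273.Defs_333 Crest.Agent.R273.YauDefs_635 Crest.Agent.R281.LioA_346
  Crest.Agent.R281.LioC3_346 Crest.Agent.R281.LioB_346 Crest.Agent.R281.LioD_346
  Crest.Agent.R281.LioE_346

noncomputable section

variable {n : ℕ}

/-- the family of all pinched solutions on the unit ball -/
abbrev PF (n : ℕ) (lo hi : ℝ) (K : ℕ → ℝ) : Type :=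
  {p : (Cn n → ℝ) × (Cn n → ℝ) // Pin n lo hi K ⊤ 0 1 p.1 p.2}

section fam

variable {lo hi : ℝ} {K : ℕ → ℝ}

def uF : PF n lo hi K → Cn n → ℝ := fun p => p.1.1

def fF : PF n lo hi K → Cn n → ℝ := fun p => p.1.2

/-- the metric -/
def AF : MF (PF n lo hi K) n := hm uF

/-- the inverse metric -/
def GF : MF (PF n lo hi K) n := fun i z => (AF i z)⁻¹

theorem rf_u : Rf (uF : PF n lo hi K → Cn n → ℝ) := fun i => i.2.hu

theorem rf_f : Rf (fF : PF n lo hi K → Cn n → ℝ) := fun i => i.2.hf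

theorem sm_A : SM (AF : MF (PF n lo hi K) n) := rf_u.hm

theorem det_A (i : PF n lo hi K) {z : Cn n} (hz : z ∈ ball (0 : Cn n) 1) :
    (AF i z).det = (Real.exp (fF i z) : ℂ) := i.2.hdet z hz

theorem det_ne (i : PF n lo hi K) {z : Cn n} (hz : z ∈ ball (0 : Cn n) 1) :
    (AF i z).det ≠ 0 := by
  rw [det_A i hz]
  exact_mod_cast (Real.exp_pos _).ne'

theorem sm_G : SM (GF : MF (PF n lo hi K) n) := fun a b i =>
  Crest.Agent.R273.YauPf_635.contDiffOn_inv (fun a b => sm_A a b i) (fun _ hz => det_ne i hz) a b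

theorem A_mul_G (i : PF n lo hi K) {z : Cn n} (hz : z ∈ ball (0 : Cn n) 1) :
    AF i z * GF i z = 1 := Matrix.mul_nonsing_inv _ (isUnit_iff_ne_zero.2 (det_ne i hz))


theorem ell_A (i : PF n lo hi K) {z : Cn n} (hz : z ∈ ball (0 : Cn n) 1) :
    EllC (lo / 4) (hi / 4) (AF i z) := ell_of_lev (rf_u.at i hz) (i.2.hlev z hz)

theorem ell_G (hlo : 0 < lo) (hhi : 0 < hi) (i : PF n lo hi K) {z : Cn n}
    (hz : z ∈ ball (0 : Cn n) 1) : EllC (lo / 4 / (hi / 4) ^ 2) (1 / (lo / 4)) (GF i z) :=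
  ell_inv (by positivity) (by positivity) (ell_A i hz) (det_ne i hz)

theorem ell_mono {lo hi lo' hi' : ℝ} {G : Matrix (Fin n) (Fin n) ℂ} (h : EllC lo hi G)
    (h1 : lo' ≤ lo) (h2 : hi ≤ hi') : EllC lo' hi' G := by
  refine ⟨h.1, fun ζ => ?_⟩
  have h0 : 0 ≤ ∑ a, ‖ζ a‖ ^ 2 := Finset.sum_nonneg fun _ _ => by positivity
  exact ⟨(mul_le_mul_of_nonneg_right h1 h0).trans (h.2 ζ).1,
    (h.2 ζ).2.trans (mul_le_mul_of_nonneg_right h2 h0)⟩

theorem norm_A_le (hlo : 0 < lo) (hhi : 0 < hi) (i : PF n lo hi K) {z : Cn n}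
    (hz : z ∈ ball (0 : Cn n) 1) (a b : Fin n) : ‖en AF a b i z‖ ≤ hi / 2 := by
  have := ell_entry (by positivity) (by positivity) (ell_A i hz) a b
  refine this.trans (le_of_eq (by ring))

theorem norm_G_le (hlo : 0 < lo) (hhi : 0 < hi) (i : PF n lo hi K) {z : Cn n}
    (hz : z ∈ ball (0 : Cn n) 1) (a b : Fin n) : ‖en GF a b i z‖ ≤ 8 / lo := by
  have := ell_entry (by positivity) (by positivity) (ell_G hlo hhi i hz) a b
  refine this.trans (le_of_eq (by field_simp; norm_num))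

/-- first derivatives of the metric (Calabi) -/
theorem norm_DA (n : ℕ) (lo hi : ℝ) (K : ℕ → ℝ) (hlo : 0 < lo) : ∃ C : ℝ, 0 ≤ C ∧
    ∀ (i : PF n lo hi K), ∀ z ∈ ball (0 : Cn n) (1 / 2), ∀ a b, ‖fderiv ℝ (en AF a b i) z‖ ≤ C := by
  obtain ⟨C, hC0, hC⟩ := pinch_c3 n lo hi K hlo
  refine ⟨C, hC0, fun i z hz a b => ?_⟩
  have hp : Pin n lo hi K 3 0 1 (uF i) (fF i) :=
    { hu := i.2.hu
      hf := i.2.hf
      hlev := i.2.hlev
      hdet := i.2.hdet
      hfK := fun z hz j hj _ => i.2.hfK z hz j hj le_top }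
  have := hC 0 1 (uF i) (fF i) one_pos hp z hz a b
  rwa [div_one] at this

/-- first derivatives of the inverse metric -/
theorem norm_DG (n : ℕ) {lo hi : ℝ} (K : ℕ → ℝ) (hlo : 0 < lo) (hhi : 0 < hi) : ∃ C : ℝ, 0 ≤ C ∧
    ∀ (i : PF n lo hi K), ∀ z ∈ ball (0 : Cn n) (1 / 2), ∀ a b, ‖fderiv ℝ (en GF a b i) z‖ ≤ C := by
  obtain ⟨C, hC0, hC⟩ := norm_DA n lo hi K hlo
  refine ⟨n * (n * (8 / lo * C) * (8 / lo)), by positivity, fun i z hz a b => ?_⟩
  refine ContinuousLinearMap.opNorm_le_bound _ (by positivity) fun v => ?_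
  have h1 := congrFun (congrFun (dm_inv (A := AF) (G := GF) sm_A sm_G
    (fun i z hz => A_mul_G i hz) v i (sub_half hz)) a) b
  have h2 : ∀ c d, ‖dm v AF i z c d‖ ≤ C * ‖v‖ := fun c d =>
    (ContinuousLinearMap.le_opNorm _ _).trans
      (mul_le_mul_of_nonneg_right (hC i z hz c d) (norm_nonneg _))
  have h3 : ∀ c, ‖(GF i z * dm v AF i z) a c‖ ≤ n * (8 / lo * (C * ‖v‖)) := by
    intro c
    rw [Matrix.mul_apply]
    refine (norm_sum_le _ _).trans ((Finset.sum_le_sum fun d _ => ?_).trans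
      (le_of_eq (by rw [Finset.sum_const, Finset.card_univ, Fintype.card_fin, nsmul_eq_mul])))
    rw [norm_mul]
    exact mul_le_mul (norm_G_le hlo hhi i (sub_half hz) a d) (h2 d c) (norm_nonneg _)
      (by positivity)
  have h4 : fderiv ℝ (en GF a b i) z v = dm v GF i z a b := rfl
  rw [h4, h1]
  show ‖(-1 : ℂ) • (GF i z * dm v AF i z * GF i z) a b‖ ≤ _
  rw [norm_smul, norm_neg, norm_one, one_mul, Matrix.mul_apply]
  refine (norm_sum_le _ _).trans ((Finset.sum_le_sum fun c _ => ?_).trans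
    (le_of_eq (?_ : ∑ _c : Fin n, n * (8 / lo * (C * ‖v‖)) * (8 / lo) = _)))
  · rw [norm_mul]
    exact mul_le_mul (h3 c) (norm_G_le hlo hhi i (sub_half hz) c b) (norm_nonneg _) (by positivity)
  · rw [Finset.sum_const, Finset.card_univ, Fintype.card_fin, nsmul_eq_mul]
    ring

/-! ### the equation and its derivatives -/

/-- first derivative of `log det` -/
theorem eq1 (w : Cn n) (i : PF n lo hi K) {z : Cn n} (hz : z ∈ ball (0 : Cn n) 1) :
    (GF i z * dm w AF i z).trace = dv w (cx fF) i z := by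
  have hA : ∀ a b, HasFDerivAt (fun y => AF i y a b) (fderiv ℝ (fun y => AF i y a b) z) z :=
    fun a b => ((sm_A a b).diff i hz).hasFDerivAt
  have h1 := (Crest.Agent.R273.C2a_793.hasFDerivAt_det hA).fderiv
  have hf : HasFDerivAt (fF i) (fderiv ℝ (fF i) z) z := (rf_f.diff i hz).hasFDerivAt
  have h2 : HasFDerivAt (fun y => ((Real.exp (fF i y) : ℝ) : ℂ))
      (Complex.ofRealCLM.comp (Real.exp (fF i z) • fderiv ℝ (fF i) z)) z :=
    Complex.ofRealCLM.hasFDerivAt.comp z hf.exp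
  have h3 : (fun y => (AF i y).det) =ᶠ[𝓝 z] fun y => ((Real.exp (fF i y) : ℝ) : ℂ) :=
    Filter.eventually_of_mem (isOpen_ball.mem_nhds hz) fun y hy => det_A i hy
  have h4 := h3.fderiv_eq (𝕜 := ℝ)
  rw [h1, h2.fderiv] at h4
  have h5 := congrArg (fun L : Cn n →L[ℝ] ℂ => L w) h4
  simp only [_root_.sum_apply, _root_.smul_apply, smul_eq_mul, ContinuousLinearMap.comp_apply,
    Complex.ofRealCLM_apply] at h5
  have h6 : (AF i z).adjugate = (AF i z).det • GF i z := by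
    have hu : IsUnit (AF i z).det := isUnit_iff_ne_zero.2 (det_ne i hz)
    rw [GF, Matrix.inv_def, smul_smul, Ring.mul_inverse_cancel _ hu, one_smul]
  have h7 : ∑ a, ∑ b, (AF i z).adjugate a b * (fderiv ℝ (fun y => AF i y b a) z) w
      = (AF i z).det * (GF i z * dm w AF i z).trace := by
    rw [h6, Matrix.trace, Finset.mul_sum]
    refine Finset.sum_congr rfl fun a _ => ?_
    rw [Matrix.diag_apply, Matrix.mul_apply, Finset.mul_sum]
    refine Finset.sum_congr rfl fun b _ => ?_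
    rw [Matrix.smul_apply, smul_eq_mul, mul_assoc]
    rfl
  rw [h7] at h5
  have h8 : dv w (cx fF) i z = ((fderiv ℝ (fF i) z w : ℝ) : ℂ) := dv_cx rf_f w i hz
  rw [h8]
  refine mul_left_cancel₀ (det_ne i hz) (h5.trans ?_)
  rw [det_A i hz]
  push_cast
  ring

/-- right hand side -/
def KF (v w : Cn n) : PF n lo hi K → Cn n → ℂ := fun i z =>
  dv v (dv w (cx fF)) i z - (dm v GF i z * dm w AF i z).trace

/-- second derivative of `log det` -/
theorem eq2 (v w : Cn n) (i : PF n lo hi K) {z : Cn n} (hz : z ∈ ball (0 : Cn n) 1) :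
    (GF i z * dm v (dm w AF) i z).trace = KF v w i z := by
  have s1 : SM (fun (i : PF n lo hi K) z => GF i z * dm w AF i z) := sm_G.mul (sm_A.dm w)
  have h1 := dv_congr (F := fun i z => (GF i z * dm w AF i z).trace) (G := dv w (cx fF))
    (fun i z hz => (eq1 (lo := lo) (hi := hi) (K := K) w i hz).symm) v i z hz
  rw [dm_tr s1 v i hz, dm_mul sm_G (sm_A.dm w) v i hz, Matrix.trace_add] at h1
  rw [KF, h1]
  ring

theorem sf_K (v w : Cn n) : Sf (KF v w : PF n lo hi K → Cn n → ℂ) := by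
  have s1 : SM (fun (i : PF n lo hi K) z => dm v GF i z * dm w AF i z) :=
    (sm_G.dm v).mul (sm_A.dm w)
  exact (((rf_f.sf.dv w).dv v).add ((Sf.const fun _ => (-1 : ℂ)).mul s1.tr)).congr
    fun i z _ => by
      show dv v (dv w (cx fF)) i z - (dm v GF i z * dm w AF i z).trace = _
      ring

/-- real and imaginary parts of the entries of the metric -/
def WF (k : Fin n × Fin n × Bool) : PF n lo hi K → Cn n → ℝ := fun i z =>
  if k.2.2 then (AF i z k.1 k.2.1).im else (AF i z k.1 k.2.1).re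

theorem rf_W (k : Fin n × Fin n × Bool) : Rf (WF k : PF n lo hi K → Cn n → ℝ) := fun i => by
  rcases k with ⟨a, b, s⟩
  cases s
  · exact Complex.reCLM.contDiff.comp_contDiffOn (sm_A a b i)
  · exact Complex.imCLM.contDiff.comp_contDiffOn (sm_A a b i)

theorem en_A_eq (a b : Fin n) (i : PF n lo hi K) (z : Cn n) :
    en AF a b i z = cx (WF (a, b, false)) i z + I * cx (WF (a, b, true)) i z := by
  show AF i z a b = (((AF i z a b).re : ℝ) : ℂ) + I * (((AF i z a b).im : ℝ) : ℂ)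
  rw [mul_comm I]
  exact (Complex.re_add_im _).symm

/-- vectors entering the second derivatives -/
def v1 (k : Fin n × Fin n × Bool) : Cn n × Cn n :=
  (EuclideanSpace.single k.1 1, EuclideanSpace.single k.2.1 (if k.2.2 then I else 1))

def v2 (k : Fin n × Fin n × Bool) : Cn n × Cn n :=
  (EuclideanSpace.single k.1 I, EuclideanSpace.single k.2.1 (if k.2.2 then 1 else I))

/-- sign -/
def sg (k : Fin n × Fin n × Bool) : ℝ := if k.2.2 then -1 else 1

theorem W_eq (k : Fin n × Fin n × Bool) (i : PF n lo hi K) (z : Cn n) :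
    WF k i z = 1 / 4 * (D2 (uF i) z (v1 k).1 (v1 k).2 + sg k * D2 (uF i) z (v2 k).1 (v2 k).2) := by
  rcases k with ⟨a, b, s⟩
  have h1 : AF i z a b = cH (uF i) z a b := rfl
  cases s
  · simp only [WF, v1, v2, sg, h1, cH, Matrix.of_apply, Bool.false_eq_true, if_false]
    simp only [Complex.mul_re, Complex.add_re, Complex.add_im, Complex.ofReal_re,
      Complex.ofReal_im, Complex.I_re, Complex.I_im, Complex.mul_im]
    norm_num
  · simp only [WF, v1, v2, sg, h1, cH, Matrix.of_apply, if_true]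
    simp only [Complex.mul_re, Complex.add_re, Complex.add_im, Complex.ofReal_re,
      Complex.ofReal_im, Complex.I_re, Complex.I_im, Complex.mul_im]
    norm_num
    ring

/-- `D_x D_y u` -/
def ddu (x y : Cn n) : PF n lo hi K → Cn n → ℝ := dr x (dr y uF)

theorem ddu_eq (x y : Cn n) (i : PF n lo hi K) {z : Cn n} (hz : z ∈ ball (0 : Cn n) 1) :
    ddu x y i z = D2 (uF i) z x y :=
  fd2_eval ((rf_u.at i hz).of_le Crest.Agent.R273.YauCh_635.two_le_inf) x y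

theorem hm_ddu (x y : Cn n) (i : PF n lo hi K) {z : Cn n} (hz : z ∈ ball (0 : Cn n) 1) :
    hm (ddu x y) i z = dm x (dm y AF) i z := by
  rw [ddu, hm_dr (rf_u.dr y) x i hz]
  ext a b
  exact dv_congr (F := en (dm y AF) a b) (G := en (hm (dr y uF)) a b) (fun i z hz => by
    show hm (dr y uF) i z a b = dm y AF i z a b
    rw [hm_dr rf_u y i hz]
    rfl) x i z hz

theorem cH_comb {u v : Cn n → ℝ} {z : Cn n} (c d : ℝ) (hu : ContDiffAt ℝ ∞ u z)
    (hv : ContDiffAt ℝ ∞ v z) :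
    cH (fun w => c * u w + d * v w) z = (c : ℂ) • cH u z + (d : ℂ) • cH v z := by
  have hs : ∀ {w : Cn n → ℝ} (c : ℝ), ContDiffAt ℝ ∞ w z →
      cH (fun y => c * w y) z = (c : ℂ) • cH w z := by
    intro w c hw
    rw [Crest.Agent.R273.YauMax_635.cH_eq_hess (contDiffAt_const.mul hw),
      Crest.Agent.R273.YauMax_635.cH_eq_hess hw]
    exact Crest.Agent.R273.HessB_333.hess_const_mul c hw
  rw [Crest.Agent.R273.YauPf_635.cH_add' (contDiffAt_const.mul hu) (contDiffAt_const.mul hv),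
    hs c hu, hs d hv]

/-- right hand side for `WF k` -/
def HF (k : Fin n × Fin n × Bool) : PF n lo hi K → Cn n → ℂ := fun i z =>
  ((1 / 4 : ℝ) : ℂ) * KF (v1 k).1 (v1 k).2 i z
    + ((1 / 4 * sg k : ℝ) : ℂ) * KF (v2 k).1 (v2 k).2 i z

theorem sf_H (k : Fin n × Fin n × Bool) : Sf (HF k : PF n lo hi K → Cn n → ℂ) :=
  ((Sf.const fun _ => _).mul (sf_K _ _)).add ((Sf.const fun _ => _).mul (sf_K _ _))

theorem cH_congr {u v : Cn n → ℝ} {z : Cn n} (h : u =ᶠ[𝓝 z] v) : cH u z = cH v z := by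
  have h1 : fderiv ℝ u =ᶠ[𝓝 z] fderiv ℝ v := h.fderiv (𝕜 := ℝ)
  have h2 : fderiv ℝ (fderiv ℝ u) z = fderiv ℝ (fderiv ℝ v) z := h1.fderiv_eq (𝕜 := ℝ)
  ext a b
  simp only [cH, Matrix.of_apply, D2, h2]

/-- the equation for the real and imaginary parts of the metric -/
theorem eq3 (k : Fin n × Fin n × Bool) (i : PF n lo hi K) {z : Cn n}
    (hz : z ∈ ball (0 : Cn n) 1) : (GF i z * hm (WF k) i z).trace = HF k i z := by
  have h1 : WF k i =ᶠ[𝓝 z] fun y => 1 / 4 * ddu (v1 k).1 (v1 k).2 i y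
      + 1 / 4 * sg k * ddu (v2 k).1 (v2 k).2 i y := by
    refine Filter.eventually_of_mem (isOpen_ball.mem_nhds hz) fun y hy => ?_
    show WF k i y = 1 / 4 * ddu (v1 k).1 (v1 k).2 i y
      + 1 / 4 * sg k * ddu (v2 k).1 (v2 k).2 i y
    rw [W_eq, ddu_eq _ _ i hy, ddu_eq _ _ i hy]
    ring
  have h2 : hm (WF k) i z = ((1 / 4 : ℝ) : ℂ) • hm (ddu (v1 k).1 (v1 k).2) i z
      + ((1 / 4 * sg k : ℝ) : ℂ) • hm (ddu (v2 k).1 (v2 k).2) i z := by
    show cH (WF k i) z = _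
    rw [cH_congr h1]
    exact cH_comb _ _ (((rf_u.dr _).dr _).at i hz) (((rf_u.dr _).dr _).at i hz)
  rw [h2, Matrix.mul_add, Matrix.mul_smul, Matrix.mul_smul, Matrix.trace_add, Matrix.trace_smul,
    Matrix.trace_smul, hm_ddu _ _ i hz, hm_ddu _ _ i hz, eq2 _ _ i hz, eq2 _ _ i hz]
  rfl

/-! ### bounded right hand side -/

/-- the sum of the norms of the second derivatives of the metric -/
def NF : PF n lo hi K → Cn n → ℝ := fun i z =>
  ∑ k : Fin n × Fin n × Bool, ‖fderiv ℝ (fderiv ℝ (WF k i)) z‖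

theorem NF_nonneg (i : PF n lo hi K) (z : Cn n) : 0 ≤ NF i z :=
  Finset.sum_nonneg fun _ _ => ContinuousLinearMap.opNorm_nonneg _

theorem b1_of {F : PF n lo hi K → Cn n → ℂ} {M M' : ℝ} (hM : 0 ≤ M) (hM' : 0 ≤ M')
    (h : ∀ i, ∀ z ∈ ball (0 : Cn n) (1 / 2), ‖F i z‖ ≤ M)
    (h' : ∀ i, ∀ z ∈ ball (0 : Cn n) (1 / 2), ‖fderiv ℝ (F i) z‖ ≤ M' * (1 + NF i z)) :
    B1 NF F :=
  ⟨M + M', by positivity, fun i z hz => ⟨(h i z hz).trans (by linarith), (h' i z hz).trans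
    (mul_le_mul_of_nonneg_right (by linarith) (by linarith [NF_nonneg i z]))⟩⟩


theorem b1_G (hlo : 0 < lo) (hhi : 0 < hi) (a b : Fin n) :
    B1 NF (en (GF : MF (PF n lo hi K) n) a b) := by
  obtain ⟨C, hC0, hC⟩ := norm_DG n K hlo hhi
  refine b1_of (M := 8 / lo) (by positivity) hC0
    (fun i z hz => norm_G_le hlo hhi i (sub_half hz) a b)
    fun i z hz => (hC i z hz a b).trans ?_
  nlinarith [NF_nonneg i z]

theorem norm_DW (n : ℕ) (lo hi : ℝ) (K : ℕ → ℝ) (hlo : 0 < lo) : ∃ C : ℝ, 0 ≤ C ∧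
    ∀ (i : PF n lo hi K), ∀ z ∈ ball (0 : Cn n) (1 / 2), ∀ k, ‖fderiv ℝ (WF k i) z‖ ≤ C := by
  obtain ⟨C, hC0, hC⟩ := norm_DA n lo hi K hlo
  refine ⟨C, hC0, fun i z hz k => ?_⟩
  rcases k with ⟨a, b, s⟩
  have hd := ((sm_A a b).diff i (sub_half hz)).hasFDerivAt
  refine ContinuousLinearMap.opNorm_le_bound _ hC0 fun v => ?_
  have h2 : ‖fderiv ℝ (en AF a b i) z v‖ ≤ C * ‖v‖ :=
    (ContinuousLinearMap.le_opNorm _ _).trans
      (mul_le_mul_of_nonneg_right (hC i z hz a b) (norm_nonneg _))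
  cases s
  · have h1 : HasFDerivAt (WF (a, b, false) i) (Complex.reCLM.comp (fderiv ℝ (en AF a b i) z)) z :=
      Complex.reCLM.hasFDerivAt.comp z hd
    rw [h1.fderiv]
    exact (Complex.abs_re_le_norm _).trans h2
  · have h1 : HasFDerivAt (WF (a, b, true) i) (Complex.imCLM.comp (fderiv ℝ (en AF a b i) z)) z :=
      Complex.imCLM.hasFDerivAt.comp z hd
    rw [h1.fderiv]
    exact (Complex.abs_im_le_norm _).trans h2

/-- derivative of a directional derivative of a real family -/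
theorem norm_fd_cxdr {w : PF n lo hi K → Cn n → ℝ} (hw : Rf w) (v : Cn n) (i : PF n lo hi K)
    {z : Cn n} (hz : z ∈ ball (0 : Cn n) 1) :
    ‖fderiv ℝ (cx (dr v w) i) z‖ ≤ ‖v‖ * ‖fderiv ℝ (fderiv ℝ (w i)) z‖ := by
  refine ContinuousLinearMap.opNorm_le_bound _
    (mul_nonneg (norm_nonneg _) (ContinuousLinearMap.opNorm_nonneg _)) fun x => ?_
  have h1 : fderiv ℝ (cx (dr v w) i) z x = ((fderiv ℝ (fderiv ℝ (w i)) z x v : ℝ) : ℂ) := by
    have h2 : fderiv ℝ (cx (dr v w) i) z x = ((fderiv ℝ (dr v w i) z x : ℝ) : ℂ) :=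
      fderiv_ofReal ((hw.dr v).diff i hz) x
    rw [h2]
    congr 1
    exact fd2_eval ((hw.at i hz).of_le Crest.Agent.R273.YauCh_635.two_le_inf) x v
  rw [h1, Complex.norm_real]
  have a1 := (fderiv ℝ (fderiv ℝ (w i)) z x).le_opNorm v
  have a2 := (fderiv ℝ (fderiv ℝ (w i)) z).le_opNorm x
  calc _ ≤ ‖fderiv ℝ (fderiv ℝ (w i)) z x‖ * ‖v‖ := a1
    _ ≤ (‖fderiv ℝ (fderiv ℝ (w i)) z‖ * ‖x‖) * ‖v‖ := mul_le_mul_of_nonneg_right a2 (norm_nonneg _)
    _ = ‖v‖ * ‖fderiv ℝ (fderiv ℝ (w i)) z‖ * ‖x‖ := by ring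

theorem b1_dvW (hlo : 0 < lo) (k : Fin n × Fin n × Bool) (v : Cn n) :
    B1 NF (dv v (cx (WF k : PF n lo hi K → Cn n → ℝ))) := by
  obtain ⟨C, hC0, hC⟩ := norm_DW n lo hi K hlo
  refine B1.congr (F := cx (dr v (WF k))) ?_ fun i z hz => dv_cx (rf_W k) v i hz
  refine b1_of (M := C * ‖v‖) (by positivity) (norm_nonneg v) (fun i z hz => ?_)
    fun i z hz => ?_
  · show ‖((fderiv ℝ (WF k i) z v : ℝ) : ℂ)‖ ≤ _
    rw [Complex.norm_real]
    exact (ContinuousLinearMap.le_opNorm _ _).trans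
      (mul_le_mul_of_nonneg_right (hC i z hz k) (norm_nonneg _))
  · refine (norm_fd_cxdr (rf_W k) v i (sub_half hz)).trans
      (mul_le_mul_of_nonneg_left ?_ (norm_nonneg _))
    have h1 : ‖fderiv ℝ (fderiv ℝ (WF k i)) z‖ ≤ NF i z :=
      Finset.single_le_sum (f := fun k => ‖fderiv ℝ (fderiv ℝ (WF k i)) z‖)
        (fun _ _ => ContinuousLinearMap.opNorm_nonneg _) (Finset.mem_univ k)
    linarith

theorem b1_dvA (hlo : 0 < lo) (a b : Fin n) (v : Cn n) :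
    B1 NF (en (dm v (AF : MF (PF n lo hi K) n)) a b) := by
  have s1 := (rf_W (a, b, false) (n := n) (lo := lo) (hi := hi) (K := K)).sf
  have s2 := (rf_W (a, b, true) (n := n) (lo := lo) (hi := hi) (K := K)).sf
  refine B1.congr (B1.add (s1.dv v) ((Sf.const fun _ => I).mul (s2.dv v)) (b1_dvW hlo _ v)
    (B1.const_mul NF_nonneg (s2.dv v) (b1_dvW hlo _ v) I)) fun i z hz => ?_
  show fderiv ℝ (en AF a b i) z v = fderiv ℝ (cx (WF (a, b, false)) i) z v
    + I * fderiv ℝ (cx (WF (a, b, true)) i) z v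
  have h1 : en AF a b i = fun z => cx (WF (a, b, false)) i z + I * cx (WF (a, b, true)) i z :=
    funext fun z => en_A_eq a b i z
  rw [h1, fderiv_fun_add (s1.diff i hz) ((s2.diff i hz).const_mul I),
    fderiv_const_mul (s2.diff i hz)]
  rfl

theorem b1_dvG (hlo : 0 < lo) (hhi : 0 < hi) (a b : Fin n) (v : Cn n) :
    B1 NF (en (dm v (GF : MF (PF n lo hi K) n)) a b) := by
  have h1 := B1.matmul NF_nonneg (sm_G.mul (sm_A.dm v)) sm_G
    (B1.matmul NF_nonneg sm_G (sm_A.dm v) (b1_G hlo hhi (K := K)) fun a b => b1_dvA hlo a b v)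
    (b1_G hlo hhi) a b
  refine (B1.const_mul NF_nonneg (((sm_G.mul (sm_A.dm v)).mul sm_G) a b) h1 (-1)).congr
    fun i z hz => ?_
  exact congrFun (congrFun (dm_inv (A := AF) (G := GF) sm_A sm_G
    (fun i z hz => A_mul_G i hz) v i hz) a) b

/-- the right hand side `f` has bounded derivatives -/
theorem ab_f (v : Cn n) : AB (dv v (cx (fF : PF n lo hi K → Cn n → ℝ))) := by
  intro j
  refine ⟨‖v‖ * |K (j + 1)|, by positivity, fun i z hz => ?_⟩
  refine (norm_iter_dv rf_f.sf v j i hz).trans (mul_le_mul_of_nonneg_left ?_ (norm_nonneg _))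
  have h1 := i.2.hfK z hz (j + 1) (by omega) le_top
  rw [one_pow, div_one] at h1
  have h2 : cx fF i = fun z => Complex.ofRealLI (fF i z) := rfl
  have h3 : ‖iteratedFDeriv ℝ (j + 1) (cx fF i) z‖ = ‖iteratedFDeriv ℝ (j + 1) (fF i) z‖ := by
    rw [h2]
    exact Complex.ofRealLI.norm_iteratedFDeriv_comp_left (f := fF i)
      (((rf_f i).contDiffAt (isOpen_ball.mem_nhds hz)).of_le
        (by exact_mod_cast le_top)) le_rfl
  rw [h3]
  exact h1.trans (le_abs_self _)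

theorem b1_of_ab {F : PF n lo hi K → Cn n → ℂ} (h : AB F) : B1 NF F := by
  obtain ⟨K0, hK0, H0⟩ := h 0
  obtain ⟨K1, hK1, H1⟩ := h 1
  refine b1_of hK0 hK1 (fun i z hz => ?_) fun i z hz => ?_
  · have := H0 i z (sub_half hz)
    rwa [norm_iteratedFDeriv_zero] at this
  · have := H1 i z (sub_half hz)
    rw [norm_iteratedFDeriv_one] at this
    refine this.trans ?_
    nlinarith [NF_nonneg i z]

theorem b1_K (hlo : 0 < lo) (hhi : 0 < hi) (v w : Cn n) :
    B1 NF (KF v w : PF n lo hi K → Cn n → ℂ) := by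
  have s1 : SM (fun (i : PF n lo hi K) z => dm v GF i z * dm w AF i z) :=
    (sm_G.dm v).mul (sm_A.dm w)
  have h1 : B1 NF (fun (i : PF n lo hi K) z => (dm v GF i z * dm w AF i z).trace) :=
    B1.sum NF_nonneg Finset.univ (fun c _ => s1 c c) fun c _ =>
      B1.matmul NF_nonneg (sm_G.dm v) (sm_A.dm w) (fun a b => b1_dvG hlo hhi a b v)
        (fun a b => b1_dvA hlo a b w) c c
  have h2 : B1 NF (dv v (dv w (cx (fF : PF n lo hi K → Cn n → ℝ)))) :=
    b1_of_ab ((ab_f w).dv (rf_f.sf.dv w) v)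
  refine (B1.add ((rf_f.sf.dv w).dv v) ((Sf.const fun _ => (-1 : ℂ)).mul s1.tr) h2
    (B1.const_mul NF_nonneg s1.tr h1 (-1))).congr fun i z _ => ?_
  show dv v (dv w (cx fF)) i z - (dm v GF i z * dm w AF i z).trace = _
  ring

theorem b1_H (hlo : 0 < lo) (hhi : 0 < hi) (k : Fin n × Fin n × Bool) :
    B1 NF (HF k : PF n lo hi K → Cn n → ℂ) :=
  B1.add ((Sf.const fun _ => _).mul (sf_K _ _)) ((Sf.const fun _ => _).mul (sf_K _ _))
    (B1.const_mul NF_nonneg (sf_K _ _) (b1_K hlo hhi _ _) _)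
    (B1.const_mul NF_nonneg (sf_K _ _) (b1_K hlo hhi _ _) _)

/-- second derivatives of the metric -/
theorem norm_D2W (n : ℕ) {lo hi : ℝ} (K : ℕ → ℝ) (hlo : 0 < lo) (hlohi : lo ≤ hi) {ρ : ℝ}
    (h0 : 0 < ρ) (h1 : ρ < 1 / 2) : ∃ B : ℝ, ∀ (i : PF n lo hi K),
      ∀ z ∈ closedBall (0 : Cn n) ρ, NF i z ≤ B := by
  have hhi : 0 < hi := hlo.trans_le hlohi
  obtain ⟨CW, hCW0, hCW⟩ := norm_DW n lo hi K hlo
  obtain ⟨CG, hCG0, hCG⟩ := norm_DG n K hlo hhi
  set lo' : ℝ := lo / 4 / (hi / 4) ^ 2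
  set hi' : ℝ := 1 / (lo / 4)
  have hlo' : 0 < lo' := by positivity
  have hhi' : 0 < hi' := by positivity
  obtain ⟨M, hM0, hM⟩ : ∃ M, 0 ≤ M ∧ ∀ (k : Fin n × Fin n × Bool) (i : PF n lo hi K),
      ∀ z ∈ ball (0 : Cn n) (1 / 2), ‖HF k i z‖ ≤ M ∧
        ‖fderiv ℝ (HF k i) z‖ ≤ M * (1 + NF i z) := by
    refine exists_unif (P := fun k M => ∀ (i : PF n lo hi K),
      ∀ z ∈ ball (0 : Cn n) (1 / 2), ‖HF k i z‖ ≤ M ∧
        ‖fderiv ℝ (HF k i) z‖ ≤ M * (1 + NF i z)) (fun k x y hxy h i z hz => ?_) fun k =>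
        b1_H hlo hhi k
    exact ⟨(h i z hz).1.trans hxy, (h i z hz).2.trans
      (mul_le_mul_of_nonneg_right hxy (by linarith [NF_nonneg i z]))⟩
  obtain ⟨B, hB⟩ := point_pick (n := n) (κ := Fin n × Fin n × Bool) (lo := lo') (hi := max hi' lo')
    (C := max CW (max CG (8 / lo))) (M := M) hlo' (le_max_right _ _)
    (hCW0.trans (le_max_left _ _)) hM0 h0 h1
  refine ⟨B, fun i => hB (fun k => WF k i) (GF i) (fun k z => (HF k i z).re)
    (fun k => rf_W k i) (fun z hz => ell_mono (ell_G hlo hhi i (sub_half hz)) le_rfl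
      (le_max_left _ _)) (fun a b z hz => ⟨(sm_G a b).diff i (sub_half hz),
        (norm_G_le hlo hhi i (sub_half hz) a b).trans ((le_max_right _ _).trans
          (le_max_right _ _)), (hCG i z hz a b).trans ((le_max_left _ _).trans
            (le_max_right _ _))⟩) (fun k z hz => (hCW i z hz k).trans (le_max_left _ _))
      fun k z hz => ⟨?_, ?_, ?_, ?_⟩⟩
  · show (HF k i z).re = _
    rw [← eq3 k i (sub_half hz)]
    rfl
  · exact (Complex.reCLM.differentiable _).comp z ((sf_H k).diff i (sub_half hz))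
  · exact (Complex.abs_re_le_norm _).trans (hM k i z hz).1
  · have h2 : HasFDerivAt (fun z => (HF k i z).re) (Complex.reCLM.comp (fderiv ℝ (HF k i) z)) z :=
      Complex.reCLM.hasFDerivAt.comp z ((sf_H k).diff i (sub_half hz)).hasFDerivAt
    rw [h2.fderiv]
    refine le_trans ?_ (hM k i z hz).2
    refine ContinuousLinearMap.opNorm_le_bound _ (norm_nonneg _) fun v => ?_
    exact (Complex.abs_re_le_norm _).trans (ContinuousLinearMap.le_opNorm _ _)

/-! ### bootstrapping -/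

theorem uh_W1 (hlo : 0 < lo) (hlohi : lo ≤ hi) (k : Fin n × Fin n × Bool) :
    UH 1 (cx (WF k : PF n lo hi K → Cn n → ℝ)) := by
  have hhi : 0 < hi := hlo.trans_le hlohi
  obtain ⟨CW, hCW0, hCW⟩ := norm_DW n lo hi K hlo
  refine ⟨h0_of_fderiv (rf_W k).sf fun ρ h0 h1 => ?_, fun v => ?_⟩
  · refine ⟨max (hi / 2) CW, (by positivity : (0 : ℝ) ≤ hi / 2).trans (le_max_left _ _),
      fun i z hz => ⟨?_, ?_⟩⟩
    · have hz' := sub_half (closedBall_subset_ball h1 hz)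
      have h2 := norm_A_le hlo hhi i hz' k.1 k.2.1
      refine le_trans ?_ (h2.trans (le_max_left _ _))
      show ‖((WF k i z : ℝ) : ℂ)‖ ≤ _
      rw [Complex.norm_real]
      rcases k with ⟨a, b, s⟩
      cases s
      · exact Complex.abs_re_le_norm _
      · exact Complex.abs_im_le_norm _
    · refine le_trans ?_ ((hCW i z (closedBall_subset_ball h1 hz) k).trans (le_max_right _ _))
      refine ContinuousLinearMap.opNorm_le_bound _ (norm_nonneg _) fun v => ?_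
      have h2 : fderiv ℝ (cx (WF k) i) z v = ((fderiv ℝ (WF k i) z v : ℝ) : ℂ) :=
        fderiv_ofReal ((rf_W k).diff i (sub_half (closedBall_subset_ball h1 hz))) v
      rw [h2, Complex.norm_real]
      exact ContinuousLinearMap.le_opNorm _ _
  · have h2 : H0 (cx (dr v (WF k : PF n lo hi K → Cn n → ℝ))) := by
      refine h0_of_fderiv ((rf_W k).dr v).sf fun ρ h0 h1 => ?_
      obtain ⟨B, hB⟩ := norm_D2W n K hlo hlohi h0 h1
      refine ⟨max (CW * ‖v‖) (‖v‖ * max B 0), (by positivity : (0 : ℝ) ≤ CW * ‖v‖).trans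
        (le_max_left _ _), fun i z hz => ⟨?_, ?_⟩⟩
      · refine le_trans ?_ (le_max_left _ _)
        show ‖((fderiv ℝ (WF k i) z v : ℝ) : ℂ)‖ ≤ _
        rw [Complex.norm_real]
        exact (ContinuousLinearMap.le_opNorm _ _).trans
          (mul_le_mul_of_nonneg_right (hCW i z (closedBall_subset_ball h1 hz) k) (norm_nonneg _))
      · refine le_trans ?_ (le_max_right _ _)
        refine (norm_fd_cxdr (rf_W k) v i (sub_half (closedBall_subset_ball h1 hz))).trans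
          (mul_le_mul_of_nonneg_left ?_ (norm_nonneg _))
        have h3 : ‖fderiv ℝ (fderiv ℝ (WF k i)) z‖ ≤ NF i z :=
          Finset.single_le_sum (f := fun k => ‖fderiv ℝ (fderiv ℝ (WF k i)) z‖)
            (fun _ _ => ContinuousLinearMap.opNorm_nonneg _) (Finset.mem_univ k)
        exact h3.trans ((hB i z hz).trans (le_max_left _ _))
    exact h2.congr fun i z hz => dv_cx (rf_W k) v i (sub_half hz)

theorem um_A {m : ℕ} (h : ∀ k, UH m (cx (WF k : PF n lo hi K → Cn n → ℝ))) :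
    UM m (AF : MF (PF n lo hi K) n) := fun a b =>
  (UH.add (rf_W _).sf ((Sf.const fun _ => I).mul (rf_W _).sf) (h (a, b, false))
    (UH.const_mul (rf_W _).sf (h (a, b, true)) I)).congr fun i z _ => en_A_eq a b i z

theorem um_G0 (hlo : 0 < lo) (hhi : 0 < hi) : UM 0 (GF : MF (PF n lo hi K) n) := by
  intro a b
  obtain ⟨C, hC0, hC⟩ := norm_DG n K hlo hhi
  refine h0_of_fderiv (sm_G a b) fun ρ h0 h1 => ?_
  refine ⟨max (8 / lo) C, (by positivity : (0 : ℝ) ≤ 8 / lo).trans (le_max_left _ _),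
    fun i z hz => ⟨?_, ?_⟩⟩
  · exact (norm_G_le hlo hhi i (sub_half (closedBall_subset_ball h1 hz)) a b).trans
      (le_max_left _ _)
  · exact (hC i z (closedBall_subset_ball h1 hz) a b).trans (le_max_right _ _)

theorem uh_W (hlo : 0 < lo) (hlohi : lo ≤ hi) (m : ℕ) (k : Fin n × Fin n × Bool) :
    UH (m + 1) (cx (WF k : PF n lo hi K → Cn n → ℝ)) := by
  have hhi : 0 < hi := hlo.trans_le hlohi
  induction m generalizing k with
  | zero => exact uh_W1 hlo hlohi k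
  | succ m ih =>
    have hA : UM (m + 1) (AF : MF (PF n lo hi K) n) := um_A ih
    have hG : UM (m + 1) (GF : MF (PF n lo hi K) n) :=
      UM.inv sm_A sm_G (fun i z hz => A_mul_G i hz) hA (um_G0 hlo hhi)
    have hK : ∀ v w, UH m (KF v w : PF n lo hi K → Cn n → ℂ) := by
      intro v w
      have s1 : SM (fun (i : PF n lo hi K) z => dm v GF i z * dm w AF i z) :=
        (sm_G.dm v).mul (sm_A.dm w)
      exact UH.sub ((rf_f.sf.dv w).dv v) s1.tr
        (((ab_f w).dv (rf_f.sf.dv w) v).uh ((rf_f.sf.dv w).dv v) m)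
        (UM.tr s1 (UM.mul (sm_G.dm v) (sm_A.dm w) (hG.dm v) (hA.dm w)))
    have hH : UH m (fun (i : PF n lo hi K) z => (GF i z * hm (WF k) i z).trace) :=
      (UH.add ((Sf.const fun _ => _).mul (sf_K _ _)) ((Sf.const fun _ => _).mul (sf_K _ _))
        (UH.const_mul (sf_K _ _) (hK _ _) _) (UH.const_mul (sf_K _ _) (hK _ _) _)).congr
        fun i z hz => eq3 k i hz
    exact LioD_346.lift (lo := lo / 4 / (hi / 4) ^ 2)
      (hi := max (1 / (lo / 4)) (lo / 4 / (hi / 4) ^ 2)) (by positivity) (le_max_right _ _) sm_G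
      (fun i z hz => ell_mono (ell_G hlo hhi i (sub_half hz)) le_rfl (le_max_left _ _)) m hG
      (rf_W k) (ih k) hH

/-- bound of all derivatives at the centre -/
theorem norm_iter_A (n : ℕ) {lo hi : ℝ} (K : ℕ → ℝ) (hlo : 0 < lo) (hlohi : lo ≤ hi) (k : ℕ) :
    ∃ C : ℝ, 0 ≤ C ∧ ∀ (i : PF n lo hi K) (a b : Fin n),
      ‖iteratedFDeriv ℝ k (en AF a b i) 0‖ ≤ C := by
  have hA : UM (k + 1) (AF : MF (PF n lo hi K) n) := um_A fun k' => uh_W hlo hlohi k k'
  have h1 : ∀ (ab : Fin n × Fin n), ∃ C : ℝ, 0 ≤ C ∧ ∀ (i : PF n lo hi K),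
      ‖iteratedFDeriv ℝ k (en AF ab.1 ab.2 i) 0‖ ≤ C := by
    intro ab
    have h2 : ∀ J : Fin k → Fin n × Bool, ∃ M, ∀ i : PF n lo hi K,
        ‖iteratedFDeriv ℝ k (en AF ab.1 ab.2 i) 0 fun l => rb (J l)‖ ≤ M := fun J =>
      UH.iter (sm_A _ _) (hA ab.1 ab.2).of_succ _
    choose M hM using h2
    refine ⟨∑ J, |M J|, Finset.sum_nonneg fun _ _ => abs_nonneg _, fun i => ?_⟩
    exact (norm_mult_le _).trans (Finset.sum_le_sum fun J _ => (hM J i).trans (le_abs_self _))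
  obtain ⟨C, hC0, hC⟩ := exists_unif (P := fun (ab : Fin n × Fin n) C => ∀ (i : PF n lo hi K),
    ‖iteratedFDeriv ℝ k (en AF ab.1 ab.2 i) 0‖ ≤ C) (fun _ x y hxy h i => (h i).trans hxy) h1
  exact ⟨C, hC0, fun i a b => hC (a, b) i⟩

end fam

theorem Pin.abs {lo hi : ℝ} {K : ℕ → ℝ} {N : ℕ∞} {z₀ : Cn n} {R : ℝ} {u f : Cn n → ℝ}
    (hR : 0 < R) (h : Pin n lo hi K N z₀ R u f) : Pin n lo (max hi lo) (fun j => |K j|) N z₀ R u f where
  hu := h.hu
  hf := h.hf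
  hlev z hz v := ⟨(h.hlev z hz v).1, (h.hlev z hz v).2.trans
    (mul_le_mul_of_nonneg_right (le_max_left _ _) (by positivity))⟩
  hdet := h.hdet
  hfK z hz j hj hjN := (h.hfK z hz j hj hjN).trans
    (div_le_div_of_nonneg_right (le_abs_self _) (by positivity))

/-- **interior estimates of all orders for pinched solutions**, scale invariant -/
theorem pinch_ck (n : ℕ) (lo hi : ℝ) (K : ℕ → ℝ) (hlo : 0 < lo) (k : ℕ) : ∃ C : ℝ, 0 ≤ C ∧
    ∀ (z₀ : Cn n) (R : ℝ) (u f : Cn n → ℝ), 0 < R → Pin n lo hi K ⊤ z₀ R u f →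
      ∀ z ∈ ball z₀ (R / 2), ∀ a b,
        ‖iteratedFDeriv ℝ k (fun w => cH u w a b) z‖ ≤ C / R ^ k := by
  obtain ⟨C, hC0, hC⟩ := norm_iter_A n (lo := lo) (hi := max hi lo) (fun j => |K j|) hlo
    (le_max_right _ _) k
  refine ⟨2 ^ k * C, by positivity, fun z₀ R u f hR h z hz a b => ?_⟩
  have hR2 : 0 < R / 2 := by positivity
  have hsub : ball z (R / 2) ⊆ ball z₀ R := by
    refine ball_subset_ball' ?_
    rw [mem_ball] at hz
    linarith
  have h1 : Pin n lo (max hi lo) (fun j => |K j|) ⊤ z (R / 2) u f :=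
    (Pin.abs hR h).mono hR2 (fun j => abs_nonneg _) hsub (by linarith)
  have h2 := h1.us hR2
  have h3 := hC ⟨(us z (R / 2) u, sc z (R / 2) f), h2⟩ a b
  have h4 : en AF a b (⟨(us z (R / 2) u, sc z (R / 2) f), h2⟩ :
      PF n lo (max hi lo) (fun j => |K j|)) = sc z (R / 2) (fun w => cH u w a b) := by
    funext w
    show cH (us z (R / 2) u) w a b = _
    rw [cH_us _ hR2.ne']
    rfl
  rw [h4, norm_iteratedFDeriv_sc _ hR2.le, smul_zero, add_zero] at h3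
  rw [le_div_iff₀ (by positivity)]
  calc ‖iteratedFDeriv ℝ k (fun w => cH u w a b) z‖ * R ^ k
      = 2 ^ k * ((R / 2) ^ k * ‖iteratedFDeriv ℝ k (fun w => cH u w a b) z‖) := by
        rw [div_pow]
        field_simp
    _ ≤ 2 ^ k * C := mul_le_mul_of_nonneg_left h3 (by positivity)

end

end Crest.Agent.R281.LioCk_346
end

-- ▼ part R281/LioH_346
section

/-!
# R281 (S0424), leaf S-T7, part 7 (helper346): Cauchy estimates and `det = |J|²`

* `hol_ck`    : holomorphic `F` on `ball z₀ R`, `|F| ≤ M` ⟹ `|D^k F| ≤ C_k M / R^k` on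
                `ball z₀ (R/2)` (values in any complex Banach space)
* `log_ck`    : `J` holomorphic with `c ≤ |J| ≤ M` ⟹ `|D^j log |J|²| ≤ K_j / R^j` (`j ≥ 1`)
* `pinch_hol` : `u` smooth with Levi form between `lo` and `hi` on `ball z₀ R` and
                `det (cH u) = |J|²`, `J` holomorphic (no bound on `J` required)
                ⟹ `|D^k (cH u)| ≤ C_k / R^k` on `ball z₀ (R/2)`
-/

set_option autoImplicit false
set_option linter.unusedSectionVars false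

open Set Filter Topology Complex Metric
open scoped ContDiff Matrix ComplexConjugate

namespace Crest.Agent.R281.LioH_346

open Crest.Agent.R275.Geo Crest.Agent.R273.SchE_152
  Crest.Agent.R273.Defs_333 Crest.Agent.R273.YauDefs_635 Crest.Agent.R281.LioA_346
  Crest.Agent.R281.LioC3_346 Crest.Agent.R281.LioE_346 Crest.Agent.R281.LioCk_346

noncomputable section

variable {n : ℕ}

/-! ### Cauchy estimates -/

section cauchy

variable {W : Type} [NormedAddCommGroup W] [NormedSpace ℂ W] [CompleteSpace W]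

theorem hol_fderiv {F : Cn n → W} {z₀ : Cn n} {R M : ℝ} (hR : 0 < R) (hM : 0 ≤ M)
    (hF : DifferentiableOn ℂ F (ball z₀ R)) (hb : ∀ z ∈ ball z₀ R, ‖F z‖ ≤ M) {z : Cn n}
    (hz : z ∈ ball z₀ (R / 2)) : ‖fderiv ℂ F z‖ ≤ 4 * M / R := by
  refine ContinuousLinearMap.opNorm_le_bound _ (by positivity) fun v => ?_
  rcases eq_or_ne v 0 with hv | hv
  · rw [hv, map_zero, norm_zero, norm_zero, mul_zero]
  have hv0 : 0 < ‖v‖ := norm_pos_iff.2 hv
  set ρ : ℝ := R / (4 * ‖v‖) with hρ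
  have hρ0 : 0 < ρ := by positivity
  have hin : ∀ t ∈ closedBall (0 : ℂ) ρ, z + t • v ∈ ball z₀ R := by
    intro t ht
    rw [mem_closedBall_zero_iff] at ht
    rw [mem_ball, dist_eq_norm] at hz ⊢
    have h1 : ‖t • v‖ ≤ R / 4 := by
      rw [norm_smul]
      calc ‖t‖ * ‖v‖ ≤ ρ * ‖v‖ := mul_le_mul_of_nonneg_right ht hv0.le
        _ = R / 4 := by rw [hρ]; field_simp
    have h2 : z + t • v - z₀ = (z - z₀) + t • v := by abel
    rw [h2]
    exact (norm_add_le _ _).trans_lt (by linarith)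
  have hd : ∀ t ∈ closedBall (0 : ℂ) ρ, DifferentiableAt ℂ (fun t : ℂ => F (z + t • v)) t := by
    intro t ht
    have h1 : DifferentiableAt ℂ F (z + t • v) := hF.differentiableAt (isOpen_ball.mem_nhds (hin t ht))
    exact h1.comp t ((differentiableAt_id.smul_const v).const_add z)
  have hcl : DiffContOnCl ℂ (fun t : ℂ => F (z + t • v)) (ball 0 ρ) := by
    refine ⟨fun t ht => (hd t (ball_subset_closedBall ht)).differentiableWithinAt, fun t ht => ?_⟩
    rw [closure_ball _ hρ0.ne'] at ht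
    exact (hd t ht).continuousAt.continuousWithinAt
  have h3 := Complex.norm_deriv_le_of_forall_mem_sphere_norm_le hρ0 hcl
    fun t ht => hb _ (hin t (sphere_subset_closedBall ht))
  have h4 : deriv (fun t : ℂ => F (z + t • v)) 0 = fderiv ℂ F z v := by
    have h5 : HasDerivAt (fun t : ℂ => z + t • v) v 0 := by
      have := ((hasDerivAt_id (0 : ℂ)).smul_const v).const_add z
      simpa using this
    have h6 : DifferentiableAt ℂ F (z + (0 : ℂ) • v) :=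
      hF.differentiableAt (isOpen_ball.mem_nhds (hin 0 (by simp [hρ0.le])))
    have h7 := (h6.hasFDerivAt.comp_hasDerivAt (0 : ℂ) h5).deriv
    rw [zero_smul, add_zero] at h7
    exact h7
  rw [h4] at h3
  refine h3.trans (le_of_eq ?_)
  rw [hρ]
  field_simp

theorem fderiv_real {F : Cn n → W} {z : Cn n} (hF : DifferentiableAt ℂ F z) :
    fderiv ℝ F z = ContinuousLinearMap.restrictScalarsIsometry ℂ (Cn n) W ℝ ℝ (fderiv ℂ F z) := by
  rw [(hF.hasFDerivAt.restrictScalars ℝ).fderiv]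
  rfl

end cauchy

theorem diffOn_fderiv {W : Type} [NormedAddCommGroup W] [NormedSpace ℂ W] [CompleteSpace W]
    {F : Cn n → W} {U : Set (Cn n)} (hU : IsOpen U)
    (hF : DifferentiableOn ℂ F U) : DifferentiableOn ℂ (fderiv ℂ F) U := fun z hz =>
  ((Crest.Agent.R266.SCV.analyticOnNhd_of_differentiableOn hU hF z hz).fderiv).differentiableAt.differentiableWithinAt

theorem contDiffOn_hol {W : Type} [NormedAddCommGroup W] [NormedSpace ℂ W] [CompleteSpace W]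
    {F : Cn n → W} {U : Set (Cn n)} (hU : IsOpen U) (hF : DifferentiableOn ℂ F U) :
    ContDiffOn ℝ ∞ F U := fun z hz =>
  (((Crest.Agent.R266.SCV.analyticOnNhd_of_differentiableOn hU hF z hz).contDiffAt
    (n := ∞)).restrict_scalars ℝ).contDiffWithinAt

theorem hol_center (n : ℕ) (k : ℕ) : ∃ C : ℝ, 0 ≤ C ∧
    ∀ (W : Type) [NormedAddCommGroup W] [NormedSpace ℂ W] [CompleteSpace W]
      (F : Cn n → W) (z₀ : Cn n) (R M : ℝ), 0 < R → 0 ≤ M → DifferentiableOn ℂ F (ball z₀ R) →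
      (∀ z ∈ ball z₀ R, ‖F z‖ ≤ M) → ‖iteratedFDeriv ℝ k F z₀‖ ≤ C * M / R ^ k := by
  induction k with
  | zero =>
    refine ⟨1, zero_le_one, fun W _ _ _ F z₀ R M hR hM hF hb => ?_⟩
    rw [norm_iteratedFDeriv_zero, pow_zero, div_one, one_mul]
    exact hb z₀ (mem_ball_self hR)
  | succ k ih =>
    obtain ⟨C, hC0, hC⟩ := ih
    refine ⟨2 ^ (k + 2) * C, by positivity, fun W _ _ _ F z₀ R M hR hM hF hb => ?_⟩
    have hsub : ball z₀ (R / 2) ⊆ ball z₀ R := ball_subset_ball (by linarith)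
    have h1 := hC (Cn n →L[ℂ] W) (fderiv ℂ F) z₀ (R / 2) (4 * M / R) (by positivity)
      (by positivity) ((diffOn_fderiv isOpen_ball hF).mono hsub)
      fun z hz => hol_fderiv hR hM hF hb hz
    have h2 : fderiv ℝ F =ᶠ[𝓝 z₀] fun z =>
        ContinuousLinearMap.restrictScalarsIsometry ℂ (Cn n) W ℝ ℝ (fderiv ℂ F z) :=
      Filter.eventually_of_mem (isOpen_ball.mem_nhds (mem_ball_self hR)) fun z hz =>
        fderiv_real (hF.differentiableAt (isOpen_ball.mem_nhds hz))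
    have h3 : ContDiffAt ℝ k (fderiv ℂ F) z₀ :=
      ((contDiffOn_hol isOpen_ball (diffOn_fderiv isOpen_ball hF)).contDiffAt
        (isOpen_ball.mem_nhds (mem_ball_self hR))).of_le (by exact_mod_cast le_top)
    rw [← norm_iteratedFDeriv_fderiv, (Filter.EventuallyEq.iteratedFDeriv ℝ h2 k).eq_of_nhds]
    have h4 : ‖iteratedFDeriv ℝ k (fun z =>
        ContinuousLinearMap.restrictScalarsIsometry ℂ (Cn n) W ℝ ℝ (fderiv ℂ F z)) z₀‖
        = ‖iteratedFDeriv ℝ k (fderiv ℂ F) z₀‖ :=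
      (ContinuousLinearMap.restrictScalarsIsometry ℂ (Cn n) W ℝ ℝ).norm_iteratedFDeriv_comp_left
        h3 le_rfl
    rw [h4]
    refine h1.trans (le_of_eq ?_)
    rw [div_pow]
    field_simp
    ring

/-- **Cauchy estimates** -/
theorem hol_ck (n : ℕ) (k : ℕ) : ∃ C : ℝ, 0 ≤ C ∧
    ∀ (W : Type) [NormedAddCommGroup W] [NormedSpace ℂ W] [CompleteSpace W]
      (F : Cn n → W) (z₀ : Cn n) (R M : ℝ), 0 < R → 0 ≤ M → DifferentiableOn ℂ F (ball z₀ R) →
      (∀ z ∈ ball z₀ R, ‖F z‖ ≤ M) →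
      ∀ z ∈ ball z₀ (R / 2), ‖iteratedFDeriv ℝ k F z‖ ≤ C * M / R ^ k := by
  obtain ⟨C, hC0, hC⟩ := hol_center n k
  refine ⟨2 ^ k * C, by positivity, fun W _ _ _ F z₀ R M hR hM hF hb z hz => ?_⟩
  have hsub : ball z (R / 2) ⊆ ball z₀ R := by
    refine ball_subset_ball' ?_
    rw [mem_ball] at hz
    linarith
  refine (hC W F z (R / 2) M (by positivity) hM (hF.mono hsub)
    fun w hw => hb w (hsub hw)).trans (le_of_eq ?_)
  rw [div_pow]
  field_simp

/-! ### the logarithm of a holomorphic function -/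

/-- `D log |J|² = Re (2 J⁻¹ DJ)` -/
theorem fderiv_log {J : Cn n → ℂ} {z : Cn n} (hJ : DifferentiableAt ℂ J z) (h0 : J z ≠ 0) :
    fderiv ℝ (fun w => Real.log (‖J w‖ ^ 2)) z = Complex.reCLM.comp
      (ContinuousLinearMap.restrictScalars ℝ ((2 * (J z)⁻¹) • fderiv ℂ J z)) := by
  have h1 : HasFDerivAt J (ContinuousLinearMap.restrictScalars ℝ (fderiv ℂ J z)) z :=
    hJ.hasFDerivAt.restrictScalars ℝ
  have h2 := (h1.norm_sq).log (by positivity : ‖J z‖ ^ 2 ≠ 0)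
  have h3 : HasFDerivAt (fun w => Real.log (‖J w‖ ^ 2)) _ z := h2
  rw [h3.fderiv]
  ext v
  have h4 : (innerSL ℝ (J z)) (fderiv ℂ J z v) = (conj (J z) * fderiv ℂ J z v).re := by
    rw [innerSL_apply_apply, Complex.inner]
    ring_nf
  have h5 : (‖J z‖ ^ 2)⁻¹ * (2 * (conj (J z) * fderiv ℂ J z v).re)
      = (2 * (J z)⁻¹ * fderiv ℂ J z v).re := by
    have h6 : (2 * (J z)⁻¹ * fderiv ℂ J z v)
        = (((‖J z‖ ^ 2)⁻¹ * 2 : ℝ) : ℂ) * (conj (J z) * fderiv ℂ J z v) := by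
      rw [Complex.inv_def, Complex.normSq_eq_norm_sq]
      push_cast
      ring
    rw [h6, Complex.re_ofReal_mul]
    ring
  show (‖J z‖ ^ 2)⁻¹ * ((2 : ℕ) • (innerSL ℝ (J z)) (fderiv ℂ J z v))
    = (2 * (J z)⁻¹ * fderiv ℂ J z v).re
  rw [h4, ← h5, nsmul_eq_mul]
  norm_num

theorem log_ck (n : ℕ) (c M : ℝ) (hc : 0 < c) : ∃ K : ℕ → ℝ, (∀ j, 0 ≤ K j) ∧
    ∀ (J : Cn n → ℂ) (z₀ : Cn n) (R : ℝ), 0 < R → DifferentiableOn ℂ J (ball z₀ R) →
      (∀ z ∈ ball z₀ R, c ≤ ‖J z‖ ∧ ‖J z‖ ≤ M) →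
      ∀ j : ℕ, 1 ≤ j → ∀ z ∈ ball z₀ (R / 4),
        ‖iteratedFDeriv ℝ j (fun w => Real.log (‖J w‖ ^ 2)) z‖ ≤ K j / (R / 4) ^ j := by
  have hK := fun k => hol_ck n k
  choose C hC0 hC using hK
  refine ⟨fun j => C (j - 1) * (8 * c⁻¹ * |M|) , fun j => by
    have := hC0 (j - 1)
    positivity, ?_⟩
  intro J z₀ R hR hJ hJb j hj z hz
  obtain ⟨k, rfl⟩ : ∃ k, j = k + 1 := ⟨j - 1, by omega⟩
  have hne : ∀ z ∈ ball z₀ R, J z ≠ 0 := fun z hz h => by
    have := (hJb z hz).1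
    rw [h, norm_zero] at this
    linarith
  set L : Cn n → (Cn n →L[ℂ] ℂ) := fun z => (2 * (J z)⁻¹) • fderiv ℂ J z with hL
  have hsub : ball z₀ (R / 2) ⊆ ball z₀ R := ball_subset_ball (by linarith)
  have hsub4 : ball z₀ (R / 4) ⊆ ball z₀ (R / 2) := ball_subset_ball (by linarith)
  have hLd : DifferentiableOn ℂ L (ball z₀ (R / 2)) := by
    have h1 : DifferentiableOn ℂ (fun z => 2 * (J z)⁻¹) (ball z₀ R) :=
      (hJ.inv hne).const_mul 2
    exact (h1.smul (diffOn_fderiv isOpen_ball hJ)).mono hsub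
  have hLb : ∀ z ∈ ball z₀ (R / 2), ‖L z‖ ≤ 8 * c⁻¹ * |M| / R := by
    intro z hz
    have h1 := hol_fderiv hR (abs_nonneg M) hJ
      (fun z hz => (hJb z hz).2.trans (le_abs_self M)) hz
    have h2 : ‖(2 * (J z)⁻¹ : ℂ)‖ ≤ 2 * c⁻¹ := by
      rw [norm_mul, norm_inv]
      have : ‖(2 : ℂ)‖ = 2 := by simp
      rw [this]
      exact mul_le_mul_of_nonneg_left (inv_anti₀ hc (hJb z (hsub hz)).1) (by norm_num)
    rw [hL]
    show ‖(2 * (J z)⁻¹) • fderiv ℂ J z‖ ≤ _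
    rw [norm_smul]
    calc _ ≤ 2 * c⁻¹ * (4 * |M| / R) := mul_le_mul h2 h1 (norm_nonneg _) (by positivity)
      _ = 8 * c⁻¹ * |M| / R := by ring
  have hz2 : z ∈ ball z₀ (R / 2 / 2) := by
    have : R / 2 / 2 = R / 4 := by ring
    rwa [this]
  have h3 := hC k (Cn n →L[ℂ] ℂ) L z₀ (R / 2) (8 * c⁻¹ * |M| / R) (by positivity) (by positivity)
    hLd hLb z hz2
  -- compare with the derivatives of `log |J|²`
  have hzR : z ∈ ball z₀ R := hsub (hsub4 hz)
  have h4 : fderiv ℝ (fun w => Real.log (‖J w‖ ^ 2)) =ᶠ[𝓝 z] fun y =>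
      (ContinuousLinearMap.compL ℝ (Cn n) ℂ ℝ Complex.reCLM)
        (ContinuousLinearMap.restrictScalarsIsometry ℂ (Cn n) ℂ ℝ ℝ (L y)) :=
    Filter.eventually_of_mem (isOpen_ball.mem_nhds hzR) fun y hy =>
      fderiv_log (hJ.differentiableAt (isOpen_ball.mem_nhds hy)) (hne y hy)
  have h5 : ContDiffAt ℝ k L z :=
    ((contDiffOn_hol isOpen_ball hLd).contDiffAt
      (isOpen_ball.mem_nhds (hsub4 hz))).of_le (by exact_mod_cast le_top)
  have h6 : ContDiffAt ℝ k (fun y =>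
      ContinuousLinearMap.restrictScalarsIsometry ℂ (Cn n) ℂ ℝ ℝ (L y)) z :=
    (ContinuousLinearMap.restrictScalarsIsometry ℂ (Cn n) ℂ ℝ ℝ).contDiff.contDiffAt.comp z h5
  rw [← norm_iteratedFDeriv_fderiv, (Filter.EventuallyEq.iteratedFDeriv ℝ h4 k).eq_of_nhds]
  have h7 := (ContinuousLinearMap.compL ℝ (Cn n) ℂ ℝ Complex.reCLM).norm_iteratedFDeriv_comp_left
    h6 le_rfl
  have h8 : ‖ContinuousLinearMap.compL ℝ (Cn n) ℂ ℝ Complex.reCLM‖ ≤ 1 := by
    refine ContinuousLinearMap.opNorm_le_bound _ zero_le_one fun T => ?_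
    rw [one_mul, ContinuousLinearMap.compL_apply]
    refine ContinuousLinearMap.opNorm_le_bound _ (norm_nonneg _) fun v => ?_
    exact (Complex.abs_re_le_norm _).trans (T.le_opNorm v)
  have h9 : ‖iteratedFDeriv ℝ k (fun y =>
      ContinuousLinearMap.restrictScalarsIsometry ℂ (Cn n) ℂ ℝ ℝ (L y)) z‖
      = ‖iteratedFDeriv ℝ k L z‖ :=
    (ContinuousLinearMap.restrictScalarsIsometry ℂ (Cn n) ℂ ℝ ℝ).norm_iteratedFDeriv_comp_left
      h5 le_rfl
  have h10 : C k * (8 * c⁻¹ * |M| / R) / (R / 2) ^ k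
      ≤ C k * (8 * c⁻¹ * |M|) / (R / 4) ^ (k + 1) := by
    have e1 : C k * (8 * c⁻¹ * |M| / R) / (R / 2) ^ k
        = C k * (8 * c⁻¹ * |M|) * (2 ^ k / R ^ (k + 1)) := by
      rw [div_pow, pow_succ R]
      field_simp
    have e2 : C k * (8 * c⁻¹ * |M|) / (R / 4) ^ (k + 1)
        = C k * (8 * c⁻¹ * |M|) * (4 ^ (k + 1) / R ^ (k + 1)) := by
      rw [div_pow]
      field_simp
    rw [e1, e2]
    have e3 : (2 : ℝ) ^ k ≤ 4 ^ (k + 1) :=
      (pow_le_pow_left₀ (by norm_num) (by norm_num) k).trans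
        (pow_le_pow_right₀ (by norm_num) (by omega))
    have := hC0 k
    exact mul_le_mul_of_nonneg_left (div_le_div_of_nonneg_right e3 (by positivity)) (by positivity)
  refine le_trans ?_ (h3.trans h10)
  calc _ ≤ ‖ContinuousLinearMap.compL ℝ (Cn n) ℂ ℝ Complex.reCLM‖ *
        ‖iteratedFDeriv ℝ k (fun y =>
          ContinuousLinearMap.restrictScalarsIsometry ℂ (Cn n) ℂ ℝ ℝ (L y)) z‖ := h7
    _ ≤ 1 * ‖iteratedFDeriv ℝ k L z‖ := by
        rw [h9]
        exact mul_le_mul_of_nonneg_right h8 (norm_nonneg _)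
    _ = _ := one_mul _

/-! ### determinants of pinched matrices -/

theorem det_norm_le {A : Matrix (Fin n) (Fin n) ℂ} {x : ℝ} (h : ∀ a b, ‖A a b‖ ≤ x) :
    ‖A.det‖ ≤ (n.factorial : ℝ) * x ^ n := by
  have h1 := Matrix.det_le (abv := (IsAbsoluteValue.toAbsoluteValue (norm : ℂ → ℝ))) (A := A)
    (x := x) h
  rw [Fintype.card_fin, nsmul_eq_mul] at h1
  exact h1

theorem det_pinch {lo hi : ℝ} (hlo : 0 < lo) (hhi : 0 < hi) {A : Matrix (Fin n) (Fin n) ℂ}
    (hA : EllC lo hi A) (hd : A.det ≠ 0) :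
    ((n.factorial : ℝ) * (2 * (1 / lo)) ^ n)⁻¹ ≤ ‖A.det‖ ∧
      ‖A.det‖ ≤ (n.factorial : ℝ) * (2 * hi) ^ n := by
  refine ⟨?_, det_norm_le fun a b => ell_entry hlo.le hhi.le hA a b⟩
  have h1 := ell_inv hlo hhi hA hd
  have h2 := det_norm_le fun a b => ell_entry (by positivity) (by positivity) h1 a b
  rw [Matrix.det_nonsing_inv, Ring.inverse_eq_inv', norm_inv] at h2
  have h3 : 0 < ‖A.det‖ := norm_pos_iff.2 hd
  exact inv_le_of_inv_le₀ h3 h2

/-- the determinant of a pinched matrix does not vanish -/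
theorem det_ne_of_ell {lo hi : ℝ} (hlo : 0 < lo) {A : Matrix (Fin n) (Fin n) ℂ}
    (hA : EllC lo hi A) : A.det ≠ 0 := by
  intro h0
  obtain ⟨v, hv, hv0⟩ := Matrix.exists_mulVec_eq_zero_iff.2 h0
  have h1 := (hA.2 v).1
  rw [hv0, dotProduct_zero, Complex.zero_re] at h1
  have h2 : 0 < ∑ a, ‖v a‖ ^ 2 := by
    obtain ⟨a, ha⟩ := Function.ne_iff.1 hv
    refine Finset.sum_pos' (fun _ _ => by positivity) ⟨a, Finset.mem_univ a, ?_⟩
    have : 0 < ‖v a‖ := norm_pos_iff.2 ha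
    positivity
  nlinarith

/-- **interior estimates of all orders, `det = |J|²`** -/
theorem pinch_hol (n : ℕ) (lo hi : ℝ) (hlo : 0 < lo) (k : ℕ) : ∃ C : ℝ, 0 ≤ C ∧
    ∀ (z₀ : Cn n) (R : ℝ) (u : Cn n → ℝ) (J : Cn n → ℂ), 0 < R → ContDiffOn ℝ ∞ u (ball z₀ R) →
      (∀ z ∈ ball z₀ R, ∀ v, lo * ‖v‖ ^ 2 ≤ lev u z v ∧ lev u z v ≤ hi * ‖v‖ ^ 2) →
      DifferentiableOn ℂ J (ball z₀ R) →
      (∀ z ∈ ball z₀ R, (cH u z).det = ((‖J z‖ ^ 2 : ℝ) : ℂ)) →
      ∀ z ∈ ball z₀ (R / 2), ∀ a b,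
        ‖iteratedFDeriv ℝ k (fun w => cH u w a b) z‖ ≤ C / R ^ k := by
  set hi' : ℝ := max hi lo with hhi'
  have hhi0 : 0 < hi' := hlo.trans_le (le_max_right _ _)
  set m : ℝ := ((n.factorial : ℝ) * (2 * (1 / (lo / 4))) ^ n)⁻¹ with hm
  set M : ℝ := (n.factorial : ℝ) * (2 * (hi' / 4)) ^ n with hM
  have hfac : (0 : ℝ) < n.factorial := by exact_mod_cast Nat.factorial_pos n
  have hm0 : 0 < m := by positivity
  have hM0 : 0 < M := by positivity
  obtain ⟨K, hK0, hK⟩ := log_ck n (Real.sqrt m) (Real.sqrt M) (Real.sqrt_pos.2 hm0)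
  obtain ⟨C, hC0, hC⟩ := pinch_ck n lo hi' K hlo k
  refine ⟨8 ^ k * C, by positivity, fun z₀ R u J hR hu hlev hJ hdet z hz a b => ?_⟩
  have hsub : ball z (R / 2) ⊆ ball z₀ R := by
    refine ball_subset_ball' ?_
    rw [mem_ball] at hz
    linarith
  have hsub2 : ball z (R / 2 / 4) ⊆ ball z (R / 2) := ball_subset_ball (by linarith)
  have hell : ∀ w ∈ ball z₀ R, EllC (lo / 4) (hi' / 4) (cH u w) := fun w hw =>
    ell_of_lev (hu.contDiffAt (isOpen_ball.mem_nhds hw)) fun v => ⟨(hlev w hw v).1,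
      (hlev w hw v).2.trans (mul_le_mul_of_nonneg_right (le_max_left _ _) (by positivity))⟩
  have hJb : ∀ w ∈ ball z₀ R, Real.sqrt m ≤ ‖J w‖ ∧ ‖J w‖ ≤ Real.sqrt M := by
    intro w hw
    have h1 := det_pinch (by positivity) (by positivity) (hell w hw)
      (det_ne_of_ell (by positivity) (hell w hw))
    have h2 : ‖(cH u w).det‖ = ‖J w‖ ^ 2 := by
      rw [hdet w hw, Complex.norm_real, Real.norm_of_nonneg (by positivity)]
    rw [h2] at h1
    exact ⟨(Real.sqrt_le_left (norm_nonneg _)).2 h1.1, Real.le_sqrt_of_sq_le h1.2⟩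
  have hJ0 : ∀ w ∈ ball z₀ R, J w ≠ 0 := fun w hw h => by
    have := (hJb w hw).1
    rw [h, norm_zero] at this
    exact absurd this (not_le.2 (Real.sqrt_pos.2 hm0))
  have hP : Pin n lo hi' K ⊤ z (R / 2 / 4) u (fun w => Real.log (‖J w‖ ^ 2)) :=
    { hu := hu.mono (hsub2.trans hsub)
      hf := fun w hw => (Crest.Agent.R273.Levi_145.c2_log_normSq
        (Crest.Agent.R266.SCV.analyticOnNhd_of_differentiableOn isOpen_ball hJ w
          (hsub (hsub2 hw))) (hJ0 w (hsub (hsub2 hw))) ∞).contDiffWithinAt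
      hlev := fun w hw v => ⟨(hlev w (hsub (hsub2 hw)) v).1,
        (hlev w (hsub (hsub2 hw)) v).2.trans
          (mul_le_mul_of_nonneg_right (le_max_left _ _) (by positivity))⟩
      hdet := fun w hw => by
        have h1 : 0 < ‖J w‖ := norm_pos_iff.2 (hJ0 w (hsub (hsub2 hw)))
        rw [Real.exp_log (by positivity)]
        exact hdet w (hsub (hsub2 hw))
      hfK := fun w hw j hj _ => hK J z (R / 2) (by positivity) (hJ.mono hsub)
        (fun w hw => hJb w (hsub hw)) j hj w hw }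
  have h3 := hC z (R / 2 / 4) u _ (by positivity) hP z (mem_ball_self (by positivity)) a b
  refine h3.trans (le_of_eq ?_)
  have : R / 2 / 4 = R / 8 := by ring
  rw [this, div_pow]
  field_simp

end

end Crest.Agent.R281.LioH_346
end

-- ▼ part R281/SG3_790
section

/-!
# Row 281 (S0424), S-ASM (helper790): the metric of the strip as a Hermitian form; change of language

* `pbg_dot`, `pbg_herm`, `psd_lo`, `psd_hi` : `pbg K Φ ζ` as a Hermitian matrix, pinching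
* `Ps Φ : Cn n → M`, `holM_Ps`, `Jc_Ps`, `pu_Ps` : from `(Fin n → ℂ)` to `Cn n`
* `iter_norm_le` : iterated derivatives on `(Fin n → ℂ)` from those on `Cn n`
* `pbg_add`      : periodicity
-/

set_option autoImplicit false
set_option linter.unusedSectionVars false

open Set Filter Topology Complex Metric
open scoped ContDiff Matrix ComplexConjugate ComplexOrder

namespace Crest.Agent.R281.SG3_790

open Crest.Agent.R275.Geo Crest.Agent.R275.Core144 Crest.Agent.R275.EDR890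
open Crest.Agent.R273.Defs_333 Crest.Agent.R273.Hess_333 Crest.Agent.R273.HessB_333
open Crest.Agent.R273.HM_333 Crest.Agent.R273.Kah_333 Crest.Agent.R273.Vol_333
open Crest.Agent.R273.FIb0_597 Crest.Agent.R273.YauDefs_635
open Crest.Agent.R281.Tor_922 Crest.Agent.R281.SAsm_790 Crest.Agent.R281.SIn_14
open Crest.Agent.R281.SG2_790 Crest.Agent.R281.SPot_790
open Crest.Agent.R281.Glob1_484 (nsM)

noncomputable section

variable {n : ℕ} {M : Type} [TopologicalSpace M] {A : Atl n M}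

/-! ### the pulled back metric as a Hermitian form -/

theorem form_eq (J g : Matrix (Fin n) (Fin n) ℂ) (x : Fin n → ℂ) :
    star x ⬝ᵥ ((Jᵀ * g * J.map conj) *ᵥ x) = (star (J *ᵥ star x)) ⬝ᵥ (gᵀ *ᵥ (J *ᵥ star x)) := by
  have h1 : (J.map conj) *ᵥ x = star (J *ᵥ star x) := by
    funext b
    simp [Matrix.mulVec, dotProduct]
  rw [← Matrix.mulVec_mulVec, h1, ← Matrix.mulVec_mulVec, Matrix.dotProduct_mulVec,
    Matrix.vecMul_transpose, Matrix.mulVec_transpose, Matrix.dotProduct_mulVec, dotProduct_comm]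

theorem pbg_dot (K : Kah A) (Φ : (Fin n → ℂ) → M) (ζ x : Fin n → ℂ) :
    (star x ⬝ᵥ (pbg K Φ ζ *ᵥ x)).re = qf K (ch A (Φ ζ)) (Φ ζ)
      (fderiv ℂ (fun w => A.e (ch A (Φ ζ)) (Φ w)) ζ (star x)) := by
  have h1 : (fderiv ℂ (fun w => A.e (ch A (Φ ζ)) (Φ w)) ζ (star x)).ofLp =
      jac A Φ (ch A (Φ ζ)) ζ *ᵥ star x := by
    funext b
    exact (jac_mulVec Φ (ch A (Φ ζ)) ζ (star x) b).symm
  rw [pbg, form_eq, qf, h1]

theorem pbg_herm (K : Kah A) (Φ : (Fin n → ℂ) → M) (ζ : Fin n → ℂ) : (pbg K Φ ζ).IsHermitian := by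
  have h1 := (K.pos (ch A (Φ ζ)) (Φ ζ) (mem_ch A (Φ ζ))).1
  have h2 := Matrix.isHermitian_mul_mul_conjTranspose ((jac A Φ (ch A (Φ ζ)) ζ)ᵀ) h1
  have h3 : ((jac A Φ (ch A (Φ ζ)) ζ)ᵀ)ᴴ = (jac A Φ (ch A (Φ ζ)) ζ).map conj := by
    ext a b
    simp [Matrix.conjTranspose_apply]
  rw [h3] at h2
  exact h2

theorem dot_self (x : Fin n → ℂ) : star x ⬝ᵥ x = ((∑ j, ‖x j‖ ^ 2 : ℝ) : ℂ) := by
  simp only [dotProduct, Pi.star_apply, RCLike.star_def]
  push_cast
  exact Finset.sum_congr rfl fun j _ => Complex.conj_mul' (x j)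

theorem herm_dot_real {G : Matrix (Fin n) (Fin n) ℂ} (hG : G.IsHermitian) (x : Fin n → ℂ) :
    star x ⬝ᵥ (G *ᵥ x) = (((star x ⬝ᵥ (G *ᵥ x)).re : ℝ) : ℂ) := by
  have h1 := hG.im_star_dotProduct_mulVec_self x
  apply Complex.ext
  · simp
  · simpa using h1

/-- lower bound of a Hermitian matrix -/
theorem psd_lo {G : Matrix (Fin n) (Fin n) ℂ} (hG : G.IsHermitian) {lo : ℝ}
    (h : ∀ x : Fin n → ℂ, lo * ∑ j, ‖x j‖ ^ 2 ≤ (star x ⬝ᵥ (G *ᵥ x)).re) :
    (G - ((lo : ℝ) : ℂ) • (1 : Matrix (Fin n) (Fin n) ℂ)).PosSemidef := by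
  have h1 : (((lo : ℝ) : ℂ) • (1 : Matrix (Fin n) (Fin n) ℂ)).IsHermitian := by
    rw [Matrix.IsHermitian, Matrix.conjTranspose_smul]
    simp
  refine Matrix.PosSemidef.of_dotProduct_mulVec_nonneg (hG.sub h1) fun x => ?_
  rw [Matrix.sub_mulVec, Matrix.smul_mulVec, Matrix.one_mulVec, dotProduct_sub, dotProduct_smul,
    herm_dot_real hG, dot_self, smul_eq_mul, ← Complex.ofReal_mul, ← Complex.ofReal_sub]
  have := h x
  exact_mod_cast sub_nonneg.2 this

/-- upper bound of a Hermitian matrix -/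
theorem psd_hi {G : Matrix (Fin n) (Fin n) ℂ} (hG : G.IsHermitian) {hi : ℝ}
    (h : ∀ x : Fin n → ℂ, (star x ⬝ᵥ (G *ᵥ x)).re ≤ hi * ∑ j, ‖x j‖ ^ 2) :
    (((hi : ℝ) : ℂ) • (1 : Matrix (Fin n) (Fin n) ℂ) - G).PosSemidef := by
  have h1 : (((hi : ℝ) : ℂ) • (1 : Matrix (Fin n) (Fin n) ℂ)).IsHermitian := by
    rw [Matrix.IsHermitian, Matrix.conjTranspose_smul]
    simp
  refine Matrix.PosSemidef.of_dotProduct_mulVec_nonneg (h1.sub hG) fun x => ?_
  rw [Matrix.sub_mulVec, Matrix.smul_mulVec, Matrix.one_mulVec, dotProduct_sub, dotProduct_smul,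
    herm_dot_real hG, dot_self, smul_eq_mul, ← Complex.ofReal_mul, ← Complex.ofReal_sub]
  have := h x
  exact_mod_cast sub_nonneg.2 this

theorem sum_star (x : Fin n → ℂ) : ∑ j, ‖(star x) j‖ ^ 2 = ∑ j, ‖x j‖ ^ 2 := by simp

/-- pinching of `pbg` as matrices -/
theorem pbg_lo (K : Kah A) (Φ : (Fin n → ℂ) → M) {ζ : Fin n → ℂ} {lo : ℝ}
    (h : ∀ i, Φ ζ ∈ (A.e i).source → ∀ v : Fin n → ℂ,
      lo * ∑ j, ‖v j‖ ^ 2 ≤ qf K i (Φ ζ) (fderiv ℂ (fun w => A.e i (Φ w)) ζ v)) :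
    (pbg K Φ ζ - ((lo : ℝ) : ℂ) • (1 : Matrix (Fin n) (Fin n) ℂ)).PosSemidef :=
  psd_lo (pbg_herm K Φ ζ) fun x => by
    rw [pbg_dot, ← sum_star]
    exact h _ (mem_ch A (Φ ζ)) _

theorem pbg_hi (K : Kah A) (Φ : (Fin n → ℂ) → M) {ζ : Fin n → ℂ} {hi : ℝ}
    (h : ∀ i, Φ ζ ∈ (A.e i).source → ∀ v : Fin n → ℂ,
      qf K i (Φ ζ) (fderiv ℂ (fun w => A.e i (Φ w)) ζ v) ≤ hi * ∑ j, ‖v j‖ ^ 2) :
    (((hi : ℝ) : ℂ) • (1 : Matrix (Fin n) (Fin n) ℂ) - pbg K Φ ζ).PosSemidef :=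
  psd_hi (pbg_herm K Φ ζ) fun x => by
    rw [pbg_dot, ← sum_star]
    exact h _ (mem_ch A (Φ ζ)) _

/-! ### change of language -/

/-- `Cn n ≃ (Fin n → ℂ)` -/
def eN (n : ℕ) : Cn n ≃L[ℂ] (Fin n → ℂ) := EuclideanSpace.equiv (Fin n) ℂ

theorem eN_apply (z : Cn n) : eN n z = z.ofLp := rfl


theorem eN_single (a : Fin n) : eN n (EuclideanSpace.single a 1) = Pi.single a 1 := by
  funext b
  simp [eN_apply, Pi.single_apply]

/-- the map read on `Cn n` -/
def Ps (Φ : (Fin n → ℂ) → M) (z : Cn n) : M := Φ (eN n z)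

theorem fderiv_Ps (Φ : (Fin n → ℂ) → M) (i : A.ι) (z : Cn n) :
    fderiv ℂ (fun w => A.e i (Ps Φ w)) z =
      (fderiv ℂ (fun w => A.e i (Φ w)) (eN n z)).comp (eN n : Cn n →L[ℂ] (Fin n → ℂ)) :=
  (eN n).comp_right_fderiv (f := fun w => A.e i (Φ w)) (x := z)

theorem Jc_Ps (Φ : (Fin n → ℂ) → M) (i : A.ι) (z : Cn n) :
    Jc A (Ps Φ) i z = jac A Φ i (eN n z) := by
  ext c a
  simp only [Jc, jac, Matrix.of_apply]
  rw [fderiv_Ps, ContinuousLinearMap.comp_apply]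
  change (fderiv ℂ (fun w => A.e i (Φ w)) (eN n z) (eN n (EuclideanSpace.single a 1))) c = _
  rw [eN_single]

theorem pu_Ps (K : Kah A) (Φ : (Fin n → ℂ) → M) (z : Cn n) :
    pu K (Ps Φ) z = pbg K Φ (eN n z) := by
  unfold pu pbg
  rw [Jc_Ps]
  rfl

/-- the strip in `Cn n` -/
def US (ζ0 : Fin n → ℂ) (r : ℝ) : Set (Cn n) := eN n ⁻¹' strip ζ0 r

theorem isOpen_US (ζ0 : Fin n → ℂ) (r : ℝ) : IsOpen (US ζ0 r) :=
  (isOpen_strip ζ0 r).preimage (eN n).continuous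

theorem ball_sub_US (ζ0 : Fin n → ℂ) (r : ℝ) : ball ((eN n).symm ζ0) r ⊆ US ζ0 r := by
  intro z hz
  change ∀ j, |(z j).re - (ζ0 j).re| < r
  intro j
  rw [mem_ball, dist_eq_norm] at hz
  have h1 := PiLp.norm_apply_le (z - (eN n).symm ζ0) j
  have h2 : (z - (eN n).symm ζ0) j = z j - ζ0 j := rfl
  rw [h2] at h1
  rw [← Complex.sub_re]
  exact ((Complex.abs_re_le_norm _).trans h1).trans_lt hz

variable {F : M → Fin n → ℂ} {d : ℕ} {ζ0 : Fin n → ℂ} {r : ℝ} {Lam : AddSubgroup (Fin n → ℂ)}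
  {Φ : (Fin n → ℂ) → M}

theorem holM_Ps (h : Strip A F d ζ0 r Lam Φ) : HolM A (US ζ0 r) (Ps Φ) where
  cont := h.cont.comp (eN n).continuous.continuousOn fun z hz => hz
  hol := by
    intro i z hz
    have h1 := (h.hol (eN n z) hz.1 i hz.2).1
    exact (h1.comp z (eN n).differentiableAt).differentiableWithinAt

theorem Strip.mono' {r' : ℝ} (hr : r' ≤ r) (h : Strip A F d ζ0 r Lam Φ) :
    Strip A F d ζ0 r' Lam Φ := by
  have hs : strip ζ0 r' ⊆ strip ζ0 r := fun ζ hζ j => (hζ j).trans_le hr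
  exact ⟨h.le_lat, h.factorial_mem, h.cont.mono hs, fun ζ hζ => h.lift ζ (hs hζ),
    fun ζ hζ ζ' hζ' => h.eq_iff ζ (hs hζ) ζ' (hs hζ'), fun ζ hζ => h.hol ζ (hs hζ)⟩

/-! ### periodicity -/

theorem map_add (h : Strip A F d ζ0 r Lam Φ) {ζ lam : Fin n → ℂ} (hζ : ζ ∈ strip ζ0 r)
    (hlam : lam ∈ Lam) : Φ (ζ + lam) = Φ ζ := by
  refine (h.eq_iff _ (strip_add_lat hζ (h.le_lat hlam)) _ hζ).2 ?_
  rw [add_sub_cancel_left]
  exact hlam

theorem jac_add (h : Strip A F d ζ0 r Lam Φ) {ζ lam : Fin n → ℂ} (hζ : ζ ∈ strip ζ0 r)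
    (hlam : lam ∈ Lam) (i : A.ι) : jac A Φ i (ζ + lam) = jac A Φ i ζ := by
  have h1 : (fun w => A.e i (Φ (w + lam))) =ᶠ[𝓝 ζ] fun w => A.e i (Φ w) := by
    filter_upwards [(isOpen_strip ζ0 r).mem_nhds hζ] with w hw
    rw [map_add h hw hlam]
  have h2 : fderiv ℂ (fun w => A.e i (Φ w)) (ζ + lam) =
      fderiv ℂ (fun w => A.e i (Φ (w + lam))) ζ :=
    (fderiv_comp_add_right (f := fun w => A.e i (Φ w)) (x := ζ) lam).symm
  unfold jac
  rw [h2, h1.fderiv_eq]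

theorem pbg_add (K : Kah A) (h : Strip A F d ζ0 r Lam Φ) {ζ lam : Fin n → ℂ}
    (hζ : ζ ∈ strip ζ0 r) (hlam : lam ∈ Lam) : pbg K Φ (ζ + lam) = pbg K Φ ζ := by
  unfold pbg
  rw [map_add h hζ hlam, jac_add h hζ hlam]

theorem iter_add (K : Kah A) (h : Strip A F d ζ0 r Lam Φ) {ζ lam : Fin n → ℂ}
    (hζ : ζ ∈ strip ζ0 r) (hlam : lam ∈ Lam) (a b : Fin n) (k : ℕ) :
    iteratedFDeriv ℝ k (fun ζ => pbg K Φ ζ a b) (ζ + lam) =
      iteratedFDeriv ℝ k (fun ζ => pbg K Φ ζ a b) ζ := by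
  rw [← iteratedFDeriv_comp_add_right]
  have h1 : (fun w => pbg K Φ (w + lam) a b) =ᶠ[𝓝 ζ] fun w => pbg K Φ w a b := by
    filter_upwards [(isOpen_strip ζ0 r).mem_nhds hζ] with w hw
    rw [pbg_add K h hw hlam]
  exact (h1.iteratedFDeriv ℝ k).eq_of_nhds

/-! ### iterated derivatives -/

/-- real form of `eN` -/
def eR' (n : ℕ) : Cn n ≃L[ℝ] (Fin n → ℂ) := PiLp.continuousLinearEquiv 2 ℝ (fun _ : Fin n => ℂ)

/-- operator norm of the inverse, at least `1` -/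
def Bn (n : ℕ) : ℝ := max 1 ‖((eR' n).symm : (Fin n → ℂ) →L[ℝ] Cn n)‖

theorem Bn_ge (n : ℕ) : 1 ≤ Bn n := le_max_left _ _

theorem norm_symm_le (ζ : Fin n → ℂ) : ‖(eN n).symm ζ‖ ≤ Bn n * ‖ζ‖ :=
  (((eR' n).symm : (Fin n → ℂ) →L[ℝ] Cn n).le_opNorm ζ).trans
    (mul_le_mul_of_nonneg_right (le_max_right _ _) (norm_nonneg _))

theorem iter_norm_le (g : (Fin n → ℂ) → ℂ) (ζ : Fin n → ℂ) (k : ℕ) :
    ‖iteratedFDeriv ℝ k g ζ‖ ≤
      ‖iteratedFDeriv ℝ k (fun z : Cn n => g (eN n z)) ((eN n).symm ζ)‖ * Bn n ^ k := by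
  have h1 : g = (fun z : Cn n => g (eN n z)) ∘ (eR' n).symm := by
    funext w
    change g w = g (eN n ((eN n).symm w))
    rw [(eN n).apply_symm_apply]
  have h2 := (eR' n).symm.iteratedFDerivWithin_comp_right (fun z : Cn n => g (eN n z))
    (s := univ) uniqueDiffOn_univ (x := ζ) (mem_univ _) k
  rw [preimage_univ, iteratedFDerivWithin_univ, iteratedFDerivWithin_univ, ← h1] at h2
  rw [h2]
  refine (ContinuousMultilinearMap.norm_compContinuousLinearMap_le _ _).trans ?_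
  refine mul_le_mul_of_nonneg_left ?_ (norm_nonneg _)
  rw [Finset.prod_const, Finset.card_univ, Fintype.card_fin]
  exact pow_le_pow_left₀ (norm_nonneg _) (le_max_right _ _) k

end

end Crest.Agent.R281.SG3_790
end

-- ▼ part R281/SG4_790
section

/-!
# Row 281 (S0424), S-ASM (helper790): the metric of the strip is close to a constant

`closeC2 n lo hi d r ε` : there is `r' ≥ r` such that a strip of radius `r'` on which the metric is
pinched between `lo` and `hi` satisfies `CloseC2 (pbg K Φ) (pbg K Φ ζ0) (strip ζ0 r) ε`.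
-/

set_option autoImplicit false
set_option linter.unusedSectionVars false

open Set Filter Topology Complex Metric
open scoped ContDiff Matrix ComplexConjugate ComplexOrder

namespace Crest.Agent.R281.SG4_790

open Crest.Agent.R275.Geo Crest.Agent.R275.Core144 Crest.Agent.R275.EDR890
open Crest.Agent.R273.Defs_333 Crest.Agent.R273.Hess_333 Crest.Agent.R273.HessB_333
open Crest.Agent.R273.HM_333 Crest.Agent.R273.Kah_333 Crest.Agent.R273.Vol_333
open Crest.Agent.R273.FIb0_597 Crest.Agent.R273.YauDefs_635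
open Crest.Agent.R281.Tor_922 Crest.Agent.R281.SAsm_790 Crest.Agent.R281.SIn_14
open Crest.Agent.R281.SG2_790 Crest.Agent.R281.SPot_790 Crest.Agent.R281.SG3_790
open Crest.Agent.R281.Glob1_484 (nsM)

noncomputable section

variable {n : ℕ}

section one

variable {M : Type} [TopologicalSpace M] {A : Atl n M} {Lb : LB A} {K : Kah A} {h : HM Lb}
  {s0 : A.ι → M → ℂ} {om : A.ι → M → ℂ} {c : ℝ} {F : M → Fin n → ℂ} {d : ℕ} {ζ0 : Fin n → ℂ}
  {r : ℝ} {Lam : AddSubgroup (Fin n → ℂ)} {Φ : (Fin n → ℂ) → M}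

theorem smooth_u (hs : IsHS Lb univ s0) (hS : Strip A F d ζ0 r Lam Φ)
    (hne : ∀ ζ ∈ strip ζ0 r, 0 < nsM h s0 (Φ ζ)) :
    ContDiffOn ℝ ∞ (pot h s0 c (Ps Φ)) (US ζ0 r) :=
  pot_smooth h hs c (holM_Ps hS) (isOpen_US ζ0 r) fun z hz => hne (eN n z) hz

theorem hess_u (hs : IsHS Lb univ s0) (hc : c ≠ 0)
    (hcur : ∀ i, ∀ x ∈ (A.e i).source, cur h i x = (c⁻¹ : ℂ) • K.g i x)
    (hS : Strip A F d ζ0 r Lam Φ) (hne : ∀ ζ ∈ strip ζ0 r, 0 < nsM h s0 (Φ ζ)) {z : Cn n}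
    (hz : z ∈ US ζ0 r) : hess (pot h s0 c (Ps Φ)) z = pbg K Φ (eN n z) := by
  rw [hess_pot_pu K h hs hc (holM_Ps hS) (isOpen_US ζ0 r) hcur hz (hne (eN n z) hz), pu_Ps]

theorem cH_u (hs : IsHS Lb univ s0) (hc : c ≠ 0)
    (hcur : ∀ i, ∀ x ∈ (A.e i).source, cur h i x = (c⁻¹ : ℂ) • K.g i x)
    (hS : Strip A F d ζ0 r Lam Φ) (hne : ∀ ζ ∈ strip ζ0 r, 0 < nsM h s0 (Φ ζ)) {z : Cn n}
    (hz : z ∈ US ζ0 r) : cH (pot h s0 c (Ps Φ)) z = pbg K Φ (eN n z) := by
  rw [Crest.Agent.R273.YauMax_635.cH_eq_hess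
    ((smooth_u (c := c) hs hS hne).contDiffAt ((isOpen_US ζ0 r).mem_nhds hz)),
    hess_u hs hc hcur hS hne hz]

theorem lev_u (hs : IsHS Lb univ s0) (hc : c ≠ 0)
    (hcur : ∀ i, ∀ x ∈ (A.e i).source, cur h i x = (c⁻¹ : ℂ) • K.g i x)
    (hS : Strip A F d ζ0 r Lam Φ) (hne : ∀ ζ ∈ strip ζ0 r, 0 < nsM h s0 (Φ ζ)) {z : Cn n}
    (hz : z ∈ US ζ0 r) (v : Cn n) : lev (pot h s0 c (Ps Φ)) z v =
      4 * qf K (ch A (Φ (eN n z))) (Φ (eN n z))
        (fderiv ℂ (fun w => A.e (ch A (Φ (eN n z))) (Φ w)) (eN n z) v.ofLp) := by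
  have hu := (smooth_u (c := c) hs hS hne).contDiffAt ((isOpen_US ζ0 r).mem_nhds hz)
  have h1 := hq_re hu v
  have h2 := hq_eq_dot (pot h s0 c (Ps Φ)) z (star v.ofLp)
  have h3 : (WithLp.toLp 2 (fun a => conj ((star v.ofLp) a)) : Cn n) = v := by
    ext a
    simp
  rw [h3, hess_u hs hc hcur hS hne hz] at h2
  have h4 := pbg_dot K Φ (eN n z) (star v.ofLp)
  rw [h2, h1, star_star] at h4
  rw [← h4]
  ring

end one

/-- **the metric of a long strip is close to a constant on a shorter one** -/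
theorem closeC2 (n : ℕ) (lo hi : ℝ) (hlo : 0 < lo) (d : ℕ) (r ε : ℝ) (hr : 0 < r) (hε : 0 < ε) :
    ∃ r' : ℝ, r ≤ r' ∧
    ∀ (M : Type) [TopologicalSpace M] (A : Atl n M) (K : Kah A) (Lb : LB A) (h : HM Lb)
      (s0 : A.ι → M → ℂ) (om : A.ι → M → ℂ) (c : ℝ) (F : M → Fin n → ℂ) (ζ0 : Fin n → ℂ)
      (Lam : AddSubgroup (Fin n → ℂ)) (Φ : (Fin n → ℂ) → M),
      IsHS Lb univ s0 → c ≠ 0 → (∀ i, ∀ x ∈ (A.e i).source, cur h i x = (c⁻¹ : ℂ) • K.g i x) →
      IsHS (KB A) univ om → (∀ i, ∀ x ∈ (A.e i).source, ‖om i x‖ ^ 2 = (K.g i x).det.re) →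
      Strip A F d ζ0 r' Lam Φ → (∀ ζ ∈ strip ζ0 r', 0 < nsM h s0 (Φ ζ)) →
      (∀ ζ ∈ strip ζ0 r', ∀ i, Φ ζ ∈ (A.e i).source → ∀ v : Fin n → ℂ,
        lo * ∑ j, ‖v j‖ ^ 2 ≤ qf K i (Φ ζ) (fderiv ℂ (fun w => A.e i (Φ w)) ζ v) ∧
        qf K i (Φ ζ) (fderiv ℂ (fun w => A.e i (Φ w)) ζ v) ≤ hi * ∑ j, ‖v j‖ ^ 2) →
      CloseC2 (pbg K Φ) (pbg K Φ ζ0) (strip ζ0 r) ε := by
  obtain ⟨C1, hC1, H1⟩ := Crest.Agent.R281.LioH_346.pinch_hol n (4 * lo) (4 * hi) (by positivity) 1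
  obtain ⟨C2, hC2, H2⟩ := Crest.Agent.R281.LioH_346.pinch_hol n (4 * lo) (4 * hi) (by positivity) 2
  have hD : 0 < d.factorial := Nat.factorial_pos d
  have hD' : (0 : ℝ) < d.factorial := by exact_mod_cast hD
  have hpi := Real.pi_pos
  have hB := Bn_ge n
  have hB0 : 0 < Bn n := by linarith
  set ρ : ℝ := Bn n * (r + Real.pi * d.factorial) with hρ
  have hρ0 : 0 < ρ := by positivity
  set r' : ℝ := r + 2 * ρ + 1 + C1 * ρ / ε + C1 * Bn n / ε + C2 * Bn n ^ 2 / ε with hr'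
  have t1 : 0 ≤ C1 * ρ / ε := by positivity
  have t2 : 0 ≤ C1 * Bn n / ε := by positivity
  have t3 : 0 ≤ C2 * Bn n ^ 2 / ε := by positivity
  have hr'1 : 1 ≤ r' := by rw [hr']; linarith
  have hr'0 : 0 < r' := by linarith
  have hrr : r ≤ r' := by rw [hr']; linarith
  have hρr : ρ < r' / 2 := by rw [hr']; linarith
  have e1 : C1 / r' * ρ ≤ ε := by
    have : C1 * ρ / ε ≤ r' := by rw [hr']; linarith
    rw [div_le_iff₀ hε] at this
    rw [div_mul_eq_mul_div, div_le_iff₀ hr'0]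
    linarith [mul_comm r' ε]
  have e2 : C1 / r' ^ 1 * Bn n ^ 1 ≤ ε := by
    have : C1 * Bn n / ε ≤ r' := by rw [hr']; linarith
    rw [div_le_iff₀ hε] at this
    rw [pow_one, pow_one, div_mul_eq_mul_div, div_le_iff₀ hr'0]
    linarith [mul_comm r' ε]
  have e3 : C2 / r' ^ 2 * Bn n ^ 2 ≤ ε := by
    have : C2 * Bn n ^ 2 / ε ≤ r' := by rw [hr']; linarith
    rw [div_le_iff₀ hε] at this
    rw [div_mul_eq_mul_div, div_le_iff₀ (by positivity)]
    have h5 : r' * ε ≤ ε * r' ^ 2 := by nlinarith [mul_pos hε hr'0]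
    linarith
  refine ⟨r', hrr, fun M _ A K Lb h s0 om c F ζ0 Lam Φ hs hc hcur hom homn hS hne hp => ?_⟩
  set u := pot h s0 c (Ps Φ) with hu
  set z0 : Cn n := (eN n).symm ζ0 with hz0
  have hsub : ball z0 r' ⊆ US ζ0 r' := ball_sub_US ζ0 r'
  have husm : ContDiffOn ℝ ∞ u (US ζ0 r') := smooth_u hs hS hne
  have hcH : ∀ z ∈ US ζ0 r', cH u z = pbg K Φ (eN n z) := fun z hz => cH_u hs hc hcur hS hne hz
  have hlev : ∀ z ∈ ball z0 r', ∀ v, 4 * lo * ‖v‖ ^ 2 ≤ lev u z v ∧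
      lev u z v ≤ 4 * hi * ‖v‖ ^ 2 := by
    intro z hz v
    have hz' := hsub hz
    have h1 := hp (eN n z) hz' (ch A (Φ (eN n z))) (mem_ch A _) v.ofLp
    rw [hu, lev_u hs hc hcur hS hne hz' v, EuclideanSpace.norm_sq_eq]
    constructor <;> nlinarith [h1.1, h1.2]
  have hJ : DifferentiableOn ℂ (omJ om (Ps Φ)) (ball z0 r') :=
    (omJ_diff hom (holM_Ps hS) (isOpen_US ζ0 r')).mono hsub
  have hdet : ∀ z ∈ ball z0 r', (cH u z).det = ((‖omJ om (Ps Φ) z‖ ^ 2 : ℝ) : ℂ) := by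
    intro z hz
    rw [hcH z (hsub hz), ← pu_Ps]
    exact det_pu K homn z
  have hsm : ∀ a b, ContDiffOn ℝ ∞ (fun z : Cn n => pbg K Φ (eN n z) a b) (US ζ0 r') := by
    intro a b
    refine (Crest.Agent.R273.YauLoc_635.contDiffOn_cH (isOpen_US ζ0 r') husm a b).congr ?_
    intro z hz
    rw [hcH z hz]
  have hbd : ∀ k C, (∀ z ∈ ball z0 (r' / 2), ∀ a b,
      ‖iteratedFDeriv ℝ k (fun w => cH u w a b) z‖ ≤ C / r' ^ k) →
      ∀ z ∈ ball z0 (r' / 2), ∀ a b,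
      ‖iteratedFDeriv ℝ k (fun z : Cn n => pbg K Φ (eN n z) a b) z‖ ≤ C / r' ^ k := by
    intro k C hk z hz a b
    have hzU : z ∈ US ζ0 r' := hsub (ball_subset_ball (by linarith) hz)
    have h1 : (fun z : Cn n => pbg K Φ (eN n z) a b) =ᶠ[𝓝 z] fun w => cH u w a b := by
      filter_upwards [(isOpen_US ζ0 r').mem_nhds hzU] with w hw
      rw [hcH w hw]
    rw [(h1.iteratedFDeriv ℝ k).eq_of_nhds]
    exact hk z hz a b
  have hb1 := hbd 1 C1 (H1 z0 r' u _ hr'0 (husm.mono hsub) hlev hJ hdet)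
  have hb2 := hbd 2 C2 (H2 z0 r' u _ hr'0 (husm.mono hsub) hlev hJ hdet)
  have hss : strip ζ0 r ⊆ strip ζ0 r' := fun ζ hζ j => (hζ j).trans_le hrr
  -- smoothness on `Fin n → ℂ`
  have hsm' : ∀ a b, ContDiffOn ℝ ∞ (fun ζ => pbg K Φ ζ a b) (strip ζ0 r') := by
    intro a b
    have h1 := (hsm a b).comp (g := fun z : Cn n => pbg K Φ (eN n z) a b)
      (f := fun ζ => (eR' n).symm ζ) (s := strip ζ0 r') ((eR' n).symm.contDiff.contDiffOn)
      (fun ζ hζ => hζ)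
    exact h1
  refine ⟨fun a b => (hsm' a b).mono hss, fun ζ hζ a b => ?_⟩
  -- move `ζ` near `ζ0`
  obtain ⟨lam0, hlam0, hball⟩ := exists_lat_near hr hD hζ
  set lam : Fin n → ℂ := -(d.factorial • lam0) with hlam
  have hlamL : lam ∈ Lam := Lam.neg_mem (hS.factorial_mem lam0 hlam0)
  set ζ' : Fin n → ℂ := ζ + lam with hζ'
  have hζ'b : ζ' ∈ ball ζ0 (r + Real.pi * d.factorial) := by
    rw [hζ', hlam, ← sub_eq_add_neg]
    exact hball
  have hζr' := hss hζ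
  set z' : Cn n := (eN n).symm ζ' with hz'
  have hdist : ‖z' - z0‖ < ρ := by
    rw [hz', hz0, ← map_sub]
    refine (norm_symm_le _).trans_lt ?_
    rw [mem_ball, dist_eq_norm] at hζ'b
    rw [hρ]
    exact mul_lt_mul_of_pos_left hζ'b hB0
  have hz'b : z' ∈ ball z0 (r' / 2) := by
    rw [mem_ball, dist_eq_norm]
    linarith
  have hz0b : z0 ∈ ball z0 (r' / 2) := mem_ball_self (by linarith)
  have heq : pbg K Φ ζ = pbg K Φ ζ' := (pbg_add K hS hζr' hlamL).symm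
  have hez : eN n z' = ζ' := (eN n).apply_symm_apply ζ'
  have hez0 : eN n z0 = ζ0 := (eN n).apply_symm_apply ζ0
  constructor
  · rw [heq]
    have h1 := (convex_ball z0 (r' / 2)).norm_image_sub_le_of_norm_fderiv_le (𝕜 := ℝ)
      (f := fun z : Cn n => pbg K Φ (eN n z) a b) (C := C1 / r') (fun y hy => ?_) (fun y hy => ?_)
      hz0b hz'b
    · simp only [hez, hez0] at h1
      refine h1.trans (le_trans ?_ e1)
      exact mul_le_mul_of_nonneg_left hdist.le (by positivity)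
    · have hy' : y ∈ US ζ0 r' := hsub (ball_subset_ball (by linarith) hy)
      exact ((hsm a b).contDiffAt ((isOpen_US ζ0 r').mem_nhds hy')).differentiableAt (by simp)
    · have := hb1 y hy a b
      rwa [norm_iteratedFDeriv_one, pow_one] at this
  · intro k hk1 hk2
    rw [← iter_add K hS hζr' hlamL a b k]
    refine (iter_norm_le (fun ζ => pbg K Φ ζ a b) ζ' k).trans ?_
    interval_cases k
    · exact (mul_le_mul_of_nonneg_right (hb1 z' hz'b a b) (by positivity)).trans e2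
    · exact (mul_le_mul_of_nonneg_right (hb2 z' hz'b a b) (by positivity)).trans e3

end

end Crest.Agent.R281.SG4_790
end

-- ▼ part R281/Fcl1_14
section

/-!
# R281, S-FCL (helper14), part 1: change of variables for `Φ : ℂ^N → M`

* `kap N`          : the ratio of the two Lebesgue measures (`RI N → ℝ` and `Fin N → ℂ`)
* `lint_local`     : `∫_{Φ(E)} f dvm = kap ∫_E |det jac|² det g · f ∘ Φ`, `Φ(E)` in one chart,
                     `Φ` injective on `E`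
* `lint_inj`       : the same without the chart: density `(pbg K Φ ζ).det.re`
-/

set_option autoImplicit false
set_option linter.unusedSectionVars false

open Set Filter Topology Complex MeasureTheory
open scoped ContDiff Matrix ComplexConjugate ComplexOrder ENNReal

namespace Crest.Agent.R281.Fcl_14

open Crest.Agent.R275.Geo Crest.Agent.R275.Core144 Crest.Agent.R275.EDR890
open Crest.Agent.R273.Defs_333 Crest.Agent.R273.Hess_333 Crest.Agent.R273.HessB_333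
open Crest.Agent.R273.HM_333 Crest.Agent.R273.Kah_333 Crest.Agent.R273.Vol_333
open Crest.Agent.R273.Vm_333 Crest.Agent.R273.FIb0_597
open Crest.Agent.R275.C1d194
open Crest.Agent.R281.Tor_922
open Crest.Agent.R281.SIn_14 (pbg Strip CloseC2 quo)

noncomputable section

variable {N : ℕ} {M : Type} [TopologicalSpace M] {A : Atl N M}

/-- `ℂ^N` as a Euclidean space -/
def toC (N : ℕ) : (Fin N → ℂ) ≃L[ℂ] Cn N := (EuclideanSpace.equiv (Fin N) ℂ).symm

/-- real coordinates of `Fin N → ℂ` -/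
def tE (N : ℕ) : (Fin N → ℂ) ≃L[ℝ] (RI N → ℝ) :=
  (((toC N).toLinearEquiv.restrictScalars ℝ).trans (rcE N)).toContinuousLinearEquiv



theorem exists_kap (N : ℕ) : ∃ c : ℝ≥0∞, c ≠ 0 ∧ c ≠ ⊤ ∧
    (volume : Measure (RI N → ℝ)) = c • Measure.map (tE N) (volume : Measure (Fin N → ℂ)) := by
  have : (Measure.map (tE N) (volume : Measure (Fin N → ℂ))).IsAddHaarMeasure :=
    (tE N).isAddHaarMeasure_map _
  refine ⟨(Measure.addHaarScalarFactor (volume : Measure (RI N → ℝ))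
    (Measure.map (tE N) (volume : Measure (Fin N → ℂ))) : NNReal), ?_, ENNReal.coe_ne_top, ?_⟩
  · exact ENNReal.coe_ne_zero.2
      (Measure.addHaarScalarFactor_pos_of_isAddHaarMeasure _ _).ne'
  · exact Measure.isAddLeftInvariant_eq_smul _ _

/-- the ratio of the Lebesgue measures -/
def kap (N : ℕ) : ℝ≥0∞ := (exists_kap N).choose

theorem kap_ne_zero (N : ℕ) : kap N ≠ 0 := (exists_kap N).choose_spec.1
theorem kap_ne_top (N : ℕ) : kap N ≠ ⊤ := (exists_kap N).choose_spec.2.1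
theorem vol_eq (N : ℕ) : (volume : Measure (RI N → ℝ)) =
    kap N • Measure.map (tE N) (volume : Measure (Fin N → ℂ)) := (exists_kap N).choose_spec.2.2

theorem emb_tE : MeasurableEmbedding (tE N : (Fin N → ℂ) → RI N → ℝ) :=
  (tE N).toHomeomorph.measurableEmbedding

/-- linear change of variables -/
theorem lint_tE (H : (Fin N → ℂ) → ℝ≥0∞) (E : Set (Fin N → ℂ)) :
    ∫⁻ y in (tE N).symm ⁻¹' E, H ((tE N).symm y) = kap N * ∫⁻ ζ in E, H ζ := by
  have h1 : (volume : Measure (RI N → ℝ)).restrict ((tE N).symm ⁻¹' E) =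
      kap N • (Measure.map (tE N) (volume : Measure (Fin N → ℂ))).restrict
        ((tE N).symm ⁻¹' E) := by
    conv_lhs => rw [vol_eq N]
    rw [Measure.restrict_smul]
  rw [h1, lintegral_smul_measure, emb_tE.restrict_map, emb_tE.lintegral_map]
  have h2 : (tE N : (Fin N → ℂ) → RI N → ℝ) ⁻¹' ((tE N).symm ⁻¹' E) = E := by
    ext ζ
    simp
  rw [h2]
  simp

/-- derivative in real coordinates -/
theorem hasFDerivAt_real {i : A.ι} {Φ : (Fin N → ℂ) → M} {ζ : Fin N → ℂ}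
    (hd : DifferentiableAt ℂ (fun w => A.e i (Φ w)) ζ) :
    ∃ L : (RI N → ℝ) →L[ℝ] (RI N → ℝ),
      HasFDerivAt (fun y => rc (A.e i (Φ ((tE N).symm y)))) L (tE N ζ) ∧
      |L.det| = ‖(SIn_14.jac A Φ i ζ).det‖ ^ 2 := by
  set D0 := fderiv ℂ (fun w => A.e i (Φ w)) ζ with hD0
  set D : Cn N →L[ℂ] Cn N := D0.comp ((toC N).symm : Cn N →L[ℂ] (Fin N → ℂ)) with hD
  let ccL : (RI N → ℝ) →L[ℝ] Cn N := ((rcE N).symm.toContinuousLinearEquiv : (RI N → ℝ) →L[ℝ] Cn N)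
  have h1 : HasFDerivAt (fun w => A.e i (Φ w)) (D0.restrictScalars ℝ) ((tE N).symm (tE N ζ)) := by
    rw [ContinuousLinearEquiv.symm_apply_apply]
    exact hd.hasFDerivAt.restrictScalars ℝ
  have h2 : HasFDerivAt ((tE N).symm : (RI N → ℝ) → Fin N → ℂ)
      ((tE N).symm : (RI N → ℝ) →L[ℝ] (Fin N → ℂ)) (tE N ζ) := (tE N).symm.hasFDerivAt
  have h3 : HasFDerivAt (rc : Cn N → RI N → ℝ) (rcL N) (A.e i (Φ ((tE N).symm (tE N ζ)))) := by
    rw [rc_eq]; exact (rcL N).hasFDerivAt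
  have h4 : HasFDerivAt (fun y => rc (A.e i (Φ ((tE N).symm y)))) ((rcL N).comp
      ((D0.restrictScalars ℝ).comp ((tE N).symm : (RI N → ℝ) →L[ℝ] (Fin N → ℂ)))) (tE N ζ) :=
    HasFDerivAt.comp (g := rc) (f := fun y => A.e i (Φ ((tE N).symm y))) (tE N ζ) h3
      (HasFDerivAt.comp (g := fun w => A.e i (Φ w)) (f := (tE N).symm) (tE N ζ) h1 h2)
  refine ⟨_, h4, ?_⟩
  have h5 : ((((rcL N).comp ((D0.restrictScalars ℝ).comp
      ((tE N).symm : (RI N → ℝ) →L[ℝ] (Fin N → ℂ)))) : (RI N → ℝ) →L[ℝ] (RI N → ℝ)) :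
      (RI N → ℝ) →ₗ[ℝ] (RI N → ℝ)) = ((rcE N : Cn N →ₗ[ℝ] (RI N → ℝ)) ∘ₗ
        ((D : Cn N →ₗ[ℂ] Cn N).restrictScalars ℝ)) ∘ₗ ((rcE N).symm : (RI N → ℝ) →ₗ[ℝ] Cn N) := by
    ext v p
    rfl
  have h6 : ((rcL N).comp ((D0.restrictScalars ℝ).comp
      ((tE N).symm : (RI N → ℝ) →L[ℝ] (Fin N → ℂ)))).det =
      ‖LinearMap.det (D : Cn N →ₗ[ℂ] Cn N)‖ ^ 2 := by
    rw [← Crest.Agent.R275.Pai323.det_real D, ← h5]
  have h7 : LinearMap.det (D : Cn N →ₗ[ℂ] Cn N) = (SIn_14.jac A Φ i ζ).det := by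
    rw [← LinearMap.det_toMatrix (EuclideanSpace.basisFun (Fin N) ℂ).toBasis]
    congr 1
  rw [h6, h7, abs_of_nonneg (by positivity)]

variable [MeasurableSpace M] [BorelSpace M]

/-- **change of variables in one chart** -/
theorem lint_local [Countable A.ι] (K : Kah A) {i : A.ι} {Φ : (Fin N → ℂ) → M}
    {E : Set (Fin N → ℂ)} (hE : MeasurableSet E) (hEi : ∀ ζ ∈ E, Φ ζ ∈ (A.e i).source)
    (hd : ∀ ζ ∈ E, DifferentiableAt ℂ (fun w => A.e i (Φ w)) ζ) (hinj : InjOn Φ E)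
    (hΦE : MeasurableSet (Φ '' E)) {f : M → ℝ≥0∞} (hf : Measurable f) :
    ∫⁻ x in Φ '' E, f x ∂(vm (volK K)) = kap N * ∫⁻ ζ in E,
      ENNReal.ofReal (‖(SIn_14.jac A Φ i ζ).det‖ ^ 2 * (K.g i (Φ ζ)).det.re) * f (Φ ζ) := by
  classical
  set S : Set (RI N → ℝ) := (tE N).symm ⁻¹' E with hS
  have hSm : MeasurableSet S := (tE N).symm.continuous.measurable hE
  set g : (RI N → ℝ) → (RI N → ℝ) := fun y => rc (A.e i (Φ ((tE N).symm y))) with hg
  have hcc : ∀ y ∈ S, cc (g y) = A.e i (Φ ((tE N).symm y)) := fun y _ => by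
    rw [hg]; exact cc_rc _
  have hsg : ∀ y ∈ S, sg A i (g y) = Φ ((tE N).symm y) := fun y hy => by
    unfold sg
    rw [hcc y hy, (A.e i).left_inv (hEi _ hy)]
  have hUi : ∀ y ∈ S, g y ∈ Ui A i := fun y hy => by
    show cc (g y) ∈ (A.e i).target
    rw [hcc y hy]
    exact (A.e i).map_source (hEi _ hy)
  have hL : ∀ y : RI N → ℝ, ∃ L : (RI N → ℝ) →L[ℝ] (RI N → ℝ), y ∈ S →
      (HasFDerivAt g L y ∧ |L.det| = ‖(SIn_14.jac A Φ i ((tE N).symm y)).det‖ ^ 2) := by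
    intro y
    by_cases hy : y ∈ S
    · obtain ⟨L, h1, h2⟩ := hasFDerivAt_real (hd _ hy)
      rw [ContinuousLinearEquiv.apply_symm_apply] at h1
      exact ⟨L, fun _ => ⟨h1, h2⟩⟩
    · exact ⟨0, fun h => absurd h hy⟩
  choose L hL using hL
  have hginj : InjOn g S := by
    intro y hy y' hy' h
    have h1 : Φ ((tE N).symm y) = Φ ((tE N).symm y') := by rw [← hsg y hy, ← hsg y' hy', h]
    exact (tE N).symm.injective (hinj hy hy' h1)
  -- the left side in the chart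
  have h1 : ∫⁻ x in Φ '' E, f x ∂(vm (volK K)) = ∫⁻ x in Φ '' E, f x ∂(chm (volK K) i) := by
    rw [← vm_restrict, Measure.restrict_restrict hΦE, inter_eq_left.2]
    rintro _ ⟨ζ, hζ, rfl⟩
    exact hEi ζ hζ
  have himg : {y | y ∈ Ui A i ∧ sg A i y ∈ Φ '' E} = g '' S := by
    ext y
    constructor
    · rintro ⟨hy, ζ, hζ, hζy⟩
      refine ⟨tE N ζ, ?_, ?_⟩
      · show (tE N).symm (tE N ζ) ∈ E
        rwa [ContinuousLinearEquiv.symm_apply_apply]
      · show rc (A.e i (Φ ((tE N).symm (tE N ζ)))) = y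
        rw [ContinuousLinearEquiv.symm_apply_apply, hζy]
        unfold sg
        rw [(A.e i).right_inv hy, rc_cc]
    · rintro ⟨y', hy', rfl⟩
      exact ⟨hUi y' hy', _, hy', (hsg y' hy').symm⟩
  have h2 : ∫⁻ x in Φ '' E, f x ∂(chm (volK K) i) =
      ∫⁻ y in g '' S, dn (volK K) i y * f (sg A i y) := by
    rw [← lintegral_indicator hΦE, lintegral_chm (volK K) i (hf.indicator hΦE), ← himg]
    have h3 : {y | y ∈ Ui A i ∧ sg A i y ∈ Φ '' E} = {y | sg A i y ∈ Φ '' E} ∩ Ui A i := by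
      ext y; exact and_comm
    have h4 : ∀ y, dn (volK K) i y * (Φ '' E).indicator f (sg A i y) =
        {y | sg A i y ∈ Φ '' E}.indicator (fun y => dn (volK K) i y * f (sg A i y)) y := by
      intro y
      by_cases hy : sg A i y ∈ Φ '' E
      · rw [indicator_of_mem hy, indicator_of_mem (show y ∈ {y | sg A i y ∈ Φ '' E} from hy)]
      · rw [indicator_of_notMem hy,
          indicator_of_notMem (show y ∉ {y | sg A i y ∈ Φ '' E} from hy), mul_zero]
    simp_rw [h4]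
    rw [lintegral_indicator₀, Measure.restrict_restrict₀, h3]
    · exact (aemeas_sg i).nullMeasurable hΦE
    · exact (aemeas_sg i).nullMeasurable hΦE
  rw [h1, h2, lintegral_image_eq_lintegral_abs_det_fderiv_mul volume hSm
    (fun y hy => (hL y hy).1.hasFDerivWithinAt) hginj
    (fun y => dn (volK K) i y * f (sg A i y)), ← lint_tE]
  refine setLIntegral_congr_fun hSm fun y hy => ?_
  show ENNReal.ofReal |(L y).det| * (dn (volK K) i (g y) * f (sg A i (g y))) = _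
  rw [(hL y hy).2, ← mul_assoc]
  unfold dn
  rw [hsg y hy, ENNReal.ofReal_mul (by positivity)]
  rfl

end

end Crest.Agent.R281.Fcl_14
end

-- ▼ part R281/Fcl2_14
section

/-!
# R281, S-FCL (helper14), part 2: change of variables without charts; boxes

* `jac_tr`, `pbg_det`  : the density `(pbg K Φ ζ).det.re` read in any chart
* `lint_inj`           : `∫_{Φ(E)} f dvm = kap ∫_E det(pbg) · f ∘ Φ`, `Φ` injective on `E`
-/

set_option autoImplicit false
set_option linter.unusedSectionVars false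

open Set Filter Topology Complex MeasureTheory
open scoped ContDiff Matrix ComplexConjugate ComplexOrder ENNReal

namespace Crest.Agent.R281.Fcl_14

open Crest.Agent.R275.Geo Crest.Agent.R275.Core144 Crest.Agent.R275.EDR890
open Crest.Agent.R273.Defs_333 Crest.Agent.R273.Hess_333 Crest.Agent.R273.HessB_333
open Crest.Agent.R273.HM_333 Crest.Agent.R273.Kah_333 Crest.Agent.R273.Vol_333
open Crest.Agent.R273.Vm_333 Crest.Agent.R273.FIb0_597
open Crest.Agent.R275.C1d194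
open Crest.Agent.R281.Tor_922
open Crest.Agent.R281.SIn_14 (pbg Strip CloseC2 quo)
open Crest.Agent.R275.Fm96 (tr tr_diff tr_apply sum_bs)

noncomputable section

variable {N : ℕ} {M : Type} [TopologicalSpace M] {A : Atl N M}

/-- change of the chart for the Jacobian matrix of `Φ` -/
theorem jac_tr {i j : A.ι} {Φ : (Fin N → ℂ) → M} {ζ : Fin N → ℂ}
    (hx : Φ ζ ∈ (A.e i).source ∩ (A.e j).source) (hc : ContinuousAt Φ ζ)
    (hd : DifferentiableAt ℂ (fun w => A.e i (Φ w)) ζ) :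
    SIn_14.jac A Φ j ζ = Jm A i j (Φ ζ) * SIn_14.jac A Φ i ζ := by
  have h1 : (fun w => A.e j (Φ w)) =ᶠ[𝓝 ζ] fun w => tr A i j (A.e i (Φ w)) := by
    filter_upwards [hc.preimage_mem_nhds ((A.e i).open_source.mem_nhds hx.1)] with w hw
    exact (tr_apply hw).symm
  have hd1 : DifferentiableAt ℂ (tr A i j) (A.e i (Φ ζ)) := (tr_diff hx).self_of_nhds
  have h2 : fderiv ℂ (fun w => A.e j (Φ w)) ζ =
      (fderiv ℂ (tr A i j) (A.e i (Φ ζ))).comp (fderiv ℂ (fun w => A.e i (Φ w)) ζ) := by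
    rw [h1.fderiv_eq]
    exact fderiv_comp ζ hd1 hd
  ext b a
  show (fderiv ℂ (fun w => A.e j (Φ w)) ζ (Pi.single a 1)) b = _
  rw [h2, ContinuousLinearMap.comp_apply,
    sum_bs (fderiv ℂ (fun w => A.e i (Φ w)) ζ (Pi.single a 1)), map_sum]
  simp only [WithLp.ofLp_sum, Finset.sum_apply, map_smul, PiLp.smul_apply, smul_eq_mul,
    Matrix.mul_apply]
  refine Finset.sum_congr rfl fun c _ => ?_
  rw [mul_comm]
  rfl

theorem det_conj_mul (J : Matrix (Fin N) (Fin N) ℂ) {g : Matrix (Fin N) (Fin N) ℂ} :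
    (Jᵀ * g * J.map conj).det = ((‖J.det‖ ^ 2 : ℝ) : ℂ) * g.det := by
  rw [Matrix.det_mul, Matrix.det_mul, Matrix.det_transpose]
  have h2 : (J.map conj).det = conj J.det := by
    rw [← RingHom.mapMatrix_apply, ← RingHom.map_det]
  have h3 : ((‖J.det‖ ^ 2 : ℝ) : ℂ) = J.det * conj J.det := by
    rw [Complex.mul_conj, Complex.normSq_eq_norm_sq]
  rw [h2, h3]
  ring

theorem det_conj_mul_re (J : Matrix (Fin N) (Fin N) ℂ) {g : Matrix (Fin N) (Fin N) ℂ} :
    (Jᵀ * g * J.map conj).det.re = ‖J.det‖ ^ 2 * g.det.re := by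
  rw [det_conj_mul, Complex.re_ofReal_mul]

/-- the metric `Φ^* K` can be read in any chart -/
theorem pbg_eq (K : Kah A) {i : A.ι} {Φ : (Fin N → ℂ) → M} {ζ : Fin N → ℂ}
    (hx : Φ ζ ∈ (A.e i).source) (hc : ContinuousAt Φ ζ)
    (hd : DifferentiableAt ℂ (fun w => A.e i (Φ w)) ζ) :
    pbg K Φ ζ = (SIn_14.jac A Φ i ζ)ᵀ * K.g i (Φ ζ) * (SIn_14.jac A Φ i ζ).map conj := by
  have h1 := jac_tr (j := ch A (Φ ζ)) ⟨hx, mem_ch A (Φ ζ)⟩ hc hd
  unfold pbg
  rw [h1, K.tr i (ch A (Φ ζ)) (Φ ζ) ⟨hx, mem_ch A (Φ ζ)⟩, Matrix.transpose_mul,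
    ← RingHom.mapMatrix_apply, ← RingHom.mapMatrix_apply, ← RingHom.mapMatrix_apply, map_mul]
  simp only [Matrix.mul_assoc]

theorem pbg_det (K : Kah A) {i : A.ι} {Φ : (Fin N → ℂ) → M} {ζ : Fin N → ℂ}
    (hx : Φ ζ ∈ (A.e i).source) (hc : ContinuousAt Φ ζ)
    (hd : DifferentiableAt ℂ (fun w => A.e i (Φ w)) ζ) :
    (pbg K Φ ζ).det.re = ‖(SIn_14.jac A Φ i ζ).det‖ ^ 2 * (K.g i (Φ ζ)).det.re := by
  rw [pbg_eq K hx hc hd, det_conj_mul_re]

variable [MeasurableSpace M] [BorelSpace M]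

/-- the good points of `Φ` -/
structure Hol (A : Atl N M) (Φ : (Fin N → ℂ) → M) (U : Set (Fin N → ℂ)) : Prop where
  open_ : IsOpen U
  cont : ContinuousOn Φ U
  hol : ∀ ζ ∈ U, ∀ i, Φ ζ ∈ (A.e i).source → DifferentiableAt ℂ (fun w => A.e i (Φ w)) ζ

theorem Hol.meas {Φ : (Fin N → ℂ) → M} {U : Set (Fin N → ℂ)} (h : Hol A Φ U)
    {E : Set (Fin N → ℂ)} (hE : MeasurableSet E) (hEU : E ⊆ U) {B : Set M}
    (hB : MeasurableSet B) : MeasurableSet {ζ | ζ ∈ E ∧ Φ ζ ∈ B} := by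
  have h1 : Measurable (U.domRestrict Φ) :=
    (continuousOn_iff_continuous_domRestrict.1 h.cont).measurable
  have h2 := h.open_.measurableSet.subtype_image (h1 hB)
  have h3 : {ζ | ζ ∈ E ∧ Φ ζ ∈ B} = E ∩ (Subtype.val '' (U.domRestrict Φ ⁻¹' B)) := by
    ext ζ
    constructor
    · rintro ⟨h1, h2⟩
      exact ⟨h1, ⟨ζ, hEU h1⟩, h2, rfl⟩
    · rintro ⟨h1, ⟨a, ha⟩, h2, rfl⟩
      exact ⟨h1, h2⟩
  rw [h3]
  exact hE.inter h2

/-- **change of variables** -/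
theorem lint_inj [T2Space M] [Countable A.ι] (K : Kah A) {Φ : (Fin N → ℂ) → M}
    {U : Set (Fin N → ℂ)} (hU : Hol A Φ U)
    {E : Set (Fin N → ℂ)} (hE : MeasurableSet E) (hEU : E ⊆ U) (hinj : InjOn Φ E)
    {f : M → ℝ≥0∞} (hf : Measurable f) :
    ∫⁻ x in Φ '' E, f x ∂(vm (volK K)) = kap N * ∫⁻ ζ in E,
      ENNReal.ofReal (pbg K Φ ζ).det.re * f (Φ ζ) := by
  set Ei : A.ι → Set (Fin N → ℂ) := fun i => {ζ | ζ ∈ E ∧ Φ ζ ∈ Dj A i} with hEi
  have hEim : ∀ i, MeasurableSet (Ei i) := fun i => hU.meas hE hEU (meas_Dj i)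
  have hdis : Pairwise (Function.onFun Disjoint Ei) := by
    intro i j hij
    rw [Function.onFun, Set.disjoint_left]
    intro ζ h1 h2
    exact Set.disjoint_left.1 (Dj_disjoint hij) h1.2 h2.2
  have hcov : ⋃ i, Ei i = E := by
    ext ζ
    rw [mem_iUnion]
    constructor
    · rintro ⟨i, hi⟩; exact hi.1
    · intro hζ
      obtain ⟨i, hi⟩ := exists_Dj (A := A) (Φ ζ)
      exact ⟨i, hζ, hi⟩
  have himg : ∀ i, MeasurableSet (Φ '' Ei i) := fun i =>
    (hEim i).image_of_continuousOn_injOn (hU.cont.mono fun ζ hζ => hEU hζ.1)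
      (hinj.mono fun ζ hζ => hζ.1)
  have hdis2 : Pairwise (Function.onFun Disjoint fun i => Φ '' Ei i) := by
    intro i j hij
    rw [Function.onFun, Set.disjoint_left]
    rintro _ ⟨ζ, hζ, rfl⟩ ⟨ζ', hζ', h⟩
    have h2 : Φ ζ ∈ Dj A j := by rw [← h]; exact hζ'.2
    exact Set.disjoint_left.1 (Dj_disjoint hij) hζ.2 h2
  have hloc : ∀ i, ∫⁻ x in Φ '' Ei i, f x ∂(vm (volK K)) = kap N * ∫⁻ ζ in Ei i,
      ENNReal.ofReal (pbg K Φ ζ).det.re * f (Φ ζ) := by
    intro i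
    have hs : ∀ ζ ∈ Ei i, Φ ζ ∈ (A.e i).source := fun ζ hζ => hζ.2.1
    rw [lint_local K (hEim i) hs (fun ζ hζ => hU.hol ζ (hEU hζ.1) i (hs ζ hζ))
      (hinj.mono fun ζ hζ => hζ.1) (himg i) hf]
    congr 1
    refine setLIntegral_congr_fun (hEim i) fun ζ hζ => ?_
    show ENNReal.ofReal _ * _ = ENNReal.ofReal _ * _
    rw [pbg_det K (hs ζ hζ) (hU.cont.continuousAt (hU.open_.mem_nhds (hEU hζ.1)))
      (hU.hol ζ (hEU hζ.1) i (hs ζ hζ))]
  conv_lhs => rw [← hcov, image_iUnion]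
  conv_rhs => rw [← hcov]
  rw [lintegral_iUnion himg hdis2, lintegral_iUnion hEim hdis, ← ENNReal.tsum_mul_left]
  exact tsum_congr hloc

end

end Crest.Agent.R281.Fcl_14
end

-- ▼ part R281/Fcl3_14
section

/-!
# R281, S-FCL (helper14), part 3: the `f`-clause of `SOut`

* `box`, `injOn_box`      : `Φ` is injective on boxes of height `2π`
* `lint_ball_le`          : `kap ∫_{ball} det(pbg) f∘Φ ≤ # · ∫_{Φ(ball)} f dvm`
* `vm_image_le`           : `vm (Φ(ball)) ≤ # kap hi vol(ball)`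
* `strip_sub`             : `Φ(strip ζ0 r2) ⊆ Φ(ball ζ0 (r2 + 2π d! + 1))`
* `fclause`               : **the clause**
-/

set_option autoImplicit false
set_option linter.unusedSectionVars false

open Set Filter Topology Complex MeasureTheory
open scoped ContDiff Matrix ComplexConjugate ComplexOrder ENNReal

namespace Crest.Agent.R281.Fcl_14

open Crest.Agent.R275.Geo Crest.Agent.R275.Core144 Crest.Agent.R275.EDR890
open Crest.Agent.R273.Defs_333 Crest.Agent.R273.Hess_333 Crest.Agent.R273.HessB_333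
open Crest.Agent.R273.HM_333 Crest.Agent.R273.Kah_333 Crest.Agent.R273.Vol_333
open Crest.Agent.R273.Vm_333 Crest.Agent.R273.FIb0_597
open Crest.Agent.R281.Tor_922
open Crest.Agent.R281.SIn_14 (pbg Strip CloseC2 quo)

noncomputable section

variable {N : ℕ} {M : Type} [TopologicalSpace M] {A : Atl N M}

/-- boxes -/
def box (ζ0 : Fin N → ℂ) (k : Fin N → ℤ) : Set (Fin N → ℂ) :=
  {ζ | ∀ j, (k j : ℝ) * (2 * Real.pi) ≤ (ζ j).im - (ζ0 j).im ∧
    (ζ j).im - (ζ0 j).im < ((k j : ℝ) + 1) * (2 * Real.pi)}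

theorem meas_box (ζ0 : Fin N → ℂ) (k : Fin N → ℤ) : MeasurableSet (box ζ0 k) := by
  unfold box
  rw [Set.ofPred_forall]
  refine MeasurableSet.iInter fun j => ?_
  have h1 : Measurable fun ζ : Fin N → ℂ => (ζ j).im - (ζ0 j).im := by fun_prop
  exact (measurableSet_le measurable_const h1).inter (measurableSet_lt h1 measurable_const)

/-- the finite set of boxes needed for a ball -/
def ks (N : ℕ) (R : ℝ) : Finset (Fin N → ℤ) :=
  Fintype.piFinset fun _ => Finset.Icc (-(⌈R⌉₊ : ℤ)) ⌈R⌉₊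

theorem mem_box (ζ0 ζ : Fin N → ℂ) :
    ζ ∈ box ζ0 fun j => ⌊((ζ j).im - (ζ0 j).im) / (2 * Real.pi)⌋ := by
  intro j
  have hp : 0 < 2 * Real.pi := by positivity
  constructor
  · rw [← le_div_iff₀ hp]; exact Int.floor_le _
  · rw [← div_lt_iff₀ hp]; exact Int.lt_floor_add_one _

theorem floor_mem {ζ0 ζ : Fin N → ℂ} {R : ℝ} (h : ζ ∈ Metric.ball ζ0 R) :
    (fun j => ⌊((ζ j).im - (ζ0 j).im) / (2 * Real.pi)⌋) ∈ ks N R := by
  unfold ks
  rw [Fintype.mem_piFinset]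
  intro j
  rw [Finset.mem_Icc]
  have hp : 1 < 2 * Real.pi := by have := Real.pi_gt_three; linarith
  have h1 : |(ζ j).im - (ζ0 j).im| < R := by
    have h2 : dist ζ ζ0 < R := h
    have h3 : dist (ζ j) (ζ0 j) ≤ dist ζ ζ0 := dist_le_pi_dist ζ ζ0 j
    have h4 : |(ζ j - ζ0 j).im| ≤ ‖ζ j - ζ0 j‖ := Complex.abs_im_le_norm _
    rw [Complex.sub_im] at h4
    rw [dist_eq_norm] at h3
    linarith
  have hR : R ≤ ⌈R⌉₊ := Nat.le_ceil R
  have hR0 : 0 < R := lt_of_le_of_lt (abs_nonneg _) h1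
  rw [abs_lt] at h1
  constructor
  · rw [Int.le_floor]
    push_cast
    rw [le_div_iff₀ (by linarith)]
    nlinarith
  · have h5 : ⌊((ζ j).im - (ζ0 j).im) / (2 * Real.pi)⌋ < (⌈R⌉₊ : ℤ) + 1 := by
      rw [Int.floor_lt]
      push_cast
      rw [div_lt_iff₀ (by linarith)]
      nlinarith
    omega

theorem ball_sub_boxes (ζ0 : Fin N → ℂ) (R : ℝ) :
    Metric.ball ζ0 R ⊆ ⋃ k ∈ ks N R, (Metric.ball ζ0 R ∩ box ζ0 k) := by
  intro ζ h
  refine mem_iUnion₂.2 ⟨_, floor_mem h, h, mem_box ζ0 ζ⟩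

theorem eq_of_box {ζ0 ζ ζ' : Fin N → ℂ} {k : Fin N → ℤ} (h : ζ ∈ box ζ0 k) (h' : ζ' ∈ box ζ0 k)
    (hl : ζ - ζ' ∈ lat (Fin N)) : ζ = ζ' := by
  funext j
  obtain ⟨m, hm⟩ := hl j
  have hp : 0 < 2 * Real.pi := by positivity
  rw [Pi.sub_apply] at hm
  have h1 : (ζ j).im - (ζ' j).im = m * (2 * Real.pi) := by
    have := congrArg Complex.im hm
    rw [Complex.sub_im] at this
    rw [this]
    simp
  have h2 := h j
  have h3 := h' j
  have h4 : |(m : ℝ) * (2 * Real.pi)| < 2 * Real.pi := by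
    rw [← h1, abs_lt]
    constructor <;> linarith [h2.1, h2.2, h3.1, h3.2]
  rw [abs_mul, abs_of_pos hp] at h4
  have h5 : |(m : ℝ)| < 1 := by
    by_contra hc
    push Not at hc
    nlinarith
  have h6 : m = 0 := by
    rw [← Int.cast_abs] at h5
    have : |m| < 1 := by exact_mod_cast h5
    exact Int.abs_lt_one_iff.1 this
  rw [h6] at hm
  have : ζ j - ζ' j = 0 := by rw [hm]; simp
  exact sub_eq_zero.1 this

theorem lintegral_biUnion_le {α κ : Type*} [MeasurableSpace α] {μ : Measure α} (s : Finset κ)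
    (E : κ → Set α) (f : α → ℝ≥0∞) :
    ∫⁻ x in ⋃ k ∈ s, E k, f x ∂μ ≤ ∑ k ∈ s, ∫⁻ x in E k, f x ∂μ := by
  classical
  induction s using Finset.induction_on with
  | empty => simp
  | insert a s ha ih =>
    rw [Finset.set_biUnion_insert, Finset.sum_insert ha]
    exact (lintegral_union_le _ _ _).trans (add_le_add le_rfl ih)

variable [MeasurableSpace M] [BorelSpace M] [T2Space M] [Countable A.ι]

/-- what the clause uses of `Strip` -/
structure Inj (Φ : (Fin N → ℂ) → M) (U : Set (Fin N → ℂ)) : Prop where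
  inj : ∀ ζ ∈ U, ∀ ζ' ∈ U, Φ ζ = Φ ζ' → ζ - ζ' ∈ lat (Fin N)

theorem injOn_box {Φ : (Fin N → ℂ) → M} {U : Set (Fin N → ℂ)} (h : Inj Φ U) (ζ0 : Fin N → ℂ)
    (k : Fin N → ℤ) {E : Set (Fin N → ℂ)} (hE : E ⊆ U) : InjOn Φ (E ∩ box ζ0 k) :=
  fun ζ h1 ζ' h2 h3 => eq_of_box h1.2 h2.2 (h.inj ζ (hE h1.1) ζ' (hE h2.1) h3)

theorem lint_ball_le (K : Kah A) {Φ : (Fin N → ℂ) → M} {U : Set (Fin N → ℂ)} (hU : Hol A Φ U)
    (hI : Inj Φ U) {ζ0 : Fin N → ℂ} {R : ℝ} (hR : Metric.ball ζ0 R ⊆ U) {f : M → ℝ≥0∞}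
    (hf : Measurable f) :
    kap N * ∫⁻ ζ in Metric.ball ζ0 R, ENNReal.ofReal (pbg K Φ ζ).det.re * f (Φ ζ) ≤
      (ks N R).card * ∫⁻ x in Φ '' Metric.ball ζ0 R, f x ∂(vm (volK K)) := by
  have hb : MeasurableSet (Metric.ball ζ0 R) := Metric.isOpen_ball.measurableSet
  calc kap N * ∫⁻ ζ in Metric.ball ζ0 R, ENNReal.ofReal (pbg K Φ ζ).det.re * f (Φ ζ)
      ≤ kap N * ∑ k ∈ ks N R, ∫⁻ ζ in Metric.ball ζ0 R ∩ box ζ0 k,
          ENNReal.ofReal (pbg K Φ ζ).det.re * f (Φ ζ) := by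
        gcongr
        refine (lintegral_mono_set (ball_sub_boxes ζ0 R)).trans ?_
        exact lintegral_biUnion_le _ _ _
    _ = ∑ k ∈ ks N R, ∫⁻ x in Φ '' (Metric.ball ζ0 R ∩ box ζ0 k), f x ∂(vm (volK K)) := by
        rw [Finset.mul_sum]
        refine Finset.sum_congr rfl fun k _ => ?_
        rw [lint_inj K hU (hb.inter (meas_box ζ0 k)) (inter_subset_left.trans hR)
          (injOn_box hI ζ0 k hR) hf]
    _ ≤ ∑ k ∈ ks N R, ∫⁻ x in Φ '' Metric.ball ζ0 R, f x ∂(vm (volK K)) := by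
        refine Finset.sum_le_sum fun k _ => ?_
        exact lintegral_mono_set (image_mono inter_subset_left)
    _ = _ := by rw [Finset.sum_const, nsmul_eq_mul]

theorem vm_image_le (K : Kah A) {Φ : (Fin N → ℂ) → M} {U : Set (Fin N → ℂ)} (hU : Hol A Φ U)
    (hI : Inj Φ U) {ζ0 : Fin N → ℂ} {R hi : ℝ} (hR : Metric.ball ζ0 R ⊆ U)
    (hhi : ∀ ζ ∈ Metric.ball ζ0 R, (pbg K Φ ζ).det.re ≤ hi) :
    vm (volK K) (Φ '' Metric.ball ζ0 R) ≤
      (ks N R).card * (kap N * (ENNReal.ofReal hi * volume (Metric.ball (0 : Fin N → ℂ) R))) := by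
  have hb : MeasurableSet (Metric.ball ζ0 R) := Metric.isOpen_ball.measurableSet
  calc vm (volK K) (Φ '' Metric.ball ζ0 R)
      ≤ vm (volK K) (⋃ k ∈ ks N R, Φ '' (Metric.ball ζ0 R ∩ box ζ0 k)) := by
        refine measure_mono ?_
        rintro _ ⟨ζ, hζ, rfl⟩
        obtain ⟨k, hk, h1⟩ := mem_iUnion₂.1 (ball_sub_boxes ζ0 R hζ)
        exact mem_iUnion₂.2 ⟨k, hk, ζ, h1, rfl⟩
    _ ≤ ∑ k ∈ ks N R, vm (volK K) (Φ '' (Metric.ball ζ0 R ∩ box ζ0 k)) :=
        measure_biUnion_finset_le _ _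
    _ ≤ ∑ k ∈ ks N R, kap N * (ENNReal.ofReal hi * volume (Metric.ball (0 : Fin N → ℂ) R)) := by
        refine Finset.sum_le_sum fun k _ => ?_
        have h1 := lint_inj K hU (hb.inter (meas_box ζ0 k)) (inter_subset_left.trans hR)
          (injOn_box hI ζ0 k hR) (f := fun _ => 1) measurable_const
        rw [setLIntegral_one] at h1
        rw [h1]
        gcongr
        calc ∫⁻ ζ in Metric.ball ζ0 R ∩ box ζ0 k, ENNReal.ofReal (pbg K Φ ζ).det.re * 1
            ≤ ∫⁻ ζ in Metric.ball ζ0 R, ENNReal.ofReal (pbg K Φ ζ).det.re * 1 :=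
              lintegral_mono_set inter_subset_left
          _ ≤ ∫⁻ ζ in Metric.ball ζ0 R, ENNReal.ofReal hi := by
              refine setLIntegral_mono' hb fun ζ hζ => ?_
              rw [mul_one]
              exact ENNReal.ofReal_le_ofReal (hhi ζ hζ)
          _ = ENNReal.ofReal hi * volume (Metric.ball (0 : Fin N → ℂ) R) := by
              rw [setLIntegral_const, Measure.addHaar_ball_center]
    _ = _ := by rw [Finset.sum_const, nsmul_eq_mul]

/-- the constant -/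
def KF (N : ℕ) (R1 R2 lo hi lam : ℝ) : ℝ :=
  (ks N R1).card * (ks N R2).card * (lam * (hi / lo)) *
    (volume (Metric.ball (0 : Fin N → ℂ) R2)).toReal

/-- **the `f`-clause** -/
theorem fclause (K : Kah A) {Φ : (Fin N → ℂ) → M} {U : Set (Fin N → ℂ)} (hU : Hol A Φ U)
    (hI : Inj Φ U) {ζ0 : Fin N → ℂ} {R1 R2 lo hi lam : ℝ} (hR1 : Metric.ball ζ0 R1 ⊆ U)
    (hR2 : Metric.ball ζ0 R2 ⊆ U) (hlo : 0 < lo) (hhi : 0 ≤ hi) (hlam : 0 ≤ lam)
    (h1 : ∀ ζ ∈ Metric.ball ζ0 R1, lo ≤ (pbg K Φ ζ).det.re)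
    (h2 : ∀ ζ ∈ Metric.ball ζ0 R2, (pbg K Φ ζ).det.re ≤ hi) {B : Set M}
    (hB1 : Φ '' Metric.ball ζ0 R1 ⊆ B) (hB2 : B ⊆ Φ '' Metric.ball ζ0 R2) {f : M → ℝ≥0∞}
    (hf : Measurable f)
    (hM : ∫⁻ x in B, f x ∂(vm (volK K)) ≤ ENNReal.ofReal lam * vm (volK K) B) :
    ∫⁻ ζ in Metric.ball ζ0 R1, f (Φ ζ) ≤ ENNReal.ofReal (KF N R1 R2 lo hi lam) := by
  have hb : MeasurableSet (Metric.ball ζ0 R1) := Metric.isOpen_ball.measurableSet
  have hV : volume (Metric.ball (0 : Fin N → ℂ) R2) ≠ ⊤ := measure_ball_lt_top.ne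
  have e1 : kap N * (ENNReal.ofReal lo * ∫⁻ ζ in Metric.ball ζ0 R1, f (Φ ζ)) ≤
      kap N * ((ks N R1).card * (ENNReal.ofReal lam * ((ks N R2).card *
        (ENNReal.ofReal hi * volume (Metric.ball (0 : Fin N → ℂ) R2))))) := by
    calc kap N * (ENNReal.ofReal lo * ∫⁻ ζ in Metric.ball ζ0 R1, f (Φ ζ))
        = kap N * ∫⁻ ζ in Metric.ball ζ0 R1, ENNReal.ofReal lo * f (Φ ζ) := by
          rw [lintegral_const_mul' _ _ ENNReal.ofReal_ne_top]
      _ ≤ kap N * ∫⁻ ζ in Metric.ball ζ0 R1, ENNReal.ofReal (pbg K Φ ζ).det.re * f (Φ ζ) := by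
          exact mul_le_mul' le_rfl (setLIntegral_mono' hb fun ζ hζ =>
            mul_le_mul' (ENNReal.ofReal_le_ofReal (h1 ζ hζ)) le_rfl)
      _ ≤ (ks N R1).card * ∫⁻ x in Φ '' Metric.ball ζ0 R1, f x ∂(vm (volK K)) :=
          lint_ball_le K hU hI hR1 hf
      _ ≤ (ks N R1).card * (ENNReal.ofReal lam * vm (volK K) (Φ '' Metric.ball ζ0 R2)) := by
          gcongr
          refine (lintegral_mono_set hB1).trans (hM.trans ?_)
          gcongr
      _ ≤ (ks N R1).card * (ENNReal.ofReal lam * ((ks N R2).card * (kap N *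
            (ENNReal.ofReal hi * volume (Metric.ball (0 : Fin N → ℂ) R2))))) := by
          gcongr
          exact vm_image_le K hU hI hR2 h2
      _ = _ := by ring
  have e2 := (ENNReal.mul_le_mul_iff_right (kap_ne_zero N) (kap_ne_top N)).1 e1
  have e3 : ∫⁻ ζ in Metric.ball ζ0 R1, f (Φ ζ) ≤ (ENNReal.ofReal lo)⁻¹ *
      ((ks N R1).card * (ENNReal.ofReal lam * ((ks N R2).card *
        (ENNReal.ofReal hi * volume (Metric.ball (0 : Fin N → ℂ) R2))))) := by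
    have h0 : ENNReal.ofReal lo ≠ 0 := by simpa using hlo
    calc ∫⁻ ζ in Metric.ball ζ0 R1, f (Φ ζ) = (ENNReal.ofReal lo)⁻¹ *
          (ENNReal.ofReal lo * ∫⁻ ζ in Metric.ball ζ0 R1, f (Φ ζ)) := by
          rw [← mul_assoc, ENNReal.inv_mul_cancel h0 ENNReal.ofReal_ne_top, one_mul]
      _ ≤ _ := by gcongr
  refine e3.trans (le_of_eq ?_)
  unfold KF
  rw [ENNReal.ofReal_mul (by positivity), ENNReal.ofReal_mul (by positivity),
    ENNReal.ofReal_mul (by positivity), ENNReal.ofReal_mul hlam, ENNReal.ofReal_toReal hV,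
    ENNReal.ofReal_div_of_pos hlo, ENNReal.ofReal_natCast, ENNReal.ofReal_natCast, div_eq_mul_inv]
  ring

/-- every point of `Φ(strip)` is the image of a point of a ball -/
theorem strip_sub {F : M → Fin N → ℂ} {d : ℕ} {ζ0 : Fin N → ℂ} {r r2 : ℝ}
    {Lam : AddSubgroup (Fin N → ℂ)} {Φ : (Fin N → ℂ) → M} (h : Strip A F d ζ0 r Lam Φ)
    (hr0 : 0 ≤ r2) (hr : r2 ≤ r) :
    Φ '' strip ζ0 r2 ⊆ Φ '' (Metric.ball ζ0 (r2 + 2 * Real.pi * d.factorial + 1) ∩
      strip ζ0 r2) := by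
  rintro _ ⟨ζ, hζ, rfl⟩
  have hd : (0 : ℝ) < d.factorial := by exact_mod_cast Nat.factorial_pos d
  set P : ℝ := 2 * Real.pi * d.factorial with hP
  have hP0 : 0 < P := by positivity
  set k : Fin N → ℤ := fun j => ⌊((ζ j).im - (ζ0 j).im) / P⌋ with hk
  set l : Fin N → ℂ := fun j => (k j : ℂ) * (2 * Real.pi * Complex.I) with hl
  have hll : l ∈ lat (Fin N) := fun j => ⟨k j, rfl⟩
  have hLam := h.factorial_mem l hll
  have hre : ∀ j, ((d.factorial • l) j).re = 0 := by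
    intro j
    simp [hl]
  have him : ∀ j, ((d.factorial • l) j).im = P * k j := by
    intro j
    simp [hl, hP]
    ring
  set ζ' : Fin N → ℂ := ζ - d.factorial • l with hζ'
  have hs' : ζ' ∈ strip ζ0 r2 := by
    intro j
    have := hζ j
    rw [hζ', Pi.sub_apply, Complex.sub_re, hre j, sub_zero]
    exact this
  have hmono : strip ζ0 r2 ⊆ strip ζ0 r := fun z hz j => (hz j).trans_le hr
  refine ⟨ζ', ⟨?_, hs'⟩, ?_⟩
  · rw [Metric.mem_ball, dist_pi_lt_iff]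
    · intro j
      rw [dist_eq_norm]
      refine lt_of_le_of_lt (Complex.norm_le_abs_re_add_abs_im _) ?_
      have e1 : |(ζ' j - ζ0 j).re| < r2 := by
        rw [Complex.sub_re]; exact hs' j
      have e2 : |(ζ' j - ζ0 j).im| ≤ P := by
        rw [Complex.sub_im, hζ', Pi.sub_apply, Complex.sub_im, him j]
        have f1 : (k j : ℝ) ≤ ((ζ j).im - (ζ0 j).im) / P := Int.floor_le _
        have f2 : ((ζ j).im - (ζ0 j).im) / P < k j + 1 := Int.lt_floor_add_one _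
        rw [le_div_iff₀ hP0] at f1
        rw [div_lt_iff₀ hP0] at f2
        rw [abs_le]
        constructor <;> nlinarith
      linarith
    · positivity
  · refine (h.eq_iff ζ' (hmono hs') ζ (hmono hζ)).2 ?_
    rw [hζ']
    have : ζ - d.factorial • l - ζ = -(d.factorial • l) := by abel
    rw [this]
    exact Lam.neg_mem hLam

end

end Crest.Agent.R281.Fcl_14
end

-- ▼ part R281/HfG2_615

/-!
# Row 281 (S0424), HALF-G (helper615), file 2: the strip over a good point, `halfG`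

* `dlg_quo`    : `dlog F (v) = eta *ᵥ v`
* `strip_good` : a good point gives the strip, the metric pinched between `hi⁻¹` and `lo⁻¹`
* `det_bounds` : the determinant of the metric is pinched
* **`halfG : HalfG`**
-/

set_option autoImplicit false
set_option linter.unusedSectionVars false

open Set Filter Topology Complex Metric MeasureTheory
open scoped ContDiff Matrix ComplexConjugate ComplexOrder ENNReal

namespace Crest.Agent.R281.HfG_615

open Crest.Agent.R275.Geo Crest.Agent.R275.Core144 Crest.Agent.R275.EDR890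
open Crest.Agent.R273.Defs_333 Crest.Agent.R273.Hess_333 Crest.Agent.R273.HessB_333
open Crest.Agent.R273.HM_333 Crest.Agent.R273.Kah_333 Crest.Agent.R273.Vol_333
open Crest.Agent.R273.Vm_333 Crest.Agent.R273.FIb0_597
open Crest.Agent.R273.Ric_798 Crest.Agent.R273.RMan_798 Crest.Agent.R273.RMan4_798
open Crest.Agent.R281.Tor_922 Crest.Agent.R281.SAsm_790 Crest.Agent.R281.Fra_922
open Crest.Agent.R281.SIn_14 Crest.Agent.R281.SGP_790 Crest.Agent.R281.TI_671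
open Crest.Agent.R281.Glob1_484 (nsM)
open Crest.Agent.R273.SchE_152 (EllC)

noncomputable section

variable {N : ℕ} {M : Type} [TopologicalSpace M] {A : Atl N M} {Lb : LB A}
  {s : Fin (N + 1) → A.ι → M → ℂ}

/-- `dlog F (v) = eta *ᵥ v` -/
theorem dlg_quo (h : HM Lb) (hs : ∀ j, IsHS Lb univ (s j)) {i : A.ι} {x : M}
    (hx : x ∈ (A.e i).source) (hz : NZ s x) (v : Cn N) :
    dlg A (quo s) i (A.e i x) v = eta s i x *ᵥ v.ofLp := by
  have hd : DifferentiableAt ℂ (fun z => quo s ((A.e i).symm z)) (A.e i x) :=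
    differentiableAt_pi.2 fun r => (quo_hol hs r i).diffAt (isOpen_NZ h hs) hx hz
  rw [dlg_eq_mulVec hx hd]
  have h1 : VF A (quo s) i x = VS s i x := rfl
  rw [h1, VS_eq_eta h hs hx hz, Matrix.transpose_transpose]


theorem qf_pos (K : Kah A) {i : A.ι} {x : M} (hx : x ∈ (A.e i).source) {v : Cn N}
    (hv : v.ofLp ≠ 0) : 0 < qf K i x v := by
  have h3 := ((K.pos i x hx).transpose).dotProduct_mulVec_pos hv
  exact (Complex.lt_def.1 h3).1

/-- the Lipschitz constant of the strip -/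
def Cc (N : ℕ) (lo : ℝ) : ℝ := √(N / lo)

theorem Cc_pos {N : ℕ} (hN : 1 ≤ N) {lo : ℝ} (hlo : 0 < lo) : 0 < Cc N lo := by
  have : (0 : ℝ) < N := by exact_mod_cast hN
  exact Real.sqrt_pos.2 (by positivity)

theorem Cc_sq (N : ℕ) {lo : ℝ} (hlo : 0 < lo) : Cc N lo ^ 2 = N / lo :=
  Real.sq_sqrt (by positivity)

section

variable [T2Space M] [ConnectedSpace M] [Countable A.ι] [MeasurableSpace M] [BorelSpace M]
variable {K : Kah A} {h : HM Lb} {om : A.ι → M → ℂ} {m v C0 c : ℝ} {d : ℕ} {L : ℝ}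
  {y : (ofKah K).M} {R lo hi lam : ℝ} {f : M → ℝ≥0∞}

theorem Jsq_ne (hlo : 0 < lo) (hG : GoodPt K s y R lo hi lam f) {x : M} (hx : x ∈ bX K y R) :
    Jsq K s x ≠ 0 := by
  have hg := (Complex.lt_def.1 (K.pos _ x (mem_ch A x)).det_pos).1
  have hdet : (eta s (ch A x) x).det ≠ 0 := by
    intro h0
    obtain ⟨w, hw, hw0⟩ := Matrix.exists_mulVec_eq_zero_iff.2 h0
    have h1 := hG.lo (ch A x) x (mem_ch A x) hx (WithLp.toLp 2 w)
    rw [show (WithLp.toLp 2 w : Cn N).ofLp = w from rfl, hw0] at h1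
    have h2 := qf_pos K (mem_ch A x) (v := WithLp.toLp 2 w) hw
    have h3 : 0 < lo * qf K (ch A x) x (WithLp.toLp 2 w) := mul_pos hlo h2
    simp at h1
    linarith
  unfold Jsq
  exact div_ne_zero (pow_ne_zero 2 (norm_ne_zero_iff.2 hdet)) (ne_of_gt hg)

/-- **a good point gives the strip** -/
theorem strip_good [CompactSpace M] (hN : 1 ≤ N) (hS : SDat A K Lb h s om m v C0 c d L)
    (hlo : 0 < lo) (hhi : 0 < hi) (hG : GoodPt K s y R lo hi lam f) {r : ℝ} (hr : 0 < r)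
    (hR : Cc N lo * (2 * (r + Real.pi * d.factorial)) < R) :
    ∃ ζ0 Lam Φ, SOk K (quo s) y (Cc N lo) (√hi) R r d ζ0 Lam Φ ∧
      ∀ ζ ∈ strip ζ0 r, ∀ i, Φ ζ ∈ (A.e i).source → ∀ v : Fin N → ℂ,
        hi⁻¹ * ∑ j, ‖v j‖ ^ 2 ≤ qf K i (Φ ζ) (fderiv ℂ (fun w => A.e i (Φ w)) ζ v) ∧
        qf K i (Φ ζ) (fderiv ℂ (fun w => A.e i (Φ w)) ζ v) ≤ lo⁻¹ * ∑ j, ‖v j‖ ^ 2 := by
  have hC := Cc_pos hN hlo
  have hdq : ∀ i, ∀ x ∈ (A.e i).source, x ∈ bX K y R → ∀ v : Cn N,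
      dlg A (quo s) i (A.e i x) v = eta s i x *ᵥ v.ofLp := fun i x hx hxR v =>
    dlg_quo h hS.hol hx (hG.nz x hxR) v
  have hF : HolW A (bX K y R) (quo s) := holW_of fun r i =>
    (quo_hol hS.hol r i).mono fun x hx => hG.nz x hx
  have hb : ∀ i, ∀ x ∈ (A.e i).source, x ∈ bX K y R → ∀ v : Cn N,
      qf K i x v ≤ (Cc N lo * ‖dlg A (quo s) i (A.e i x) v‖) ^ 2 := by
    intro i x hx hxR v
    have h1 := hG.lo i x hx hxR v
    rw [hdq i x hx hxR v, mul_pow, Cc_sq N hlo]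
    have h2 := sum_sq_le (eta s i x *ᵥ v.ofLp)
    rw [div_mul_eq_mul_div, le_div_iff₀ hlo, mul_comm]
    exact h1.trans h2
  have hb' : ∀ i, ∀ x ∈ (A.e i).source, x ∈ bX K y R → ∀ (v : Cn N) j,
      ‖dlg A (quo s) i (A.e i x) v j‖ ^ 2 ≤ √hi ^ 2 * qf K i x v := by
    intro i x hx hxR v j
    have h1 := hG.hi i x hx hxR v
    rw [hdq i x hx hxR v, Real.sq_sqrt hhi.le]
    refine le_trans ?_ h1
    exact Finset.single_le_sum (f := fun j => ‖(eta s i x *ᵥ v.ofLp) j‖ ^ 2)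
      (fun j _ => by positivity) (Finset.mem_univ j)
  have hd : ∀ S : Finset M, (∀ x ∈ S, x ∈ bX K y R) → (∀ a ∈ S, ∀ b ∈ S, quo s a = quo s b) →
      S.card ≤ d := fun S hS1 hS2 =>
    hS.deg S (fun x hx => ⟨hG.nz x (hS1 x hx), Jsq_ne hlo hG (hS1 x hx)⟩) hS2
  obtain ⟨ζ0, Lam, Φ, hO⟩ := strip_of_frame' K (F := quo s) (y := y) (C := Cc N lo) (C' := √hi)
    (R := R) (r := r) (d := d) hC (Real.sqrt_nonneg _) hr hR hF
    (fun p hp j => quo_ne (hG.nz p hp) j) hb hb' hd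
  refine ⟨ζ0, Lam, Φ, hO, fun ζ hζ i hi' v => ?_⟩
  set w := fderiv ℂ (fun w => A.e i (Φ w)) ζ v with hw
  have hx := hO.mem ζ hζ
  have h1 : eta s i (Φ ζ) *ᵥ w.ofLp = v := by
    rw [← hdq i (Φ ζ) hi' hx w]
    exact hO.dl ζ hζ i hi' v
  have h2 := hG.lo i (Φ ζ) hi' hx w
  have h3 := hG.hi i (Φ ζ) hi' hx w
  rw [h1] at h2 h3
  constructor
  · rw [inv_mul_le_iff₀ hhi]
    exact h3
  · rw [← div_eq_inv_mul, le_div_iff₀ hlo, mul_comm]
    exact h2

end

/-- the determinant of the metric on the strip -/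
theorem det_bounds (K : Kah A) {Φ : (Fin N → ℂ) → M} {ζ : Fin N → ℂ} {lo hi : ℝ} (hlo : 0 < lo)
    (hhi : 0 < hi)
    (hp : ∀ i, Φ ζ ∈ (A.e i).source → ∀ v : Fin N → ℂ,
      lo * ∑ j, ‖v j‖ ^ 2 ≤ qf K i (Φ ζ) (fderiv ℂ (fun w => A.e i (Φ w)) ζ v) ∧
      qf K i (Φ ζ) (fderiv ℂ (fun w => A.e i (Φ w)) ζ v) ≤ hi * ∑ j, ‖v j‖ ^ 2) :
    ((N.factorial : ℝ) * (2 * (1 / lo)) ^ N)⁻¹ ≤ (pbg K Φ ζ).det.re ∧
      (pbg K Φ ζ).det.re ≤ (N.factorial : ℝ) * (2 * hi) ^ N := by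
  have hE : EllC lo hi (pbg K Φ ζ) := by
    refine ⟨SG3_790.pbg_herm K Φ ζ, fun x => ?_⟩
    rw [SG3_790.pbg_dot, ← SG3_790.sum_star]
    exact hp _ (mem_ch A (Φ ζ)) _
  have h1 := LioH_346.det_pinch hlo hhi hE (LioH_346.det_ne_of_ell hlo hE)
  have h2 : 0 < (pbg K Φ ζ).det := by
    have h3 := SG3_790.pbg_lo K Φ fun i hi' v => (hp i hi' v).1
    have h4 : (((lo : ℝ) : ℂ) • (1 : Matrix (Fin N) (Fin N) ℂ)).PosDef :=
      Matrix.PosDef.one.smul (by exact_mod_cast hlo)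
    have h5 := h4.add_posSemidef h3
    rw [add_sub_cancel] at h5
    exact h5.det_pos
  have h3 : ‖(pbg K Φ ζ).det‖ = (pbg K Φ ζ).det.re := by
    have h4 := Complex.lt_def.1 h2
    have h5 : (pbg K Φ ζ).det = (((pbg K Φ ζ).det.re : ℝ) : ℂ) :=
      Complex.ext rfl (by simpa using h4.2.symm)
    rw [h5, Complex.norm_real, Real.norm_eq_abs, abs_of_nonneg (by simpa using h4.1.le),
      Complex.ofReal_re]
  rw [h3] at h1
  exact h1

end

end Crest.Agent.R281.HfG_615
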