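import Crest.Agent.R281.Al4_830
import Crest.Agent.R281.AlgDefs_998
import Crest.Agent.R281.KpU_487
import Crest.Agent.R281.Sc2_413
import Crest.Agent.R273.MassA_5
import Crest.Agent.R281.Md2_252
import Crest.Agent.R281.CB1_867
import Crest.Agent.R281.Mem1_69
import Crest.Agent.R281.Blk6_592
import Crest.Agent.R281.Phl5_655
import Crest.Agent.R281.HkM4_835
import Crest.Agent.R281.HkM5_835
import Crest.Agent.R281.RkD_902

-- ▼ part R281/Hu1_313
section

/-!
# R281 (S0424), ASM-2 (helper313): uniqueness of the hyperkaehler structure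

* `heqv_of_om`  : two triples with the same forms are equal
* `uniq_atl`    : `H`, `H'` on a holomorphic atlas, `J 0 = J 0' = i`, `om 0`, `om 0'` cohomologous,
                  holomorphic 2-forms proportional ⇒ `om 0' = om 0`, `om 1' + i om 2' = c (om 1 + i om 2)`,
                  `|c| = 1`
* `uniq_rch`    : the same on `C : RCh V X`
* `rotc`        : rotation of `(om 1, om 2)` by the unit complex number `c`
* `heqv_rotc`   : `HEqv (rotc H c) H'`
-/

set_option autoImplicit false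
set_option linter.unusedSectionVars false

open Set Filter Topology Complex
open scoped ContDiff Matrix ComplexConjugate ComplexOrder

namespace Crest.Agent.R281.Hu_313

open Crest.Agent.R275.Geo Crest.Agent.R275.Core144 Crest.Agent.R275.EDR890
open Crest.Agent.R275.GC293
open Crest.Agent.R273 Crest.Agent.R273.Hess_333 Crest.Agent.R273.HessB_333
open Crest.Agent.R273.Defs_333 Crest.Agent.R273.HM_333 Crest.Agent.R273.Kah_333
open Crest.Agent.R281.Defs_273 (H2 HSymp)
open Crest.Agent.R260.ACM_580 Crest.Agent.R260.NNB_580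
open Crest.Agent.R281.HkR_835 Crest.Agent.R281.Alg_998
open Crest.Agent.R281.KpU_487 (C2f unique_kah)
open Crest.Agent.R281.Ti_846 (Ex)
open Crest.Agent.R281.HkP1_508 Crest.Agent.R281.HkP2_508

noncomputable section

section heqv

variable {V X : Type} [NormedAddCommGroup V] [NormedSpace ℝ V] [TopologicalSpace X]
  {C : RCh V X}

theorem heqv_of_om {H H' : HkT C}
    (h : ∀ k i, ∀ z ∈ (C.e i).target, (H.om k).w i z = (H'.om k).w i z) : HEqv H H' := by
  have hJ : ∀ k i, ∀ z ∈ (C.e i).target, H.J k i z = H'.J k i z := by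
    intro k i z hz
    obtain ⟨l, m, hk⟩ := HkT.exists_cyc k
    ext v
    rw [← sub_eq_zero]
    refine H.nondeg l hz _ fun u => ?_
    rw [map_sub, sub_apply, (H.om_J hk hz v u).1, h l i z hz, (H'.om_J hk hz v u).1, h m i z hz,
      sub_self]
  refine ⟨h, hJ, fun i z hz => ?_⟩
  ext u v
  rw [H.g_eq 0 hz, H'.g_eq 0 hz, h 0 i z hz, hJ 0 i z hz]

/-- the frame of the rotation by `c` -/
def rfr (c : ℂ) : Fin 3 → Fin 3 → ℝ :=
  ![![1, 0, 0], ![0, c.re, -c.im], ![0, c.im, c.re]]

theorem fr_rfr {c : ℂ} (hc : ‖c‖ = 1) : HkT.Fr (rfr c) := by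
  have h1 : c.re * c.re + c.im * c.im = 1 := by
    have := Complex.normSq_eq_norm_sq c
    rw [hc, Complex.normSq_apply] at this
    linarith
  refine ⟨fun k => ?_, ?_, ?_⟩
  · fin_cases k
    · simp [rfr]
    · simp only [rfr, Fin.mk_one, Matrix.cons_val_one, Matrix.cons_val_zero, Matrix.cons_val]
      linarith
    · simp only [rfr, Fin.reduceFinMk, Matrix.cons_val_one, Matrix.cons_val_zero, Matrix.cons_val]
      linarith
  · simp [rfr]
  · funext k
    fin_cases k <;> simp [rfr]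

/-- rotation of `(om 1, om 2)`: `om 1 + i om 2 ↦ c (om 1 + i om 2)` -/
def rotc (H : HkT C) (c : ℂ) (hc : ‖c‖ = 1) : HkT C := H.rot (rfr c) (fr_rfr hc)

theorem rotc_om0 (H : HkT C) {c : ℂ} (hc : ‖c‖ = 1) (i : C.ι) (z : V) :
    ((rotc H c hc).om 0).w i z = (H.om 0).w i z := by
  ext u v
  rw [rotc, HkT.rot_om, F2.lin_w, Fin.sum_univ_three]
  simp [rfr]

theorem rotc_om1 (H : HkT C) {c : ℂ} (hc : ‖c‖ = 1) (i : C.ι) (z u v : V) :
    ((rotc H c hc).om 1).w i z u v = c.re * (H.om 1).w i z u v - c.im * (H.om 2).w i z u v := by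
  rw [rotc, HkT.rot_om, F2.lin_w, Fin.sum_univ_three]
  simp only [rfr, Matrix.cons_val_one, Matrix.cons_val_zero, Matrix.cons_val]
  ring

theorem rotc_om2 (H : HkT C) {c : ℂ} (hc : ‖c‖ = 1) (i : C.ι) (z u v : V) :
    ((rotc H c hc).om 2).w i z u v = c.im * (H.om 1).w i z u v + c.re * (H.om 2).w i z u v := by
  rw [rotc, HkT.rot_om, F2.lin_w, Fin.sum_univ_three]
  simp only [rfr, Matrix.cons_val_one, Matrix.cons_val_zero, Matrix.cons_val]
  ring

/-- the relation between two triples with the same `J 0` and Kaehler form -/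
structure RotRel (H H' : HkT C) (c : ℂ) : Prop where
  nrm : ‖c‖ = 1
  om0 : ∀ i, ∀ z ∈ (C.e i).target, (H'.om 0).w i z = (H.om 0).w i z
  om1 : ∀ i, ∀ z ∈ (C.e i).target, ∀ u v,
    (H'.om 1).w i z u v = c.re * (H.om 1).w i z u v - c.im * (H.om 2).w i z u v
  om2 : ∀ i, ∀ z ∈ (C.e i).target, ∀ u v,
    (H'.om 2).w i z u v = c.im * (H.om 1).w i z u v + c.re * (H.om 2).w i z u v

theorem RotRel.heqv {H H' : HkT C} {c : ℂ} (h : RotRel H H' c) : HEqv (rotc H c h.nrm) H' := by
  refine heqv_of_om fun k i z hz => ?_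
  fin_cases k
  · show ((rotc H c h.nrm).om 0).w i z = (H'.om 0).w i z
    rw [rotc_om0, h.om0 i z hz]
  · show ((rotc H c h.nrm).om 1).w i z = (H'.om 1).w i z
    ext u v
    rw [rotc_om1, h.om1 i z hz]
  · show ((rotc H c h.nrm).om 2).w i z = (H'.om 2).w i z
    ext u v
    rw [rotc_om2, h.om2 i z hz]


end heqv

section atl

variable {d : ℕ} {X : Type} [TopologicalSpace X] {A : Atl d X}



end atl

section rch

variable {V X : Type} [NormedAddCommGroup V] [NormedSpace ℝ V] [TopologicalSpace X]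
  {C : RCh V X} {d : ℕ} {A : Atl d X}

/-- a linear relation between forms may be checked in the charts of `A` -/
theorem rel_back (h : Cmp C (ofAtl A)) {w w₁ w₂ : F2 C} {α β : ℝ}
    (hw : ∀ a, ∀ z ∈ (A.e a).target, ∀ u v, (h.F w).w a z u v =
      α * (h.F w₁).w a z u v + β * (h.F w₂).w a z u v) (i : C.ι) (z : V)
    (hz : z ∈ (C.e i).target) (u v : V) :
    w.w i z u v = α * w₁.w i z u v + β * w₂.w i z u v := by
  obtain ⟨a, ha⟩ := Cmp.exists_mov (C' := C) (ofAtl A) (j := i) hz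
  obtain ⟨h1, h2⟩ := Al_830.mov_swap (C := C) (C' := ofAtl A) ha
  have h3 := hw a _ (Cmp.mt_mem ha).1 (fderiv ℝ (mt (ofAtl A) C a i) z u)
    (fderiv ℝ (mt (ofAtl A) C a i) z v)
  rw [h.F_w w h1, h.F_w w₁ h1, h.F_w w₂ h1, h.symm.d_d ha, h.symm.d_d ha, h2] at h3
  exact h3

theorem RotRel.back (h : Cmp C (ofAtl A)) {H H' : HkT C} {c : ℂ}
    (hr : RotRel (h.hk H) (h.hk H') c) : RotRel H H' c := by
  refine ⟨hr.nrm, fun i z hz => ?_, fun i z hz u v => ?_, fun i z hz u v => ?_⟩
  · ext u v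
    have := rel_back h (w := H'.om 0) (w₁ := H.om 0) (w₂ := H.om 0) (α := 1) (β := 0)
      (fun a z hz u v => by
        have h1 := hr.om0 a z hz
        rw [h.hk_om, h.hk_om] at h1
        rw [h1]
        ring) i z hz u v
    rw [this]
    ring
  · have := rel_back h (w := H'.om 1) (w₁ := H.om 1) (w₂ := H.om 2) (α := c.re) (β := -c.im)
      (fun a z hz u v => by
        have h1 := hr.om1 a z hz u v
        rw [h.hk_om, h.hk_om, h.hk_om] at h1
        rw [h1]
        ring) i z hz u v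
    rw [this]
    ring
  · exact rel_back h (w := H'.om 2) (w₁ := H.om 1) (w₂ := H.om 2) (α := c.im) (β := c.re)
      (fun a z hz u v => by
        have h1 := hr.om2 a z hz u v
        rw [h.hk_om, h.hk_om, h.hk_om] at h1
        exact h1) i z hz u v


end rch

end

end Crest.Agent.R281.Hu_313
end

-- ▼ part R281/Md3_252
section

/-!
# Row 281, MEMD-INST (helper252), part 3: the bundle and the form of a member

* `toProj_lk`  : the homogeneous coordinates of a member are lifts of its map to projective space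
* `fsE`        : the Fubini-Study form on `EuclideanSpace ℂ (Fin (N + 1))`
* `hm_toProj`  : **(M4)** for `FS_333.lb (h.toProj κ hκ)`
* `om_indep`   : `[om 1]`, `[om 2]` are independent
* `sig_scal`   : a closed holomorphic 2-form in the class of `z σ` is `z σ`
* `memK_of`    : 69's dictionary `MemK` for a GIVEN atlas of `J 0`
* `sig_det`    : `‖det (z σ)‖ = ‖z‖^d det K0`
-/

set_option autoImplicit false
set_option maxSynthPendingDepth 3
set_option linter.unusedSectionVars false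

open Set Filter Topology Complex
open scoped ContDiff Matrix ComplexConjugate ComplexOrder

namespace Crest.Agent.R281.Md_252

open Crest.Agent.R275.Geo Crest.Agent.R275.Core144 Crest.Agent.R275.EDR890
open Crest.Agent.R275.GC293
open Crest.Agent.R273.Kah_333 Crest.Agent.R273.Hess_333 Crest.Agent.R273.HessB_333
open Crest.Agent.R273.Defs_333 Crest.Agent.R273.HM_333 Crest.Agent.R273.Vol_333
open Crest.Agent.R281.Defs_273
open Crest.Agent.R260.ACM_580 Crest.Agent.R260.NNB_580
open Crest.Agent.R281.HkR_835 Crest.Agent.R281.Ti_846 Crest.Agent.R281.Ehr2_268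
open Crest.Agent.R281.NefO_476 Crest.Agent.R281.Dif_268
open Crest.Agent.R281.Nef_252 Crest.Agent.R281.Pe_313 Crest.Agent.R281.Phl_655
open Crest.Agent.R281.Blk_592 (MapD LkAt Lk fsv)
open Crest.Agent.R281.HkP2_508
open Crest.Agent.R281.HkP1_508 Crest.Agent.R273.NoHVF_376

noncomputable section

variable {d : ℕ} {X : Type} [TopologicalSpace X] {A : Atl d X}
  {V V' : Type} [NormedAddCommGroup V] [NormedSpace ℝ V] [NormedAddCommGroup V']
  [NormedSpace ℝ V'] {C : RCh V X} {C' : RCh V' X}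

section lift

variable {H : Type} [NormedAddCommGroup H] [NormedSpace ℂ H] {K : ℕ} {P : HEmb C' H}
  {b : H ≃L[ℂ] (Fin (K + 1) → ℂ)}

/-- the homogeneous coordinates are lifts of the map of the member -/
theorem toProj_lk (h : HolA P b A) (κ : A.ι → Fin (K + 1))
    (hκ : ∀ a, (A.e a).source ⊆ OX P b (κ a)) :
    Lk (MapD.ofProj (h.toProj κ hκ)) (fun i z => b (P.u i z)) := by
  refine ⟨h.cmp, fun i => (b.toContinuousLinearMap.restrictScalars ℝ).contDiff.comp_contDiffOn
    (P.sm i), fun a i x hx hi => ?_⟩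
  have h1 := (mem_OX hi).1 (hκ a hx)
  refine ⟨(b (P.u i (C'.e i x)) (κ a))⁻¹, inv_ne_zero h1.2, ?_⟩
  show nuX P b (κ a) x = _
  rw [nuX_eq hi (hκ a hx)]
  rfl

theorem fderiv_bu (P : HEmb C' H) (b : H ≃L[ℂ] (Fin (K + 1) → ℂ)) {i : C'.ι} {z : V'}
    (hz : z ∈ (C'.e i).target) (v : V') :
    fderiv ℝ (fun z => b (P.u i z)) z v = b (fderiv ℝ (P.u i) z v) := by
  have h1 : DifferentiableAt ℝ (P.u i) z :=
    ((P.sm i).contDiffAt ((C'.e i).open_target.mem_nhds hz)).differentiableAt (by simp)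
  have h2 : HasFDerivAt (fun z => b (P.u i z))
      ((b.toContinuousLinearMap.restrictScalars ℝ).comp (fderiv ℝ (P.u i) z)) z :=
    (b.toContinuousLinearMap.restrictScalars ℝ).hasFDerivAt.comp z h1.hasFDerivAt
  rw [h2.fderiv]
  rfl

/-- **(M4)**, for the hyperplane bundle of the member -/
theorem hm_toProj [CompactSpace X] [T2Space X] [ConnectedSpace X] [Finite A.ι] (hd : 2 ≤ d)
    (Pt : Part A) (T : HkT C) (hp : Cp (T.acm 0) A) (h : HolA P b A) (κ : A.ι → Fin (K + 1))
    (hκ : ∀ a, (A.e a).source ⊆ OX P b (κ a)) (hc : Cmp C C') (W : F2 C')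
    (hW : ∀ i, ∀ y ∈ (C'.e i).target, ∀ v v' : V', W.w i y v v' =
      fsv (b (P.u i y)) (b (fderiv ℝ (P.u i) y v)) (b (fderiv ℝ (P.u i) y v')))
    {a : F2 C} {κ' : ℝ} (ha : Ex (T.om 0 - a)) (hcl : Ex (W - κ' • hc.F a)) :
    ∃ h' : HM (Crest.Agent.R273.FS_333.lb (h.toProj κ hκ)), ∀ i, ∀ x ∈ (A.e i).source,
      cur h' i x = (κ' : ℂ) • (T.kah hp).g i x := by
  have h1 := hm_lk hd Pt T hp (Q := MapD.ofProj (h.toProj κ hκ)) hc h.cmp W (fun i y hy => by
    refine ⟨fun z => b (P.u i z), (toProj_lk h κ hκ).at hy, fun v v' => ?_⟩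
    refine (hW i y hy v v').trans ?_
    exact congrArg₂ (fun s t => fsv (b (P.u i y)) s t) (fderiv_bu P b hy v).symm
      (fderiv_bu P b hy v').symm) ha hcl
  rwa [MapD.ofProj_lb] at h1

end lift

/-! ### the Fubini-Study form of a Euclidean space -/






/-! ### the classes of `om 1`, `om 2` -/

/-- `[a om 1 + b om 2] = 0` only for `a = b = 0` -/
theorem kah_not_ex [CompactSpace X] [T2Space X] [Nonempty X] [Finite A.ι] (hd : 0 < d)
    (K : Kah A) : ¬ Ex (ofKah K).f2 := by
  intro h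
  obtain ⟨P⟩ := nonempty_RPart (ofAtl A)
  have h1 := II_kah_pos K P
  have h2 := IM_ex (lc d) (bc d) P (ori_ofAtl A) (fun _ => (ofKah K).f2) (k := ⟨0, hd⟩)
    (mem_exS.2 h)
  rw [IM_apply] at h2
  exact h1.ne' h2

theorem om0_not_ex [FiniteDimensional ℝ V] [CompactSpace X] [T2Space X] [Nonempty X]
    (hV : Module.finrank ℝ V = 2 * d) (hd : 0 < d) (T : HkT C) : ¬ Ex (T.om 0) := by
  intro h
  obtain ⟨A, _, _, _, hc, K, σ, hm⟩ := Crest.Agent.R281.Mem_69.exists_memK hV T
  refine kah_not_ex hd K ?_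
  have h1 : Ex (hc.F (T.om 0)) := (ex_cmp_F hc _).2 h
  have h2 : Eqv (hc.F (T.om 0)) (ofKah K).f2 := fun i z hz u v => hm.om0 i z hz u v
  exact h2.ex h1

theorem om_indep [FiniteDimensional ℝ V] [CompactSpace X] [T2Space X] [Nonempty X]
    (hV : Module.finrank ℝ V = 2 * d) (hd : 0 < d) (T : HkT C) {a b : ℝ}
    (h : Ex (a • T.om 1 + b • T.om 2)) : a = 0 ∧ b = 0 := by
  by_contra hab
  set w : ℂ := ⟨a, -b⟩ with hw
  have hw0 : w ≠ 0 := by
    intro h0
    apply hab
    have h1 := congrArg Complex.re h0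
    have h2 := congrArg Complex.im h0
    exact ⟨h1, by simpa [hw] using h2⟩
  have hn : 0 < ‖w‖ := norm_pos_iff.2 hw0
  set c : ℂ := ((‖w‖⁻¹ : ℝ) : ℂ) * w with hc
  have hc1 : ‖c‖ = 1 := by
    rw [hc, norm_mul, Complex.norm_real, norm_inv, norm_norm, inv_mul_cancel₀ hn.ne']
  have hre : c.re = ‖w‖⁻¹ * a := by simp [hc, hw]
  have him : c.im = -(‖w‖⁻¹ * b) := by simp [hc, hw]
  refine om0_not_ex hV hd ((Hu_313.rotc T c hc1).cyc 1) ?_
  have e1 : Eqv (((Hu_313.rotc T c hc1).cyc 1).om 0) (‖w‖⁻¹ • (a • T.om 1 + b • T.om 2)) := by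
    refine (cyc_om _ 1 0).trans fun i z hz u v => ?_
    show ((Hu_313.rotc T c hc1).om 1).w i z u v = ‖w‖⁻¹ * (a * (T.om 1).w i z u v +
      b * (T.om 2).w i z u v)
    rw [Hu_313.rotc_om1, hre, him]
    ring
  exact e1.symm.ex (ex_smul _ h)

/-- **a holomorphic 2-form in the class of `z σ` is `z σ`** -/
theorem sig_scal [FiniteDimensional ℝ V] [CompactSpace X] [T2Space X] [Nonempty X] [Finite A.ι]
    (hV : Module.finrank ℝ V = 2 * d) (hd : 0 < d) (Pt : Part A) {T : HkT C}
    (hp : Cp (T.acm 0) A) (hu : UniqT T) {τ : H2 A} {w₁ w₂ : F2 C}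
    (hτ : ∀ (i : A.ι), ∀ z ∈ (A.e i).target, ∀ u v, sb (sl τ i z) u v =
      (((cmp_of_cp hp).F w₁).w i z u v : ℂ) + I * (((cmp_of_cp hp).F w₂).w i z u v : ℂ))
    {c : ℂ} (hc : Ex (w₁ - (c.re • T.om 1 - c.im • T.om 2))) :
    ∀ i, ∀ x ∈ (A.e i).source, τ.s i x = c • (T.sig hp).s i x := by
  set h := cmp_of_cp hp with hh
  obtain ⟨c', hc'⟩ := uniq_of_T Pt hp hu τ
  have e1 : Eqv (h.F w₁) (h.F (c'.re • T.om 1 + (-c'.im) • T.om 2)) := by
    refine eqvA fun j z hz u v => ?_
    have k1 := hτ j z hz u v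
    have k2 : sl τ j z = c' • sl (T.sig hp).toH2 j z := hc' j _ ((A.e j).map_target hz)
    rw [k2, sb_smul, sig_sb T hp hz] at k1
    have k3 := congrArg Complex.re k1
    simp only [Complex.add_re, Complex.mul_re, Complex.ofReal_re, Complex.ofReal_im, Complex.I_re,
      Complex.I_im, Complex.add_im, Complex.mul_im] at k3
    rw [F_lin2A h _ _ _ _ hz]
    linarith
  have e2 : Eqv w₁ (c'.re • T.om 1 + (-c'.im) • T.om 2) :=
    ((F_F h w₁).symm.trans (F_eqv e1)).trans (F_F h _)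
  have e3 : Ex ((c'.re - c.re) • T.om 1 + (c.im - c'.im) • T.om 2) := by
    refine Eqv.ex (fun i z hz u v => ?_) hc
    have k := e2 i z hz u v
    show w₁.w i z u v - (c.re * (T.om 1).w i z u v - c.im * (T.om 2).w i z u v) =
      (c'.re - c.re) * (T.om 1).w i z u v + (c.im - c'.im) * (T.om 2).w i z u v
    have k' : w₁.w i z u v = c'.re * (T.om 1).w i z u v + (-c'.im) * (T.om 2).w i z u v := k
    rw [k']
    ring
  obtain ⟨r1, r2⟩ := om_indep hV hd T e3
  have hcc : c' = c := Complex.ext (by linarith) (by linarith)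
  rw [← hcc]
  exact hc'

/-- the dictionary for a GIVEN atlas of `J 0` -/
theorem memK_of [T2Space X] [CompactSpace X] [Finite A.ι] (Pt : Part A) (T : HkT C)
    (hp : Cp (T.acm 0) A) :
    Crest.Agent.R281.Mem_69.MemK T A (T.kah hp) (T.sig hp) (cmp_of_cp hp) := by
  have hcl : ClH (T.sig hp).toH2 := S0_cl (T.onA hp) (onA_J T hp)
  refine ⟨⟨ric0 (T.onA hp) (onA_J T hp), par_h2 Pt (ric0 (T.onA hp) (onA_J T hp)) _,
    hr0 (T.onA hp) (onA_J T hp)⟩, hcl, hp, ?_, ?_, ?_, ?_⟩
  · intro i z hz u v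
    exact (kah_om0 T hp i z hz u v).symm
  · intro i z hz u v
    have h4 := sig_sb T hp hz u v
    have h5 := congrArg Complex.re h4
    simp only [Complex.add_re, Complex.mul_re, Complex.ofReal_re, Complex.ofReal_im, Complex.I_re,
      Complex.I_im] at h5
    show ((cmp_of_cp hp).F (T.om 1)).w i z u v = (sb (sl (T.sig hp).toH2 i z) u v).re
    linarith
  · intro i z hz u v
    have h4 := sig_sb T hp hz u v
    have h5 := congrArg Complex.im h4
    simp only [Complex.add_im, Complex.mul_im, Complex.ofReal_re, Complex.ofReal_im, Complex.I_re,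
      Complex.I_im] at h5
    show ((cmp_of_cp hp).F (T.om 2)).w i z u v = (sb (sl (T.sig hp).toH2 i z) u v).im
    linarith
  · intro i x hx
    have h3 := congrArg Complex.re (det0 (T.onA hp) (onA_J T hp) i x hx)
    rw [Complex.ofReal_re] at h3
    rw [one_mul]
    exact h3.symm

/-- the determinant of the holomorphic form of the member -/
theorem sig_det {T : HkT C} (hp : Cp (T.acm 0) A) {τ : H2 A} {c : ℂ}
    (h : ∀ i, ∀ x ∈ (A.e i).source, τ.s i x = c • (T.sig hp).s i x) :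
    ∀ i, ∀ x ∈ (A.e i).source, ‖(τ.s i x).det‖ = ‖c‖ ^ d * ((T.kah hp).g i x).det.re := by
  intro i x hx
  have h3 := congrArg Complex.re (det0 (T.onA hp) (onA_J T hp) i x hx)
  rw [Complex.ofReal_re] at h3
  rw [h i x hx, Matrix.det_smul, Fintype.card_fin, norm_mul, norm_pow]
  exact congrArg (fun t => ‖c‖ ^ d * t) h3.symm

end

end Crest.Agent.R281.Md_252
end

-- ▼ part R281/Md4_252

/-!
# Row 281, MEMD-INST (helper252), part 4: period, volume and mass of a member

* `sre_sre`, `sim_sim`, `sre_sim` : `Q` on `σ_τ`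
* `atTau_z`   : `[om 1 + i om 2] = z σ_τ` ⟹ `‖z‖² N (Im τ)² = Q A A`, `b σ_τ = (b/z)(om 1 + i om 2)`
* `II_bn`     : the intersection form in the bases `bn` and `bc`
* `vol_mem`   : the volume of the members with `[om 0] = A` is one constant
* `mass_mem`  : `vm (volS σ) univ = V (√(N / Q A A) ‖b‖ Im τ)^d`
-/

set_option autoImplicit false
set_option maxSynthPendingDepth 3
set_option linter.unusedSectionVars false

open Set Filter Topology Complex MeasureTheory
open scoped ContDiff Matrix ComplexConjugate ComplexOrder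

namespace Crest.Agent.R281.Md_252

open Crest.Agent.R275.Geo Crest.Agent.R275.Core144 Crest.Agent.R275.EDR890
open Crest.Agent.R275.GC293
open Crest.Agent.R273.Kah_333 Crest.Agent.R273.Hess_333 Crest.Agent.R273.HessB_333
open Crest.Agent.R273.Defs_333 Crest.Agent.R273.HM_333 Crest.Agent.R273.Vol_333
open Crest.Agent.R273.Vm_333
open Crest.Agent.R281.Defs_273
open Crest.Agent.R260.ACM_580 Crest.Agent.R260.NNB_580
open Crest.Agent.R281.HkR_835 Crest.Agent.R281.Ti_846
open Crest.Agent.R281.NefO_476 Crest.Agent.R281.Dif_268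
open Crest.Agent.R281.HkP2_508
open Crest.Agent.R281.Alg_998 Crest.Agent.R281.Al_830
open Crest.Agent.R281.Fuj7_207 (bn bn_rfl)
open Crest.Agent.R281.Nef_252 Crest.Agent.R281.RkD_902

noncomputable section

/-! ### the period -/

section period

variable {V X : Type} [NormedAddCommGroup V] [NormedSpace ℝ V] [TopologicalSpace X]
  {C : RCh V X} {Q : F2 C →ₗ[ℝ] F2 C →ₗ[ℝ] ℝ}

theorem Q_sig (hs : ∀ a b, Q a b = Q b a) (F : Frm C Q) (τ : ℂ) :
    Q (F.sre τ) (F.sre τ) = F.N * τ.im ^ 2 ∧ Q (F.sim τ) (F.sim τ) = F.N * τ.im ^ 2 ∧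
      Q (F.sre τ) (F.sim τ) = 0 := by
  have h1 : Q F.v F.e = 0 := by rw [hs, F.e_v]
  have h2 : Q F.e F.es = 1 := by rw [hs, F.es_e]
  have h3 : Q F.v F.es = 0 := by rw [hs, F.es_v]
  unfold Frm.sre Frm.sim
  simp only [map_sub, map_add, map_smul, LinearMap.sub_apply, LinearMap.add_apply,
    LinearMap.smul_apply, smul_eq_mul]
  rw [F.es_e, F.e_e, h1, F.es_v, F.v_v, F.e_v, h2, h3, F.es_es]
  refine ⟨?_, ?_, ?_⟩ <;> ring

/-- the multiple of `σ_τ` at a member -/
theorem atTau_z (hs : ∀ a b, Q a b = Q b a) (hex : ∀ x y, Ex x → Q x y = 0)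
    (heq : ∀ (H : HkT C) k, Q (H.om k) (H.om k) = Q (H.om 0) (H.om 0)) {F : Frm C Q} {A : F2 C}
    {H : HkT C} {τ : ℂ} (h : AtTau F A H τ) :
    ∃ z : ℂ, z ≠ 0 ∧ ‖z‖ ^ 2 * (F.N * τ.im ^ 2) = Q A A ∧
      ∀ b : ℂ, Cl ((b / z).re • H.om 1 - (b / z).im • H.om 2)
        (b.re • F.sre τ - b.im • F.sim τ) ∧
        Cl ((b / z).im • H.om 1 + (b / z).re • H.om 2) (b.im • F.sre τ + b.re • F.sim τ) := by
  obtain ⟨z, hz, h1, h2⟩ := h.om12
  have hcg : ∀ {x x' : F2 C}, Cl x x' → ∀ y, Q x y = Q x' y := by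
    intro x x' hx y
    have h3 : Q (x - x') y = 0 := hex _ _ hx
    rw [map_sub, LinearMap.sub_apply] at h3
    linarith
  have hcg2 : ∀ {x x' : F2 C}, Cl x x' → Q x x = Q x' x' := by
    intro x x' hx
    rw [hcg hx, hs, hcg hx]
  refine ⟨z, hz, ?_, fun b => ⟨?_, ?_⟩⟩
  · rw [← hcg2 h.om0, ← heq H 1, hcg2 h1]
    obtain ⟨e1, e2, e3⟩ := Q_sig hs F τ
    have e4 : Q (F.sim τ) (F.sre τ) = 0 := by rw [hs, e3]
    simp only [map_sub, map_smul, LinearMap.sub_apply, LinearMap.smul_apply, smul_eq_mul]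
    rw [e1, e2, e3, e4, ← Complex.normSq_eq_norm_sq, Complex.normSq_apply]
    ring
  · have h3 := (h1.smul (b / z).re).add (h2.smul (-(b / z).im))
    have hb : b / z * z = b := div_mul_cancel₀ b hz
    have hre : (b / z).re * z.re - (b / z).im * z.im = b.re := by
      rw [← Complex.mul_re, hb]
    have him : (b / z).re * z.im + (b / z).im * z.re = b.im := by
      rw [← Complex.mul_im, hb]
    have e1 : (b / z).re • H.om 1 + (-(b / z).im) • H.om 2 =
        (b / z).re • H.om 1 - (b / z).im • H.om 2 := by rw [neg_smul, sub_eq_add_neg]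
    have e2 : (b / z).re • (z.re • F.sre τ - z.im • F.sim τ) +
        (-(b / z).im) • (z.im • F.sre τ + z.re • F.sim τ) =
        b.re • F.sre τ - b.im • F.sim τ := by
      rw [← hre, ← him]
      simp only [smul_sub, smul_add, smul_smul, sub_smul, add_smul, neg_smul, neg_mul]
      abel
    rwa [e1, e2] at h3
  · have h3 := (h1.smul (b / z).im).add (h2.smul (b / z).re)
    have hb : b / z * z = b := div_mul_cancel₀ b hz
    have hre : (b / z).re * z.re - (b / z).im * z.im = b.re := by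
      rw [← Complex.mul_re, hb]
    have him : (b / z).re * z.im + (b / z).im * z.re = b.im := by
      rw [← Complex.mul_im, hb]
    have e2 : (b / z).im • (z.re • F.sre τ - z.im • F.sim τ) +
        (b / z).re • (z.im • F.sre τ + z.re • F.sim τ) =
        b.im • F.sre τ + b.re • F.sim τ := by
      rw [← hre, ← him]
      simp only [smul_sub, smul_add, smul_smul, sub_smul, add_smul]
      abel
    rwa [e2] at h3

end period

/-! ### volume -/

section volume

variable {d n : ℕ} {X : Type} [TopologicalSpace X] [CompactSpace X]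

/-- the intersection form in the bases `bn`, `bc` -/
theorem II_bn (hd : d = n + n) {C : RCh (Cn d) X} (P : RPart C) (w : Fin (n + n) → F2 C) :
    IM (lc d) (bn hd) P w = II (lc d) (bc d) P fun k => w (finCongr hd k) := by
  subst hd
  rw [bn_rfl]
  rfl

variable [T2Space X] [ConnectedSpace X] [MeasurableSpace X] [BorelSpace X]

/-- **the volume of the members is one constant** -/
theorem vol_mem (hd : d = n + n) {C : RCh (Cn d) X} {P : RPart C}
    {q : QuadraticForm ℝ (F2 C)} (T : TopI (lc d) (bn hd) P q) {a : F2 C} (ha : 0 < q a)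
    {H : HkT C} (hH : Cl (H.om 0) a) {A : Atl d X} [Finite A.ι] (Pt : Part A)
    (hp : Cp (H.acm 0) A) :
    (vm (volK (H.kah hp))).real univ = q a ^ n / (2 ^ d * d.factorial) := by
  have h1 : II (lc d) (bc d) P (fun _ => a) = q a ^ n := by
    rw [← T.fuj a, II_bn]
  have h2 := (memK_of Pt H hp).vol T.ori P (a0 := a) (coh_iff.2 hH) (by
    rw [h1]
    exact pow_pos ha n)
  rw [h2, h1]

/-- the mass of the holomorphic form of a member, as a measure of the whole space -/
theorem mass_univ {A : Atl d X} [Finite A.ι] {σ : HSymp A} {K : Kah A} {mu : ℝ} (hmu : 0 ≤ mu)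
    (h : ∀ i, ∀ x ∈ (A.e i).source, ‖(σ.s i x).det‖ = mu * (K.g i x).det.re) :
    vm (volS σ) univ = ENNReal.ofReal (mu * (vm (volK K)).real univ) := by
  have h1 : vm (volS σ) = ENNReal.ofReal mu • vm (volK K) :=
    Crest.Agent.R281.Pfa_69.vm_ratio hmu fun i x hx => h i x hx
  have h2 := isFinite_vm (volK K)
  rw [h1, Measure.smul_apply, smul_eq_mul, ENNReal.ofReal_mul hmu, measureReal_def,
    ENNReal.ofReal_toReal (measure_ne_top _ _)]

end volume

/-- the modulus of the multiple -/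
theorem norm_z {z b : ℂ} {N q y : ℝ} (hz : z ≠ 0) (hN : 0 < N) (hq : 0 < q) (hy : 0 < y)
    (h : ‖z‖ ^ 2 * (N * y ^ 2) = q) : ‖b / z‖ = √(N / q) * ‖b‖ * y := by
  have hz' : 0 < ‖z‖ := norm_pos_iff.2 hz
  have h1 : (‖z‖⁻¹) ^ 2 = (√(N / q) * y) ^ 2 := by
    rw [mul_pow, Real.sq_sqrt (by positivity), ← h]
    field_simp
  have h2 : ‖z‖⁻¹ = √(N / q) * y := by
    have h3 : 0 ≤ ‖z‖⁻¹ := by positivity
    have h4 : 0 ≤ √(N / q) * y := by positivity
    exact (pow_left_inj₀ h3 h4 two_ne_zero).1 h1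
  rw [norm_div, div_eq_mul_inv, h2]
  ring


end

end Crest.Agent.R281.Md_252
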