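import Mathlib
import Crest.Agent.R281.HkR4_835
import Crest.Agent.R281.Ti1_846
import Crest.Agent.R281.HkR8_835
import Crest.Agent.R281.Ti6_846
import Crest.Agent.R281.HKA1_799
import Crest.Agent.R281.Ti7_846
import Crest.Agent.R281.Ti5_846
import Crest.Agent.R281.W3c_698

-- ▼ part R272/Symp1_92
section

set_option autoImplicit false
set_option linter.unusedSectionVars false
set_option linter.style.haveILetI false

namespace Crest.Agent.R272.Symp_92

open Module

section PID

variable {R : Type*} [CommRing R] [IsDomain R] [IsPrincipalIdealRing R]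
variable {M : Type*} [AddCommGroup M] [Module R M]

/-- partial symplectic family -/
structure PS (e : M →ₗ[R] M →ₗ[R] R) {N : ℕ} (p q : Fin N → M) : Prop where
  pp : ∀ i j, e (p i) (p j) = 0
  qq : ∀ i j, e (q i) (q j) = 0
  pq : ∀ i j, e (p i) (q j) = if i = j then 1 else 0

theorem alt_swap {e : M →ₗ[R] M →ₗ[R] R} (halt : ∀ x, e x x = 0) (x y : M) :
    e x y = - e y x := by
  have h := halt (x + y)
  simp only [map_add, LinearMap.add_apply, halt, zero_add, add_zero] at h
  exact eq_neg_of_add_eq_zero_left (by rw [add_comm]; exact h)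

theorem PS.qp {e : M →ₗ[R] M →ₗ[R] R} (halt : ∀ x, e x x = 0) {N : ℕ} {p q : Fin N → M}
    (h : PS e p q) (i j : Fin N) : e (q i) (p j) = if i = j then -1 else 0 := by
  rw [alt_swap halt, h.pq]
  by_cases hij : i = j
  · simp [hij]
  · have : ¬ j = i := fun h => hij h.symm
    simp [hij, this]

/-- the projection of `x` to the span of the family -/
def prj (e : M →ₗ[R] M →ₗ[R] R) {N : ℕ} (p q : Fin N → M) (x : M) : M :=
  ∑ i, (e x (q i) • p i - e x (p i) • q i)

theorem PS.prj_p {e : M →ₗ[R] M →ₗ[R] R} (halt : ∀ x, e x x = 0) {N : ℕ} {p q : Fin N → M}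
    (h : PS e p q) (x : M) (j : Fin N) : e (prj e p q x) (p j) = e x (p j) := by
  simp only [prj, map_sum, LinearMap.sum_apply, map_sub, LinearMap.sub_apply, map_smul,
    LinearMap.smul_apply, h.pp, h.qp halt, smul_eq_mul]
  simp

theorem PS.prj_q {e : M →ₗ[R] M →ₗ[R] R} {N : ℕ} {p q : Fin N → M}
    (h : PS e p q) (x : M) (j : Fin N) : e (prj e p q x) (q j) = e x (q j) := by
  simp only [prj, map_sum, LinearMap.sum_apply, map_sub, LinearMap.sub_apply, map_smul,
    LinearMap.smul_apply, h.qq, h.pq, smul_eq_mul]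
  simp

theorem PS.linInd {e : M →ₗ[R] M →ₗ[R] R} (halt : ∀ x, e x x = 0) {N : ℕ} {p q : Fin N → M}
    (h : PS e p q) : LinearIndependent R (Sum.elim p q) := by
  classical
  rw [Fintype.linearIndependent_iff]
  intro g hg
  rw [Fintype.sum_sum_type] at hg
  simp only [Sum.elim_inl, Sum.elim_inr] at hg
  rintro (j | j)
  · have h1 := congrArg (fun z => e z (q j)) hg
    simp only [map_add, map_sum, LinearMap.add_apply, LinearMap.sum_apply, map_smul,
      LinearMap.smul_apply, h.pq, h.qq, smul_eq_mul, map_zero, LinearMap.zero_apply] at h1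
    simpa using h1
  · have h1 := congrArg (fun z => e z (p j)) hg
    simp only [map_add, map_sum, LinearMap.add_apply, LinearMap.sum_apply, map_smul,
      LinearMap.smul_apply, h.pp, h.qp halt, smul_eq_mul, map_zero, LinearMap.zero_apply] at h1
    simpa using h1

/-- extension step -/
theorem PS.cons {e : M →ₗ[R] M →ₗ[R] R} (halt : ∀ x, e x x = 0) {N : ℕ} {p q : Fin N → M}
    (h : PS e p q) {x y : M} (hx : ∀ i, e x (p i) = 0 ∧ e x (q i) = 0)
    (hy : ∀ i, e y (p i) = 0 ∧ e y (q i) = 0) (hxy : e x y = 1) :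
    PS e (Fin.cons x p : Fin (N+1) → M) (Fin.cons y q : Fin (N+1) → M) := by
  refine ⟨?_, ?_, ?_⟩
  · intro i j
    refine Fin.cases ?_ (fun i => ?_) i
    · refine Fin.cases ?_ (fun j => ?_) j
      · simpa using halt x
      · simpa using (hx j).1
    · refine Fin.cases ?_ (fun j => ?_) j
      · simp only [Fin.cons_succ, Fin.cons_zero]
        rw [alt_swap halt, (hx i).1, neg_zero]
      · simpa using h.pp i j
  · intro i j
    refine Fin.cases ?_ (fun i => ?_) i
    · refine Fin.cases ?_ (fun j => ?_) j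
      · simpa using halt y
      · simpa using (hy j).2
    · refine Fin.cases ?_ (fun j => ?_) j
      · simp only [Fin.cons_succ, Fin.cons_zero]
        rw [alt_swap halt, (hy i).2, neg_zero]
      · simpa using h.qq i j
  · intro i j
    refine Fin.cases ?_ (fun i => ?_) i
    · refine Fin.cases ?_ (fun j => ?_) j
      · simpa using hxy
      · have h0 : ¬ ((0 : Fin (N+1)) = j.succ) := (Fin.succ_ne_zero j).symm
        simp only [Fin.cons_succ, Fin.cons_zero, h0, if_false]
        exact (hx j).2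
    · refine Fin.cases ?_ (fun j => ?_) j
      · have h0 : ¬ (i.succ = (0 : Fin (N+1))) := Fin.succ_ne_zero i
        simp only [Fin.cons_succ, Fin.cons_zero, h0, if_false]
        rw [alt_swap halt, (hy i).1, neg_zero]
      · simp only [Fin.cons_succ, Fin.succ_inj]
        exact h.pq i j

/-- the orthogonal complement of the family -/
def orth (e : M →ₗ[R] M →ₗ[R] R) {N : ℕ} (p q : Fin N → M) : Submodule R M where
  carrier := {x | ∀ i, e x (p i) = 0 ∧ e x (q i) = 0}
  add_mem' := by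
    intro a b ha hb i
    simp only [map_add, LinearMap.add_apply, (ha i).1, (hb i).1, (ha i).2, (hb i).2]
    simp
  zero_mem' := by intro i; simp
  smul_mem' := by
    intro c a ha i
    simp only [map_smul, LinearMap.smul_apply, (ha i).1, (ha i).2]
    simp

theorem sub_prj_mem {e : M →ₗ[R] M →ₗ[R] R} (halt : ∀ x, e x x = 0) {N : ℕ} {p q : Fin N → M}
    (h : PS e p q) (x : M) : x - prj e p q x ∈ orth e p q := by
  intro i
  simp only [map_sub, LinearMap.sub_apply, h.prj_p halt, h.prj_q]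
  simp

theorem prj_of_mem {e : M →ₗ[R] M →ₗ[R] R} {N : ℕ} {p q : Fin N → M} {x : M}
    (hx : x ∈ orth e p q) : prj e p q x = 0 := by
  unfold prj
  apply Finset.sum_eq_zero
  intro i _
  rw [(hx i).1, (hx i).2]; simp

/-- projection to the orthogonal complement as linear map -/
def toOrth (e : M →ₗ[R] M →ₗ[R] R) (halt : ∀ x, e x x = 0) {N : ℕ} {p q : Fin N → M}
    (h : PS e p q) : M →ₗ[R] orth e p q where
  toFun x := ⟨x - prj e p q x, sub_prj_mem halt h x⟩
  map_add' := by
    intro x y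
    ext
    simp only [prj, map_add, LinearMap.add_apply, Submodule.coe_add, add_smul]
    have : ∀ i : Fin N, (e x (q i) • p i + e y (q i) • p i - (e x (p i) • q i + e y (p i) • q i))
      = (e x (q i) • p i - e x (p i) • q i) + (e y (q i) • p i - e y (p i) • q i) := by
      intro i; abel
    simp only [this, Finset.sum_add_distrib]
    abel
  map_smul' := by
    intro c x
    ext
    simp only [prj, map_smul, LinearMap.smul_apply, smul_eq_mul, mul_smul, RingHom.id_apply,
      Submodule.coe_smul, smul_sub, Finset.smul_sum]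

theorem exists_sympl [Module.Free R M] [Module.Finite R M] (e : M →ₗ[R] M →ₗ[R] R)
    (halt : ∀ x, e x x = 0) (hsurj : ∀ f : M →ₗ[R] R, ∃ y, ∀ x, e x y = f x) :
    ∃ (N : ℕ) (p q : Fin N → M), PS e p q ∧ ∀ x, x = ∑ i, (e x (q i) • p i - e x (p i) • q i) := by
  classical
  have hbd : ∀ N, (∃ p q : Fin N → M, PS e p q) → N ≤ finrank R M := by
    rintro N ⟨p, q, h⟩
    have h1 := (h.linInd halt).fintype_card_le_finrank
    simp only [Fintype.card_sum, Fintype.card_fin] at h1
    omega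
  have h0 : ∃ p q : Fin 0 → M, PS e p q :=
    ⟨fun i => i.elim0, fun i => i.elim0, ⟨fun i => i.elim0, fun i => i.elim0, fun i => i.elim0⟩⟩
  set N := Nat.findGreatest (fun N => ∃ p q : Fin N → M, PS e p q) (finrank R M) with hN
  have hNP : ∃ p q : Fin N → M, PS e p q :=
    Nat.findGreatest_spec (P := fun N => ∃ p q : Fin N → M, PS e p q) (Nat.zero_le _) h0
  have hmax : ∀ K, (∃ p q : Fin K → M, PS e p q) → K ≤ N := fun K hK =>
    Nat.le_findGreatest (hbd K hK) hK
  obtain ⟨p, q, h⟩ := hNP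
  refine ⟨N, p, q, h, ?_⟩
  -- the orthogonal complement is zero
  have hbot : orth e p q = ⊥ := by
    by_contra hne
    haveI : Module.Free R (orth e p q) := inferInstance
    haveI : Module.Finite R (orth e p q) := inferInstance
    haveI : Nontrivial (orth e p q) := Submodule.nontrivial_iff_ne_bot.2 hne
    let b := Module.Free.chooseBasis R (orth e p q)
    obtain ⟨i0⟩ : Nonempty (Module.Free.ChooseBasisIndex R (orth e p q)) := b.index_nonempty
    obtain ⟨y, hy⟩ := hsurj ((b.coord i0).comp (toOrth e halt h))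
    set x : M := (b i0 : M) with hx
    have hxm : x ∈ orth e p q := (b i0).2
    have hex : e x y = 1 := by
      rw [hy x]
      have : toOrth e halt h x = b i0 := by
        ext
        show x - prj e p q x = x
        rw [prj_of_mem hxm, sub_zero]
      simp [this]
    set y' := y - prj e p q y with hy'
    have hym : y' ∈ orth e p q := sub_prj_mem halt h y
    have hexy : e x y' = 1 := by
      rw [hy', map_sub, hex]
      have : e x (prj e p q y) = 0 := by
        simp only [prj, map_sum, map_sub, map_smul, (hxm _).1, (hxm _).2]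
        simp
      rw [this, sub_zero]
    have := hmax (N+1) ⟨_, _, h.cons halt hxm hym hexy⟩
    omega
  intro x
  have hx := sub_prj_mem halt h x
  rw [hbot, Submodule.mem_bot, sub_eq_zero] at hx
  exact hx

end PID

end Crest.Agent.R272.Symp_92
end

-- ▼ part R281/Ma1_69
section

/-!
# Row 281, MASS (D18), part 1 (helper69): the top power of `Re σ` at a point

* `det_mL`    : the real determinant of a complex matrix is `‖det‖²`
* `exists_T`  : two invertible antisymmetric matrices are congruent, `S = Tᵀ * S' * T`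
* `reM S`     : the real 2-form `Re σ`, `σ u v = ∑ s_ab u_a v_b`
* `TP_reM`    : `TP b (Re σ, …, Re σ) * ‖det S'‖ = TP b (Re σ', …, Re σ') * ‖det S‖`
* `exists_cR` : `TP b (Re σ, …, Re σ) = c * ‖det S‖`
-/

set_option autoImplicit false
set_option linter.unusedSectionVars false

open Set Filter Topology Complex
open scoped ContDiff Matrix ComplexConjugate InnerProductSpace

namespace Crest.Agent.R281.Ma_69

open Crest.Agent.R275.Geo
open Crest.Agent.R281.HkR_835 Crest.Agent.R281.Ti_846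
open Crest.Agent.R272.Symp_92 (PS exists_sympl)

noncomputable section

variable {d : ℕ}

/-! ### the real determinant of a complex matrix -/

theorem mL_coe (T : Matrix (Fin d) (Fin d) ℂ) :
    ((mL T : Cn d →L[ℝ] Cn d) : Cn d →ₗ[ℝ] Cn d) =
      (Matrix.toEuclideanLin T).restrictScalars ℝ := rfl

theorem det_toEuclideanLin (T : Matrix (Fin d) (Fin d) ℂ) :
    LinearMap.det (Matrix.toEuclideanLin T) = T.det := by
  exact LinearMap.det_toLin (PiLp.basisFun 2 ℂ (Fin d)) T

theorem det_mL (T : Matrix (Fin d) (Fin d) ℂ) :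
    LinearMap.det ((mL T : Cn d →L[ℝ] Cn d) : Cn d →ₗ[ℝ] Cn d) = ‖T.det‖ ^ 2 := by
  rw [mL_coe, LinearMap.det_restrictScalars, det_toEuclideanLin, Algebra.norm_complex_apply,
    Complex.normSq_eq_norm_sq]

/-! ### congruence of antisymmetric matrices -/

/-- the bilinear form of a matrix on `Fin d → ℂ` -/
def bf (S : Matrix (Fin d) (Fin d) ℂ) : (Fin d → ℂ) →ₗ[ℂ] (Fin d → ℂ) →ₗ[ℂ] ℂ :=
  Matrix.toLinearMap₂' ℂ S

theorem bf_apply (S : Matrix (Fin d) (Fin d) ℂ) (x y : Fin d → ℂ) :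
    bf S x y = x ⬝ᵥ S *ᵥ y := Matrix.toLinearMap₂'_apply' S x y

theorem bf_alt {S : Matrix (Fin d) (Fin d) ℂ} (hS : Sᵀ = -S) (x : Fin d → ℂ) :
    bf S x x = 0 := by
  have h1 : bf S x x = - bf S x x := by
    conv_lhs => rw [bf_apply, Matrix.dotProduct_mulVec, ← Matrix.mulVec_transpose, hS,
      Matrix.neg_mulVec, neg_dotProduct, dotProduct_comm]
    rw [bf_apply]
  linear_combination (1 / 2 : ℂ) * h1

theorem bf_surj {S : Matrix (Fin d) (Fin d) ℂ} (hd : S.det ≠ 0) (f : (Fin d → ℂ) →ₗ[ℂ] ℂ) :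
    ∃ y, ∀ x, bf S x y = f x := by
  have hu : IsUnit S.det := isUnit_iff_ne_zero.2 hd
  refine ⟨S⁻¹ *ᵥ (fun a => f (Pi.single a 1)), fun x => ?_⟩
  rw [bf_apply, Matrix.mulVec_mulVec, Matrix.mul_nonsing_inv _ hu, Matrix.one_mulVec]
  have h1 : x = ∑ a, x a • (Pi.single a (1 : ℂ) : Fin d → ℂ) := by
    funext c
    simp [Finset.sum_apply, Pi.single_apply]
  conv_rhs => rw [h1, map_sum]
  simp [dotProduct]

/-- symplectic basis -/
theorem exists_bas {S : Matrix (Fin d) (Fin d) ℂ} (hS : Sᵀ = -S) (hd : S.det ≠ 0) :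
    ∃ (N : ℕ) (v : Module.Basis (Fin N ⊕ Fin N) ℂ (Fin d → ℂ)), N + N = d ∧
      ∀ i j, bf S (v i) (v j) = Matrix.fromBlocks (0 : Matrix (Fin N) (Fin N) ℂ) 1 (-1) 0 i j := by
  obtain ⟨N, p, q, h, hx⟩ := exists_sympl (bf S) (bf_alt hS) (bf_surj hd)
  have hli := h.linInd (bf_alt hS)
  have hsp : ⊤ ≤ Submodule.span ℂ (Set.range (Sum.elim p q)) := by
    intro x _
    rw [hx x]
    refine Submodule.sum_mem _ fun i _ => Submodule.sub_mem _ ?_ ?_
    · exact Submodule.smul_mem _ _ (Submodule.subset_span ⟨Sum.inl i, rfl⟩)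
    · exact Submodule.smul_mem _ _ (Submodule.subset_span ⟨Sum.inr i, rfl⟩)
  refine ⟨N, Module.Basis.mk hli hsp, ?_, ?_⟩
  · have := Module.finrank_eq_card_basis (Module.Basis.mk hli hsp)
    rw [Module.finrank_fin_fun] at this
    simpa using this.symm
  · intro i j
    rw [Module.Basis.mk_apply, Module.Basis.mk_apply]
    rcases i with i | i <;> rcases j with j | j
    · simpa using h.pp i j
    · simpa [Matrix.one_apply] using h.pq i j
    · have := h.qp (bf_alt hS) i j
      simp only [Sum.elim_inr, Sum.elim_inl, this, Matrix.fromBlocks_apply₂₁, Matrix.neg_apply,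
        Matrix.one_apply]
      split_ifs <;> simp
    · simpa using h.qq i j

theorem bf_mul (S T : Matrix (Fin d) (Fin d) ℂ) (x y : Fin d → ℂ) :
    bf S (T *ᵥ x) (T *ᵥ y) = bf (Tᵀ * S * T) x y := by
  rw [bf_apply, bf_apply, ← Matrix.vecMul_transpose, ← Matrix.dotProduct_mulVec,
    Matrix.mulVec_mulVec, Matrix.mulVec_mulVec, Matrix.mul_assoc]

theorem bf_single (S : Matrix (Fin d) (Fin d) ℂ) (a b : Fin d) :
    bf S (Pi.single a 1) (Pi.single b 1) = S a b := by
  rw [bf_apply]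
  simp

theorem bf_inj {S S' : Matrix (Fin d) (Fin d) ℂ} (h : ∀ x y, bf S x y = bf S' x y) : S = S' := by
  ext a b
  rw [← bf_single S, h, bf_single]

/-- two invertible antisymmetric matrices are congruent -/
theorem exists_T {S S' : Matrix (Fin d) (Fin d) ℂ} (hS : Sᵀ = -S) (hd : S.det ≠ 0)
    (hS' : S'ᵀ = -S') (hd' : S'.det ≠ 0) :
    ∃ T : Matrix (Fin d) (Fin d) ℂ, S = Tᵀ * S' * T := by
  obtain ⟨N, v, hN, hv⟩ := exists_bas hS hd
  obtain ⟨N', v', hN', hv'⟩ := exists_bas hS' hd'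
  obtain rfl : N = N' := by omega
  set T : (Fin d → ℂ) →ₗ[ℂ] (Fin d → ℂ) := (v.equiv v' (Equiv.refl _)).toLinearMap with hT
  have hTv : ∀ i, T (v i) = v' i := fun i => by
    rw [hT]
    simp
  have h1 : bf S = (bf S').compl₁₂ T T := by
    refine v.ext fun i => v.ext fun j => ?_
    rw [LinearMap.compl₁₂_apply, hTv, hTv, hv, hv']
  refine ⟨LinearMap.toMatrix' T, bf_inj fun x y => ?_⟩
  rw [← bf_mul, h1, LinearMap.compl₁₂_apply, LinearMap.toMatrix'_mulVec,
    LinearMap.toMatrix'_mulVec]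

/-! ### the real form -/

/-- `Re σ`, `σ u v = ∑ s_ab u_a v_b` -/
def reM (S : Matrix (Fin d) (Fin d) ℂ) : Bil (Cn d) := bM (cL.comp (mL Sᵀ))

theorem reM_apply (S : Matrix (Fin d) (Fin d) ℂ) (u v : Cn d) : reM S u v = (sb S u v).re :=
  bM_cL S u v

theorem sb_eq (S : Matrix (Fin d) (Fin d) ℂ) (u v : Cn d) : sb S u v = bf S u.ofLp v.ofLp := by
  rw [bf_apply]
  simp only [sb, dotProduct, Matrix.mulVec, Finset.mul_sum]
  exact Finset.sum_congr rfl fun a _ => Finset.sum_congr rfl fun b _ => by ring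

theorem reM_mL (S T : Matrix (Fin d) (Fin d) ℂ) (u v : Cn d) :
    reM (Tᵀ * S * T) u v = reM S (mL T u) (mL T v) := by
  rw [reM_apply, reM_apply, sb_eq, sb_eq, mL_eq, mL_eq, bf_mul]

variable {K : Type*} [Fintype K] [DecidableEq K]

theorem TP_reM_mul (b : Module.Basis (K × Fin 2) ℝ (Cn d)) (S T : Matrix (Fin d) (Fin d) ℂ) :
    TP b (fun _ => reM (Tᵀ * S * T)) = ‖T.det‖ ^ 2 * TP b (fun _ => reM S) := by
  rw [TP_comp' b (mL T) (w' := fun _ => reM S) (fun _ u v => reM_mL S T u v), det_mL]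

/-- **the top power of `Re σ` is a constant multiple of `‖det S‖`** -/
theorem TP_reM (b : Module.Basis (K × Fin 2) ℝ (Cn d)) {S S' : Matrix (Fin d) (Fin d) ℂ}
    (hS : Sᵀ = -S) (hd : S.det ≠ 0) (hS' : S'ᵀ = -S') (hd' : S'.det ≠ 0) :
    TP b (fun _ => reM S) * ‖S'.det‖ = TP b (fun _ => reM S') * ‖S.det‖ := by
  obtain ⟨T, rfl⟩ := exists_T hS hd hS' hd'
  rw [TP_reM_mul, Matrix.det_mul, Matrix.det_mul, Matrix.det_transpose, norm_mul, norm_mul]
  ring




end

end Crest.Agent.R281.Ma_69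
end

-- ▼ part R281/Pfa1_69
section

/-!
# Row 281, OM-PF, part 1 (helper69): the Pfaffian

* `pfv B v`   : `∑_σ sgn σ ∏ k, B (v (σ (k,0))) (v (σ (k,1)))`; `pfv_comp`: naturality
* `pf0 e S`   : the same for a matrix, `e : K × Fin 2 ≃ Fin d`; `pf0_mul`, `pf0_J`
* `pf e S`    : the Pfaffian, `pf_mul : pf (Tᵀ S T) = det T * pf S`, `pf_sq : pf S ^ 2 = det S`
                for antisymmetric invertible `S`
-/

set_option autoImplicit false
set_option linter.unusedSectionVars false

open Complex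
open scoped Matrix ComplexConjugate

namespace Crest.Agent.R281.Pfa_69

open Crest.Agent.R281.Ma_69 Equiv

noncomputable section

section alt

variable {V : Type*} [AddCommGroup V] [Module ℂ V] {K : Type*} [Fintype K] [DecidableEq K]

/-- one factor of the product -/
theorem upd_fst {α : Type*} {D : DecidableEq (K × Fin 2)} (v : K × Fin 2 → α) {k0 k : K}
    (hk : k ≠ k0) (e f : Fin 2) (z : α) : @Function.update _ _ D v (k0, e) z (k, f) = v (k, f) := by
  rw [Function.update_of_ne (by intro h; exact hk (congrArg Prod.fst h))]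

/-- `v ↦ ∏ k, B (v (k,0)) (v (k,1))` -/
def mlt (B : V →ₗ[ℂ] V →ₗ[ℂ] ℂ) : MultilinearMap ℂ (fun _ : K × Fin 2 => V) ℂ where
  toFun v := ∏ k, B (v (k, 0)) (v (k, 1))
  map_update_add' := by
    intro D v p x y
    obtain ⟨k0, e⟩ := p
    have h : ∀ z : V, ∏ k,
        B (Function.update v (k0, e) z (k, 0)) (Function.update v (k0, e) z (k, 1)) =
        (B (Function.update v (k0, e) z (k0, 0)) (Function.update v (k0, e) z (k0, 1))) *
        ∏ k ∈ Finset.univ.erase k0, B (v (k, 0)) (v (k, 1)) := by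
      intro z
      rw [← Finset.mul_prod_erase _ _ (Finset.mem_univ k0)]
      congr 1
      refine Finset.prod_congr rfl fun k hk => ?_
      rw [upd_fst v (Finset.ne_of_mem_erase hk), upd_fst v (Finset.ne_of_mem_erase hk)]
    rw [h, h, h, ← add_mul]
    congr 1
    fin_cases e <;> simp
  map_update_smul' := by
    intro D v p c x
    obtain ⟨k0, e⟩ := p
    have h : ∀ z : V, ∏ k,
        B (Function.update v (k0, e) z (k, 0)) (Function.update v (k0, e) z (k, 1)) =
        (B (Function.update v (k0, e) z (k0, 0)) (Function.update v (k0, e) z (k0, 1))) *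
        ∏ k ∈ Finset.univ.erase k0, B (v (k, 0)) (v (k, 1)) := by
      intro z
      rw [← Finset.mul_prod_erase _ _ (Finset.mem_univ k0)]
      congr 1
      refine Finset.prod_congr rfl fun k hk => ?_
      rw [upd_fst v (Finset.ne_of_mem_erase hk), upd_fst v (Finset.ne_of_mem_erase hk)]
    rw [h, h, smul_eq_mul, ← mul_assoc]
    congr 1
    fin_cases e <;> simp

@[simp] theorem mlt_apply (B : V →ₗ[ℂ] V →ₗ[ℂ] ℂ) (v : K × Fin 2 → V) :
    mlt B v = ∏ k, B (v (k, 0)) (v (k, 1)) := rfl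

/-- the alternating form -/
def wed (B : V →ₗ[ℂ] V →ₗ[ℂ] ℂ) : V [⋀^(K × Fin 2)]→ₗ[ℂ] ℂ :=
  MultilinearMap.alternatization (mlt B)

/-- its value -/
def pfv (v : K × Fin 2 → V) (B : V →ₗ[ℂ] V →ₗ[ℂ] ℂ) : ℂ :=
  ∑ σ : Perm (K × Fin 2), ((Perm.sign σ : ℤ) : ℂ) * ∏ k, B (v (σ (k, 0))) (v (σ (k, 1)))

theorem wed_apply (B : V →ₗ[ℂ] V →ₗ[ℂ] ℂ) (v : K × Fin 2 → V) : wed B v = pfv v B := by
  unfold wed pfv
  rw [MultilinearMap.alternatization_apply]
  refine Finset.sum_congr rfl fun σ _ => ?_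
  rw [MultilinearMap.domDomCongr_apply, mlt_apply, Units.smul_def, zsmul_eq_mul]

/-- **naturality** -/
theorem pfv_comp (b : Module.Basis (K × Fin 2) ℂ V) (T : V →ₗ[ℂ] V)
    {B B' : V →ₗ[ℂ] V →ₗ[ℂ] ℂ} (h : ∀ u v, B' u v = B (T u) (T v)) :
    pfv b B' = LinearMap.det T * pfv b B := by
  have h1 : pfv b B' = wed B (T ∘ b) := by
    rw [wed_apply]
    unfold pfv
    simp only [h]
    rfl
  have h2 := AlternatingMap.eq_smul_basis_det b (wed B)
  rw [h1, ← wed_apply B b]
  have h3 : wed B (T ∘ b) = wed B b * b.det (T ∘ b) := by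
    conv_lhs => rw [h2]
    rfl
  have h4 := Module.Basis.det_comp b T b
  rw [b.det_self, mul_one] at h4
  rw [h3]
  have h5 : b.det (T ∘ b) = LinearMap.det T := h4
  rw [h5, mul_comm]

end alt

/-! ### the standard form -/

section std

variable {K : Type*} [Fintype K] [DecidableEq K]

/-- the standard antisymmetric matrix on `K × Fin 2` -/
def jj (p q : K × Fin 2) : ℂ :=
  if p.1 = q.1 then (if p.2 = 0 ∧ q.2 = 1 then 1 else if p.2 = 1 ∧ q.2 = 0 then -1 else 0) else 0

theorem jj_perm (k : K) (f : Perm (Fin 2)) : jj (k, f 0) (k, f 1) = ((Perm.sign f : ℤ) : ℂ) := by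
  have h : f = 1 ∨ f = swap 0 1 := by
    revert f
    decide
  rcases h with rfl | rfl
  · simp [jj]
  · simp [jj]

theorem jj_term (σ : Perm (K × Fin 2)) :
    ((Perm.sign σ : ℤ) : ℂ) * ∏ k, jj (σ (k, 0)) (σ (k, 1)) =
      if ∀ k, (σ (k, 0)).1 = (σ (k, 1)).1 then 1 else 0 := by
  by_cases hg : ∀ k, (σ (k, 0)).1 = (σ (k, 1)).1
  · rw [if_pos hg]
    have h2 : ∀ k (j : Fin 2), (σ (k, j)).1 = (σ (k, 0)).1 := by
      intro k j
      fin_cases j
      · rfl
      · exact (hg k).symm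
    have hinj : Function.Injective fun k => (σ (k, 0)).1 := by
      intro k l hkl
      by_contra hne
      have h3 : ∀ (i j : Fin 2), (σ (k, i)).2 ≠ (σ (l, j)).2 := by
        intro i j h4
        have h5 : σ (k, i) = σ (l, j) := Prod.ext ((h2 k i).trans (hkl.trans (h2 l j).symm)) h4
        exact hne (congrArg Prod.fst (σ.injective h5))
      have h6 : (σ (k, 0)).2 ≠ (σ (k, 1)).2 := by
        intro h4
        have h5 : σ (k, 0) = σ (k, 1) := Prod.ext (hg k) h4
        have := congrArg Prod.snd (σ.injective h5)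
        simp at this
      have h7 := h3 0 0
      have h8 := h3 1 0
      omega
    set τ : Perm K := Equiv.ofBijective _ (Finite.injective_iff_bijective.1 hinj) with hτ
    have hτk : ∀ k, τ k = (σ (k, 0)).1 := fun k => rfl
    have hinj2 : ∀ k, Function.Injective fun j => (σ (k, j)).2 := by
      intro k i j hij
      have h5 : σ (k, i) = σ (k, j) := Prod.ext ((h2 k i).trans (h2 k j).symm) hij
      exact congrArg Prod.snd (σ.injective h5)
    set f : K → Perm (Fin 2) := fun k =>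
      Equiv.ofBijective _ (Finite.injective_iff_bijective.1 (hinj2 k)) with hf
    have hfk : ∀ k j, f k j = (σ (k, j)).2 := fun k j => rfl
    have hσ : σ = (Equiv.prodCongrLeft fun _ => τ) * (Equiv.prodCongrRight f) := by
      ext1 ⟨k, j⟩
      rw [Perm.mul_apply, Equiv.prodCongrRight_apply, Equiv.prodCongrLeft_apply]
      exact Prod.ext (by rw [hτk]; exact h2 k j) (hfk k j).symm
    have hsg : ((Perm.sign σ : ℤ) : ℂ) = ∏ k, ((Perm.sign (f k) : ℤ) : ℂ) := by
      rw [hσ, Perm.sign_mul, Perm.sign_prodCongrLeft, Perm.sign_prodCongrRight]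
      simp
    have hpr : ∏ k, jj (σ (k, 0)) (σ (k, 1)) = ∏ k, ((Perm.sign (f k) : ℤ) : ℂ) := by
      refine Finset.prod_congr rfl fun k _ => ?_
      have e0 : σ (k, 0) = (τ k, f k 0) := Prod.ext rfl rfl
      have e1 : σ (k, 1) = (τ k, f k 1) := Prod.ext ((h2 k 1).trans rfl) rfl
      rw [e0, e1, jj_perm]
    rw [hsg, hpr, ← Finset.prod_mul_distrib]
    refine Finset.prod_eq_one fun k _ => ?_
    rcases Int.units_eq_one_or (Perm.sign (f k)) with h | h <;> simp [h]
  · rw [if_neg hg]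
    push Not at hg
    obtain ⟨k, hk⟩ := hg
    rw [Finset.prod_eq_zero (Finset.mem_univ k), mul_zero]
    rw [jj, if_neg hk]

/-- the Pfaffian of the standard matrix is not zero -/
theorem jj_sum : ∑ σ : Perm (K × Fin 2), ((Perm.sign σ : ℤ) : ℂ) *
    ∏ k, jj (σ (k, 0)) (σ (k, 1)) ≠ 0 := by
  simp only [jj_term]
  rw [Finset.sum_boole, Nat.cast_ne_zero]
  refine Finset.card_ne_zero.2 ⟨1, ?_⟩
  simp

end std

/-! ### matrices -/

section mat

variable {K : Type*} [Fintype K] [DecidableEq K] {d : ℕ} (e : K × Fin 2 ≃ Fin d)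

/-- the Pfaffian without normalising factor -/
def pf0 (S : Matrix (Fin d) (Fin d) ℂ) : ℂ :=
  ∑ σ : Perm (K × Fin 2), ((Perm.sign σ : ℤ) : ℂ) * ∏ k, S (e (σ (k, 0))) (e (σ (k, 1)))

theorem pf0_eq (S : Matrix (Fin d) (Fin d) ℂ) :
    pf0 e S = pfv ((Pi.basisFun ℂ (Fin d)).reindex e.symm) (bf S) := by
  unfold pf0 pfv
  refine Finset.sum_congr rfl fun σ _ => ?_
  congr 1
  refine Finset.prod_congr rfl fun k _ => ?_
  rw [Module.Basis.reindex_apply, Module.Basis.reindex_apply, Equiv.symm_symm,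
    Pi.basisFun_apply, Pi.basisFun_apply, bf_single]

theorem pf0_mul (S T : Matrix (Fin d) (Fin d) ℂ) : pf0 e (Tᵀ * S * T) = T.det * pf0 e S := by
  rw [pf0_eq, pf0_eq, pfv_comp _ (Matrix.toLin' T) (B := bf S) (fun u v => ?_),
    LinearMap.det_toLin']
  rw [Matrix.toLin'_apply, Matrix.toLin'_apply, bf_mul]

/-- the standard antisymmetric matrix -/
def J0 : Matrix (Fin d) (Fin d) ℂ := Matrix.of fun a b => jj (e.symm a) (e.symm b)

theorem pf0_J0 : pf0 e (J0 e) ≠ 0 := by
  have h := jj_sum (K := K)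
  unfold pf0 J0
  simpa using h

theorem jj_swap (p q : K × Fin 2) : jj q p = -jj p q := by
  obtain ⟨k, i⟩ := p
  obtain ⟨l, j⟩ := q
  unfold jj
  by_cases h : k = l
  · subst h
    fin_cases i <;> fin_cases j <;> simp
  · rw [if_neg h, if_neg fun h' => h h'.symm, neg_zero]

theorem J0_skew : (J0 e)ᵀ = -J0 e := by
  ext a b
  exact jj_swap _ _

theorem J0_det : (J0 e).det = 1 := by
  have h1 : J0 e = (Matrix.of (jj : K × Fin 2 → K × Fin 2 → ℂ)).submatrix e.symm e.symm := rfl
  rw [h1, Matrix.det_submatrix_equiv_self]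
  have h2 : (Matrix.of (jj : K × Fin 2 → K × Fin 2 → ℂ)) =
      (Matrix.blockDiagonal fun _ : K => (!![0, 1; -1, 0] : Matrix (Fin 2) (Fin 2) ℂ)).submatrix
        (Equiv.prodComm K (Fin 2)) (Equiv.prodComm K (Fin 2)) := by
    ext ⟨k, i⟩ ⟨l, j⟩
    simp only [Matrix.of_apply, Matrix.submatrix_apply, Equiv.prodComm_apply, Prod.swap_prod_mk,
      Matrix.blockDiagonal_apply, jj]
    by_cases h : k = l
    · subst h
      fin_cases i <;> fin_cases j <;> simp
    · simp [h]
  rw [h2, Matrix.det_submatrix_equiv_self, Matrix.det_blockDiagonal]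
  simp

/-- **the Pfaffian** -/
def pf (S : Matrix (Fin d) (Fin d) ℂ) : ℂ := (pf0 e (J0 e))⁻¹ * pf0 e S

theorem pf_mul (S T : Matrix (Fin d) (Fin d) ℂ) : pf e (Tᵀ * S * T) = T.det * pf e S := by
  unfold pf
  rw [pf0_mul]
  ring

theorem pf_J0 : pf e (J0 e) = 1 := inv_mul_cancel₀ (pf0_J0 e)

theorem pf_sq {S : Matrix (Fin d) (Fin d) ℂ} (hS : Sᵀ = -S) (hd : S.det ≠ 0) :
    pf e S ^ 2 = S.det := by
  obtain ⟨T, hT⟩ := exists_T hS hd (J0_skew e) (by rw [J0_det]; exact one_ne_zero)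
  rw [hT, pf_mul, pf_J0, Matrix.det_mul, Matrix.det_mul, Matrix.det_transpose, J0_det]
  ring

end mat

/-- **existence of the Pfaffian** in every dimension which carries symplectic forms -/
theorem exists_e {d : ℕ} {S : Matrix (Fin d) (Fin d) ℂ} (hS : Sᵀ = -S) (hd : S.det ≠ 0) :
    ∃ N : ℕ, Nonempty (Fin N × Fin 2 ≃ Fin d) := by
  obtain ⟨N, -, hN, -⟩ := exists_bas hS hd
  refine ⟨N, ⟨finProdFinEquiv.trans (finCongr (by omega))⟩⟩

end

end Crest.Agent.R281.Pfa_69
end

-- ▼ part R281/Ma2_69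
section

/-!
# Row 281, MASS (D18), part 2 (helper69): the constant

* `TP_reM_bc` : `TP (bc n) (Re σ, …, Re σ) = 2^n n! ‖det S‖`
-/

set_option autoImplicit false
set_option linter.unusedSectionVars false

open Set Filter Topology Complex MeasureTheory
open scoped ContDiff Matrix ComplexConjugate InnerProductSpace ENNReal ComplexOrder

namespace Crest.Agent.R281.Ma_69

open Crest.Agent.R275.Geo Crest.Agent.R275.Core144 Crest.Agent.R275.EDR890
open Crest.Agent.R273.Defs_333 Crest.Agent.R273.Hess_333 Crest.Agent.R273.HessB_333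
open Crest.Agent.R273.HM_333 Crest.Agent.R273.Kah_333 Crest.Agent.R273.Vol_333
open Crest.Agent.R273.Vm_333 Crest.Agent.R275.Pai323 Crest.Agent.R275.C1d194
open Crest.Agent.R281.HkR_835 Crest.Agent.R281.Ti_846 Crest.Agent.R281.HkP2_508
open Crest.Agent.R281.Defs_273 (H2 HSymp)
open Crest.Agent.R281.HKA_799 (Trip)

noncomputable section

variable {n : ℕ}

/-! ### the standard quaternionic triple of an antisymmetric unitary matrix -/

theorem gI (G : Matrix (Fin n) (Fin n) ℂ) (hG : G.IsHermitian) (u v : Cn n) :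
    bM (mL Gᵀ) (I • u) (I • v) = bM (mL Gᵀ) u v := by
  rw [bM_mL G hG, bM_mL G hG, hb_I_left, hb_I_right]
  have : I * (-I * hb G u v) = hb G u v := by
    linear_combination (-(hb G u v)) * I_mul_I
  rw [this]

/-- the quaternionic triple of `(G, S)` -/
def tri {G S : Matrix (Fin n) (Fin n) ℂ} (hG : G.PosDef) (hS : Sᵀ = -S)
    (h : S * (Gᵀ)⁻¹ * Sᴴ = G) : Trip (Cn n) where
  g := bM (mL Gᵀ)
  J := ![iL, J1 G S, iL.comp (J1 G S)]
  symm u v := by
    rw [bM_mL G hG.isHermitian, bM_mL G hG.isHermitian, ← hb_conj hG.isHermitian, Complex.conj_re]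
  sq0 u := by
    show I • I • u = -u
    rw [smul_smul, I_mul_I, neg_one_smul]
  sq1 u := J1_sq hG hS h u
  m01 u := rfl
  m10 u := J1_I G S u
  inv k u v := by
    have hs : ∀ u v, bM (mL Gᵀ) u v = bM (mL Gᵀ) v u := fun u v => by
      rw [bM_mL G hG.isHermitian, bM_mL G hG.isHermitian, ← hb_conj hG.isHermitian,
        Complex.conj_re]
    have h1 : bM (mL Gᵀ) (J1 G S u) (J1 G S v) = bM (mL Gᵀ) u v := by
      rw [bM_J1 hG, sb_alt hS, Complex.neg_re, ← bM_J1 hG, J1_sq hG hS h, map_neg,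
        neg_apply, neg_neg, hs]
    fin_cases k
    · exact gI G hG.isHermitian u v
    · exact h1
    · exact (gI G hG.isHermitian _ _).trans h1

theorem tri_om1 {G S : Matrix (Fin n) (Fin n) ℂ} (hG : G.PosDef) (hS : Sᵀ = -S)
    (h : S * (Gᵀ)⁻¹ * Sᴴ = G) : (tri hG hS h).omv ![0, 1, 0] = reM S := by
  ext u v
  rw [Trip.omv_apply, reM_apply]
  simp only [Matrix.cons_val_zero, Matrix.cons_val_one, Matrix.cons_val, zero_mul, one_mul,
    zero_add, add_zero]
  exact bM_J1 hG u v

theorem tri_om0 {G S : Matrix (Fin n) (Fin n) ℂ} (hG : G.PosDef) (hS : Sᵀ = -S)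
    (h : S * (Gᵀ)⁻¹ * Sᴴ = G) (u v : Cn n) : (tri hG hS h).om 0 u v = (I * hb G u v).re := by
  show bM (mL Gᵀ) (I • u) v = _
  rw [bM_mL G hG.isHermitian, hb_I_left]

theorem TP_std {G S : Matrix (Fin n) (Fin n) ℂ} (hG : G.PosDef) (hS : Sᵀ = -S)
    (h : S * (Gᵀ)⁻¹ * Sᴴ = G) :
    ((TP (bc n) (fun _ => reM S) : ℝ) : ℂ) = 2 ^ n * (n.factorial * G.det) := by
  have hfin : Module.finrank ℝ (Cn n) = 2 * n := by
    rw [Module.finrank_eq_card_basis (bc n)]
    simp [mul_comm]
  have h1 := (tri hG hS h).rot hfin (I := fun w : Fin n → HKA_799.Bil (Cn n) => TP (bc n) w)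
    (fun T _ _ h => TP_comp' (bc n) T h) ![0, 1, 0]
  simp only [tri_om1, Matrix.cons_val_zero, Matrix.cons_val_one, Matrix.cons_val] at h1
  norm_num at h1
  rw [h1, TP_herm (G := fun _ => G) (fun _ => hG.isHermitian) fun _ u v => tri_om0 hG hS h u v,
    MD_same]

/-! ### the constant -/

/-- the standard antisymmetric matrix -/
theorem exists_S0 {S : Matrix (Fin n) (Fin n) ℂ} (hS : Sᵀ = -S) (hd : S.det ≠ 0) :
    ∃ S0 : Matrix (Fin n) (Fin n) ℂ, S0ᵀ = -S0 ∧ S0 * S0ᴴ = 1 := by
  obtain ⟨N, v, hN, -⟩ := exists_bas hS hd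
  subst hN
  set J : Matrix (Fin N ⊕ Fin N) (Fin N ⊕ Fin N) ℂ := Matrix.fromBlocks 0 1 (-1) 0 with hJ
  have h1 : Jᵀ = -J := by
    rw [hJ, Matrix.fromBlocks_transpose, Matrix.fromBlocks_neg]
    simp
  have h2 : J * Jᴴ = 1 := by
    rw [hJ, Matrix.fromBlocks_conjTranspose, Matrix.fromBlocks_multiply]
    simp
  refine ⟨J.submatrix finSumFinEquiv.symm finSumFinEquiv.symm, ?_, ?_⟩
  · rw [Matrix.transpose_submatrix, h1]
    rfl
  · rw [Matrix.conjTranspose_submatrix, Matrix.submatrix_mul_equiv, h2]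
    simp

/-- **the top power of `Re σ`** -/
theorem TP_reM_bc {S : Matrix (Fin n) (Fin n) ℂ} (hS : Sᵀ = -S) (hd : S.det ≠ 0) :
    TP (bc n) (fun _ => reM S) = 2 ^ n * n.factorial * ‖S.det‖ := by
  obtain ⟨S0, h0, h1⟩ := exists_S0 hS hd
  have h2 : ‖S0.det‖ = 1 := by
    have h3 := congrArg (fun P => ‖Matrix.det P‖) h1
    simp only [Matrix.det_mul, Matrix.det_conjTranspose, norm_mul, norm_star, Matrix.det_one,
      norm_one] at h3
    nlinarith [norm_nonneg S0.det]
  have h4 : S0.det ≠ 0 := by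
    rw [← norm_pos_iff, h2]
    exact one_pos
  have h5 := TP_reM (bc n) hS hd h0 h4
  have h6 := TP_std (G := 1) (S := S0) Matrix.PosDef.one h0 (by simpa using h1)
  rw [Matrix.det_one, mul_one] at h6
  have h7 : TP (bc n) (fun _ => reM S0) = 2 ^ n * n.factorial := by exact_mod_cast h6
  rw [h2, mul_one, h7] at h5
  exact h5

end

end Crest.Agent.R281.Ma_69
end

-- ▼ part R281/Ma3_69
section

/-!
# Row 281, MASS (D18), part 3 (helper69): the mass of a holomorphic symplectic form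

* `TP_reindex`, `TP_chg` : change of the index type, of the basis
* `II_f2H`    : `∫_X (Re σ)^n = 2^n n! |σ|(X)`, `|σ| = vm (volS σ)` (density `‖det s‖` in the charts)
* `II_gen`    : any Haar measure, any basis: a constant `c ≠ 0` independent of the manifold
* `mass_f2`   : `|σ|(X)` from the class of `Re σ` in a fixed system of real charts
* `mass_sig`  : class `z * sig N τ` in `⟨e*, v, e⟩`: `|σ|(X) = κ (|z|² N y²)^ν / (2^n n!)`
-/

set_option autoImplicit false
set_option linter.unusedSectionVars false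
set_option maxSynthPendingDepth 3

open Set Filter Topology Complex MeasureTheory
open scoped ContDiff Matrix ComplexConjugate InnerProductSpace ENNReal ComplexOrder

namespace Crest.Agent.R281.Ma_69

open Crest.Agent.R275.Geo Crest.Agent.R275.Core144 Crest.Agent.R275.EDR890
open Crest.Agent.R273.Defs_333 Crest.Agent.R273.HM_333 Crest.Agent.R273.Kah_333
open Crest.Agent.R273.Vol_333 Crest.Agent.R273.Vm_333
open Crest.Agent.R281.HkR_835 Crest.Agent.R281.Ti_846 Crest.Agent.R281.HkP2_508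
open Crest.Agent.R281.Defs_273 (H2 HSymp)

noncomputable section

/-! ### index type and basis -/

section lin

variable {V : Type*} [NormedAddCommGroup V] [NormedSpace ℝ V]
variable {K K' : Type*} [Fintype K] [DecidableEq K] [Fintype K'] [DecidableEq K']



end lin

variable {n : ℕ}


variable {M : Type} [TopologicalSpace M] {A : Atl n M}

section glob

variable [CompactSpace M]

/-! ### Haar measures -/

variable (μ : Measure (Cn n)) [μ.IsAddHaarMeasure]

/-- the ratio of two Haar measures -/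
def kap : ℝ := (Measure.addHaarScalarFactor μ (lc n) : ℝ)



/-- **the mass of a holomorphic symplectic form** -/
theorem II_f2H [MeasurableSpace M] [BorelSpace M] [Countable A.ι] (σ : HSymp A)
    (hc : ClH σ.toH2) (P : RPart (ofAtl A)) :
    II (lc n) (bc n) P (fun _ => f2H σ.toH2 hc) =
      2 ^ n * n.factorial * (vm (volS σ)).real univ := by
  rw [II_vm (volS σ) P (fun _ => f2H σ.toH2 hc) (f := fun _ => 2 ^ n * n.factorial)]
  · rw [integral_const, smul_eq_mul, mul_comm]
  · intro i x hx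
    have h1 : TP (bc n) (fun _ : Fin n => (f2H σ.toH2 hc).w i (A.e i x)) =
        TP (bc n) (fun _ => reM (σ.s i x)) := TP_congr fun _ u v => by
      rw [f2H_w, reM_apply, sl, (A.e i).left_inv hx]
    rw [h1, TP_reM_bc (σ.alt i x hx) (σ.nd i x hx)]
    show _ = ‖(σ.s i x).det‖ * _
    ring

end glob


/-! ### fixed real charts -/

section fixed

variable [CompactSpace M] [MeasurableSpace M] [BorelSpace M] [Countable A.ι]

/-- **the mass from the class of `Re σ`** in a fixed system of real charts -/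
theorem mass_f2 (σ : HSymp A) (hc : ClH σ.toH2) {C : RCh (Cn n) M} (hC : Cmp C (ofAtl A))
    (ho : OriM C (ofAtl A)) (hoC : Ori C) (P : RPart C) (P' : RPart (ofAtl A)) {r r' : F2 C}
    (hr : ∀ i, ∀ z ∈ (A.e i).target, ∀ u v,
      (hC.F r).w i z u v = (sb (σ.s i ((A.e i).symm z)) u v).re) (hcoh : Coh r r') :
    2 ^ n * n.factorial * (vm (volS σ)).real univ = II (lc n) (bc n) P (fun _ => r') := by
  rw [← II_coh (lc n) hoC (bc n) P (fun _ => r) (fun _ => r') fun _ => hcoh, ← II_f2H σ hc P',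
    ← II_cmp (lc n) (bc n) hC ho P P' (fun _ => r)]
  refine (II_congr (lc n) (bc n) P' fun _ i z hz u v => ?_).symm
  exact (hr i z hz u v).trans (f2H_w σ.toH2 hc i z u v).symm

end fixed

/-! ### the period -/

open Crest.Agent.R281.W3c_698

/-- real part of an isotropic vector -/
theorem qb_re {N : ℝ} {Z : Fin 3 → ℂ} (h : qbC N Z Z = 0) :
    qb N (fun i => (Z i).re) (fun i => (Z i).re) =
      (1 / 2) * (qbC N Z (fun i => conj (Z i))).re := by
  have h1 := congrArg Complex.re h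
  simp only [qbC, Complex.add_re, Complex.mul_re, Complex.mul_im, Complex.ofReal_re,
    Complex.ofReal_im, Complex.conj_re, Complex.conj_im, Complex.zero_re, qb] at h1 ⊢
  linarith

theorem qb_re_sig {N : ℝ} (z τ : ℂ) :
    qb N (fun i => (z * sig N τ i).re) (fun i => (z * sig N τ i).re) =
      ‖z‖ ^ 2 * (N * τ.im ^ 2) := by
  have h0 : qbC N (fun i => z * sig N τ i) (fun i => z * sig N τ i) = 0 := by
    have := qbC_sig N τ
    simp only [qbC] at this ⊢
    linear_combination (z ^ 2) * this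
  rw [qb_re h0]
  have h1 : qbC N (fun i => z * sig N τ i) (fun i => conj (z * sig N τ i)) =
      ((‖z‖ ^ 2 : ℝ) : ℂ) * ((2 * N * τ.im ^ 2 : ℝ) : ℂ) := by
    have h2 := qbC_sig_conj N τ
    have h3 : ((‖z‖ ^ 2 : ℝ) : ℂ) = z * conj z := by
      rw [Complex.mul_conj, Complex.normSq_eq_norm_sq]
    rw [h3]
    simp only [qbC, map_mul] at h2 ⊢
    linear_combination (z * conj z) * h2
  rw [h1, Complex.re_ofReal_mul, Complex.ofReal_re]
  ring

/-- **(D18)**: `W : Fin 3 → F2 C` represents `e*, v, e`; the top power is `κ q^ν` on `⟨W⟩`; the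
class of `Re σ` is `Re (z sig τ)`: then `|σ|(X) = κ (|z|² N (Im τ)²)^ν / (2^n n!)` -/
theorem mass_sig [CompactSpace M] [MeasurableSpace M] [BorelSpace M] [Countable A.ι]
    (σ : HSymp A) (hc : ClH σ.toH2) {C : RCh (Cn n) M} (hC : Cmp C (ofAtl A))
    (ho : OriM C (ofAtl A)) (hoC : Ori C) (P : RPart C) (P' : RPart (ofAtl A)) {r : F2 C}
    (hr : ∀ i, ∀ z ∈ (A.e i).target, ∀ u v,
      (hC.F r).w i z u v = (sb (σ.s i ((A.e i).symm z)) u v).re)
    (W : Fin 3 → F2 C) {κ N : ℝ} {ν : ℕ}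
    (hQ : ∀ x : Fin 3 → ℝ, II (lc n) (bc n) P (fun _ => ∑ i, x i • W i) = κ * qb N x x ^ ν)
    (z τ : ℂ) (hcoh : Coh r (∑ i, (z * sig N τ i).re • W i)) :
    (vm (volS σ)).real univ = κ * (‖z‖ ^ 2 * (N * τ.im ^ 2)) ^ ν / (2 ^ n * n.factorial) := by
  have h1 := mass_f2 σ hc hC ho hoC P P' hr hcoh
  rw [hQ, qb_re_sig] at h1
  rw [← h1, mul_div_cancel_left₀]
  positivity




end

end Crest.Agent.R281.Ma_69
end

-- ▼ part R281/Pfa2_69

/-!
# Row 281, OM-PF + RAY-VOL, part 2 (helper69)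

* `exists_om σ` : a holomorphic `n`-form `om` (`IsHS (KB A) univ om`) with `om i x ^ 2 = det σ`,
                  hence `‖om i x‖ ^ 2 = ‖det σ‖`
* `exists_omK`  : HK pair (508): `‖om i x‖ ^ 2 = (K.g i x).det.re`; scaled metric `g' = L g`
* `vm_ratio`    : `w' = mu w` ==> `vm h' = mu • vm h`
* `vol_f2`      : `2^n n! vol(K)` is the top power of the class of the Kaehler form
* `ray`         : `vol(K)` and `mu = ‖det σ‖ / det g` from the classes
-/

set_option autoImplicit false
set_option linter.unusedSectionVars false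

open Set Filter Topology Complex MeasureTheory
open scoped ContDiff Matrix ComplexConjugate InnerProductSpace ENNReal ComplexOrder

namespace Crest.Agent.R281.Pfa_69

open Crest.Agent.R275.Geo Crest.Agent.R275.Core144 Crest.Agent.R275.EDR890
open Crest.Agent.R275.C1d194
open Crest.Agent.R273.Defs_333 Crest.Agent.R273.HM_333 Crest.Agent.R273.Kah_333
open Crest.Agent.R273.Vol_333 Crest.Agent.R273.Vm_333
open Crest.Agent.R281.HkR_835 Crest.Agent.R281.Ti_846 Crest.Agent.R281.HkP2_508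
open Crest.Agent.R281.Defs_273 (H2 HSymp)
open Crest.Agent.R281.Ma_69

noncomputable section

variable {n : ℕ} {M : Type} [TopologicalSpace M] {A : Atl n M}

/-! ### the form `om` -/

theorem pf_hol {K : Type*} [Fintype K] [DecidableEq K] (e : K × Fin 2 ≃ Fin n) (σ : H2 A)
    (i : A.ι) : HolAt A i univ fun x => pf e (σ.s i x) := by
  unfold pf pf0
  refine HolAt.const_mul _ (HolAt.sum _ fun τ _ => HolAt.const_mul _ (HolAt.prod _ fun k _ => ?_))
  exact σ.hol i _ _

/-- **the holomorphic `n`-form of a holomorphic symplectic form** -/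
theorem exists_om (σ : HSymp A) : ∃ om : A.ι → M → ℂ, IsHS (KB A) univ om ∧
    ∀ i, ∀ x ∈ (A.e i).source, om i x ^ 2 = (σ.s i x).det := by
  classical
  by_cases hM : ∃ i, ∃ x, x ∈ (A.e i).source
  · obtain ⟨i0, x0, hx0⟩ := hM
    obtain ⟨N, ⟨e⟩⟩ := exists_e (σ.alt i0 x0 hx0) (σ.nd i0 x0 hx0)
    refine ⟨fun i x => if x ∈ (A.e i).source then pf e (σ.s i x) else 0, ⟨?_, ?_, ?_⟩, ?_⟩
    · intro i
      exact (pf_hol e σ.toH2 i).congr fun x hx _ => by rw [if_pos hx]
    · intro i x hx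
      exact if_neg hx
    · intro i j x hx _
      show (if x ∈ (A.e i).source then pf e (σ.s i x) else 0) =
        (KB A).g i j x * (if x ∈ (A.e j).source then pf e (σ.s j x) else 0)
      rw [if_pos hx.1, if_pos hx.2, KB_g hx, σ.tr i j x hx, pf_mul]
    · intro i x hx
      show (if x ∈ (A.e i).source then pf e (σ.s i x) else 0) ^ 2 = _
      rw [if_pos hx, pf_sq e (σ.alt i x hx) (σ.nd i x hx)]
  · push Not at hM
    refine ⟨fun _ _ => 0, ⟨fun i => holAt_const 0, fun i x _ => rfl, ?_⟩, ?_⟩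
    · intro i j x hx
      exact absurd hx.1 (hM i x)
    · intro i x hx
      exact absurd hx (hM i x)

/-- `‖om‖² = ‖det σ‖` -/
theorem exists_om_norm (σ : HSymp A) : ∃ om : A.ι → M → ℂ, IsHS (KB A) univ om ∧
    ∀ i, ∀ x ∈ (A.e i).source, ‖om i x‖ ^ 2 = ‖(σ.s i x).det‖ := by
  obtain ⟨om, h1, h2⟩ := exists_om σ
  refine ⟨om, h1, fun i x hx => ?_⟩
  rw [← norm_pow, h2 i x hx]

theorem isHS_smul {L : LB A} {s : A.ι → M → ℂ} (h : IsHS L univ s) (c : ℂ) :
    IsHS L univ (fun i x => c * s i x) where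
  hol i := (h.hol i).const_mul c
  off i x hx := by rw [h.off i x hx, mul_zero]
  tr i j x hx hU := by
    rw [h.tr i j x hx hU]
    ring

/-- **`omh`, `omn` of `SDat`**: `‖det σ‖ = mu det g`, `mu > 0`, and `G = L g` -/
theorem exists_omK (σ : HSymp A) (K : Kah A) {mu L : ℝ} (hmu : 0 < mu) (hL : 0 ≤ L)
    (h : ∀ i, ∀ x ∈ (A.e i).source, ‖(σ.s i x).det‖ = mu * (K.g i x).det.re)
    {K' : Kah A} (hK : ∀ i, ∀ x ∈ (A.e i).source, K'.g i x = (L : ℂ) • K.g i x) :
    ∃ om : A.ι → M → ℂ, IsHS (KB A) univ om ∧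
    ∀ i, ∀ x ∈ (A.e i).source, ‖om i x‖ ^ 2 = (K'.g i x).det.re := by
  obtain ⟨om, h1, h2⟩ := exists_om_norm σ
  set c : ℝ := Real.sqrt (mu⁻¹ * L ^ n) with hc
  have hc2 : c ^ 2 = mu⁻¹ * L ^ n := Real.sq_sqrt (by positivity)
  refine ⟨fun i x => (c : ℂ) * om i x, isHS_smul h1 _, fun i x hx => ?_⟩
  have h3 : ((K'.g i x).det).re = L ^ n * (K.g i x).det.re := by
    rw [hK i x hx, Matrix.det_smul, Fintype.card_fin, ← Complex.ofReal_pow, Complex.re_ofReal_mul]
  rw [norm_mul, mul_pow, h2 i x hx, h i x hx, h3, Complex.norm_real, Real.norm_eq_abs, sq_abs, hc2]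
  field_simp

/-! ### measures -/

section meas

variable [MeasurableSpace M] [BorelSpace M] [Countable A.ι]

/-- proportional volume forms -/
theorem vm_ratio {h h' : HM (KB A)⁻¹} {mu : ℝ} (hmu : 0 ≤ mu)
    (H : ∀ i, ∀ x ∈ (A.e i).source, h'.w i x = mu * h.w i x) :
    vm h' = ENNReal.ofReal mu • vm h := by
  symm
  refine ext_vm h' fun i => ?_
  rw [Measure.restrict_smul, vm_restrict]
  unfold chm
  rw [← Measure.map_smul, ← withDensity_smul' _ _ ENNReal.ofReal_ne_top]
  congr 1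
  refine withDensity_congr_ae ?_
  filter_upwards [ae_restrict_mem (Crest.Agent.R273.Vm_333.isOpen_Ui i).measurableSet] with y hy
  show ENNReal.ofReal mu * ENNReal.ofReal (h.w i (sg A i y)) = ENNReal.ofReal (h'.w i (sg A i y))
  rw [H i _ (sg_mem hy), ENNReal.ofReal_mul hmu]

theorem real_ratio {h h' : HM (KB A)⁻¹} {mu : ℝ} (hmu : 0 ≤ mu)
    (H : ∀ i, ∀ x ∈ (A.e i).source, h'.w i x = mu * h.w i x) :
    (vm h').real univ = mu * (vm h).real univ := by
  rw [vm_ratio hmu H, Measure.real, Measure.real, Measure.smul_apply, smul_eq_mul,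
    ENNReal.toReal_mul, ENNReal.toReal_ofReal hmu]

/-- the mass of `σ` and the volume of `K` -/
theorem mass_ratio (σ : HSymp A) (K : Kah A) {mu : ℝ} (hmu : 0 ≤ mu)
    (H : ∀ i, ∀ x ∈ (A.e i).source, ‖(σ.s i x).det‖ = mu * (K.g i x).det.re) :
    (vm (volS σ)).real univ = mu * (vm (volK K)).real univ :=
  real_ratio hmu fun i x hx => H i x hx

variable [CompactSpace M]

/-- **the volume from the class** in a fixed system of real charts -/
theorem vol_f2 (K : Kah A) {C : RCh (Cn n) M} (hC : Cmp C (ofAtl A)) (ho : OriM C (ofAtl A))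
    (hoC : Ori C) (P : RPart C) (P' : RPart (ofAtl A)) {a a' : F2 C}
    (ha : ∀ i, ∀ z ∈ (A.e i).target, ∀ u v, (hC.F a).w i z u v = (ofKah K).f2.w i z u v)
    (hcoh : Coh a a') :
    2 ^ n * n.factorial * (vm (volK K)).real univ = II (lc n) (bc n) P (fun _ => a') := by
  rw [← II_coh (lc n) hoC (bc n) P (fun _ => a) (fun _ => a') fun _ => hcoh, ← II_same K P',
    ← II_cmp (lc n) (bc n) hC ho P P' (fun _ => a)]
  exact (II_congr (lc n) (bc n) P' fun _ i z hz u v => ha i z hz u v).symm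

/-- **RAY-VOL**: a member with Kaehler class `a0` and period `z * sig N τ`; `mu = ‖det σ‖ / det g` -/
theorem ray (σ : HSymp A) (hc : ClH σ.toH2) (K : Kah A) {C : RCh (Cn n) M}
    (hC : Cmp C (ofAtl A)) (ho : OriM C (ofAtl A)) (hoC : Ori C) (P : RPart C)
    (P' : RPart (ofAtl A)) {r a : F2 C}
    (hr : ∀ i, ∀ z ∈ (A.e i).target, ∀ u v,
      (hC.F r).w i z u v = (sb (σ.s i ((A.e i).symm z)) u v).re)
    (ha : ∀ i, ∀ z ∈ (A.e i).target, ∀ u v, (hC.F a).w i z u v = (ofKah K).f2.w i z u v)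
    {a0 : F2 C} (hcoha : Coh a a0) (W : Fin 3 → F2 C) {κ N : ℝ} {ν : ℕ}
    (hQ : ∀ x : Fin 3 → ℝ, II (lc n) (bc n) P (fun _ => ∑ i, x i • W i) =
      κ * Crest.Agent.R281.W3c_698.qb N x x ^ ν)
    (z τ : ℂ) (hcoh : Coh r (∑ i, (z * Crest.Agent.R281.W3c_698.sig N τ i).re • W i))
    {mu : ℝ} (hmu : 0 ≤ mu)
    (H : ∀ i, ∀ x ∈ (A.e i).source, ‖(σ.s i x).det‖ = mu * (K.g i x).det.re) :
    (vm (volK K)).real univ = II (lc n) (bc n) P (fun _ => a0) / (2 ^ n * n.factorial) ∧
    mu * II (lc n) (bc n) P (fun _ => a0) = κ * (‖z‖ ^ 2 * (N * τ.im ^ 2)) ^ ν := by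
  have h1 := vol_f2 K hC ho hoC P P' ha hcoha
  have h2 := mass_sig σ hc hC ho hoC P P' hr W hQ z τ hcoh
  have h3 := mass_ratio σ K hmu H
  have h0 : (2 : ℝ) ^ n * n.factorial ≠ 0 := by positivity
  constructor
  · rw [← h1, mul_div_cancel_left₀ _ h0]
  · rw [h3, eq_div_iff h0] at h2
    rw [← h1, ← h2]
    ring

end meas

end

end Crest.Agent.R281.Pfa_69
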