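import Crest.Agent.R281.GT11_639
import Crest.Agent.R281.Esc1_989
import Crest.Agent.R281.As3_957
import Crest.Agent.R281.AlgDefs_998
import Mathlib
import Crest.Agent.R281.Pfa2_69
import Crest.Agent.R281.Md2_252
import Crest.Agent.R281.Md4_252
import Crest.Agent.R281.Alg1_867
import Crest.Agent.R281.Ins4_615

-- ▼ part R281/GT12_639
section

/-!
Row 281, glue DIV 2 -> DIV 3 -> DIV 4 (helper639).  Part 12: the field `mass` of `SDat`.
-/

set_option autoImplicit false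
set_option linter.unusedSectionVars false

open Polynomial Set Filter Topology Complex MeasureTheory
open scoped ContDiff Matrix ComplexConjugate Manifold ENNReal

noncomputable section

namespace Crest.Agent.R281.GT_639

open Crest.Agent.R275 Crest.Agent.R275.Geo Crest.Agent.R275.Core144 Crest.Agent.R275.EDR890
open Crest.Agent.R273.Defs_333 Crest.Agent.R273.Kah_333
open Crest.Agent.R273.SerA_945 (Fn)
open Crest.Agent.R273.SteinC_794 Crest.Agent.R273.Chow_313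
open Crest.Agent.R273.Vm_333 Crest.Agent.R273.Vol_333
open Crest.Agent.R273.FIb0_597 (ch mem_ch)
open Crest.Agent.R281.Defs_273 Crest.Agent.R281.AF_867 Crest.Agent.R281.Qr_770
open Crest.Agent.R281.HkP2_508 (volS)
open Crest.Agent.R281.SIn_14
open Crest.Agent.R281.TrPL_726 (Tr PL Tr.pos)
open Crest.Agent.R281.TrU_249 (Scale pt Bad TStmt trop_frac measurableSet_Bad)

variable {n r : ℕ} {R : Type*} [CommRing R] [IsDomain R] [CharZero R]
variable {M : Type} [TopologicalSpace M] [MeasurableSpace M] [BorelSpace M] [ConnectedSpace M]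

/-- a member with mass of size `e^{kL} L^n` -/
structure MbV (𝔭 : PrD n r R) (𝔰 : FmD r R) (e : R →+* ℂ) (A : Atl n M) [Countable A.ι]
    (O : LB A) (U : Fin r → Fn A) (σ : HSymp A) (k c1 C1 L : ℝ) : Prop where
  mb : IsMb 𝔭 𝔰 e A O U σ
  lo : ENNReal.ofReal (c1 * Real.exp (k * L) * L ^ n) ≤ vm (volS σ) univ
  hi : vm (volS σ) univ ≤ ENNReal.ofReal (C1 * Real.exp (k * L) * L ^ n)

section static

variable {A : Atl n M} [Countable A.ι] {O : LB A} {𝔭 : PrD n r R} {e : R →+* ℂ}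
  {U : Fin r → Fn A} {𝔰 : FmD r R} {σ : HSymp A} {G : (MvPolynomial (Fin n) R →+* ℂ) → ℝ}
  {q1 : MvPolynomial (Fin n) R} {B : ℝ} {f : Fin n → MvPolynomial (Fin n) R}

/-- a good point -/
theorem good_pt (hD : AlgD 𝔭 𝔰) (h : IsMb 𝔭 𝔰 e A O U σ) (hTr : Tr (MvPolynomial (Fin n) R) G)
    (hB : 0 < B) (hG : GProp 𝔭 𝔰 G q1 B) (𝔱 : STup 𝔭 f) (hf : ∀ i, ∀ j ∈ (f i).vars, i ≤ j)
    {K : Kah A} {ρ : ℝ} (hρ : 0 < ρ)
    (hK : ∀ i, ∀ x ∈ (A.e i).source, (K.g i x).det.re = ρ * ‖(σ.s i x).det‖)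
    {k C2 lam : ℝ} (hC2 : 0 < C2) {x : M} (hW : x ∈ Mbr.W 𝔭 e U (𝔭.gp 𝔰))
    (h1 : yM 𝔭 e U x ∉ Bad e lam G f k C2) (h2 : ph e (yM 𝔭 e U x) (q1 * ∏ i, f i) ≠ 0) :
    NZ (𝔱.sS e U) x ∧ (∀ j, |Real.log ‖quo (𝔱.sS e U) x j‖| ≤ C2 * lam) ∧
      (ρ * B * C2 * Real.exp (k * lam))⁻¹ ≤ Jsq K (𝔱.sS e U) x := by
  set y := yM 𝔭 e U x with hy
  set z := zM 𝔭 e U x with hz
  rw [map_mul, map_prod, mul_ne_zero_iff, Finset.prod_ne_zero_iff] at h2
  have hfy : ∀ j, ph e y (f j) ≠ 0 := fun j => h2.2 j (Finset.mem_univ j)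
  have hN : NZ (𝔱.sS e U) x := (h.mb.nz_sS 𝔱).2 ⟨hW.1, hfy⟩
  simp only [Bad, mem_ofPred_eq, not_or, not_lt, not_exists] at h1
  obtain ⟨h3, h4⟩ := h1
  refine ⟨hN, fun j => ?_, ?_⟩
  · rw [h.mb.quo_eq 𝔱 hW.1 j]
    exact h4 j
  · have hroot : (𝔭.F.map (ph e y)).eval z = 0 := h.mb.eqF x hW.1
    have hb := ((hG _ h2.1).1 z hroot).2
    have hGp : 0 < G (ph e y) := hTr.pos _
    have hdS : 0 < dS 𝔭 𝔰 e y z := norm_pos_iff.2 (gS_ne hD h hW)
    have hb' : dS 𝔭 𝔰 e y z ≤ B * G (ph e y) := hb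
    rw [h.mb.jsq_eq hD.sg h.fm 𝔱 hf hK hW hfy]
    set Pr := ∏ i, ‖ph e y (MvPolynomial.pderiv i (f i)) / ph e y (f i)‖ ^ 2 with hPr
    have h3' : G (ph e y) ≤ C2 * Real.exp (k * lam) * Pr := h3
    have hE : 0 < Real.exp (k * lam) := Real.exp_pos _
    rw [inv_eq_one_div, div_le_div_iff₀ (by positivity) (by positivity), one_mul]
    calc ρ * dS 𝔭 𝔰 e y z ≤ ρ * (B * G (ph e y)) := by gcongr
      _ ≤ ρ * (B * (C2 * Real.exp (k * lam) * Pr)) := by gcongr
      _ = Pr * (ρ * B * C2 * Real.exp (k * lam)) := by ring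

/-- the measure of the bad points -/
theorem bad_le (hD : AlgD 𝔭 𝔰) (h : IsMb 𝔭 𝔰 e A O U σ) (hTr : Tr (MvPolynomial (Fin n) R) G)
    (hB : 0 < B) (hG : GProp 𝔭 𝔰 G q1 B) {k C2 lam : ℝ} (hC2 : 0 < C2) (hlam : 0 < lam)
    (hq : ∀ᵐ y : Fin n → ℂ, ph e y q1 ≠ 0)
    (hZ : ∀ᵐ y : Fin n → ℂ, ph e y (q1 * ∏ i, f i) ≠ 0)
    (hbad : ∫⁻ y in Bad e lam G f k C2, ENNReal.ofReal (G (ph e y)) ≤
        ENNReal.ofReal (C2 / lam) * ∫⁻ y : Fin n → ℂ, ENNReal.ofReal (G (ph e y))) :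
    vm (volS σ) {x | ¬ (x ∈ Mbr.W 𝔭 e U (𝔭.gp 𝔰) ∧ yM 𝔭 e U x ∉ Bad e lam G f k C2 ∧
      ph e (yM 𝔭 e U x) (q1 * ∏ i, f i) ≠ 0)} ≤
      ENNReal.ofReal (𝔭.F.natDegree * B * (C2 / lam) * B) * vm (volS σ) univ := by
  set Z : Set (Fin n → ℂ) := {y | ph e y (q1 * ∏ i, f i) = 0} with hZd
  have hZm : MeasurableSet Z :=
    (isClosed_singleton.preimage (continuous_ph e (q1 * ∏ i, f i))).measurableSet
  have hZ0 : volume Z = 0 := by
    rw [ae_iff] at hZ
    simp only [ne_eq, not_not] at hZ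
    exact hZ
  have hBm : MeasurableSet (Bad e lam G f k C2) := measurableSet_Bad e lam hTr f k C2
  have hsub : {x | ¬ (x ∈ Mbr.W 𝔭 e U (𝔭.gp 𝔰) ∧ yM 𝔭 e U x ∉ Bad e lam G f k C2 ∧
      ph e (yM 𝔭 e U x) (q1 * ∏ i, f i) ≠ 0)} ⊆ (Mbr.W 𝔭 e U (𝔭.gp 𝔰))ᶜ ∪
      (Mbr.W 𝔭 e U (𝔭.gp 𝔰) ∩ yM 𝔭 e U ⁻¹' (Bad e lam G f k C2 ∪ Z)) := by
    intro x hx
    by_cases hxW : x ∈ Mbr.W 𝔭 e U (𝔭.gp 𝔰)
    · refine Or.inr ⟨hxW, ?_⟩
      by_cases hxB : yM 𝔭 e U x ∈ Bad e lam G f k C2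
      · exact Or.inl hxB
      · by_cases hxZ : ph e (yM 𝔭 e U x) (q1 * ∏ i, f i) = 0
        · exact Or.inr hxZ
        · exact absurd ⟨hxW, hxB, hxZ⟩ hx
    · exact Or.inl hxW
  refine (measure_mono hsub).trans ((measure_union_le _ _).trans ?_)
  rw [null_compl hD h hG hq, zero_add]
  refine (mass_le_G hD h hB hG hq (hBm.union hZm)).trans ?_
  have h1 : ∫⁻ y in Bad e lam G f k C2 ∪ Z, ENNReal.ofReal (G (ph e y)) ≤
      ENNReal.ofReal (C2 / lam) * (ENNReal.ofReal B * vm (volS σ) univ) := by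
    refine (lintegral_union_le _ _ _).trans ?_
    rw [setLIntegral_measure_zero _ _ hZ0, add_zero]
    refine hbad.trans ?_
    gcongr
    exact G_le hD h hB hG hq
  refine (mul_le_mul' le_rfl h1).trans (le_of_eq ?_)
  rw [← mul_assoc, ← mul_assoc, ← ENNReal.ofReal_mul (by positivity),
    ← ENNReal.ofReal_mul (by positivity)]

end static

section family

variable {𝔭 : PrD n r R} {𝔰 : FmD r R} {T : Type*} {l : Filter T} {ev : T → R →+* ℂ} {L : T → ℝ}

/-- **TROP-IN + TROP-OUT: the mass** -/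
theorem glue_mass [l.NeBot] (hS : Scale l ev L) (hD : AlgD 𝔭 𝔰) {k c1 C1 : ℝ} (hc1 : 0 < c1)
    (H : ∀ᶠ t in l, ∃ (A : Atl n M) (_ : Countable A.ι) (O : LB A) (U : Fin r → Fn A)
      (σ : HSymp A), MbV 𝔭 𝔰 (ev t) A O U σ k c1 C1 (L t)) :
    ∃ (f : Fin n → MvPolynomial (Fin n) R) (C0 : ℝ), 0 < C0 ∧
      (∀ i, f i ≠ 0 ∧ (∀ j ∈ (f i).vars, i ≤ j) ∧ MvPolynomial.pderiv i (f i) ≠ 0) ∧
      ∀ v : ℝ, 0 < v → ∃ c : ℝ, 0 < c ∧ ∀ᶠ t in l, ∀ (A : Atl n M) [Countable A.ι] (O : LB A)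
        (U : Fin r → Fn A) (σ : HSymp A), MbV 𝔭 𝔰 (ev t) A O U σ k c1 C1 (L t) →
        ∀ (K : Kah A) (ρ : ℝ),
          (∀ i, ∀ x ∈ (A.e i).source, (K.g i x).det.re = ρ * ‖(σ.s i x).det‖) →
          (vm (volK K)).real univ ≤ v * L t ^ n → ∀ 𝔱 : STup 𝔭 f,
          c * (vm (volK K)).real univ ≤ (vm (volK K)).real {x | NZ (𝔱.sS (ev t) U) x ∧
            (∀ j, |Real.log ‖quo (𝔱.sS (ev t) U) x j‖| ≤ C0 * L t) ∧
            c ≤ Jsq K (𝔱.sS (ev t) U) x} := by
  obtain ⟨G, q1, B, hTr, hq1, hB, hG⟩ := exists_G (M := M) hS hD (by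
    filter_upwards [H] with t ht
    obtain ⟨A, _, O, U, σ, h⟩ := ht
    exact ⟨A, O, U, σ, h.mb⟩)
  change GProp 𝔭 𝔰 G q1 B at hG
  have hDp : (0 : ℝ) < 𝔭.F.natDegree := by exact_mod_cast hD.pg.pos
  have hq : ∀ᶠ t in l, ∀ᵐ y : Fin n → ℂ, ph (ev t) y q1 ≠ 0 := hS.ae_ne_zero hq1
  have hLp : ∀ᶠ t in l, 1 ≤ L t := hS.tendsto.eventually_ge_atTop 1
  have hfin : ∀ᶠ t in l, ∫⁻ y : Fin n → ℂ, ENNReal.ofReal (G (pt (ev t) y)) ≠ (⊤ : ℝ≥0∞) := by
    filter_upwards [H, hq] with t ht hqt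
    obtain ⟨A, _, O, U, σ, h⟩ := ht
    refine ne_top_of_le_ne_top ?_ (G_le hD h.mb hB hG hqt)
    exact ENNReal.mul_ne_top ENNReal.ofReal_ne_top (ne_top_of_le_ne_top ENNReal.ofReal_ne_top h.hi)
  have hlow : ∀ᶠ t in l, ENNReal.ofReal (c1 / (𝔭.F.natDegree * B) * Real.exp (k * L t) * L t ^ n) ≤
      ∫⁻ y : Fin n → ℂ, ENNReal.ofReal (G (pt (ev t) y)) := by
    filter_upwards [H, hq, hLp] with t ht hqt hLt
    obtain ⟨A, _, O, U, σ, h⟩ := ht
    have h1 := h.lo.trans (le_G hD h.mb hB hG hqt)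
    have h2 : ENNReal.ofReal (c1 * Real.exp (k * L t) * L t ^ n) =
        ENNReal.ofReal (𝔭.F.natDegree * B) *
          ENNReal.ofReal (c1 / (𝔭.F.natDegree * B) * Real.exp (k * L t) * L t ^ n) := by
      rw [← ENNReal.ofReal_mul (by positivity)]
      congr 1
      field_simp
    rw [h2] at h1
    exact (ENNReal.mul_le_mul_iff_right (ENNReal.ofReal_pos.2 (mul_pos hDp hB)).ne'
      ENNReal.ofReal_ne_top).1 h1
  have hup : ∀ᶠ t in l, ∫⁻ y : Fin n → ℂ, ENNReal.ofReal (G (pt (ev t) y)) ≤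
      ENNReal.ofReal ((B * C1) * Real.exp (k * L t) * L t ^ n) := by
    filter_upwards [H, hq] with t ht hqt
    obtain ⟨A, _, O, U, σ, h⟩ := ht
    refine (G_le hD h.mb hB hG hqt).trans ?_
    rw [show B * C1 * Real.exp (k * L t) * L t ^ n = B * (C1 * Real.exp (k * L t) * L t ^ n) by ring,
      ENNReal.ofReal_mul hB.le]
    gcongr
    exact h.hi
  obtain ⟨C2, f, hC2, hf, hbad⟩ := trop_frac hS hTr hfin (c := c1 / (𝔭.F.natDegree * B))
    (by positivity) hlow hup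
  have hZn : q1 * ∏ i, f i ≠ 0 := mul_ne_zero hq1 (Finset.prod_ne_zero_iff.2 fun i _ => (hf i).1)
  have hZ : ∀ᶠ t in l, ∀ᵐ y : Fin n → ℂ, ph (ev t) y (q1 * ∏ i, f i) ≠ 0 := hS.ae_ne_zero hZn
  refine ⟨f, C2, hC2, fun i => ⟨(hf i).1, (hf i).2, fun h0 => ?_⟩, fun v hv => ?_⟩
  · -- the derivative is not zero
    obtain ⟨t, ⟨⟨h1, h2⟩, h3⟩, h4⟩ := (((hbad.and hlow).and hfin).and
      (hS.tendsto.eventually_gt_atTop (max 1 C2))).exists
    have hL : 1 < L t := (le_max_left _ _).trans_lt h4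
    have hL2 : C2 < L t := (le_max_right _ _).trans_lt h4
    have hL0 : 0 < L t := by linarith
    have hbu : Bad (ev t) (L t) G f k C2 = univ := by
      refine eq_univ_of_forall fun y => Or.inl ?_
      rw [Finset.prod_eq_zero (Finset.mem_univ i)]
      · rw [mul_zero]
        exact hTr.pos _
      · rw [h0, map_zero, zero_div, norm_zero]
        norm_num
    rw [hbu, Measure.restrict_univ] at h1
    have hpos : 0 < ∫⁻ y : Fin n → ℂ, ENNReal.ofReal (G (pt (ev t) y)) := by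
      refine lt_of_lt_of_le ?_ h2
      rw [ENNReal.ofReal_pos]
      positivity
    have h5 : ENNReal.ofReal (C2 / L t) * ∫⁻ y : Fin n → ℂ, ENNReal.ofReal (G (pt (ev t) y)) <
        1 * ∫⁻ y : Fin n → ℂ, ENNReal.ofReal (G (pt (ev t) y)) := by
      refine ENNReal.mul_lt_mul_left hpos.ne' h3 ?_
      rw [ENNReal.ofReal_lt_one, div_lt_one hL0]
      exact hL2
    rw [one_mul] at h5
    exact absurd h1 (not_le.2 h5)
  · refine ⟨min (1 / 2) (c1 / (B * C2 * v)), lt_min (by norm_num) (by positivity), ?_⟩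
    filter_upwards [hq, hZ, hLp, hbad, hS.tendsto.eventually_ge_atTop
      (2 * (𝔭.F.natDegree * B * C2 * B))] with t hqt hZt hLt hbt hLt2
    intro A _ O U σ h K ρ hK hvol 𝔱
    have hL0 : 0 < L t := by linarith
    obtain ⟨x0⟩ : Nonempty M := inferInstance
    obtain ⟨i0, hi0⟩ := A.cover x0
    have hρ : 0 < ρ := by
      have h1 := det_re_pos (K.pos i0 x0 hi0)
      rw [hK i0 x0 hi0] at h1
      exact pos_of_mul_pos_left h1 (norm_nonneg _)
    have hvm : vm (volK K) = ENNReal.ofReal ρ • vm (volS σ) :=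
      vm_scal hρ.le fun i x hx => hK i x hx
    set c := min (1 / 2) (c1 / (B * C2 * v)) with hc
    have hc2 : c ≤ 1 / 2 := min_le_left _ _
    set Gd : Set M := {x | NZ (𝔱.sS (ev t) U) x ∧
            (∀ j, |Real.log ‖quo (𝔱.sS (ev t) U) x j‖| ≤ C2 * L t) ∧
            c ≤ Jsq K (𝔱.sS (ev t) U) x} with hGd
    have hVfin : vm (volS σ) univ ≠ (⊤ : ℝ≥0∞) := ne_top_of_le_ne_top ENNReal.ofReal_ne_top h.hi
    -- bound of `c`
    have hVr : c1 * Real.exp (k * L t) * L t ^ n ≤ (vm (volS σ)).real univ := by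
      have h1 := h.lo
      rw [ENNReal.ofReal_le_iff_le_toReal hVfin] at h1
      exact h1
    have hvol' : ρ * (vm (volS σ)).real univ ≤ v * L t ^ n := by
      have h1 := hvol
      rw [hvm, measureReal_ennreal_smul_apply, ENNReal.toReal_ofReal hρ.le] at h1
      exact h1
    have hE : 0 < Real.exp (k * L t) := Real.exp_pos _
    have hLn : 0 < L t ^ n := by positivity
    have hcJ : c ≤ (ρ * B * C2 * Real.exp (k * L t))⁻¹ := by
      refine (min_le_right _ _).trans ?_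
      rw [inv_eq_one_div, div_le_div_iff₀ (by positivity) (by positivity), one_mul]
      have h1 : ρ * (c1 * Real.exp (k * L t) * L t ^ n) ≤ v * L t ^ n :=
        (mul_le_mul_of_nonneg_left hVr hρ.le).trans hvol'
      have h2 : ρ * (c1 * Real.exp (k * L t)) ≤ v := by
        have h3 : (ρ * (c1 * Real.exp (k * L t))) * L t ^ n ≤ v * L t ^ n := by
          calc _ = ρ * (c1 * Real.exp (k * L t) * L t ^ n) := by ring
            _ ≤ _ := h1
        exact le_of_mul_le_mul_right h3 hLn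
      calc c1 * (ρ * B * C2 * Real.exp (k * L t)) = (ρ * (c1 * Real.exp (k * L t))) * (B * C2) := by
            ring
        _ ≤ v * (B * C2) := by gcongr
        _ = B * C2 * v := by ring
    -- the complement of the good set
    have hsub : Gdᶜ ⊆ {x | ¬ (x ∈ Mbr.W 𝔭 (ev t) U (𝔭.gp 𝔰) ∧
        yM 𝔭 (ev t) U x ∉ Bad (ev t) (L t) G f k C2 ∧
        ph (ev t) (yM 𝔭 (ev t) U x) (q1 * ∏ i, f i) ≠ 0)} := by
      intro x hx hcon
      apply hx
      obtain ⟨h1, h2, h3⟩ := good_pt hD h.mb hTr hB hG 𝔱 (fun i => (hf i).2) hρ hK hC2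
        hcon.1 hcon.2.1 hcon.2.2
      exact ⟨h1, h2, hcJ.trans h3⟩
    have hcompl : vm (volS σ) Gdᶜ ≤ ENNReal.ofReal (1 / 2) * vm (volS σ) univ := by
      refine (measure_mono hsub).trans ((bad_le hD h.mb hTr hB hG hC2 hL0 hqt hZt hbt).trans ?_)
      gcongr
      rw [show (𝔭.F.natDegree : ℝ) * B * (C2 / L t) * B = 𝔭.F.natDegree * B * C2 * B / L t by ring,
        div_le_iff₀ hL0]
      linarith
    have hsum : (vm (volS σ)).real univ ≤ (vm (volS σ)).real Gd +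
        1 / 2 * (vm (volS σ)).real univ := by
      have h1 : vm (volS σ) univ ≤ vm (volS σ) Gd + ENNReal.ofReal (1 / 2) * vm (volS σ) univ := by
        rw [← union_compl_self Gd]
        exact (measure_union_le _ _).trans (by
          rw [union_compl_self]
          gcongr)
      have hG' : vm (volS σ) Gd ≠ (⊤ : ℝ≥0∞) := ne_top_of_le_ne_top hVfin (measure_mono (subset_univ _))
      have h2 := ENNReal.toReal_mono (ENNReal.add_ne_top.2 ⟨hG', ENNReal.mul_ne_top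
        ENNReal.ofReal_ne_top hVfin⟩) h1
      rw [ENNReal.toReal_add hG' (ENNReal.mul_ne_top ENNReal.ofReal_ne_top hVfin),
        ENNReal.toReal_mul, ENNReal.toReal_ofReal (by norm_num)] at h2
      exact h2
    rw [hvm, measureReal_ennreal_smul_apply, measureReal_ennreal_smul_apply,
      ENNReal.toReal_ofReal hρ.le]
    have hV0 : 0 ≤ (vm (volS σ)).real univ := measureReal_nonneg
    calc c * (ρ * (vm (volS σ)).real univ) = ρ * (c * (vm (volS σ)).real univ) := by ring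
      _ ≤ ρ * (1 / 2 * (vm (volS σ)).real univ) := by gcongr
      _ ≤ ρ * (vm (volS σ)).real Gd := by
        gcongr
        linarith

end family

end Crest.Agent.R281.GT_639
end
end

-- ▼ part R281/Nme1_989
section

/-!
# R281 (S0424), NORM-END (helper989): the volume of the algebraic form along an end

The members at the points `z` of the end carry the algebraic form `σ_z` with
`vm (volS σ_z) univ = κ ‖b z‖ ^ n (y z) ^ n`, `b` holomorphic, 1-periodic, zero free near `i∞`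
(`b = Q(e, [σ_z])`), `y z ~ L`.  Then `‖b z‖ ~ e ^ (k0 L)` with an integer `k0` and
`c1 e^(kL) L^n ≤ vm (volS σ_z) univ ≤ C1 e^(kL) L^n`, `k = n k0`.
-/

set_option autoImplicit false
set_option linter.unusedSectionVars false

open Polynomial Set Filter Topology Complex MeasureTheory
open scoped ENNReal

noncomputable section

namespace Crest.Agent.R281.Nme_989

open Crest.Agent.R281.Esc1_989 Crest.Agent.R281.Ends2_989 Crest.Agent.R281.Ends3_989
open Crest.Agent.R281.Ends4_989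

/-- eventually near the end = for large imaginary part -/
theorem eventually_lEnd {P : Hp → Prop} : (∀ᶠ z in lEnd, P z) ↔
    ∃ Y : ℝ, ∀ z : Hp, Y < z.1.im → P z := by
  unfold lEnd
  rw [Filter.eventually_comap]
  constructor
  · intro h
    obtain ⟨Y, hY⟩ := (Filter.eventually_atTop.1 h)
    exact ⟨Y, fun z hz => hY _ hz.le z rfl⟩
  · rintro ⟨Y, hY⟩
    filter_upwards [Filter.eventually_gt_atTop Y] with a ha z hz
    exact hY z (by rw [hz]; exact ha)

instance : (lEnd).NeBot := by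
  rw [Filter.neBot_iff]
  intro h
  have h1 : ∀ᶠ z in lEnd, (False : Prop) := by rw [h]; exact Filter.eventually_bot
  obtain ⟨Y, hY⟩ := eventually_lEnd.1 h1
  have h2 : (0 : ℝ) < (((|Y| + 1 : ℝ) : ℂ) * Complex.I).im := by
    simp; positivity
  refine hY ⟨((|Y| + 1 : ℝ) : ℂ) * Complex.I, h2⟩ ?_
  have h3 : (((|Y| + 1 : ℝ) : ℂ) * Complex.I).im = |Y| + 1 := by simp
  show Y < (((|Y| + 1 : ℝ) : ℂ) * Complex.I).im
  rw [h3]
  have := le_abs_self Y
  linarith

/-- **integer order of a zero free periodic function of moderate growth** -/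
theorem order_of_growth {b : ℂ → ℂ} {Y : ℝ} (hb : DifferentiableOn ℂ b {z | Y < z.im})
    (hper : ∀ z : ℂ, Y < z.im → b (z + 1) = b z) (hb0 : ∀ z : ℂ, Y < z.im → b z ≠ 0)
    {C a : ℝ} (hg : ∀ᶠ z in lEnd, ‖b z.1‖ ≤ C * Real.exp (a * Ls z)) :
    ∃ (k0 : ℤ) (D : ℝ), ∀ᶠ z in lEnd, |Real.log ‖b z.1‖ - k0 * Ls z| ≤ D := by
  obtain ⟨Y1, hY1⟩ := eventually_lEnd.1 hg
  set Y' : ℝ := max (max Y Y1) 0 with hY'
  have hYY : Y ≤ Y' := (le_max_left _ _).trans (le_max_left _ _)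
  have hYY1 : Y1 ≤ Y' := (le_max_right _ _).trans (le_max_left _ _)
  have hY0 : 0 ≤ Y' := le_max_right _ _
  have him : ∀ z : ℂ, (z + (Y' : ℂ) * I).im = z.im + Y' := by intro z; simp
  set g : ℂ → ℂ := fun z => if 0 < z.im then b (z + (Y' : ℂ) * I) else 0 with hgdef
  obtain ⟨m, hm⟩ := exists_nat_ge |a|
  have hC : 0 ≤ |C| := abs_nonneg C
  have hMg : Mg g := by
    refine ⟨?_, ?_, |C| * Real.exp (|a| * (2 * Real.pi * Y')), m, ?_⟩
    · have h1 : DifferentiableOn ℂ (fun z => b (z + (Y' : ℂ) * I)) Hp := by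
        refine hb.comp (by fun_prop) ?_
        intro z hz
        show Y < (z + (Y' : ℂ) * I).im
        rw [him]
        have : 0 < z.im := hz
        linarith
      refine h1.congr fun z hz => ?_
      have : 0 < z.im := hz
      simp [hgdef, this]
    · intro z
      by_cases hz : 0 < z.im
      · have h1 : 0 < (z + 1).im := by simpa using hz
        simp only [hgdef, h1, hz, if_true]
        rw [show z + 1 + (Y' : ℂ) * I = z + (Y' : ℂ) * I + 1 by ring]
        exact hper _ (by rw [him]; linarith)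
      · have h1 : ¬ 0 < (z + 1).im := by simpa using hz
        simp only [hgdef, h1, hz, if_false]
    · intro z hz
      have hz' : 0 < z.im := hz
      have hw : 0 < (z + (Y' : ℂ) * I).im := by rw [him]; linarith
      have h1 := hY1 ⟨z + (Y' : ℂ) * I, hw⟩ (by
        show Y1 < (z + (Y' : ℂ) * I).im
        rw [him]; linarith)
      have h2 : g z = b (z + (Y' : ℂ) * I) := by simp [hgdef, hz']
      rw [h2]
      have h3 : Ls ⟨z + (Y' : ℂ) * I, hw⟩ = Ls ⟨z, hz⟩ + 2 * Real.pi * Y' := by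
        simp only [Ls, him]
        ring
      have hL : 0 < Ls ⟨z, hz⟩ := by
        simp only [Ls]
        have := Real.pi_pos
        positivity
      rw [h3] at h1
      have h4 : ‖qq z‖ ^ m = Real.exp (-(m * Ls ⟨z, hz⟩)) := by
        have h5 := log_norm_qq ⟨z, hz⟩
        have h6 : 0 < ‖qq z‖ := by
          rw [norm_qq]; exact Real.exp_pos _
        have h7 : ‖qq z‖ = Real.exp (- Ls ⟨z, hz⟩) := by
          rw [← h5, Real.exp_log h6]
        rw [h7, ← Real.exp_nat_mul]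
        congr 1
        ring
      rw [h4]
      have h8 : ‖b (z + (Y' : ℂ) * I)‖ ≤
          |C| * Real.exp (|a| * (Ls ⟨z, hz⟩ + 2 * Real.pi * Y')) := by
        refine h1.trans ?_
        have e1 : a * (Ls ⟨z, hz⟩ + 2 * Real.pi * Y') ≤ |a| * (Ls ⟨z, hz⟩ + 2 * Real.pi * Y') := by
          refine mul_le_mul_of_nonneg_right (le_abs_self a) ?_
          have := Real.pi_pos
          positivity
        exact (mul_le_mul_of_nonneg_right (le_abs_self C) (Real.exp_pos _).le).trans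
          (mul_le_mul_of_nonneg_left (Real.exp_le_exp.2 e1) hC)
      calc ‖b (z + (Y' : ℂ) * I)‖ * Real.exp (-(m * Ls ⟨z, hz⟩))
          ≤ |C| * Real.exp (|a| * (Ls ⟨z, hz⟩ + 2 * Real.pi * Y')) *
            Real.exp (-(m * Ls ⟨z, hz⟩)) :=
            mul_le_mul_of_nonneg_right h8 (Real.exp_pos _).le
        _ = |C| * Real.exp (|a| * (2 * Real.pi * Y') + (|a| - m) * Ls ⟨z, hz⟩) := by
            rw [mul_assoc, ← Real.exp_add]
            congr 2
            ring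
        _ ≤ |C| * Real.exp (|a| * (2 * Real.pi * Y')) := by
            refine mul_le_mul_of_nonneg_left (Real.exp_le_exp.2 ?_) hC
            have : (|a| - m) * Ls ⟨z, hz⟩ ≤ 0 :=
              mul_nonpos_of_nonpos_of_nonneg (by linarith) hL.le
            linarith
  have hne : mk g hMg ≠ 0 := by
    intro h0
    have hI : (0 : ℝ) < (I : ℂ).im := by simp
    have h1 := congrArg (ev ⟨I, hI⟩) h0
    rw [ev_mk, map_zero] at h1
    have h2 : g I = b (I + (Y' : ℂ) * I) := by simp [hgdef]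
    change g I = 0 at h1
    rw [h2] at h1
    exact hb0 _ (by rw [him]; simp; linarith) h1
  obtain ⟨k0, D, hk⟩ := order (mk g hMg) hne
  obtain ⟨Y2, hY2⟩ := eventually_lEnd.1 hk
  refine ⟨k0, D + |(k0 : ℝ)| * (2 * Real.pi * Y'), eventually_lEnd.2 ⟨max (Y2 + Y') Y', ?_⟩⟩
  intro w hw
  have hw1 : Y2 + Y' < w.1.im := lt_of_le_of_lt (le_max_left _ _) hw
  have hw2 : Y' < w.1.im := lt_of_le_of_lt (le_max_right _ _) hw
  have hzim : (w.1 - (Y' : ℂ) * I).im = w.1.im - Y' := by simp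
  have hz : 0 < (w.1 - (Y' : ℂ) * I).im := by rw [hzim]; linarith
  have h1 := (hY2 ⟨w.1 - (Y' : ℂ) * I, hz⟩ (by
    show Y2 < (w.1 - (Y' : ℂ) * I).im
    rw [hzim]; linarith)).2
  have h2 : ev ⟨w.1 - (Y' : ℂ) * I, hz⟩ (mk g hMg) = b w.1 := by
    rw [ev_mk]
    simp only [hgdef, hz, if_true]
    congr 1
    ring
  rw [h2] at h1
  have h3 : Ls ⟨w.1 - (Y' : ℂ) * I, hz⟩ = Ls w - 2 * Real.pi * Y' := by
    simp only [Ls, hzim]
    ring
  rw [h3] at h1
  have h4 : Real.log ‖b w.1‖ - k0 * Ls w =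
      (Real.log ‖b w.1‖ - k0 * (Ls w - 2 * Real.pi * Y')) - k0 * (2 * Real.pi * Y') := by ring
  rw [h4]
  refine (abs_sub _ _).trans (add_le_add h1 ?_)
  rw [abs_mul, abs_of_nonneg (show 0 ≤ 2 * Real.pi * Y' by have := Real.pi_pos; positivity)]

open Crest.Agent.R275 Crest.Agent.R275.Geo Crest.Agent.R275.Core144 Crest.Agent.R275.EDR890
open Crest.Agent.R273.Defs_333 Crest.Agent.R273.Kah_333
open Crest.Agent.R273.SerA_945 (Fn)
open Crest.Agent.R273.Vm_333
open Crest.Agent.R281.Defs_273 Crest.Agent.R281.GT_639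
open Crest.Agent.R281.HkP2_508 (volS)
open Crest.Agent.R281.TrPL_726 (Tr)
open Crest.Agent.R281.TrU_249

variable {n r : ℕ} {M : Type} [TopologicalSpace M] [MeasurableSpace M] [BorelSpace M]
  [ConnectedSpace M]

/-- `Scale` for the ring of the end -/
theorem scale_mg : Scale lEnd ev Ls := ⟨tendsto_Ls, fun r hr => by
  obtain ⟨k, C, h⟩ := order r hr
  exact ⟨k, C, h⟩⟩

/-- the volume of the algebraic form has moderate growth -/
theorem vol_le {𝔭 : PrD n r MgR} {𝔰 : FmD r MgR} (hD : AlgD 𝔭 𝔰) {V : Hp → ℝ}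
    (H : ∀ᶠ z in lEnd, ∃ (A : Atl n M) (_ : Countable A.ι) (O : LB A) (U : Fin r → Fn A)
      (σ : HSymp A), IsMb 𝔭 𝔰 (ev z) A O U σ ∧ vm (volS σ) univ = ENNReal.ofReal (V z)) :
    ∃ a C : ℝ, 0 < C ∧ ∀ᶠ z in lEnd, V z ≤ C * Real.exp (a * Ls z) * Ls z ^ n := by
  obtain ⟨G, q1, B, hTr, hq1, hB, hG⟩ := exists_G (M := M) scale_mg hD (by
    filter_upwards [H] with t ht
    obtain ⟨A, _, O, U, σ, h, -⟩ := ht
    exact ⟨A, O, U, σ, h⟩)
  change GProp 𝔭 𝔰 G q1 B at hG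
  have hDp : (0 : ℝ) < 𝔭.F.natDegree := by exact_mod_cast hD.pg.pos
  have hq : ∀ᶠ t in lEnd, ∀ᵐ y : Fin n → ℂ, ph (ev t) y q1 ≠ 0 := scale_mg.ae_ne_zero hq1
  have hLp : ∀ᶠ t in lEnd, 1 ≤ Ls t := tendsto_Ls.eventually_ge_atTop 1
  have hfin : ∀ᶠ t in lEnd, ∫⁻ y : Fin n → ℂ, ENNReal.ofReal (G (pt (ev t) y)) ≠ (⊤ : ℝ≥0∞) := by
    filter_upwards [H, hq] with t ht hqt
    obtain ⟨A, _, O, U, σ, h, hV⟩ := ht
    refine ne_top_of_le_ne_top ?_ (G_le hD h hB hG hqt)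
    rw [hV]
    exact ENNReal.mul_ne_top ENNReal.ofReal_ne_top ENNReal.ofReal_ne_top
  obtain ⟨a, C, f, hC, -, hT⟩ := trop_final scale_mg hTr hfin
  refine ⟨a, 𝔭.F.natDegree * B * C, by positivity, ?_⟩
  filter_upwards [H, hq, hLp, hT] with t ht hqt hLt hTt
  obtain ⟨A, _, O, U, σ, h, hV⟩ := ht
  have h1 := le_G hD h hB hG hqt
  rw [hV] at h1
  have h2 : ENNReal.ofReal (V t) ≤
      ENNReal.ofReal (𝔭.F.natDegree * B * C * Real.exp (a * Ls t) * Ls t ^ n) := by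
    refine h1.trans ?_
    have e1 : ENNReal.ofReal (𝔭.F.natDegree * B * C * Real.exp (a * Ls t) * Ls t ^ n) =
        ENNReal.ofReal (𝔭.F.natDegree * B) *
          ENNReal.ofReal (C * Real.exp (a * Ls t) * Ls t ^ n) := by
      rw [← ENNReal.ofReal_mul (by positivity)]
      congr 1
      ring
    rw [e1]
    exact mul_le_mul_right hTt.2.1 _
  exact (ENNReal.ofReal_le_ofReal_iff (by positivity)).1 h2


/-- the literal hypothesis of `glue23` -/
theorem mbV_of {𝔭 : PrD n r MgR} {𝔰 : FmD r MgR} {z : Hp} {A : Atl n M} [Countable A.ι]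
    {O : LB A} {U : Fin r → Fn A} {σ : HSymp A} (h : IsMb 𝔭 𝔰 (ev z) A O U σ) {V k c1 C1 : ℝ}
    (hV : vm (volS σ) univ = ENNReal.ofReal V)
    (h1 : c1 * Real.exp (k * Ls z) * Ls z ^ n ≤ V) (h2 : V ≤ C1 * Real.exp (k * Ls z) * Ls z ^ n) :
    MbV 𝔭 𝔰 (ev z) A O U σ k c1 C1 (Ls z) where
  mb := h
  lo := by rw [hV]; exact ENNReal.ofReal_le_ofReal h1
  hi := by rw [hV]; exact ENNReal.ofReal_le_ofReal h2

end Crest.Agent.R281.Nme_989
end
end

-- ▼ part R281/SDR1_273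
section

/-!
# R281 (S0424), SDAT-RAY (helper273), part 1: the coordinate of the end and the period

* `NF Y r h k C` : normal form `τ = r z + h (q z)` of the period at the end, inverse `k` on `{Y < Im τ}`
* `NF.k_per`     : `k (r z + h (q z)) = z` for high `z`
* `NF.im_per`, `NF.im_k` : `Im τ` and `L = 2π Im z` are comparable
* `mem_all`      : a cusp has members over every `τ` with `Y < Im τ`
-/

set_option autoImplicit false
set_option linter.unusedSectionVars false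
set_option linter.style.haveILetI false

open Set Filter Topology Complex
open scoped ContDiff

noncomputable section

namespace Crest.Agent.R281.SDR_273

open Crest.Agent.R281.Esc1_989 Crest.Agent.R281.Ends2_989 Crest.Agent.R281.Ends3_989
open Crest.Agent.R281.Ends4_989 Crest.Agent.R281.As_957 Crest.Agent.R281.Nme_989
open Crest.Agent.R281.Alg_998 Crest.Agent.R281.HkR_835

/-- normal form of the period at the end -/
structure NF (Y r : ℝ) (h k : ℂ → ℂ) (C : ℝ) : Prop where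
  r_pos : 0 < r
  h_diff : DifferentiableOn ℂ h (Metric.ball 0 (Real.exp (-(2 * Real.pi))))
  k_im : ∀ τ : ℂ, Y < τ.im → 1 < (k τ).im
  k_inv : ∀ τ : ℂ, Y < τ.im → (r : ℂ) * k τ + h (qq (k τ)) = τ
  k_bd : ∀ τ : ℂ, Y < τ.im → ‖(r : ℂ) * k τ - τ‖ ≤ C

/-- the period as a function of the coordinate of the end -/
def per (r : ℝ) (h : ℂ → ℂ) (z : ℂ) : ℂ := (r : ℂ) * z + h (qq z)

namespace NF

variable {Y r C : ℝ} {h k : ℂ → ℂ} (F : NF Y r h k C)
include F

theorem C_nonneg : 0 ≤ C := by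
  have h1 := F.k_bd (((Y + 1 : ℝ) : ℂ) * I) (by simp)
  exact (norm_nonneg _).trans h1

theorem bound : ∃ B T : ℝ, 0 ≤ B ∧ ∀ z : ℂ, T < z.im → ‖h (qq z)‖ ≤ B := by
  have hnhds : Metric.ball (0 : ℂ) (Real.exp (-(2 * Real.pi))) ∈ 𝓝 (0 : ℂ) :=
    Metric.ball_mem_nhds _ (Real.exp_pos _)
  have hcont : ContinuousAt h 0 := (F.h_diff.differentiableAt hnhds).continuousAt
  have hev : ∀ᶠ q in 𝓝 (0 : ℂ), ‖h q‖ < ‖h 0‖ + 1 :=
    hcont.norm.eventually (gt_mem_nhds (by linarith))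
  obtain ⟨ρ, hρ, hb⟩ := Metric.eventually_nhds_iff.1 hev
  obtain ⟨T, hT⟩ := norm_qq_lt_of hρ
  exact ⟨‖h 0‖ + 1, T, by positivity, fun z hz => (hb (by simpa using hT z hz)).le⟩

theorem abs_im_k {τ : ℂ} (hτ : Y < τ.im) : |r * (k τ).im - τ.im| ≤ C := by
  have h1 := F.k_bd τ hτ
  have h2 : ((r : ℂ) * k τ - τ).im = r * (k τ).im - τ.im := by simp
  rw [← h2]
  exact (Complex.abs_im_le_norm _).trans h1

theorem abs_im_per : ∃ B T : ℝ, 0 ≤ B ∧ ∀ z : ℂ, T < z.im → |(per r h z).im - r * z.im| ≤ B := by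
  obtain ⟨B, T, hB, hT⟩ := F.bound
  refine ⟨B, T, hB, fun z hz => ?_⟩
  have h2 : (per r h z).im - r * z.im = (h (qq z)).im := by simp [per]
  rw [h2]
  exact (Complex.abs_im_le_norm _).trans (hT z hz)

/-- `k` inverts the period high up -/
theorem k_per : ∃ T : ℝ, ∀ z : ℂ, T < z.im → Y < (per r h z).im ∧ k (per r h z) = z := by
  obtain ⟨T₀, hinj, -⟩ := exists_inv F.r_pos (Real.exp_pos _) F.h_diff
  obtain ⟨B, T₁, hB, hT₁⟩ := F.abs_im_per
  have hr := F.r_pos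
  have hC := F.C_nonneg
  refine ⟨max (max T₀ T₁) (max ((Y + B) / r) (T₀ + (B + C) / r)), fun z hz => ?_⟩
  have z0 : T₀ < z.im := ((le_max_left _ _).trans (le_max_left _ _)).trans_lt hz
  have z1 : T₁ < z.im := ((le_max_right _ _).trans (le_max_left _ _)).trans_lt hz
  have z2 : (Y + B) / r < z.im := ((le_max_left _ _).trans (le_max_right _ _)).trans_lt hz
  have z3 : T₀ + (B + C) / r < z.im := ((le_max_right _ _).trans (le_max_right _ _)).trans_lt hz
  have h1 := abs_le.1 (hT₁ z z1)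
  rw [div_lt_iff₀ hr] at z2
  have hY : Y < (per r h z).im := by
    have := h1.1
    nlinarith [mul_comm z.im r]
  refine ⟨hY, ?_⟩
  have h2 := abs_le.1 (F.abs_im_k hY)
  have h3 : T₀ < (k (per r h z)).im := by
    have h4 : r * T₀ + (B + C) < r * z.im := by
      have h5 := mul_lt_mul_of_pos_left z3 hr
      rwa [mul_add, mul_div_cancel₀ _ hr.ne'] at h5
    have h6 : r * T₀ < r * (k (per r h z)).im := by linarith [h2.1, h1.1]
    exact lt_of_mul_lt_mul_left h6 hr.le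
  refine hinj _ _ h3 z0 ?_
  exact F.k_inv _ hY

/-- `Im τ ~ L` at the points of the end -/
theorem im_per : ∃ c0 C0 : ℝ, 0 < c0 ∧ ∀ᶠ z in lEnd,
    c0 * Ls z ≤ (per r h z.1).im ∧ (per r h z.1).im ≤ C0 * Ls z := by
  obtain ⟨B, T, hB, hT⟩ := F.abs_im_per
  have hr := F.r_pos
  have hpi := Real.pi_pos
  refine ⟨r / (4 * Real.pi), r / Real.pi, by positivity, eventually_lEnd.2
    ⟨max T (2 * B / r), fun z hz => ?_⟩⟩
  have z1 : T < z.1.im := (le_max_left _ _).trans_lt hz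
  have z2 : 2 * B / r < z.1.im := (le_max_right _ _).trans_lt hz
  rw [div_lt_iff₀ hr] at z2
  have h1 := abs_le.1 (hT z.1 z1)
  have e1 : r / (4 * Real.pi) * Ls z = r * z.1.im / 2 := by
    unfold Ls
    field_simp
    ring
  have e2 : r / Real.pi * Ls z = 2 * (r * z.1.im) := by
    unfold Ls
    field_simp
  rw [e1, e2]
  constructor <;> nlinarith [h1.1, h1.2, mul_comm z.1.im r]

/-- `Im τ ~ L` for high `τ` -/
theorem im_k : ∃ c0 C0 y0 : ℝ, 0 < c0 ∧ ∀ τ : ℂ, y0 < τ.im → Y < τ.im ∧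
    c0 * (2 * Real.pi * (k τ).im) ≤ τ.im ∧ τ.im ≤ C0 * (2 * Real.pi * (k τ).im) := by
  have hr := F.r_pos
  have hpi := Real.pi_pos
  refine ⟨r / (4 * Real.pi), r / Real.pi, max Y (2 * C), by positivity, fun τ hτ => ?_⟩
  have z1 : Y < τ.im := (le_max_left _ _).trans_lt hτ
  have z2 : 2 * C < τ.im := (le_max_right _ _).trans_lt hτ
  have h1 := abs_le.1 (F.abs_im_k z1)
  have hC := F.C_nonneg
  have e1 : r / (4 * Real.pi) * (2 * Real.pi * (k τ).im) = r * (k τ).im / 2 := by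
    field_simp
    ring
  have e2 : r / Real.pi * (2 * Real.pi * (k τ).im) = 2 * (r * (k τ).im) := by
    field_simp
  rw [e1, e2]
  refine ⟨z1, ?_, ?_⟩ <;> linarith [h1.1, h1.2]

/-- the points over high `τ` are high -/
theorem k_high (T : ℝ) : ∃ y0 : ℝ, ∀ τ : ℂ, y0 < τ.im → Y < τ.im ∧ T < (k τ).im := by
  have hr := F.r_pos
  refine ⟨max Y (r * T + C), fun τ hτ => ?_⟩
  have z1 : Y < τ.im := (le_max_left _ _).trans_lt hτ
  have z2 : r * T + C < τ.im := (le_max_right _ _).trans_lt hτ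
  have h1 := abs_le.1 (F.abs_im_k z1)
  exact ⟨z1, lt_of_mul_lt_mul_left (by linarith [h1.1]) hr.le⟩

end NF

/-! ### members over every point of the half plane -/

section cusp

variable {V X : Type} [NormedAddCommGroup V] [NormedSpace ℝ V] [TopologicalSpace X]
  {C : RCh V X} {Q : F2 C →ₗ[ℝ] F2 C →ₗ[ℝ] ℝ} {F : Frm C Q} {A : F2 C}

/-- a cusp with one member has members over every point of its half plane -/
theorem mem_all (K : Cusp F A) {τ₁ : ℂ} {H₁ : HkT C} (h₁ : K.Mem τ₁ H₁) {τ : ℂ} (hτ : K.Y < τ.im) :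
    ∃ H, K.Mem τ H := by
  have h0 := K.mem_im τ₁ H₁ h₁
  have hst : ContDiff ℝ ∞ stp := stp_contDiff
  have hsm : ContDiff ℝ ∞ fun t : ℝ => τ₁ + ((stp t : ℝ) : ℂ) * (τ - τ₁) := by
    have h1 : ContDiff ℝ ∞ fun t : ℝ => ((stp t : ℝ) : ℂ) := Complex.ofRealCLM.contDiff.comp hst
    exact contDiff_const.add (h1.mul contDiff_const)
  obtain ⟨G, -, -, hG⟩ := K.lift τ₁ H₁ h₁ (fun t => τ₁ + ((stp t : ℝ) : ℂ) * (τ - τ₁)) hsm (by
    intro t
    have h2 : 0 ≤ stp t := Real.smoothTransition.nonneg _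
    have h3 : stp t ≤ 1 := Real.smoothTransition.le_one _
    have h4 : (τ₁ + ((stp t : ℝ) : ℂ) * (τ - τ₁)).im = (1 - stp t) * τ₁.im + stp t * τ.im := by
      simp
      ring
    rw [h4]
    rcases h2.lt_or_eq with h5 | h5
    · nlinarith
    · rw [← h5]
      linarith) (by
    show τ₁ + ((stp 0 : ℝ) : ℂ) * (τ - τ₁) = τ₁
    rw [stp_zero (by norm_num)]
    simp)
  refine ⟨G 1, ?_⟩
  have h5 := hG 1
  have h6 : τ₁ + ((stp 1 : ℝ) : ℂ) * (τ - τ₁) = τ := by
    rw [stp_one (by norm_num)]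
    simp
  simp only [h6] at h5
  exact h5

end cusp

end Crest.Agent.R281.SDR_273
end
end

-- ▼ part R281/GT13_639
section

/-!
Row 281, glue DIV 2 -> DIV 3 -> DIV 4 (helper639).  Part 13: the field `deg` of `SDat`.

* `tri_card` : a finite part of a fibre of a triangular tuple, with `∂_i f_i ≠ 0`, has at most
               `∏ totalDegree (f i)` points
* `fib_card` : at most `natDegree F` points of `M` where `y` is a local coordinate system lie over
               a point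
* `deg_le`   : the field `deg`
-/

set_option autoImplicit false
set_option linter.unusedSectionVars false

open Polynomial Set Filter Topology Complex MeasureTheory
open scoped ContDiff Matrix ComplexConjugate Manifold ENNReal

noncomputable section

namespace Crest.Agent.R281.GT_639

open Crest.Agent.R275 Crest.Agent.R275.Geo Crest.Agent.R275.Core144 Crest.Agent.R275.EDR890
open Crest.Agent.R273.Defs_333 Crest.Agent.R273.Kah_333
open Crest.Agent.R273.SerA_945 (Fn)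
open Crest.Agent.R273.SteinC_794 Crest.Agent.R273.Chow_313
open Crest.Agent.R273.FIb0_597 (ch mem_ch)
open Crest.Agent.R281.Defs_273 Crest.Agent.R281.AF_867 Crest.Agent.R281.Qr_770
open Crest.Agent.R281.SIn_14

variable {n r : ℕ} {R : Type*} [CommRing R]

/-! ### triangular tuples -/

/-- forget the coordinates before `k` -/
def tail (k : ℕ) (y : Fin n → ℂ) : Fin n → ℂ := fun j => if k ≤ j.val then y j else 0

theorem ph_congr {p : MvPolynomial (Fin n) R} (e : R →+* ℂ) {y y' : Fin n → ℂ}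
    (h : ∀ j ∈ p.vars, y j = y' j) : ph e y p = ph e y' p := by
  refine MvPolynomial.hom_congr_vars ?_ (fun i hi _ => ?_) rfl
  · ext r
    simp
  · rw [ph_X, ph_X]
    exact h i hi

/-- the polynomial in one variable -/
def up (e : R →+* ℂ) (a : Fin n → ℂ) (k : Fin n) (p : MvPolynomial (Fin n) R) : ℂ[X] :=
  MvPolynomial.eval₂ (Polynomial.C.comp e) (fun j => if j = k then X else C (a j)) p

theorem eval_up (e : R →+* ℂ) (a : Fin n → ℂ) (k : Fin n) (p : MvPolynomial (Fin n) R) (x : ℂ) :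
    (up e a k p).eval x = ph e (Function.update a k x) p := by
  have h : (Polynomial.evalRingHom x).comp
      (MvPolynomial.eval₂Hom (Polynomial.C.comp e) (fun j => if j = k then X else C (a j))) =
      ph e (Function.update a k x) := by
    refine MvPolynomial.ringHom_ext ?_ ?_
    · intro r
      simp
    · intro j
      rcases eq_or_ne j k with rfl | hj
      · simp
      · simp [hj]
  exact congrArg (fun f => f p) h

theorem natDegree_up_le (e : R →+* ℂ) (a : Fin n → ℂ) (k : Fin n) (p : MvPolynomial (Fin n) R) :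
    (up e a k p).natDegree ≤ p.totalDegree := by
  classical
  unfold up
  rw [MvPolynomial.eval₂_eq']
  refine Polynomial.natDegree_sum_le_of_forall_le _ _ fun d hd => ?_
  refine Polynomial.natDegree_C_mul_le _ _ |>.trans ?_
  refine (Polynomial.natDegree_prod_le _ _).trans ?_
  have h1 : ∀ j : Fin n, ((if j = k then X else C (a j) : ℂ[X]) ^ d j).natDegree ≤ d j := by
    intro j
    refine Polynomial.natDegree_pow_le.trans ?_
    split_ifs with hj
    · rw [natDegree_X, mul_one]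
    · rw [natDegree_C, mul_zero]
      exact Nat.zero_le _
  refine (Finset.sum_le_sum fun j _ => h1 j).trans ?_
  have h2 := MvPolynomial.le_totalDegree hd
  rwa [Finsupp.sum_fintype _ _ fun _ => rfl] at h2

theorem up_ne (e : R →+* ℂ) (y : Fin n → ℂ) (k : Fin n) (p : MvPolynomial (Fin n) R) (w : ℂ)
    (h : ph e y (MvPolynomial.pderiv k p) ≠ 0) : up e y k p - C w ≠ 0 := by
  intro h0
  apply h
  have h1 : ∀ x : ℂ, ph e (Function.update y k x) p = w := by
    intro x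
    have h2 := congrArg (Polynomial.eval x) h0
    rw [eval_sub, eval_C, eval_zero, eval_up, sub_eq_zero] at h2
    exact h2
  have h3 : HasDerivAt (fun x : ℂ => ph e (Function.update y k x) p)
      (ph e y (MvPolynomial.pderiv k p)) (y k) := by
    have h4 : HasDerivAt (fun x : ℂ => Function.update y k x) (Pi.single k 1) (y k) := by
      have := hasDerivAt_update y k (y k)
      exact this
    have h5 := ph_hasFDerivAt e p (Function.update y k (y k))
    have h6 := h5.comp_hasDerivAt (y k) h4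
    rw [Function.update_eq_self] at h6
    refine h6.congr_deriv ?_
    rw [lf_apply, Finset.sum_eq_single k]
    · simp
    · intro b _ hb
      rw [Pi.single_eq_of_ne hb, mul_zero]
    · simp
  have h7 : (fun x : ℂ => ph e (Function.update y k x) p) = fun _ => w := funext h1
  rw [h7] at h3
  exact h3.unique (hasDerivAt_const _ _)

theorem tri_card {f : Fin n → MvPolynomial (Fin n) R} (hf : ∀ i, ∀ j ∈ (f i).vars, i ≤ j)
    (e : R →+* ℂ) (Y : Finset (Fin n → ℂ)) (w : Fin n → ℂ)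
    (h1 : ∀ y ∈ Y, ∀ i, ph e y (f i) = w i)
    (h2 : ∀ y ∈ Y, ∀ i, ph e y (MvPolynomial.pderiv i (f i)) ≠ 0) :
    Y.card ≤ ∏ i, (f i).totalDegree := by
  classical
  have key : ∀ k : ℕ, k ≤ n → (Y.image (tail (n - k))).card ≤
      ∏ i ∈ Finset.univ.filter (fun i : Fin n => n - k ≤ i.val), (f i).totalDegree := by
    intro k
    induction k with
    | zero =>
      intro _
      rw [Finset.filter_false_of_mem, Finset.prod_empty]
      · rw [Finset.card_le_one]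
        intro a ha b hb
        obtain ⟨y, -, rfl⟩ := Finset.mem_image.1 ha
        obtain ⟨y', -, rfl⟩ := Finset.mem_image.1 hb
        funext j
        have := j.2
        simp only [tail]
        rw [if_neg (by omega), if_neg (by omega)]
      · intro i _
        have := i.2
        omega
    | succ k ih =>
      intro hk
      have ih' := ih (by omega)
      set m : ℕ := n - (k + 1) with hm
      have hm1 : n - k = m + 1 := by omega
      have hmn : m < n := by omega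
      rw [hm1] at ih'
      have e1 : Finset.univ.filter (fun i : Fin n => m ≤ i.val) =
          insert ⟨m, hmn⟩ (Finset.univ.filter (fun i : Fin n => m + 1 ≤ i.val)) := by
        ext i
        simp only [Finset.mem_filter, Finset.mem_univ, true_and, Finset.mem_insert, Fin.ext_iff]
        omega
      rw [e1, Finset.prod_insert (by simp)]
      have e2 : (Y.image (tail m)).image (tail (m + 1)) = Y.image (tail (m + 1)) := by
        rw [Finset.image_image]
        congr 1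
        funext y j
        simp only [Function.comp, tail]
        split_ifs <;> first | rfl | omega
      rw [← e2] at ih'
      refine (Finset.card_le_mul_card_image (Y.image (tail m)) (f ⟨m, hmn⟩).totalDegree ?_).trans
        (Nat.mul_le_mul_left _ ih')
      intro b hb
      obtain ⟨b', hb', rfl⟩ := Finset.mem_image.1 hb
      obtain ⟨y0, hy0, rfl⟩ := Finset.mem_image.1 hb'
      -- the polynomial
      set q := up e (tail m y0) ⟨m, hmn⟩ (f ⟨m, hmn⟩) - C (w ⟨m, hmn⟩) with hq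
      have hvars : ∀ y : Fin n → ℂ, ph e (tail m y) (f ⟨m, hmn⟩) = ph e y (f ⟨m, hmn⟩) := by
        intro y
        refine ph_congr e fun j hj => ?_
        have := hf _ j hj
        simp only [tail]
        rw [if_pos]
        exact this
      have hq0 : q ≠ 0 := by
        have h3 : up e (tail m y0) ⟨m, hmn⟩ (f ⟨m, hmn⟩) = up e y0 ⟨m, hmn⟩ (f ⟨m, hmn⟩) := by
          refine Polynomial.funext fun x => ?_
          rw [eval_up, eval_up]
          refine ph_congr e fun j hj => ?_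
          rcases eq_or_ne j ⟨m, hmn⟩ with rfl | hj'
          · simp
          · rw [Function.update_of_ne hj', Function.update_of_ne hj']
            have := hf _ j hj
            simp only [tail]
            rw [if_pos]
            exact this
        rw [hq, h3]
        exact up_ne e _ _ _ _ (h2 y0 hy0 _)
      have hdeg : q.natDegree ≤ (f ⟨m, hmn⟩).totalDegree := by
        rw [hq, Polynomial.natDegree_sub_C]
        exact natDegree_up_le _ _ _ _
      refine le_trans ?_ ((card_roots' q).trans hdeg)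
      refine le_trans ?_ (Multiset.toFinset_card_le _)
      refine Finset.card_le_card_of_injOn (fun y => y ⟨m, hmn⟩) ?_ ?_
      · intro a ha
        obtain ⟨ha1, ha2⟩ := Finset.mem_filter.1 (Finset.mem_coe.1 ha)
        obtain ⟨y, hy, rfl⟩ := Finset.mem_image.1 ha1
        refine Finset.mem_coe.2 (Multiset.mem_toFinset.2 ?_)
        rw [mem_roots hq0, IsRoot.def, hq, eval_sub, eval_C, eval_up, sub_eq_zero]
        have h4 : Function.update (tail m y0) ⟨m, hmn⟩ (tail m y ⟨m, hmn⟩) = tail m y := by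
          funext j
          rcases eq_or_ne j ⟨m, hmn⟩ with rfl | hj
          · simp
          · rw [Function.update_of_ne hj]
            have h5 := congrFun ha2 j
            have h6 : j.val ≠ m := fun h => hj (Fin.ext h)
            simp only [tail] at h5 ⊢
            split_ifs at h5 ⊢ <;> first | exact h5.symm | omega
        rw [h4, hvars]
        exact h1 y hy _
      · intro a ha a' ha' haa
        obtain ⟨ha1, ha2⟩ := Finset.mem_filter.1 (Finset.mem_coe.1 ha)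
        obtain ⟨ha1', ha2'⟩ := Finset.mem_filter.1 (Finset.mem_coe.1 ha')
        obtain ⟨y, hy, rfl⟩ := Finset.mem_image.1 ha1
        obtain ⟨y', hy', rfl⟩ := Finset.mem_image.1 ha1'
        funext j
        rcases eq_or_ne j ⟨m, hmn⟩ with rfl | hj
        · exact haa
        · have h5 := congrFun (ha2.trans ha2'.symm) j
          have h6 : j.val ≠ m := fun h => hj (Fin.ext h)
          simp only [tail] at h5 ⊢
          split_ifs at h5 ⊢ <;> first | exact h5 | omega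
  have h3 := key n le_rfl
  rw [Nat.sub_self] at h3
  have e1 : Finset.univ.filter (fun i : Fin n => 0 ≤ i.val) = Finset.univ := by
    ext i
    simp
  have e2 : Y.image (tail 0) = Y := by
    have : (tail 0 : (Fin n → ℂ) → Fin n → ℂ) = id := by
      funext y j
      simp [tail]
    rw [this, Finset.image_id]
  rwa [e1, e2] at h3

/-! ### the fibres of the projection -/

variable {M : Type} [TopologicalSpace M] {A : Atl n M} {O : LB A}

namespace Mbr

variable {𝔭 : PrD n r R} {e : R →+* ℂ} {U : Fin r → Fn A} {𝔰 : FmD r R} {σ : HSymp A}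
  {f : Fin n → MvPolynomial (Fin n) R}

theorem map_nhds (h : Mbr 𝔭 e O U) {i : A.ι} {x : M} (hx : x ∈ (A.e i).source)
    (h0 : x ∈ nz (ls e U (𝔭.lam 0))) (hJ : (Jy 𝔭 e U i x).det ≠ 0) :
    Filter.map (yM 𝔭 e U) (𝓝 x) = 𝓝 (yM 𝔭 e U x) := by
  set g : Cn n → Fin n → ℂ := fun ζ => yM 𝔭 e U ((A.e i).symm ζ) with hg
  have ho : IsOpen ((A.e i).target ∩ (A.e i).symm ⁻¹' (nz (ls e U (𝔭.lam 0)))) :=
    isOpen_ti h.open_nz
  have hd : DifferentiableOn ℂ g ((A.e i).target ∩ (A.e i).symm ⁻¹' (nz (ls e U (𝔭.lam 0)))) :=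
    differentiableOn_pi.2 fun j => h.hol_yM i j
  have hl := (A.e i).left_inv hx
  have hmem : A.e i x ∈ (A.e i).target ∩ (A.e i).symm ⁻¹' (nz (ls e U (𝔭.lam 0))) :=
    ⟨(A.e i).map_source hx, by rw [mem_preimage, hl]; exact h0⟩
  have hcd : ContDiffAt ℂ 1 g (A.e i x) :=
    ((Crest.Agent.R266.SCV.contDiffOn_omega_of_differentiableOn ho hd).contDiffAt
      (ho.mem_nhds hmem)).of_le le_top
  have hs := hcd.hasStrictFDerivAt one_ne_zero
  have hr : (fderiv ℂ g (A.e i x)).range = ⊤ := by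
    rw [LinearMap.range_eq_top]
    intro v
    refine ⟨(WithLp.toLp 2 ((Jy 𝔭 e U i x)⁻¹.mulVec v) : Cn n), ?_⟩
    have h1 := Jy_mulVec (𝔭 := 𝔭) (e := e) (U := U) i x ((Jy 𝔭 e U i x)⁻¹.mulVec v)
    rw [Matrix.mulVec_mulVec, Matrix.mul_nonsing_inv _ (isUnit_iff_ne_zero.2 hJ),
      Matrix.one_mulVec] at h1
    exact h1.symm
  have h2 := hs.map_nhds_eq_of_surj hr
  have h3 : Filter.map (A.e i).symm (𝓝 (A.e i x)) = 𝓝 x := (A.e i).symm_map_nhds_eq hx
  have h4 : g (A.e i x) = yM 𝔭 e U x := by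
    simp only [hg]
    rw [hl]
  rw [h4] at h2
  rw [← h3, Filter.map_map]
  exact h2

/-- the points over `y` -/
theorem fib_card [T2Space M] (h : Mbr 𝔭 e O U) (hg : 𝔭.Good)
    (hq : ∀ᵐ y : Fin n → ℂ, ph e y (resultant 𝔭.F (derivative 𝔭.F)) ≠ 0) (S : Finset M)
    (y0 : Fin n → ℂ) (hS : ∀ x ∈ S, x ∈ nz (ls e U (𝔭.lam 0)) ∧ yM 𝔭 e U x = y0 ∧
      ∃ i, x ∈ (A.e i).source ∧ (Jy 𝔭 e U i x).det ≠ 0) : S.card ≤ 𝔭.F.natDegree := by
  classical
  obtain ⟨V, hV, hdis⟩ := (S.finite_toSet).t2_separation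
  set V' : M → Set M := fun x => V x ∩ nz (ls e U (𝔭.lam 0)) with hV'
  have h1 : ∀ x ∈ S, yM 𝔭 e U '' V' x ∈ 𝓝 y0 := by
    intro x hx
    obtain ⟨hx0, hxy, i, hi, hJ⟩ := hS x hx
    have h2 := h.map_nhds hi hx0 hJ
    rw [hxy] at h2
    rw [← h2]
    exact image_mem_map (inter_mem ((hV x).2.mem_nhds (hV x).1) (h.open_nz.mem_nhds hx0))
  have h2 : (⋂ x ∈ S, yM 𝔭 e U '' V' x) ∈ 𝓝 y0 := (Filter.biInter_finset_mem S).2 h1
  have hden : Dense {y : Fin n → ℂ | ph e y (resultant 𝔭.F (derivative 𝔭.F)) ≠ 0} :=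
    Measure.dense_of_ae hq
  obtain ⟨y', hy'1, hy'2⟩ := mem_closure_iff_nhds.1 (hden y0) _ h2
  have h3 : ∀ x ∈ S, ∃ x', x' ∈ V' x ∧ yM 𝔭 e U x' = y' := by
    intro x hx
    have := mem_iInter₂.1 hy'1 x hx
    obtain ⟨x', hx', hxy⟩ := this
    exact ⟨x', hx', hxy⟩
  choose! g hg1 hg2 using h3
  have hgW : ∀ x ∈ S, g x ∈ W 𝔭 e U (derivative 𝔭.F) := by
    intro x hx
    refine ⟨(hg1 x hx).2, ?_⟩
    have h4 := h.eqF _ (hg1 x hx).2
    unfold pM at h4 ⊢
    rw [hg2 x hx] at h4 ⊢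
    exact eval_ne_zero hg.monic _ hy'2 h4
  have h4 : S.card ≤ (𝔭.F.map (ph e y')).roots.toFinset.card := by
    refine Finset.card_le_card_of_injOn (fun x => zM 𝔭 e U (g x)) ?_ ?_
    · intro x hx
      have h5 := h.root_mem hg (hgW x hx).1
      rw [hg2 x hx] at h5
      exact Finset.mem_coe.2 (Multiset.mem_toFinset.2 h5)
    · intro x hx x' hx' hxx
      have h5 := h.inj_yz (hgW x hx) (hgW x' hx') ((hg2 x hx).trans (hg2 x' hx').symm) hxx
      by_contra hne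
      have h6 := hdis hx hx' hne
      exact Set.disjoint_left.1 h6 (hg1 x hx).1 (by rw [h5]; exact (hg1 x' hx').1)
  exact h4.trans ((Multiset.toFinset_card_le _).trans ((card_roots' _).trans natDegree_map_le))

/-- **the field `deg`** -/
theorem deg_le [T2Space M] (h : Mbr 𝔭 e O U) (hg : 𝔭.Good)
    (hq : ∀ᵐ y : Fin n → ℂ, ph e y (resultant 𝔭.F (derivative 𝔭.F)) ≠ 0) (𝔱 : STup 𝔭 f)
    (hf : ∀ i, ∀ j ∈ (f i).vars, i ≤ j) (K : Kah A) (S : Finset M)
    (hS : ∀ x ∈ S, NZ (𝔱.sS e U) x ∧ Jsq K (𝔱.sS e U) x ≠ 0)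
    (hq' : ∀ x ∈ S, ∀ y ∈ S, quo (𝔱.sS e U) x = quo (𝔱.sS e U) y) :
    S.card ≤ 𝔭.F.natDegree * ∏ i, (f i).totalDegree := by
  classical
  rcases S.eq_empty_or_nonempty with rfl | ⟨x0, hx0⟩
  · simp
  have h1 : ∀ x ∈ S, x ∈ nz (ls e U (𝔭.lam 0)) ∧ (∀ j, ph e (yM 𝔭 e U x) (f j) ≠ 0) ∧
      (∀ i, ph e (yM 𝔭 e U x) (MvPolynomial.pderiv i (f i)) ≠ 0) ∧
      (Jy 𝔭 e U (ch A x) x).det ≠ 0 := by
    intro x hx
    obtain ⟨h2, h3⟩ := hS x hx
    obtain ⟨h4, h5⟩ := (h.nz_sS 𝔱).1 h2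
    obtain ⟨h6, h7⟩ := (h.jsq_ne 𝔱 hf h2).1 h3
    exact ⟨h4, h5, h6, h7⟩
  refine (Finset.card_le_mul_card_image (f := yM 𝔭 e U) S 𝔭.F.natDegree ?_).trans
    (Nat.mul_le_mul_left _ ?_)
  · intro b _
    refine h.fib_card hg hq _ b fun x hx => ?_
    obtain ⟨hx1, hx2⟩ := Finset.mem_filter.1 hx
    obtain ⟨h2, -, -, h3⟩ := h1 x hx1
    exact ⟨h2, hx2, ch A x, mem_ch A x, h3⟩
  · refine tri_card hf e _ (quo (𝔱.sS e U) x0) ?_ ?_
    · intro y hy i
      obtain ⟨x, hx, rfl⟩ := Finset.mem_image.1 hy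
      rw [← h.quo_eq 𝔱 (h1 x hx).1 i, hq' x hx x0 hx0]
    · intro y hy i
      obtain ⟨x, hx, rfl⟩ := Finset.mem_image.1 hy
      exact (h1 x hx).2.2.1 i

end Mbr

end Crest.Agent.R281.GT_639
end
end

-- ▼ part R281/Cov1_593
section

/-!
# R281 (COV-TRI, helper593): triangular tuples of polynomials are proper off a hypersurface

`f_1, .., f_n ∈ ℂ[y_1, .., y_n]`, `f_i ∈ ℂ[y_i, .., y_n]`, `∂_i f_i ≠ 0`, `E ≠ 0`. There is a
polynomial `P ≠ 0` such that `P(f(y)) ≠ 0` implies `E(y) ≠ 0`, and `y` is bounded when `f(y)` stays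
in a compact subset of `{P ≠ 0}`.
-/

set_option autoImplicit false
open MvPolynomial Set

noncomputable section
namespace Crest.Agent.R281.Cov_593

variable {n : ℕ}

/-- values of a tuple -/
def evf (f : Fin n → MvPolynomial (Fin n) ℂ) (y : Fin n → ℂ) : Fin n → ℂ := fun i => eval y (f i)

lemma continuous_evf (f : Fin n → MvPolynomial (Fin n) ℂ) : Continuous (evf f) := by
  unfold evf
  exact continuous_pi fun i => MvPolynomial.continuous_eval (f i)

lemma eval_aeval (f : Fin n → MvPolynomial (Fin n) ℂ) (P : MvPolynomial (Fin n) ℂ)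
    (y : Fin n → ℂ) : eval y (aeval f P) = eval (evf f y) P := by
  induction P using MvPolynomial.induction_on with
  | C a => simp
  | add p q hp hq => simp only [map_add, hp, hq]
  | mul_X p i hp => simp only [map_mul, hp, aeval_X, eval_X, evf]

/-- substitution `X_i ↦ 0` kills `∂_i` -/
lemma pderiv_subst (i : Fin n) (g : Fin n → MvPolynomial (Fin n) ℂ)
    (hg : ∀ j, pderiv i (g j) = 0) (p : MvPolynomial (Fin n) ℂ) : pderiv i (aeval g p) = 0 := by
  induction p using MvPolynomial.induction_on with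
  | C a => simp
  | add p q hp hq => rw [map_add, map_add, hp, hq, add_zero]
  | mul_X p j hp => rw [map_mul, Derivation.leibniz, hp, aeval_X, hg, smul_zero, smul_zero, add_zero]

/-- one step: `X_i` is algebraic over `ℂ[f_1, .., f_n, X_j (j > i)]` -/
lemma alg_step (f : Fin n → MvPolynomial (Fin n) ℂ) (i : Fin n) (hv : ∀ j ∈ (f i).vars, i ≤ j)
    (hd : pderiv i (f i) ≠ 0) :
    IsAlgebraic (Algebra.adjoin ℂ (range f ∪ {p | ∃ j, i < j ∧ p = X j}))
      (X i : MvPolynomial (Fin n) ℂ) := by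
  set s : Set (MvPolynomial (Fin n) ℂ) := range f ∪ {p | ∃ j, i < j ∧ p = X j} with hs
  set R₁ := Algebra.adjoin ℂ s with hR₁
  have hX : ∀ j, i < j → (X j : MvPolynomial (Fin n) ℂ) ∈ R₁ := fun j hj =>
    Algebra.subset_adjoin (Or.inr ⟨j, hj, rfl⟩)
  have hf : f i ∈ R₁ := Algebra.subset_adjoin (Or.inl ⟨i, rfl⟩)
  let θ : Fin n → Polynomial R₁ := fun j =>
    if h : i < j then Polynomial.C ⟨X j, hX j h⟩ else if j = i then Polynomial.X else 0
  obtain ⟨q, hqd⟩ : ∃ q : Polynomial R₁, q = aeval θ (f i) - Polynomial.C ⟨f i, hf⟩ := ⟨_, rfl⟩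
  have key : ∀ (x : MvPolynomial (Fin n) ℂ), Polynomial.aeval x (aeval θ (f i)) =
      aeval (fun j => if i < j then X j else if j = i then x else 0) (f i) := by
    intro x
    have h1 : (Polynomial.aeval (R := R₁) x (aeval θ (f i)) : MvPolynomial (Fin n) ℂ) =
        (((Polynomial.aeval (R := R₁) x).restrictScalars ℂ).comp (aeval θ)) (f i) := rfl
    rw [h1]
    congr 1
    apply MvPolynomial.algHom_ext
    intro j
    simp only [AlgHom.comp_apply, aeval_X, AlgHom.restrictScalars_apply, θ]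
    by_cases h : i < j
    · simp [h]
    · by_cases h' : j = i
      · simp [h']
      · simp [h, h']
  have hqe : ∀ x : MvPolynomial (Fin n) ℂ, Polynomial.aeval x q =
      Polynomial.aeval x (aeval θ (f i)) - Polynomial.aeval x (Polynomial.C (⟨f i, hf⟩ : R₁)) := by
    intro x
    have h1 : aeval θ (f i) = q + Polynomial.C ⟨f i, hf⟩ := by rw [hqd]; ring
    rw [h1, map_add]; ring
  refine ⟨q, ?_, ?_⟩
  · intro hq
    have h0 : Polynomial.aeval (0 : MvPolynomial (Fin n) ℂ) q = 0 := by rw [hq, map_zero]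
    rw [hqe, key, Polynomial.aeval_C] at h0
    have h1 : aeval (fun j => if i < j then X j else if j = i then (0 : MvPolynomial (Fin n) ℂ)
        else 0) (f i) = f i := by
      have h2 : algebraMap R₁ (MvPolynomial (Fin n) ℂ) ⟨f i, hf⟩ = f i := rfl
      rw [h2] at h0
      exact sub_eq_zero.1 h0
    apply hd
    rw [← h1]
    apply pderiv_subst
    intro j
    by_cases h : i < j
    · rw [if_pos h, pderiv_X_of_ne h.ne']
    · rw [if_neg h]
      split_ifs <;> simp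
  · rw [hqe, key, Polynomial.aeval_C]
    have h2 : algebraMap R₁ (MvPolynomial (Fin n) ℂ) ⟨f i, hf⟩ = f i := rfl
    rw [h2, sub_eq_zero]
    have h3 : aeval (fun j => if i < j then X j else if j = i then (X i : MvPolynomial (Fin n) ℂ)
        else 0) (f i) = aeval X (f i) := by
      apply MvPolynomial.eval₂Hom_congr' rfl _ rfl
      intro j hj _
      rcases (hv j hj).lt_or_eq with h | h
      · rw [if_pos h]
      · subst h
        rw [if_neg (lt_irrefl _), if_pos rfl]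
    rw [h3, aeval_X_left_apply]

/-- every polynomial is algebraic over `ℂ[f_1, .., f_n]` -/
theorem alg_all (f : Fin n → MvPolynomial (Fin n) ℂ) (hv : ∀ i, ∀ j ∈ (f i).vars, i ≤ j)
    (hd : ∀ i, pderiv i (f i) ≠ 0) (x : MvPolynomial (Fin n) ℂ) :
    IsAlgebraic (Algebra.adjoin ℂ (range f)) x := by
  have hX : ∀ i, IsAlgebraic (Algebra.adjoin ℂ (range f)) (X i : MvPolynomial (Fin n) ℂ) := by
    intro i
    induction i using WellFoundedGT.induction with
    | ind i ih =>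
      refine IsAlgebraic.adjoin_of_forall_isAlgebraic (s := range f ∪ {p | ∃ j, i < j ∧ p = X j})
        ?_ (alg_step f i (hv i) (hd i))
      rintro p ⟨hp | ⟨j, hj, rfl⟩, hp'⟩
      · exact absurd hp hp'
      · exact ih j hj
  induction x using MvPolynomial.induction_on with
  | C a =>
    exact isAlgebraic_algebraMap (algebraMap ℂ (Algebra.adjoin ℂ (range f)) a)
  | add p q hp hq => exact hp.add hq
  | mul_X p i hp => exact hp.mul (hX i)

/-- a nonzero polynomial divides a nonzero polynomial in `f` -/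
theorem exists_dvd (f : Fin n → MvPolynomial (Fin n) ℂ) (hv : ∀ i, ∀ j ∈ (f i).vars, i ≤ j)
    (hd : ∀ i, pderiv i (f i) ≠ 0) {E : MvPolynomial (Fin n) ℂ} (hE : E ≠ 0) :
    ∃ P : MvPolynomial (Fin n) ℂ, P ≠ 0 ∧ E ∣ aeval f P := by
  obtain ⟨r, hr, hdvd⟩ := (alg_all f hv hd E).exists_nonzero_dvd (mem_nonZeroDivisors_of_ne_zero hE)
  have hr' : (r : MvPolynomial (Fin n) ℂ) ∈ (aeval f : MvPolynomial (Fin n) ℂ →ₐ[ℂ] _).range := by
    rw [← Algebra.adjoin_range_eq_range_aeval]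
    exact r.2
  obtain ⟨P, hP⟩ := hr'
  refine ⟨P, ?_, ?_⟩
  · rintro rfl
    apply hr
    have h1 : (r : MvPolynomial (Fin n) ℂ) = 0 := by rw [← hP]; simp
    exact Subtype.ext h1
  · have h1 : aeval f P = algebraMap (Algebra.adjoin ℂ (range f)) (MvPolynomial (Fin n) ℂ) r := hP
    rw [h1]
    exact hdvd

/-- `A(f) x` is integral over `ℂ[w]` through `f` -/
theorem exists_monic (f : Fin n → MvPolynomial (Fin n) ℂ) (hv : ∀ i, ∀ j ∈ (f i).vars, i ≤ j)
    (hd : ∀ i, pderiv i (f i) ≠ 0) (x : MvPolynomial (Fin n) ℂ) :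
    ∃ (A : MvPolynomial (Fin n) ℂ) (q : Polynomial (MvPolynomial (Fin n) ℂ)), A ≠ 0 ∧ q.Monic ∧
      ∀ y, (q.map (eval (evf f y))).IsRoot (eval (evf f y) A * eval y x) := by
  obtain ⟨r, hr, p, hpm, hp⟩ := (alg_all f hv hd x).exists_integral_multiple
  have hsurj : ∀ r : Algebra.adjoin ℂ (range f), ∃ P : MvPolynomial (Fin n) ℂ,
      aeval f P = (r : MvPolynomial (Fin n) ℂ) := by
    intro r
    have hr' : (r : MvPolynomial (Fin n) ℂ) ∈ (aeval f : MvPolynomial (Fin n) ℂ →ₐ[ℂ] _).range := by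
      rw [← Algebra.adjoin_range_eq_range_aeval]
      exact r.2
    exact hr'
  -- the ring homomorphism `ℂ[w] → ℂ[f]`
  let φ : MvPolynomial (Fin n) ℂ →+* Algebra.adjoin ℂ (range f) :=
    (aeval f : MvPolynomial (Fin n) ℂ →ₐ[ℂ] MvPolynomial (Fin n) ℂ).toRingHom.codRestrict
      (Algebra.adjoin ℂ (range f)) (fun P => by
        rw [Algebra.adjoin_range_eq_range_aeval]; exact ⟨P, rfl⟩)
  have hφ : ∀ P, (φ P : MvPolynomial (Fin n) ℂ) = aeval f P := fun P => rfl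
  have hφs : Function.Surjective φ := by
    intro r
    obtain ⟨P, hP⟩ := hsurj r
    exact ⟨P, Subtype.ext (by rw [hφ, hP])⟩
  obtain ⟨A, hA⟩ := hφs r
  have hpl : p ∈ Polynomial.lifts φ := by
    rw [Polynomial.lifts_iff_coeff_lifts]
    intro k
    exact hφs _
  obtain ⟨q, hq, -, hqm⟩ := Polynomial.lifts_and_natDegree_eq_and_monic hpl hpm
  refine ⟨A, q, ?_, hqm, ?_⟩
  · rintro rfl
    exact hr (by rw [← hA, map_zero])
  · intro y
    rw [← hq] at hp
    rw [Polynomial.eval₂_map] at hp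
    have h1 := congrArg (eval y) hp
    rw [map_zero, Polynomial.hom_eval₂] at h1
    have h2 : ((eval y).comp ((algebraMap (Algebra.adjoin ℂ (range f))
        (MvPolynomial (Fin n) ℂ)).comp φ)) = eval (evf f y) := by
      apply RingHom.ext
      intro P
      show eval y (φ P : MvPolynomial (Fin n) ℂ) = eval (evf f y) P
      rw [hφ, eval_aeval]
    rw [h2] at h1
    have h3 : eval y (r • x) = eval (evf f y) A * eval y x := by
      have h4 : r • x = (r : MvPolynomial (Fin n) ℂ) * x := rfl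
      rw [h4, map_mul, ← hA, hφ, eval_aeval]
    rw [h3] at h1
    rw [Polynomial.IsRoot, Polynomial.eval_map]
    exact h1

/-- uniform bound for the roots of monic polynomials -/
lemma root_bound {q : Polynomial (MvPolynomial (Fin n) ℂ)} (hq : q.Monic) {C : Set (Fin n → ℂ)}
    (hC : IsCompact C) : ∃ B : ℝ, ∀ w ∈ C, ∀ z : ℂ, (q.map (eval w)).IsRoot z → ‖z‖ ≤ B := by
  have h1 : ∀ k, ∃ B : ℝ, ∀ w ∈ C, ‖eval w (q.coeff k)‖ ≤ B := fun k =>
    hC.exists_bound_of_continuousOn (MvPolynomial.continuous_eval (q.coeff k)).continuousOn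
  choose b hb using h1
  refine ⟨(∑ k ∈ Finset.range q.natDegree, |b k|) + 1, fun w hw z hz => ?_⟩
  have hm : (q.map (eval w)).Monic := hq.map _
  have h2 := (hz.norm_lt_cauchyBound hm.ne_zero).le
  have h3 : (Polynomial.cauchyBound (q.map (eval w)) : ℝ) ≤
      (∑ k ∈ Finset.range q.natDegree, |b k|) + 1 := by
    rw [Polynomial.cauchyBound, hm.leadingCoeff, nnnorm_one, div_one, NNReal.coe_add, NNReal.coe_one]
    gcongr
    rw [hq.natDegree_map]
    have h4 : (Finset.range q.natDegree).sup (fun k => ‖(q.map (eval w)).coeff k‖₊) ≤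
        ∑ k ∈ Finset.range q.natDegree, Real.nnabs (b k) := by
      apply Finset.sup_le
      intro k hk
      refine le_trans ?_ (Finset.single_le_sum (f := fun k => Real.nnabs (b k))
        (fun _ _ => bot_le) hk)
      rw [← NNReal.coe_le_coe, coe_nnnorm, Real.coe_nnabs, Polynomial.coeff_map]
      exact (hb k w hw).trans (le_abs_self _)
    calc (((Finset.range q.natDegree).sup (fun k => ‖(q.map (eval w)).coeff k‖₊) : NNReal) : ℝ) ≤
        ((∑ k ∈ Finset.range q.natDegree, Real.nnabs (b k) : NNReal) : ℝ) := NNReal.coe_le_coe.2 h4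
      _ = _ := by rw [NNReal.coe_sum]; simp
  have h5 : (‖z‖₊ : ℝ) ≤ _ := NNReal.coe_le_coe.2 h2
  rw [coe_nnnorm] at h5
  exact h5.trans h3

/-- **COV-TRI** -/
theorem cov_tri (f : Fin n → MvPolynomial (Fin n) ℂ) (hv : ∀ i, ∀ j ∈ (f i).vars, i ≤ j)
    (hd : ∀ i, pderiv i (f i) ≠ 0) {E : MvPolynomial (Fin n) ℂ} (hE : E ≠ 0) :
    ∃ P : MvPolynomial (Fin n) ℂ, P ≠ 0 ∧
      (∀ y, eval (evf f y) P ≠ 0 → eval y E ≠ 0) ∧
      ∀ C : Set (Fin n → ℂ), IsCompact C → (∀ w ∈ C, eval w P ≠ 0) →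
        ∃ B : ℝ, ∀ y, evf f y ∈ C → ∀ i, ‖y i‖ ≤ B := by
  obtain ⟨P0, hP0, hdvd⟩ := exists_dvd f hv hd hE
  choose A q hA hqm hroot using fun i => exists_monic f hv hd (X i)
  refine ⟨P0 * ∏ i, A i, mul_ne_zero hP0 (Finset.prod_ne_zero_iff.2 fun i _ => hA i), ?_, ?_⟩
  · intro y hy hEy
    apply hy
    obtain ⟨u, hu⟩ := hdvd
    rw [map_mul, ← eval_aeval, hu, map_mul, hEy, zero_mul, zero_mul]
  · intro C hC hPC
    have hAne : ∀ i, ∀ w ∈ C, eval w (A i) ≠ 0 := by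
      intro i w hw h
      apply hPC w hw
      rw [map_mul, map_prod, Finset.prod_eq_zero (Finset.mem_univ i) h, mul_zero]
    choose b hb using fun i => root_bound (hqm i) hC
    have hinv : ∀ i, ∃ c : ℝ, ∀ w ∈ C, ‖(eval w (A i))⁻¹‖ ≤ c := fun i =>
      hC.exists_bound_of_continuousOn
        ((MvPolynomial.continuous_eval (A i)).continuousOn.inv₀ (hAne i))
    choose c hc using hinv
    refine ⟨∑ i, |c i| * |b i|, fun y hy i => ?_⟩
    have h1 := hb i _ hy _ (hroot i y)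
    rw [eval_X] at h1
    have h2 : y i = (eval (evf f y) (A i))⁻¹ * (eval (evf f y) (A i) * y i) := by
      rw [← mul_assoc, inv_mul_cancel₀ (hAne i _ hy), one_mul]
    have h3 : ‖y i‖ ≤ |c i| * |b i| := by
      rw [h2, norm_mul]
      exact mul_le_mul ((hc i _ hy).trans (le_abs_self _)) (h1.trans (le_abs_self _))
        (norm_nonneg _) (abs_nonneg _)
    exact h3.trans (Finset.single_le_sum (f := fun i => |c i| * |b i|)
      (fun _ _ => by positivity) (Finset.mem_univ i))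

/-- form of the field `cov` of `SIn_14.SDat`: `y : U → ℂ^n` continuous and proper. -/
theorem cov_field {X : Type*} [TopologicalSpace X] [T2Space X]
    (f : Fin n → MvPolynomial (Fin n) ℂ) (hv : ∀ i, ∀ j ∈ (f i).vars, i ≤ j)
    (hd : ∀ i, pderiv i (f i) ≠ 0) {E : MvPolynomial (Fin n) ℂ} (hE : E ≠ 0)
    {U : Set X} {y : X → Fin n → ℂ} (hy : ContinuousOn y U)
    (hprop : ∀ B : ℝ, IsCompact {x | x ∈ U ∧ ∀ i, ‖y x i‖ ≤ B})
    {NZ : X → Prop} {Q : X → Fin n → ℂ} {J : X → ℝ}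
    (hNZ : ∀ x, NZ x ↔ x ∈ U ∧ ∀ i, eval (y x) (f i) ≠ 0)
    (hQ : ∀ x, NZ x → Q x = fun i => eval (y x) (f i))
    (hJ : ∀ x, NZ x → eval (y x) E ≠ 0 → J x ≠ 0) :
    ∃ P : MvPolynomial (Fin n) ℂ, P ≠ 0 ∧ (∀ x, NZ x → eval (Q x) P ≠ 0 → J x ≠ 0) ∧
      ∀ C : Set (Fin n → ℂ), IsCompact C → (∀ w ∈ C, (∀ j, w j ≠ 0) ∧ eval w P ≠ 0) →
        IsCompact {x | NZ x ∧ Q x ∈ C} := by
  obtain ⟨P, hP, h1, h2⟩ := cov_tri f hv hd hE
  refine ⟨P, hP, ?_, ?_⟩
  · intro x hx hPx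
    apply hJ x hx
    apply h1
    rw [hQ x hx] at hPx
    exact hPx
  · intro C hC hCP
    obtain ⟨B, hB⟩ := h2 C hC fun w hw => (hCP w hw).2
    have e : {x | NZ x ∧ Q x ∈ C} = {x | x ∈ U ∧ ∀ i, ‖y x i‖ ≤ B} ∩ (fun x => evf f (y x)) ⁻¹' C := by
      ext x
      constructor
      · rintro ⟨hx, hxC⟩
        rw [hQ x hx] at hxC
        exact ⟨⟨((hNZ x).1 hx).1, fun i => hB (y x) hxC i⟩, hxC⟩
      · rintro ⟨⟨hxU, -⟩, hxC⟩
        have hx : NZ x := (hNZ x).2 ⟨hxU, fun i => (hCP _ hxC).1 i⟩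
        refine ⟨hx, ?_⟩
        rw [hQ x hx]
        exact hxC
    rw [e]
    have hK := hprop B
    have hcont : ContinuousOn (fun x => evf f (y x)) {x | x ∈ U ∧ ∀ i, ‖y x i‖ ≤ B} :=
      (continuous_evf f).comp_continuousOn (hy.mono fun x hx => hx.1)
    obtain ⟨s, hs, hse⟩ := hcont.preimage_isClosed_of_isClosed hK.isClosed hC.isClosed |> fun h => 
      (⟨_, h, rfl⟩ : ∃ s, IsClosed s ∧ s = {x | x ∈ U ∧ ∀ i, ‖y x i‖ ≤ B} ∩
        (fun x => evf f (y x)) ⁻¹' C)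
    rw [← hse]
    exact hK.of_isClosed_subset hs (by rw [hse]; exact inter_subset_left)

end Crest.Agent.R281.Cov_593
end
end

-- ▼ part R281/GT14_639
section

/-!
Row 281, glue DIV 2 -> DIV 3 -> DIV 4 (helper639).  Part 14: the field `cov` of `SDat` and the final
theorem.

* `prop_y`  : `y` is proper on `{lam_0 ≠ 0}`
* `cov`     : the field `cov` (with `Cov_593.cov_field`)
* `glue23`  : members of a family along a scale, mass of size `e^{kL} L^n` ==> sections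
              `s_0 .. s_n` of `O^m` with polynomial coefficients over `R` and all fields
              `hol`, `deg`, `cov`, `mass` of `SDat`
-/

set_option autoImplicit false
set_option linter.unusedSectionVars false

open Polynomial Set Filter Topology Complex MeasureTheory
open scoped ContDiff Matrix ComplexConjugate Manifold ENNReal

noncomputable section

namespace Crest.Agent.R281.GT_639

open Crest.Agent.R275 Crest.Agent.R275.Geo Crest.Agent.R275.Core144 Crest.Agent.R275.EDR890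
open Crest.Agent.R273.Defs_333 Crest.Agent.R273.Kah_333
open Crest.Agent.R273.SerA_945 (Fn)
open Crest.Agent.R273.SteinC_794 Crest.Agent.R273.Chow_313
open Crest.Agent.R273.Vm_333 Crest.Agent.R273.Vol_333
open Crest.Agent.R273.FIb0_597 (ch mem_ch)
open Crest.Agent.R281.Defs_273 Crest.Agent.R281.AF_867 Crest.Agent.R281.Qr_770
open Crest.Agent.R281.HkP2_508 (volS)
open Crest.Agent.R281.SIn_14
open Crest.Agent.R281.TrU_249 (Scale)

variable {n r : ℕ} {R : Type*} [CommRing R]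
variable {M : Type} [TopologicalSpace M] {A : Atl n M} {O : LB A}

namespace Mbr

variable {𝔭 : PrD n r R} {e : R →+* ℂ} {U : Fin r → Fn A} {𝔰 : FmD r R} {σ : HSymp A}
  {f : Fin n → MvPolynomial (Fin n) R}

theorem cont_lv (h : Mbr 𝔭 e O U) (a : Fin r → R) {i : A.ι} {x : M} (hx : x ∈ (A.e i).source) :
    ContinuousAt (ls e U a i) x :=
  continuousAt_of_holAt isOpen_univ ((h.hls a).hol i) hx (mem_univ x)

/-- `y` is proper on `{lam_0 ≠ 0}` -/
theorem prop_y [CompactSpace M] (h : Mbr 𝔭 e O U)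
    (hb : ∀ i, ∀ x ∈ (A.e i).source, ∃ j, lv e (𝔭.lam j) (fun k => U k i x) ≠ 0) (B : ℝ) :
    IsCompact {x | x ∈ nz (ls e U (𝔭.lam 0)) ∧ ∀ i, ‖yM 𝔭 e U x i‖ ≤ B} := by
  apply IsClosed.isCompact
  rw [← isOpen_compl_iff, isOpen_iff_mem_nhds]
  intro x hx
  obtain ⟨i, hi⟩ := A.cover x
  by_cases h0 : x ∈ nz (ls e U (𝔭.lam 0))
  · have h1 : ∃ j, B < ‖yM 𝔭 e U x j‖ := by
      by_contra hcon
      push Not at hcon
      exact hx ⟨h0, hcon⟩
    obtain ⟨j, hj⟩ := h1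
    have h2 : ContinuousAt (fun x => ‖yM 𝔭 e U x j‖) x :=
      (continuousAt_pi.1 (h.cont_yM h0) j).norm
    filter_upwards [h2.eventually (lt_mem_nhds hj)] with x' hx' hcon
    exact not_le.2 hx' (hcon.2 j)
  · have h1 : lv e (𝔭.lam 0) (fun k => U k i x) = 0 := by
      by_contra hne
      exact h0 ((h.nz_iff hi).2 hne)
    obtain ⟨j, hj⟩ := hb i x hi
    have hj0 : j ≠ 0 := by
      rintro rfl
      exact hj h1
    obtain ⟨j', rfl⟩ := Fin.exists_succ_eq.2 hj0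
    have c1 := h.cont_lv (𝔭.lam 0) hi
    have c2 := h.cont_lv (𝔭.lam j'.succ) hi
    have c3 : ContinuousAt (fun x => ‖ls e U (𝔭.lam j'.succ) i x‖ -
        (|B| + 1) * ‖ls e U (𝔭.lam 0) i x‖) x := c2.norm.sub (c1.norm.const_mul _)
    have c4 : 0 < ‖ls e U (𝔭.lam j'.succ) i x‖ - (|B| + 1) * ‖ls e U (𝔭.lam 0) i x‖ := by
      have e1 : ls e U (𝔭.lam 0) i x = 0 := h1
      rw [e1, norm_zero, mul_zero, sub_zero]
      exact norm_pos_iff.2 hj
    filter_upwards [c3.eventually (lt_mem_nhds c4), (A.e i).open_source.mem_nhds hi]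
      with x' hx' hxi hcon
    have h2 := (h.nz_iff hxi).1 hcon.1
    have h3 := hcon.2 j'
    rw [h.yM_eq hxi j', norm_div, div_le_iff₀ (norm_pos_iff.2 h2)] at h3
    have h4 : 0 < ‖lv e (𝔭.lam 0) (fun k => U k i x')‖ := norm_pos_iff.2 h2
    have h5 : (|B| + 1) * ‖lv e (𝔭.lam 0) (fun k => U k i x')‖ <
        ‖lv e (𝔭.lam j'.succ) (fun k => U k i x')‖ := by
      have := hx'
      simp only [ls] at this
      linarith
    have h6 : B * ‖lv e (𝔭.lam 0) (fun k => U k i x')‖ ≤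
        (|B| + 1) * ‖lv e (𝔭.lam 0) (fun k => U k i x')‖ := by
      gcongr
      linarith [le_abs_self B]
    linarith

theorem cov [CompactSpace M] [T2Space M] (h : Mbr 𝔭 e O U) (hg : 𝔭.Good)
    (hb : ∀ i, ∀ x ∈ (A.e i).source, ∃ j, lv e (𝔭.lam j) (fun k => U k i x) ≠ 0)
    (𝔱 : STup 𝔭 f) (hf : ∀ i, ∀ j ∈ (f i).vars, i ≤ j)
    (hq : MvPolynomial.map e (resultant 𝔭.F (derivative 𝔭.F)) ≠ 0)
    (hd : ∀ i, MvPolynomial.map e (MvPolynomial.pderiv i (f i)) ≠ 0) (K : Kah A) :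
    ∃ P : MvPolynomial (Fin n) ℂ, P ≠ 0 ∧
    (∀ x, NZ (𝔱.sS e U) x → MvPolynomial.eval (quo (𝔱.sS e U) x) P ≠ 0 →
      Jsq K (𝔱.sS e U) x ≠ 0) ∧
    ∀ C : Set (Fin n → ℂ), IsCompact C → (∀ w ∈ C, (∀ j, w j ≠ 0) ∧ MvPolynomial.eval w P ≠ 0) →
      IsCompact {x | NZ (𝔱.sS e U) x ∧ quo (𝔱.sS e U) x ∈ C} := by
  classical
  have hpe : ∀ (y : Fin n → ℂ) (p : MvPolynomial (Fin n) R),
      MvPolynomial.eval y (MvPolynomial.map e p) = ph e y p := by
    intro y p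
    simp [ph, MvPolynomial.eval_map]
  refine Crest.Agent.R281.Cov_593.cov_field (X := M)
    (fun i => MvPolynomial.map e (f i)) (fun i j hj => hf i j (MvPolynomial.vars_map (f i) e hj))
    (fun i => by rw [MvPolynomial.pderiv_map]; exact hd i)
    (E := MvPolynomial.map e (resultant 𝔭.F (derivative 𝔭.F)) *
      ∏ i, MvPolynomial.map e (MvPolynomial.pderiv i (f i)))
    (mul_ne_zero hq (Finset.prod_ne_zero_iff.2 fun i _ => hd i))
    (U := nz (ls e U (𝔭.lam 0))) (y := yM 𝔭 e U)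
    (fun x hx => (h.cont_yM hx).continuousWithinAt) (h.prop_y hb) ?_ ?_ ?_
  · intro x
    simp only [hpe]
    exact h.nz_sS 𝔱
  · intro x hx
    funext i
    rw [hpe]
    exact h.quo_eq 𝔱 ((h.nz_sS 𝔱).1 hx).1 i
  · intro x hx hE
    rw [map_mul, map_prod, hpe, mul_ne_zero_iff, Finset.prod_ne_zero_iff] at hE
    obtain ⟨h0, -⟩ := (h.nz_sS 𝔱).1 hx
    refine (h.jsq_ne 𝔱 hf hx).2 ⟨fun i => ?_, ?_⟩
    · have := hE.2 i (Finset.mem_univ i)
      rwa [hpe] at this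
    · refine h.Jy_det_ne (mem_ch A x) ⟨h0, ?_⟩
      have h1 := h.eqF x h0
      unfold pM at h1 ⊢
      exact eval_ne_zero hg.monic _ hE.1 h1

end Mbr

/-! ### the final theorem -/

section final

variable [IsDomain R] [CharZero R] [MeasurableSpace M] [BorelSpace M] [ConnectedSpace M]
  [CompactSpace M] [T2Space M] {𝔭 : PrD n r R} {𝔰 : FmD r R} {T : Type*} {l : Filter T}
  {ev : T → R →+* ℂ} {L : T → ℝ}

/-- the fields `hol`, `deg`, `cov`, `mass` of `SDat` -/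
structure SFld (A : Atl n M) [Countable A.ι] (K : Kah A) (Lb : LB A)
    (s : Fin (n + 1) → A.ι → M → ℂ) (C0 c : ℝ) (d : ℕ) (L : ℝ) : Prop where
  hol : ∀ j, IsHS Lb univ (s j)
  deg : ∀ S : Finset M, (∀ x ∈ S, NZ s x ∧ Jsq K s x ≠ 0) →
    (∀ x ∈ S, ∀ y ∈ S, quo s x = quo s y) → S.card ≤ d
  cov : ∃ P : MvPolynomial (Fin n) ℂ, P ≠ 0 ∧
    (∀ x, NZ s x → MvPolynomial.eval (quo s x) P ≠ 0 → Jsq K s x ≠ 0) ∧
    ∀ C : Set (Fin n → ℂ), IsCompact C → (∀ w ∈ C, (∀ j, w j ≠ 0) ∧ MvPolynomial.eval w P ≠ 0) →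
      IsCompact {x | NZ s x ∧ quo s x ∈ C}
  mass : c * (vm (volK K)).real univ ≤
    (vm (volK K)).real {x | NZ s x ∧ (∀ j, |Real.log ‖quo s x j‖| ≤ C0 * L) ∧ c ≤ Jsq K s x}

/-- **GLUE-23** -/
theorem glue23 [l.NeBot] (hS : Scale l ev L) (hD : AlgD 𝔭 𝔰) {k c1 C1 : ℝ} (hc1 : 0 < c1)
    (H : ∀ᶠ t in l, ∃ (A : Atl n M) (_ : Countable A.ι) (O : LB A) (U : Fin r → Fn A)
      (σ : HSymp A), MbV 𝔭 𝔰 (ev t) A O U σ k c1 C1 (L t)) :
    ∃ (m : ℕ) (sp : Fin (n + 1) → MvPolynomial (Fin r) R) (C0 : ℝ) (d : ℕ), 0 < m ∧ 0 < C0 ∧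
      (∀ j, (sp j).IsHomogeneous m) ∧
      ∀ v : ℝ, 0 < v → ∃ c : ℝ, 0 < c ∧ ∀ᶠ t in l, ∀ (A : Atl n M) [Countable A.ι] (O : LB A)
        (U : Fin r → Fn A) (σ : HSymp A), MbV 𝔭 𝔰 (ev t) A O U σ k c1 C1 (L t) →
        ∀ (K : Kah A) (ρ : ℝ),
          (∀ i, ∀ x ∈ (A.e i).source, (K.g i x).det.re = ρ * ‖(σ.s i x).det‖) →
          (vm (volK K)).real univ ≤ v * L t ^ n →
          SFld A K (O ^ m) (fun j => evF U ((sp j).map (ev t))) C0 c d (L t) := by
  obtain ⟨f, C0, hC0, hf, hm⟩ := glue_mass hS hD hc1 H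
  obtain ⟨𝔱⟩ := exists_STup 𝔭 f
  refine ⟨𝔱.m, 𝔱.sp, C0, 𝔭.F.natDegree * ∏ i, (f i).totalDegree, 𝔱.pos, hC0, 𝔱.sp_hom,
    fun v hv => ?_⟩
  obtain ⟨c, hc, hct⟩ := hm v hv
  refine ⟨c, hc, ?_⟩
  have hrF : resultant 𝔭.F (derivative 𝔭.F) ≠ 0 := fun h0 =>
    not_dvd_deriv hD (dvd_of_resultant_eq_zero hD.pg.monic hD.pp h0)
  have e1 : ∀ᶠ t in l, ∀ i, MvPolynomial.map (ev t) (MvPolynomial.pderiv i (f i)) ≠ 0 :=
    Filter.eventually_all.2 fun i => hS.map_ne_zero (hf i).2.2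
  filter_upwards [hct, hS.ae_ne_zero hrF, hS.map_ne_zero hrF, e1] with t h1 h2 h3 h4
  intro A _ O U σ h K ρ hK hvol
  exact ⟨fun j => h.mb.mb.hs_sS 𝔱 j,
    fun S hS hq => h.mb.mb.deg_le hD.pg h2 𝔱 (fun i => (hf i).2.1) K S hS hq,
    h.mb.mb.cov hD.pg h.mb.base 𝔱 (fun i => (hf i).2.1) h3 h4 K,
    h1 A O U σ h K ρ hK hvol 𝔱⟩

end final

end Crest.Agent.R281.GT_639
end
end

-- ▼ part R281/SDb1_249
section

/-!
# R281, SDAT-ASM (helper249): members along a scale ==> the literal input `SDat` of Theorem S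

`MemS` : one member: `MbV` (639: coordinates `U`, form `sigma`, mass of size `e^{kL} L^n`), metric
`K0` with `|det sigma| = mu det K0`, a metric of `O` with `cur h = kap K0`, volume in `[V1, V2]`.
`sdat_of` : constants `m v C0 c d` such that for every member far out and `K = L K0` the fields of
`SIn_14.SDat` hold for sections `s_0 .. s_n` of `O^m`, `h^m`.
-/

set_option autoImplicit false
set_option linter.unusedSectionVars false

open Set Filter Topology Complex MeasureTheory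
open scoped ContDiff Matrix ComplexConjugate ComplexOrder ENNReal

noncomputable section

namespace Crest.Agent.R281.SDb_249

open Crest.Agent.R275.Geo Crest.Agent.R275.Core144 Crest.Agent.R275.EDR890
open Crest.Agent.R273.Defs_333 Crest.Agent.R273.Kah_333 Crest.Agent.R273.HM_333
open Crest.Agent.R273.SerA_945 (Fn)
open Crest.Agent.R273.Chow_313 (evF)
open Crest.Agent.R273.Vm_333 Crest.Agent.R273.Vol_333
open Crest.Agent.R281.Defs_273
open Crest.Agent.R281.SIn_14 Crest.Agent.R281.GT_639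
open Crest.Agent.R281.TrU_249 (Scale)

variable {n r : ℕ} {R : Type*} [CommRing R] {M : Type} [TopologicalSpace M]

/-- one member -/
structure MemS [MeasurableSpace M] [BorelSpace M] (𝔭 : PrD n r R) (𝔰 : FmD r R) (e : R →+* ℂ)
    (A : Atl n M) [Countable A.ι] (O : LB A) (U : Fin r → Fn A) (σ : HSymp A) (K0 : Kah A)
    (h : HM O) (κ V1 V2 k c1 C1 L : ℝ) : Prop where
  mbv : MbV 𝔭 𝔰 e A O U σ k c1 C1 L
  curv : ∀ i, ∀ x ∈ (A.e i).source, cur h i x = (κ : ℂ) • K0.g i x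
  mu : ∃ mu : ℝ, 0 < mu ∧ ∀ i, ∀ x ∈ (A.e i).source,
    ‖(σ.s i x).det‖ = mu * (K0.g i x).det.re
  v1 : V1 ≤ (vm (volK K0)).real univ
  v2 : (vm (volK K0)).real univ ≤ V2

variable [IsDomain R] [CharZero R] [MeasurableSpace M] [BorelSpace M] [ConnectedSpace M]
  [CompactSpace M] [T2Space M] {𝔭 : PrD n r R} {𝔰 : FmD r R} {T : Type*} {l : Filter T}
  {ev : T → R →+* ℂ} {L : T → ℝ}

/-- volume of the rescaled metric -/
theorem vol_scale {A : Atl n M} [Countable A.ι] {K0 K : Kah A} {l : ℝ} (hl : 0 ≤ l)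
    (hK : ∀ i, ∀ x ∈ (A.e i).source, K.g i x = (l : ℂ) • K0.g i x) :
    (vm (volK K)).real univ = l ^ n * (vm (volK K0)).real univ := by
  have h1 : vm (volK K) = ENNReal.ofReal (l ^ n) • vm (volK K0) := by
    refine Pfa_69.vm_ratio (by positivity) fun i x hx => ?_
    show (K.g i x).det.re = l ^ n * (K0.g i x).det.re
    rw [hK i x hx, Matrix.det_smul, Fintype.card_fin, ← Complex.ofReal_pow, Complex.re_ofReal_mul]
  rw [h1, measureReal_ennreal_smul_apply, ENNReal.toReal_ofReal (by positivity)]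

/-- **SDAT-ASM** -/
theorem sdat_of [l.NeBot] (hS : Scale l ev L) (hD : AlgD 𝔭 𝔰) {κ V1 V2 k c1 C1 : ℝ}
    (hV1 : 0 < V1) (hc1 : 0 < c1)
    (H : ∀ᶠ t in l, ∃ (A : Atl n M) (_ : Countable A.ι) (O : LB A) (U : Fin r → Fn A)
      (σ : HSymp A) (K0 : Kah A) (h : HM O),
      MemS 𝔭 𝔰 (ev t) A O U σ K0 h κ V1 V2 k c1 C1 (L t)) :
    ∃ (m : ℕ) (v C0 c : ℝ) (d : ℕ), 0 < m ∧ 0 < v ∧ 0 < C0 ∧ 0 < c ∧
      ∀ᶠ t in l, ∀ (A : Atl n M) [Countable A.ι] (O : LB A) (U : Fin r → Fn A)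
        (σ : HSymp A) (K0 : Kah A) (h : HM O),
        MemS 𝔭 𝔰 (ev t) A O U σ K0 h κ V1 V2 k c1 C1 (L t) → ∀ K : Kah A,
          (∀ i, ∀ x ∈ (A.e i).source, K.g i x = (L t : ℂ) • K0.g i x) →
          ∃ (s : Fin (n + 1) → A.ι → M → ℂ) (om : A.ι → M → ℂ),
            SDat A K (O ^ m) (pow h m) s om (m * κ) v C0 c d (L t) := by
  have H' : ∀ᶠ t in l, ∃ (A : Atl n M) (_ : Countable A.ι) (O : LB A) (U : Fin r → Fn A)
      (σ : HSymp A), MbV 𝔭 𝔰 (ev t) A O U σ k c1 C1 (L t) := by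
    filter_upwards [H] with t ht
    obtain ⟨A, i, O, U, σ, K0, h, hm⟩ := ht
    exact ⟨A, i, O, U, σ, hm.mbv⟩
  obtain ⟨m, sp, C0, d, hm, hC0, -, hv⟩ := glue23 hS hD hc1 H'
  set v : ℝ := |V2| + V1⁻¹ with hvdef
  have hvpos : 0 < v := by positivity
  obtain ⟨c, hc, hct⟩ := hv v hvpos
  refine ⟨m, v, C0, c, d, hm, hvpos, hC0, hc, ?_⟩
  filter_upwards [hct, hS.tendsto.eventually_ge_atTop 1] with t h1 hL A _ O U σ K0 h hM K hK
  have hL0 : 0 < L t := by linarith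
  obtain ⟨mu, hmu, hdet⟩ := hM.mu
  have hvol := vol_scale hL0.le hK
  have hLn : 0 < L t ^ n := by positivity
  have hlow : v⁻¹ ≤ V1 := by
    rw [inv_le_comm₀ hvpos hV1]
    linarith [abs_nonneg V2]
  have hge : v⁻¹ * L t ^ n ≤ (vm (volK K)).real univ := by
    rw [hvol, mul_comm]
    exact mul_le_mul_of_nonneg_left (hlow.trans hM.v1) hLn.le
  have hle : (vm (volK K)).real univ ≤ v * L t ^ n := by
    rw [hvol, mul_comm]
    refine mul_le_mul_of_nonneg_right (hM.v2.trans ?_) hLn.le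
    have := le_abs_self V2
    have h3 : 0 < V1⁻¹ := inv_pos.2 hV1
    linarith
  have hρ : ∀ i, ∀ x ∈ (A.e i).source,
      (K.g i x).det.re = (L t ^ n * mu⁻¹) * ‖(σ.s i x).det‖ := by
    intro i x hx
    rw [hK i x hx, Matrix.det_smul, Fintype.card_fin, ← Complex.ofReal_pow,
      Complex.re_ofReal_mul, hdet i x hx]
    field_simp
  have hF := h1 A O U σ hM.mbv K (L t ^ n * mu⁻¹) hρ hle
  obtain ⟨om, ho1, ho2⟩ := Pfa_69.exists_omK σ K0 hmu hL0.le hdet hK
  exact ⟨fun j => evF U ((sp j).map (ev t)), om,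
    { hol := hF.hol
      curv := Md_252.hm_curv hL0.ne' hM.curv hK m
      omh := ho1
      omn := ho2
      vol_ge := hge
      vol_le := hle
      deg := hF.deg
      cov := hF.cov
      mass := hF.mass }⟩

end Crest.Agent.R281.SDb_249
end
end

-- ▼ part R281/Nme2_989
section

/-!
# R281 (S0424), NORM-END part 2 (helper989): period of the algebraic form periodic up to sign

* `order_sq`    : `b (z+1)^2 = b z^2`, zero free, moderate growth ==> `|log‖b‖ - k0 L| ≤ D`, `k0` real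
* `norm_end_sq` : NORM-END with this hypothesis
* `im_bounds`   : `c0 L ≤ Im (r z + h (q z)) ≤ C0 L` near the end
-/

set_option autoImplicit false
set_option linter.unusedSectionVars false

open Polynomial Set Filter Topology Complex MeasureTheory
open scoped ENNReal

noncomputable section

namespace Crest.Agent.R281.Nme_989

open Crest.Agent.R281.Esc1_989 Crest.Agent.R281.Ends2_989 Crest.Agent.R281.Ends3_989
open Crest.Agent.R281.Ends4_989

/-- order of a function which is periodic up to sign -/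
theorem order_sq {b : ℂ → ℂ} {Y : ℝ} (hb : DifferentiableOn ℂ b {z | Y < z.im})
    (hper : ∀ z : ℂ, Y < z.im → b (z + 1) ^ 2 = b z ^ 2) (hb0 : ∀ z : ℂ, Y < z.im → b z ≠ 0)
    {C a : ℝ} (hg : ∀ᶠ z in lEnd, ‖b z.1‖ ≤ C * Real.exp (a * Ls z)) :
    ∃ k0 D : ℝ, ∀ᶠ z in lEnd, |Real.log ‖b z.1‖ - k0 * Ls z| ≤ D := by
  obtain ⟨k, D, h⟩ := order_of_growth (b := fun z => b z ^ 2) (Y := Y) (hb.pow 2) hper
    (fun z hz => pow_ne_zero 2 (hb0 z hz)) (C := C ^ 2) (a := 2 * a) (by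
      filter_upwards [hg] with z hz
      rw [norm_pow]
      refine (pow_le_pow_left₀ (norm_nonneg _) hz 2).trans (le_of_eq ?_)
      rw [mul_pow, ← Real.exp_nat_mul]
      congr 2
      push_cast
      ring)
  refine ⟨k / 2, D / 2, ?_⟩
  filter_upwards [h] with z hz
  rw [norm_pow, Real.log_pow] at hz
  have h1 : Real.log ‖b z.1‖ - k / 2 * Ls z = ((2 : ℕ) * Real.log ‖b z.1‖ - k * Ls z) / 2 := by
    push_cast
    ring
  rw [h1, abs_div, abs_of_pos (show (0 : ℝ) < 2 by norm_num)]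
  exact div_le_div_of_nonneg_right hz (by norm_num)


open Crest.Agent.R275 Crest.Agent.R275.Geo Crest.Agent.R275.Core144 Crest.Agent.R275.EDR890
open Crest.Agent.R273.Defs_333 Crest.Agent.R273.Kah_333
open Crest.Agent.R273.SerA_945 (Fn)
open Crest.Agent.R273.Vm_333
open Crest.Agent.R281.Defs_273 Crest.Agent.R281.GT_639
open Crest.Agent.R281.HkP2_508 (volS)
open Crest.Agent.R281.TrPL_726 (Tr)
open Crest.Agent.R281.TrU_249

variable {n r : ℕ} {M : Type} [TopologicalSpace M] [MeasurableSpace M] [BorelSpace M]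
  [ConnectedSpace M]

/-- **NORM-END** for a period which is periodic up to sign -/
theorem norm_end_sq (hn : 0 < n) {𝔭 : PrD n r MgR} {𝔰 : FmD r MgR} (hD : AlgD 𝔭 𝔰)
    {b : ℂ → ℂ} {Y : ℝ} (hb : DifferentiableOn ℂ b {z | Y < z.im})
    (hper : ∀ z : ℂ, Y < z.im → b (z + 1) ^ 2 = b z ^ 2) (hb0 : ∀ z : ℂ, Y < z.im → b z ≠ 0)
    {κ : ℝ} (hκ : 0 < κ) {yy : Hp → ℝ} {c0 C0 : ℝ} (hc0 : 0 < c0)
    (hy : ∀ᶠ z in lEnd, c0 * Ls z ≤ yy z ∧ yy z ≤ C0 * Ls z)
    (H : ∀ᶠ z in lEnd, ∃ (A : Atl n M) (_ : Countable A.ι) (O : LB A) (U : Fin r → Fn A)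
      (σ : HSymp A), IsMb 𝔭 𝔰 (ev z) A O U σ ∧
        vm (volS σ) univ = ENNReal.ofReal (κ * ‖b z.1‖ ^ n * yy z ^ n)) :
    ∃ k0 D c1 C1 : ℝ, 0 < c1 ∧
      (∀ᶠ z in lEnd, |Real.log ‖b z.1‖ - k0 * Ls z| ≤ D) ∧
      ∀ᶠ z in lEnd,
        c1 * Real.exp ((n * k0 : ℝ) * Ls z) * Ls z ^ n ≤ κ * ‖b z.1‖ ^ n * yy z ^ n ∧
        κ * ‖b z.1‖ ^ n * yy z ^ n ≤ C1 * Real.exp ((n * k0 : ℝ) * Ls z) * Ls z ^ n := by
  obtain ⟨a, C, hC, hV⟩ := vol_le hD H
  have hL1 : ∀ᶠ z in lEnd, 1 ≤ Ls z := tendsto_Ls.eventually_ge_atTop 1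
  have hbY : ∀ᶠ z in lEnd, b z.1 ≠ 0 := eventually_lEnd.2 ⟨Y, fun z hz => hb0 _ hz⟩
  have hbn : ∀ᶠ z in lEnd, ‖b z.1‖ ^ n ≤ C / (κ * c0 ^ n) * Real.exp (|a| * Ls z) := by
    filter_upwards [hV, hy, hL1] with z h1 h2 h3
    have hL : 0 < Ls z := by linarith
    have h4 : (c0 * Ls z) ^ n ≤ yy z ^ n := pow_le_pow_left₀ (by positivity) h2.1 n
    have h5 : κ * ‖b z.1‖ ^ n * (c0 * Ls z) ^ n ≤ C * Real.exp (|a| * Ls z) * Ls z ^ n := by
      refine (mul_le_mul_of_nonneg_left h4 (by positivity)).trans (h1.trans ?_)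
      have : Real.exp (a * Ls z) ≤ Real.exp (|a| * Ls z) :=
        Real.exp_le_exp.2 (mul_le_mul_of_nonneg_right (le_abs_self a) hL.le)
      gcongr
    rw [mul_pow] at h5
    have h6 : (κ * c0 ^ n * ‖b z.1‖ ^ n) * Ls z ^ n ≤ (C * Real.exp (|a| * Ls z)) * Ls z ^ n := by
      calc (κ * c0 ^ n * ‖b z.1‖ ^ n) * Ls z ^ n = κ * ‖b z.1‖ ^ n * (c0 ^ n * Ls z ^ n) := by ring
        _ ≤ _ := h5
    have h7 := le_of_mul_le_mul_right h6 (by positivity)
    rw [div_mul_eq_mul_div, le_div_iff₀ (by positivity)]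
    linarith
  have hbg : ∀ᶠ z in lEnd, ‖b z.1‖ ≤ (1 + C / (κ * c0 ^ n)) * Real.exp (|a| * Ls z) := by
    filter_upwards [hbn, hL1] with z h1 h2
    have hL : 0 < Ls z := by linarith
    have h3 : 1 ≤ Real.exp (|a| * Ls z) := Real.one_le_exp (by positivity)
    have h4 : ‖b z.1‖ ≤ 1 + ‖b z.1‖ ^ n := by
      rcases le_or_gt ‖b z.1‖ 1 with h | h
      · have : 0 ≤ ‖b z.1‖ ^ n := by positivity
        linarith
      · have := le_self_pow₀ h.le hn.ne'
        linarith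
    have h5 : (1 : ℝ) + ‖b z.1‖ ^ n ≤ Real.exp (|a| * Ls z) +
        C / (κ * c0 ^ n) * Real.exp (|a| * Ls z) := add_le_add h3 h1
    calc ‖b z.1‖ ≤ _ := h4
      _ ≤ _ := h5
      _ = _ := by ring
  obtain ⟨k0, D, hD0⟩ := order_sq hb hper hb0 hbg
  refine ⟨k0, D, κ * Real.exp (-(n * D)) * c0 ^ n, κ * Real.exp (n * D) * C0 ^ n, by positivity,
    hD0, ?_⟩
  filter_upwards [hD0, hy, hL1, hbY] with z h1 h2 h3 h4
  have hL : 0 < Ls z := by linarith
  have hbp : 0 < ‖b z.1‖ := norm_pos_iff.2 h4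
  have hyp : 0 ≤ yy z := le_trans (by positivity) h2.1
  have h5 := abs_le.1 h1
  have e1 : ‖b z.1‖ = Real.exp (Real.log ‖b z.1‖) := (Real.exp_log hbp).symm
  have e2 : ‖b z.1‖ ^ n = Real.exp (n * Real.log ‖b z.1‖) := by
    rw [Real.exp_nat_mul, Real.exp_log hbp]
  have hlo : Real.exp (-(n * D)) * Real.exp ((n * k0 : ℝ) * Ls z) ≤ ‖b z.1‖ ^ n := by
    rw [e2, ← Real.exp_add]
    refine Real.exp_le_exp.2 ?_
    have : (n : ℝ) * (-D) ≤ n * (Real.log ‖b z.1‖ - k0 * Ls z) :=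
      mul_le_mul_of_nonneg_left h5.1 (Nat.cast_nonneg n)
    linarith
  have hhi : ‖b z.1‖ ^ n ≤ Real.exp (n * D) * Real.exp ((n * k0 : ℝ) * Ls z) := by
    rw [e2, ← Real.exp_add]
    refine Real.exp_le_exp.2 ?_
    have : (n : ℝ) * (Real.log ‖b z.1‖ - k0 * Ls z) ≤ n * D :=
      mul_le_mul_of_nonneg_left h5.2 (Nat.cast_nonneg n)
    linarith
  have hylo : (c0 * Ls z) ^ n ≤ yy z ^ n := pow_le_pow_left₀ (by positivity) h2.1 n
  have hyhi : yy z ^ n ≤ (C0 * Ls z) ^ n := pow_le_pow_left₀ hyp h2.2 n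
  rw [mul_pow] at hylo hyhi
  constructor
  · calc κ * Real.exp (-(n * D)) * c0 ^ n * Real.exp ((n * k0 : ℝ) * Ls z) * Ls z ^ n
        = κ * (Real.exp (-(n * D)) * Real.exp ((n * k0 : ℝ) * Ls z)) * (c0 ^ n * Ls z ^ n) := by
          ring
      _ ≤ κ * ‖b z.1‖ ^ n * yy z ^ n := by gcongr
  · calc κ * ‖b z.1‖ ^ n * yy z ^ n
        ≤ κ * (Real.exp (n * D) * Real.exp ((n * k0 : ℝ) * Ls z)) * (C0 ^ n * Ls z ^ n) := by
          gcongr
      _ = _ := by ring

end Crest.Agent.R281.Nme_989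
end
end

-- ▼ part R281/SDR3_273

/-!
# R281 (S0424), SDAT-RAY (helper273), part 3: the composition

* `MemW K τ H`   : `H` is over `τ` and has the complex structure `J 0` of a member of `K`
                   (`K.Mem τ H`, or `MemN K τ H` of `RkD_902`)
* `Node Y κ mu H`: the static node: an atlas of `J 0` with `ConeC`, `FormC`, a metric with
                   curvature `κ K0`, `‖det σ‖ = mu det K0`
* `sdat_end_of`  : `Alg` and the static node ⟹ `SIn_14.SDat` for all members over `{y0 < Im τ}`,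
                   with uniform constants
-/

set_option autoImplicit false
set_option linter.unusedSectionVars false
set_option maxSynthPendingDepth 3

open Set Filter Topology Complex MeasureTheory
open scoped ContDiff Matrix ComplexConjugate ComplexOrder ENNReal

noncomputable section

namespace Crest.Agent.R281.SDR_273

open Crest.Agent.R275.Geo Crest.Agent.R275.Core144 Crest.Agent.R275.EDR890
open Crest.Agent.R275.GC293
open Crest.Agent.R273.Defs_333 Crest.Agent.R273.Kah_333 Crest.Agent.R273.HM_333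
open Crest.Agent.R273.Vol_333 Crest.Agent.R273.Vm_333
open Crest.Agent.R273.SerA_945 (Fn)
open Crest.Agent.R260.ACM_580 Crest.Agent.R260.NNB_580
open Crest.Agent.R281.HkR_835 Crest.Agent.R281.Ti_846 Crest.Agent.R281.HkP2_508
open Crest.Agent.R281.Defs_273
open Crest.Agent.R281.Alg_998 Crest.Agent.R281.RkD_902 Crest.Agent.R281.Alg_867
open Crest.Agent.R281.CA_867 Crest.Agent.R281.AF_867
open Crest.Agent.R281.Esc1_989 Crest.Agent.R281.Ends2_989 Crest.Agent.R281.Ends3_989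
open Crest.Agent.R281.Ends4_989
open Crest.Agent.R281.Nme_989 (eventually_lEnd scale_mg norm_end_sq mbV_of)
open Crest.Agent.R281.GTi_989 (ConeC FormC ConnM EndAlg)
open Crest.Agent.R281.GT_639 (IsMb MbV)
open Crest.Agent.R281.SDb_249 (MemS sdat_of)
open Crest.Agent.R281.SIn_14 (SDat)
open Crest.Agent.R281.Fuj7_207 (bn)

variable {n : ℕ} {X : Type} [TopologicalSpace X] {C : RCh (Cn (2 * n)) X}
  {Q : F2 C →ₗ[ℝ] F2 C →ₗ[ℝ] ℝ} {F : Frm C Q} {A : F2 C}

/-! ### members up to rotation about `om 0` -/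

/-- `H` lies over `τ` and has the complex structure of a member of the cusp -/
def MemW (K : Cusp F A) (τ : ℂ) (H : HkT C) : Prop :=
  AtTau F A H τ ∧ ∃ H', K.Mem τ H' ∧ ∀ i, ∀ z ∈ (C.e i).target, H'.J 0 i z = H.J 0 i z

theorem memW_of_mem {K : Cusp F A} {τ : ℂ} {H : HkT C} (h : K.Mem τ H) : MemW K τ H :=
  ⟨K.mem_at τ H h, H, h, fun _ _ _ => rfl⟩

theorem memW_of_memN {K : Cusp F A} {τ : ℂ} {H : HkT C} (h : MemN K τ H) : MemW K τ H := by
  obtain ⟨⟨H', R, hR, hM, hR0, he⟩, z, hz, h1, h2⟩ := h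
  have hJ : ∀ i, ∀ x ∈ (C.e i).target, H'.J 0 i x = H.J 0 i x := by
    intro i x hx
    rw [← he.J 0 i x hx, HkT.rot_J, hR0]
    ext1 v
    rw [HkT.Jv_apply]
    simp
  have hom : Cl (H.om 0) (H'.om 0) := by
    refine Cl.of_eq_on fun i x hx => ?_
    rw [← he.om 0 i x hx, HkT.rot_om, hR0]
    ext u v
    rw [F2.lin_w, Fin.sum_univ_three]
    simp
  refine ⟨⟨(K.mem_at τ H' hM).im_pos, hom.trans (K.mem_at τ H' hM).om0, (z : ℂ), ?_, ?_, ?_⟩,
    H', hM, hJ⟩
  · exact_mod_cast hz.ne'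
  · simpa using h1
  · simpa using h2

/-! ### the static node -/

/-- **the static node** -/
def Node {N : ℕ} (Y : CDat (2 * n) N ℂ) (κ mu : ℝ) (H : HkT C) : Prop :=
  ∃ (A' : Atl (2 * n) X) (_ : Finite A'.ι) (_ : GoodA A') (_ : Nonempty (Part A'))
    (hp : Cp (H.acm 0) A') (O : LB A') (U : Fin (N + 1) → Fn A') (σ : HSymp A') (h : HM O),
    ConeC Y O U ∧ FormC Y.D U σ.toH2 ∧
    (∀ i, ∀ x ∈ (A'.e i).source, cur h i x = (κ : ℂ) • (H.kah hp).g i x) ∧
    ∀ i, ∀ x ∈ (A'.e i).source, ‖(σ.s i x).det‖ = mu * ((H.kah hp).g i x).det.re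

/-- the output at one structure -/
def SD [MeasurableSpace X] [BorelSpace X] (m v C0 c : ℝ) (d : ℕ) (L : ℝ) (H : HkT C) : Prop :=
  ∃ (A' : Atl (2 * n) X) (_ : Finite A'.ι) (_ : GoodA A') (_ : Nonempty (Part A'))
    (hp : Cp (H.acm 0) A') (K' : Kah A') (Lb : LB A') (h : HM Lb)
    (s : Fin (2 * n + 1) → A'.ι → X → ℂ) (om : A'.ι → X → ℂ),
    (∀ i, ∀ x ∈ (A'.e i).source, K'.g i x = (L : ℂ) • (H.kah hp).g i x) ∧
    SDat A' K' Lb h s om m v C0 c d L

variable [CompactSpace X] [T2Space X] [ConnectedSpace X]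

/-- a connected model -/
theorem Node.conn {N : ℕ} {Y : CDat (2 * n) N ℂ} {κ mu : ℝ} {H : HkT C} (h : Node Y κ mu H) :
    ConnM Y := by
  obtain ⟨A', -, -, -, hp, O, U, σ, hm, hC, -⟩ := h
  exact ⟨X, inferInstance, inferInstance, A', O, U, hC⟩

/-- **SDAT-RAY from the static node** -/
theorem sdat_end_of [MeasurableSpace X] [BorelSpace X] (hX : Ctx n C Q) (K : Cusp F A)
    (a : AlgE F A K)
    (hnode : ∀ {N : ℕ} (Y : CDat (2 * n) N ℂ), Y.Ok → ∀ (κ : ℝ) (β τ : ℂ) (H : HkT C),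
      AtTau F A H τ → β ≠ 0 → MemA F A Y κ β τ H →
      Node Y κ ((√(F.N / Q A A) * ‖β‖ * τ.im) ^ (2 * n)) H)
    {τ₁ : ℂ} {H₁ : HkT C} (h₁ : K.Mem τ₁ H₁) :
    ∃ (m v C0 c : ℝ) (d : ℕ) (y0 c0 C1 : ℝ) (Lf : ℂ → ℝ), 0 < m ∧ 0 < v ∧ 0 < C0 ∧ 0 < c ∧
      0 < c0 ∧ (∀ τ : ℂ, y0 < τ.im → 1 ≤ Lf τ ∧ c0 * τ.im ≤ Lf τ ∧ Lf τ ≤ C1 * τ.im) ∧
      ∀ τ : ℂ, y0 < τ.im → ∀ H, MemW K τ H → SD m v C0 c d (Lf τ) H := by
  have hn := hX.n1
  have hNF : NF K.Y a.r a.h a.k a.Ck := ⟨a.r_pos, a.h_diff, a.k_im, a.k_inv, a.k_bd⟩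
  -- the constants of the plane
  have hat := K.mem_at τ₁ H₁ h₁
  obtain ⟨z₁, hz₁, hzN, -⟩ := Md_252.atTau_z hX.symm hX.ex hX.eq hat
  have hNp := F.hN
  have hQA : 0 < Q A A := by
    rw [← hzN]
    have := norm_pos_iff.2 hz₁
    have := hat.im_pos
    positivity
  obtain ⟨P, q, κ₀, hκ₀, T, hQq⟩ := hX.top
  have hqA : 0 < q A := by
    have h1 := hQq A A
    rw [QuadraticMap.polar_self] at h1
    rw [h1] at hQA
    simp only [nsmul_eq_mul] at hQA
    push_cast at hQA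
    by_contra hcon
    push Not at hcon
    nlinarith [mul_nonneg hκ₀.le (neg_nonneg.2 hcon)]
  set V : ℝ := q A ^ n / (2 ^ (2 * n) * (2 * n).factorial) with hV
  have hVp : 0 < V := by positivity
  have hvol : ∀ (H : HkT C), Cl (H.om 0) A → ∀ (A' : Atl (2 * n) X) [Finite A'.ι]
      (_ : Part A') (hp : Cp (H.acm 0) A'), (vm (volK (H.kah hp))).real univ = V :=
    fun H hH A' _ Pt hp => Md_252.vol_mem (two_mul n) T hqA hH Pt hp
  -- the static node at the members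
  have hst : ∀ (τ : ℂ) (H : HkT C) (hM : MemW K τ H) (hτ : 1 < (a.k τ).im),
      Node (a.Kc.mem fun i => ev (hp (a.k τ) hτ) (a.c' i)) a.κ
        ((√(F.N / Q A A) * ‖a.b (a.k τ)‖ * τ.im) ^ (2 * n)) H := by
    intro τ H hM hτ
    obtain ⟨hA, H', hH', hJ⟩ := hM
    obtain ⟨m⟩ := a.mem τ H' hH'
    exact hnode _ (a.mem_ok _) a.κ _ τ H hA (a.b_ne _ hτ) (m.congr hJ)
  -- members over the points of the end
  obtain ⟨T₀, hT₀⟩ := hNF.k_per
  have hpt : ∀ z : Hp, max T₀ 1 < z.1.im → ∃ H, K.Mem (per a.r a.h z.1) H ∧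
      Node (a.Kc.mem fun i => ev z (a.c' i)) a.κ
        ((√(F.N / Q A A) * ‖a.b z.1‖ * (per a.r a.h z.1).im) ^ (2 * n)) H := by
    intro z hz
    have hz0 : T₀ < z.1.im := (le_max_left _ _).trans_lt hz
    have hz1 : 1 < z.1.im := (le_max_right _ _).trans_lt hz
    obtain ⟨e1, e2⟩ := hT₀ z.1 hz0
    obtain ⟨H, hH⟩ := mem_all K h₁ e1
    refine ⟨H, hH, ?_⟩
    have h3 := hst _ H (memW_of_mem hH) (by rw [e2]; exact hz1)
    have h4 : hp (a.k (per a.r a.h z.1)) (by rw [e2]; exact hz1) = z := Subtype.ext e2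
    rw [h4, e2] at h3
    exact h3
  -- a chart of the code
  have hI : max T₀ 1 < (((|T₀| + 2 : ℝ) : ℂ) * I).im := by
    have : (((|T₀| + 2 : ℝ) : ℂ) * I).im = |T₀| + 2 := by simp
    rw [this]
    exact max_lt (by linarith [le_abs_self T₀]) (by linarith [abs_nonneg T₀])
  obtain ⟨q₀⟩ : Nonempty (Fin a.Kc.Y.q) := by
    have hI0 : (0 : ℝ) < (((|T₀| + 2 : ℝ) : ℂ) * I).im :=
      lt_trans one_pos ((le_max_right _ _).trans_lt hI)
    obtain ⟨H, -, A', -, -, -, hp', O, U, σ, h, hC, -⟩ := hpt ⟨_, hI0⟩ hI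
    obtain ⟨x⟩ : Nonempty X := inferInstance
    obtain ⟨i, hi⟩ := A'.cover x
    obtain ⟨k, hk⟩ := hC.nz i x hi
    obtain ⟨b, -⟩ := (a.mem_ok ⟨_, hI0⟩).exists_dG (v := fun k => U k i x)
      (fun h0 => hk (congrFun h0 k)) fun l => hC.mem i x hi _ ⟨l, rfl⟩
    exact ⟨b⟩
  -- the algebraic data
  obtain ⟨j, hE⟩ := a.exists_end q₀ (l := lEnd) le_rfl
    (eventually_lEnd.2 ⟨max T₀ 1, fun z hz => by
      obtain ⟨H, -, hN⟩ := hpt z hz
      exact hN.conn⟩)
  have hAD := hE.algD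
  -- the mass of the algebraic form
  have hmass : ∀ (z : Hp) (y : ℝ) (H : HkT C), Cl (H.om 0) A → ∀ (A' : Atl (2 * n) X)
      (_ : Finite A'.ι) (_ : Part A') (hp : Cp (H.acm 0) A') (σ : HSymp A'),
      (∀ i, ∀ x ∈ (A'.e i).source, ‖(σ.s i x).det‖ =
        (√(F.N / Q A A) * ‖a.b z.1‖ * y) ^ (2 * n) * ((H.kah hp).g i x).det.re) →
      vm (volS σ) univ = ENNReal.ofReal
        ((√(F.N / Q A A) ^ (2 * n) * V) * ‖a.b z.1‖ ^ (2 * n) * y ^ (2 * n)) := by
    intro z y H hH A' _ Pt hp' σ hσ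
    rw [Md_252.mass_univ ((even_two_mul n).pow_nonneg _) hσ, hvol H hH A' Pt hp']
    congr 1
    rw [mul_pow, mul_pow]
    ring
  obtain ⟨c1', C1', hc1', hy'⟩ := hNF.im_per
  have hκV : 0 < √(F.N / Q A A) ^ (2 * n) * V := by
    have : 0 < √(F.N / Q A A) := Real.sqrt_pos.2 (by positivity)
    positivity
  obtain ⟨k0, D, c1, C1, hc1, -, hends⟩ := norm_end_sq (M := X) (n := 2 * n) (by omega) hAD
    (b := a.b) (Y := 1) a.b_diff a.b_per a.b_ne hκV
    (yy := fun z => (per a.r a.h z.1).im) hc1' hy'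
    (eventually_lEnd.2 ⟨max T₀ 1, fun z hz => by
      obtain ⟨H, hH, A', i1, -, ⟨Pt⟩, hp', O, U, σ, h, hC, hF, hcur, hdet⟩ := hpt z hz
      rw [← a.Y_ev z] at hC hF
      exact ⟨A', inferInstance, O, U, σ, hE.isMb hC hF,
        hmass z _ H (K.mem_at _ H hH).om0 A' i1 Pt hp' σ hdet⟩⟩)
  obtain ⟨T₁, hT₁⟩ := eventually_lEnd.1 hends
  -- one member
  have hone : ∀ (z : Hp) (hz : max (max T₀ T₁) 1 < z.1.im) (H : HkT C), Cl (H.om 0) A →
      ∀ (A' : Atl (2 * n) X) (_ : Finite A'.ι) (_ : Part A') (hp : Cp (H.acm 0) A')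
        (O : LB A') (U : Fin (a.N + 1) → Fn A') (σ : HSymp A') (h : HM O),
        ConeC (a.Kc.mem fun i => ev z (a.c' i)) O U →
        FormC (a.Kc.mem fun i => ev z (a.c' i)).D U σ.toH2 →
        (∀ i, ∀ x ∈ (A'.e i).source, cur h i x = (a.κ : ℂ) • (H.kah hp).g i x) →
        (∀ i, ∀ x ∈ (A'.e i).source, ‖(σ.s i x).det‖ =
          (√(F.N / Q A A) * ‖a.b z.1‖ * (per a.r a.h z.1).im) ^ (2 * n) *
            ((H.kah hp).g i x).det.re) →
        MemS (Crest.Agent.R281.GTi_989.prD (a.Y.κ q₀)) (Crest.Agent.R281.GTi_989.fmD a.Y.D j)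
          (ev z) A' O U σ (H.kah hp) h a.κ V V ((2 * n : ℕ) * k0) c1 C1 (Ls z) := by
    intro z hz H hH A' i1 Pt hp' O U σ h hC hF hcur hdet
    have z0 : T₀ < z.1.im := ((le_max_left _ _).trans (le_max_left _ _)).trans_lt hz
    have z1 : T₁ < z.1.im := ((le_max_right _ _).trans (le_max_left _ _)).trans_lt hz
    have z2 : 1 < z.1.im := (le_max_right _ _).trans_lt hz
    rw [← a.Y_ev z] at hC hF
    obtain ⟨e1, e2⟩ := hT₁ z z1
    have hv := hvol H hH A' Pt hp'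
    refine ⟨mbV_of (hE.isMb hC hF) (hmass z _ H hH A' i1 Pt hp' σ hdet) e1 e2, hcur,
      ⟨_, ?_, hdet⟩, hv.ge, hv.le⟩
    have hy0 : 0 < (per a.r a.h z.1).im := K.hY.trans (hT₀ z.1 z0).1
    have hb0 : 0 < ‖a.b z.1‖ := norm_pos_iff.2 (a.b_ne _ z2)
    have hs0 : 0 < √(F.N / Q A A) := Real.sqrt_pos.2 (by positivity)
    positivity
  obtain ⟨m, v, C0, c, d, hm, hv, hC0, hc, hfin⟩ := sdat_of (M := X) scale_mg hAD hVp hc1
    (eventually_lEnd.2 ⟨max (max T₀ T₁) 1, fun z hz => by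
      obtain ⟨H, hH, A', i1, -, ⟨Pt⟩, hp', O, U, σ, h, hC, hF, hcur, hdet⟩ := hpt z
        (lt_of_le_of_lt (max_le_max (le_max_left _ _) le_rfl) hz)
      exact ⟨A', inferInstance, O, U, σ, H.kah hp', h,
        hone z hz H (K.mem_at _ H hH).om0 A' i1 Pt hp' O U σ h hC hF hcur hdet⟩⟩)
  obtain ⟨T₂, hT₂⟩ := eventually_lEnd.1 hfin
  obtain ⟨y1, hy1⟩ := hNF.k_high (max (max (max T₀ T₁) 1) T₂)
  obtain ⟨c0', C0', y2, hc0', hy2⟩ := hNF.im_k
  obtain ⟨C3, hC3, hC3'⟩ : ∃ C3 : ℝ, 0 < C3 ∧ C0' ≤ C3 := ⟨max C0' 1, by positivity, le_max_left _ _⟩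
  refine ⟨m * a.κ, v, C0, c, d, max y1 y2, C3⁻¹, c0'⁻¹, fun τ => 2 * Real.pi * (a.k τ).im,
    mul_pos (by exact_mod_cast hm) a.κ_pos, hv, hC0, hc, by positivity, fun τ hτ => ?_,
    fun τ hτ H hM => ?_⟩
  · have t1 : y1 < τ.im := (le_max_left _ _).trans_lt hτ
    have t2 : y2 < τ.im := (le_max_right _ _).trans_lt hτ
    obtain ⟨-, f1⟩ := hy1 τ t1
    obtain ⟨-, f2, f3⟩ := hy2 τ t2
    have f4 : 1 < (a.k τ).im :=
      ((le_max_right _ _).trans (le_max_left _ _)).trans_lt f1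
    have hpi := Real.pi_gt_three
    have f5 : 0 < 2 * Real.pi * (a.k τ).im := by positivity
    refine ⟨by nlinarith, ?_, ?_⟩
    · rw [inv_mul_le_iff₀ hC3]
      exact f3.trans (mul_le_mul_of_nonneg_right hC3' f5.le)
    · rw [le_inv_mul_iff₀ hc0']
      exact f2
  · have t1 : y1 < τ.im := (le_max_left _ _).trans_lt hτ
    obtain ⟨f0, f1⟩ := hy1 τ t1
    have g1 : max (max T₀ T₁) 1 < (a.k τ).im := (le_max_left _ _).trans_lt f1
    have g2 : 1 < (a.k τ).im := (le_max_right _ _).trans_lt g1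
    have g3 : T₂ < (a.k τ).im := (le_max_right _ _).trans_lt f1
    have hper : per a.r a.h (a.k τ) = τ := a.k_inv τ f0
    obtain ⟨A', i1, i2, ⟨Pt⟩, hp', O, U, σ, h, hC, hF, hcur, hdet⟩ := hst τ H hM g2
    have hS := hone (hp (a.k τ) g2) g1 H hM.1.om0 A' i1 Pt hp' O U σ h hC hF hcur (by
      have h5 : (per a.r a.h (hp (a.k τ) g2).1).im = τ.im := by
        show (per a.r a.h (a.k τ)).im = τ.im
        rw [hper]
      rw [h5]
      exact hdet)
    have hL : 0 < Ls (hp (a.k τ) g2) := by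
      have hpi := Real.pi_pos
      have : 0 < (a.k τ).im := by linarith
      show 0 < 2 * Real.pi * (a.k τ).im
      positivity
    obtain ⟨s, om, hSD⟩ := hT₂ (hp (a.k τ) g2) g3 A' O U σ (H.kah hp') h hS
      (Ins_615.sc (Ls (hp (a.k τ) g2)) hL (H.kah hp')) fun i x _ => Ins_615.sc_g _ hL _ i x
    exact ⟨A', i1, i2, ⟨Pt⟩, hp', _, _, _, s, om, fun i x _ => Ins_615.sc_g _ hL _ i x, hSD⟩

end Crest.Agent.R281.SDR_273
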