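import Crest.Agent.R281.Mx1_405

/-! Row 281, S-MAX (helper405), part 2: telescoped Poincare inequality, change of ball, density of
good points, diameter bound from annulus comparison. -/

set_option autoImplicit false
open MeasureTheory Metric Set Filter Topology
open scoped ENNReal NNReal

namespace Crest.Agent.R281.Mx_405

variable {X : Type*} [PseudoMetricSpace X] [MeasurableSpace X] [OpensMeasurableSpace X]
variable {μ : Measure X} {C : ℝ≥0}

lemma Dbl.real_pos (h : Dbl μ C) (x : X) {r : ℝ} (hr : 0 < r) : 0 < μ.real (closedBall x r) :=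
  ENNReal.toReal_pos (h.pos x r hr).ne' (h.fin x r).ne

lemma Dbl.real_dbl_pow (h : Dbl μ C) (x : X) {r : ℝ} (hr : 0 < r) (k : ℕ) :
    μ.real (closedBall x (2 ^ k * r)) ≤ (C : ℝ) ^ k * μ.real (closedBall x r) := by
  have h1 := h.dbl_pow x hr k
  have h2 : (C : ℝ≥0∞) ^ k * μ (closedBall x r) ≠ ∞ :=
    ENNReal.mul_ne_top (ENNReal.pow_ne_top ENNReal.coe_ne_top) (h.fin x r).ne
  have h3 := ENNReal.toReal_mono h2 h1
  rw [ENNReal.toReal_mul, ENNReal.toReal_pow, ENNReal.coe_toReal] at h3
  exact h3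

lemma Dbl.real_dbl (h : Dbl μ C) (x : X) {r : ℝ} (hr : 0 < r) :
    μ.real (closedBall x (2 * r)) ≤ (C : ℝ) * μ.real (closedBall x r) := by
  have := h.real_dbl_pow x hr 1
  simpa using this

/-- Set average over a subset, against the average over a bigger set. -/
lemma setAverage_le_of_subset {A B : Set X} {g : X → ℝ} (hg : ∀ x, 0 ≤ g x)
    (hint : IntegrableOn g B μ) (hAB : A ⊆ B) {K : ℝ}
    (hA : 0 < μ.real A) (hB : 0 < μ.real B) (hK : μ.real B ≤ K * μ.real A) :
    ⨍ x in A, g x ∂μ ≤ K * ⨍ x in B, g x ∂μ := by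
  rw [setAverage_eq, setAverage_eq, smul_eq_mul, smul_eq_mul]
  have h1 : ∫ x in A, g x ∂μ ≤ ∫ x in B, g x ∂μ :=
    setIntegral_mono_set hint (ae_of_all _ hg) (LE.le.eventuallyLE hAB)
  have h2 : 0 ≤ ∫ x in B, g x ∂μ := integral_nonneg hg
  have h0 : 0 ≤ ∫ x in A, g x ∂μ := integral_nonneg hg
  rw [inv_mul_le_iff₀ hA]
  calc ∫ x in A, g x ∂μ ≤ ∫ x in B, g x ∂μ := h1
    _ = μ.real B * ((μ.real B)⁻¹ * ∫ x in B, g x ∂μ) := by field_simp
    _ ≤ (K * μ.real A) * ((μ.real B)⁻¹ * ∫ x in B, g x ∂μ) := by gcongr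
    _ = _ := by ring

/-- Average of `|f - c|` controls the difference of the average and `c`. -/
lemma abs_average_sub_le {A : Set X} {f : X → ℝ} (hint : IntegrableOn f A μ)
    (hA : μ A ≠ ∞) (hA0 : 0 < μ.real A) (c : ℝ) :
    |(⨍ x in A, f x ∂μ) - c| ≤ ⨍ x in A, |f x - c| ∂μ := by
  have hc : IntegrableOn (fun _ : X => c) A μ := integrableOn_const hA
  have h1 : (⨍ x in A, f x ∂μ) - c = ⨍ x in A, (f x - c) ∂μ := by
    rw [setAverage_eq, setAverage_eq, integral_sub hint hc, setIntegral_const, smul_eq_mul,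
      smul_eq_mul, smul_eq_mul]
    field_simp
  rw [h1, setAverage_eq, setAverage_eq, smul_eq_mul, smul_eq_mul, abs_mul,
    abs_of_pos (inv_pos.2 hA0)]
  gcongr
  exact abs_integral_le_integral_abs

/-- (MX3) telescoping: oscillation `≤ a r` on all balls about `y` of radius `≤ R` and convergence of
the means to `c` give `mean_{B(y,R)} |f - c| ≤ (1 + 2 C) a R`. -/
theorem telescope (h : Dbl μ C) {f : X → ℝ} {y : X} {R a c : ℝ} (hR : 0 < R) (ha : 0 ≤ a)
    (hint : IntegrableOn f (closedBall y R) μ)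
    (hP : ∀ r, 0 < r → r ≤ R →
      ⨍ x in closedBall y r, |f x - ⨍ z in closedBall y r, f z ∂μ| ∂μ ≤ a * r)
    (hlim : Tendsto (fun r => ⨍ x in closedBall y r, f x ∂μ) (𝓝[>] 0) (𝓝 c)) :
    ⨍ x in closedBall y R, |f x - c| ∂μ ≤ (1 + 2 * C) * a * R := by
  set m : ℝ → ℝ := fun r => ⨍ x in closedBall y r, f x ∂μ with hm
  have hintr : ∀ r, r ≤ R → IntegrableOn f (closedBall y r) μ := fun r hr =>
    hint.mono_set (closedBall_subset_closedBall hr)
  have hstep : ∀ r, 0 < r → r ≤ R → |m (r / 2) - m r| ≤ C * (a * r) := by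
    intro r hr hrR
    have hr2 : 0 < r / 2 := by positivity
    have h1 : |m (r / 2) - m r| ≤ ⨍ x in closedBall y (r / 2), |f x - m r| ∂μ :=
      abs_average_sub_le (hintr _ (by linarith)) (h.fin y _).ne (h.real_pos y hr2) _
    have h2 : ⨍ x in closedBall y (r / 2), |f x - m r| ∂μ ≤
        C * ⨍ x in closedBall y r, |f x - m r| ∂μ := by
      refine setAverage_le_of_subset (fun _ => abs_nonneg _) ?_
        (closedBall_subset_closedBall (by linarith)) (h.real_pos y hr2) (h.real_pos y hr) ?_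
      · exact ((hintr r hrR).sub (integrableOn_const (h.fin y r).ne)).abs
      · have := h.real_dbl y hr2
        rwa [show 2 * (r / 2) = r by ring] at this
    have h3 := hP r hr hrR
    calc |m (r / 2) - m r| ≤ C * ⨍ x in closedBall y r, |f x - m r| ∂μ := h1.trans h2
      _ ≤ C * (a * r) := by gcongr
  have hsum : ∀ k : ℕ, |m (R / 2 ^ k) - m R| ≤ 2 * C * a * R := by
    intro k
    have : |m (R / 2 ^ k) - m R| ≤ C * a * R * (2 - 2 / 2 ^ k) := by
      induction k with
      | zero => simp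
      | succ k ih =>
        have hpos : (0 : ℝ) < 2 ^ k := by positivity
        have h1 := hstep (R / 2 ^ k) (by positivity) (div_le_self hR.le (one_le_pow₀ (by norm_num)))
        have h2 : m (R / 2 ^ (k + 1)) = m (R / 2 ^ k / 2) := by rw [pow_succ, div_div]
        calc |m (R / 2 ^ (k + 1)) - m R| ≤ |m (R / 2 ^ k / 2) - m (R / 2 ^ k)| +
              |m (R / 2 ^ k) - m R| := by rw [h2]; exact abs_sub_le _ _ _
          _ ≤ C * (a * (R / 2 ^ k)) + C * a * R * (2 - 2 / 2 ^ k) := by gcongr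
          _ = C * a * R * (2 - 2 / 2 ^ (k + 1)) := by rw [pow_succ]; field_simp; ring
    refine this.trans ?_
    have h0 : 0 ≤ (C : ℝ) * a * R := by positivity
    have h2 : (2 : ℝ) - 2 / 2 ^ k ≤ 2 := by
      have : (0 : ℝ) ≤ 2 / 2 ^ k := by positivity
      linarith
    calc C * a * R * (2 - 2 / 2 ^ k) ≤ C * a * R * 2 := by gcongr
      _ = 2 * C * a * R := by ring
  have hlim2 : Tendsto (fun k : ℕ => m (R / 2 ^ k)) atTop (𝓝 c) := by
    refine hlim.comp ?_
    refine tendsto_nhdsWithin_iff.2 ⟨?_, Eventually.of_forall fun k => ?_⟩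
    · have := (tendsto_pow_atTop_nhds_zero_of_lt_one (r := (1 / 2 : ℝ)) (by norm_num)
        (by norm_num)).const_mul R
      rw [mul_zero] at this
      refine this.congr fun k => ?_
      rw [one_div, inv_pow, div_eq_mul_inv]
    · exact div_pos hR (by positivity)
  have hfin : |c - m R| ≤ 2 * C * a * R :=
    le_of_tendsto (((hlim2.sub_const (m R)).abs)) (Eventually.of_forall hsum)
  have hI1 : IntegrableOn (fun x => |f x - m R|) (closedBall y R) μ :=
    (hint.sub (integrableOn_const (h.fin y R).ne)).abs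
  have hI2 : IntegrableOn (fun x => |f x - c|) (closedBall y R) μ :=
    (hint.sub (integrableOn_const (h.fin y R).ne)).abs
  have h1 : ⨍ x in closedBall y R, |f x - c| ∂μ ≤
      ⨍ x in closedBall y R, |f x - m R| ∂μ + |m R - c| := by
    have hpos := h.real_pos y hR
    rw [setAverage_eq, setAverage_eq, smul_eq_mul, smul_eq_mul, inv_mul_le_iff₀ hpos]
    calc ∫ x in closedBall y R, |f x - c| ∂μ ≤
          ∫ x in closedBall y R, (|f x - m R| + |m R - c|) ∂μ := by
            refine integral_mono hI2 (hI1.add (integrableOn_const (h.fin y R).ne)) fun x => ?_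
            exact abs_sub_le _ _ _
      _ = (∫ x in closedBall y R, |f x - m R| ∂μ) + μ.real (closedBall y R) * |m R - c| := by
            rw [integral_add hI1 (integrableOn_const (h.fin y R).ne), setIntegral_const, smul_eq_mul]
      _ = _ := by field_simp
  calc ⨍ x in closedBall y R, |f x - c| ∂μ ≤ a * R + 2 * C * a * R := by
        refine h1.trans (add_le_add (hP R hR le_rfl) ?_)
        rwa [abs_sub_comm]
    _ = (1 + 2 * C) * a * R := by ring

/-- The means over shrinking balls converge to the value at a point of continuity. -/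
lemma tendsto_average_of_continuousAt (h : Dbl μ C) {f : X → ℝ} {y : X} {R : ℝ} (hR : 0 < R)
    (hint : IntegrableOn f (closedBall y R) μ) (hf : ContinuousAt f y) :
    Tendsto (fun r => ⨍ x in closedBall y r, f x ∂μ) (𝓝[>] 0) (𝓝 (f y)) := by
  rw [Metric.tendsto_nhds]
  intro ε hε
  obtain ⟨δ, hδ, hδ'⟩ := Metric.continuousAt_iff.1 hf (ε / 2) (by positivity)
  have h1 : ∀ᶠ r in 𝓝[>] (0 : ℝ), r ∈ Ioo 0 (min δ R) :=
    Ioo_mem_nhdsGT (lt_min hδ hR)
  filter_upwards [h1] with r hr
  have hr0 : 0 < r := hr.1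
  have hrδ : r < δ := hr.2.trans_le (min_le_left _ _)
  have hrR : r ≤ R := (hr.2.trans_le (min_le_right _ _)).le
  have hi : IntegrableOn f (closedBall y r) μ := hint.mono_set (closedBall_subset_closedBall hrR)
  have h2 := abs_average_sub_le hi (h.fin y r).ne (h.real_pos y hr0) (f y)
  have h3 : ⨍ x in closedBall y r, |f x - f y| ∂μ ≤ ε / 2 := by
    have hpos := h.real_pos y hr0
    rw [setAverage_eq, smul_eq_mul, inv_mul_le_iff₀ hpos]
    have : ∫ x in closedBall y r, |f x - f y| ∂μ ≤ ∫ _x in closedBall y r, (ε / 2) ∂μ := by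
      refine setIntegral_mono_on ((hi.sub (integrableOn_const (h.fin y r).ne)).abs)
        (integrableOn_const (h.fin y r).ne) measurableSet_closedBall fun x hx => ?_
      have := hδ' ((mem_closedBall.1 hx).trans_lt hrδ)
      rw [Real.dist_eq] at this
      exact this.le
    rwa [setIntegral_const, smul_eq_mul] at this
  rw [Real.dist_eq]
  linarith


/-- Chebyshev on a ball. -/
lemma frac_le_of_average (h : Dbl μ C) {g : X → ℝ} (hg : ∀ x, 0 ≤ g x) {y : X} {r t M : ℝ}
    (hr : 0 < r) (ht : 0 < t) (hint : IntegrableOn g (closedBall y r) μ)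
    (hM : ⨍ x in closedBall y r, g x ∂μ ≤ M) :
    μ.real {x | x ∈ closedBall y r ∧ t ≤ g x} ≤ M / t * μ.real (closedBall y r) := by
  have hpos := h.real_pos y hr
  rw [setAverage_eq, smul_eq_mul, inv_mul_le_iff₀ hpos] at hM
  have h1 : t * (μ.restrict (closedBall y r)).real {x | t ≤ g x} ≤ ∫ x in closedBall y r, g x ∂μ :=
    mul_meas_ge_le_integral_of_nonneg (ae_of_all _ hg) hint t
  have h2 : (μ.restrict (closedBall y r)).real {x | t ≤ g x} =
      μ.real {x | x ∈ closedBall y r ∧ t ≤ g x} := by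
    rw [measureReal_restrict_apply' measurableSet_closedBall]
    congr 1
    ext x; simp [and_comm]
  rw [h2] at h1
  rw [div_mul_eq_mul_div, le_div_iff₀ ht]
  nlinarith

/-- (MX4) change of ball. -/
theorem average_change (h : Dbl μ C) {g : X → ℝ} (hg : ∀ x, 0 ≤ g x) {y q : X} {r ρ : ℝ} {k : ℕ}
    (hρ : 0 < ρ) (hρr : ρ ≤ r) (hq : q ∈ closedBall y r) (hk : 3 * r ≤ 2 ^ k * ρ)
    (hint : IntegrableOn g (closedBall y (2 * r)) μ) :
    ⨍ x in closedBall q ρ, g x ∂μ ≤ (C : ℝ) ^ k * ⨍ x in closedBall y (2 * r), g x ∂μ := by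
  have hr : 0 < r := hρ.trans_le hρr
  have hq' := mem_closedBall.1 hq
  refine setAverage_le_of_subset hg hint ?_ (h.real_pos q hρ) (h.real_pos y (by positivity)) ?_
  · intro z hz
    have := mem_closedBall.1 hz
    exact mem_closedBall.2 ((dist_triangle z q y).trans (by linarith))
  · have h1 : closedBall y (2 * r) ⊆ closedBall q (2 ^ k * ρ) := by
      intro z hz
      have hz' := mem_closedBall.1 hz
      refine mem_closedBall.2 ((dist_triangle z y q).trans ?_)
      rw [dist_comm y q]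
      linarith
    exact (measureReal_mono h1 (h.fin q _).ne).trans (h.real_dbl_pow q hρ k)



end Crest.Agent.R281.Mx_405
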