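import Mathlib
import Crest.Agent.R249.SobH_982

-- ▼ part R281/Sm1_593
section

/-!
# R281 (S-SUBMV, helper593), part 1: Faber–Krahn inequality from doubling and Poincaré

`Dbl n μ` : `μ (ball x R) ≤ (R/r)ⁿ μ (ball x r)`; no lower bound of the volume (collapsing allowed).

`fk` : `∫_E f² ≤ (μ E / μ B)^(1/n) (2^(n+1) ∫_{2B} f² + 48·8ⁿ P ρ² ∫_{3B} G²)` for `E ⊆ B = ball x0 ρ`
if `∫_B (f - f_B)² ≤ P r² ∫_{2B} G²` on all balls.
-/

set_option autoImplicit false
open MeasureTheory Set Filter Topology Metric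
open scoped ENNReal NNReal

noncomputable section
namespace Crest.Agent.R281.Sm1_593

variable {X : Type*} [MetricSpace X] [MeasurableSpace X] [BorelSpace X]

/-- Bishop–Gromov volume comparison. -/
def Dbl (n : ℕ) (μ : Measure X) : Prop :=
  ∀ (x : X) (r R : ℝ), 0 < r → r ≤ R → μ.real (ball x R) ≤ (R / r) ^ n * μ.real (ball x r)

/-- Poincaré inequality on all balls for the pair `(f, G)`. -/
def Poi (P : ℝ) (μ : Measure X) (f G : X → ℝ) : Prop :=
  ∀ (x : X) (r : ℝ), 0 < r → ∫ y in ball x r, (f y - ⨍ z in ball x r, f z ∂μ) ^ 2 ∂μ ≤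
    P * r ^ 2 * ∫ y in ball x (2 * r), G y ^ 2 ∂μ

section num

/-- Cauchy–Schwarz with geometric weights. -/
lemma geo_cs (m : ℕ → ℝ) (c : ℕ → ℝ) (ρ : ℝ) (hc : ∀ k, 0 ≤ c k)
    (h : ∀ k, (m (k + 1) - m k) ^ 2 ≤ (ρ * (1 / 2) ^ k) ^ 2 * c k) (K : ℕ) :
    (m K - m 0) ^ 2 ≤ 4 * ρ ^ 2 * ∑ k ∈ Finset.range K, (1 / 3 : ℝ) ^ k * c k := by
  have e1 : m K - m 0 = ∑ k ∈ Finset.range K, (m (k + 1) - m k) := by
    rw [Finset.sum_range_sub]
  have h1 : (∑ k ∈ Finset.range K, |m (k + 1) - m k|) ^ 2 ≤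
      (∑ k ∈ Finset.range K, (3 / 4 : ℝ) ^ k) *
        ∑ k ∈ Finset.range K, (4 / 3 : ℝ) ^ k * (m (k + 1) - m k) ^ 2 := by
    apply Finset.sum_sq_le_sum_mul_sum_of_sq_le_mul
    · intro k _; positivity
    · intro k _; positivity
    · intro k _
      rw [sq_abs, ← mul_assoc, ← mul_pow]
      norm_num
  have h2 : ∑ k ∈ Finset.range K, (3 / 4 : ℝ) ^ k ≤ 4 := by
    have := geom_sum_eq (x := (3 / 4 : ℝ)) (by norm_num) K
    rw [this]
    have h3 : 0 ≤ (3 / 4 : ℝ) ^ K := by positivity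
    rw [div_le_iff_of_neg (by norm_num)]
    linarith
  have h3 : ∑ k ∈ Finset.range K, (4 / 3 : ℝ) ^ k * (m (k + 1) - m k) ^ 2 ≤
      ρ ^ 2 * ∑ k ∈ Finset.range K, (1 / 3 : ℝ) ^ k * c k := by
    rw [Finset.mul_sum]
    apply Finset.sum_le_sum
    intro k _
    calc (4 / 3 : ℝ) ^ k * (m (k + 1) - m k) ^ 2 ≤ (4 / 3 : ℝ) ^ k * ((ρ * (1 / 2) ^ k) ^ 2 * c k) := by
          gcongr; exact h k
      _ = ρ ^ 2 * (((4 / 3 : ℝ) * (1 / 2) * (1 / 2)) ^ k * c k) := by
          rw [mul_pow, mul_pow, mul_pow]; ring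
      _ = _ := by norm_num
  have h4 : |m K - m 0| ≤ ∑ k ∈ Finset.range K, |m (k + 1) - m k| := by
    rw [e1]; exact Finset.abs_sum_le_sum_abs _ _
  have h5 : 0 ≤ ∑ k ∈ Finset.range K, (1 / 3 : ℝ) ^ k * c k :=
    Finset.sum_nonneg fun k _ => mul_nonneg (by positivity) (hc k)
  calc (m K - m 0) ^ 2 = |m K - m 0| ^ 2 := (sq_abs _).symm
    _ ≤ (∑ k ∈ Finset.range K, |m (k + 1) - m k|) ^ 2 := by gcongr
    _ ≤ _ := h1
    _ ≤ 4 * (ρ ^ 2 * ∑ k ∈ Finset.range K, (1 / 3 : ℝ) ^ k * c k) := by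
        apply mul_le_mul h2 h3 _ (by norm_num)
        exact Finset.sum_nonneg fun k _ => by positivity
    _ = _ := by ring

/-- `min(1, 2^(n k) t) ≤ 2^k t^(1/n)`. -/
lemma min_le_rpow {n : ℕ} (hn : 1 ≤ n) {a t : ℝ} (ha : 1 ≤ a) (ht : 0 ≤ t) :
    min 1 (a ^ n * t) ≤ a * t ^ (1 / (n : ℝ)) := by
  have hn0 : (0:ℝ) < n := by exact_mod_cast hn
  have h0 : 0 ≤ min 1 (a ^ n * t) := le_min zero_le_one (by positivity)
  have h1 : min 1 (a ^ n * t) ≤ (min 1 (a ^ n * t)) ^ (1 / (n : ℝ)) := by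
    have h2 : min 1 (a ^ n * t) ≤ 1 := min_le_left _ _
    have h3 : 1 / (n : ℝ) ≤ 1 := by
      rw [div_le_one hn0]; exact_mod_cast hn
    calc min 1 (a ^ n * t) = (min 1 (a ^ n * t)) ^ (1 : ℝ) := (Real.rpow_one _).symm
      _ ≤ _ := by
        rcases h0.eq_or_lt with h | h
        · rw [← h, Real.zero_rpow one_ne_zero]
          exact Real.rpow_nonneg le_rfl _
        · exact Real.rpow_le_rpow_of_exponent_ge h h2 h3
  refine h1.trans ?_
  have h4 : (min 1 (a ^ n * t)) ^ (1 / (n : ℝ)) ≤ (a ^ n * t) ^ (1 / (n : ℝ)) :=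
    Real.rpow_le_rpow h0 (min_le_right _ _) (by positivity)
  refine h4.trans (le_of_eq ?_)
  rw [Real.mul_rpow (by positivity) ht, ← Real.rpow_natCast, ← Real.rpow_mul (by linarith)]
  rw [mul_one_div_cancel hn0.ne', Real.rpow_one]

end num

section avg
variable {μ : Measure X}

lemma measurable_mu_ball [SecondCountableTopology X] [SFinite μ] (s : ℝ) :
    Measurable fun x => μ (ball x s) := by
  have hs : MeasurableSet {p : X × X | dist p.2 p.1 < s} :=
    measurableSet_lt (measurable_snd.dist measurable_fst) measurable_const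
  have := measurable_measure_prodMk_left (ν := μ) hs
  exact this

variable [SecondCountableTopology X] [SFinite μ]

lemma measurable_lint {g : X → ℝ≥0∞} (hg : Measurable g) (s : ℝ) :
    Measurable fun x => ∫⁻ y in ball x s, g y ∂μ := by
  have hS : MeasurableSet {p : X × X | dist p.2 p.1 < s} :=
    measurableSet_lt (measurable_snd.dist measurable_fst) measurable_const
  have h3 : Measurable (Function.uncurry fun (x y : X) =>
      {p : X × X | dist p.2 p.1 < s}.indicator (fun p => g p.2) (x, y)) :=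
    (hg.comp measurable_snd).indicator hS
  have h4 := h3.lintegral_prod_right (ν := μ)
  have e : (fun x => ∫⁻ y in ball x s, g y ∂μ) = fun x => ∫⁻ y,
      {p : X × X | dist p.2 p.1 < s}.indicator (fun p => g p.2) (x, y) ∂μ := by
    funext x
    rw [← lintegral_indicator isOpen_ball.measurableSet]
    apply lintegral_congr
    intro y
    by_cases hy : dist y x < s
    · rw [indicator_of_mem (show y ∈ ball x s from hy),
        indicator_of_mem (show (x, y) ∈ {p : X × X | dist p.2 p.1 < s} from hy)]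
    · rw [indicator_of_notMem (show y ∉ ball x s from hy),
        indicator_of_notMem (show (x, y) ∉ {p : X × X | dist p.2 p.1 < s} from hy)]
  rw [e]
  exact h4

/-- Tonelli for the averages of `g` over the balls `ball x (2 s)`, `x ∈ E`. -/
lemma avg_swap {n : ℕ} {x0 : X} {ρ s : ℝ} (hs : 0 < s) (hsρ : s ≤ ρ)
    (hpos : ∀ (x : X) (r : ℝ), 0 < r → 0 < μ.real (ball x r))
    (hD : Dbl n μ) {E : Set X} (hE : MeasurableSet E) (hEB : E ⊆ ball x0 ρ)
    {g : X → ℝ≥0∞} (hg : Measurable g) :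
    ∫⁻ x in E, (μ (ball x s))⁻¹ * ∫⁻ y in ball x (2 * s), g y ∂μ ∂μ ≤
      ENNReal.ofReal (4 ^ n * min 1 ((2 * ρ / s) ^ n * (μ.real E / μ.real (ball x0 ρ)))) *
        ∫⁻ y in ball x0 (3 * ρ), g y ∂μ := by
  have hρ : 0 < ρ := hs.trans_le hsρ
  have hfin : ∀ (x : X) (r : ℝ), 0 < r → μ (ball x r) ≠ ∞ := by
    intro x r hr h
    have := hpos x r hr
    rw [measureReal_def, h, ENNReal.toReal_top] at this
    exact lt_irrefl _ this
  have hne : ∀ (x : X) (r : ℝ), 0 < r → μ (ball x r) ≠ 0 := by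
    intro x r hr h
    have := hpos x r hr
    rw [measureReal_def, h, ENNReal.toReal_zero] at this
    exact lt_irrefl _ this
  have hS : MeasurableSet {p : X × X | dist p.2 p.1 < 2 * s} :=
    measurableSet_lt (measurable_snd.dist measurable_fst) measurable_const
  set F : X → X → ℝ≥0∞ := fun x y =>
    {p : X × X | dist p.2 p.1 < 2 * s}.indicator (fun p => (μ (ball p.1 s))⁻¹ * g p.2) (x, y) with hF
  have hFm : Measurable (Function.uncurry F) := by
    have h1 : Measurable fun p : X × X => (μ (ball p.1 s))⁻¹ * g p.2 :=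
      ((measurable_mu_ball s).comp measurable_fst).inv.mul (hg.comp measurable_snd)
    exact h1.indicator hS
  have h1 : ∀ x, (μ (ball x s))⁻¹ * ∫⁻ y in ball x (2 * s), g y ∂μ = ∫⁻ y, F x y ∂μ := by
    intro x
    rw [← lintegral_const_mul _ hg, ← lintegral_indicator isOpen_ball.measurableSet]
    apply lintegral_congr
    intro y
    simp only [hF]
    by_cases hy : dist y x < 2 * s
    · rw [indicator_of_mem (show y ∈ ball x (2 * s) from hy),
        indicator_of_mem (show (x, y) ∈ {p : X × X | dist p.2 p.1 < 2 * s} from hy)]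
    · rw [indicator_of_notMem (show y ∉ ball x (2 * s) from hy),
        indicator_of_notMem (show (x, y) ∉ {p : X × X | dist p.2 p.1 < 2 * s} from hy)]
  simp_rw [h1]
  rw [lintegral_lintegral_swap hFm.aemeasurable]
  set τ : ℝ := μ.real E / μ.real (ball x0 ρ) with hτ
  have hEfin : μ E ≠ ∞ := ne_top_of_le_ne_top (hfin x0 ρ hρ) (measure_mono hEB)
  have h2 : ∀ y, ∫⁻ x in E, F x y ∂μ ≤ (ball x0 (3 * ρ)).indicator (fun y =>
      ENNReal.ofReal (4 ^ n * min 1 ((2 * ρ / s) ^ n * τ)) * g y) y := by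
    intro y
    by_cases hy : y ∈ ball x0 (3 * ρ)
    · rw [indicator_of_mem hy]
      have hVy := hpos y (2 * s) (by positivity)
      -- pointwise bound
      have h3 : ∀ x ∈ E, F x y ≤ (ball y (2 * s)).indicator (fun _ =>
          ENNReal.ofReal (4 ^ n * (μ.real (ball y (2 * s)))⁻¹) * g y) x := by
        intro x _
        simp only [hF]
        by_cases hxy : dist y x < 2 * s
        · rw [indicator_of_mem (show (x, y) ∈ {p : X × X | dist p.2 p.1 < 2 * s} from hxy),
            indicator_of_mem (show x ∈ ball y (2 * s) from by rw [mem_ball, dist_comm]; exact hxy)]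
          gcongr
          have hVx := hpos x s hs
          have h4 : μ.real (ball y (2 * s)) ≤ 4 ^ n * μ.real (ball x s) := by
            calc μ.real (ball y (2 * s)) ≤ μ.real (ball x (4 * s)) := by
                  refine measureReal_mono ?_ (hfin x _ (by positivity))
                  intro z hz
                  rw [mem_ball] at hz ⊢
                  have := dist_triangle z y x
                  linarith
              _ ≤ (4 * s / s) ^ n * μ.real (ball x s) := hD x s (4 * s) hs (by linarith)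
              _ = _ := by rw [mul_div_assoc, div_self hs.ne', mul_one]
          have e1 : μ (ball x s) = ENNReal.ofReal (μ.real (ball x s)) :=
            (ofReal_measureReal (hfin x s hs)).symm
          show (μ (ball x s))⁻¹ ≤ _
          rw [e1, ← ENNReal.ofReal_inv_of_pos hVx]
          apply ENNReal.ofReal_le_ofReal
          rw [← div_eq_mul_inv, le_div_iff₀ hVy, inv_mul_le_iff₀ hVx]
          linarith
        · rw [indicator_of_notMem (show (x, y) ∉ {p : X × X | dist p.2 p.1 < 2 * s} from hxy)]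
          exact bot_le
      calc ∫⁻ x in E, F x y ∂μ ≤ ∫⁻ x in E, (ball y (2 * s)).indicator (fun _ =>
            ENNReal.ofReal (4 ^ n * (μ.real (ball y (2 * s)))⁻¹) * g y) x ∂μ :=
            setLIntegral_mono' hE h3
        _ = ENNReal.ofReal (4 ^ n * (μ.real (ball y (2 * s)))⁻¹) * g y * μ (E ∩ ball y (2 * s)) := by
            rw [lintegral_indicator isOpen_ball.measurableSet, Measure.restrict_restrict
              isOpen_ball.measurableSet, lintegral_const, Measure.restrict_apply_univ, inter_comm]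
        _ = (ENNReal.ofReal (4 ^ n * (μ.real (ball y (2 * s)))⁻¹) * μ (E ∩ ball y (2 * s))) * g y := by
            ring
        _ ≤ _ := by
            gcongr
            have e2 : μ (E ∩ ball y (2 * s)) = ENNReal.ofReal (μ.real (E ∩ ball y (2 * s))) :=
              (ofReal_measureReal (ne_top_of_le_ne_top hEfin (measure_mono inter_subset_left))).symm
            rw [e2, ← ENNReal.ofReal_mul (by positivity)]
            apply ENNReal.ofReal_le_ofReal
            rw [mul_assoc]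
            gcongr
            rw [inv_mul_le_iff₀ hVy]
            have h5 : μ.real (E ∩ ball y (2 * s)) ≤ μ.real (ball y (2 * s)) :=
              measureReal_mono inter_subset_right (hfin y _ (by positivity))
            have h6 : μ.real (E ∩ ball y (2 * s)) ≤ μ.real E :=
              measureReal_mono inter_subset_left hEfin
            rcases le_total 1 ((2 * ρ / s) ^ n * τ) with h | h
            · rw [min_eq_left h, mul_one]; exact h5
            · rw [min_eq_right h]
              refine h6.trans ?_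
              have hV0 := hpos x0 ρ hρ
              have h7 : μ.real (ball x0 ρ) ≤ (2 * ρ / s) ^ n * μ.real (ball y (2 * s)) := by
                calc μ.real (ball x0 ρ) ≤ μ.real (ball y (4 * ρ)) := by
                      refine measureReal_mono ?_ (hfin y _ (by positivity))
                      intro z hz
                      rw [mem_ball] at hz hy ⊢
                      have := dist_triangle z x0 y
                      rw [dist_comm x0 y] at this
                      linarith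
                  _ ≤ (4 * ρ / (2 * s)) ^ n * μ.real (ball y (2 * s)) :=
                      hD y (2 * s) (4 * ρ) (by positivity) (by linarith)
                  _ = _ := by
                      congr 2
                      field_simp
                      ring
              have h8 : μ.real E = τ * μ.real (ball x0 ρ) := by
                rw [hτ, div_mul_cancel₀ _ hV0.ne']
              have hτ0 : 0 ≤ τ := by positivity
              calc μ.real E = τ * μ.real (ball x0 ρ) := h8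
                _ ≤ τ * ((2 * ρ / s) ^ n * μ.real (ball y (2 * s))) := by gcongr
                _ = _ := by ring
    · rw [indicator_of_notMem hy]
      have h3 : ∀ x ∈ E, F x y = 0 := by
        intro x hx
        simp only [hF]
        apply indicator_of_notMem
        intro h
        apply hy
        have hx' := hEB hx
        rw [mem_ball] at hx' ⊢
        have h' : dist y x < 2 * s := h
        have := dist_triangle y x x0
        linarith
      rw [setLIntegral_congr_fun hE h3]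
      simp
  calc ∫⁻ y, ∫⁻ x in E, F x y ∂μ ∂μ ≤ ∫⁻ y, (ball x0 (3 * ρ)).indicator (fun y =>
      ENNReal.ofReal (4 ^ n * min 1 ((2 * ρ / s) ^ n * τ)) * g y) y ∂μ := lintegral_mono h2
    _ = _ := by
      rw [lintegral_indicator isOpen_ball.measurableSet, lintegral_const_mul _ hg]

end avg

section chain
variable {μ : Measure X} [ProperSpace X] [IsFiniteMeasureOnCompacts μ]

omit [BorelSpace X] in
lemma ball_ne_top (x : X) (r : ℝ) : μ (ball x r) ≠ ∞ := measure_ball_lt_top.ne

lemma intOn {f : X → ℝ} (hf : Continuous f) (x : X) (r : ℝ) : IntegrableOn f (ball x r) μ :=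
  (hf.continuousOn.integrableOn_compact (isCompact_closedBall x r)).mono_set ball_subset_closedBall

/-- `V (mean g)² ≤ ∫ g²`. -/
lemma sq_avg_le {g : X → ℝ} (hg : Continuous g) {x : X} {r : ℝ} (h : 0 < μ.real (ball x r)) :
    μ.real (ball x r) * (⨍ y in ball x r, g y ∂μ) ^ 2 ≤ ∫ y in ball x r, g y ^ 2 ∂μ := by
  set a := ⨍ y in ball x r, g y ∂μ with ha
  set V := μ.real (ball x r) with hV
  have hI : ∫ y in ball x r, g y ∂μ = V * a := by
    rw [ha, setAverage_eq, smul_eq_mul, mul_inv_cancel_left₀ h.ne']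
  have h1 : 0 ≤ ∫ y in ball x r, (g y - a) ^ 2 ∂μ := integral_nonneg fun _ => sq_nonneg _
  have h2 : ∫ y in ball x r, (g y - a) ^ 2 ∂μ =
      (∫ y in ball x r, g y ^ 2 ∂μ) - 2 * a * (V * a) + V * a ^ 2 := by
    have e : ∀ y, (g y - a) ^ 2 = g y ^ 2 - 2 * a * g y + a ^ 2 := fun y => by ring
    simp_rw [e]
    rw [integral_add, integral_sub, integral_const_mul, hI, setIntegral_const, smul_eq_mul]
    · exact intOn (hg.pow 2) x r
    · exact (intOn hg x r).const_mul _
    · exact (intOn (hg.pow 2) x r).sub ((intOn hg x r).const_mul _)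
    · exact integrableOn_const (hs := ball_ne_top x r)
  nlinarith

/-- one step of the chain of balls -/
lemma step_avg {n : ℕ} (hD : Dbl n μ) (hpos : ∀ (x : X) (r : ℝ), 0 < r → 0 < μ.real (ball x r))
    {f G : X → ℝ} (hf : Continuous f) {P : ℝ} (hP : Poi P μ f G) (x : X) {r : ℝ} (hr : 0 < r) :
    ((⨍ y in ball x (r / 2), f y ∂μ) - ⨍ y in ball x r, f y ∂μ) ^ 2 ≤
      r ^ 2 * (2 ^ n * P * (μ.real (ball x r))⁻¹ * ∫ y in ball x (2 * r), G y ^ 2 ∂μ) := by
  set m := ⨍ y in ball x r, f y ∂μ with hm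
  have h2 : 0 < r / 2 := by positivity
  have hV := hpos x (r / 2) h2
  have hV1 := hpos x r hr
  have e1 : (⨍ y in ball x (r / 2), f y ∂μ) - m = ⨍ y in ball x (r / 2), (f y - m) ∂μ := by
    rw [setAverage_eq, setAverage_eq, integral_sub (intOn hf x _)
      (integrableOn_const (hs := ball_ne_top x _)), setIntegral_const, smul_sub, smul_smul,
      inv_mul_cancel₀ hV.ne', one_smul]
  rw [e1]
  have h3 := sq_avg_le (μ := μ) (hf.sub continuous_const : Continuous fun y => f y - m) (x := x) hV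
  have h4 : ∫ y in ball x (r / 2), (f y - m) ^ 2 ∂μ ≤ ∫ y in ball x r, (f y - m) ^ 2 ∂μ := by
    apply setIntegral_mono_set (intOn ((hf.sub continuous_const).pow 2) x r)
      (Eventually.of_forall fun y => sq_nonneg _)
    exact (ball_subset_ball (by linarith)).eventuallyLE
  have h5 := hP x r hr
  have h6 : μ.real (ball x r) ≤ 2 ^ n * μ.real (ball x (r / 2)) := by
    have := hD x (r / 2) r h2 (by linarith)
    rwa [show r / (r / 2) = 2 by field_simp] at this
  set A := ⨍ y in ball x (r / 2), (f y - m) ∂μ with hA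
  set I := ∫ y in ball x (2 * r), G y ^ 2 ∂μ with hI
  have h7 : μ.real (ball x (r / 2)) * A ^ 2 ≤ P * r ^ 2 * I := h3.trans (h4.trans h5)
  have h8 : μ.real (ball x r) * A ^ 2 ≤ 2 ^ n * (P * r ^ 2 * I) := by
    calc μ.real (ball x r) * A ^ 2 ≤ (2 ^ n * μ.real (ball x (r / 2))) * A ^ 2 := by gcongr
      _ = 2 ^ n * (μ.real (ball x (r / 2)) * A ^ 2) := by ring
      _ ≤ _ := by gcongr
  have e2 : r ^ 2 * (2 ^ n * P * (μ.real (ball x r))⁻¹ * I) =
      (2 ^ n * (P * r ^ 2 * I)) / μ.real (ball x r) := by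
    field_simp
  rw [e2, le_div_iff₀ hV1]
  linarith

/-- Averages over small balls converge. -/
lemma tendsto_avg (hpos : ∀ (x : X) (r : ℝ), 0 < r → 0 < μ.real (ball x r))
    {f : X → ℝ} (hf : Continuous f) (x : X) {ρ : ℝ} (hρ : 0 < ρ) :
    Tendsto (fun k : ℕ => ⨍ y in ball x (ρ * (1 / 2) ^ k), f y ∂μ) atTop (𝓝 (f x)) := by
  rw [Metric.tendsto_atTop]
  intro ε hε
  obtain ⟨δ, hδ, h⟩ := Metric.continuousAt_iff.1 (hf.continuousAt (x := x)) (ε / 2) (by positivity)
  have h1 : Tendsto (fun k : ℕ => ρ * (1 / 2 : ℝ) ^ k) atTop (𝓝 (ρ * 0)) :=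
    (tendsto_pow_atTop_nhds_zero_of_lt_one (by norm_num) (by norm_num)).const_mul ρ
  rw [mul_zero] at h1
  obtain ⟨N, hN⟩ := (h1.eventually (gt_mem_nhds hδ)).exists_forall_of_atTop
  refine ⟨N, fun k hk => ?_⟩
  have hr : 0 < ρ * (1 / 2 : ℝ) ^ k := by positivity
  have hV := hpos x _ hr
  have hrδ := hN k hk
  set r := ρ * (1 / 2 : ℝ) ^ k with hrdef
  have e1 : (⨍ y in ball x r, f y ∂μ) - f x = ⨍ y in ball x r, (f y - f x) ∂μ := by
    rw [setAverage_eq, setAverage_eq, integral_sub (intOn hf x _)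
      (integrableOn_const (hs := ball_ne_top x _)), setIntegral_const, smul_sub, smul_smul,
      inv_mul_cancel₀ hV.ne', one_smul]
  rw [Real.dist_eq, e1]
  have h2 : ‖∫ y in ball x r, (f y - f x) ∂μ‖ ≤ ε / 2 * μ.real (ball x r) := by
    apply norm_setIntegral_le_of_norm_le_const
    · exact (ball_ne_top x r).lt_top
    · intro y hy
      have := h (lt_trans (mem_ball.1 hy) hrδ)
      rw [Real.dist_eq] at this
      exact this.le
  rw [setAverage_eq, smul_eq_mul, abs_mul, abs_of_pos (inv_pos.2 hV)]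
  rw [Real.norm_eq_abs] at h2
  calc (μ.real (ball x r))⁻¹ * |∫ y in ball x r, (f y - f x) ∂μ| ≤
      (μ.real (ball x r))⁻¹ * (ε / 2 * μ.real (ball x r)) := by gcongr
    _ = ε / 2 := by field_simp
    _ < ε := by linarith

/-- Pointwise bound by averages, in `ℝ≥0∞`. -/
lemma pointwise {n : ℕ} (hD : Dbl n μ)
    (hpos : ∀ (x : X) (r : ℝ), 0 < r → 0 < μ.real (ball x r))
    {f G : X → ℝ} (hf : Continuous f) (hG : Continuous G) {P : ℝ} (hP0 : 0 ≤ P) (hP : Poi P μ f G)
    (x : X) {ρ : ℝ} (hρ : 0 < ρ) :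
    ENNReal.ofReal (f x ^ 2) ≤ ENNReal.ofReal (2 * (μ.real (ball x ρ))⁻¹) *
        ∫⁻ y in ball x ρ, ENNReal.ofReal (f y ^ 2) ∂μ +
      ENNReal.ofReal (8 * ρ ^ 2 * (2 ^ n * P)) * ∑' k : ℕ, ENNReal.ofReal ((1 / 3 : ℝ) ^ k) *
        ((μ (ball x (ρ * (1 / 2) ^ k)))⁻¹ *
          ∫⁻ y in ball x (2 * (ρ * (1 / 2) ^ k)), ENNReal.ofReal (G y ^ 2) ∂μ) := by
  set r : ℕ → ℝ := fun k => ρ * (1 / 2) ^ k with hr
  have hr0 : ∀ k, 0 < r k := fun k => by simp only [hr]; positivity
  set m : ℕ → ℝ := fun k => ⨍ y in ball x (r k), f y ∂μ with hm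
  set c : ℕ → ℝ := fun k => 2 ^ n * P * (μ.real (ball x (r k)))⁻¹ *
    ∫ y in ball x (2 * r k), G y ^ 2 ∂μ with hc
  have hc0 : ∀ k, 0 ≤ c k := fun k => by
    have h1 := hpos x (r k) (hr0 k)
    have h2 : 0 ≤ ∫ y in ball x (2 * r k), G y ^ 2 ∂μ := integral_nonneg fun _ => sq_nonneg _
    simp only [hc]; positivity
  have hstep : ∀ k, (m (k + 1) - m k) ^ 2 ≤ (ρ * (1 / 2) ^ k) ^ 2 * c k := by
    intro k
    have h := step_avg hD hpos hf hP x (hr0 k)
    have e : r k / 2 = r (k + 1) := by simp only [hr, pow_succ]; ring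
    rw [e] at h
    exact h
  have hcs := geo_cs m c ρ hc0 hstep
  set b : ℕ → ℝ≥0∞ := fun k => ENNReal.ofReal ((1 / 3 : ℝ) ^ k) *
        ((μ (ball x (r k)))⁻¹ * ∫⁻ y in ball x (2 * r k), ENNReal.ofReal (G y ^ 2) ∂μ) with hb
  have hbc : ∀ k, ENNReal.ofReal ((1 / 3 : ℝ) ^ k * c k) = ENNReal.ofReal (2 ^ n * P) * b k := by
    intro k
    have h1 := hpos x (r k) (hr0 k)
    have e1 : μ (ball x (r k)) = ENNReal.ofReal (μ.real (ball x (r k))) :=
      (ofReal_measureReal (ball_ne_top x _)).symm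
    have e2 : ∫⁻ y in ball x (2 * r k), ENNReal.ofReal (G y ^ 2) ∂μ =
        ENNReal.ofReal (∫ y in ball x (2 * r k), G y ^ 2 ∂μ) :=
      (ofReal_integral_eq_lintegral_ofReal (intOn (hG.pow 2) x _)
        (Eventually.of_forall fun _ => sq_nonneg _)).symm
    simp only [hb, hc]
    rw [e1, e2, ← ENNReal.ofReal_inv_of_pos h1, ← ENNReal.ofReal_mul (by positivity),
      ← ENNReal.ofReal_mul (by positivity), ← ENNReal.ofReal_mul (by positivity)]
    congr 1
    ring
  -- bound for each `K`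
  have hK : ∀ K, ENNReal.ofReal (m K ^ 2) ≤ ENNReal.ofReal (2 * m 0 ^ 2) +
      ENNReal.ofReal (8 * ρ ^ 2 * (2 ^ n * P)) * ∑' k, b k := by
    intro K
    have h1 : m K ^ 2 ≤ 2 * m 0 ^ 2 + 8 * ρ ^ 2 * ∑ k ∈ Finset.range K, (1 / 3 : ℝ) ^ k * c k := by
      have := hcs K
      nlinarith [sq_nonneg (m K - 2 * m 0)]
    calc ENNReal.ofReal (m K ^ 2)
        ≤ ENNReal.ofReal (2 * m 0 ^ 2 + 8 * ρ ^ 2 * ∑ k ∈ Finset.range K, (1 / 3 : ℝ) ^ k * c k) :=
          ENNReal.ofReal_le_ofReal h1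
      _ = ENNReal.ofReal (2 * m 0 ^ 2) +
          ENNReal.ofReal (8 * ρ ^ 2) * ∑ k ∈ Finset.range K, ENNReal.ofReal (2 ^ n * P) * b k := by
          have hs0 : 0 ≤ ∑ k ∈ Finset.range K, (1 / 3 : ℝ) ^ k * c k :=
            Finset.sum_nonneg fun k _ => mul_nonneg (by positivity) (hc0 k)
          rw [ENNReal.ofReal_add (by positivity) (by positivity),
            ENNReal.ofReal_mul (p := 8 * ρ ^ 2) (by positivity), ENNReal.ofReal_sum_of_nonneg
              (fun k _ => mul_nonneg (by positivity) (hc0 k))]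
          congr 2
          apply Finset.sum_congr rfl
          intro k _
          exact hbc k
      _ = ENNReal.ofReal (2 * m 0 ^ 2) +
          ENNReal.ofReal (8 * ρ ^ 2 * (2 ^ n * P)) * ∑ k ∈ Finset.range K, b k := by
          rw [← Finset.mul_sum, ← mul_assoc, ← ENNReal.ofReal_mul (by positivity)]
      _ ≤ _ := by
          gcongr
          exact ENNReal.sum_le_tsum _
  -- limit
  have hlim : Tendsto (fun K => ENNReal.ofReal (m K ^ 2)) atTop (𝓝 (ENNReal.ofReal (f x ^ 2))) :=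
    (ENNReal.continuous_ofReal.tendsto _).comp ((tendsto_avg hpos hf x hρ).pow 2)
  refine (le_of_tendsto' hlim hK).trans ?_
  gcongr
  -- `m 0`
  have hr00 : r 0 = ρ := by simp [hr]
  have h1 := sq_avg_le (μ := μ) hf (x := x) (hpos x ρ hρ)
  have e3 : ∫⁻ y in ball x ρ, ENNReal.ofReal (f y ^ 2) ∂μ =
      ENNReal.ofReal (∫ y in ball x ρ, f y ^ 2 ∂μ) :=
    (ofReal_integral_eq_lintegral_ofReal (intOn (hf.pow 2) x _)
      (Eventually.of_forall fun _ => sq_nonneg _)).symm
  have hV := hpos x ρ hρ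
  rw [e3, ← ENNReal.ofReal_mul (by positivity)]
  apply ENNReal.ofReal_le_ofReal
  have e4 : m 0 = ⨍ y in ball x ρ, f y ∂μ := by simp only [hm, hr00]
  rw [e4, mul_assoc]
  gcongr
  rw [← div_eq_inv_mul, le_div_iff₀ hV]
  linarith

end chain

section fk
variable {μ : Measure X} [SecondCountableTopology X] [ProperSpace X] [IsFiniteMeasureOnCompacts μ]
  [SFinite μ]

/-- **Faber–Krahn inequality** (lower integral form). -/
theorem fk' {n : ℕ} (hn : 1 ≤ n) (hD : Dbl n μ)
    (hpos : ∀ (x : X) (r : ℝ), 0 < r → 0 < μ.real (ball x r))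
    {f G : X → ℝ} (hf : Continuous f) (hG : Continuous G) {P : ℝ} (hP0 : 0 ≤ P) (hP : Poi P μ f G)
    {x0 : X} {ρ : ℝ} (hρ : 0 < ρ) {E : Set X} (hE : MeasurableSet E) (hEB : E ⊆ ball x0 ρ) :
    ∫⁻ x in E, ENNReal.ofReal (f x ^ 2) ∂μ ≤
      ENNReal.ofReal ((μ.real E / μ.real (ball x0 ρ)) ^ (1 / (n : ℝ))) *
      (ENNReal.ofReal (2 ^ (n + 1)) * ∫⁻ y in ball x0 (2 * ρ), ENNReal.ofReal (f y ^ 2) ∂μ +
       ENNReal.ofReal (48 * 8 ^ n * P * ρ ^ 2) *
        ∫⁻ y in ball x0 (3 * ρ), ENNReal.ofReal (G y ^ 2) ∂μ) := by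
  set τ := μ.real E / μ.real (ball x0 ρ) with hτ
  have hV0 := hpos x0 ρ hρ
  have hEfin : μ E ≠ ∞ := ne_top_of_le_ne_top (ball_ne_top x0 ρ) (measure_mono hEB)
  have hτ0 : 0 ≤ τ := by positivity
  have hτ1 : τ ≤ 1 := by
    rw [hτ, div_le_one hV0]
    exact measureReal_mono hEB (ball_ne_top x0 ρ)
  have hn0 : (0:ℝ) < n := by exact_mod_cast hn
  have hττ : τ ≤ τ ^ (1 / (n : ℝ)) := by
    have := min_le_rpow hn (a := 1) le_rfl hτ0
    rwa [one_pow, one_mul, one_mul, min_eq_right hτ1] at this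
  have hg : Measurable fun y => ENNReal.ofReal (G y ^ 2) :=
    ENNReal.measurable_ofReal.comp (hG.measurable.pow_const 2)
  have hfm : Measurable fun y => ENNReal.ofReal (f y ^ 2) :=
    ENNReal.measurable_ofReal.comp (hf.measurable.pow_const 2)
  set I1 := ∫⁻ y in ball x0 (2 * ρ), ENNReal.ofReal (f y ^ 2) ∂μ with hI1
  set I2 := ∫⁻ y in ball x0 (3 * ρ), ENNReal.ofReal (G y ^ 2) ∂μ with hI2
  set r : ℕ → ℝ := fun k => ρ * (1 / 2) ^ k with hr
  have hr0 : ∀ k, 0 < r k := fun k => by simp only [hr]; positivity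
  have hrρ : ∀ k, r k ≤ ρ := fun k => by
    simp only [hr]
    have : (1 / 2 : ℝ) ^ k ≤ 1 := pow_le_one₀ (by norm_num) (by norm_num)
    nlinarith
  set b : ℕ → X → ℝ≥0∞ := fun k x => (μ (ball x (r k)))⁻¹ *
        ∫⁻ y in ball x (2 * r k), ENNReal.ofReal (G y ^ 2) ∂μ with hb
  -- first term: pointwise
  have h1 : ∀ x ∈ E, ENNReal.ofReal (2 * (μ.real (ball x ρ))⁻¹) *
        ∫⁻ y in ball x ρ, ENNReal.ofReal (f y ^ 2) ∂μ ≤
      ENNReal.ofReal (2 ^ (n + 1) * (μ.real (ball x0 ρ))⁻¹) * I1 := by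
    intro x hx
    have hx' := mem_ball.1 (hEB hx)
    have hVx := hpos x ρ hρ
    have h2 : μ.real (ball x0 ρ) ≤ 2 ^ n * μ.real (ball x ρ) := by
      calc μ.real (ball x0 ρ) ≤ μ.real (ball x (2 * ρ)) := by
            refine measureReal_mono ?_ (ball_ne_top x _)
            intro z hz
            rw [mem_ball] at hz ⊢
            have := dist_triangle z x0 x
            rw [dist_comm x0 x] at this
            linarith
        _ ≤ (2 * ρ / ρ) ^ n * μ.real (ball x ρ) := hD x ρ (2 * ρ) hρ (by linarith)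
        _ = _ := by rw [mul_div_assoc, div_self hρ.ne', mul_one]
    have h3 : (μ.real (ball x ρ))⁻¹ ≤ 2 ^ n * (μ.real (ball x0 ρ))⁻¹ := by
      rw [← div_eq_mul_inv, le_div_iff₀ hV0, inv_mul_le_iff₀ hVx]
      linarith
    have h4 : 2 * (μ.real (ball x ρ))⁻¹ ≤ 2 ^ (n + 1) * (μ.real (ball x0 ρ))⁻¹ := by
      rw [pow_succ', mul_assoc]
      linarith
    have h5 : ball x ρ ⊆ ball x0 (2 * ρ) := ball_subset_ball' (by linarith)
    exact mul_le_mul' (ENNReal.ofReal_le_ofReal h4) (lintegral_mono_set h5)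
  -- second term
  have h2 : ∀ k, ∫⁻ x in E, b k x ∂μ ≤
      ENNReal.ofReal (4 ^ n * (2 * 2 ^ k * τ ^ (1 / (n : ℝ)))) * I2 := by
    intro k
    refine (avg_swap (hr0 k) (hrρ k) hpos hD hE hEB hg).trans ?_
    gcongr
    have e : 2 * ρ / r k = 2 * 2 ^ k := by
      simp only [hr, one_div, inv_pow]
      field_simp
    rw [e]
    apply min_le_rpow hn _ hτ0
    have : (1:ℝ) ≤ 2 ^ k := one_le_pow₀ (by norm_num)
    linarith
  have hbm : ∀ k, Measurable (b k) := fun k =>
    (measurable_mu_ball _).inv.mul (measurable_lint hg _)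
  have hgeo : ∑' k : ℕ, ENNReal.ofReal ((1 / 3 : ℝ) ^ k) *
      ENNReal.ofReal (4 ^ n * (2 * 2 ^ k * τ ^ (1 / (n : ℝ)))) =
      ENNReal.ofReal (6 * 4 ^ n * τ ^ (1 / (n : ℝ))) := by
    have e1 : ∀ k : ℕ, ENNReal.ofReal ((1 / 3 : ℝ) ^ k) *
      ENNReal.ofReal (4 ^ n * (2 * 2 ^ k * τ ^ (1 / (n : ℝ)))) =
      ENNReal.ofReal ((2 * 4 ^ n * τ ^ (1 / (n : ℝ))) * (2 / 3 : ℝ) ^ k) := by
      intro k
      rw [← ENNReal.ofReal_mul (by positivity)]
      congr 1
      rw [div_pow, div_pow, one_pow]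
      ring
    simp_rw [e1]
    rw [← ENNReal.ofReal_tsum_of_nonneg (fun k => by positivity)
      ((summable_geometric_of_lt_one (by norm_num) (by norm_num)).mul_left _)]
    congr 1
    rw [tsum_mul_left, tsum_geometric_of_lt_one (by norm_num) (by norm_num)]
    ring
  calc ∫⁻ x in E, ENNReal.ofReal (f x ^ 2) ∂μ
      ≤ ∫⁻ x in E, (ENNReal.ofReal (2 ^ (n + 1) * (μ.real (ball x0 ρ))⁻¹) * I1 +
          ENNReal.ofReal (8 * ρ ^ 2 * (2 ^ n * P)) *
            ∑' k : ℕ, ENNReal.ofReal ((1 / 3 : ℝ) ^ k) * b k x) ∂μ := by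
        apply setLIntegral_mono' hE
        intro x hx
        exact (pointwise hD hpos hf hG hP0 hP x hρ).trans (add_le_add (h1 x hx) le_rfl)
    _ = ENNReal.ofReal (2 ^ (n + 1) * (μ.real (ball x0 ρ))⁻¹) * I1 * μ E +
          ENNReal.ofReal (8 * ρ ^ 2 * (2 ^ n * P)) *
            ∑' k : ℕ, ENNReal.ofReal ((1 / 3 : ℝ) ^ k) * ∫⁻ x in E, b k x ∂μ := by
        rw [lintegral_add_left measurable_const, lintegral_const, Measure.restrict_apply_univ,
          lintegral_const_mul' _ _ ENNReal.ofReal_ne_top, lintegral_tsum]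
        · congr 3
          funext k
          rw [lintegral_const_mul' _ _ ENNReal.ofReal_ne_top]
        · intro k
          exact ((hbm k).const_mul _).aemeasurable
    _ ≤ ENNReal.ofReal (2 ^ (n + 1) * (μ.real (ball x0 ρ))⁻¹) * I1 * μ E +
          ENNReal.ofReal (8 * ρ ^ 2 * (2 ^ n * P)) *
            ∑' k : ℕ, ENNReal.ofReal ((1 / 3 : ℝ) ^ k) *
              (ENNReal.ofReal (4 ^ n * (2 * 2 ^ k * τ ^ (1 / (n : ℝ)))) * I2) := by
        gcongr with k
        exact h2 k
    _ = ENNReal.ofReal (2 ^ (n + 1) * τ) * I1 +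
          ENNReal.ofReal (8 * ρ ^ 2 * (2 ^ n * P)) *
            (ENNReal.ofReal (6 * 4 ^ n * τ ^ (1 / (n : ℝ))) * I2) := by
        congr 1
        · have e1 : μ E = ENNReal.ofReal (μ.real E) := (ofReal_measureReal hEfin).symm
          rw [mul_right_comm, e1, ← ENNReal.ofReal_mul (by positivity)]
          congr 2
          rw [hτ]
          ring
        · congr 1
          rw [← hgeo, ← ENNReal.tsum_mul_right]
          congr 1
          funext k
          ring
    _ ≤ ENNReal.ofReal (2 ^ (n + 1) * τ ^ (1 / (n : ℝ))) * I1 +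
          ENNReal.ofReal (8 * ρ ^ 2 * (2 ^ n * P)) *
            (ENNReal.ofReal (6 * 4 ^ n * τ ^ (1 / (n : ℝ))) * I2) := by
        gcongr
    _ = _ := by
        rw [mul_add]
        congr 1
        · rw [← mul_assoc, ← ENNReal.ofReal_mul (by positivity)]
          congr 2
          ring
        · rw [← mul_assoc (ENNReal.ofReal (8 * ρ ^ 2 * (2 ^ n * P))),
            ← mul_assoc (ENNReal.ofReal (τ ^ (1 / (n : ℝ)))),
            ← ENNReal.ofReal_mul (by positivity), ← ENNReal.ofReal_mul (by positivity)]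
          congr 2
          rw [show (8:ℝ) ^ n = 2 ^ n * 4 ^ n by rw [← mul_pow]; norm_num]
          ring

/-- **Faber–Krahn inequality**. -/
theorem fk {n : ℕ} (hn : 1 ≤ n) (hD : Dbl n μ)
    (hpos : ∀ (x : X) (r : ℝ), 0 < r → 0 < μ.real (ball x r))
    {f G : X → ℝ} (hf : Continuous f) (hG : Continuous G) {P : ℝ} (hP0 : 0 ≤ P) (hP : Poi P μ f G)
    {x0 : X} {ρ : ℝ} (hρ : 0 < ρ) {E : Set X} (hE : MeasurableSet E) (hEB : E ⊆ ball x0 ρ) :
    ∫ x in E, f x ^ 2 ∂μ ≤ (μ.real E / μ.real (ball x0 ρ)) ^ (1 / (n : ℝ)) *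
      (2 ^ (n + 1) * (∫ y in ball x0 (2 * ρ), f y ^ 2 ∂μ) +
       48 * 8 ^ n * P * ρ ^ 2 * ∫ y in ball x0 (3 * ρ), G y ^ 2 ∂μ) := by
  have h := fk' hn hD hpos hf hG hP0 hP hρ hE hEB
  have e1 : ∫⁻ x in E, ENNReal.ofReal (f x ^ 2) ∂μ = ENNReal.ofReal (∫ x in E, f x ^ 2 ∂μ) :=
    (ofReal_integral_eq_lintegral_ofReal ((intOn (hf.pow 2) x0 ρ).mono_set hEB)
      (Eventually.of_forall fun _ => sq_nonneg _)).symm
  have e2 : ∫⁻ y in ball x0 (2 * ρ), ENNReal.ofReal (f y ^ 2) ∂μ =
      ENNReal.ofReal (∫ y in ball x0 (2 * ρ), f y ^ 2 ∂μ) :=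
    (ofReal_integral_eq_lintegral_ofReal (intOn (hf.pow 2) x0 _)
      (Eventually.of_forall fun _ => sq_nonneg _)).symm
  have e3 : ∫⁻ y in ball x0 (3 * ρ), ENNReal.ofReal (G y ^ 2) ∂μ =
      ENNReal.ofReal (∫ y in ball x0 (3 * ρ), G y ^ 2 ∂μ) :=
    (ofReal_integral_eq_lintegral_ofReal (intOn (hG.pow 2) x0 _)
      (Eventually.of_forall fun _ => sq_nonneg _)).symm
  have i1 : 0 ≤ ∫ y in ball x0 (2 * ρ), f y ^ 2 ∂μ := integral_nonneg fun _ => sq_nonneg _
  have i2 : 0 ≤ ∫ y in ball x0 (3 * ρ), G y ^ 2 ∂μ := integral_nonneg fun _ => sq_nonneg _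
  have hτ0 : 0 ≤ μ.real E / μ.real (ball x0 ρ) := by positivity
  rw [e1, e2, e3, ← ENNReal.ofReal_mul (by positivity), ← ENNReal.ofReal_mul (by positivity),
    ← ENNReal.ofReal_add (by positivity) (by positivity), ← ENNReal.ofReal_mul (by positivity)] at h
  exact (ENNReal.ofReal_le_ofReal_iff (by positivity)).1 h

end fk

end Crest.Agent.R281.Sm1_593
end
end

-- ▼ part R281/Sm2_593
section

/-!
# R281 (S-SUBMV, helper593), part 2: truncations, Caccioppoli inequality, one De Giorgi step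

`s k t = max (t - k) 0`; `w = (f - k)₊²`; `-Δ f ≤ A + B f` on `U`:

* `cacc4` : `∫ η² ‖∇w‖² ≤ 2 ∫ η² (A + B f) (f-k)₊³ + 2 ∫ w² ‖∇η‖²`;
* `step`  : `Y(k',a) ≤ τ^(1/n) K Y(k,b)`, `Y(k,ρ) = ∫_{B_ρ} (f-k)₊⁴`.
-/

set_option autoImplicit false
set_option maxSynthPendingDepth 3
set_option linter.unusedSectionVars false
open Bundle Set MeasureTheory Manifold Filter Metric
open scoped ENNReal ContDiff Topology NNReal
open Crest.GeometryTopology.CoordMetric Crest.GeometryTopology.ChartCurvature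
open Crest.Agent.R249.SobA_982 Crest.Agent.R249.SobC_982 Crest.Agent.R249.SobD_982
  Crest.Agent.R249.SobE_982 Crest.Agent.R249.SobG_982 Crest.Agent.R249.SobH_982
open Crest.Agent.R247 Crest.Agent.R247.Ms322 Crest.Agent.R247.Mcp688

noncomputable section
namespace Crest.Agent.R281.Sm2_593

open Crest.Agent.R281.Sm1_593

section tr

/-- truncation -/
def s (k t : ℝ) : ℝ := max (t - k) 0

lemma s_nonneg (k t : ℝ) : 0 ≤ s k t := le_max_right _ _

lemma s_of_le {k t : ℝ} (h : t ≤ k) : s k t = 0 := max_eq_right (by linarith)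

lemma s_of_ge {k t : ℝ} (h : k ≤ t) : s k t = t - k := max_eq_left (by linarith)

lemma continuous_s (k : ℝ) : Continuous (s k) := by unfold s; fun_prop


lemma s_anti {k k' : ℝ} (h : k ≤ k') (t : ℝ) : s k' t ≤ s k t := by
  unfold s; exact max_le_max (by linarith) le_rfl

lemma lip_s (k : ℝ) : LocallyLipschitz (s k) := by
  have h : LipschitzWith 1 (s k) := by
    have h1 : LipschitzWith 1 (fun t : ℝ => t - k) := by
      apply LipschitzWith.of_dist_le_mul
      intro x y
      simp [Real.dist_eq]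
    exact h1.max_const 0
  exact h.locallyLipschitz

/-- derivative of the powers of the truncation -/
lemma hasDerivAt_s (k : ℝ) (m : ℕ) (t : ℝ) :
    HasDerivAt (fun t => s k t ^ (m + 2)) ((m + 2 : ℝ) * s k t ^ (m + 1)) t := by
  rcases lt_trichotomy t k with h | h | h
  · have e : (fun t => s k t ^ (m + 2)) =ᶠ[𝓝 t] fun _ => 0 := by
      filter_upwards [gt_mem_nhds h] with u hu
      rw [s_of_le hu.le]; simp
    rw [s_of_le h.le]
    simpa using (hasDerivAt_const t (0:ℝ)).congr_of_eventuallyEq e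
  · subst h
    rw [s_of_le le_rfl]
    have h0 : ((m + 2 : ℝ) * 0 ^ (m + 1)) = 0 := by simp
    rw [h0]
    rw [hasDerivAt_iff_isLittleO_nhds_zero]
    simp only [s_of_le (le_refl t)]
    have h1 : (fun h : ℝ => s t (t + h) ^ (m + 2) - 0 ^ (m + 2) - h • (0:ℝ)) =O[𝓝 0]
        fun h : ℝ => h ^ 2 := by
      rw [Asymptotics.isBigO_iff]
      refine ⟨1, ?_⟩
      filter_upwards [Metric.ball_mem_nhds (0:ℝ) one_pos] with h hh
      rw [Metric.mem_ball, dist_zero_right, Real.norm_eq_abs] at hh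
      have h2 : 0 ≤ s t (t + h) := s_nonneg _ _
      have h3 : s t (t + h) ≤ |h| := by
        unfold s
        rw [add_sub_cancel_left]
        exact max_le (le_abs_self h) (abs_nonneg h)
      rw [zero_pow (by omega), sub_zero, smul_zero, sub_zero, norm_pow, Real.norm_eq_abs,
        abs_of_nonneg h2, one_mul, norm_pow, Real.norm_eq_abs]
      calc s t (t + h) ^ (m + 2) ≤ |h| ^ (m + 2) := by gcongr
        _ = |h| ^ m * |h| ^ 2 := by rw [pow_add]
        _ ≤ 1 * |h| ^ 2 := by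
            gcongr
            exact pow_le_one₀ (abs_nonneg h) hh.le
        _ = _ := one_mul _
    refine h1.trans_isLittleO ?_
    have : (fun h : ℝ => h ^ 2) = fun h : ℝ => h ^ (1 + 1) := by norm_num
    rw [this]
    have h4 := Asymptotics.isLittleO_pow_pow (𝕜 := ℝ) (m := 1) (n := 2) (by norm_num)
    simpa using h4
  · have e : (fun t => s k t ^ (m + 2)) =ᶠ[𝓝 t] fun t => (t - k) ^ (m + 2) := by
      filter_upwards [lt_mem_nhds h] with u hu
      rw [s_of_ge hu.le]
    rw [s_of_ge h.le]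
    have h1 : HasDerivAt (fun t : ℝ => (t - k) ^ (m + 2)) ((m + 2 : ℝ) * (t - k) ^ (m + 1)) t := by
      have h2 : HasDerivAt (fun t : ℝ => t - k) 1 t := (hasDerivAt_id t).sub_const k
      have h3 := h2.pow (m + 2)
      have e3 : (fun t : ℝ => t - k) ^ (m + 2) = fun t : ℝ => (t - k) ^ (m + 2) := rfl
      rw [e3] at h3
      simpa using h3
    exact h1.congr_of_eventuallyEq e

lemma contDiff_s (k : ℝ) (m : ℕ) : ContDiff ℝ 1 (fun t => s k t ^ (m + 2)) := by
  rw [contDiff_one_iff_deriv]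
  refine ⟨fun t => (hasDerivAt_s k m t).differentiableAt, ?_⟩
  have e : deriv (fun t => s k t ^ (m + 2)) = fun t => (m + 2 : ℝ) * s k t ^ (m + 1) :=
    funext fun t => (hasDerivAt_s k m t).deriv
  rw [e]
  exact continuous_const.mul ((continuous_s k).pow _)

end tr

section M
variable {n : ℕ} {M : Type*} [MetricSpace M] [ChartedSpace (EuclideanSpace ℝ (Fin n)) M]
  [IsManifold (𝓡 n) ∞ M]
  [RiemannianBundle (fun p : M => TangentSpace (𝓡 n) p)]
  [IsContMDiffRiemannianBundle (𝓡 n) ∞ (EuclideanSpace ℝ (Fin n)) (fun p : M => TangentSpace (𝓡 n) p)]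
  [SecondCountableTopology M] [Nonempty M] [IsRiemannianManifold (𝓡 n) M]
  [MeasurableSpace M] [BorelSpace M]

lemma Gr_s {f : M → ℝ} {z : M} (hf : MDifferentiableAt (𝓡 n) 𝓘(ℝ) f z) (k : ℝ) (m : ℕ) :
    Gr (n := n) (fun y => s k (f y) ^ (m + 2)) z = ((m + 2 : ℝ) * s k (f z) ^ (m + 1)) • Gr f z := by
  have h := Gr_comp (n := n) (χ := fun t => s k t ^ (m + 2)) hf (hasDerivAt_s k m (f z)).differentiableAt
  rw [(hasDerivAt_s k m (f z)).deriv] at h
  exact h

/-- **Caccioppoli inequality for truncations.** -/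
theorem cacc4 {U : Set M} (hU : IsOpen U) {f η : M → ℝ}
    (hf : ∀ z ∈ U, ContMDiffAt (𝓡 n) 𝓘(ℝ, ℝ) 2 f z) {A B k : ℝ}
    (hL : ∀ z ∈ U, -(A + B * f z) ≤ Bo84.mLap n f z) (hη : LocallyLipschitz η)
    (hc : HasCompactSupport η) (hs : tsupport η ⊆ U) :
    ∫ z, η z ^ 2 * ‖Gr (n := n) (fun y => s k (f y) ^ 2) z‖ ^ 2 ∂(μHE[n] : Measure M) ≤
      2 * (∫ z, η z ^ 2 * ((A + B * f z) * s k (f z) ^ 3) ∂(μHE[n] : Measure M)) +
      2 * ∫ z, (s k (f z) ^ 2) ^ 2 * ‖Gr (n := n) η z‖ ^ 2 ∂(μHE[n] : Measure M) := by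
  have hfL : LLo U f := LLo.of_contMDiffAt fun z hz => (hf z hz).of_le (by norm_num)
  have hfc : ContinuousOn f U := hfL.continuousOn
  have hηc : Continuous η := hη.continuous
  have hsL : LLo U (fun z => s k (f z)) := hfL.comp₁ (lip_s k)
  have hs3L : LLo U (fun z => s k (f z) ^ 3) := by
    have h1 := (hsL.mul (hsL.mul hsL))
    refine h1.congr fun z _ => Eventually.of_forall fun y => ?_
    show s k (f y) * (s k (f y) * s k (f y)) = s k (f y) ^ 3
    ring
  have hsc : ContinuousOn (fun z => s k (f z)) U := (continuous_s k).comp_continuousOn hfc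
  -- test function `φ = η (η s³)`
  have h1 : LocallyLipschitz (fun z => η z * s k (f z) ^ 3) := LLo.mul_supp hη hs3L hs
  have hφL : LocallyLipschitz (fun z => η z * (η z * s k (f z) ^ 3)) :=
    LLo.mul_supp hη (LLo.of_loc h1 (U := U)) hs
  have hsub : Function.support (fun z => η z * (η z * s k (f z) ^ 3)) ⊆ Function.support η := by
    intro z hz h
    apply hz
    show η z * (η z * s k (f z) ^ 3) = 0
    rw [h, zero_mul]
  have hφs : tsupport (fun z => η z * (η z * s k (f z) ^ 3)) ⊆ U := (closure_mono hsub).trans hs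
  have hφc : HasCompactSupport (fun z => η z * (η z * s k (f z) ^ 3)) := hc.mono hsub
  have hibp := ibp_mLap hU hf hφL hφc hφs
  set w : M → ℝ := fun y => s k (f y) ^ 2 with hw
  -- the gradient of the test function
  have hgr : ∀ᵐ z ∂(μHE[n] : Measure M),
      inner ℝ (Gr (n := n) f z) (Gr (n := n) (fun z => η z * (η z * s k (f z) ^ 3)) z) =
        (3 / 4) * (η z ^ 2 * ‖Gr (n := n) w z‖ ^ 2) +
          (η z * w z) * inner ℝ (Gr (n := n) w z) (Gr (n := n) η z) := by
    filter_upwards [ae_mdifferentiableAt (n := n) hη] with z hz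
    by_cases hzU : z ∈ U
    · have hfz : MDifferentiableAt (𝓡 n) 𝓘(ℝ) f z := (hf z hzU).mdifferentiableAt (by norm_num)
      have hgw : Gr (n := n) w z = (2 * s k (f z)) • Gr f z := by
        have := Gr_s (n := n) hfz k 0
        simpa using this
      have hg3 : Gr (n := n) (fun y => s k (f y) ^ 3) z = (3 * s k (f z) ^ 2) • Gr f z := by
        have := Gr_s (n := n) hfz k 1
        norm_num at this
        exact this
      have hs3z : MDifferentiableAt (𝓡 n) 𝓘(ℝ) (fun y => s k (f y) ^ 3) z := by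
        have h3 : ContMDiffAt (𝓡 n) 𝓘(ℝ, ℝ) 1 (fun y => s k (f y) ^ 3) z :=
          ((contDiff_s k 1).contDiffAt.contMDiffAt).comp z ((hf z hzU).of_le (by norm_num))
        exact h3.mdifferentiableAt (by norm_num)
      have e1 : Gr (n := n) (fun z => η z * s k (f z) ^ 3) z =
          η z • Gr (fun y => s k (f y) ^ 3) z + s k (f z) ^ 3 • Gr η z := Gr_mul hz hs3z
      have hηs : MDifferentiableAt (𝓡 n) 𝓘(ℝ) (fun z => η z * s k (f z) ^ 3) z := hz.mul hs3z
      rw [Gr_mul hz hηs, e1, hg3, hgw, inner_add_right, inner_smul_right, inner_smul_right,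
        inner_add_right, inner_smul_right, inner_smul_right, inner_smul_right, inner_smul_left,
        norm_smul, real_inner_self_eq_norm_sq]
      have e2 : (‖2 * s k (f z)‖ * ‖Gr (n := n) f z‖) ^ 2 = 4 * s k (f z) ^ 2 * ‖Gr (n := n) f z‖ ^ 2 := by
        rw [mul_pow, Real.norm_eq_abs, sq_abs]; ring
      rw [e2]
      simp only [hw, conj_trivial]
      ring
    · have h0 : η z = 0 := image_eq_zero_of_notMem_tsupport fun h => hzU (hs h)
      have h2 : Gr (n := n) (fun z => η z * (η z * s k (f z) ^ 3)) z = 0 :=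
        Gr_zero_off fun h => hzU (hφs h)
      rw [h2, inner_zero_right, h0]
      ring
  rw [integral_congr_ae hgr] at hibp
  have hwL : LLo U w := by
    refine (hsL.mul hsL).congr fun z _ => Eventually.of_forall fun y => ?_
    show s k (f y) * s k (f y) = s k (f y) ^ 2
    ring
  have hwc : ContinuousOn w U := hwL.continuousOn
  -- integrability
  obtain ⟨Cf, hCf0, hCf⟩ := hwL.exists_bound_Gr (n := n) hc.isCompact hs
  obtain ⟨Cη, hCη0, hCη⟩ := exists_bound_Gr (n := n) hη hc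
  obtain ⟨Bf, hBf⟩ := hc.isCompact.exists_bound_of_continuousOn (hwc.mono hs)
  obtain ⟨Bη, hBη⟩ := hc.isCompact.exists_bound_of_continuousOn hηc.continuousOn
  have hwm : AEStronglyMeasurable w ((μHE[n] : Measure M).restrict (tsupport η)) :=
    (hwc.mono hs).aestronglyMeasurable hc.isCompact.measurableSet
  have hηm : AEStronglyMeasurable η ((μHE[n] : Measure M).restrict (tsupport η)) :=
    hηc.aestronglyMeasurable
  have hGf : AEStronglyMeasurable (Gr (n := n) w) ((μHE[n] : Measure M).restrict (tsupport η)) :=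
    (measurable_Gr w).aestronglyMeasurable
  have hGη : AEStronglyMeasurable (Gr (n := n) η) ((μHE[n] : Measure M).restrict (tsupport η)) :=
    (measurable_Gr η).aestronglyMeasurable
  have i1 : Integrable (fun z => η z ^ 2 * ‖Gr (n := n) w z‖ ^ 2) (μHE[n] : Measure M) := by
    refine integrable_of_compact_M hc.isCompact (C := Bη ^ 2 * Cf ^ 2) ?_ ?_ ?_
    · exact (hηm.pow 2).mul (hGf.norm.pow 2)
    · intro z hz
      have a1 := hBη z hz
      have a2 := hCf z hz
      rw [norm_mul, norm_pow, norm_pow, norm_norm]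
      gcongr
    · intro z hz
      rw [image_eq_zero_of_notMem_tsupport hz]
      ring
  have i2 : Integrable (fun z => (η z * w z) * inner ℝ (Gr (n := n) w z) (Gr (n := n) η z))
      (μHE[n] : Measure M) := by
    refine integrable_of_compact_M hc.isCompact (C := (Bη * Bf) * (Cf * Cη)) ?_ ?_ ?_
    · exact (hηm.mul hwm).mul (hGf.inner hGη)
    · intro z hz
      have a1 := hBη z hz
      have a2 := hCf z hz
      have a3 := hBf z hz
      have a4 := hCη z
      have a5 : ‖(inner ℝ (Gr (n := n) w z) (Gr (n := n) η z) : ℝ)‖ ≤ Cf * Cη :=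
        (norm_inner_le_norm _ _).trans (mul_le_mul a2 a4 (norm_nonneg _) hCf0)
      rw [norm_mul, norm_mul]
      have a6 : 0 ≤ Bη := (norm_nonneg _).trans a1
      have a8 : ‖η z‖ * ‖w z‖ ≤ Bη * Bf := mul_le_mul a1 a3 (norm_nonneg _) a6
      exact mul_le_mul a8 a5 (norm_nonneg _) (mul_nonneg a6 ((norm_nonneg _).trans a3))
    · intro z hz
      rw [image_eq_zero_of_notMem_tsupport hz]
      ring
  have i3 : Integrable (fun z => w z ^ 2 * ‖Gr (n := n) η z‖ ^ 2) (μHE[n] : Measure M) := by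
    refine integrable_of_compact_M hc.isCompact (C := Bf ^ 2 * Cη ^ 2) ?_ ?_ ?_
    · exact (hwm.pow 2).mul (hGη.norm.pow 2)
    · intro z hz
      have a3 := hBf z hz
      have a4 := hCη z
      rw [norm_mul, norm_pow (w z), norm_pow ‖Gr (n := n) η z‖, norm_norm]
      gcongr
    · intro z hz
      rw [Gr_zero_off hz, norm_zero]
      ring
  have hLc : ContinuousOn (Bo84.mLap n f) U := continuousOn_mLap hf
  have hs3c : ContinuousOn (fun z => s k (f z) ^ 3) U := hs3L.continuousOn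
  have i4 : Integrable (fun z => η z ^ 2 * ((A + B * f z) * s k (f z) ^ 3)) (μHE[n] : Measure M) := by
    have hcont : ContinuousOn (fun z => η z ^ 2 * ((A + B * f z) * s k (f z) ^ 3)) (tsupport η) :=
      ((hηc.continuousOn.pow 2).mul (((continuousOn_const.add (continuousOn_const.mul hfc)).mul
        hs3c).mono hs))
    obtain ⟨C, hC⟩ := hc.isCompact.exists_bound_of_continuousOn hcont
    refine integrable_of_compact_M hc.isCompact (C := C)
      (hcont.aestronglyMeasurable hc.isCompact.measurableSet) hC fun z hz => ?_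
    rw [image_eq_zero_of_notMem_tsupport hz]
    ring
  have i5 : Integrable (fun z => η z * (η z * s k (f z) ^ 3) * Bo84.mLap n f z)
      (μHE[n] : Measure M) := by
    have hcont : ContinuousOn (fun z => η z * (η z * s k (f z) ^ 3) * Bo84.mLap n f z) (tsupport η) :=
      (hηc.continuousOn.mul (hηc.continuousOn.mul (hs3c.mono hs))).mul (hLc.mono hs)
    obtain ⟨C, hC⟩ := hc.isCompact.exists_bound_of_continuousOn hcont
    refine integrable_of_compact_M hc.isCompact (C := C)
      (hcont.aestronglyMeasurable hc.isCompact.measurableSet) hC fun z hz => ?_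
    rw [image_eq_zero_of_notMem_tsupport hz]
    ring
  rw [integral_add (i1.const_mul _) i2, integral_const_mul] at hibp
  have hup : -∫ z, η z * (η z * s k (f z) ^ 3) * Bo84.mLap n f z ∂(μHE[n] : Measure M) ≤
      ∫ z, η z ^ 2 * ((A + B * f z) * s k (f z) ^ 3) ∂(μHE[n] : Measure M) := by
    rw [← integral_neg]
    apply integral_mono i5.neg i4
    intro z
    show -(η z * (η z * s k (f z) ^ 3) * Bo84.mLap n f z) ≤ η z ^ 2 * ((A + B * f z) * s k (f z) ^ 3)
    by_cases hzU : z ∈ U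
    · have h3 := hL z hzU
      have h4 : 0 ≤ η z ^ 2 * s k (f z) ^ 3 :=
        mul_nonneg (sq_nonneg _) (pow_nonneg (s_nonneg _ _) _)
      nlinarith [mul_le_mul_of_nonneg_left h3 h4]
    · rw [image_eq_zero_of_notMem_tsupport (f := η) fun h => hzU (hs h)]
      simp
  -- `η w ⟨Gr w, Gr η⟩ ≥ - (η² |Gr w|²/4 + w² |Gr η|²)`
  have hlow : -((1/4) * (∫ z, η z ^ 2 * ‖Gr (n := n) w z‖ ^ 2 ∂(μHE[n] : Measure M)) +
      ∫ z, w z ^ 2 * ‖Gr (n := n) η z‖ ^ 2 ∂(μHE[n] : Measure M)) ≤
      ∫ z, (η z * w z) * inner ℝ (Gr (n := n) w z) (Gr (n := n) η z) ∂(μHE[n] : Measure M) := by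
    rw [← integral_const_mul, ← integral_add (i1.const_mul _) i3, ← integral_neg]
    apply integral_mono ((i1.const_mul _).add i3).neg i2
    intro z
    show -((1/4) * (η z ^ 2 * ‖Gr (n := n) w z‖ ^ 2) + (w z ^ 2 * ‖Gr (n := n) η z‖ ^ 2)) ≤
      (η z * w z) * inner ℝ (Gr (n := n) w z) (Gr (n := n) η z)
    have h3 : |(inner ℝ (Gr (n := n) w z) (Gr (n := n) η z) : ℝ)| ≤
        ‖Gr (n := n) w z‖ * ‖Gr (n := n) η z‖ := abs_real_inner_le_norm _ _
    have h4 : |(η z * w z) * (inner ℝ (Gr (n := n) w z) (Gr (n := n) η z) : ℝ)| ≤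
        (|η z| * |w z|) * (‖Gr (n := n) w z‖ * ‖Gr (n := n) η z‖) := by
      rw [abs_mul, abs_mul]
      gcongr
    have h5 : (|η z| * |w z|) * (‖Gr (n := n) w z‖ * ‖Gr (n := n) η z‖) ≤
        (1/4) * (η z ^ 2 * ‖Gr (n := n) w z‖ ^ 2) + (w z ^ 2 * ‖Gr (n := n) η z‖ ^ 2) := by
      rw [← sq_abs (η z), ← sq_abs (w z)]
      nlinarith [sq_nonneg ((1/2) * (|η z| * ‖Gr (n := n) w z‖) - (|w z| * ‖Gr (n := n) η z‖))]
    have h6 := neg_abs_le ((η z * w z) * (inner ℝ (Gr (n := n) w z) (Gr (n := n) η z) : ℝ))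
    linarith
  linarith

end M

end Crest.Agent.R281.Sm2_593
end
end

-- ▼ part R281/Sm3_593
section

/-!
# R281 (S-SUBMV, helper593), part 3: one De Giorgi step on a manifold with `Ric ≥ 0`

`Y k ρ = ∫_{closedBall x0 ρ} (f - k)₊⁴`, `-(A + B f) ≤ Δ f`, `0 ≤ k < k'`, `a < b ≤ r`:

`Y k' a ≤ (Y k b / ((k'-k)⁴ μ (ball x0 r)))^(1/n) * K * Y k b`.
-/

set_option autoImplicit false
set_option maxSynthPendingDepth 3
set_option linter.unusedSectionVars false
open Bundle Set MeasureTheory Manifold Filter Metric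
open scoped ENNReal ContDiff Topology NNReal
open Crest.GeometryTopology.CoordMetric Crest.GeometryTopology.ChartCurvature
open Crest.Agent.R249.SobA_982 Crest.Agent.R249.SobC_982 Crest.Agent.R249.SobD_982
  Crest.Agent.R249.SobE_982 Crest.Agent.R249.SobG_982 Crest.Agent.R249.SobH_982
open Crest.Agent.R247 Crest.Agent.R247.Ms322 Crest.Agent.R247.Mcp688

noncomputable section
namespace Crest.Agent.R281.Sm3_593

open Crest.Agent.R281.Sm1_593 Crest.Agent.R281.Sm2_593

section rad
variable {n : ℕ} {X : Type*} [MetricSpace X] [MeasurableSpace X] [BorelSpace X] [ProperSpace X]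
  {μ : Measure X} [IsFiniteMeasureOnCompacts μ] [SFinite μ]

lemma dbl_of_rad (C : Rad n 0 X μ) : Dbl n μ := by
  intro x r R hr hR
  have h := C.mu_ball_le le_rfl x hr hR
  rw [zero_mul, zero_div, Real.exp_zero, one_mul] at h
  have e1 : μ (ball x R) = ENNReal.ofReal (μ.real (ball x R)) :=
    (ofReal_measureReal (ball_ne_top x R)).symm
  have e2 : μ (ball x r) = ENNReal.ofReal (μ.real (ball x r)) :=
    (ofReal_measureReal (ball_ne_top x r)).symm
  have h0 : 0 ≤ R / r := div_nonneg (hr.le.trans hR) hr.le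
  rw [e1, e2, ← ENNReal.ofReal_mul (by positivity)] at h
  exact (ENNReal.ofReal_le_ofReal_iff (by positivity)).1 h

lemma poi_of_rad (C : Rad n 0 X μ) {f G : X → ℝ} (h : LG f G) : Poi (8 * 2 ^ n) μ f G := by
  intro x r hr
  have := poincR C le_rfl (LGOn.of_lg (U := univ) h) h.contG.measurable (x0 := x) hr (subset_univ _)
  simp only [mul_zero, zero_mul, Real.exp_zero, one_mul] at this
  calc _ ≤ _ := this
    _ = _ := by ring

lemma pos_of_open [μ.IsOpenPosMeasure] (x : X) (r : ℝ) (hr : 0 < r) : 0 < μ.real (ball x r) :=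
  ENNReal.toReal_pos (measure_ball_pos μ x hr).ne' (ball_ne_top x r)

end rad

/-- the constant of the step -/
def Kst (n : ℕ) (r c d : ℝ) : ℝ :=
  2 ^ (n + 1) + 48 * 8 ^ n * (8 * 2 ^ n) * r ^ 2 * (4 * c + 6 * d ^ 2)

section M
variable {n : ℕ} {M : Type*} [MetricSpace M] [ChartedSpace (EuclideanSpace ℝ (Fin n)) M]
  [IsManifold (𝓡 n) ∞ M]
  [RiemannianBundle (fun p : M => TangentSpace (𝓡 n) p)]
  [IsContMDiffRiemannianBundle (𝓡 n) ∞ (EuclideanSpace ℝ (Fin n)) (fun p : M => TangentSpace (𝓡 n) p)]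
  [IsRiemannianManifold (𝓡 n) M] [CompleteSpace M]
  [MeasurableSpace M] [BorelSpace M]

/-- **one De Giorgi step** -/
theorem step (C : Rad n 0 M (μHE[n] : Measure M)) (hn : 1 ≤ n) {x0 : M} {r a b : ℝ} (hr : 0 < r)
    (hab : a < b) (hb : b ≤ r) {U : Set M} (hU : IsOpen U) (hbU : closedBall x0 b ⊆ U)
    {f : M → ℝ} (hf : ∀ z ∈ U, ContMDiffAt (𝓡 n) 𝓘(ℝ, ℝ) 2 f z) {A B k k' : ℝ} (hA : 0 ≤ A)
    (hB : 0 ≤ B) (hk : 0 ≤ k) (hkk : k < k') (hL : ∀ z ∈ U, -(A + B * f z) ≤ Bo84.mLap n f z) :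
    ∫ x in closedBall x0 a, s k' (f x) ^ 4 ∂(μHE[n] : Measure M) ≤
      ((∫ x in closedBall x0 b, s k (f x) ^ 4 ∂(μHE[n] : Measure M)) /
        ((k' - k) ^ 4 * (μHE[n] : Measure M).real (ball x0 r))) ^ (1 / (n : ℝ)) *
      (Kst n r (A / (k' - k) + B * (1 + k / (k' - k))) (Cth / (b - a)) *
        ∫ x in closedBall x0 b, s k (f x) ^ 4 ∂(μHE[n] : Measure M)) := by
  have := HR216.properSpace_of_riemannian n M
  have := HR216.secondCountable_of_riemannian n M
  have := isLocallyFiniteMeasure n M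
  have := isOpenPosMeasure n M
  have : Nonempty M := ⟨x0⟩
  have : SFinite (μHE[n] : Measure M) := inferInstance
  have hba : 0 < b - a := by linarith
  have hkk' : 0 < k' - k := by linarith
  have hCth := Cth_pos
  set μ : Measure M := μHE[n] with hμ
  set V := μ.real (ball x0 r) with hV
  have hV0 : 0 < V := pos_of_open x0 r hr
  set c := A / (k' - k) + B * (1 + k / (k' - k)) with hc
  have hc0 : 0 ≤ c := by positivity
  set η := cut2 x0 a b with hη
  set F := dcut2 x0 a b with hF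
  set w : M → ℝ := fun y => s k' (f y) ^ 2 with hw
  set G : M → ℝ := fun z => ‖Gr (n := n) w z‖ with hG
  have hwC : ∀ z ∈ U, ContMDiffAt (𝓡 n) 𝓘(ℝ, ℝ) 1 w z := fun z hz =>
    ((contDiff_s k' 0).contDiffAt.contMDiffAt).comp z ((hf z hz).of_le (by norm_num))
  have hwL : LGOn U w G := lgOn_of_contMDiffAt hU hwC
  have hLG : LG (fun y => η y * w y) (fun y => |η y| * G y + |w y| * F y) :=
    hwL.cut (LG_cut2 hab) ((tsupport_cut2 hab).trans hbU) ((tsupport_dcut2 hab).trans hbU)
  set H : M → ℝ := fun y => |η y| * G y + |w y| * F y with hH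
  have hH0 : ∀ x, b ≤ dist x x0 → H x = 0 := by
    intro x hx
    simp only [hH, hη, hF]
    rw [cut2_zero hab hx, dcut2_zero hab hx]
    simp
  have hη0 : ∀ x, b ≤ dist x x0 → η x = 0 := fun x hx => cut2_zero hab hx
  have hHi : Integrable (fun y => H y ^ 2) μ :=
    integrable_of_zero_off (hLG.contG.pow 2) (fun x hx => by rw [hH0 x hx.le]; norm_num) (x0 := x0)
      (R := b)
  have hψi : Integrable (fun y => (η y * w y) ^ 2) μ :=
    integrable_of_zero_off (hLG.continuous.pow 2) (fun x hx => by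
      rw [hη0 x hx.le, zero_mul]; norm_num) (x0 := x0) (R := b)
  -- the set `E`
  set E : Set M := ball x0 r ∩ {x | η x * w x ≠ 0} with hE
  have hEo : IsOpen E := isOpen_ball.inter (isOpen_ne_fun hLG.continuous continuous_const)
  have hEb : ∀ x ∈ E, x ∈ closedBall x0 b := by
    intro x hx
    rw [mem_closedBall]
    by_contra h
    exact hx.2 (by rw [hη0 x (not_le.1 h).le, zero_mul])
  have hEk : ∀ x ∈ E, k' < f x := by
    intro x hx
    by_contra h
    apply hx.2
    simp only [hw]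
    rw [s_of_le (not_lt.1 h)]
    simp
  have hfk := fk hn (dbl_of_rad C) (fun x r hr => pos_of_open x r hr) hLG.continuous hLG.contG
    (by positivity) (poi_of_rad C hLG) hr hEo.measurableSet (inter_subset_left : E ⊆ ball x0 r)
  -- continuity facts on the closed ball
  have hfc : ContinuousOn f (closedBall x0 b) := fun y hy =>
    (hf y (hbU hy)).continuousAt.continuousWithinAt
  have hs4 : ∀ t : ℝ, IntegrableOn (fun x => s t (f x) ^ 4) (closedBall x0 b) μ := fun t =>
    (((continuous_s t).comp_continuousOn hfc).pow 4).integrableOn_compact (isCompact_closedBall x0 b)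
  set Y := ∫ x in closedBall x0 b, s k (f x) ^ 4 ∂μ with hY
  have hY0 : 0 ≤ Y := integral_nonneg fun x => pow_nonneg (s_nonneg _ _) _
  -- `μ E`
  have hμE : μ.real E * (k' - k) ^ 4 ≤ Y := by
    have hEfin : μ E ≠ ⊤ := ne_top_of_le_ne_top (ball_ne_top x0 r) (measure_mono inter_subset_left)
    calc μ.real E * (k' - k) ^ 4 = ∫ x in E, (k' - k) ^ 4 ∂μ := by
          rw [setIntegral_const, smul_eq_mul]
      _ ≤ ∫ x in E, s k (f x) ^ 4 ∂μ := by
          apply setIntegral_mono_on (integrableOn_const (hs := hEfin)) ((hs4 k).mono_set hEb)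
            hEo.measurableSet
          intro x hx
          have := hEk x hx
          rw [s_of_ge (by linarith)]
          gcongr
      _ ≤ Y := setIntegral_mono_set (hs4 k) (Eventually.of_forall fun x =>
          pow_nonneg (s_nonneg _ _) _) (show E ⊆ closedBall x0 b from hEb).eventuallyLE
  -- left side
  have hlhs : ∫ x in closedBall x0 a, s k' (f x) ^ 4 ∂μ ≤ ∫ x in E, (η x * w x) ^ 2 ∂μ := by
    have e1 : ∫ x in E, (η x * w x) ^ 2 ∂μ = ∫ x in ball x0 r, (η x * w x) ^ 2 ∂μ := by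
      symm
      apply setIntegral_eq_of_subset_of_forall_sdiff_eq_zero isOpen_ball.measurableSet
        inter_subset_left
      intro x hx
      by_contra h
      exact hx.2 ⟨hx.1, fun h' => h (by rw [h']; norm_num)⟩
    rw [e1]
    calc ∫ x in closedBall x0 a, s k' (f x) ^ 4 ∂μ = ∫ x in closedBall x0 a, (η x * w x) ^ 2 ∂μ := by
          apply setIntegral_congr_fun isClosed_closedBall.measurableSet
          intro x hx
          simp only [hη, hw]
          rw [cut2_one hab hx, one_mul]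
          ring
      _ ≤ _ := setIntegral_mono_set hψi.integrableOn (Eventually.of_forall fun x => sq_nonneg _)
          (closedBall_subset_ball (by linarith)).eventuallyLE
  -- `∫ ψ²`
  have hwY : ∀ x, w x ^ 2 ≤ s k (f x) ^ 4 := by
    intro x
    simp only [hw]
    have h1 := s_anti hkk.le (f x)
    have h2 := s_nonneg k' (f x)
    calc (s k' (f x) ^ 2) ^ 2 = s k' (f x) ^ 4 := by ring
      _ ≤ _ := by gcongr
  have hI1 : ∫ y in ball x0 (2 * r), (η y * w y) ^ 2 ∂μ ≤ Y := by
    have e : ∫ y in ball x0 (2 * r), (η y * w y) ^ 2 ∂μ ≤ ∫ y, (η y * w y) ^ 2 ∂μ :=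
      setIntegral_le_integral hψi (Eventually.of_forall fun x => sq_nonneg _)
    have e2 : ∫ y, (η y * w y) ^ 2 ∂μ = ∫ y in closedBall x0 b, (η y * w y) ^ 2 ∂μ := by
      symm
      apply setIntegral_eq_integral_of_forall_compl_eq_zero
      intro x hx
      rw [hη0 x (by
        have : ¬ dist x x0 ≤ b := hx
        linarith)]
      norm_num
    refine e.trans (e2.le.trans ?_)
    apply integral_mono hψi.integrableOn (hs4 k)
    intro x
    show (η x * w x) ^ 2 ≤ s k (f x) ^ 4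
    have h1 := cut2_le_one x0 a b x
    have h2 := cut2_nonneg x0 a b x
    rw [mul_pow]
    calc η x ^ 2 * w x ^ 2 ≤ 1 * w x ^ 2 := by
          gcongr
          exact pow_le_one₀ h2 h1
      _ ≤ _ := by rw [one_mul]; exact hwY x
  -- Caccioppoli
  have hηlip : LipschitzWith (Real.toNNReal (Cth / (b - a))) η :=
    LipschitzWith.of_dist_le_mul fun x y => by
      rw [Real.dist_eq, Real.coe_toNNReal _ (by positivity)]
      exact cut2_lip hab x y
  have hηc : HasCompactSupport η :=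
    HasCompactSupport.intro (isCompact_closedBall x0 b) fun x hx => hη0 x (by
      have : ¬ dist x x0 ≤ b := hx
      linarith)
  have hcacc := cacc4 hU hf (k := k') hL hηlip.locallyLipschitz hηc ((tsupport_cut2 hab).trans hbU)
  have hGη : ∀ z, ‖Gr (n := n) η z‖ ≤ Cth / (b - a) := by
    intro z
    have := norm_Gr_le_of_lipschitzOn (n := n) (z := z) (U := univ) univ_mem hηlip.lipschitzOnWith
    rwa [Real.coe_toNNReal _ (by positivity)] at this
  set d := Cth / (b - a) with hd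
  have hd0 : 0 ≤ d := by positivity
  have hGc : ContinuousOn G (closedBall x0 b) := fun y hy =>
    (hwL.contG y (hbU hy)).continuousWithinAt
  have hwc : ContinuousOn w (closedBall x0 b) := fun y hy =>
    (hwL.continuousAt (hbU hy)).continuousWithinAt
  have hηcont : ContinuousOn η (closedBall x0 b) := hηlip.continuous.continuousOn
  have hiη : IntegrableOn (fun x => η x ^ 2 * G x ^ 2) (closedBall x0 b) μ :=
    ((hηcont.pow 2).mul (hGc.pow 2)).integrableOn_compact (isCompact_closedBall x0 b)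
  have hc1 : ∫ z, η z ^ 2 * ((A + B * f z) * s k' (f z) ^ 3) ∂μ ≤ c * Y := by
    have e : ∫ z, η z ^ 2 * ((A + B * f z) * s k' (f z) ^ 3) ∂μ =
        ∫ z in closedBall x0 b, η z ^ 2 * ((A + B * f z) * s k' (f z) ^ 3) ∂μ := by
      symm
      apply setIntegral_eq_integral_of_forall_compl_eq_zero
      intro x hx
      rw [hη0 x (by
        have : ¬ dist x x0 ≤ b := hx
        linarith)]
      norm_num
    rw [e, hY, ← integral_const_mul]
    apply setIntegral_mono_on _ ((hs4 k).const_mul _) isClosed_closedBall.measurableSet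
    · intro x hx
      show η x ^ 2 * ((A + B * f x) * s k' (f x) ^ 3) ≤ c * s k (f x) ^ 4
      have h1 := cut2_le_one x0 a b x
      have h2 := cut2_nonneg x0 a b x
      have h3 : η x ^ 2 ≤ 1 := pow_le_one₀ h2 h1
      rcases le_total (f x) k' with h | h
      · rw [s_of_le h]
        have := s_nonneg k (f x)
        simp only [ne_eq, OfNat.ofNat_ne_zero, not_false_eq_true, zero_pow, mul_zero]
        positivity
      · have hs1 : s k (f x) = f x - k := s_of_ge (by linarith)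
        have hs2 : s k' (f x) = f x - k' := s_of_ge h
        have hs3 : s k' (f x) ≤ s k (f x) := s_anti hkk.le _
        have hs0 : 0 ≤ s k' (f x) := s_nonneg _ _
        set S := s k (f x) with hS
        have hSk : k' - k ≤ S := by rw [hs1]; linarith
        have hS0 : 0 < S := hkk'.trans_le hSk
        have hfx : f x = S + k := by rw [hs1]; ring
        have h5 : A + B * f x ≤ c * S := by
          have q1 : 1 ≤ S / (k' - k) := by rwa [one_le_div hkk']
          have q2 : A ≤ A / (k' - k) * S := by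
            have := mul_le_mul_of_nonneg_left q1 hA
            calc A = A * 1 := (mul_one A).symm
              _ ≤ _ := this
              _ = _ := by ring
          have q3 : k ≤ k / (k' - k) * S := by
            have := mul_le_mul_of_nonneg_left q1 hk
            calc k = k * 1 := (mul_one k).symm
              _ ≤ _ := this
              _ = _ := by ring
          have q4 : B * f x ≤ B * (1 + k / (k' - k)) * S := by
            rw [hfx, mul_assoc]
            gcongr
            linarith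
          rw [hc]
          linarith
        have h6 : 0 ≤ A + B * f x := by
          have : 0 ≤ f x := by linarith
          positivity
        calc η x ^ 2 * ((A + B * f x) * s k' (f x) ^ 3) ≤ 1 * ((c * S) * S ^ 3) := by
              gcongr
          _ = c * S ^ 4 := by ring
    · have hcont : ContinuousOn (fun z => η z ^ 2 * ((A + B * f z) * s k' (f z) ^ 3))
          (closedBall x0 b) := (hηcont.pow 2).mul ((continuousOn_const.add
            (continuousOn_const.mul hfc)).mul (((continuous_s k').comp_continuousOn hfc).pow 3))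
      exact hcont.integrableOn_compact (isCompact_closedBall x0 b)
  have hc2 : ∫ z, (s k' (f z) ^ 2) ^ 2 * ‖Gr (n := n) η z‖ ^ 2 ∂μ ≤ d ^ 2 * Y := by
    have e : ∫ z, (s k' (f z) ^ 2) ^ 2 * ‖Gr (n := n) η z‖ ^ 2 ∂μ =
        ∫ z in closedBall x0 b, (s k' (f z) ^ 2) ^ 2 * ‖Gr (n := n) η z‖ ^ 2 ∂μ := by
      symm
      apply setIntegral_eq_integral_of_forall_compl_eq_zero
      intro x hx
      rw [Gr_zero_off fun h => hx (tsupport_cut2 hab h), norm_zero]
      norm_num
    rw [e, hY, ← integral_const_mul]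
    apply integral_mono_of_nonneg (Eventually.of_forall fun x => by positivity)
      ((hs4 k).const_mul _)
    refine Eventually.of_forall fun x => ?_
    show (s k' (f x) ^ 2) ^ 2 * ‖Gr (n := n) η x‖ ^ 2 ≤ d ^ 2 * s k (f x) ^ 4
    rw [mul_comm]
    have := hwY x
    simp only [hw] at this
    gcongr
    exact hGη x
  have h4 : ∫ x in closedBall x0 b, η x ^ 2 * G x ^ 2 ∂μ = ∫ x, η x ^ 2 * G x ^ 2 ∂μ := by
    apply setIntegral_eq_integral_of_forall_compl_eq_zero
    intro x hx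
    rw [hη0 x (by
      have : ¬ dist x x0 ≤ b := hx
      linarith)]
    norm_num
  have h3 : ∫ x, H x ^ 2 ∂μ ≤ 2 * (∫ x, η x ^ 2 * G x ^ 2 ∂μ) + 2 * (d ^ 2 * Y) := by
    have e : ∫ x, H x ^ 2 ∂μ = ∫ x in closedBall x0 b, H x ^ 2 ∂μ := by
      symm
      apply setIntegral_eq_integral_of_forall_compl_eq_zero
      intro x hx
      rw [hH0 x (by
        have : ¬ dist x x0 ≤ b := hx
        linarith)]
      norm_num
    rw [e, ← h4, hY, ← integral_const_mul, ← integral_const_mul, ← integral_const_mul,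
      ← integral_add (hiη.const_mul _) (((hs4 k).const_mul _).const_mul _)]
    apply integral_mono hHi.integrableOn ((hiη.const_mul _).add (((hs4 k).const_mul _).const_mul _))
    intro x
    show H x ^ 2 ≤ 2 * (η x ^ 2 * G x ^ 2) + 2 * (d ^ 2 * s k (f x) ^ 4)
    have a2 : F x ≤ d := dcut2_le hab
    have a3 : 0 ≤ F x := dcut2_nonneg hab
    have a4 : H x ^ 2 ≤ 2 * (|η x| * G x) ^ 2 + 2 * (|w x| * F x) ^ 2 := by
      simp only [hH]
      nlinarith [sq_nonneg (|η x| * G x - |w x| * F x)]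
    have a5 : (|η x| * G x) ^ 2 = η x ^ 2 * G x ^ 2 := by
      rw [mul_pow, sq_abs]
    have a6 : (|w x| * F x) ^ 2 ≤ d ^ 2 * s k (f x) ^ 4 := by
      rw [mul_pow, sq_abs, mul_comm]
      have := hwY x
      gcongr
    linarith
  have hI2 : ∫ y in ball x0 (3 * r), H y ^ 2 ∂μ ≤ (4 * c + 6 * d ^ 2) * Y := by
    have e : ∫ y in ball x0 (3 * r), H y ^ 2 ∂μ ≤ ∫ y, H y ^ 2 ∂μ :=
      setIntegral_le_integral hHi (Eventually.of_forall fun x => sq_nonneg _)
    have h7 : ∫ x, η x ^ 2 * G x ^ 2 ∂μ ≤ 2 * (c * Y) + 2 * (d ^ 2 * Y) := by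
      refine hcacc.trans ?_
      linarith
    linarith
  -- conclusion
  have hτ : μ.real E / V ≤ Y / ((k' - k) ^ 4 * V) := by
    rw [div_le_div_iff₀ hV0 (by positivity)]
    calc μ.real E * ((k' - k) ^ 4 * V) = (μ.real E * (k' - k) ^ 4) * V := by ring
      _ ≤ Y * V := by gcongr
  calc ∫ x in closedBall x0 a, s k' (f x) ^ 4 ∂μ ≤ ∫ x in E, (η x * w x) ^ 2 ∂μ := hlhs
    _ ≤ _ := hfk
    _ ≤ (Y / ((k' - k) ^ 4 * V)) ^ (1 / (n : ℝ)) *
        (2 ^ (n + 1) * Y + 48 * 8 ^ n * (8 * 2 ^ n) * r ^ 2 * ((4 * c + 6 * d ^ 2) * Y)) := by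
        have i1 : 0 ≤ ∫ y in ball x0 (2 * r), (η y * w y) ^ 2 ∂μ := integral_nonneg fun _ => sq_nonneg _
        have i2 : 0 ≤ ∫ y in ball x0 (3 * r), H y ^ 2 ∂μ := integral_nonneg fun _ => sq_nonneg _
        apply mul_le_mul _ _ (by positivity) (by positivity)
        · exact Real.rpow_le_rpow (by positivity) hτ (by positivity)
        · gcongr
    _ = _ := by
        rw [Kst]
        ring

end M

end Crest.Agent.R281.Sm3_593
end
end

-- ▼ part R281/Sm4_593

/-!
# R281 (S-SUBMV, helper593), part 4: De Giorgi iteration; the sub-mean value inequality (DG1)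

`M` complete with `Ric ≥ 0` (`C : Rad n 0 M μHE[n]`), any dimension, any volume growth.

* `dg4` : `L⁴` version;
* `dg1` : `-(A + B f) ≤ Δ f` on a neighbourhood of `closedBall x0 r`, `B r² ≤ 1` ⟹
  `f ≤ CDG n * (mean_{ball x0 r} f⁺ + A r²)` on `closedBall x0 (r/2)`.
-/

set_option autoImplicit false
set_option maxSynthPendingDepth 3
set_option linter.unusedSectionVars false
open Bundle Set MeasureTheory Manifold Filter Metric
open scoped ENNReal ContDiff Topology NNReal
open Crest.GeometryTopology.CoordMetric Crest.GeometryTopology.ChartCurvature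
open Crest.Agent.R249.SobA_982 Crest.Agent.R249.SobC_982 Crest.Agent.R249.SobD_982
  Crest.Agent.R249.SobE_982 Crest.Agent.R249.SobG_982 Crest.Agent.R249.SobH_982
open Crest.Agent.R247 Crest.Agent.R247.Ms322 Crest.Agent.R247.Mcp688

noncomputable section
namespace Crest.Agent.R281.Sm4_593

open Crest.Agent.R281.Sm1_593 Crest.Agent.R281.Sm2_593 Crest.Agent.R281.Sm3_593

section num

lemma iterZ {n : ℕ} (hn : 1 ≤ n) {K : ℝ} (hK : 0 < K) {Z : ℕ → ℝ} (hZ : ∀ j, 0 ≤ Z j)
    (h : ∀ j, Z (j + 1) ≤ K * 64 ^ j * (Z j * (Z j) ^ (1 / (n : ℝ))))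
    (h0 : Z 0 ≤ ((K * 64 ^ n)⁻¹) ^ n) (j : ℕ) : Z j ≤ Z 0 * (((64:ℝ) ^ n)⁻¹) ^ j := by
  have hn0 : (0:ℝ) < n := by exact_mod_cast hn
  have hroot : ∀ x : ℝ, 0 ≤ x → (x ^ n) ^ (1 / (n : ℝ)) = x := by
    intro x hx
    rw [← Real.rpow_natCast, ← Real.rpow_mul hx, mul_one_div_cancel hn0.ne', Real.rpow_one]
  have hZ0 : (Z 0) ^ (1 / (n : ℝ)) ≤ (K * 64 ^ n)⁻¹ := by
    have h1 := Real.rpow_le_rpow (hZ 0) h0 (z := 1 / (n : ℝ)) (by positivity)
    rwa [hroot _ (by positivity)] at h1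
  induction j with
  | zero => simp
  | succ j ih =>
    have h1 : (Z j) ^ (1 / (n : ℝ)) ≤ (K * 64 ^ n)⁻¹ * ((64:ℝ)⁻¹) ^ j := by
      have h2 := Real.rpow_le_rpow (hZ j) ih (z := 1 / (n : ℝ)) (by positivity)
      refine h2.trans ?_
      rw [Real.mul_rpow (hZ 0) (by positivity)]
      have e : ((((64:ℝ) ^ n)⁻¹) ^ j) ^ (1 / (n : ℝ)) = ((64:ℝ)⁻¹) ^ j := by
        rw [← inv_pow, ← pow_mul, mul_comm n j, pow_mul]
        exact hroot _ (by positivity)
      rw [e]
      gcongr
    calc Z (j + 1) ≤ K * 64 ^ j * (Z j * (Z j) ^ (1 / (n : ℝ))) := h j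
      _ ≤ K * 64 ^ j * ((Z 0 * (((64:ℝ) ^ n)⁻¹) ^ j) * ((K * 64 ^ n)⁻¹ * ((64:ℝ)⁻¹) ^ j)) := by
          have := hZ j
          have := hZ 0
          gcongr
      _ = Z 0 * (((64:ℝ) ^ n)⁻¹) ^ (j + 1) * (K * K⁻¹) * (64 ^ j * ((64:ℝ)⁻¹) ^ j) := by
          rw [pow_succ, mul_inv]
          ring
      _ = _ := by
          rw [mul_inv_cancel₀ hK.ne', ← mul_pow, mul_inv_cancel₀ (by norm_num), one_pow, mul_one,
            mul_one]

lemma rpow_le_self {n : ℕ} (hn : 1 ≤ n) {a : ℝ} (ha : 1 ≤ a) : a ^ (1 / (n : ℝ)) ≤ a := by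
  have hn0 : (1:ℝ) ≤ n := by exact_mod_cast hn
  calc a ^ (1 / (n : ℝ)) ≤ a ^ (1 : ℝ) := by
        apply Real.rpow_le_rpow_of_exponent_le ha
        rw [div_le_one (by linarith)]; exact hn0
    _ = a := Real.rpow_one a

/-- constant of one step -/
def K1 (n : ℕ) : ℝ := 2 ^ (n + 1) + 384 * 16 ^ n * (20 + 1536 * Cth ^ 2)

lemma K1_pos (n : ℕ) : 0 < K1 n := by unfold K1; positivity

/-- smallness constant -/
def eps (n : ℕ) : ℝ := ((16 * K1 n * 64 ^ n)⁻¹) ^ n

lemma eps_pos (n : ℕ) : 0 < eps n := by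
  have := K1_pos n
  unfold eps; positivity

/-- the constant of the sub-mean value inequality -/
def CDG (n : ℕ) : ℝ := 2 ^ (n + 1) + 16 * 64 ^ n / eps n

lemma CDG_pos (n : ℕ) : 0 < CDG n := by
  have := eps_pos n
  unfold CDG; positivity

lemma Kst_le {n j : ℕ} {r A B H : ℝ} (hr : 0 < r) (_hA : 0 ≤ A) (_hB : 0 ≤ B) (hH : 0 < H)
    (hAr : A * r ^ 2 ≤ H) (hBr : B * r ^ 2 ≤ 1) {c d : ℝ}
    (hc : c ≤ A / (H * (1 / 2) ^ (j + 1)) + B * (1 + H / (H * (1 / 2) ^ (j + 1))))
    (hd0 : 0 ≤ d) (hd : d ≤ Cth / (r / 16 * (1 / 2) ^ j)) :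
    Kst n r c d ≤ 4 ^ j * K1 n := by
  have hC := Cth_pos
  have h2 : (1:ℝ) ≤ 2 ^ j := one_le_pow₀ (by norm_num)
  have h4 : (2:ℝ) ^ j ≤ 4 ^ j := pow_le_pow_left₀ (by norm_num) (by norm_num) j
  have h41 : (1:ℝ) ≤ 4 ^ j := h2.trans h4
  have e1 : A / (H * (1 / 2) ^ (j + 1)) = A / H * (2 * 2 ^ j) := by
    rw [one_div, inv_pow, pow_succ]
    field_simp
  have e2 : H / (H * (1 / 2) ^ (j + 1)) = 2 * 2 ^ j := by
    rw [one_div, inv_pow, pow_succ]
    field_simp
  have hrc : r ^ 2 * c ≤ 5 * 4 ^ j := by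
    have h5 : r ^ 2 * c ≤ r ^ 2 * (A / H * (2 * 2 ^ j) + B * (1 + 2 * 2 ^ j)) := by
      rw [← e1, ← e2]; gcongr
    have h6 : r ^ 2 * (A / H * (2 * 2 ^ j) + B * (1 + 2 * 2 ^ j)) =
        (A * r ^ 2) / H * (2 * 2 ^ j) + (B * r ^ 2) * (1 + 2 * 2 ^ j) := by ring
    have h7 : (A * r ^ 2) / H ≤ 1 := by rwa [div_le_one hH]
    have h8 : (A * r ^ 2) / H * (2 * 2 ^ j) ≤ 1 * (2 * 2 ^ j) := by gcongr
    have h9 : (B * r ^ 2) * (1 + 2 * 2 ^ j) ≤ 1 * (1 + 2 * 2 ^ j) := by gcongr
    linarith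
  have hrd : r ^ 2 * d ^ 2 ≤ 256 * Cth ^ 2 * 4 ^ j := by
    have h5 : d ^ 2 ≤ (Cth / (r / 16 * (1 / 2) ^ j)) ^ 2 := by gcongr
    have h6 : r ^ 2 * (Cth / (r / 16 * (1 / 2) ^ j)) ^ 2 = 256 * Cth ^ 2 * 4 ^ j := by
      rw [show (4:ℝ) ^ j = 2 ^ j * 2 ^ j by rw [← mul_pow]; norm_num, one_div, inv_pow]
      field_simp
      norm_num
    calc r ^ 2 * d ^ 2 ≤ r ^ 2 * (Cth / (r / 16 * (1 / 2) ^ j)) ^ 2 := by gcongr
      _ = _ := h6
  have h16 : (8:ℝ) ^ n * (8 * 2 ^ n) = 8 * 16 ^ n := by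
    rw [show (16:ℝ) ^ n = 8 ^ n * 2 ^ n by rw [← mul_pow]; norm_num]; ring
  have e3 : Kst n r c d = 2 ^ (n + 1) + 384 * 16 ^ n * (4 * (r ^ 2 * c) + 6 * (r ^ 2 * d ^ 2)) := by
    rw [Kst, mul_assoc (48:ℝ), h16]; ring
  rw [e3, K1]
  have h10 : (2:ℝ) ^ (n + 1) ≤ 4 ^ j * 2 ^ (n + 1) := by
    have : (0:ℝ) < 2 ^ (n + 1) := by positivity
    nlinarith
  have h11 : 384 * 16 ^ n * (4 * (r ^ 2 * c) + 6 * (r ^ 2 * d ^ 2)) ≤
      384 * 16 ^ n * (4 * (5 * 4 ^ j) + 6 * (256 * Cth ^ 2 * 4 ^ j)) := by gcongr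
  calc _ ≤ 4 ^ j * 2 ^ (n + 1) + 384 * 16 ^ n * (4 * (5 * 4 ^ j) + 6 * (256 * Cth ^ 2 * 4 ^ j)) :=
        add_le_add h10 h11
    _ = _ := by ring

end num

section M
variable {n : ℕ} {M : Type*} [MetricSpace M] [ChartedSpace (EuclideanSpace ℝ (Fin n)) M]
  [IsManifold (𝓡 n) ∞ M]
  [RiemannianBundle (fun p : M => TangentSpace (𝓡 n) p)]
  [IsContMDiffRiemannianBundle (𝓡 n) ∞ (EuclideanSpace ℝ (Fin n)) (fun p : M => TangentSpace (𝓡 n) p)]
  [IsRiemannianManifold (𝓡 n) M] [CompleteSpace M]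
  [MeasurableSpace M] [BorelSpace M]

/-- **De Giorgi iteration**, `L⁴` version. -/
theorem dg4 (C : Rad n 0 M (μHE[n] : Measure M)) (hn : 1 ≤ n) {x0 : M} {r : ℝ} (hr : 0 < r)
    {U : Set M} (hU : IsOpen U) (hrU : closedBall x0 (3 * r / 4) ⊆ U)
    {f : M → ℝ} (hf : ∀ z ∈ U, ContMDiffAt (𝓡 n) 𝓘(ℝ, ℝ) 2 f z) {A B H : ℝ} (hA : 0 ≤ A)
    (hB : 0 ≤ B) (hH : 0 < H) (hAr : A * r ^ 2 ≤ H) (hBr : B * r ^ 2 ≤ 1)
    (hL : ∀ z ∈ U, -(A + B * f z) ≤ Bo84.mLap n f z)
    (h0 : ∫ x in closedBall x0 (3 * r / 4), s 0 (f x) ^ 4 ∂(μHE[n] : Measure M) ≤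
      eps n * (H ^ 4 * (μHE[n] : Measure M).real (ball x0 r))) {x : M}
    (hx : x ∈ closedBall x0 (r / 2)) : f x ≤ H := by
  have := HR216.properSpace_of_riemannian n M
  have := HR216.secondCountable_of_riemannian n M
  have := isLocallyFiniteMeasure n M
  have := isOpenPosMeasure n M
  have : Nonempty M := ⟨x0⟩
  set μ : Measure M := μHE[n] with hμ
  set V := μ.real (ball x0 r) with hV
  have hV0 : 0 < V := pos_of_open x0 r hr
  have hHV : 0 < H ^ 4 * V := by positivity
  set ρ : ℕ → ℝ := fun j => 5 * r / 8 + r / 8 * (1 / 2) ^ j with hρ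
  set k : ℕ → ℝ := fun j => H * (1 - (1 / 2) ^ j) with hk
  have hp1 : ∀ j : ℕ, (1 / 2 : ℝ) ^ j ≤ 1 := fun j => pow_le_one₀ (by norm_num) (by norm_num)
  have hp0 : ∀ j : ℕ, 0 < (1 / 2 : ℝ) ^ j := fun j => by positivity
  have hρle : ∀ j, ρ j ≤ 3 * r / 4 := fun j => by
    have := hp1 j
    simp only [hρ]
    nlinarith
  have hρge : ∀ j, 5 * r / 8 ≤ ρ j := fun j => by
    have := hp0 j
    simp only [hρ]
    have : 0 < r / 8 * (1 / 2) ^ j := by positivity
    linarith
  have hρs : ∀ j, ρ j - ρ (j + 1) = r / 16 * (1 / 2) ^ j := fun j => by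
    simp only [hρ, pow_succ]; ring
  have hks : ∀ j, k (j + 1) - k j = H * (1 / 2) ^ (j + 1) := fun j => by
    simp only [hk, pow_succ]; ring
  have hk0 : ∀ j, 0 ≤ k j := fun j => by
    simp only [hk]
    exact mul_nonneg hH.le (by linarith [hp1 j])
  have hkH : ∀ j, k j ≤ H := fun j => by
    simp only [hk]
    have := hp0 j
    nlinarith
  set Y : ℕ → ℝ := fun j => ∫ x in closedBall x0 (ρ j), s (k j) (f x) ^ 4 ∂μ with hY
  have hY0 : ∀ j, 0 ≤ Y j := fun j => integral_nonneg fun x => pow_nonneg (s_nonneg _ _) _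
  have hρU : ∀ j, closedBall x0 (ρ j) ⊆ U := fun j =>
    (closedBall_subset_closedBall (hρle j)).trans hrU
  have hfc : ∀ j, ContinuousOn f (closedBall x0 (ρ j)) := fun j y hy =>
    (hf y (hρU j hy)).continuousAt.continuousWithinAt
  set Z : ℕ → ℝ := fun j => Y j / (H ^ 4 * V) with hZ
  have hZ0 : ∀ j, 0 ≤ Z j := fun j => div_nonneg (hY0 j) hHV.le
  have hstep : ∀ j, Z (j + 1) ≤ (16 * K1 n) * 64 ^ j * (Z j * (Z j) ^ (1 / (n : ℝ))) := by
    intro j
    have hab : ρ (j + 1) < ρ j := by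
      have := hρs j
      have : 0 < r / 16 * (1 / 2) ^ j := by positivity
      linarith
    have hkk : k j < k (j + 1) := by
      have := hks j
      have : 0 < H * (1 / 2) ^ (j + 1) := by positivity
      linarith
    have h := step C hn hr hab (by linarith [hρle j]) hU (hρU j) hf hA hB (hk0 j) hkk hL
    rw [hks j, hρs j] at h
    have hKst : Kst n r (A / (H * (1 / 2) ^ (j + 1)) + B * (1 + k j / (H * (1 / 2) ^ (j + 1))))
        (Cth / (r / 16 * (1 / 2) ^ j)) ≤ 4 ^ j * K1 n := by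
      apply Kst_le hr hA hB hH hAr hBr _ (by have := Cth_pos; positivity) le_rfl
      gcongr
      exact hkH j
    have e1 : Y j / ((H * (1 / 2) ^ (j + 1)) ^ 4 * V) = 16 ^ (j + 1) * Z j := by
      simp only [hZ]
      rw [mul_pow, ← pow_mul, mul_comm (j + 1) 4, pow_mul]
      rw [show ((1:ℝ) / 2) ^ 4 = (16:ℝ)⁻¹ by norm_num, inv_pow]
      field_simp
    have h1 : Y (j + 1) ≤ (16 ^ (j + 1) * Z j) ^ (1 / (n : ℝ)) * ((4 ^ j * K1 n) * Y j) := by
      rw [← e1]
      refine h.trans ?_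
      have : 0 ≤ Y j := hY0 j
      have : 0 ≤ Y j / ((H * (1 / 2) ^ (j + 1)) ^ 4 * V) := by positivity
      gcongr
    have h2 : (16 ^ (j + 1) * Z j) ^ (1 / (n : ℝ)) ≤ 16 ^ (j + 1) * (Z j) ^ (1 / (n : ℝ)) := by
      rw [Real.mul_rpow (by positivity) (hZ0 j)]
      have := rpow_le_self hn (a := (16:ℝ) ^ (j + 1)) (one_le_pow₀ (by norm_num))
      have h3 : 0 ≤ (Z j) ^ (1 / (n : ℝ)) := Real.rpow_nonneg (hZ0 j) _
      gcongr
    have hK := K1_pos n
    calc Z (j + 1) = Y (j + 1) / (H ^ 4 * V) := rfl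
      _ ≤ (16 ^ (j + 1) * (Z j) ^ (1 / (n : ℝ)) * ((4 ^ j * K1 n) * Y j)) / (H ^ 4 * V) := by
          have := hY0 j
          gcongr
          exact h1.trans (by gcongr)
      _ = 16 ^ (j + 1) * (Z j) ^ (1 / (n : ℝ)) * (4 ^ j * K1 n) * Z j := by
          simp only [hZ]; ring
      _ = _ := by
          rw [show (64:ℝ) ^ j = 16 ^ j * 4 ^ j by rw [← mul_pow]; norm_num, pow_succ]
          ring
  have hρ0 : ρ 0 = 3 * r / 4 := by simp only [hρ]; ring
  have hk00 : k 0 = 0 := by simp [hk]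
  have hZ00 : Z 0 ≤ ((16 * K1 n * 64 ^ n)⁻¹) ^ n := by
    simp only [hZ, hY]
    rw [div_le_iff₀ hHV, hρ0, hk00]
    exact h0
  have hit := iterZ hn (by have := K1_pos n; positivity) hZ0 hstep hZ00
  -- conclusion
  by_contra hlt
  rw [not_le] at hlt
  have hxr : dist x x0 ≤ r / 2 := hx
  have hxU : x ∈ U := hrU (mem_closedBall.2 (by linarith))
  have hev : ∀ᶠ y in 𝓝 x, (H + f x) / 2 < f y ∧ y ∈ ball x (r / 8) :=
    ((hf x hxU).continuousAt.eventually_const_lt (by linarith)).and (ball_mem_nhds x (by positivity))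
  obtain ⟨δ, hδ, hδB⟩ := Metric.eventually_nhds_iff_ball.1 hev
  have hm : 0 < μ.real (ball x δ) := pos_of_open x δ hδ
  set e := (f x - H) / 2 with he
  have he0 : 0 < e := by simp only [he]; linarith
  have hlow : ∀ j, μ.real (ball x δ) * e ^ 4 ≤ Y j := by
    intro j
    have hsub : ball x δ ⊆ closedBall x0 (ρ j) := by
      intro y hy
      have h1 := mem_ball.1 (hδB y hy).2
      have h2 := dist_triangle y x x0
      have h3 := hρge j
      rw [mem_closedBall]
      linarith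
    have hi : IntegrableOn (fun y => s (k j) (f y) ^ 4) (closedBall x0 (ρ j)) μ :=
      (((continuous_s _).comp_continuousOn (hfc j)).pow 4).integrableOn_compact
        (isCompact_closedBall _ _)
    calc μ.real (ball x δ) * e ^ 4 = ∫ y in ball x δ, e ^ 4 ∂μ := by
          rw [setIntegral_const, smul_eq_mul]
      _ ≤ ∫ y in ball x δ, s (k j) (f y) ^ 4 ∂μ := by
          apply setIntegral_mono_on (integrableOn_const (hs := ball_ne_top x δ)) (hi.mono_set hsub)
            isOpen_ball.measurableSet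
          intro y hy
          have h1 := (hδB y hy).1
          have h2 := hkH j
          rw [s_of_ge (by linarith)]
          have : e ≤ f y - k j := by simp only [he]; linarith
          gcongr
      _ ≤ Y j := setIntegral_mono_set hi (Eventually.of_forall fun y =>
          pow_nonneg (s_nonneg _ _) _) hsub.eventuallyLE
  have hlim : Tendsto (fun j => (H ^ 4 * V) * (Z 0 * (((64:ℝ) ^ n)⁻¹) ^ j)) atTop
      (𝓝 ((H ^ 4 * V) * (Z 0 * 0))) := by
    apply Tendsto.const_mul
    apply Tendsto.const_mul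
    apply tendsto_pow_atTop_nhds_zero_of_lt_one (by positivity)
    apply inv_lt_one_of_one_lt₀
    exact one_lt_pow₀ (by norm_num) (by omega)
  rw [mul_zero, mul_zero] at hlim
  have hle : μ.real (ball x δ) * e ^ 4 ≤ 0 := by
    refine ge_of_tendsto' hlim fun j => ?_
    have h1 : Y j = (H ^ 4 * V) * Z j := by
      simp only [hZ]
      field_simp
    calc _ ≤ Y j := hlow j
      _ = (H ^ 4 * V) * Z j := h1
      _ ≤ _ := by gcongr; exact hit j
  have : 0 < μ.real (ball x δ) * e ^ 4 := by positivity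
  linarith

/-- **Sub-mean value inequality** (DG1). -/
theorem dg1 (C : Rad n 0 M (μHE[n] : Measure M)) (hn : 1 ≤ n) {x0 : M} {r : ℝ} (hr : 0 < r)
    {U : Set M} (hU : IsOpen U) (hrU : closedBall x0 r ⊆ U)
    {f : M → ℝ} (hf : ∀ z ∈ U, ContMDiffAt (𝓡 n) 𝓘(ℝ, ℝ) 2 f z) {A B : ℝ} (hA : 0 ≤ A)
    (hB : 0 ≤ B) (hBr : B * r ^ 2 ≤ 1)
    (hL : ∀ z ∈ U, -(A + B * f z) ≤ Bo84.mLap n f z) {x : M} (hx : x ∈ closedBall x0 (r / 2)) :
    f x ≤ CDG n * (((μHE[n] : Measure M).real (ball x0 r))⁻¹ *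
      (∫ y in ball x0 r, max (f y) 0 ∂(μHE[n] : Measure M)) + A * r ^ 2) := by
  have := HR216.properSpace_of_riemannian n M
  have := HR216.secondCountable_of_riemannian n M
  have := isLocallyFiniteMeasure n M
  have := isOpenPosMeasure n M
  have : Nonempty M := ⟨x0⟩
  set μ : Measure M := μHE[n] with hμ
  set V := μ.real (ball x0 r) with hV
  have hV0 : 0 < V := pos_of_open x0 r hr
  set I := ∫ y in ball x0 r, max (f y) 0 ∂μ with hI
  have hI0 : 0 ≤ I := integral_nonneg fun y => le_max_right _ _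
  have heps := eps_pos n
  have hfc : ContinuousOn f (closedBall x0 r) := fun y hy =>
    (hf y (hrU hy)).continuousAt.continuousWithinAt
  have hsmax : ∀ t : ℝ, s 0 t = max t 0 := fun t => by unfold s; rw [sub_zero]
  -- the maximum point
  set g : M → ℝ := fun y => (r - dist y x0) ^ n * s 0 (f y) with hg
  have hgc : ContinuousOn g (closedBall x0 r) := by
    apply ContinuousOn.mul
    · exact (Continuous.pow (by fun_prop) n).continuousOn
    · exact (continuous_s 0).comp_continuousOn hfc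
  obtain ⟨x1, hx1, hmax⟩ := (isCompact_closedBall x0 r).exists_isMaxOn
    ⟨x0, mem_closedBall_self hr.le⟩ hgc
  have hxr : dist x x0 ≤ r / 2 := hx
  have hxb : x ∈ closedBall x0 r := mem_closedBall.2 (by linarith)
  have hgx : (r / 2) ^ n * s 0 (f x) ≤ g x1 := by
    refine le_trans ?_ (hmax hxb)
    simp only [hg]
    have := s_nonneg 0 (f x)
    gcongr
    linarith
  have hfs : f x ≤ s 0 (f x) := by rw [hsmax]; exact le_max_left _ _
  have hRHS : 0 ≤ V⁻¹ * I + A * r ^ 2 := by positivity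
  rcases (s_nonneg 0 (f x1)).eq_or_lt with hS | hS
  · have h1 : g x1 = 0 := by simp only [hg]; rw [← hS, mul_zero]
    rw [h1] at hgx
    have h2 : 0 < (r / 2) ^ n := by positivity
    have h3 : s 0 (f x) ≤ 0 := by
      by_contra h
      have := mul_pos h2 (not_le.1 h)
      linarith
    have := mul_nonneg (CDG_pos n).le hRHS
    linarith
  set S := s 0 (f x1) with hSdef
  have hx1r : dist x1 x0 ≤ r := hx1
  rcases hx1r.eq_or_lt with hd | hd
  · have h1 : g x1 = 0 := by
      simp only [hg]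
      rw [hd, sub_self, zero_pow (by omega), zero_mul]
    rw [h1] at hgx
    have h2 : 0 < (r / 2) ^ n := by positivity
    have h3 : s 0 (f x) ≤ 0 := by
      by_contra h
      have := mul_pos h2 (not_le.1 h)
      linarith
    have := mul_nonneg (CDG_pos n).le hRHS
    linarith
  have hfx1 : f x1 = S := by
    have hS' : 0 < max (f x1) 0 := by rw [← hsmax]; exact hS
    rw [hSdef, hsmax]
    rcases max_choice (f x1) 0 with h | h
    · exact h.symm
    · rw [h] at hS'; exact absurd hS' (lt_irrefl _)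
  set δ := (r - dist x1 x0) / 2 with hδ
  have hδ0 : 0 < δ := by simp only [hδ]; linarith
  have hδr : 2 * δ ≤ r := by
    have := dist_nonneg (x := x1) (y := x0)
    simp only [hδ]; linarith
  have hg1 : g x1 = (2 * δ) ^ n * S := by
    simp only [hg, hδ, hSdef]
    congr 2
    ring
  have hball : closedBall x1 δ ⊆ closedBall x0 r := by
    intro y hy
    have h1 := mem_closedBall.1 hy
    have h2 := dist_triangle y x1 x0
    have h3 : dist x1 x0 = r - 2 * δ := by simp only [hδ]; ring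
    rw [mem_closedBall]
    linarith
  have hsb : ∀ y ∈ closedBall x1 δ, s 0 (f y) ≤ 2 ^ n * S := by
    intro y hy
    have h1 : g y ≤ g x1 := hmax (hball hy)
    rw [hg1] at h1
    have h2 : δ ≤ r - dist y x0 := by
      have h1 := mem_closedBall.1 hy
      have h2 := dist_triangle y x1 x0
      have h3 : dist x1 x0 = r - 2 * δ := by simp only [hδ]; ring
      linarith
    have h3 : δ ^ n * s 0 (f y) ≤ g y := by
      simp only [hg]
      have := s_nonneg 0 (f y)
      gcongr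
    have h4 : δ ^ n * s 0 (f y) ≤ δ ^ n * (2 ^ n * S) := by
      refine h3.trans (h1.trans (le_of_eq ?_))
      rw [mul_pow]; ring
    exact le_of_mul_le_mul_left h4 (by positivity)
  set V1 := μ.real (ball x1 δ) with hV1
  have hV10 : 0 < V1 := pos_of_open x1 δ hδ0
  have hVV : V ≤ (2 * r / δ) ^ n * V1 := by
    calc V ≤ μ.real (ball x1 (2 * r)) := by
          refine measureReal_mono ?_ (ball_ne_top x1 _)
          intro z hz
          rw [mem_ball] at hz ⊢
          have := dist_triangle z x0 x1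
          rw [dist_comm x0 x1] at this
          linarith
      _ ≤ _ := dbl_of_rad C x1 δ (2 * r) hδ0 (by linarith)
  -- bound of `S`
  have hSle : S ≤ 2 * A * δ ^ 2 + 16 * 8 ^ n / eps n * (V1⁻¹ * I) := by
    by_contra hcon
    rw [not_le] at hcon
    have hq : 0 ≤ 16 * 8 ^ n / eps n * (V1⁻¹ * I) := by positivity
    have hAδ : 0 ≤ 2 * A * δ ^ 2 := by positivity
    have h1 : A * δ ^ 2 ≤ S / 2 := by linarith
    have hBδ : B * δ ^ 2 ≤ 1 := by
      refine le_trans ?_ hBr
      gcongr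
      linarith
    have hi4 : IntegrableOn (fun y => s 0 (f y) ^ 4) (closedBall x1 (3 * δ / 4)) μ :=
      (((continuous_s 0).comp_continuousOn (hfc.mono ((closedBall_subset_closedBall
        (by linarith)).trans hball))).pow 4).integrableOn_compact (isCompact_closedBall _ _)
    have hi1 : IntegrableOn (fun y => max (f y) 0) (closedBall x0 r) μ :=
      (hfc.sup continuousOn_const).integrableOn_compact (isCompact_closedBall _ _)
    have hsub : closedBall x1 (3 * δ / 4) ⊆ ball x0 r := by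
      intro y hy
      have h1 := mem_closedBall.1 hy
      have h2 := dist_triangle y x1 x0
      have h3 : dist x1 x0 = r - 2 * δ := by simp only [hδ]; ring
      rw [mem_ball]
      linarith
    have h2 : ∫ y in closedBall x1 (3 * δ / 4), s 0 (f y) ^ 4 ∂μ ≤ (2 ^ n * S) ^ 3 * I := by
      calc ∫ y in closedBall x1 (3 * δ / 4), s 0 (f y) ^ 4 ∂μ ≤
          ∫ y in closedBall x1 (3 * δ / 4), (2 ^ n * S) ^ 3 * max (f y) 0 ∂μ := by
            apply setIntegral_mono_on hi4 ((hi1.mono_set (hsub.trans ball_subset_closedBall)).const_mul _)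
              isClosed_closedBall.measurableSet
            intro y hy
            have h3 := hsb y (closedBall_subset_closedBall (by linarith) hy)
            have h4 := s_nonneg 0 (f y)
            rw [← hsmax]
            calc s 0 (f y) ^ 4 = s 0 (f y) ^ 3 * s 0 (f y) := by ring
              _ ≤ _ := by gcongr
        _ = (2 ^ n * S) ^ 3 * ∫ y in closedBall x1 (3 * δ / 4), max (f y) 0 ∂μ :=
            integral_const_mul _ _
        _ ≤ _ := by
            gcongr
            exact setIntegral_mono_set (hi1.mono_set ball_subset_closedBall)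
              (Eventually.of_forall fun y => le_max_right _ _) hsub.eventuallyLE
    have h3 : (2 ^ n * S) ^ 3 * I ≤ eps n * ((S / 2) ^ 4 * V1) := by
      have h4 : 16 * 8 ^ n / eps n * (V1⁻¹ * I) ≤ S := by linarith
      have h5 : 16 * 8 ^ n * I ≤ S * (eps n * V1) := by
        have e : 16 * 8 ^ n / eps n * (V1⁻¹ * I) = (16 * 8 ^ n * I) / (eps n * V1) := by
          field_simp
        rw [e, div_le_iff₀ (by positivity)] at h4
        exact h4
      have e8 : (2 ^ n : ℝ) ^ 3 = 8 ^ n := by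
        rw [← pow_mul, mul_comm, pow_mul]; norm_num
      calc (2 ^ n * S) ^ 3 * I = (S ^ 3 / 16) * (16 * 8 ^ n * I) := by
            rw [mul_pow, e8]; ring
        _ ≤ (S ^ 3 / 16) * (S * (eps n * V1)) := by gcongr
        _ = _ := by ring
    have h5 := dg4 C hn hδ0 hU ((closedBall_subset_closedBall (by linarith)).trans
      (hball.trans hrU)) hf hA hB (H := S / 2) (by positivity) h1 hBδ hL (h2.trans h3)
      (x := x1) (mem_closedBall_self (by positivity))
    rw [hfx1] at h5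
    linarith
  -- conclusion
  have hV1inv : V1⁻¹ ≤ (2 * r / δ) ^ n * V⁻¹ := by
    rw [← div_eq_mul_inv, le_div_iff₀ hV0, inv_mul_le_iff₀ hV10]
    linarith
  have h6 : (r / 2) ^ n * s 0 (f x) ≤ r ^ n * (2 * A * r ^ 2 + 16 * 8 ^ n / eps n * 4 ^ n *
      (V⁻¹ * I)) := by
    calc (r / 2) ^ n * s 0 (f x) ≤ (2 * δ) ^ n * S := by rw [← hg1]; exact hgx
      _ ≤ (2 * δ) ^ n * (2 * A * δ ^ 2 + 16 * 8 ^ n / eps n * (((2 * r / δ) ^ n * V⁻¹) * I)) := by
          gcongr
          refine hSle.trans ?_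
          gcongr
      _ = (2 * δ) ^ n * (2 * A * δ ^ 2) + 16 * 8 ^ n / eps n *
            (((2 * δ) ^ n * (2 * r / δ) ^ n) * (V⁻¹ * I)) := by ring
      _ = (2 * δ) ^ n * (2 * A * δ ^ 2) + 16 * 8 ^ n / eps n * ((4 ^ n * r ^ n) * (V⁻¹ * I)) := by
          congr 3
          rw [← mul_pow, ← mul_pow]
          congr 1
          field_simp
          ring
      _ ≤ r ^ n * (2 * A * r ^ 2) + 16 * 8 ^ n / eps n * ((4 ^ n * r ^ n) * (V⁻¹ * I)) := by
          gcongr
          linarith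
      _ = _ := by ring
  have h7 : s 0 (f x) ≤ 2 ^ n * (2 * A * r ^ 2 + 16 * 8 ^ n / eps n * 4 ^ n * (V⁻¹ * I)) := by
    have h8 : (r / 2) ^ n = r ^ n * (2 ^ n)⁻¹ := by rw [div_pow]; rfl
    rw [h8, mul_assoc] at h6
    have h9 := le_of_mul_le_mul_left h6 (by positivity)
    rwa [inv_mul_le_iff₀ (by positivity)] at h9
  refine hfs.trans (h7.trans ?_)
  rw [CDG]
  have e64 : (2:ℝ) ^ n * (8 ^ n * 4 ^ n) = 64 ^ n := by rw [← mul_pow, ← mul_pow]; norm_num
  have e9 : 2 ^ n * (2 * A * r ^ 2 + 16 * 8 ^ n / eps n * 4 ^ n * (V⁻¹ * I)) =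
      2 ^ (n + 1) * (A * r ^ 2) + 16 * 64 ^ n / eps n * (V⁻¹ * I) := by
    rw [← e64]; ring
  rw [e9]
  have q1 : 0 ≤ A * r ^ 2 := by positivity
  have q2 : 0 ≤ V⁻¹ * I := by positivity
  have q3 : 0 ≤ 16 * 64 ^ n / eps n := by positivity
  have q4 : (0:ℝ) ≤ 2 ^ (n + 1) := by positivity
  nlinarith [mul_nonneg q3 q1, mul_nonneg q4 q2]

end M

end Crest.Agent.R281.Sm4_593
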