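import Crest.Agent.R247.Pyt1_710
import Crest.Agent.R281.St1_405
import Crest.Agent.R281.Mx2_405
import Crest.Agent.R281.T6b_16
import Crest.Agent.R281.Sm4_593
import Crest.Agent.R281.Insp0_615
import Crest.Agent.R249.SobF_982

-- ▼ part R281/Poin1_274
section

/-!
# R281, leaf S-POINC (helper274), part 1: doubling and Poincaré inequalities from a radial
contraction structure `Rad n κ X μ` (R247: every complete manifold with `Ric ≥ -κ`)

* `ball_doubling`, `closedBall_doubling`, `closedBall_diff_le` (annuli), `ball_pos`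
* `UG C f h` : `h` is an upper gradient of `f` along the minimisers of `C`;
  `UG.of_lip` : every locally Lipschitz `f` with pointwise constant `G`
* `poinc_pairs` (1,1), `poinc_pairs_sq` (2,2), mean forms `poinc_one`, `poinc_two`
-/

set_option autoImplicit false
set_option linter.unusedSectionVars false
open MeasureTheory Set Filter Topology Metric Crest.Agent.R247.Mcp688 Crest.Agent.R247.Pyt710
open scoped ENNReal NNReal

noncomputable section
namespace Crest.Agent.R281.Poin_274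

variable {n : ℕ} {κ : ℝ} {X : Type*} [MetricSpace X] [MeasurableSpace X] [BorelSpace X]
  {μ : Measure X} (C : Rad n κ X μ)

/-! ### Bishop–Gromov -/

include C in
/-- Bishop–Gromov for closed balls and the unweighted measure. -/
theorem mu_closedBall_le (hκ : 0 ≤ κ) (x : X) {r R : ℝ} (hr : 0 < r) (hR : r ≤ R) :
    μ (closedBall x R) ≤
      ENNReal.ofReal (Real.exp (κ * R ^ 2 / 2) * (R / r) ^ n) * μ (closedBall x r) := by
  have h1 : ENNReal.ofReal (wt κ R) * μ (closedBall x R) ≤ wm μ κ x (closedBall x R) :=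
    le_wm μ x hκ isClosed_closedBall.measurableSet fun z hz => by
      rw [dist_comm]; exact mem_closedBall.1 hz
  have h2 := C.closedBall_le x hr hR
  have h3 : wm μ κ x (closedBall x r) ≤ μ (closedBall x r) := wm_le μ x hκ _
  calc μ (closedBall x R)
      = ENNReal.ofReal (Real.exp (κ * R ^ 2 / 2)) *
          (ENNReal.ofReal (wt κ R) * μ (closedBall x R)) := by
        rw [← mul_assoc, ← ENNReal.ofReal_mul (Real.exp_pos _).le, wt, ← Real.exp_add,
          add_neg_cancel, Real.exp_zero, ENNReal.ofReal_one, one_mul]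
    _ ≤ ENNReal.ofReal (Real.exp (κ * R ^ 2 / 2)) *
          (ENNReal.ofReal ((R / r) ^ n) * μ (closedBall x r)) := by
        refine mul_le_mul_right (h1.trans (h2.trans ?_)) _
        gcongr
    _ = _ := by rw [← mul_assoc, ← ENNReal.ofReal_mul (Real.exp_pos _).le]

/-- the doubling constant up to scale `r` -/
def dC (n : ℕ) (κ r : ℝ) : ℝ := Real.exp (κ * (2 * r) ^ 2 / 2) * 2 ^ n

theorem dC_pos (n : ℕ) (κ r : ℝ) : 0 < dC n κ r := by unfold dC; positivity


@[simp] theorem dC_zero (n : ℕ) (r : ℝ) : dC n 0 r = 2 ^ n := by simp [dC]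

theorem segC_eq (n : ℕ) (κ r : ℝ) : segC n κ (2 * r) = ENNReal.ofReal (dC n κ r) := rfl


include C in
theorem closedBall_doubling (hκ : 0 ≤ κ) (x : X) {r : ℝ} (hr : 0 < r) :
    μ (closedBall x (2 * r)) ≤ ENNReal.ofReal (dC n κ r) * μ (closedBall x r) := by
  have h := mu_closedBall_le C hκ x hr (R := 2 * r) (by linarith)
  rwa [show 2 * r / r = 2 by field_simp] at h


include C in
/-- Bishop–Gromov on annuli (`κ = 0`). -/
theorem closedBall_diff_le {μ : Measure X} (C : Rad n 0 X μ) (x : X) {r R : ℝ} (hr : 0 < r)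
    (hR : r ≤ R) (hfin : μ (closedBall x r) ≠ ∞) :
    μ (closedBall x R \ closedBall x r) ≤
      ENNReal.ofReal ((R / r) ^ n - 1) * μ (closedBall x r) := by
  have h := mu_closedBall_le C le_rfl x hr hR
  rw [zero_mul, zero_div, Real.exp_zero, one_mul] at h
  have h1 : (1 : ℝ) ≤ (R / r) ^ n := one_le_pow₀ ((one_le_div hr).2 hR)
  rw [measure_sdiff (closedBall_subset_closedBall hR)
    isClosed_closedBall.measurableSet.nullMeasurableSet hfin]
  rw [ENNReal.ofReal_sub _ zero_le_one, ENNReal.ofReal_one, ENNReal.sub_mul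
    (fun _ _ => hfin), one_mul]
  exact tsub_le_tsub_right h _



/-! ### upper gradients along the minimisers -/

/-- `h` is an upper gradient of `f` along the minimisers of `C` -/
def UG (C : Rad n κ X μ) (f : X → ℝ) (h : X → ℝ≥0∞) : Prop :=
  ∀ u v, (u, v) ∈ C.U → ENNReal.ofReal |f u - f v| ≤
    ENNReal.ofReal (dist u v) * ∫⁻ t in Icc (0 : ℝ) 1, h (C.T u t v)

namespace UG
variable {C} {f g : X → ℝ} {h k : X → ℝ≥0∞}

theorem mono (H : UG C f h) (hk : ∀ x, h x ≤ k x) : UG C f k := fun u v huv =>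
  (H u v huv).trans (by gcongr; exact hk _)

theorem const (c : ℝ) : UG C (fun _ => c) h := fun _ _ _ => by simp

theorem of_abs_le (H : UG C f h) (hg : ∀ u v, |g u - g v| ≤ |f u - f v|) : UG C g h :=
  fun u v huv => (ENNReal.ofReal_le_ofReal (hg u v)).trans (H u v huv)

theorem neg (H : UG C f h) : UG C (fun x => -f x) h :=
  H.of_abs_le fun u v => by rw [← neg_sub', abs_neg]

theorem abs (H : UG C f h) : UG C (fun x => |f x|) h :=
  H.of_abs_le fun _ _ => abs_abs_sub_abs_le_abs_sub _ _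




theorem const_mul (H : UG C f h) (c : ℝ) : UG C (fun x => c * f x)
    (fun x => ENNReal.ofReal |c| * h x) := fun u v huv => by
  rw [← mul_sub, abs_mul, ENNReal.ofReal_mul (abs_nonneg c),
    lintegral_const_mul' _ _ ENNReal.ofReal_ne_top]
  calc ENNReal.ofReal |c| * ENNReal.ofReal |f u - f v|
      ≤ ENNReal.ofReal |c| * (ENNReal.ofReal (dist u v) *
          ∫⁻ t in Icc (0 : ℝ) 1, h (C.T u t v)) := by gcongr; exact H u v huv
    _ = _ := by ring

theorem add (H : UG C f h) (K : UG C g k) (hh : Measurable h) :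
    UG C (fun x => f x + g x) (fun x => h x + k x) := fun u v huv => by
  have hm : Measurable fun t : ℝ => h (C.T u t v) := by
    refine hh.comp (C.measT.comp (measurable_const.prodMk (measurable_id.prodMk measurable_const)))
  rw [lintegral_add_left hm, mul_add]
  refine le_trans ?_ (add_le_add (H u v huv) (K u v huv))
  rw [← ENNReal.ofReal_add (abs_nonneg _) (abs_nonneg _)]
  apply ENNReal.ofReal_le_ofReal
  rw [add_sub_add_comm]
  exact abs_add_le _ _


end UG

/-! ### Poincaré -/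

include C in
theorem T_mem {x u v : X} {r : ℝ} (hu : u ∈ closedBall x r) (hv : v ∈ closedBall x r)
    (h : (u, v) ∈ C.U) {t : ℝ} (ht : t ∈ Icc (0 : ℝ) 1) : C.T u t v ∈ closedBall x (2 * r) := by
  rw [mem_closedBall] at *
  have h1 := C.dist_left h ht
  have h2 := C.dist_right h ht
  have h3 : dist u v ≤ 2 * r := by
    have := dist_triangle_right u v x
    linarith
  have h4 := dist_triangle (C.T u t v) u x
  have h5 := dist_triangle (C.T u t v) v x
  rw [dist_comm _ u] at h4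
  have h6 : 0 ≤ dist u v := dist_nonneg
  rcases le_total t (1 / 2) with h7 | h7
  · have : t * dist u v ≤ 1 / 2 * (2 * r) := by
      apply mul_le_mul h7 h3 h6 (by norm_num)
    linarith
  · have : (1 - t) * dist u v ≤ 1 / 2 * (2 * r) := by
      apply mul_le_mul (by linarith) h3 h6 (by norm_num)
    linarith

variable {C} {f : X → ℝ} {h : X → ℝ≥0∞}

/-- **(1,1)-Poincaré on pairs** -/
theorem poinc_pairs [SFinite μ] (hκ : 0 ≤ κ) (H : UG C f h) (hh : Measurable h) (x : X) (r : ℝ) :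
    ∫⁻ u in closedBall x r, ∫⁻ v in closedBall x r, ENNReal.ofReal |f u - f v| ∂μ ∂μ ≤
      ENNReal.ofReal (4 * r * dC n κ r) * μ (closedBall x r) *
        ∫⁻ y in closedBall x (2 * r), h y ∂μ := by
  have h1 := poincare_pairs C hκ (A := closedBall x r) (W := closedBall x (2 * r))
    isClosed_closedBall.measurableSet isClosed_closedBall.measurableSet (D := 2 * r)
    (fun u hu v hv => by
      rw [mem_closedBall] at hu hv
      have := dist_triangle_right u v x
      linarith)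
    (fun u hu v hv huv t ht => T_mem C hu hv huv ht) (G := h) (a := fun _ => 0) hh
    measurable_const (F := f) (fun u hu v hv huv => by
      rw [add_zero, add_zero]
      refine (H u v huv).trans ?_
      gcongr
      rw [mem_closedBall] at hu hv
      have := dist_triangle_right u v x
      linarith)
  refine h1.trans (le_of_eq ?_)
  rw [lintegral_zero, mul_zero, mul_zero, add_zero, segC_eq]
  rcases le_or_gt r 0 with hr | hr
  · rw [ENNReal.ofReal_of_nonpos (by linarith), ENNReal.ofReal_of_nonpos (p := 4 * r * _)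
      (by nlinarith [dC_pos n κ r]), zero_mul, zero_mul, zero_mul]
  · have h2 : ENNReal.ofReal (4 * r * dC n κ r) =
        ENNReal.ofReal (2 * r) * ENNReal.ofReal (dC n κ r) * 2 := by
      have h3 : ENNReal.ofReal 2 = 2 := by simp
      rw [← h3, ← ENNReal.ofReal_mul (by linarith),
        ← ENNReal.ofReal_mul (mul_nonneg (by linarith) (dC_pos n κ r).le)]
      congr 1
      ring
    rw [h2]
    ring


/-! ### mean forms -/

/-- distance to the mean, from pairs (no integrability hypothesis: both sides in `ℝ≥0∞`) -/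
theorem sub_average_le {s : Set X} (hs : μ s ≠ ∞) (hs0 : μ s ≠ 0) {f : X → ℝ}
    (hf : IntegrableOn f s μ) (u : X) :
    ENNReal.ofReal |f u - ⨍ v in s, f v ∂μ| * μ s ≤ ∫⁻ v in s, ENNReal.ofReal |f u - f v| ∂μ := by
  have hm : (μ s).toReal ≠ 0 := (ENNReal.toReal_pos hs0 hs).ne'
  have hc : IntegrableOn (fun _ : X => f u) s μ := integrableOn_const hs
  have h1 : (f u - ⨍ v in s, f v ∂μ) * (μ s).toReal = ∫ v in s, (f u - f v) ∂μ := by
    rw [integral_sub hc hf, setIntegral_const, setAverage_eq, smul_eq_mul, smul_eq_mul,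
      Measure.real]
    field_simp
  have h2 : |f u - ⨍ v in s, f v ∂μ| * (μ s).toReal ≤ ∫ v in s, |f u - f v| ∂μ := by
    rw [← abs_of_nonneg (ENNReal.toReal_nonneg (a := μ s)), ← abs_mul, h1]
    exact abs_integral_le_integral_abs
  have h3 : ENNReal.ofReal (∫ v in s, |f u - f v| ∂μ) = ∫⁻ v in s, ENNReal.ofReal |f u - f v| ∂μ :=
    ofReal_integral_eq_lintegral_ofReal (hc.sub hf).abs (Eventually.of_forall fun v => abs_nonneg _)
  rw [← h3, ← ENNReal.ofReal_toReal hs, ← ENNReal.ofReal_mul (abs_nonneg _)]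
  exact ENNReal.ofReal_le_ofReal h2


/-- **(1,1)-Poincaré, mean form** -/
theorem poinc_one [SFinite μ] (hκ : 0 ≤ κ) (H : UG C f h) (hh : Measurable h) (x : X) {r : ℝ}
    (hfin : μ (closedBall x r) ≠ ∞) (hpos : μ (closedBall x r) ≠ 0)
    (hf : IntegrableOn f (closedBall x r) μ) :
    ∫⁻ u in closedBall x r, ENNReal.ofReal |f u - ⨍ v in closedBall x r, f v ∂μ| ∂μ ≤
      ENNReal.ofReal (4 * r * dC n κ r) * ∫⁻ y in closedBall x (2 * r), h y ∂μ := by
  have h1 := poinc_pairs hκ H hh x r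
  have h2 : (∫⁻ u in closedBall x r, ENNReal.ofReal |f u - ⨍ v in closedBall x r, f v ∂μ| ∂μ) *
      μ (closedBall x r) ≤
      ∫⁻ u in closedBall x r, ∫⁻ v in closedBall x r, ENNReal.ofReal |f u - f v| ∂μ ∂μ := by
    rw [← lintegral_mul_const' _ _ hfin]
    exact lintegral_mono fun u => sub_average_le hfin hpos hf u
  have h3 := h2.trans h1
  rw [mul_right_comm] at h3
  exact (ENNReal.mul_le_mul_iff_left hpos hfin).1 h3



end Crest.Agent.R281.Poin_274
end
end

-- ▼ part R281/St2_405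
section

/-! Row 281, S-T25 (helper405), part 2: integrability, energy, (T2). -/

set_option autoImplicit false
open MeasureTheory Metric Set Filter Topology
open scoped ENNReal NNReal ContDiff

namespace Crest.Agent.R281.St_405
open Crest.Agent.R281.Mx_405

variable {X : Type*} [PseudoMetricSpace X] [MeasurableSpace X] [BorelSpace X] [CompactSpace X]
  {μ : Measure X} {cal : Calc μ} {C : ℝ≥0}

lemma integrable_of_continuous [IsFiniteMeasure μ] {f : X → ℝ} (hf : Continuous f) :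
    Integrable f μ :=
  hf.integrable_of_hasCompactSupport (HasCompactSupport.of_compactSpace f)

lemma sq_mem {f : X → ℝ} (hf : f ∈ cal.Sm) : (fun x => (f x) ^ 2) ∈ cal.Sm :=
  cal.comp_mem f hf univ (fun t => t ^ 2) isOpen_univ (fun _ => mem_univ _)
    (contDiff_id.pow 2).contDiffOn

lemma Lap_sq {f : X → ℝ} (hf : f ∈ cal.Sm) (x : X) :
    cal.Lap (fun x => (f x) ^ 2) x = 2 * f x * cal.Lap f x + 2 * cal.Gam f x := by
  have hd : deriv (fun t : ℝ => t ^ 2) = fun t => 2 * t := by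
    funext t; simp
  have hd2 : deriv (fun t : ℝ => 2 * t) = fun _ => 2 := by
    funext t
    have := (hasDerivAt_id t).const_mul 2
    simpa using this.deriv
  have h := cal.Lap_comp f hf univ (fun t => t ^ 2) isOpen_univ (fun _ => mem_univ _)
    (contDiff_id.pow 2).contDiffOn x
  rw [hd, hd2] at h
  exact h

/-- energy bound: `∫ Γ f ≤ κ ∫ f` for `f ≥ 0`, `Δ f ≥ -κ`. -/
theorem energy_le [IsFiniteMeasure μ] {f : X → ℝ} (hf : f ∈ cal.Sm) (h0 : ∀ x, 0 ≤ f x)
    {kap : ℝ} (hL : ∀ x, - kap ≤ cal.Lap f x) :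
    ∫ x, cal.Gam f x ∂μ ≤ kap * ∫ x, f x ∂μ := by
  have h1 := cal.int_Lap _ (sq_mem hf)
  have hc := cal.cont f hf
  have hcL := cal.contLap f hf
  have hcG := cal.contGam f hf
  have h2 : ∫ x, cal.Lap (fun x => (f x) ^ 2) x ∂μ =
      ∫ x, (2 * f x * cal.Lap f x + 2 * cal.Gam f x) ∂μ := by
    congr 1; funext x; exact Lap_sq hf x
  rw [h2] at h1
  have hi1 : Integrable (fun x => 2 * f x * cal.Lap f x) μ :=
    integrable_of_continuous ((continuous_const.mul hc).mul hcL)
  have hi2 : Integrable (fun x => 2 * cal.Gam f x) μ :=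
    integrable_of_continuous (continuous_const.mul hcG)
  rw [integral_add hi1 hi2] at h1
  have h3 : ∫ x, -(2 * kap * f x) ∂μ ≤ ∫ x, 2 * f x * cal.Lap f x ∂μ := by
    refine integral_mono (integrable_of_continuous (by fun_prop)) hi1 fun x => ?_
    have := hL x
    have h5 := h0 x
    nlinarith
  have h4 : ∫ x, -(2 * kap * f x) ∂μ = -(2 * kap * ∫ x, f x ∂μ) := by
    rw [integral_neg, integral_const_mul]
  have h5 : ∫ x, 2 * cal.Gam f x ∂μ = 2 * ∫ x, cal.Gam f x ∂μ := integral_const_mul _ _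
  rw [h4] at h3
  rw [h5] at h1
  linarith

lemma average_univ_of_prob [IsProbabilityMeasure μ] {A : Set X} (hA : A = univ) (f : X → ℝ) :
    ⨍ x in A, f x ∂μ = ∫ x, f x ∂μ := by
  rw [hA, setAverage_eq, Measure.restrict_univ]
  simp

/-- Jensen/Cauchy-Schwarz: mean of `√g` is at most `√` of the mean. -/
lemma average_sqrt_le [IsFiniteMeasure μ] {A : Set X} (hA0 : 0 < μ.real A) {g : X → ℝ}
    (hg : ∀ x, 0 ≤ g x) (hc : Continuous g) :
    ⨍ x in A, Real.sqrt (g x) ∂μ ≤ Real.sqrt (⨍ x in A, g x ∂μ) := by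
  set m := ⨍ x in A, Real.sqrt (g x) ∂μ with hm
  have hi1 : IntegrableOn (fun x => Real.sqrt (g x)) A μ :=
    (integrable_of_continuous (by fun_prop)).integrableOn
  have hi2 : IntegrableOn g A μ := (integrable_of_continuous hc).integrableOn
  have hm0 : 0 ≤ m := by
    rw [hm, setAverage_eq, smul_eq_mul]
    have : 0 ≤ ∫ x in A, Real.sqrt (g x) ∂μ := integral_nonneg fun x => Real.sqrt_nonneg _
    positivity
  refine Real.le_sqrt_of_sq_le ?_
  have h1 : ∫ x in A, (2 * m * Real.sqrt (g x) - m ^ 2) ∂μ ≤ ∫ x in A, g x ∂μ := by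
    refine integral_mono ((hi1.const_mul _).sub (integrableOn_const (measure_ne_top μ A))) hi2
      fun x => ?_
    have := Real.sq_sqrt (hg x)
    have h5 : 0 ≤ (Real.sqrt (g x) - m) ^ 2 := sq_nonneg _
    show 2 * m * Real.sqrt (g x) - m ^ 2 ≤ g x
    nlinarith
  rw [integral_sub (hi1.const_mul _) (integrableOn_const (measure_ne_top μ A)),
    integral_const_mul, setIntegral_const, smul_eq_mul] at h1
  have h2 : ∫ x in A, Real.sqrt (g x) ∂μ = μ.real A * m := by
    rw [hm, setAverage_eq, smul_eq_mul]; field_simp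
  rw [h2] at h1
  rw [setAverage_eq, smul_eq_mul, ← div_eq_inv_mul, le_div_iff₀ hA0]
  nlinarith

/-- `L¹` Poincare turned into the square-root form. -/
lemma Sp.poi_sqrt [Nonempty X] (hS : Sp cal C) {f : X → ℝ} (hf : f ∈ cal.Sm) (y : X) {r : ℝ}
    (hr : 0 < r) :
    ⨍ z in closedBall y r, |f z - ⨍ z' in closedBall y r, f z' ∂μ| ∂μ ≤
      C * r * Real.sqrt (⨍ z in closedBall y (2 * r), cal.Gam f z ∂μ) := by
  have := hS.prob
  refine (hS.POI f hf y r hr).trans ?_
  have := average_sqrt_le (μ := μ) (A := closedBall y (2 * r)) (hS.dbl.real_pos y (by positivity))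
    (cal.Gam_nonneg f hf) (cal.contGam f hf)
  gcongr

/-- (T2), quantitative: `max f - mean f ≤ C (log 2 + C D √(κ T) + κ D²)`. -/
theorem sup_sub_mean_le [Nonempty X] (hS : Sp cal C) {f : X → ℝ} (hf : f ∈ cal.Sm)
    (h0 : ∀ x, 0 ≤ f x) {kap D T : ℝ} (hk : 0 ≤ kap) (hD : 0 < D)
    (hdiam : ∀ x y : X, dist x y ≤ D)
    (hL : ∀ x, - kap ≤ cal.Lap f x) (hT : ∀ x, f x ≤ T) (p : X) (hp : f p = T) :
    T - ∫ x, f x ∂μ ≤ C * (Real.log 2 + C * D * Real.sqrt (kap * T) + kap * D ^ 2) := by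
  have hprob := hS.prob
  set m := ∫ x, f x ∂μ with hm
  have hcf := cal.cont f hf
  have hu : ∀ r, D ≤ r → closedBall p r = univ := fun r hr =>
    eq_univ_of_forall fun x => mem_closedBall.2 ((hdiam x p).trans hr)
  have hmT : m ≤ T := by
    have : m ≤ ∫ _x : X, T ∂μ := integral_mono (integrable_of_continuous hcf)
      (integrable_const _) hT
    simpa using this
  have hE : ∫ x, cal.Gam f x ∂μ ≤ kap * T :=
    (energy_le hf h0 hL).trans (by gcongr)
  -- DG1 for g = sp (f - m)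
  have hg := sp_shift_mem hf m
  have h1 := hS.DG1 _ hg (fun x => sp_nonneg _) p D kap 0 hD hk le_rfl (by simp)
    (fun x _ => by
      have := Lap_sp_shift_ge hf m kap hk x (hL x)
      linarith) p (mem_closedBall_self (by positivity))
  rw [average_univ_of_prob (hu D le_rfl)] at h1
  have h2 : ∫ x, sp (f x - m) ∂μ ≤ Real.log 2 + ∫ x, |f x - m| ∂μ := by
    have : ∫ x, sp (f x - m) ∂μ ≤ ∫ x, (Real.log 2 + |f x - m|) ∂μ := by
      refine integral_mono (integrable_of_continuous (cal.cont _ hg))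
        (integrable_of_continuous (by fun_prop)) fun x => sp_le _
    rw [integral_add (integrable_const _) (integrable_of_continuous (by fun_prop))] at this
    simpa using this
  have h3 : ∫ x, |f x - m| ∂μ ≤ C * D * Real.sqrt (kap * T) := by
    have h4 := hS.poi_sqrt hf p hD
    rw [average_univ_of_prob (hu D le_rfl), average_univ_of_prob (hu (2 * D) (by linarith)),
      average_univ_of_prob (hu D le_rfl)] at h4
    have h5 : Real.sqrt (∫ x, cal.Gam f x ∂μ) ≤ Real.sqrt (kap * T) := Real.sqrt_le_sqrt hE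
    calc ∫ x, |f x - m| ∂μ ≤ C * D * Real.sqrt (∫ x, cal.Gam f x ∂μ) := h4
      _ ≤ _ := by gcongr
  have h6 : T - m ≤ sp (f p - m) := by rw [hp]; exact le_sp _
  calc T - m ≤ sp (f p - m) := h6
    _ ≤ C * ((∫ x, sp (f x - m) ∂μ) + kap * D ^ 2) := h1
    _ ≤ C * (Real.log 2 + C * D * Real.sqrt (kap * T) + kap * D ^ 2) := by
        gcongr
        linarith

/-- (T2), measure form: `μ {f < T/2} ≤ (2/T) C (...)`. -/
theorem meas_low_le [Nonempty X] (hS : Sp cal C) {f : X → ℝ} (hf : f ∈ cal.Sm)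
    (h0 : ∀ x, 0 ≤ f x) {kap D T : ℝ} (hk : 0 ≤ kap) (hD : 0 < D) (hT0 : 0 < T)
    (hdiam : ∀ x y : X, dist x y ≤ D)
    (hL : ∀ x, - kap ≤ cal.Lap f x) (hT : ∀ x, f x ≤ T) (p : X) (hp : f p = T) :
    μ.real {x | f x < T / 2} ≤
      2 / T * (C * (Real.log 2 + C * D * Real.sqrt (kap * T) + kap * D ^ 2)) := by
  have hprob := hS.prob
  have h1 := sup_sub_mean_le hS hf h0 hk hD hdiam hL hT p hp
  have hcf := cal.cont f hf
  have hi : Integrable (fun x => T - f x) μ := integrable_of_continuous (by fun_prop)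
  have h2 : (T / 2) * μ.real {x | T / 2 ≤ T - f x} ≤ ∫ x, (T - f x) ∂μ :=
    mul_meas_ge_le_integral_of_nonneg (ae_of_all _ fun x => by have := hT x; simpa using this) hi _
  have h3 : ∫ x, (T - f x) ∂μ = T - ∫ x, f x ∂μ := by
    rw [integral_sub (integrable_const _) (integrable_of_continuous hcf)]; simp
  have h4 : μ.real {x | f x < T / 2} ≤ μ.real {x | T / 2 ≤ T - f x} := by
    refine measureReal_mono fun x hx => ?_
    have : f x < T / 2 := hx
    show T / 2 ≤ T - f x
    linarith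
  have h5 : (T / 2) * μ.real {x | f x < T / 2} ≤
      C * (Real.log 2 + C * D * Real.sqrt (kap * T) + kap * D ^ 2) := by
    calc (T / 2) * μ.real {x | f x < T / 2} ≤ (T / 2) * μ.real {x | T / 2 ≤ T - f x} := by gcongr
      _ ≤ _ := h2.trans (h3.le.trans h1)
  rw [div_mul_eq_mul_div, le_div_iff₀ hT0]
  linarith

end Crest.Agent.R281.St_405
end

-- ▼ part R281/St3_405
section

/-! Row 281, S-T25 (helper405), part 3: the local theorem (T4)+(T5) at a good point. -/

set_option autoImplicit false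
open MeasureTheory Metric Set Filter Topology
open scoped ENNReal NNReal ContDiff

namespace Crest.Agent.R281.St_405
open Crest.Agent.R281.Mx_405

universe v

section
variable {X : Type v} [PseudoMetricSpace X] [MeasurableSpace X] [BorelSpace X] [CompactSpace X]
  {μ : Measure X} {cal : Calc μ} {C : ℝ≥0} {kap : ℝ} {u w : X → ℝ}

lemma Sp.one_le [Nonempty X] (hS : Sp cal C) : (1 : ℝ) ≤ C := by
  exact_mod_cast hS.dbl.one_le

/-- (T4a) oscillation of `f` in the mean at a good point. -/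
theorem osc_le [Nonempty X] (hS : Sp cal C) {f : X → ℝ} (hf : f ∈ cal.Sm) {y : X} {K : ℝ}
    (hK : 0 ≤ K) (hG : ∀ r, 0 < r → ⨍ x in closedBall y r, cal.Gam f x ∂μ ≤ K ^ 2) {r : ℝ}
    (hr : 0 < r) :
    ⨍ x in closedBall y r, |f x - f y| ∂μ ≤ (1 + 2 * C) * (C * K) * r := by
  have := hS.prob
  have hc := cal.cont f hf
  refine telescope hS.dbl hr (by positivity) (integrable_of_continuous hc).integrableOn
    (fun s hs _ => ?_)
    (tendsto_average_of_continuousAt hS.dbl hr (integrable_of_continuous hc).integrableOn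
      hc.continuousAt)
  have h1 := hS.poi_sqrt hf y hs
  have h2 : Real.sqrt (⨍ z in closedBall y (2 * s), cal.Gam f z ∂μ) ≤ K := by
    rw [← Real.sqrt_sq hK]
    exact Real.sqrt_le_sqrt (hG _ (by positivity))
  calc _ ≤ C * s * Real.sqrt (⨍ z in closedBall y (2 * s), cal.Gam f z ∂μ) := h1
    _ ≤ C * s * K := by gcongr
    _ = C * K * s := by ring

/-- (T4b) one-sided sup bound. -/
theorem sup_le [Nonempty X] (hS : Sp cal C) {f : X → ℝ} (hf : f ∈ cal.Sm) {y : X} {a r : ℝ}
    (hk : 0 ≤ kap) (hr : 0 < r) (hkr : kap * r ^ 2 ≤ 1)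
    (hL : ∀ x, - kap ≤ cal.Lap f x)
    (hosc : ⨍ x in closedBall y r, |f x - f y| ∂μ ≤ a) :
    ∀ x ∈ closedBall y (r / 2), f x - f y ≤ C * (Real.log 2 + a + 1) := by
  intro x hx
  have hprob := hS.prob
  have hg := sp_shift_mem hf (f y)
  have hcf := cal.cont f hf
  have hcg := cal.cont _ hg
  have h1 := hS.DG1 _ hg (fun x => sp_nonneg _) y r kap 0 hr hk le_rfl (by simp)
    (fun z _ => by
      have := Lap_sp_shift_ge hf (f y) kap hk z (hL z)
      linarith) x hx
  have hpos := hS.dbl.real_pos y hr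
  have h2 : ⨍ z in closedBall y r, sp (f z - f y) ∂μ ≤ Real.log 2 + a := by
    have h3 : ∫ z in closedBall y r, sp (f z - f y) ∂μ ≤
        ∫ z in closedBall y r, (Real.log 2 + |f z - f y|) ∂μ :=
      integral_mono (integrable_of_continuous hcg).integrableOn
        (integrable_of_continuous (by fun_prop)).integrableOn fun z => sp_le _
    have h4 : ∫ z in closedBall y r, (Real.log 2 + |f z - f y|) ∂μ =
        μ.real (closedBall y r) * Real.log 2 + ∫ z in closedBall y r, |f z - f y| ∂μ := by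
      have hi2 : IntegrableOn (fun z => |f z - f y|) (closedBall y r) μ :=
        (integrable_of_continuous (by fun_prop)).integrableOn
      rw [integral_add (integrable_const _) hi2, setIntegral_const, smul_eq_mul]
    rw [setAverage_eq, smul_eq_mul, inv_mul_le_iff₀ hpos] at hosc ⊢
    rw [h4] at h3
    nlinarith
  calc f x - f y ≤ sp (f x - f y) := le_sp _
    _ ≤ C * ((⨍ z in closedBall y r, sp (f z - f y) ∂μ) + kap * r ^ 2) := h1
    _ ≤ C * (Real.log 2 + a + 1) := by gcongr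

/-- the upper bound for `u` from the upper bound for `log (1+Mu)`. -/
lemma SecD.u_le (h : SecD cal C kap u w) {M G : ℝ} (hM : 0 < M) {x y : X}
    (hfg : lg M u x - lg M u y ≤ G) (hy : 1 ≤ M * u y) : u x ≤ 2 * Real.exp G * u y := by
  have hpx := h.pos hM.le x
  have hpy := h.pos hM.le y
  have h1 : 1 + M * u x ≤ Real.exp G * (1 + M * u y) := by
    have h2 : Real.log (1 + M * u x) ≤ G + Real.log (1 + M * u y) := by
      have : Real.log (1 + M * u x) - Real.log (1 + M * u y) ≤ G := hfg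
      linarith
    have h3 := Real.exp_le_exp.2 h2
    rwa [Real.exp_log hpx, Real.exp_add, Real.exp_log hpy] at h3
  have h4 : M * u x ≤ Real.exp G * (2 * (M * u y)) := by
    have h5 : Real.exp G * (1 + M * u y) ≤ Real.exp G * (2 * (M * u y)) := by gcongr; linarith
    linarith
  have h6 : M * u x ≤ M * (2 * Real.exp G * u y) := by linarith
  exact le_of_mul_le_mul_left h6 hM

/-- (T4d,e) gradient bound. -/
theorem SecD.w_le [Nonempty X] (hS : Sp cal C) (h : SecD cal C kap u w) {y : X} {r A : ℝ}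
    (hk : 0 ≤ kap) (hr : 0 < r) (hkr : C * kap * r ^ 2 ≤ 1) (hA : 0 ≤ A)
    (hu : ∀ x ∈ closedBall y (r / 2), u x ≤ A * u y) :
    ∀ x ∈ closedBall y (r / 8), w x ≤ 5 * C ^ 2 * A / r ^ 2 * u y := by
  have hC := hS.one_le
  have huy := h.u_nonneg y
  have hkr' : kap ≤ 1 / r ^ 2 := by
    rw [le_div_iff₀ (by positivity)]
    have : kap * r ^ 2 ≤ C * (kap * r ^ 2) := by
      have h0 : 0 ≤ kap * r ^ 2 := by positivity
      nlinarith
    linarith
  have h1 := hS.CAC u h.u_mem h.u_nonneg w (cal.cont w h.w_mem) h.w_nonneg y (r / 2) (A * u y)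
    (kap * (A * u y)) (by positivity) (by positivity) (by positivity) hu
    (fun x hx => by
      rw [h.Lap_u x]
      have h2 := hu x hx
      have h3 : kap * u x ≤ kap * (A * u y) := by gcongr
      linarith)
  have h2 : ⨍ x in closedBall y (r / 4), w x ∂μ ≤ 5 * C * A / r ^ 2 * u y := by
    have h3 : r / 2 / 2 = r / 4 := by ring
    rw [h3] at h1
    refine h1.trans ?_
    have h4 : A * u y / (r / 2) ^ 2 + kap * (A * u y) ≤ 5 * A / r ^ 2 * u y := by
      have h5 : A * u y / (r / 2) ^ 2 = 4 * A / r ^ 2 * u y := by field_simp; ring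
      have h6 : kap * (A * u y) ≤ 1 / r ^ 2 * (A * u y) := by gcongr
      have h7 : 1 / r ^ 2 * (A * u y) = A / r ^ 2 * u y := by ring
      have h8 : 5 * A / r ^ 2 * u y = 4 * A / r ^ 2 * u y + A / r ^ 2 * u y := by ring
      linarith
    calc C * (A * u y / (r / 2) ^ 2 + kap * (A * u y)) ≤ C * (5 * A / r ^ 2 * u y) := by gcongr
      _ = 5 * C * A / r ^ 2 * u y := by ring
  intro x hx
  have h3 := hS.DG1 w h.w_mem h.w_nonneg y (r / 4) 0 (C * kap) (by positivity) le_rfl
    (by positivity) (by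
      have h9 : C * kap * (r / 4) ^ 2 = C * kap * r ^ 2 / 16 := by ring
      rw [h9]; linarith [show 0 ≤ C * kap * r ^ 2 by positivity])
    (fun z _ => by
      have := h.Lap_w z
      linarith) x (by rwa [show r / 4 / 2 = r / 8 by ring])
  calc w x ≤ C * ((⨍ z in closedBall y (r / 4), w z ∂μ) + 0 * (r / 4) ^ 2) := h3
    _ = C * ⨍ z in closedBall y (r / 4), w z ∂μ := by ring
    _ ≤ C * (5 * C * A / r ^ 2 * u y) := by gcongr
    _ = _ := by ring

/-- the square-root function `√(u + ε)` is Lipschitz near `y`. -/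
theorem SecD.lip (hS : Sp cal C) (h : SecD cal C kap u w) {y : X} {r W ε : ℝ}
    (hr : 0 < r) (hW : 0 ≤ W) (hε : 0 < ε) (hw : ∀ x ∈ closedBall y r, w x ≤ W ^ 2) :
    ∀ p ∈ closedBall y (r / 3), ∀ q ∈ closedBall y (r / 3),
      |Real.sqrt (u p + ε) - Real.sqrt (u q + ε)| ≤ C * (W / 2) * dist p q := by
  have hU : IsOpen {t : ℝ | 0 < t + ε} := isOpen_lt continuous_const (by fun_prop)
  have hsm : ContDiffOn ℝ ∞ (fun t : ℝ => Real.sqrt (t + ε)) {t | 0 < t + ε} :=
    (contDiff_id.add contDiff_const).contDiffOn.sqrt fun t ht => ne_of_gt ht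
  have hp : ∀ x, u x ∈ {t : ℝ | 0 < t + ε} := fun x => by
    have := h.u_nonneg x
    show 0 < u x + ε
    linarith
  have hmem := cal.comp_mem u h.u_mem _ (fun t : ℝ => Real.sqrt (t + ε)) hU hp hsm
  refine hS.LIP _ hmem y r (W / 2) hr (by positivity) fun x hx => ?_
  rw [cal.Gam_comp u h.u_mem _ (fun t : ℝ => Real.sqrt (t + ε)) hU hp hsm x, h.Gam_u x]
  have hpx : 0 < u x + ε := hp x
  have hd : deriv (fun t : ℝ => Real.sqrt (t + ε)) (u x) = 1 / (2 * Real.sqrt (u x + ε)) := by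
    have h1 : HasDerivAt (fun t : ℝ => t + ε) 1 (u x) := (hasDerivAt_id _).add_const ε
    exact (h1.sqrt hpx.ne').deriv
  rw [hd, div_pow, mul_pow, Real.sq_sqrt hpx.le]
  have hux := h.u_nonneg x
  have hwx := h.w_nonneg x
  have h2 := hw x hx
  rw [div_mul_eq_mul_div, div_le_iff₀ (by positivity)]
  have h3 : u x * w x ≤ (u x + ε) * W ^ 2 := by
    calc u x * w x ≤ (u x + ε) * w x := by gcongr; linarith
      _ ≤ _ := by gcongr
  nlinarith

end

end Crest.Agent.R281.St_405
end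

-- ▼ part R281/Nh1_790
section

/-! Row 281, S-NH (helper790): the NO-HOLE lemma of Theorem S (step (T5)), abstract form on a
doubling metric measure space with an `L¹` Poincaré inequality (posts #6527, #6540).

`f` = `log |s|²` (regularised), `G` = `|∇f|`, `b` = `|s|²/(|s|² + |∇s|² + e)`, `H` = `|∇b|`.
The constant `Λ` does not depend on the scale `R/2^j` at which the mean value is taken. -/

set_option autoImplicit false
set_option linter.unusedSectionVars false
set_option linter.unusedVariables false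
open MeasureTheory Metric Set Filter Topology
open scoped ENNReal NNReal

namespace Crest.Agent.R281.Nh_790

open Crest.Agent.R281.Mx_405

universe u

/-- `L¹` Poincaré inequality on all closed balls. -/
def PI {X : Type u} [PseudoMetricSpace X] [MeasurableSpace X] (μ : Measure X) (f G : X → ℝ)
    (P : ℝ) : Prop :=
  ∀ (x : X) (r : ℝ), 0 < r →
    ⨍ z in closedBall x r, |f z - ⨍ w in closedBall x r, f w ∂μ| ∂μ ≤
      P * r * ⨍ z in closedBall x (2 * r), G z ∂μ

section basic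
variable {X : Type u} [PseudoMetricSpace X] [MeasurableSpace X] [OpensMeasurableSpace X]
variable {μ : Measure X} {C : ℝ≥0}

/-- a continuous function is integrable on the balls of a proper space -/
lemma integrableOn_cb [ProperSpace X] (h : Dbl μ C) {f : X → ℝ} (hf : Continuous f) (x : X)
    (r : ℝ) : IntegrableOn f (closedBall x r) μ := by
  obtain ⟨M, hM⟩ := (isCompact_closedBall x r).exists_bound_of_continuousOn hf.continuousOn
  exact Measure.integrableOn_of_bounded (h.fin x r).ne hf.aestronglyMeasurable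
    ((ae_restrict_iff' measurableSet_closedBall).2 (ae_of_all _ hM))

lemma average_mono' {A : Set X} {f g : X → ℝ} (hA : MeasurableSet A)
    (hf : IntegrableOn f A μ) (hg : IntegrableOn g A μ) (h : ∀ x ∈ A, f x ≤ g x) :
    ⨍ x in A, f x ∂μ ≤ ⨍ x in A, g x ∂μ := by
  rw [setAverage_eq, setAverage_eq, smul_eq_mul, smul_eq_mul]
  exact mul_le_mul_of_nonneg_left (setIntegral_mono_on hf hg hA h) (by positivity)

lemma average_const' {A : Set X} (hA : 0 < μ.real A) (c : ℝ) : ⨍ _x in A, c ∂μ = c := by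
  rw [setAverage_eq, setIntegral_const, smul_eq_mul, smul_eq_mul]
  field_simp

lemma average_add' {A : Set X} {f g : X → ℝ} (hf : IntegrableOn f A μ)
    (hg : IntegrableOn g A μ) :
    ⨍ x in A, (f x + g x) ∂μ = (⨍ x in A, f x ∂μ) + ⨍ x in A, g x ∂μ := by
  rw [setAverage_eq, setAverage_eq, setAverage_eq, integral_add hf hg, smul_add]

lemma average_const_mul' {A : Set X} (c : ℝ) (f : X → ℝ) :
    ⨍ x in A, c * f x ∂μ = c * ⨍ x in A, f x ∂μ := by
  rw [setAverage_eq, setAverage_eq, integral_const_mul, smul_eq_mul, smul_eq_mul]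
  ring

lemma average_nonneg' {A : Set X} {f : X → ℝ} (hf : ∀ x, 0 ≤ f x) :
    0 ≤ ⨍ x in A, f x ∂μ := by
  rw [setAverage_eq, smul_eq_mul]
  exact mul_nonneg (by positivity) (integral_nonneg hf)

/-- telescoping at a point from the radius `R` down to `R / 2 ^ j` -/
theorem telescope_fin (h : Dbl μ C) [Nonempty X] {f : X → ℝ} {q : X} {R a : ℝ} (hR : 0 < R)
    (ha : 0 ≤ a) (hint : IntegrableOn f (closedBall q R) μ) (j : ℕ)
    (hP : ∀ i ≤ j, ⨍ x in closedBall q (R / 2 ^ i),
      |f x - ⨍ z in closedBall q (R / 2 ^ i), f z ∂μ| ∂μ ≤ a * (R / 2 ^ i)) :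
    |(⨍ x in closedBall q (R / 2 ^ j), f x ∂μ) - ⨍ x in closedBall q R, f x ∂μ| ≤
      2 * C * a * R * (1 - (1 / 2) ^ j) := by
  have hC1 : (1 : ℝ) ≤ C := by exact_mod_cast h.one_le
  induction j with
  | zero => simp
  | succ j ih =>
    have ih' := ih (fun i hi => hP i (hi.trans (Nat.le_succ j)))
    have hri : 0 < R / 2 ^ j := by positivity
    have hri' : 0 < R / 2 ^ (j + 1) := by positivity
    have hsub : closedBall q (R / 2 ^ (j + 1)) ⊆ closedBall q (R / 2 ^ j) := by
      apply closedBall_subset_closedBall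
      rw [pow_succ]
      have : R / (2 ^ j * 2) = R / 2 ^ j / 2 := by field_simp
      rw [this]
      linarith
    have hsub0 : closedBall q (R / 2 ^ j) ⊆ closedBall q R := by
      apply closedBall_subset_closedBall
      exact div_le_self hR.le (one_le_pow₀ (by norm_num))
    have hint1 : IntegrableOn f (closedBall q (R / 2 ^ j)) μ := hint.mono_set hsub0
    have hint2 : IntegrableOn f (closedBall q (R / 2 ^ (j + 1))) μ := hint1.mono_set hsub
    set m : ℝ := ⨍ z in closedBall q (R / 2 ^ j), f z ∂μ with hm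
    have hcst : IntegrableOn (fun _ : X => m) (closedBall q (R / 2 ^ j)) μ :=
      integrableOn_const (h.fin q _).ne
    have h1 : |(⨍ x in closedBall q (R / 2 ^ (j + 1)), f x ∂μ) - m| ≤
        ⨍ x in closedBall q (R / 2 ^ (j + 1)), |f x - m| ∂μ :=
      abs_average_sub_le hint2 (h.fin q _).ne (h.real_pos q hri') m
    have h2 : ⨍ x in closedBall q (R / 2 ^ (j + 1)), |f x - m| ∂μ ≤
        C * ⨍ x in closedBall q (R / 2 ^ j), |f x - m| ∂μ := by
      refine setAverage_le_of_subset (fun x => abs_nonneg _) (hint1.sub hcst).abs hsub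
        (h.real_pos q hri') (h.real_pos q hri) ?_
      have := h.real_dbl q hri'
      have e : 2 * (R / 2 ^ (j + 1)) = R / 2 ^ j := by rw [pow_succ]; field_simp
      rwa [e] at this
    have h3 := hP j (Nat.le_succ j)
    have h4 : |(⨍ x in closedBall q (R / 2 ^ (j + 1)), f x ∂μ) - m| ≤ C * (a * (R / 2 ^ j)) := by
      refine h1.trans (h2.trans ?_)
      gcongr
    have h5 : |(⨍ x in closedBall q (R / 2 ^ (j + 1)), f x ∂μ) - ⨍ x in closedBall q R, f x ∂μ| ≤
        |(⨍ x in closedBall q (R / 2 ^ (j + 1)), f x ∂μ) - m| +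
          |m - ⨍ x in closedBall q R, f x ∂μ| := abs_sub_le _ _ _
    refine h5.trans ((add_le_add h4 ih').trans (le_of_eq ?_))
    rw [pow_succ, div_eq_mul_inv, one_div, inv_pow]
    ring

end basic

set_option maxHeartbeats 1600000 in
/-- **No holes**, mean value form. -/
theorem no_hole (C : ℝ≥0) (P K c R : ℝ) (hP : 0 ≤ P) (hK : 0 ≤ K) (hc : 0 < c) (hR : 0 < R) :
    ∃ Λ : ℝ, 0 ≤ Λ ∧ ∀ j : ℕ, ∃ δ : ℝ, 0 < δ ∧
      ∀ (X : Type u) [PseudoMetricSpace X] [ProperSpace X] [MeasurableSpace X]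
        [OpensMeasurableSpace X] (μ : Measure X) (_ : Dbl μ C) (y : X) (f G b H : X → ℝ),
        Continuous f → Continuous G → Continuous b → Continuous H → (∀ x, 0 ≤ G x) →
        PI μ f G P → PI μ b H P →
        (∀ x ∈ closedBall y (8 * R), G x ^ 2 * b x ≤ 4) →
        (∀ r, 0 < r → r ≤ 8 * R → ⨍ x in closedBall y r, G x ∂μ ≤ K) →
        ⨍ x in closedBall y (8 * R), G x ^ 2 ∂μ ≤ K →
        μ.real (closedBall y (8 * R)) ≤ 2 * μ.real {x | x ∈ closedBall y (8 * R) ∧ c ≤ b x} →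
        ⨍ x in closedBall y (16 * R), H x ∂μ ≤ δ →
        ∀ q ∈ closedBall y (2 * R), ⨍ x in closedBall q (R / 2 ^ j), |f x - f y| ∂μ ≤ Λ := by
  set A : ℝ := 4 / √c with hA
  have hA0 : 0 < A := by positivity
  have hCn : (0 : ℝ) ≤ C := C.2
  refine ⟨(4 * C + 1) * P * R * (A + 1) + C ^ 2 * ((1 + 2 * C) * (P * K) * (4 * R)),
    by positivity, fun j => ?_⟩
  -- the choice of `δ`
  set η : ℝ := min 1 (2 / ((C + 1) ^ (j + 3) * (K + 1))) with hη
  have hη0 : 0 < η := by positivity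
  have hη1 : η ≤ 1 := min_le_left _ _
  have hη2 : (C + 1 : ℝ) ^ (j + 3) * (K + 1) * η ≤ 2 := by
    have : η ≤ 2 / ((C + 1) ^ (j + 3) * (K + 1)) := min_le_right _ _
    rwa [le_div_iff₀ (by positivity), mul_comm] at this
  set δ : ℝ := c * η ^ 2 / (64 * (P * R + 1)) with hδ
  have hδ0 : 0 < δ := by positivity
  refine ⟨δ, hδ0, ?_⟩
  intro X _ _ _ _ μ h y f G b H hf hG hb hH hG0 hPf hPb hGb hGK hG2 hhalf hHδ q hq
  have : Nonempty X := ⟨y⟩
  have hI : ∀ {g : X → ℝ}, Continuous g → ∀ (x : X) (r : ℝ), IntegrableOn g (closedBall x r) μ :=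
    fun hg x r => integrableOn_cb h hg x r
  have h8 : 0 < 8 * R := by positivity
  set B : Set X := closedBall y (8 * R) with hB
  have hBm : MeasurableSet B := measurableSet_closedBall
  have hBpos : 0 < μ.real B := h.real_pos y h8
  -- step 1: `b` is almost constant
  set bb : ℝ := ⨍ x in B, b x ∂μ with hbb
  set ε₁ : ℝ := c * η ^ 2 / 8 with hε₁
  have hε₁0 : 0 < ε₁ := by positivity
  have h1 : ⨍ x in B, |b x - bb| ∂μ ≤ ε₁ := by
    refine (hPb y (8 * R) h8).trans ?_
    have e : 2 * (8 * R) = 16 * R := by ring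
    rw [e]
    calc P * (8 * R) * ⨍ x in closedBall y (16 * R), H x ∂μ ≤ P * (8 * R) * δ := by gcongr
      _ = 8 * (P * R) * (c * η ^ 2 / (64 * (P * R + 1))) := by rw [hδ]; ring
      _ = (P * R / (P * R + 1)) * (c * η ^ 2 / 8) := by
          field_simp
          ring
      _ ≤ 1 * (c * η ^ 2 / 8) := by
          have hPR : 0 ≤ P * R := by positivity
          have : P * R / (P * R + 1) ≤ 1 := by
            rw [div_le_one (by positivity)]; linarith
          gcongr
      _ = ε₁ := by rw [hε₁]; ring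
  have hbint : IntegrableOn (fun x => |b x - bb|) B μ := hI (hb.sub continuous_const).abs y _
  -- `bb ≥ c / 2`
  have h2 : c / 2 ≤ bb := by
    by_contra hlt
    rw [not_le] at hlt
    have h3 := frac_le_of_average h (g := fun x => |b x - bb|) (fun x => abs_nonneg _) (y := y)
      (r := 8 * R) (t := c / 2) h8 (by positivity) hbint h1
    have h4 : {x | x ∈ B ∧ c ≤ b x} ⊆ {x | x ∈ B ∧ c / 2 ≤ |b x - bb|} := by
      rintro x ⟨hx, hx'⟩
      refine ⟨hx, ?_⟩
      have : c / 2 ≤ b x - bb := by linarith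
      exact this.trans (le_abs_self _)
    have h5 : μ.real {x | x ∈ B ∧ c ≤ b x} ≤ μ.real {x | x ∈ B ∧ c / 2 ≤ |b x - bb|} :=
      measureReal_mono h4 (measure_ne_top_of_subset (fun x hx => hx.1) (h.fin y _).ne)
    have h6 : ε₁ / (c / 2) ≤ 1 / 4 := by
      rw [div_le_iff₀ (by positivity), hε₁]
      have : η ^ 2 ≤ 1 := pow_le_one₀ hη0.le hη1
      nlinarith
    have h7 : μ.real B ≤ 2 * (1 / 4 * μ.real B) := by
      calc μ.real B ≤ 2 * μ.real {x | x ∈ B ∧ c ≤ b x} := hhalf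
        _ ≤ 2 * (ε₁ / (c / 2) * μ.real B) := by gcongr; exact h5.trans h3
        _ ≤ 2 * (1 / 4 * μ.real B) := by gcongr
    linarith
  -- the bad set
  set Z : Set X := {x | x ∈ B ∧ b x < c / 4} with hZ
  have hZm : MeasurableSet Z := hBm.inter (measurableSet_lt hb.measurable measurable_const)
  have hZB : Z ⊆ B := fun x hx => hx.1
  have hZμ : μ.real Z ≤ η ^ 2 / 2 * μ.real B := by
    have h3 := frac_le_of_average h (g := fun x => |b x - bb|) (fun x => abs_nonneg _) (y := y)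
      (r := 8 * R) (t := c / 4) h8 (by positivity) hbint h1
    have h4 : Z ⊆ {x | x ∈ B ∧ c / 4 ≤ |b x - bb|} := by
      rintro x ⟨hx, hx'⟩
      refine ⟨hx, ?_⟩
      have : c / 4 ≤ -(b x - bb) := by linarith
      exact this.trans (neg_le_abs _)
    have h5 : μ.real Z ≤ μ.real {x | x ∈ B ∧ c / 4 ≤ |b x - bb|} :=
      measureReal_mono h4 (measure_ne_top_of_subset (fun x hx => hx.1) (h.fin y _).ne)
    refine h5.trans (h3.trans (le_of_eq ?_))
    rw [hε₁]
    field_simp
    ring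
  -- step 2: `G ≤ A` off `Z`
  have hGA : ∀ x ∈ B, x ∉ Z → G x ≤ A := by
    intro x hx hxZ
    have hbx : c / 4 ≤ b x := by
      by_contra hlt
      exact hxZ ⟨hx, not_le.1 hlt⟩
    have h3 := hGb x hx
    have h4 : G x ^ 2 * (c / 4) ≤ 4 := (by gcongr : G x ^ 2 * (c / 4) ≤ G x ^ 2 * b x).trans h3
    have h5 : G x ^ 2 ≤ A ^ 2 := by
      rw [hA, div_pow, Real.sq_sqrt hc.le, le_div_iff₀ hc]
      nlinarith
    exact (sq_le_sq₀ (hG0 x) hA0.le).1 h5
  -- the `L¹` norm of `G` on `Z`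
  set a : X → ℝ := Z.indicator G with ha
  have ha0 : ∀ x, 0 ≤ a x := fun x => indicator_nonneg (fun x _ => hG0 x) x
  have haint : IntegrableOn a B μ := (hI hG y _).indicator hZm
  have haB : ⨍ x in B, a x ∂μ ≤ η * (K + 1) / 2 := by
    have hpt : ∀ x ∈ B, a x ≤ η / 2 * G x ^ 2 + (2 * η)⁻¹ * Z.indicator (fun _ => (1 : ℝ)) x := by
      intro x _
      by_cases hx : x ∈ Z
      · rw [ha, indicator_of_mem hx, indicator_of_mem hx]
        have h3 : 0 ≤ (η * G x - 1) ^ 2 := sq_nonneg _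
        have h4 : η / 2 * G x ^ 2 + (2 * η)⁻¹ * 1 - G x = (η * G x - 1) ^ 2 / (2 * η) := by
          field_simp
          ring
        have h5 : 0 ≤ (η * G x - 1) ^ 2 / (2 * η) := by positivity
        linarith
      · rw [ha, indicator_of_notMem hx, indicator_of_notMem hx]
        positivity
    have hi1 : IntegrableOn (fun x => η / 2 * G x ^ 2) B μ :=
      hI (continuous_const.mul (hG.pow 2)) y _
    have hone : IntegrableOn (fun _ : X => (1 : ℝ)) B μ := integrableOn_const (h.fin y _).ne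
    have hi2 : IntegrableOn (fun x => (2 * η)⁻¹ * Z.indicator (fun _ => (1 : ℝ)) x) B μ :=
      (hone.indicator hZm).const_mul _
    have h3 := average_mono' hBm haint (hi1.add hi2) hpt
    have h4 := average_add' (μ := μ) hi1 hi2
    have h5 : ⨍ x in B, η / 2 * G x ^ 2 ∂μ ≤ η / 2 * K := by
      rw [average_const_mul']
      gcongr
    have h6 : ⨍ x in B, (2 * η)⁻¹ * Z.indicator (fun _ => (1 : ℝ)) x ∂μ ≤ η / 4 := by
      rw [average_const_mul', setAverage_eq, smul_eq_mul, setIntegral_indicator hZm,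
        inter_eq_self_of_subset_right hZB, setIntegral_const, smul_eq_mul, mul_one]
      calc (2 * η)⁻¹ * ((μ.real B)⁻¹ * μ.real Z) ≤
            (2 * η)⁻¹ * ((μ.real B)⁻¹ * (η ^ 2 / 2 * μ.real B)) := by gcongr
        _ = η / 4 := by field_simp; ring
    calc ⨍ x in B, a x ∂μ ≤ _ := h3
      _ = _ := h4
      _ ≤ η / 2 * K + η / 4 := add_le_add h5 h6
      _ ≤ η * (K + 1) / 2 := by nlinarith
  -- step 3: means of `G` over all balls of radius `≥ 2 R / 2 ^ (j+1)` about `q`
  have hmean : ∀ i ≤ j + 1, ⨍ x in closedBall q (2 * (2 * R / 2 ^ i)), G x ∂μ ≤ A + 1 := by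
    intro i hi
    set r : ℝ := 2 * (2 * R / 2 ^ i) with hr
    have hr0 : 0 < r := by positivity
    have hr4 : r ≤ 4 * R := by
      rw [hr]
      have : 2 * R / 2 ^ i ≤ 2 * R := div_le_self (by positivity) (one_le_pow₀ (by norm_num))
      linarith
    have hqB : closedBall q r ⊆ B := by
      apply closedBall_subset_closedBall'
      have := mem_closedBall.1 hq
      linarith
    have hpow : (2 : ℝ) ^ i ≤ 2 ^ (j + 1) := pow_le_pow_right₀ (by norm_num) hi
    have hchg := average_change h ha0 (y := y) (q := q) (r := 4 * R) (ρ := r) (k := j + 3) hr0 hr4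
      (closedBall_subset_closedBall (by linarith) hq) (by
        rw [hr]
        have e : (2 : ℝ) ^ (j + 3) * (2 * (2 * R / 2 ^ i)) = 16 * R * (2 ^ (j + 1) / 2 ^ i) := by
          rw [show j + 3 = (j + 1) + 2 by ring, pow_add]
          field_simp
          ring
        rw [e]
        have : (1 : ℝ) ≤ 2 ^ (j + 1) / 2 ^ i := by rwa [one_le_div (by positivity)]
        nlinarith) (by
        have e : 2 * (4 * R) = 8 * R := by ring
        rw [e]; exact haint)
    have e8 : 2 * (4 * R) = 8 * R := by ring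
    rw [e8] at hchg
    have h3 : ⨍ x in closedBall q r, a x ∂μ ≤ 1 := by
      refine hchg.trans ?_
      calc (C : ℝ) ^ (j + 3) * ⨍ x in closedBall y (8 * R), a x ∂μ ≤
            (C + 1 : ℝ) ^ (j + 3) * (η * (K + 1) / 2) := by
              gcongr
              · exact average_nonneg' ha0
              · linarith
        _ = ((C + 1 : ℝ) ^ (j + 3) * (K + 1) * η) / 2 := by ring
        _ ≤ 1 := by linarith
    have hai : IntegrableOn a (closedBall q r) μ := haint.mono_set hqB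
    have hAi : IntegrableOn (fun _ : X => A) (closedBall q r) μ :=
      integrableOn_const (h.fin q _).ne
    have h4 := average_mono' measurableSet_closedBall (hI hG q r) (hAi.add hai)
      (fun x hx => by
        show G x ≤ A + a x
        by_cases hxZ : x ∈ Z
        · rw [ha, indicator_of_mem hxZ]; linarith
        · rw [ha, indicator_of_notMem hxZ, add_zero]
          exact hGA x (hqB hx) hxZ)
    have h5 := average_add' (μ := μ) hAi hai
    rw [average_const' (h.real_pos q hr0)] at h5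
    calc ⨍ x in closedBall q r, G x ∂μ ≤ _ := h4
      _ = _ := h5
      _ ≤ A + 1 := by linarith
  -- step 4: telescoping at `q`
  have h2R : 0 < 2 * R := by positivity
  have hPq : ∀ i ≤ j + 1, ⨍ x in closedBall q (2 * R / 2 ^ i),
      |f x - ⨍ z in closedBall q (2 * R / 2 ^ i), f z ∂μ| ∂μ ≤
        (P * (A + 1)) * (2 * R / 2 ^ i) := by
    intro i hi
    refine (hPf q (2 * R / 2 ^ i) (by positivity)).trans ?_
    calc P * (2 * R / 2 ^ i) * ⨍ z in closedBall q (2 * (2 * R / 2 ^ i)), G z ∂μ ≤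
          P * (2 * R / 2 ^ i) * (A + 1) := by
            gcongr
            exact hmean i hi
      _ = _ := by ring
  have htel := telescope_fin h h2R (by positivity : 0 ≤ P * (A + 1)) (hI hf q _) (j + 1) hPq
  have hlast := hPq (j + 1) le_rfl
  have eR : 2 * R / 2 ^ (j + 1) = R / 2 ^ j := by rw [pow_succ]; field_simp
  rw [eR] at htel hlast
  set m₀ : ℝ := ⨍ x in closedBall q (2 * R), f x ∂μ with hm₀
  set m₁ : ℝ := ⨍ x in closedBall q (R / 2 ^ j), f x ∂μ with hm₁
  have htel' : |m₁ - m₀| ≤ 4 * C * P * R * (A + 1) := by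
    refine htel.trans ?_
    have h3 : (1 - (1 / 2 : ℝ) ^ (j + 1)) ≤ 1 := by
      have : (0 : ℝ) ≤ (1 / 2) ^ (j + 1) := by positivity
      linarith
    calc 2 * C * (P * (A + 1)) * (2 * R) * (1 - (1 / 2 : ℝ) ^ (j + 1)) ≤
          2 * C * (P * (A + 1)) * (2 * R) * 1 := by gcongr
      _ = _ := by ring
  have hRj : R / 2 ^ j ≤ R := div_le_self hR.le (one_le_pow₀ (by norm_num))
  have hlast' : ⨍ x in closedBall q (R / 2 ^ j), |f x - m₁| ∂μ ≤ P * R * (A + 1) := by
    refine hlast.trans ?_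
    calc P * (A + 1) * (R / 2 ^ j) ≤ P * (A + 1) * R := by gcongr
      _ = _ := by ring
  -- step 5: comparison with `f y`
  have hPy : ∀ r, 0 < r → r ≤ 4 * R →
      ⨍ x in closedBall y r, |f x - ⨍ z in closedBall y r, f z ∂μ| ∂μ ≤ (P * K) * r := by
    intro r hr hr4
    refine (hPf y r hr).trans ?_
    calc P * r * ⨍ z in closedBall y (2 * r), G z ∂μ ≤ P * r * K := by
          gcongr
          exact hGK (2 * r) (by positivity) (by linarith)
      _ = _ := by ring
  have hy := telescope h (c := f y) (show 0 < 4 * R by positivity) (by positivity : 0 ≤ P * K)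
    (hI hf y _) hPy
    (tendsto_average_of_continuousAt h (show 0 < 4 * R by positivity) (hI hf y _) hf.continuousAt)
  have hfy : ∀ x, 0 ≤ |f x - f y| := fun x => abs_nonneg _
  have hchg := average_change h hfy (y := y) (q := q) (r := 2 * R) (ρ := 2 * R) (k := 2) h2R le_rfl
    hq (by nlinarith) (hI (hf.sub continuous_const).abs y _)
  have e4 : 2 * (2 * R) = 4 * R := by ring
  rw [e4] at hchg
  have hm0 : |m₀ - f y| ≤ C ^ 2 * ((1 + 2 * C) * (P * K) * (4 * R)) := by
    refine (abs_average_sub_le (hI hf q _) (h.fin q _).ne (h.real_pos q h2R) (f y)).trans ?_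
    refine hchg.trans ?_
    gcongr
  -- end
  have hRj0 : 0 < R / 2 ^ j := by positivity
  have hi1 : IntegrableOn (fun x => |f x - m₁|) (closedBall q (R / 2 ^ j)) μ :=
    hI (hf.sub continuous_const).abs q _
  have hi2 : IntegrableOn (fun _ : X => |m₁ - f y|) (closedBall q (R / 2 ^ j)) μ :=
    integrableOn_const (h.fin q _).ne
  have h3 := average_mono' measurableSet_closedBall
    (hI (hf.sub continuous_const).abs q (R / 2 ^ j) :
      IntegrableOn (fun x => |f x - f y|) (closedBall q (R / 2 ^ j)) μ)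
    (hi1.add hi2) (fun x _ => abs_sub_le (f x) m₁ (f y))
  have h4 := average_add' (μ := μ) hi1 hi2
  rw [average_const' (h.real_pos q hRj0)] at h4
  have h5 : |m₁ - f y| ≤ |m₁ - m₀| + |m₀ - f y| := abs_sub_le _ _ _
  calc ⨍ x in closedBall q (R / 2 ^ j), |f x - f y| ∂μ ≤ _ := h3
    _ = _ := h4
    _ ≤ P * R * (A + 1) + (4 * C * P * R * (A + 1) +
        C ^ 2 * ((1 + 2 * C) * (P * K) * (4 * R))) := by linarith
    _ = _ := by ring

/-- existence of a point of `closedBall q ρ` where `f` is at least `m - Λ` -/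
lemma exists_ge_of_mean {X : Type u} [PseudoMetricSpace X] [ProperSpace X] [MeasurableSpace X]
    [OpensMeasurableSpace X] {μ : Measure X} {C : ℝ≥0} (h : Dbl μ C) {f : X → ℝ}
    (hf : Continuous f) {q : X} {ρ m Λ : ℝ} (hρ : 0 < ρ)
    (hmean : ⨍ x in closedBall q ρ, |f x - m| ∂μ ≤ Λ) :
    ∃ x ∈ closedBall q ρ, |f x - m| ≤ Λ := by
  by_contra hcon
  push Not at hcon
  have hi : IntegrableOn (fun x => |f x - m|) (closedBall q ρ) μ :=
    integrableOn_cb h (hf.sub continuous_const).abs q ρ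
  obtain ⟨x₀, hx₀, hmin⟩ := (isCompact_closedBall q ρ).exists_isMinOn
    ⟨q, mem_closedBall_self hρ.le⟩ ((hf.sub continuous_const).abs.continuousOn)
  have h1 := average_mono' (μ := μ) measurableSet_closedBall
    (integrableOn_const (h.fin q ρ).ne : IntegrableOn (fun _ : X => |f x₀ - m|) _ μ) hi
    (fun x hx => hmin hx)
  rw [average_const' (h.real_pos q hρ)] at h1
  linarith [hcon x₀ hx₀]

/-- **No holes**, pointwise form: every ball `closedBall q (R / 2 ^ j)` contains a point where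
`|f - f y| ≤ Λ`. -/
theorem no_hole_pt (C : ℝ≥0) (P K c R : ℝ) (hP : 0 ≤ P) (hK : 0 ≤ K) (hc : 0 < c) (hR : 0 < R) :
    ∃ Λ : ℝ, 0 ≤ Λ ∧ ∀ ρ : ℝ, 0 < ρ → ∃ δ : ℝ, 0 < δ ∧
      ∀ (X : Type u) [PseudoMetricSpace X] [ProperSpace X] [MeasurableSpace X]
        [OpensMeasurableSpace X] (μ : Measure X) (_ : Dbl μ C) (y : X) (f G b H : X → ℝ),
        Continuous f → Continuous G → Continuous b → Continuous H → (∀ x, 0 ≤ G x) →
        PI μ f G P → PI μ b H P →
        (∀ x ∈ closedBall y (8 * R), G x ^ 2 * b x ≤ 4) →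
        (∀ r, 0 < r → r ≤ 8 * R → ⨍ x in closedBall y r, G x ∂μ ≤ K) →
        ⨍ x in closedBall y (8 * R), G x ^ 2 ∂μ ≤ K →
        μ.real (closedBall y (8 * R)) ≤ 2 * μ.real {x | x ∈ closedBall y (8 * R) ∧ c ≤ b x} →
        ⨍ x in closedBall y (16 * R), H x ∂μ ≤ δ →
        ∀ q ∈ closedBall y (2 * R), ∃ x ∈ closedBall q ρ, |f x - f y| ≤ Λ := by
  obtain ⟨Λ, hΛ0, hΛ⟩ := no_hole.{u} C P K c R hP hK hc hR
  refine ⟨Λ, hΛ0, fun ρ hρ => ?_⟩
  obtain ⟨j, hj⟩ : ∃ j : ℕ, R / 2 ^ j ≤ ρ := by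
    obtain ⟨j, hj⟩ := pow_unbounded_of_one_lt (R / ρ) (one_lt_two (α := ℝ))
    refine ⟨j, ?_⟩
    rw [div_le_iff₀ (by positivity)]
    rw [div_lt_iff₀ hρ] at hj
    linarith [mul_comm ρ ((2 : ℝ) ^ j)]
  obtain ⟨δ, hδ0, hδ⟩ := hΛ j
  refine ⟨δ, hδ0, ?_⟩
  intro X _ _ _ _ μ h y f G b H hf hG hb hH hG0 hPf hPb hGb hGK hG2 hhalf hHδ q hq
  obtain ⟨x, hx, hx'⟩ := exists_ge_of_mean h hf (by positivity : 0 < R / 2 ^ j)
    (hδ X μ h y f G b H hf hG hb hH hG0 hPf hPb hGb hGK hG2 hhalf hHδ q hq)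
  exact ⟨x, closedBall_subset_closedBall hj hx, hx'⟩

/-- **(T5)**: if `S` is `B`-Lipschitz on `closedBall y (3 R)` and `S x ≥ s₀` wherever
`f x ≥ f y - Λ` there, then `S ≥ s₀ / 2` on `closedBall y (2 R)`. -/
theorem no_hole_lip (C : ℝ≥0) (P K c R : ℝ) (hP : 0 ≤ P) (hK : 0 ≤ K) (hc : 0 < c)
    (hR : 0 < R) :
    ∃ Λ : ℝ, 0 ≤ Λ ∧ ∀ B s₀ : ℝ, 0 ≤ B → 0 < s₀ → ∃ δ : ℝ, 0 < δ ∧
      ∀ (X : Type u) [PseudoMetricSpace X] [ProperSpace X] [MeasurableSpace X]
        [OpensMeasurableSpace X] (μ : Measure X) (_ : Dbl μ C) (y : X) (f G b H S : X → ℝ),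
        Continuous f → Continuous G → Continuous b → Continuous H → (∀ x, 0 ≤ G x) →
        PI μ f G P → PI μ b H P →
        (∀ x ∈ closedBall y (8 * R), G x ^ 2 * b x ≤ 4) →
        (∀ r, 0 < r → r ≤ 8 * R → ⨍ x in closedBall y r, G x ∂μ ≤ K) →
        ⨍ x in closedBall y (8 * R), G x ^ 2 ∂μ ≤ K →
        μ.real (closedBall y (8 * R)) ≤ 2 * μ.real {x | x ∈ closedBall y (8 * R) ∧ c ≤ b x} →
        ⨍ x in closedBall y (16 * R), H x ∂μ ≤ δ →
        (∀ p ∈ closedBall y (3 * R), ∀ q ∈ closedBall y (3 * R), |S p - S q| ≤ B * dist p q) →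
        (∀ x ∈ closedBall y (3 * R), f y - Λ ≤ f x → s₀ ≤ S x) →
        ∀ q ∈ closedBall y (2 * R), s₀ / 2 ≤ S q := by
  obtain ⟨Λ, hΛ0, hΛ⟩ := no_hole_pt.{u} C P K c R hP hK hc hR
  refine ⟨Λ, hΛ0, fun B s₀ hB hs₀ => ?_⟩
  set ρ : ℝ := min R (s₀ / (2 * (B + 1))) with hρ
  have hρ0 : 0 < ρ := by positivity
  have hρR : ρ ≤ R := min_le_left _ _
  have hρB : B * ρ ≤ s₀ / 2 := by
    have h1 : ρ ≤ s₀ / (2 * (B + 1)) := min_le_right _ _
    have h2 : ρ * (2 * (B + 1)) ≤ s₀ := by rwa [le_div_iff₀ (by positivity)] at h1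
    nlinarith
  obtain ⟨δ, hδ0, hδ⟩ := hΛ ρ hρ0
  refine ⟨δ, hδ0, ?_⟩
  intro X _ _ _ _ μ h y f G b H S hf hG hb hH hG0 hPf hPb hGb hGK hG2 hhalf hHδ hS hSf q hq
  obtain ⟨x, hx, hx'⟩ := hδ X μ h y f G b H hf hG hb hH hG0 hPf hPb hGb hGK hG2 hhalf hHδ q hq
  have hq3 : q ∈ closedBall y (3 * R) := closedBall_subset_closedBall (by linarith) hq
  have hx3 : x ∈ closedBall y (3 * R) := by
    have h1 := mem_closedBall.1 hx
    have h2 := mem_closedBall.1 hq
    exact mem_closedBall.2 ((dist_triangle x q y).trans (by linarith))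
  have h1 : s₀ ≤ S x := hSf x hx3 (by linarith [abs_le.1 hx'])
  have h2 := hS x hx3 q hq3
  have h3 : B * dist x q ≤ s₀ / 2 := by
    refine le_trans ?_ hρB
    gcongr
    exact mem_closedBall.1 hx
  linarith [abs_le.1 (h2.trans h3)]

end Crest.Agent.R281.Nh_790
end

-- ▼ part R281/St4_405
section

/-! Row 281, S-T25 (helper405), part 4: the local theorem (T4)+(T5) at a good point. -/

set_option autoImplicit false
open MeasureTheory Metric Set Filter Topology
open scoped ENNReal NNReal ContDiff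

namespace Crest.Agent.R281.St_405
open Crest.Agent.R281.Mx_405

universe v

/-- the one-jet function `u/(u+w+e)`. -/
noncomputable def jb {X : Type*} (u w : X → ℝ) (e : ℝ) (x : X) : ℝ := u x / (u x + w x + e)

section
variable {X : Type v} [PseudoMetricSpace X] [MeasurableSpace X] [BorelSpace X] [CompactSpace X]
  {μ : Measure X} {cal : Calc μ} {C : ℝ≥0} {kap : ℝ} {u w : X → ℝ}

omit [BorelSpace X] [CompactSpace X] in
lemma SecD.Gam_mul_jb_le (h : SecD cal C kap u w) {M e : ℝ} (hM : 0 ≤ M) (he : 0 < e) (x : X) :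
    cal.Gam (lg M u) x * jb u w e x ≤ 1 := by
  rw [h.Gam_lg hM x, h.Gam_u x]
  have hu := h.u_nonneg x
  have hw := h.w_nonneg x
  have hp := h.pos hM x
  have hq : 0 < u x + w x + e := by linarith
  unfold jb
  have h1 : (M / (1 + M * u x)) ^ 2 * (u x * w x) * (u x / (u x + w x + e)) =
      (M * u x / (1 + M * u x)) ^ 2 * (w x / (u x + w x + e)) := by
    field_simp
  rw [h1]
  have h2 : M * u x / (1 + M * u x) ≤ 1 := by rw [div_le_one hp]; linarith
  have h3 : 0 ≤ M * u x / (1 + M * u x) := by positivity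
  have h4 : w x / (u x + w x + e) ≤ 1 := by rw [div_le_one hq]; linarith
  have h5 : 0 ≤ w x / (u x + w x + e) := by positivity
  have h6 : (M * u x / (1 + M * u x)) ^ 2 ≤ 1 := pow_le_one₀ h3 h2
  exact mul_le_one₀ h6 h5 h4

omit [BorelSpace X] [CompactSpace X] in
lemma SecD.jb_ge (h : SecD cal C kap u w) {M e t : ℝ} (hM : 0 < M) (he : 0 < e) (heM : e ≤ 1 / M)
    (ht : 0 ≤ t) {x : X} (hx : 1 ≤ M * u x) (hG : cal.Gam (lg M u) x ≤ t) :
    1 / (2 + 4 * t) ≤ jb u w e x := by
  rw [h.Gam_lg hM.le x, h.Gam_u x] at hG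
  have hw := h.w_nonneg x
  have hp := h.pos hM.le x
  have hu : 0 < u x := by
    by_contra hcon
    have : M * u x ≤ 0 := mul_nonpos_of_nonneg_of_nonpos hM.le (not_lt.1 hcon)
    linarith
  have h1 : 1 / (2 * u x) ≤ M / (1 + M * u x) := by
    rw [div_le_div_iff₀ (by positivity) hp]
    nlinarith
  have h2 : (1 / (2 * u x)) ^ 2 * (u x * w x) ≤ t := by
    refine le_trans ?_ hG
    gcongr
  have h3 : (1 / (2 * u x)) ^ 2 * (u x * w x) = w x / (4 * u x) := by field_simp; ring
  rw [h3, div_le_iff₀ (by positivity)] at h2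
  have h4 : e ≤ u x := by
    refine heM.trans ?_
    rw [div_le_iff₀ hM]
    linarith [mul_comm M (u x)]
  unfold jb
  rw [div_le_div_iff₀ (by positivity) (by linarith)]
  nlinarith

/-- half of the ball has `b ≥ c`. -/
theorem SecD.half_mass [Nonempty X] (hS : Sp cal C) (h : SecD cal C kap u w) {y : X}
    {M e T K a r : ℝ} (hM : 0 < M) (he : 0 < e) (heM : e ≤ 1 / M) (hr : 0 < r)
    (hT0 : 4 * Real.log 2 ≤ T) (hTa : 16 * a ≤ T) (ha : 0 ≤ a)
    (hy : T / 2 ≤ lg M u y) (hosc : ⨍ x in closedBall y r, |lg M u x - lg M u y| ∂μ ≤ a)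
    (hG : ⨍ x in closedBall y r, cal.Gam (lg M u) x ∂μ ≤ K ^ 2) :
    μ.real (closedBall y r) ≤
      2 * μ.real {x | x ∈ closedBall y r ∧ 1 / (2 + 4 * (4 * K ^ 2 + 4)) ≤ jb u w e x} := by
  have hprob := hS.prob
  have hf := h.lg_mem hM.le
  have hcf := cal.cont _ hf
  have hcG := cal.contGam _ hf
  have hl2 : 0 < Real.log 2 := Real.log_pos (by norm_num)
  have hT : 0 < T := by linarith
  have h1 := frac_le_of_average (μ := μ) hS.dbl (g := fun x => |lg M u x - lg M u y|)
    (fun _ => abs_nonneg _) (y := y) (r := r) (t := T / 4) (M := a) hr (by positivity)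
    (integrable_of_continuous (by fun_prop)).integrableOn hosc
  have h2 := frac_le_of_average (μ := μ) hS.dbl (g := cal.Gam (lg M u))
    (cal.Gam_nonneg _ hf) (y := y) (r := r) (t := 4 * K ^ 2 + 4) (M := K ^ 2) hr (by positivity)
    (integrable_of_continuous hcG).integrableOn hG
  have h3 : a / (T / 4) ≤ 1 / 4 := by
    rw [div_le_iff₀ (by positivity)]; linarith
  have h4 : K ^ 2 / (4 * K ^ 2 + 4) ≤ 1 / 4 := by
    rw [div_le_iff₀ (by positivity)]; linarith [sq_nonneg K]
  have hpos : 0 ≤ μ.real (closedBall y r) := measureReal_nonneg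
  have hsub : closedBall y r ⊆
      ({x | x ∈ closedBall y r ∧ T / 4 ≤ |lg M u x - lg M u y|} ∪
        {x | x ∈ closedBall y r ∧ 4 * K ^ 2 + 4 ≤ cal.Gam (lg M u) x}) ∪
        {x | x ∈ closedBall y r ∧ 1 / (2 + 4 * (4 * K ^ 2 + 4)) ≤ jb u w e x} := by
    intro x hx
    by_cases hx1 : T / 4 ≤ |lg M u x - lg M u y|
    · exact Or.inl (Or.inl ⟨hx, hx1⟩)
    by_cases hx2 : 4 * K ^ 2 + 4 ≤ cal.Gam (lg M u) x
    · exact Or.inl (Or.inr ⟨hx, hx2⟩)
    refine Or.inr ⟨hx, ?_⟩
    have h5 := abs_lt.1 (not_le.1 hx1)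
    have h6 : Real.log 2 ≤ lg M u x := by linarith
    have h7 : 1 ≤ M * u x := by
      have h8 := Real.exp_le_exp.2 h6
      rw [Real.exp_log (by norm_num), lg, Real.exp_log (h.pos hM.le x)] at h8
      linarith
    exact h.jb_ge hM he heM (by positivity) h7 (not_le.1 hx2).le
  have h5 : μ.real (closedBall y r) ≤
      μ.real {x | x ∈ closedBall y r ∧ T / 4 ≤ |lg M u x - lg M u y|} +
        μ.real {x | x ∈ closedBall y r ∧ 4 * K ^ 2 + 4 ≤ cal.Gam (lg M u) x} +
        μ.real {x | x ∈ closedBall y r ∧ 1 / (2 + 4 * (4 * K ^ 2 + 4)) ≤ jb u w e x} :=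
    (measureReal_mono hsub).trans ((measureReal_union_le _ _).trans
      (by gcongr; exact measureReal_union_le _ _))
  have h6 : a / (T / 4) * μ.real (closedBall y r) ≤ 1 / 4 * μ.real (closedBall y r) := by gcongr
  have h7 : K ^ 2 / (4 * K ^ 2 + 4) * μ.real (closedBall y r) ≤ 1 / 4 * μ.real (closedBall y r) := by
    gcongr
  linarith

end

set_option maxHeartbeats 1600000 in
/-- **(T4)+(T5)**: two-sided bounds of `u` and the bound of `w` on `B(y,R)` at a good point. -/
theorem local45 (C : ℝ≥0) (K R : ℝ) (hK : 0 ≤ K) (hR : 0 < R) :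
    ∃ rho A T₀ kap₀ : ℝ, 0 < rho ∧ 0 < A ∧ 0 < kap₀ ∧
      ∀ (X : Type v) [PseudoMetricSpace X] [MeasurableSpace X] [BorelSpace X] [CompactSpace X]
        (μ : Measure X) (cal : Calc μ) (kap M e : ℝ) (u w : X → ℝ) (y : X),
        Sp cal C → SecD cal C kap u w → 0 ≤ kap → kap ≤ kap₀ → 0 < M → T₀ ≤ Real.log (1 + M) →
        Real.log (1 + M) / 2 ≤ lg M u y → 0 < e → e ≤ 1 / M → jb u w e ∈ cal.Sm →
        (∀ r, 0 < r → ⨍ x in closedBall y r, cal.Gam (lg M u) x ∂μ ≤ K ^ 2) →
        (∀ r, 0 < r → ⨍ x in closedBall y r, cal.Gam (jb u w e) x ∂μ ≤ K ^ 2 * kap) →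
        ∀ x ∈ closedBall y R, rho * u y ≤ u x ∧ u x ≤ A * u y ∧ w x ≤ A * u y := by
  have hC0 : (0 : ℝ) ≤ C := C.2
  set r : ℝ := 72 * R with hr
  have hr0 : 0 < r := by positivity
  set a : ℝ := (1 + 2 * C) * (C * K) * r with ha
  have ha0 : 0 ≤ a := by positivity
  set A₁ : ℝ := 2 * Real.exp (C * (Real.log 2 + a + 1)) with hA₁
  have hA₁0 : 0 < A₁ := by positivity
  set W : ℝ := 5 * C ^ 2 * A₁ / r ^ 2 with hW
  have hW0 : 0 ≤ W := by positivity
  set c : ℝ := 1 / (2 + 4 * (4 * K ^ 2 + 4)) with hc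
  have hc0 : 0 < c := by positivity
  obtain ⟨Lam, hLam0, hLam⟩ := Nh_790.no_hole_lip.{v} C C (K ^ 2 + 1) c R hC0 (by positivity) hc0 hR
  set B : ℝ := C * (Real.sqrt W / 2) with hB
  set c₁ : ℝ := Real.exp (-Lam) / 2 with hc₁
  have hc₁0 : 0 < c₁ := by positivity
  obtain ⟨δ, hδ0, hδ⟩ := hLam B (Real.sqrt c₁) (by positivity) (Real.sqrt_pos.2 hc₁0)
  refine ⟨c₁ / 8, A₁ + W, max (max (4 * Real.log 2) (16 * a)) (2 * Real.log (1 + 2 * Real.exp Lam)),
    min (1 / ((C + 1) * r ^ 2)) (δ ^ 2 / (K ^ 2 + 1)), by positivity, by positivity, by positivity,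
    ?_⟩
  intro X _ _ _ _ μ cal kap M e u w y hS h hk hkap hM hT hy he heM hb hG hGb
  have hprob := hS.prob
  have : Nonempty X := ⟨y⟩
  have hC1 := hS.one_le
  set T := Real.log (1 + M) with hTdef
  have hT1 : 4 * Real.log 2 ≤ T := (le_max_left _ _).trans ((le_max_left _ _).trans hT)
  have hT2 : 16 * a ≤ T := (le_max_right _ _).trans ((le_max_left _ _).trans hT)
  have hT3 : 2 * Real.log (1 + 2 * Real.exp Lam) ≤ T := (le_max_right _ _).trans hT
  have hk1 : kap ≤ 1 / ((C + 1) * r ^ 2) := hkap.trans (min_le_left _ _)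
  have hk2 : kap ≤ δ ^ 2 / (K ^ 2 + 1) := hkap.trans (min_le_right _ _)
  have hkr : (C + 1) * (kap * r ^ 2) ≤ 1 := by
    rw [le_div_iff₀ (by positivity)] at hk1
    linarith
  have hkr0 : 0 ≤ kap * r ^ 2 := by positivity
  have hkrC : 0 ≤ C * (kap * r ^ 2) := by positivity
  have hkre : (C + 1) * (kap * r ^ 2) = C * (kap * r ^ 2) + kap * r ^ 2 := by ring
  have hkr1 : kap * r ^ 2 ≤ 1 := by linarith
  have hkr2 : C * kap * r ^ 2 ≤ 1 := by rw [mul_assoc]; linarith
  have hf := h.lg_mem hM.le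
  have hcf := cal.cont _ hf
  -- `M u(y) ≥ 2 e^Λ`
  have hMy : 2 * Real.exp Lam ≤ M * u y := by
    have h1 : Real.log (1 + 2 * Real.exp Lam) ≤ Real.log (1 + M * u y) := by
      have : T / 2 ≤ Real.log (1 + M * u y) := hy
      linarith
    have h2 := (Real.log_le_log_iff (by positivity) (h.pos hM.le y)).1 h1
    linarith
  have hexp : 1 ≤ Real.exp Lam := Real.one_le_exp hLam0
  have hMy1 : 1 ≤ M * u y := by linarith
  have huy : 0 < u y := by
    by_contra hcon
    have : M * u y ≤ 0 := mul_nonpos_of_nonneg_of_nonpos hM.le (not_lt.1 hcon)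
    linarith
  -- (T4)
  have hosc : ∀ s, 0 < s → ⨍ x in closedBall y s, |lg M u x - lg M u y| ∂μ ≤
      (1 + 2 * C) * (C * K) * s := fun s hs => osc_le hS hf hK hG hs
  have hsup := sup_le hS hf hk hr0 hkr1 (fun x => h.Lap_lg_ge hM.le hk x) (hosc r hr0)
  have hu : ∀ x ∈ closedBall y (r / 2), u x ≤ A₁ * u y := fun x hx =>
    h.u_le hM (hsup x hx) hMy1
  have hw : ∀ x ∈ closedBall y (r / 8), w x ≤ W * u y :=
    h.w_le hS hk hr0 hkr2 hA₁0.le hu
  -- Lipschitz function
  set ε : ℝ := c₁ / 8 * u y with hε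
  have hε0 : 0 < ε := by positivity
  have hsq : Real.sqrt (W * u y) ^ 2 = W * u y := Real.sq_sqrt (by positivity)
  have hlip := h.lip hS (y := y) (r := r / 8) (W := Real.sqrt (W * u y)) (ε := ε) (by positivity)
    (Real.sqrt_nonneg _) hε0 (fun x hx => by rw [hsq]; exact hw x hx)
  have hsy : 0 < Real.sqrt (u y) := Real.sqrt_pos.2 huy
  set S : X → ℝ := fun x => Real.sqrt (u x + ε) / Real.sqrt (u y) with hSdef
  have hSlip : ∀ p ∈ closedBall y (3 * R), ∀ q ∈ closedBall y (3 * R),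
      |S p - S q| ≤ B * dist p q := by
    intro p hp q hq
    have h3 : r / 8 / 3 = 3 * R := by rw [hr]; ring
    have h1 := hlip p (by rwa [h3]) q (by rwa [h3])
    have h2 : S p - S q = (Real.sqrt (u p + ε) - Real.sqrt (u q + ε)) / Real.sqrt (u y) := by
      rw [hSdef]; ring
    rw [h2, abs_div, abs_of_pos hsy, div_le_iff₀ hsy]
    calc _ ≤ C * (Real.sqrt (W * u y) / 2) * dist p q := h1
      _ = B * dist p q * Real.sqrt (u y) := by
          rw [hB, Real.sqrt_mul hW0]; ring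
  have hSf : ∀ x ∈ closedBall y (3 * R), lg M u y - Lam ≤ lg M u x → Real.sqrt c₁ ≤ S x := by
    intro x _ hx
    have h1 : Real.exp (-Lam) * (1 + M * u y) ≤ 1 + M * u x := by
      have h2 : Real.log (1 + M * u y) + -Lam ≤ Real.log (1 + M * u x) := by
        have : Real.log (1 + M * u y) - Lam ≤ Real.log (1 + M * u x) := hx
        linarith
      have h3 := Real.exp_le_exp.2 h2
      rw [Real.exp_add, Real.exp_log (h.pos hM.le y), Real.exp_log (h.pos hM.le x)] at h3
      linarith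
    have h4 : Real.exp (-Lam) * Real.exp Lam = 1 := by rw [← Real.exp_add]; simp
    have h5 : 2 ≤ Real.exp (-Lam) * (M * u y) := by
      calc (2 : ℝ) = 2 * (Real.exp (-Lam) * Real.exp Lam) := by rw [h4]; ring
        _ = Real.exp (-Lam) * (2 * Real.exp Lam) := by ring
        _ ≤ _ := by gcongr
    have h6 : c₁ * u y ≤ u x := by
      have h7 : M * (c₁ * u y) ≤ M * u x := by
        have h8 : M * (c₁ * u y) = Real.exp (-Lam) * (M * u y) / 2 := by rw [hc₁]; ring
        have h9 : Real.exp (-Lam) ≤ 1 := Real.exp_le_one_iff.2 (by linarith)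
        rw [h8]
        have h10 : Real.exp (-Lam) * (1 + M * u y) =
          Real.exp (-Lam) + Real.exp (-Lam) * (M * u y) := by ring
        have h11 := Real.exp_pos (-Lam)
        linarith
      exact le_of_mul_le_mul_left h7 hM
    rw [hSdef]
    show Real.sqrt c₁ ≤ Real.sqrt (u x + ε) / Real.sqrt (u y)
    rw [le_div_iff₀ hsy, ← Real.sqrt_mul hc₁0.le]
    exact Real.sqrt_le_sqrt (by linarith)
  -- no hole
  have hK2 : K ≤ K ^ 2 + 1 := by nlinarith [sq_nonneg (K - 1)]
  have hGs : ∀ x, Real.sqrt (cal.Gam (lg M u) x) ^ 2 = cal.Gam (lg M u) x := fun x =>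
    Real.sq_sqrt (cal.Gam_nonneg _ hf x)
  have hcG := cal.contGam _ hf
  have hcb := cal.cont _ hb
  have hcGb := cal.contGam _ hb
  have hfin := hδ X μ hS.dbl y (lg M u) (fun x => Real.sqrt (cal.Gam (lg M u) x)) (jb u w e)
    (fun x => Real.sqrt (cal.Gam (jb u w e) x)) S hcf (by fun_prop) hcb (by fun_prop)
    (fun x => Real.sqrt_nonneg _) (hS.POI _ hf) (hS.POI _ hb)
    (fun x _ => by
      show Real.sqrt (cal.Gam (lg M u) x) ^ 2 * jb u w e x ≤ 4
      rw [hGs]
      exact (h.Gam_mul_jb_le hM.le he x).trans (by norm_num))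
    (fun s hs _ => by
      have h1 := average_sqrt_le (μ := μ) (A := closedBall y s) (hS.dbl.real_pos y hs)
        (cal.Gam_nonneg _ hf) hcG
      have h2 : Real.sqrt (⨍ x in closedBall y s, cal.Gam (lg M u) x ∂μ) ≤ K := by
        rw [← Real.sqrt_sq hK]
        exact Real.sqrt_le_sqrt (hG s hs)
      exact h1.trans (h2.trans hK2))
    (by
      simp_rw [hGs]
      exact (hG _ (by positivity)).trans (by linarith))
    (by
      refine h.half_mass hS hM he heM (by positivity) hT1 ?_ (by positivity) hy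
        (hosc (8 * R) (by positivity)) (hG _ (by positivity))
      have h1 : (1 + 2 * C) * (C * K) * (8 * R) ≤ a := by
        rw [ha, hr]
        gcongr
        norm_num
      linarith)
    (by
      have h1 := average_sqrt_le (μ := μ) (A := closedBall y (16 * R))
        (hS.dbl.real_pos y (by positivity)) (cal.Gam_nonneg _ hb) hcGb
      have h2 : Real.sqrt (⨍ x in closedBall y (16 * R), cal.Gam (jb u w e) x ∂μ) ≤ δ := by
        rw [← Real.sqrt_sq hδ0.le]
        refine Real.sqrt_le_sqrt ((hGb _ (by positivity)).trans ?_)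
        rw [le_div_iff₀ (by positivity)] at hk2
        have h5 : kap * (K ^ 2 + 1) = K ^ 2 * kap + kap := by ring
        linarith
      exact h1.trans h2)
    hSlip hSf
  intro x hx
  have hxR : x ∈ closedBall y (2 * R) := closedBall_subset_closedBall (by linarith) hx
  have hx2 : x ∈ closedBall y (r / 2) := closedBall_subset_closedBall (by rw [hr]; linarith) hx
  have hx8 : x ∈ closedBall y (r / 8) := closedBall_subset_closedBall (by rw [hr]; linarith) hx
  have h1 := hfin x hxR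
  refine ⟨?_, (hu x hx2).trans ?_, (hw x hx8).trans ?_⟩
  · have h2 : Real.sqrt c₁ / 2 * Real.sqrt (u y) ≤ Real.sqrt (u x + ε) := by
      have : Real.sqrt c₁ / 2 ≤ Real.sqrt (u x + ε) / Real.sqrt (u y) := h1
      rwa [le_div_iff₀ hsy] at this
    have h3 : (Real.sqrt c₁ / 2 * Real.sqrt (u y)) ^ 2 ≤ u x + ε := by
      rw [← Real.sq_sqrt (show 0 ≤ u x + ε by have := h.u_nonneg x; linarith)]
      gcongr
    rw [mul_pow, div_pow, Real.sq_sqrt hc₁0.le, Real.sq_sqrt huy.le] at h3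
    have h4 : c₁ / 2 ^ 2 * u y = 2 * (c₁ / 8 * u y) := by ring
    rw [h4] at h3
    linarith
  · have h5 : 0 ≤ W * u y := by positivity
    rw [add_mul]; linarith
  · have h5 : 0 ≤ A₁ * u y := by positivity
    rw [add_mul]; linarith

end Crest.Agent.R281.St_405
end

-- ▼ part R281/St5_405
section

/-! Row 281, S-T25 (helper405), part 5: the theorem T25 = (T2)-(T5) of Theorem S. -/

set_option autoImplicit false
open MeasureTheory Metric Set Filter Topology
open scoped ENNReal NNReal ContDiff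

namespace Crest.Agent.R281.St_405
open Crest.Agent.R281.Mx_405

universe v

/-- Conclusion at a good point, for one section: level, two-sided bounds, energy on all scales,
oscillation on all scales. -/
structure GoodAt {X : Type v} [PseudoMetricSpace X] [MeasurableSpace X] {μ : Measure X}
    (cal : Calc μ) (C : ℝ≥0) (M K R rho A : ℝ) (u w : X → ℝ) (y : X) : Prop where
  level : 1 / M ≤ u y
  lower : ∀ x ∈ closedBall y R, rho * u y ≤ u x
  upper : ∀ x ∈ closedBall y R, u x ≤ A * u y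
  grad : ∀ x ∈ closedBall y R, w x ≤ A * u y
  energy : ∀ r, 0 < r → ⨍ x in closedBall y r, cal.Gam (lg M u) x ∂μ ≤ K ^ 2
  osc : ∀ r, 0 < r → ⨍ x in closedBall y r, |lg M u x - lg M u y| ∂μ ≤ (1 + 2 * C) * (C * K) * r
  half : Real.log (1 + M) / 2 ≤ lg M u y
  one_le : ∀ x ∈ closedBall y R, 1 ≤ M * u x

section
variable {X : Type v} [PseudoMetricSpace X] [MeasurableSpace X] [BorelSpace X] [CompactSpace X]
  {μ : Measure X} {cal : Calc μ} {C : ℝ≥0}

/-- Markov bound for the maximal function of a continuous `g ≥ 0`, real form. -/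
theorem meas_avg_bad (hS : Sp cal C) {g : X → ℝ} (hg : ∀ x, 0 ≤ g x) (hc : Continuous g)
    {c K₁ : ℝ} (hc0 : 0 < c) (hK₁ : 0 < K₁) (hint : ∫ x, g x ∂μ ≤ c) :
    μ {y | ¬ ∀ r, 0 < r → ⨍ x in closedBall y r, g x ∂μ ≤ K₁ * c} ≤
      ENNReal.ofReal ((C : ℝ) ^ 2 / K₁) := by
  have hprob := hS.prob
  have h1 : ∫⁻ x, ENNReal.ofReal (g x) ∂μ ≤ ENNReal.ofReal c := by
    rw [← ofReal_integral_eq_lintegral_ofReal (integrable_of_continuous hc) (ae_of_all _ hg)]
    exact ENNReal.ofReal_le_ofReal hint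
  have h2 := meas_bad_le hS.dbl (fun x => ENNReal.ofReal (g x)) (ENNReal.ofReal c)
    (ENNReal.ofReal K₁) (by simpa using hc0) ENNReal.ofReal_ne_top (by simpa using hK₁)
    ENNReal.ofReal_ne_top h1
  refine (measure_mono fun y hy => ?_).trans (h2.trans ?_)
  · show ENNReal.ofReal K₁ * ENNReal.ofReal c < Mx μ (fun x => ENNReal.ofReal (g x)) y
    by_contra hcon
    refine hy fun r hr => ?_
    refine setAverage_le_of_Mx hS.dbl hg (by positivity) hr ?_
    rw [ENNReal.ofReal_mul hK₁.le]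
    exact not_lt.1 hcon
  · rw [ENNReal.ofReal_div_of_pos hK₁, ENNReal.ofReal_pow (NNReal.coe_nonneg C),
      ENNReal.ofReal_coe_nnreal]

end

/-- numeric part of the low set bound -/
theorem low_num {C C1 kap0 Lam L T kap η' E : ℝ} (hC0 : 0 ≤ C) (hC1 : 0 < C1) (hkap0 : 0 < kap0)
    (hLam1 : 1 ≤ Lam) (hL2 : 2 ≤ L) (hkap : kap = kap0 / L) (hT1 : Lam * L ≤ T)
    (hkT : kap * T ≤ kap0 * (Lam + 1))
    (hE : E = 2 * C * (1 + C * C1 * Real.sqrt (2 * kap0) + kap0 * C1 ^ 2))
    (hη'0 : 0 < η') (hEL : (E / η') ^ 2 ≤ Lam) :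
    2 / T * (C * (Real.log 2 + C * (C1 * L) * Real.sqrt (kap * T) + kap * (C1 * L) ^ 2)) ≤ η' := by
  have hL0 : 0 < L := by linarith
  have hLam0 : 0 < Lam := by linarith
  have hl2 : Real.log 2 ≤ 1 := by have := Real.log_two_lt_d9; linarith
  have hl20 : 0 ≤ Real.log 2 := Real.log_nonneg (by norm_num)
  have hkap00 : 0 < kap := by rw [hkap]; positivity
  have h2 : Real.sqrt (kap * T) ≤ Real.sqrt (2 * kap0) * Real.sqrt Lam := by
    rw [← Real.sqrt_mul (by positivity)]
    refine Real.sqrt_le_sqrt (hkT.trans ?_)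
    nlinarith
  have hsL1 : 1 ≤ Real.sqrt Lam := by rw [Real.one_le_sqrt]; exact hLam1
  have hs0 : 0 ≤ Real.sqrt (2 * kap0) := Real.sqrt_nonneg _
  have h3 : Real.log 2 + C * (C1 * L) * Real.sqrt (kap * T) + kap * (C1 * L) ^ 2 ≤
      (1 + C * C1 * Real.sqrt (2 * kap0) + kap0 * C1 ^ 2) * Real.sqrt Lam * L := by
    have h4 : kap * (C1 * L) ^ 2 = kap0 * C1 ^ 2 * L := by rw [hkap]; field_simp
    have h5 : C * (C1 * L) * Real.sqrt (kap * T) ≤
        C * (C1 * L) * (Real.sqrt (2 * kap0) * Real.sqrt Lam) := by gcongr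
    have h6 : Real.log 2 ≤ Real.sqrt Lam * L := by
      calc Real.log 2 ≤ 1 := hl2
        _ ≤ 1 * L := by linarith
        _ ≤ Real.sqrt Lam * L := by gcongr
    have h7 : kap0 * C1 ^ 2 * L ≤ kap0 * C1 ^ 2 * L * Real.sqrt Lam :=
      le_mul_of_one_le_right (by positivity) hsL1
    rw [h4]
    calc _ ≤ Real.sqrt Lam * L + C * (C1 * L) * (Real.sqrt (2 * kap0) * Real.sqrt Lam) +
          kap0 * C1 ^ 2 * L * Real.sqrt Lam := by linarith
      _ = _ := by ring
  have hsL : 0 < Real.sqrt Lam := by linarith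
  have h8 : 2 / T * (C * (Real.log 2 + C * (C1 * L) * Real.sqrt (kap * T) + kap * (C1 * L) ^ 2)) ≤
      E / Real.sqrt Lam := by
    have h9 : 2 / T ≤ 2 / (Lam * L) := by gcongr
    have h10 : 0 ≤ C * (Real.log 2 + C * (C1 * L) * Real.sqrt (kap * T) + kap * (C1 * L) ^ 2) := by
      positivity
    calc _ ≤ 2 / (Lam * L) * (C * ((1 + C * C1 * Real.sqrt (2 * kap0) + kap0 * C1 ^ 2) *
          Real.sqrt Lam * L)) := by gcongr
      _ = E * (Real.sqrt Lam / Lam) := by rw [hE]; field_simp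
      _ = E / Real.sqrt Lam := by
          have : Real.sqrt Lam / Lam = 1 / Real.sqrt Lam := by
            rw [div_eq_div_iff hLam0.ne' hsL.ne', one_mul, Real.mul_self_sqrt hLam0.le]
          rw [this]; ring
  refine h8.trans ?_
  rw [div_le_iff₀ hsL]
  have h10 : E / η' ≤ Real.sqrt Lam := Real.le_sqrt_of_sq_le hEL
  rw [div_le_iff₀ hη'0] at h10
  linarith [mul_comm (Real.sqrt Lam) η']

/-- from `half` and the lower bound to `1 ≤ M u x` -/
theorem one_le_num {M uy ux rho : ℝ} (hM : 0 < M) (huy : 0 ≤ uy) (hrho : 0 < rho)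
    (hM2 : (1 + 1 / rho) ^ 2 ≤ M) (hh : Real.log (1 + M) / 2 ≤ Real.log (1 + M * uy))
    (hx : rho * uy ≤ ux) : 1 ≤ M * ux := by
  have h1 : Real.log (1 + M) ≤ Real.log ((1 + M * uy) ^ 2) := by
    rw [Real.log_pow]; push_cast; linarith
  have hp : 0 < 1 + M * uy := by positivity
  have h2 : 1 + M ≤ (1 + M * uy) ^ 2 :=
    (Real.log_le_log_iff (by positivity) (by positivity)).1 h1
  have h3 : (1 + 1 / rho) ^ 2 ≤ (1 + M * uy) ^ 2 := by linarith
  have h4 : 1 + 1 / rho ≤ 1 + M * uy := le_of_sq_le_sq h3 hp.le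
  have h5 : 1 / rho ≤ M * uy := by linarith
  rw [div_le_iff₀ hrho] at h5
  calc (1 : ℝ) ≤ M * uy * rho := h5
    _ = M * (rho * uy) := by ring
    _ ≤ _ := by gcongr

set_option maxHeartbeats 1600000 in
/-- **T25**: (T2)-(T5) of Theorem S as one abstract theorem. -/
theorem T25 (C : ℝ≥0) (kap0 C1 : ℝ) (hkap0 : 0 < kap0) (hC1 : 0 < C1) (n : ℕ) (η : ℝ)
    (hη : 0 < η) :
    ∃ Lam K : ℝ, 0 < Lam ∧ 0 < K ∧ ∀ R : ℝ, 0 < R → ∃ rho A L₀ : ℝ, 0 < rho ∧ 0 < A ∧ 0 < L₀ ∧
      ∀ (X : Type v) [PseudoMetricSpace X] [MeasurableSpace X] [BorelSpace X] [CompactSpace X]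
        (μ : Measure X) (cal : Calc μ) (_ : Sp cal C) (L : ℝ) (_ : L₀ ≤ L)
        (_ : ∀ x y : X, dist x y ≤ C1 * L) (ι : Type) [Fintype ι] (_ : Fintype.card ι ≤ n)
        (u w : ι → X → ℝ) (_ : ∀ i, SecD cal C (kap0 / L) (u i) (w i))
        (_ : ∀ i, (∀ x, u i x ≤ 1) ∧ ∃ p, u i p = 1),
        μ {y | ¬ ∀ i, GoodAt cal C (Real.exp (Lam * L)) K R rho A (u i) (w i) y} ≤
          ENNReal.ofReal η := by
  have hC0 : (0 : ℝ) ≤ C := C.2
  have hn0 : (0 : ℝ) ≤ n := Nat.cast_nonneg n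
  -- constants
  set η' : ℝ := η / (2 * (n + 1)) with hη'
  have hη'0 : 0 < η' := by positivity
  set E : ℝ := 2 * C * (1 + C * C1 * Real.sqrt (2 * kap0) + kap0 * C1 ^ 2) with hE
  have hE0 : 0 ≤ E := by positivity
  set Lam : ℝ := 1 + (E / η') ^ 2 with hLam
  have hLam1 : 1 ≤ Lam := by have := sq_nonneg (E / η'); linarith
  have hLam0 : 0 < Lam := by linarith
  set c₁ : ℝ := kap0 * (Lam + 1) with hc₁
  have hc₁0 : 0 < c₁ := by positivity
  set K₁ : ℝ := 4 * (n + 1) * (C ^ 2 + 1) / η with hK₁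
  have hK₁0 : 0 < K₁ := by positivity
  set K : ℝ := K₁ * (c₁ + C) + 1 with hK
  have hKC : 0 ≤ K₁ * (c₁ + C) := by positivity
  have hK0 : 0 < K := by linarith
  have hK2 : K₁ * (c₁ + C) ≤ K ^ 2 := by nlinarith
  have hK2a : K₁ * c₁ ≤ K ^ 2 := by
    have : K₁ * c₁ ≤ K₁ * (c₁ + C) := by gcongr; linarith
    linarith
  have hK2b : K₁ * C ≤ K ^ 2 := by
    have : K₁ * C ≤ K₁ * (c₁ + C) := by gcongr; linarith
    linarith
  refine ⟨Lam, K, hLam0, hK0, fun R hR => ?_⟩
  obtain ⟨rho, A, T₀, kk, hrho, hA, hkk, hloc⟩ := local45.{v} C K R hK0.le hR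
  refine ⟨rho, A, max (max (max 2 ((1 + 1 / rho) ^ 2)) (kap0 / kk)) (T₀ / Lam), hrho, hA,
    by positivity, ?_⟩
  intro X _ _ _ _ μ cal hS L hL hdiam ι _ hcard u w hsec hnorm
  have hprob := hS.prob
  have hL2 : 2 ≤ L :=
    (le_max_left _ _).trans ((le_max_left _ _).trans ((le_max_left _ _).trans hL))
  have hLr : (1 + 1 / rho) ^ 2 ≤ L :=
    (le_max_right _ _).trans ((le_max_left _ _).trans ((le_max_left _ _).trans hL))
  have hLk : kap0 / kk ≤ L := (le_max_right _ _).trans ((le_max_left _ _).trans hL)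
  have hLT : T₀ / Lam ≤ L := (le_max_right _ _).trans hL
  have hL0 : 0 < L := by linarith
  by_cases hX : IsEmpty X
  · have : {y : X | ¬ ∀ i, GoodAt cal C (Real.exp (Lam * L)) K R rho A (u i) (w i) y} = ∅ :=
      eq_empty_of_forall_notMem fun y => (hX.false y).elim
    rw [this, measure_empty]; exact bot_le
  have : Nonempty X := not_isEmpty_iff.1 hX
  have hC1' := hS.one_le
  set kap : ℝ := kap0 / L with hkap
  have hkap00 : 0 < kap := by positivity
  have hkk1 : kap ≤ kk := by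
    rw [hkap, div_le_iff₀ hL0]
    rw [div_le_iff₀ hkk] at hLk
    linarith [mul_comm L kk]
  set M : ℝ := Real.exp (Lam * L) with hM
  have hM0 : 0 < M := Real.exp_pos _
  set T : ℝ := Real.log (1 + M) with hT
  have hT1 : Lam * L ≤ T := by
    have : Real.log (Real.exp (Lam * L)) ≤ Real.log (1 + M) :=
      Real.log_le_log (Real.exp_pos _) (by linarith)
    rwa [Real.log_exp] at this
  have hLL : 1 ≤ Lam * L := by nlinarith
  have hT0 : 0 < T := by linarith
  have hl2 : Real.log 2 ≤ 1 := by have := Real.log_two_lt_d9; linarith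
  have hMr : (1 + 1 / rho) ^ 2 ≤ M := by
    have h1 := Real.add_one_le_exp (Lam * L)
    have h2 : L ≤ Lam * L := le_mul_of_one_le_left hL0.le hLam1
    linarith
  have hT2 : T ≤ Lam * L + 1 := by
    have h1 : 1 + M ≤ 2 * M := by
      have : 1 ≤ M := Real.one_le_exp (by positivity)
      linarith
    have h2 : T ≤ Real.log (2 * M) := Real.log_le_log (by positivity) h1
    rw [Real.log_mul (by norm_num) hM0.ne', Real.log_exp] at h2
    linarith
  have hT₀ : T₀ ≤ T := by
    rw [div_le_iff₀ hLam0] at hLT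
    linarith [mul_comm L Lam]
  have hkT : kap * T ≤ kap0 * (Lam + 1) := by
    have h1 : kap * T ≤ kap * (Lam * L + 1) := by gcongr
    have h2 : kap * (Lam * L + 1) = kap0 * Lam + kap0 / L := by rw [hkap]; field_simp
    have h3 : kap0 / L ≤ kap0 := div_le_self hkap0.le (by linarith)
    linarith
  -- the function f
  have hfm : ∀ i, lg M (u i) ∈ cal.Sm := fun i => (hsec i).lg_mem hM0.le
  have hf0 : ∀ i x, 0 ≤ lg M (u i) x := fun i x =>
    Real.log_nonneg (by have := mul_nonneg hM0.le ((hsec i).u_nonneg x); linarith)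
  have hfT : ∀ i x, lg M (u i) x ≤ T := fun i x => by
    have h1 := (hnorm i).1 x
    refine Real.log_le_log ((hsec i).pos hM0.le x) ?_
    have : M * u i x ≤ M * 1 := by gcongr
    linarith
  have hfp : ∀ i, ∃ p, lg M (u i) p = T := fun i => by
    obtain ⟨p, hp⟩ := (hnorm i).2
    refine ⟨p, ?_⟩
    show Real.log (1 + M * u i p) = T
    rw [hp, mul_one]
  have hLf : ∀ i x, - kap ≤ cal.Lap (lg M (u i)) x := fun i x =>
    (hsec i).Lap_lg_ge hM0.le hkap00.le x
  -- low set
  have hlow : ∀ i, μ {x | lg M (u i) x < T / 2} ≤ ENNReal.ofReal η' := by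
    intro i
    obtain ⟨p, hp⟩ := hfp i
    have h1 := meas_low_le hS (hfm i) (hf0 i) hkap00.le (show 0 < C1 * L by positivity) hT0 hdiam
      (hLf i) (hfT i) p hp
    have h8 := low_num hC0 hC1 hkap0 hLam1 hL2 hkap hT1 hkT hE hη'0 (by rw [hLam]; linarith)
    have h10 : μ.real {x | lg M (u i) x < T / 2} ≤ η' := h1.trans h8
    rw [← ofReal_measureReal (measure_ne_top μ _)]
    exact ENNReal.ofReal_le_ofReal h10
  -- energies
  have hen : ∀ i, ∫ x, cal.Gam (lg M (u i)) x ∂μ ≤ c₁ := fun i => by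
    have h1 := energy_le (μ := μ) (hfm i) (hf0 i) (hLf i)
    have h2 : ∫ x, lg M (u i) x ∂μ ≤ T := by
      have : ∫ x, lg M (u i) x ∂μ ≤ ∫ _x : X, T ∂μ :=
        integral_mono (integrable_of_continuous (cal.cont _ (hfm i))) (integrable_const _) (hfT i)
      simpa using this
    have h3 : kap * ∫ x, lg M (u i) x ∂μ ≤ kap * T := by gcongr
    linarith
  choose e he0 heM hbm hbE using fun i => (hsec i).jet (1 / M) (by positivity)
  have hbad1 : ∀ i, μ {y | ¬ ∀ r, 0 < r → ⨍ x in closedBall y r, cal.Gam (lg M (u i)) x ∂μ ≤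
      K₁ * c₁} ≤ ENNReal.ofReal ((C : ℝ) ^ 2 / K₁) := fun i =>
    meas_avg_bad hS (cal.Gam_nonneg _ (hfm i)) (cal.contGam _ (hfm i)) hc₁0 hK₁0 (hen i)
  have hbad2 : ∀ i, μ {y | ¬ ∀ r, 0 < r → ⨍ x in closedBall y r,
      cal.Gam (jb (u i) (w i) (e i)) x ∂μ ≤ K₁ * (C * kap)} ≤ ENNReal.ofReal ((C : ℝ) ^ 2 / K₁) :=
    fun i => meas_avg_bad hS (cal.Gam_nonneg _ (hbm i)) (cal.contGam _ (hbm i))
      (by positivity) hK₁0 (hbE i)
  -- inclusion
  have hsub : {y | ¬ ∀ i, GoodAt cal C M K R rho A (u i) (w i) y} ⊆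
      ⋃ i, ({x | lg M (u i) x < T / 2} ∪
        ({y | ¬ ∀ r, 0 < r → ⨍ x in closedBall y r, cal.Gam (lg M (u i)) x ∂μ ≤ K₁ * c₁} ∪
          {y | ¬ ∀ r, 0 < r → ⨍ x in closedBall y r,
            cal.Gam (jb (u i) (w i) (e i)) x ∂μ ≤ K₁ * (C * kap)})) := by
    intro y hy
    by_contra hcon
    refine hy fun i => ?_
    have hcon' : ∀ i, y ∉ ({x | lg M (u i) x < T / 2} ∪
        ({y | ¬ ∀ r, 0 < r → ⨍ x in closedBall y r, cal.Gam (lg M (u i)) x ∂μ ≤ K₁ * c₁} ∪
          {y | ¬ ∀ r, 0 < r → ⨍ x in closedBall y r,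
            cal.Gam (jb (u i) (w i) (e i)) x ∂μ ≤ K₁ * (C * kap)})) := fun i hi =>
      hcon (mem_iUnion.2 ⟨i, hi⟩)
    have h1 : T / 2 ≤ lg M (u i) y := not_lt.1 fun h => hcon' i (Or.inl h)
    have h2 : ∀ r, 0 < r → ⨍ x in closedBall y r, cal.Gam (lg M (u i)) x ∂μ ≤ K ^ 2 := by
      intro r hr
      by_contra h
      refine hcon' i (Or.inr (Or.inl fun h' => h ((h' r hr).trans hK2a)))
    have h3 : ∀ r, 0 < r → ⨍ x in closedBall y r, cal.Gam (jb (u i) (w i) (e i)) x ∂μ ≤
        K ^ 2 * kap := by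
      intro r hr
      by_contra h
      refine hcon' i (Or.inr (Or.inr fun h' => h ((h' r hr).trans ?_)))
      calc K₁ * (C * kap) = (K₁ * C) * kap := by ring
        _ ≤ K ^ 2 * kap := by gcongr
    have h4 := hloc X μ cal kap M (e i) (u i) (w i) y hS (hsec i) hkap00.le hkk1 hM0 hT₀ h1
      (he0 i) (heM i) (hbm i) h2 h3
    refine ⟨?_, fun x hx => (h4 x hx).1, fun x hx => (h4 x hx).2.1, fun x hx => (h4 x hx).2.2,
      h2, fun r hr => osc_le hS (hfm i) hK0.le h2 hr, h1, fun x hx =>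
      one_le_num hM0 ((hsec i).u_nonneg y) hrho hMr h1 (h4 x hx).1⟩
    -- level
    have h5 : Real.log 2 ≤ lg M (u i) y := by
      have h6 : Real.log 4 ≤ T := by
        refine Real.log_le_log (by norm_num) ?_
        have h7 : Real.exp 2 ≤ M := Real.exp_le_exp.2 (by nlinarith)
        have h8 : (3 : ℝ) ≤ Real.exp 2 := by have := Real.add_one_le_exp (2 : ℝ); linarith
        linarith
      have h7 : Real.log 4 = 2 * Real.log 2 := by
        rw [show (4 : ℝ) = 2 ^ 2 by norm_num, Real.log_pow]; norm_num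
      linarith
    have h6 := Real.exp_le_exp.2 h5
    rw [Real.exp_log (by norm_num), lg, Real.exp_log ((hsec i).pos hM0.le y)] at h6
    rw [div_le_iff₀ hM0]
    linarith [mul_comm M (u i y)]
  refine (measure_mono hsub).trans ?_
  have hone : ∀ i, μ ({x | lg M (u i) x < T / 2} ∪
        ({y | ¬ ∀ r, 0 < r → ⨍ x in closedBall y r, cal.Gam (lg M (u i)) x ∂μ ≤ K₁ * c₁} ∪
          {y | ¬ ∀ r, 0 < r → ⨍ x in closedBall y r,
            cal.Gam (jb (u i) (w i) (e i)) x ∂μ ≤ K₁ * (C * kap)})) ≤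
      ENNReal.ofReal (η / (n + 1)) := by
    intro i
    have h1 : η' + ((C : ℝ) ^ 2 / K₁ + (C : ℝ) ^ 2 / K₁) ≤ η / (n + 1) := by
      have h2 : (C : ℝ) ^ 2 / K₁ ≤ η / (4 * (n + 1)) := by
        rw [hK₁, div_div_eq_mul_div, div_le_div_iff₀ (by positivity) (by positivity)]
        nlinarith [show 0 ≤ η * (4 * ((n : ℝ) + 1)) by positivity]
      have h3 : η / (2 * (n + 1)) + (η / (4 * (n + 1)) + η / (4 * (n + 1))) = η / ((n : ℝ) + 1) := by
        field_simp
        ring
      rw [hη']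
      linarith
    refine (measure_union_le _ _).trans ?_
    calc _ ≤ ENNReal.ofReal η' + (ENNReal.ofReal ((C : ℝ) ^ 2 / K₁) +
          ENNReal.ofReal ((C : ℝ) ^ 2 / K₁)) := by
          gcongr
          · exact hlow i
          · refine (measure_union_le _ _).trans ?_
            gcongr
            · exact hbad1 i
            · exact hbad2 i
      _ = ENNReal.ofReal (η' + ((C : ℝ) ^ 2 / K₁ + (C : ℝ) ^ 2 / K₁)) := by
          rw [ENNReal.ofReal_add hη'0.le (by positivity),
            ENNReal.ofReal_add (by positivity) (by positivity)]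
      _ ≤ _ := ENNReal.ofReal_le_ofReal h1
  calc μ (⋃ i, _) ≤ ∑ i, μ ({x | lg M (u i) x < T / 2} ∪
        ({y | ¬ ∀ r, 0 < r → ⨍ x in closedBall y r, cal.Gam (lg M (u i)) x ∂μ ≤ K₁ * c₁} ∪
          {y | ¬ ∀ r, 0 < r → ⨍ x in closedBall y r,
            cal.Gam (jb (u i) (w i) (e i)) x ∂μ ≤ K₁ * (C * kap)})) := measure_iUnion_fintype_le _ _
    _ ≤ ∑ _i : ι, ENNReal.ofReal (η / (n + 1)) := Finset.sum_le_sum fun i _ => hone i
    _ = Fintype.card ι * ENNReal.ofReal (η / (n + 1)) := by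
        rw [Finset.sum_const, Finset.card_univ, nsmul_eq_mul]
    _ = ENNReal.ofReal (Fintype.card ι * (η / (n + 1))) := by
        rw [ENNReal.ofReal_mul (by positivity), ENNReal.ofReal_natCast]
    _ ≤ ENNReal.ofReal η := by
        refine ENNReal.ofReal_le_ofReal ?_
        have h1 : (Fintype.card ι : ℝ) ≤ n + 1 := by
          have : (Fintype.card ι : ℝ) ≤ n := by exact_mod_cast hcard
          linarith
        calc (Fintype.card ι : ℝ) * (η / (n + 1)) ≤ (n + 1) * (η / (n + 1)) := by gcongr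
          _ = η := by field_simp

end Crest.Agent.R281.St_405
end

-- ▼ part R281/HfA1_593
section

/-!
# Row 281 (S0424), S-HALFA (helper593), part 1: abstract lemmas for the analytic half of Theorem S

* `smul_secD`   : a positive multiple of a section datum is a section datum;
* `ratio_le`    : `1 ≤ M u x → Gam u x / (u x)² ≤ 4 Gam (lg M u) x`;
* `form_lower`, `form_upper` : from the Gram matrix `Vᴴ G⁻¹ V` to the form `|Vᴴ u|²` against
  `u^* G u`.
-/

set_option autoImplicit false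
set_option linter.unusedSectionVars false

open MeasureTheory Metric Set Filter Topology
open scoped ENNReal NNReal ContDiff Matrix ComplexConjugate ComplexOrder

namespace Crest.Agent.R281.HfA_593

open Crest.Agent.R281.Mx_405 Crest.Agent.R281.St_405

noncomputable section

section secd

variable {X : Type*} [PseudoMetricSpace X] [MeasurableSpace X] {μ : Measure X}
  {cal : Calc μ} {C : ℝ≥0} {kap : ℝ} {u w : X → ℝ}

theorem smul_mem {f : X → ℝ} (hf : f ∈ cal.Sm) (t : ℝ) : (fun x => t * f x) ∈ cal.Sm :=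
  cal.comp_mem f hf univ (fun s => t * s) isOpen_univ (fun _ => mem_univ _)
    (contDiff_const.mul contDiff_id).contDiffOn

theorem deriv_smul (t : ℝ) : deriv (fun s : ℝ => t * s) = fun _ => t := by
  funext s
  simp

theorem Gam_smul {f : X → ℝ} (hf : f ∈ cal.Sm) (t : ℝ) (x : X) :
    cal.Gam (fun x => t * f x) x = t ^ 2 * cal.Gam f x := by
  have h := cal.Gam_comp f hf univ (fun s => t * s) isOpen_univ (fun _ => mem_univ _)
    (contDiff_const.mul contDiff_id).contDiffOn x
  rw [deriv_smul] at h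
  exact h

theorem Lap_smul {f : X → ℝ} (hf : f ∈ cal.Sm) (t : ℝ) (x : X) :
    cal.Lap (fun x => t * f x) x = t * cal.Lap f x := by
  have h := cal.Lap_comp f hf univ (fun s => t * s) isOpen_univ (fun _ => mem_univ _)
    (contDiff_const.mul contDiff_id).contDiffOn x
  rw [deriv_smul] at h
  simpa using h

/-- a positive multiple of a section datum -/
theorem smul_secD (h : SecD cal C kap u w) {t : ℝ} (ht : 0 < t) :
    SecD cal C kap (fun x => t * u x) (fun x => t * w x) where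
  u_mem := smul_mem h.u_mem t
  w_mem := smul_mem h.w_mem t
  u_nonneg x := mul_nonneg ht.le (h.u_nonneg x)
  w_nonneg x := mul_nonneg ht.le (h.w_nonneg x)
  Lap_u x := by rw [Lap_smul h.u_mem, h.Lap_u]; ring
  Gam_u x := by rw [Gam_smul h.u_mem, h.Gam_u]; ring
  Lap_w x := by
    rw [Lap_smul h.w_mem]
    have := mul_le_mul_of_nonneg_left (h.Lap_w x) ht.le
    refine le_trans (le_of_eq ?_) this
    ring
  jet e₁ he₁ := by
    obtain ⟨e, he, hee, hm, hi⟩ := h.jet (e₁ / t) (div_pos he₁ ht)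
    have e0 : (fun x => t * u x / (t * u x + t * w x + t * e)) =
        fun x => u x / (u x + w x + e) := by
      funext x
      rw [← mul_add, ← mul_add, mul_div_mul_left _ _ ht.ne']
    refine ⟨t * e, mul_pos ht he, ?_, ?_, ?_⟩
    · calc t * e ≤ t * (e₁ / t) := mul_le_mul_of_nonneg_left hee ht.le
        _ = e₁ := by field_simp
    · rw [e0]; exact hm
    · rw [e0]; exact hi

/-- the logarithmic energy is comparable with the energy of the truncated logarithm -/
theorem ratio_le (h : SecD cal C kap u w) {M : ℝ} (hM : 0 < M) {x : X} (hx : 1 ≤ M * u x) :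
    cal.Gam u x / u x ^ 2 ≤ 4 * cal.Gam (lg M u) x := by
  have hu : 0 < u x := by
    by_contra hcon
    have : M * u x ≤ 0 := mul_nonpos_of_nonneg_of_nonpos hM.le (not_lt.1 hcon)
    linarith
  have hG := cal.Gam_nonneg u h.u_mem x
  rw [h.Gam_lg hM.le x, div_le_iff₀ (by positivity)]
  have h1 : 1 ≤ 4 * (M / (1 + M * u x)) ^ 2 * u x ^ 2 := by
    have h2 : 1 + M * u x ≤ 2 * (M * u x) := by linarith
    have h3 : 0 < 1 + M * u x := by linarith
    have h4 : (4 : ℝ) * (M / (1 + M * u x)) ^ 2 * u x ^ 2 =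
        (2 * (M * u x) / (1 + M * u x)) ^ 2 := by
      field_simp
      ring
    rw [h4]
    have h5 : 1 ≤ 2 * (M * u x) / (1 + M * u x) := by
      rw [le_div_iff₀ h3]; linarith
    nlinarith
  calc cal.Gam u x = 1 * cal.Gam u x := (one_mul _).symm
    _ ≤ 4 * (M / (1 + M * u x)) ^ 2 * u x ^ 2 * cal.Gam u x :=
        mul_le_mul_of_nonneg_right h1 hG
    _ = _ := by ring

/-- the quotient `Gam u / u²` does not see multiples -/
theorem ratio_smul {f : X → ℝ} (hf : f ∈ cal.Sm) {t : ℝ} (ht : 0 < t) (x : X) :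
    cal.Gam (fun x => t * f x) x / (t * f x) ^ 2 = cal.Gam f x / f x ^ 2 := by
  rw [Gam_smul hf, mul_pow, mul_div_mul_left _ _ (by positivity)]

end secd

/-! ### forms -/

section forms

variable {ι : Type*} [Fintype ι] [DecidableEq ι]

theorem normSq_sub_mul (a b : ℂ) (t : ℝ) :
    ‖a - (t : ℂ) * b‖ ^ 2 = ‖a‖ ^ 2 - 2 * t * (star a * b).re + t ^ 2 * ‖b‖ ^ 2 := by
  rw [← Complex.normSq_eq_norm_sq, ← Complex.normSq_eq_norm_sq, ← Complex.normSq_eq_norm_sq,
    Complex.normSq_apply, Complex.normSq_apply, Complex.normSq_apply]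
  simp only [Complex.sub_re, Complex.mul_re, Complex.ofReal_re, Complex.ofReal_im, Complex.sub_im,
    Complex.mul_im, Complex.star_def, Complex.conj_re, Complex.conj_im]
  ring

theorem sum_normSq (z : ι → ℂ) : (star z ⬝ᵥ z).re = ∑ j, ‖z j‖ ^ 2 := by
  unfold dotProduct
  rw [Complex.re_sum]
  refine Finset.sum_congr rfl fun j _ => ?_
  rw [← Complex.normSq_eq_norm_sq, Complex.normSq_apply]
  simp only [Pi.star_apply, Complex.star_def, Complex.mul_re, Complex.conj_re, Complex.conj_im]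
  ring

theorem sum_sub (a b : ι → ℂ) (t : ℝ) :
    ∑ j, ‖a j - (t : ℂ) * b j‖ ^ 2 =
      ∑ j, ‖a j‖ ^ 2 - 2 * t * (star a ⬝ᵥ b).re + t ^ 2 * ∑ j, ‖b j‖ ^ 2 := by
  simp only [normSq_sub_mul]
  rw [Finset.sum_add_distrib, Finset.sum_sub_distrib, ← Finset.mul_sum, ← Finset.mul_sum]
  unfold dotProduct
  rw [Complex.re_sum]
  rfl

/-- `(Vᴴ G⁻¹ V - lo)` at `w` -/
theorem form_at {G V : Matrix ι ι ℂ} (t : ℝ) (w : ι → ℂ) :
    (star w ⬝ᵥ ((Vᴴ * G⁻¹ * V - (t : ℂ) • (1 : Matrix ι ι ℂ)) *ᵥ w)).re =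
      (star (V *ᵥ w) ⬝ᵥ (G⁻¹ *ᵥ (V *ᵥ w))).re - t * ∑ j, ‖w j‖ ^ 2 := by
  rw [Matrix.sub_mulVec, dotProduct_sub, Complex.sub_re, Matrix.smul_mulVec, Matrix.one_mulVec,
    dotProduct_smul, smul_eq_mul, Complex.re_ofReal_mul, sum_normSq]
  congr 2
  rw [Matrix.star_mulVec, ← Matrix.mulVec_mulVec, ← Matrix.mulVec_mulVec,
    Matrix.dotProduct_mulVec (star w) (Vᴴ)]

theorem isUnit_of_lower {G V : Matrix ι ι ℂ} {lo : ℝ} (hlo : 0 < lo)
    (h : (Vᴴ * G⁻¹ * V - (lo : ℂ) • (1 : Matrix ι ι ℂ)).PosSemidef) : IsUnit V.det := by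
  have h1 : ((lo : ℂ) • (1 : Matrix ι ι ℂ)).PosDef := by
    refine Matrix.PosDef.smul Matrix.PosDef.one ?_
    exact_mod_cast hlo
  have h2 : (Vᴴ * G⁻¹ * V).PosDef := by
    have := Matrix.PosDef.posSemidef_add h h1
    simpa using this
  have h3 := h2.det_pos.ne'
  rw [Matrix.det_mul, mul_ne_zero_iff] at h3
  exact isUnit_iff_ne_zero.2 h3.2

theorem form_lower {G V : Matrix ι ι ℂ} (hG : G.PosDef) {lo : ℝ} (hlo : 0 < lo)
    (h : (Vᴴ * G⁻¹ * V - (lo : ℂ) • (1 : Matrix ι ι ℂ)).PosSemidef) (u : ι → ℂ) :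
    lo * (star u ⬝ᵥ (G *ᵥ u)).re ≤ ∑ j, ‖(Vᴴ *ᵥ u) j‖ ^ 2 := by
  have hV := isUnit_of_lower hlo h
  have hGu : IsUnit G.det := isUnit_iff_ne_zero.2 hG.det_pos.ne'
  set w : ι → ℂ := V⁻¹ *ᵥ (G *ᵥ u) with hw
  have hVw : V *ᵥ w = G *ᵥ u := by
    rw [hw, Matrix.mulVec_mulVec, Matrix.mul_nonsing_inv _ hV, Matrix.one_mulVec]
  set q : ℝ := (star u ⬝ᵥ (G *ᵥ u)).re with hq
  have h1 : lo * ∑ j, ‖w j‖ ^ 2 ≤ q := by
    have h2 := (Complex.le_def.1 (h.dotProduct_mulVec_nonneg w)).1
    rw [form_at, hVw, Matrix.mulVec_mulVec, Matrix.nonsing_inv_mul _ hGu, Matrix.one_mulVec] at h2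
    have h3 : (star (G *ᵥ u) ⬝ᵥ u).re = q := by
      rw [Matrix.star_mulVec, hG.1.eq, hq, Matrix.dotProduct_mulVec]
    rw [h3] at h2
    simp only [Complex.zero_re] at h2
    linarith
  have h4 : (star (Vᴴ *ᵥ u) ⬝ᵥ w).re = q := by
    rw [Matrix.star_mulVec, Matrix.conjTranspose_conjTranspose, ← Matrix.dotProduct_mulVec, hVw]
  have h5 : 0 ≤ ∑ j, ‖(Vᴴ *ᵥ u) j - (lo : ℂ) * w j‖ ^ 2 :=
    Finset.sum_nonneg fun j _ => by positivity
  rw [sum_sub, h4] at h5
  nlinarith

theorem form_upper {G V : Matrix ι ι ℂ} (hG : G.PosDef) {hi : ℝ} (hhi : 0 < hi)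
    (h : ((hi : ℂ) • (1 : Matrix ι ι ℂ) - Vᴴ * G⁻¹ * V).PosSemidef) (u : ι → ℂ) :
    ∑ j, ‖(Vᴴ *ᵥ u) j‖ ^ 2 ≤ hi * (star u ⬝ᵥ (G *ᵥ u)).re := by
  have hGu : IsUnit G.det := isUnit_iff_ne_zero.2 hG.det_pos.ne'
  obtain ⟨z, hz⟩ : ∃ z : ι → ℂ, z = Vᴴ *ᵥ u := ⟨_, rfl⟩
  rw [← hz]
  set q : ℝ := (star u ⬝ᵥ (G *ᵥ u)).re with hq
  set S : ℝ := ∑ j, ‖z j‖ ^ 2 with hS
  set p : ℝ := (star (V *ᵥ z) ⬝ᵥ (G⁻¹ *ᵥ (V *ᵥ z))).re with hp
  have h1 : p ≤ hi * S := by
    have h2 := (Complex.le_def.1 (h.dotProduct_mulVec_nonneg z)).1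
    have h3 : (star z ⬝ᵥ (((hi : ℂ) • (1 : Matrix ι ι ℂ) - Vᴴ * G⁻¹ * V) *ᵥ z)).re =
        - (star z ⬝ᵥ ((Vᴴ * G⁻¹ * V - (hi : ℂ) • (1 : Matrix ι ι ℂ)) *ᵥ z)).re := by
      rw [← neg_sub, Matrix.neg_mulVec, dotProduct_neg, Complex.neg_re]
    rw [h3, form_at] at h2
    simp only [Complex.zero_re] at h2
    linarith
  -- the form at `u - s G⁻¹ V z`
  have h4 : (star (V *ᵥ z) ⬝ᵥ u).re = S := by
    rw [Matrix.star_mulVec, ← Matrix.dotProduct_mulVec, ← hz, sum_normSq]
  have h4' : (star u ⬝ᵥ (V *ᵥ z)).re = S := by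
    have : star u ⬝ᵥ (V *ᵥ z) = star (star (V *ᵥ z) ⬝ᵥ u) := by
      rw [Matrix.star_dotProduct]
    rw [this, Complex.star_def, Complex.conj_re, h4]
  have h5 : 0 ≤ q - 2 * hi⁻¹ * S + hi⁻¹ ^ 2 * p := by
    have h6 := (Complex.le_def.1 (hG.posSemidef.dotProduct_mulVec_nonneg
      (u - ((hi⁻¹ : ℝ) : ℂ) • (G⁻¹ *ᵥ (V *ᵥ z))))).1
    have e1 : G *ᵥ (u - ((hi⁻¹ : ℝ) : ℂ) • (G⁻¹ *ᵥ (V *ᵥ z))) =
        G *ᵥ u - ((hi⁻¹ : ℝ) : ℂ) • (V *ᵥ z) := by
      rw [Matrix.mulVec_sub, Matrix.mulVec_smul, Matrix.mulVec_mulVec,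
        Matrix.mul_nonsing_inv _ hGu, Matrix.one_mulVec]
    have e2 : star (u - ((hi⁻¹ : ℝ) : ℂ) • (G⁻¹ *ᵥ (V *ᵥ z))) =
        star u - ((hi⁻¹ : ℝ) : ℂ) • star (G⁻¹ *ᵥ (V *ᵥ z)) := by
      rw [star_sub, star_smul, Complex.star_def, Complex.conj_ofReal]
    have e3 : star (G⁻¹ *ᵥ (V *ᵥ z)) ⬝ᵥ (G *ᵥ u) = star (V *ᵥ z) ⬝ᵥ u := by
      rw [Matrix.star_mulVec, hG.1.inv.eq, ← Matrix.dotProduct_mulVec, Matrix.mulVec_mulVec,
        Matrix.nonsing_inv_mul _ hGu, Matrix.one_mulVec]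
    have e4 : star (G⁻¹ *ᵥ (V *ᵥ z)) ⬝ᵥ (V *ᵥ z) = star (V *ᵥ z) ⬝ᵥ (G⁻¹ *ᵥ (V *ᵥ z)) := by
      rw [Matrix.star_mulVec, hG.1.inv.eq, ← Matrix.dotProduct_mulVec]
    rw [e1, e2, sub_dotProduct, dotProduct_sub, dotProduct_sub, smul_dotProduct, smul_dotProduct,
      dotProduct_smul, dotProduct_smul, e3, e4] at h6
    simp only [smul_eq_mul, Complex.sub_re, Complex.re_ofReal_mul, h4, h4', Complex.zero_re] at h6
    rw [← hq, ← hp] at h6
    linarith
  have hi1 : hi⁻¹ ^ 2 * p ≤ hi⁻¹ * S := by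
    calc hi⁻¹ ^ 2 * p ≤ hi⁻¹ ^ 2 * (hi * S) := mul_le_mul_of_nonneg_left h1 (by positivity)
      _ = hi⁻¹ * S := by field_simp
  have h7 : hi⁻¹ * S ≤ q := by linarith
  calc S = hi * (hi⁻¹ * S) := by field_simp
    _ ≤ hi * q := mul_le_mul_of_nonneg_left h7 hhi.le

end forms

end

end Crest.Agent.R281.HfA_593
end

-- ▼ part R281/Spi2_405
section

/-!
# R281, S-SPI (helper405), part 2: Caccioppoli type inequality with Lipschitz cut-offs on a
Riemannian manifold

* `cac_gen` : `h + q - B ≤ Δ F`, `‖∇F‖² ≤ E q` on `closedBall x0 b` ⟹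
  `∫_{closedBall x0 a} h ≤ (B + E (Cth/(b-a))²) μ(closedBall x0 b)`.
* `dg_gen`  : sub-mean value inequality with closed balls and the hypothesis on a closed ball only.
-/

set_option autoImplicit false
set_option maxSynthPendingDepth 3
set_option linter.unusedSectionVars false
open Bundle Set MeasureTheory Manifold Filter Metric
open scoped ENNReal ContDiff Topology NNReal
open Crest.GeometryTopology.CoordMetric Crest.GeometryTopology.ChartCurvature
open Crest.Agent.R249.SobA_982 Crest.Agent.R249.SobC_982 Crest.Agent.R249.SobD_982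
  Crest.Agent.R249.SobE_982 Crest.Agent.R249.SobG_982 Crest.Agent.R249.SobH_982
open Crest.Agent.R247 Crest.Agent.R247.Ms322 Crest.Agent.R247.Mcp688

noncomputable section
namespace Crest.Agent.R281.Spi_405

open Crest.Agent.R281.Sm1_593 Crest.Agent.R281.Sm2_593 Crest.Agent.R281.Sm3_593
  Crest.Agent.R281.Sm4_593

section M
variable {n : ℕ} {M : Type*} [MetricSpace M] [ChartedSpace (EuclideanSpace ℝ (Fin n)) M]
  [IsManifold (𝓡 n) ∞ M]
  [RiemannianBundle (fun p : M => TangentSpace (𝓡 n) p)]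
  [IsContMDiffRiemannianBundle (𝓡 n) ∞ (EuclideanSpace ℝ (Fin n)) (fun p : M => TangentSpace (𝓡 n) p)]
  [SecondCountableTopology M] [Nonempty M] [IsRiemannianManifold (𝓡 n) M]
  [MeasurableSpace M] [BorelSpace M]

/-- **Caccioppoli type inequality.** -/
theorem cac_gen [CompactSpace M] {F h q : M → ℝ} (hF : ∀ z, ContMDiffAt (𝓡 n) 𝓘(ℝ, ℝ) 2 F z)
    (hh : Continuous h) (hq : Continuous q) {x0 : M} {a b B E : ℝ} (hab : a < b)
    (hB : 0 ≤ B) (hE : 0 ≤ E) (h0 : ∀ x ∈ closedBall x0 b, 0 ≤ h x)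
    (q0 : ∀ x ∈ closedBall x0 b, 0 ≤ q x)
    (hL : ∀ x ∈ closedBall x0 b, h x + q x - B ≤ Bo84.mLap n F x)
    (hG : ∀ x ∈ closedBall x0 b, ‖Gr (n := n) F x‖ ^ 2 ≤ E * q x) :
    ∫ x in closedBall x0 a, h x ∂(μHE[n] : Measure M) ≤
      (B + E * (Cth / (b - a)) ^ 2) * (μHE[n] : Measure M).real (closedBall x0 b) := by
  set μ : Measure M := μHE[n] with hμ
  have := isLocallyFiniteMeasure n M
  have hba : 0 < b - a := by linarith
  set η : M → ℝ := cut2 x0 a b with hη
  have hd0 : 0 < Cth / (b - a) := div_pos Cth_pos hba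
  set d : ℝ := Cth / (b - a) with hd
  have hLip : LipschitzWith d.toNNReal η := by
    refine LipschitzWith.of_dist_le_mul fun x y => ?_
    rw [Real.dist_eq, Real.coe_toNNReal _ hd0.le]
    exact cut2_lip hab x y
  have hηl : LocallyLipschitz η := hLip.locallyLipschitz
  have hηc : Continuous η := hLip.continuous
  have hηs : ∀ z, z ∉ closedBall x0 b → η z = 0 := fun z hz => by
    rw [mem_closedBall, not_le] at hz
    exact cut2_zero hab hz.le
  have hGη : ∀ z, ‖Gr (n := n) η z‖ ≤ d := fun z => by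
    have := norm_Gr_le_of_lipschitzOn (n := n) (K := d.toNNReal) (U := univ) (z := z) univ_mem
      (hLip.lipschitzOnWith (s := univ))
    rwa [Real.coe_toNNReal _ hd0.le] at this
  have hηη : LocallyLipschitz (fun z => η z * η z) := by
    refine (LipschitzWith.of_dist_le_mul (K := (2 * d).toNNReal) fun x y => ?_).locallyLipschitz
    rw [Real.dist_eq, Real.coe_toNNReal _ (by positivity)]
    have e : η x * η x - η y * η y = (η x + η y) * (η x - η y) := by ring
    have h1 := cut2_lip (x0 := x0) hab x y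
    have h2 : 0 ≤ η x := cut2_nonneg x0 a b x
    have h3 : 0 ≤ η y := cut2_nonneg x0 a b y
    have h4 : η x ≤ 1 := cut2_le_one x0 a b x
    have h5 : η y ≤ 1 := cut2_le_one x0 a b y
    have h6 : |η x + η y| ≤ 2 := by
      rw [abs_of_nonneg (add_nonneg h2 h3)]; linarith
    rw [e, abs_mul]
    calc |η x + η y| * |η x - η y| ≤ 2 * (d * dist x y) := by gcongr
      _ = _ := by ring
  have hcs : ∀ f : M → ℝ, HasCompactSupport f := fun f => HasCompactSupport.of_compactSpace f
  have hibp := ibp_mLap (n := n) (U := univ) isOpen_univ (f := F) (φ := fun z => η z * η z)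
    (fun z _ => hF z) hηη (hcs _) (subset_univ _)
  have hgr : ∀ᵐ z ∂μ, inner ℝ (Gr (n := n) F z) (Gr (n := n) (fun z => η z * η z) z) =
      2 * (η z * inner ℝ (Gr (n := n) F z) (Gr (n := n) η z)) := by
    filter_upwards [ae_mdifferentiableAt (n := n) hηl] with z hz
    rw [Gr_mul hz hz, inner_add_right, inner_smul_right]
    ring
  rw [integral_congr_ae hgr, integral_const_mul] at hibp
  -- integrability
  have hFL : LLo univ F := LLo.of_contMDiffAt fun z _ => (hF z).of_le (by norm_num)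
  obtain ⟨CF, hCF0, hCF⟩ := hFL.exists_bound_Gr (n := n) (hcs η).isCompact (subset_univ _)
  have hfin : IsFiniteMeasure μ := ⟨isCompact_univ.measure_lt_top⟩
  have icont : ∀ f : M → ℝ, Continuous f → Integrable f μ := fun f hf => by
    rw [← integrableOn_univ]
    exact hf.continuousOn.integrableOn_compact isCompact_univ
  have hmL : Continuous (Bo84.mLap n F) := by
    rw [← continuousOn_univ]
    exact continuousOn_mLap fun z _ => hF z
  have i1 : Integrable (fun z => η z * inner ℝ (Gr (n := n) F z) (Gr (n := n) η z)) μ := by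
    have h1 := integrable_inner_Gr (n := n) hFL hηl (hcs η) (subset_univ _)
    refine Integrable.mono h1 (hηc.aestronglyMeasurable.mul h1.aestronglyMeasurable) ?_
    filter_upwards with z
    rw [norm_mul]
    have h2 : ‖η z‖ ≤ 1 := by
      rw [Real.norm_eq_abs, abs_of_nonneg (cut2_nonneg _ _ _ _)]
      exact cut2_le_one _ _ _ _
    exact mul_le_of_le_one_left (norm_nonneg _) h2
  -- pointwise inequality
  have hpt : ∀ z, η z ^ 2 * h z ≤ (closedBall x0 b).indicator (fun _ => B + E * d ^ 2) z +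
      (η z * η z * Bo84.mLap n F z + 2 * (η z * inner ℝ (Gr (n := n) F z) (Gr (n := n) η z))) := by
    intro z
    by_cases hz : z ∈ closedBall x0 b
    · rw [indicator_of_mem hz]
      have h1 := hL z hz
      have h2 := hG z hz
      have h3 := q0 z hz
      have h4 : 0 ≤ η z := cut2_nonneg x0 a b z
      have h5 : η z ≤ 1 := cut2_le_one x0 a b z
      have h6 := hGη z
      have h7 : |inner ℝ (Gr (n := n) F z) (Gr (n := n) η z)| ≤
          ‖Gr (n := n) F z‖ * ‖Gr (n := n) η z‖ := abs_real_inner_le_norm _ _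
      set G := ‖Gr (n := n) F z‖ with hGd
      set G' := ‖Gr (n := n) η z‖
      have hG0 : 0 ≤ G := norm_nonneg _
      have hG'0 : 0 ≤ G' := norm_nonneg _
      set ip := (inner ℝ (Gr (n := n) F z) (Gr (n := n) η z) : ℝ)
      -- `2 η |ip| ≤ η² q + E d²`
      have h8 : 2 * (η z * |ip|) ≤ η z ^ 2 * q z + E * d ^ 2 := by
        have h9 : (2 * (η z * |ip|)) ^ 2 ≤ (η z ^ 2 * q z + E * d ^ 2) ^ 2 := by
          have h10 : |ip| ^ 2 ≤ (E * q z) * d ^ 2 := by
            calc |ip| ^ 2 ≤ (G * G') ^ 2 := by gcongr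
              _ = G ^ 2 * G' ^ 2 := by ring
              _ ≤ (E * q z) * d ^ 2 := by gcongr
          have h11 : (2 * (η z * |ip|)) ^ 2 ≤ 4 * (η z ^ 2 * q z) * (E * d ^ 2) := by
            calc (2 * (η z * |ip|)) ^ 2 = 4 * η z ^ 2 * |ip| ^ 2 := by ring
              _ ≤ 4 * η z ^ 2 * ((E * q z) * d ^ 2) := by gcongr
              _ = _ := by ring
          nlinarith [sq_nonneg (η z ^ 2 * q z - E * d ^ 2)]
        have h12 : 0 ≤ η z ^ 2 * q z + E * d ^ 2 := by positivity
        exact le_of_sq_le_sq h9 h12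
      have h13 : -(η z * |ip|) ≤ η z * ip := by
        have := neg_abs_le ip
        nlinarith
      have h14 : η z ^ 2 * (h z + q z - B) ≤ η z * η z * Bo84.mLap n F z := by
        rw [← sq]
        gcongr
      have h15 : η z ^ 2 * B ≤ B := by
        have : η z ^ 2 ≤ 1 := pow_le_one₀ h4 h5
        nlinarith
      nlinarith
    · rw [indicator_of_notMem hz, hηs z hz]
      simp
  have hint : ∫ z, η z ^ 2 * h z ∂μ ≤ (B + E * d ^ 2) * μ.real (closedBall x0 b) := by
    have j1 : Integrable (fun z => (closedBall x0 b).indicator (fun _ => B + E * d ^ 2) z) μ :=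
      (integrable_const _).indicator measurableSet_closedBall
    have j2 : Integrable (fun z => η z * η z * Bo84.mLap n F z) μ :=
      icont _ ((hηc.mul hηc).mul hmL)
    have j3 : Integrable (fun z => 2 * (η z * inner ℝ (Gr (n := n) F z) (Gr (n := n) η z))) μ :=
      i1.const_mul 2
    have j4 : Integrable (fun z => η z ^ 2 * h z) μ := icont _ ((hηc.pow 2).mul hh)
    have j23 : Integrable (fun z => η z * η z * Bo84.mLap n F z +
      2 * (η z * inner ℝ (Gr (n := n) F z) (Gr (n := n) η z))) μ := j2.add j3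
    calc ∫ z, η z ^ 2 * h z ∂μ ≤ ∫ z, ((closedBall x0 b).indicator (fun _ => B + E * d ^ 2) z +
          (η z * η z * Bo84.mLap n F z +
            2 * (η z * inner ℝ (Gr (n := n) F z) (Gr (n := n) η z)))) ∂μ :=
          integral_mono j4 (j1.add j23) hpt
      _ = ∫ z, (closedBall x0 b).indicator (fun _ => B + E * d ^ 2) z ∂μ := by
          rw [integral_add j1 j23, integral_add j2 j3, integral_const_mul]
          linarith
      _ = _ := by
          rw [integral_indicator measurableSet_closedBall, setIntegral_const, smul_eq_mul]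
          ring
  refine le_trans ?_ hint
  have j4 : Integrable (fun z => η z ^ 2 * h z) μ := icont _ ((hηc.pow 2).mul hh)
  have e1 : ∫ x in closedBall x0 a, h x ∂μ = ∫ x in closedBall x0 a, η x ^ 2 * h x ∂μ := by
    refine setIntegral_congr_fun measurableSet_closedBall fun x hx => ?_
    have : η x = 1 := cut2_one hab (mem_closedBall.1 hx)
    simp [this]
  rw [e1]
  refine setIntegral_le_integral j4 (Eventually.of_forall fun z => ?_)
  show 0 ≤ η z ^ 2 * h z
  by_cases hz : z ∈ closedBall x0 b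
  · exact mul_nonneg (sq_nonneg _) (h0 z hz)
  · rw [hηs z hz]; simp

/-- **Sub-mean value inequality**, closed balls. -/
theorem dg_gen [CompactSpace M] (C : Rad n 0 M (μHE[n] : Measure M)) (hn : 1 ≤ n) {f : M → ℝ}
    (hf : ∀ z, ContMDiffAt (𝓡 n) 𝓘(ℝ, ℝ) 2 f z) (hf0 : ∀ x, 0 ≤ f x) {y : M} {r A B : ℝ}
    (hr : 0 < r) (hA : 0 ≤ A) (hB : 0 ≤ B) (hBr : B * r ^ 2 ≤ 16)
    (hL : ∀ x ∈ closedBall y r, -(A + B * f x) ≤ Bo84.mLap n f x) {x : M}
    (hx : x ∈ closedBall y (r / 2)) :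
    f x ≤ CDG n * (8 ^ n * (⨍ z in closedBall y r, f z ∂(μHE[n] : Measure M)) +
      A * (r / 4) ^ 2) := by
  set μ : Measure M := μHE[n] with hμ
  have := isLocallyFiniteMeasure n M
  have := isOpenPosMeasure n M
  have hfin : IsFiniteMeasure μ := ⟨isCompact_univ.measure_lt_top⟩
  rw [mem_closedBall] at hx
  have hsub : closedBall x (r / 4) ⊆ ball y r := by
    intro z hz
    rw [mem_closedBall] at hz
    rw [mem_ball]
    have := dist_triangle z x y
    linarith
  have h := dg1 C hn (x0 := x) (r := r / 4) (by positivity) (U := ball y r) isOpen_ball hsub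
    (fun z _ => hf z) hA hB (by nlinarith) (fun z hz => hL z (ball_subset_closedBall hz))
    (mem_closedBall_self (by positivity))
  refine h.trans ?_
  have hfc : Continuous f := continuous_iff_continuousAt.2 fun z => (hf z).continuousAt
  have hint : Integrable f μ := by
    rw [← integrableOn_univ]
    exact hfc.continuousOn.integrableOn_compact isCompact_univ
  have e : ∫ z in ball x (r / 4), max (f z) 0 ∂μ = ∫ z in ball x (r / 4), f z ∂μ := by
    congr 1
    funext z
    exact max_eq_left (hf0 z)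
  have h1 : ∫ z in ball x (r / 4), f z ∂μ ≤ ∫ z in closedBall y r, f z ∂μ :=
    setIntegral_mono_set hint.integrableOn (Eventually.of_forall hf0)
      (((ball_subset_closedBall.trans hsub).trans ball_subset_closedBall).eventuallyLE)
  have h10 : 0 ≤ ∫ z in closedBall y r, f z ∂μ := integral_nonneg hf0
  have hV0 : 0 < μ.real (ball x (r / 4)) := pos_of_open x _ (by positivity)
  have hW0 : 0 < μ.real (closedBall y r) :=
    ENNReal.toReal_pos (measure_closedBall_pos μ y hr).ne' (measure_ne_top _ _)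
  have h2 : μ.real (closedBall y r) ≤ 8 ^ n * μ.real (ball x (r / 4)) := by
    have h3 := dbl_of_rad C x (r / 4) (2 * r) (by positivity) (by linarith)
    have h4 : 2 * r / (r / 4) = 8 := by field_simp; norm_num
    rw [h4] at h3
    refine le_trans (measureReal_mono ?_) h3
    intro z hz
    rw [mem_closedBall] at hz
    rw [mem_ball]
    have := dist_triangle_right z x y
    linarith
  have h3 : (μ.real (ball x (r / 4)))⁻¹ ≤ 8 ^ n * (μ.real (closedBall y r))⁻¹ := by
    rw [← div_eq_mul_inv, inv_eq_one_div, div_le_div_iff₀ hV0 hW0]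
    linarith
  have hC := (CDG_pos n).le
  rw [e, setAverage_eq, smul_eq_mul, ← mul_assoc (8 ^ n)]
  have h11 : 0 ≤ ∫ z in ball x (r / 4), f z ∂μ := integral_nonneg hf0
  gcongr

end M

end Crest.Agent.R281.Spi_405
end
end

-- ▼ part R281/Insp1_615
section

/-!
# R281, S-SPI (helper615), part 1: doubling, `L¹` Poincaré inequality, Lipschitz estimate

* `dbl_rad`, `pi_rad`, `lip_rad` : for every radial contraction structure `Rad m 0 X μ`
* `dbl_calcX`, `poi_calcX`, `lip_calcX` : for `calcX P K`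
-/

set_option autoImplicit false
set_option linter.unusedSectionVars false

open Set Filter Topology MeasureTheory Metric
open scoped ENNReal NNReal

namespace Crest.Agent.R281.Ins_615

noncomputable section

section gen

open Crest.Agent.R247.Mcp688 Crest.Agent.R281.Poin_274 Crest.Agent.R281.Mx_405
  Crest.Agent.R281.St_405
open Crest.Agent.R249.SobA_982 Crest.Agent.R249.SobE_982 Crest.Agent.R249.SobF_982

variable {m : ℕ} {X : Type*} [MetricSpace X] [MeasurableSpace X] [BorelSpace X]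
  {μ : Measure X}

theorem dbl_rad (C : Rad m 0 X μ) [IsFiniteMeasure μ] [μ.IsOpenPosMeasure] :
    Dbl μ ((2 : ℝ≥0) ^ m) where
  dbl x r hr := by
    have h := closedBall_doubling C le_rfl x hr
    rw [dC_zero] at h
    refine h.trans (le_of_eq ?_)
    congr 1
    rw [ENNReal.ofReal_pow (by norm_num)]
    norm_num
  pos x r hr := measure_closedBall_pos μ x hr
  fin x r := measure_lt_top μ _

/-- the frame gradient is an upper gradient along the minimisers -/
theorem ug_of_lg (C : Rad m 0 X μ) {f G : X → ℝ} (h : LG f G) :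
    UG C f (fun x => ENNReal.ofReal (G x)) := by
  intro u v huv
  rw [abs_sub_comm]
  exact ray' C (LGOn.of_lg (U := univ) h) huv (fun _ _ => mem_univ _)

/-- **`L¹` Poincaré inequality** -/
theorem pi_rad (C : Rad m 0 X μ) [IsFiniteMeasure μ] [μ.IsOpenPosMeasure] {f G : X → ℝ}
    (h : LG f G) (hG : ∀ x r, IntegrableOn G (closedBall x r) μ)
    (hf : ∀ x r, IntegrableOn f (closedBall x r) μ) :
    PI μ f G (4 * 4 ^ m) := by
  intro x r hr
  have hB : 0 < μ.real (closedBall x r) :=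
    ENNReal.toReal_pos (measure_closedBall_pos μ x hr).ne' (measure_ne_top _ _)
  have hB2 : 0 < μ.real (closedBall x (2 * r)) :=
    ENNReal.toReal_pos (measure_closedBall_pos μ x (by linarith)).ne' (measure_ne_top _ _)
  have h1 := poinc_one le_rfl (ug_of_lg C h) h.contG.measurable.ennreal_ofReal x
    (measure_ne_top _ _) (measure_closedBall_pos μ x hr).ne' (hf x r)
  rw [dC_zero] at h1
  set a := ⨍ v in closedBall x r, f v ∂μ
  have i1 : IntegrableOn (fun u => |f u - a|) (closedBall x r) μ :=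
    ((hf x r).sub (integrable_const _)).abs
  rw [← ofReal_integral_eq_lintegral_ofReal i1 (Eventually.of_forall fun u => abs_nonneg _),
    ← ofReal_integral_eq_lintegral_ofReal (hG x (2 * r)) (Eventually.of_forall fun u => h.nonneg _),
    ← ENNReal.ofReal_mul (by positivity)] at h1
  have hI : 0 ≤ ∫ y in closedBall x (2 * r), G y ∂μ := integral_nonneg fun y => h.nonneg y
  have h2 := (ENNReal.ofReal_le_ofReal_iff (by positivity)).1 h1
  have h3 : μ.real (closedBall x (2 * r)) ≤ 2 ^ m * μ.real (closedBall x r) := by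
    have h := closedBall_doubling C le_rfl x hr
    rw [dC_zero] at h
    have h4 := ENNReal.toReal_mono (ENNReal.mul_ne_top ENNReal.ofReal_ne_top
      (measure_ne_top _ _)) h
    rw [ENNReal.toReal_mul, ENNReal.toReal_ofReal (by positivity)] at h4
    exact h4
  rw [setAverage_eq, setAverage_eq, smul_eq_mul, smul_eq_mul]
  set I := ∫ y in closedBall x (2 * r), G y ∂μ
  set V := μ.real (closedBall x r)
  set V2 := μ.real (closedBall x (2 * r))
  have h5 : V⁻¹ ≤ 2 ^ m * V2⁻¹ := by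
    rw [← div_eq_mul_inv, inv_eq_one_div, div_le_div_iff₀ hB hB2]
    linarith
  have e4 : (4 : ℝ) ^ m = 2 ^ m * 2 ^ m := by rw [← mul_pow]; norm_num
  have h6 : V⁻¹ * (4 * r * 2 ^ m * I) ≤ (2 ^ m * V2⁻¹) * (4 * r * 2 ^ m * I) := by gcongr
  calc _ ≤ V⁻¹ * (4 * r * 2 ^ m * I) := by gcongr
    _ ≤ _ := h6
    _ = 4 * 4 ^ m * r * (V2⁻¹ * I) := by rw [e4]; ring

/-- **Lipschitz estimate**, local form. -/
theorem lip_rad (C : Rad m 0 X μ) [μ.IsOpenPosMeasure] {f G : X → ℝ} {U : Set X}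
    (h : LGOn U f G) {y : X} {r L : ℝ} (hr : 0 < r) (_hL : 0 ≤ L) (hU : ball y r ⊆ U)
    (hb : ∀ x ∈ ball y r, G x ≤ L) {p q : X} (hp : p ∈ closedBall y (r / 3))
    (hq : q ∈ closedBall y (r / 3)) : |f p - f q| ≤ L * dist p q := by
  have hd : Dense {z | (p, z) ∈ C.U} := by
    refine (MeasureTheory.Measure.dense_of_ae (μ := μ) (p := fun z => (p, z) ∈ C.U) (C.ae_U p))
  have hqU : q ∈ U := hU (by rw [mem_ball]; rw [mem_closedBall] at hq; linarith)
  have hc : ContinuousAt f q := h.continuousAt hqU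
  -- the estimate at good points near `q`
  have key : ∀ z, (p, z) ∈ C.U → dist z q < r / 9 → |f p - f z| ≤ L * dist p z := by
    intro z hz hzq
    rw [mem_closedBall] at hp hq
    have hm : ∀ t ∈ Icc (0:ℝ) 1, C.T p t z ∈ ball y r := by
      intro t ht
      have h1 := C.dist_left hz ht
      have h2 := C.dist_right hz ht
      have h4 := dist_triangle (C.T p t z) p y
      have h5 := dist_triangle (C.T p t z) z y
      have h7 := dist_triangle z q y
      have h8 := dist_triangle_right p z y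
      rw [dist_comm _ p] at h4
      rw [mem_ball]
      have h6 : 0 ≤ dist p z := dist_nonneg
      rcases le_total t (1 / 2) with h9 | h9
      · have : t * dist p z ≤ 1 / 2 * dist p z := mul_le_mul_of_nonneg_right h9 h6
        linarith
      · have : (1 - t) * dist p z ≤ 1 / 2 * dist p z :=
          mul_le_mul_of_nonneg_right (by linarith) h6
        linarith
    have h1 := ray C h hz (fun t ht => hU (hm t ht))
    rw [abs_sub_comm]
    refine h1.trans ?_
    have h2 : ∫ t in (0:ℝ)..1, G (C.T p t z) ≤ ∫ _ in (0:ℝ)..1, L := by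
      have hcont := contOn_ray C h hz (fun t ht => hU (hm t ht))
      apply intervalIntegral.integral_mono_on zero_le_one
      · exact (hcont.mono (by rw [uIcc_of_le zero_le_one])).intervalIntegrable
      · simp
      · intro t ht
        exact hb _ (hm t ht)
    rw [intervalIntegral.integral_const, sub_zero, one_smul] at h2
    rw [mul_comm]
    exact mul_le_mul_of_nonneg_right h2 dist_nonneg
  -- limit
  have hcl : q ∈ closure ({z | (p, z) ∈ C.U} ∩ ball q (r / 9)) := by
    rw [_root_.mem_closure_iff]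
    intro o ho hqo
    obtain ⟨z, hz1, hz2⟩ := hd.inter_open_nonempty (o ∩ ball q (r / 9))
      (ho.inter isOpen_ball) ⟨q, hqo, mem_ball_self (by positivity)⟩
    exact ⟨z, hz1.1, hz2, hz1.2⟩
  obtain ⟨u, hu, hlim⟩ := mem_closure_iff_seq_limit.1 hcl
  have l1 : Tendsto (fun k => |f p - f (u k)|) atTop (𝓝 |f p - f q|) :=
    (tendsto_const_nhds.sub (hc.tendsto.comp hlim)).abs
  have l2 : Tendsto (fun k => L * dist p (u k)) atTop (𝓝 (L * dist p q)) :=
    (tendsto_const_nhds.dist hlim).const_mul L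
  exact le_of_tendsto_of_tendsto' l1 l2 fun k => key _ (hu k).1 (hu k).2

theorem dbl_smul {μ : Measure X} {C : ℝ≥0} (h : Dbl μ C) {c : ℝ≥0∞} (h0 : c ≠ 0) (h1 : c ≠ ⊤) :
    Dbl (c • μ) C where
  dbl x r hr := by
    rw [Measure.smul_apply, Measure.smul_apply, smul_eq_mul, smul_eq_mul]
    calc c * μ (closedBall x (2 * r)) ≤ c * (C * μ (closedBall x r)) := by
          gcongr; exact h.dbl x r hr
      _ = _ := by ring
  pos x r hr := by
    rw [Measure.smul_apply, smul_eq_mul]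
    exact ENNReal.mul_pos h0 (h.pos x r hr).ne'
  fin x r := by
    rw [Measure.smul_apply, smul_eq_mul]
    exact ENNReal.mul_lt_top h1.lt_top (h.fin x r)

end gen

/-! ### the calculus `calcX` -/

section calcX

open Manifold
open scoped ContDiff Manifold
open Crest.Agent.R275.Geo Crest.Agent.R275.EDR890
open Crest.Agent.R273.RMan_798 Crest.Agent.R273.RMan4_798
open Crest.Agent.R275.Core144 Crest.Agent.R273.Defs_333 Crest.Agent.R273.Kah_333
open Crest.Agent.R273.Vol_333 Crest.Agent.R273.Vm_333 Crest.Agent.R273.FIb0_597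
open Crest.Agent.R273.SchI_152 (Dg Dg_nonneg continuous_Dg)
open Crest.Agent.R281.St_405 Crest.Agent.R281.Mx_405
open Crest.Agent.R249.SobA_982 Crest.Agent.R249.SobE_982

variable {n : ℕ} {M : Type} [TopologicalSpace M] {A : Atl n M} [T2Space M] [ConnectedSpace M]
  [CompactSpace M]

theorem openPos_muHE (K : Kah A) :
    (Measure.euclideanHausdorffMeasure (2 * n) : Measure (ofKah K).M).IsOpenPosMeasure :=
  Crest.Agent.R247.Ms322.isOpenPosMeasure (2 * n) (ofKah K).M

theorem dbl_muX (K : Kah A) (hK : (volK K).Semipos) : Dbl (muX K) ((2 : ℝ≥0) ^ (2 * n)) := by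
  obtain ⟨C⟩ := rad K hK
  have := finite_muHE K
  have := openPos_muHE K
  exact dbl_smul (dbl_rad C) (ENNReal.inv_ne_zero.2 (muHE_univ_ne_top K))
    (ENNReal.inv_ne_top.2 (muHE_univ_pos K).ne')

theorem norm_Gr_sqrt (K : Kah A) {f : M → ℝ} (hf : A.Sm f) (x : M) :
    ‖Crest.Agent.R247.Ms322.Gr (n := 2 * n) (fun p : (ofKah K).M => f p) x‖ =
      2 * √(Dg K f x) := by
  have h := norm_Gr_eq K hf x
  have h0 := Dg_nonneg K hf x
  have h1 : (2 * √(Dg K f x)) ^ 2 = 4 * Dg K f x := by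
    rw [mul_pow, Real.sq_sqrt h0]; norm_num
  rw [← h1] at h
  exact (pow_left_inj₀ (norm_nonneg _) (by positivity) two_ne_zero).1 h

theorem lg_calcX (K : Kah A) {f : M → ℝ} (hf : A.Sm f) :
    LG (X := (ofKah K).M) f (fun x => 2 * √(Dg K (M := M) f x)) := by
  have h1 : ContMDiff (𝓡 (2 * n)) 𝓘(ℝ, ℝ) 1 (fun p : (ofKah K).M => f p) :=
    (contMDiff_of_sm K hf).of_le (by norm_num)
  have h2 := lg_of_contMDiff (n := 2 * n) (M := (ofKah K).M) h1
  exact h2.congr (fun _ => rfl) (fun y => (norm_Gr_sqrt K hf y).symm)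

theorem poi_muX (K : Kah A) (hK : (volK K).Semipos) {f : (ofKah K).M → ℝ} (hf : A.Sm (M := M) f) :
    PI (muX K) f (fun x => √(Dg K (M := M) f x)) (8 * 4 ^ (2 * n)) := by
  obtain ⟨C⟩ := rad K hK
  have := finite_muHE K
  have := openPos_muHE K
  have hlg := lg_calcX K hf
  have hint : ∀ g : (ofKah K).M → ℝ, Continuous g → ∀ x r, IntegrableOn g (closedBall x r)
      (Measure.euclideanHausdorffMeasure (2 * n)) := fun g hg x r =>
    (hg.continuousOn.integrableOn_compact (isCompact_closedBall x r))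
  have h1 := pi_rad C hlg (hint _ hlg.contG) (hint _ hlg.continuous)
  intro x r hr
  have h2 := h1 x r hr
  rw [average_muX, average_muX, average_muX]
  refine h2.trans (le_of_eq ?_)
  rw [setAverage_eq, setAverage_eq, integral_const_mul]
  simp only [smul_eq_mul]
  ring

theorem lip_muX (K : Kah A) (hK : (volK K).Semipos) {f : (ofKah K).M → ℝ}
    (hf : A.Sm (M := M) f) (y : (ofKah K).M) {r G : ℝ} (hr : 0 < r) (hG : 0 ≤ G)
    (hb : ∀ x ∈ ball y r, Dg K (M := M) f x ≤ G ^ 2) {p q : (ofKah K).M}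
    (hp : p ∈ closedBall y (r / 3)) (hq : q ∈ closedBall y (r / 3)) :
    |f p - f q| ≤ 2 * G * dist p q := by
  obtain ⟨C⟩ := rad K hK
  have := openPos_muHE K
  refine lip_rad C (LGOn.of_lg (U := univ) (lg_calcX K hf)) hr (by positivity) (subset_univ _)
    (fun x hx => ?_) hp hq
  have h1 : √(Dg K (M := M) f x) ≤ G := Real.sqrt_le_iff.2 ⟨hG, hb x hx⟩
  linarith

variable [Fintype A.ι]

theorem poi_calcX (P : Part A) (K : Kah A) (hK : (volK K).Semipos) :
    ∀ f ∈ (calcX P K).Sm, PI (muX K) f (fun x => √((calcX P K).Gam f x)) (8 * 4 ^ (2 * n)) :=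
  fun _ hf => poi_muX K hK hf

theorem lip_calcX (P : Part A) (K : Kah A) (hK : (volK K).Semipos) :
    ∀ f ∈ (calcX P K).Sm, ∀ (y : (ofKah K).M) (r G : ℝ), 0 < r → 0 ≤ G →
    (∀ x ∈ closedBall y r, (calcX P K).Gam f x ≤ G ^ 2) →
    ∀ p ∈ closedBall y (r / 3), ∀ q ∈ closedBall y (r / 3), |f p - f q| ≤ 2 * G * dist p q :=
  fun _ hf y _ _ hr hG hb _ hp _ hq =>
    lip_muX K hK hf y hr hG (fun x hx => hb x (ball_subset_closedBall hx)) hp hq

end calcX

end

end Crest.Agent.R281.Ins_615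
end

-- ▼ part R281/Spi3_405

/-!
# R281, S-SPI (helper405), part 3: the instance `Sp (calcX P K) (Csp n)`

* `dg_calcX`, `cac_calcX`; **`sp_calcX`** : `(volK K).Semipos → Sp (calcX P K) (Csp n)`.
-/

set_option autoImplicit false
set_option linter.unusedSectionVars false

open Set Filter Topology MeasureTheory Metric Manifold
open scoped ENNReal NNReal Manifold
open Crest.Agent.R275.Geo Crest.Agent.R275.EDR890
open Crest.Agent.R273.RMan_798 Crest.Agent.R273.RMan4_798
open Crest.Agent.R275.Core144 Crest.Agent.R273.Defs_333 Crest.Agent.R273.Kah_333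
open Crest.Agent.R273.Vol_333 Crest.Agent.R273.Vm_333 Crest.Agent.R273.FIb0_597
open Crest.Agent.R273.SchI_152 (Dg Dg_nonneg continuous_Dg)
open Crest.Agent.R281.St_405 Crest.Agent.R281.Mx_405 Crest.Agent.R281.Ins_615
open Crest.Agent.R249.SobC_982 (Cth Cth_pos)
open Crest.Agent.R281.Sm4_593 (CDG CDG_pos)

noncomputable section
namespace Crest.Agent.R281.Spi_405

variable {n : ℕ} {M : Type} [TopologicalSpace M] {A : Atl n M} [T2Space M] [ConnectedSpace M]
  [CompactSpace M]

/-- **sub-mean value inequality** for the calculus -/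
theorem dg_calcX (hn : 1 ≤ n) (K : Kah A) (hK : (volK K).Semipos) {f : (ofKah K).M → ℝ}
    (hf : A.Sm (M := M) f) (hf0 : ∀ x, 0 ≤ f x) (y : (ofKah K).M) {r a b : ℝ} (hr : 0 < r)
    (ha : 0 ≤ a) (hb : 0 ≤ b) (hbr : b * r ^ 2 ≤ 1)
    (hL : ∀ x ∈ closedBall y r, - a - b * f x ≤ Lap K (M := M) f x) {x : (ofKah K).M}
    (hx : x ∈ closedBall y (r / 2)) :
    f x ≤ CDG (2 * n) * 8 ^ (2 * n) * ((⨍ z in closedBall y r, f z ∂(muX K)) + a * r ^ 2) := by
  obtain ⟨C⟩ := rad K hK
  have hC2 : ∀ z : (ofKah K).M, ContMDiffAt (𝓡 (2 * n)) 𝓘(ℝ, ℝ) 2 f z := fun z =>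
    (contMDiff_of_sm K hf z).of_le Crest.Agent.R247.Bo84.two_le_infty
  have h := dg_gen (n := 2 * n) C (by omega) hC2 hf0 (y := y) (A := 4 * a) (B := 4 * b) hr
    (by positivity) (by positivity) (by nlinarith) (fun z hz => by
      have h1 := hL z hz
      have h2 := mLap_eq K hf z
      have h3 : Crest.Agent.R247.Bo84.mLap (2 * n) f z = 4 * Lap K (M := M) f z := h2
      rw [h3]
      linarith) hx
  refine h.trans ?_
  rw [average_muX]
  set m := ⨍ z in closedBall y r, f z ∂(Measure.euclideanHausdorffMeasure (2 * n)) with hm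
  have hm0 : 0 ≤ m := by
    rw [hm, setAverage_eq, smul_eq_mul]
    exact mul_nonneg (inv_nonneg.2 measureReal_nonneg) (integral_nonneg hf0)
  have hC := (CDG_pos (2 * n)).le
  have h8 : (1 : ℝ) ≤ 8 ^ (2 * n) := one_le_pow₀ (by norm_num)
  have har : 0 ≤ a * r ^ 2 := by positivity
  rw [mul_assoc (CDG (2 * n))]
  refine mul_le_mul_of_nonneg_left ?_ hC
  have h9 : 4 * a * (r / 4) ^ 2 = a * r ^ 2 / 4 := by ring
  rw [h9]
  nlinarith [mul_le_mul_of_nonneg_right h8 har]

/-- constant of the Caccioppoli type inequality -/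
def Ccac (n : ℕ) : ℝ := 2 ^ (2 * n) * (2 + 16 * Cth ^ 2)


/-- `t + t²/(2a)` -/
def qa (a t : ℝ) : ℝ := t + t ^ 2 / (2 * a)

theorem contDiff_qa (a : ℝ) : ContDiff ℝ (⊤ : ℕ∞) (qa a) := by
  unfold qa; fun_prop

theorem deriv_qa {a : ℝ} (ha : a ≠ 0) : deriv (qa a) = fun t => 1 + t / a := by
  funext t
  have h1 : HasDerivAt (qa a) (1 + (2 * t) / (2 * a)) t := by
    have h2 : HasDerivAt (fun t : ℝ => t ^ 2) (2 * t) t := by simpa using hasDerivAt_pow 2 t
    exact (hasDerivAt_id t).add (h2.div_const (2 * a))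
  rw [h1.deriv]
  field_simp

theorem deriv2_qa {a : ℝ} (ha : a ≠ 0) (t : ℝ) : deriv (deriv (qa a)) t = 1 / a := by
  rw [deriv_qa ha]
  have h1 : HasDerivAt (fun t : ℝ => 1 + t / a) (1 / a) t :=
    ((hasDerivAt_id t).div_const a).const_add 1
  exact h1.deriv

/-- the Caccioppoli type inequality, `0 < a` -/
theorem cac_pos (hn : 1 ≤ n) (K : Kah A) (hK : (volK K).Semipos) {f : (ofKah K).M → ℝ}
    (hf : A.Sm (M := M) f) (hf0 : ∀ x, 0 ≤ f x) {h : (ofKah K).M → ℝ} (hh : Continuous h)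
    (h0 : ∀ x, 0 ≤ h x) (y : (ofKah K).M) {r a b : ℝ} (hr : 0 < r)
    (ha : 0 < a) (hb : 0 ≤ b) (hfa : ∀ x ∈ closedBall y r, f x ≤ a)
    (hL : ∀ x ∈ closedBall y r, h x ≤ Lap K (M := M) f x + b) :
    ⨍ x in closedBall y (r / 2), h x ∂(muX K) ≤ Ccac n * (a / r ^ 2 + b) := by
  obtain ⟨C⟩ := rad K hK
  have := finite_muHE K
  have := openPos_muHE K
  set μ : Measure (ofKah K).M := Measure.euclideanHausdorffMeasure (2 * n) with hμ
  set F : (ofKah K).M → ℝ := fun x => qa a (f x) with hF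
  have hU : ∀ x : M, f x ∈ (univ : Set ℝ) := fun _ => mem_univ _
  have hcd : ContDiffOn ℝ (⊤ : ℕ∞) (qa a) univ := (contDiff_qa a).contDiffOn
  have hFS : A.Sm (M := M) F := Crest.Agent.R281.Glob2_484.sm_compOn (A := A) hcd hf hU
  have hC2 : ∀ z : (ofKah K).M, ContMDiffAt (𝓡 (2 * n)) 𝓘(ℝ, ℝ) 2 F z := fun z =>
    (contMDiff_of_sm K hFS z).of_le Crest.Agent.R247.Bo84.two_le_infty
  have hLF : ∀ x : M, Lap K (M := M) F x = (1 + f x / a) * Lap K (M := M) f x +
      1 / a * Dg K (M := M) f x := fun x => by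
    have h1 := Crest.Agent.R281.Glob2_484.Lap_compOn K isOpen_univ hcd hf hU x
    rw [deriv_qa ha.ne'] at h1
    have h2 : deriv (fun t : ℝ => 1 + t / a) (f x) = 1 / a := by
      rw [← deriv_qa ha.ne']; exact deriv2_qa ha.ne' _
    rw [h2] at h1
    exact h1
  have hGF : ∀ x : M, Dg K (M := M) F x = (1 + f x / a) ^ 2 * Dg K (M := M) f x := fun x => by
    have h1 := Crest.Agent.R281.Glob2_484.Dg_compOn K isOpen_univ hcd hf hU x
    rw [deriv_qa ha.ne'] at h1
    exact h1
  have hDc : Continuous (fun x : (ofKah K).M => Dg K (M := M) f x) := continuous_Dg K hf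
  have hb34 : closedBall y (3 * r / 4) ⊆ closedBall y r :=
    closedBall_subset_closedBall (by linarith)
  have hmain := cac_gen (n := 2 * n) (M := (ofKah K).M) (F := F) (h := fun x => 4 * h x)
    (q := fun x => 4 / a * Dg K (M := M) f x) hC2 (continuous_const.mul hh)
    (continuous_const.mul hDc) (x0 := y) (a := r / 2) (b := 3 * r / 4) (B := 8 * b)
    (E := 4 * a) (by linarith) (by positivity) (by positivity)
    (fun x _ => by have := h0 x; positivity)
    (fun x _ => by have := Dg_nonneg K hf x; positivity)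
    (fun x hx => by
      have h1 := hL x (hb34 hx)
      have h2 := hfa x (hb34 hx)
      have h3 := h0 x
      have h4 : Crest.Agent.R247.Bo84.mLap (2 * n) F x = 4 * Lap K (M := M) F x :=
        mLap_eq K hFS x
      have h5 : 0 ≤ f x / a := div_nonneg (hf0 x) ha.le
      have h6 : f x / a ≤ 1 := (div_le_one ha).2 h2
      have h7 : h x - 2 * b ≤ (1 + f x / a) * Lap K (M := M) f x := by
        have h8 : (1 + f x / a) * (h x - b) ≤ (1 + f x / a) * Lap K (M := M) f x :=
          mul_le_mul_of_nonneg_left (by linarith) (by linarith)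
        have h9 : 0 ≤ f x / a * h x := mul_nonneg h5 h3
        have h10 : f x / a * b ≤ b := mul_le_of_le_one_left hb h6
        nlinarith
      rw [h4, hLF x]
      have h11 : 4 / a * Dg K (M := M) f x = 4 * (1 / a * Dg K (M := M) f x) := by ring
      rw [h11]
      linarith)
    (fun x hx => by
      have h2 := hfa x (hb34 hx)
      have h5 : 0 ≤ f x / a := div_nonneg (hf0 x) ha.le
      have h6 : f x / a ≤ 1 := (div_le_one ha).2 h2
      have h7 : ‖Crest.Agent.R247.Ms322.Gr (n := 2 * n) F x‖ ^ 2 = 4 * Dg K (M := M) F x :=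
        norm_Gr_eq K hFS x
      have h8 := Dg_nonneg K hf x
      have h9 : (1 + f x / a) ^ 2 ≤ 4 := by nlinarith
      rw [h7, hGF x]
      have h10 : 4 * a * (4 / a * Dg K (M := M) f x) = 16 * Dg K (M := M) f x := by
        field_simp; ring
      rw [h10]
      nlinarith [mul_le_mul_of_nonneg_right h9 h8])
  rw [average_muX, setAverage_eq, smul_eq_mul]
  have hV : 0 < μ.real (closedBall y (r / 2)) :=
    ENNReal.toReal_pos (measure_closedBall_pos μ y (by positivity)).ne' (measure_ne_top _ _)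
  have hD : μ.real (closedBall y (3 * r / 4)) ≤ 2 ^ (2 * n) * μ.real (closedBall y (r / 2)) := by
    have h1 := Crest.Agent.R281.Poin_274.closedBall_doubling C le_rfl y (r := r / 2) (by positivity)
    rw [Crest.Agent.R281.Poin_274.dC_zero, mul_div_cancel₀ r two_ne_zero] at h1
    have h4 := ENNReal.toReal_mono (ENNReal.mul_ne_top ENNReal.ofReal_ne_top
      (measure_ne_top _ _)) h1
    rw [ENNReal.toReal_mul, ENNReal.toReal_ofReal (by positivity)] at h4
    exact (measureReal_mono hb34).trans h4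
  have e1 : 3 * r / 4 - r / 2 = r / 4 := by ring
  rw [e1, integral_const_mul] at hmain
  rw [inv_mul_le_iff₀ hV]
  have e2 : (8 * b + 4 * a * (Cth / (r / 4)) ^ 2) = 4 * (2 * b + 16 * Cth ^ 2 * (a / r ^ 2)) := by
    field_simp
    ring
  rw [e2] at hmain
  have har : 0 ≤ a / r ^ 2 := by positivity
  have h12 : ∫ x in closedBall y (r / 2), h x ∂μ ≤
      (2 * b + 16 * Cth ^ 2 * (a / r ^ 2)) * μ.real (closedBall y (3 * r / 4)) := by linarith
  have hCt := Cth_pos
  calc ∫ x in closedBall y (r / 2), h x ∂μ ≤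
        (2 * b + 16 * Cth ^ 2 * (a / r ^ 2)) * μ.real (closedBall y (3 * r / 4)) := h12
    _ ≤ ((2 + 16 * Cth ^ 2) * (a / r ^ 2 + b)) *
        (2 ^ (2 * n) * μ.real (closedBall y (r / 2))) := by
          gcongr
          nlinarith [mul_nonneg (sq_nonneg Cth) hb]
    _ = _ := by unfold Ccac; ring

/-- **the Caccioppoli type inequality** -/
theorem cac_calcX (hn : 1 ≤ n) (K : Kah A) (hK : (volK K).Semipos) {f : (ofKah K).M → ℝ}
    (hf : A.Sm (M := M) f) (hf0 : ∀ x, 0 ≤ f x) {h : (ofKah K).M → ℝ} (hh : Continuous h)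
    (h0 : ∀ x, 0 ≤ h x) (y : (ofKah K).M) {r a b : ℝ} (hr : 0 < r)
    (ha : 0 ≤ a) (hb : 0 ≤ b) (hfa : ∀ x ∈ closedBall y r, f x ≤ a)
    (hL : ∀ x ∈ closedBall y r, h x ≤ Lap K (M := M) f x + b) :
    ⨍ x in closedBall y (r / 2), h x ∂(muX K) ≤ Ccac n * (a / r ^ 2 + b) := by
  have h1 : ∀ e : ℝ, 0 < e → ⨍ x in closedBall y (r / 2), h x ∂(muX K) ≤
      Ccac n * ((a + e) / r ^ 2 + b) := fun e he =>
    cac_pos hn K hK hf hf0 hh h0 y hr (by linarith) hb (fun x hx => by linarith [hfa x hx]) hL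
  have h2 : Tendsto (fun e : ℝ => Ccac n * ((a + e) / r ^ 2 + b)) (𝓝[>] 0)
      (𝓝 (Ccac n * ((a + 0) / r ^ 2 + b))) := by
    have h3 : Continuous (fun e : ℝ => Ccac n * ((a + e) / r ^ 2 + b)) := by fun_prop
    exact (h3.tendsto 0).mono_left nhdsWithin_le_nhds
  rw [add_zero] at h2
  exact ge_of_tendsto h2 (by filter_upwards [self_mem_nhdsWithin] with e he using h1 e he)

/-- the constant of the space hypotheses -/
def Csp (n : ℕ) : ℝ≥0 := 2 + 2 ^ (2 * n) + 8 * 4 ^ (2 * n) +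
  (CDG (2 * n) * 8 ^ (2 * n)).toNNReal + (Ccac n).toNNReal

theorem Csp_two (n : ℕ) : (2 : ℝ) ≤ Csp n := by
  have : (2 : ℝ≥0) ≤ Csp n := by unfold Csp; rw [add_assoc, add_assoc, add_assoc]; exact le_self_add
  exact_mod_cast this

theorem Csp_dbl (n : ℕ) : (2 : ℝ≥0) ^ (2 * n) ≤ Csp n := by
  unfold Csp
  calc (2 : ℝ≥0) ^ (2 * n) ≤ 2 + 2 ^ (2 * n) := le_add_self
    _ ≤ _ := by rw [add_assoc (2 + 2 ^ (2 * n) : ℝ≥0), add_assoc]; exact le_self_add

theorem Csp_poi (n : ℕ) : (8 * 4 ^ (2 * n) : ℝ) ≤ Csp n := by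
  have : (8 * 4 ^ (2 * n) : ℝ≥0) ≤ Csp n := by
    unfold Csp
    calc (8 * 4 ^ (2 * n) : ℝ≥0) ≤ 2 + 2 ^ (2 * n) + 8 * 4 ^ (2 * n) := le_add_self
      _ ≤ _ := by rw [add_assoc (2 + 2 ^ (2 * n) + 8 * 4 ^ (2 * n) : ℝ≥0)]; exact le_self_add
  exact_mod_cast this

theorem Csp_dg (n : ℕ) : CDG (2 * n) * 8 ^ (2 * n) ≤ Csp n := by
  have h1 : (CDG (2 * n) * 8 ^ (2 * n)).toNNReal ≤ Csp n := by
    unfold Csp
    exact le_trans le_add_self le_self_add
  have h2 : CDG (2 * n) * 8 ^ (2 * n) ≤ ((CDG (2 * n) * 8 ^ (2 * n)).toNNReal : ℝ) :=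
    Real.le_coe_toNNReal _
  exact h2.trans (by exact_mod_cast h1)

theorem Csp_cac (n : ℕ) : Ccac n ≤ Csp n := by
  have h1 : (Ccac n).toNNReal ≤ Csp n := by
    unfold Csp
    exact le_add_self
  exact (Real.le_coe_toNNReal _).trans (by exact_mod_cast h1)

variable [Fintype A.ι]

/-- **the space hypotheses hold for every compact Kaehler manifold with `Ric ≥ 0`**, with a constant
depending on the dimension only. -/
theorem sp_calcX (hn : 1 ≤ n) (P : Part A) (K : Kah A) (hK : (volK K).Semipos) :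
    Sp (calcX P K) (Csp n) where
  prob := prob_muX K
  dbl := by
    have h := dbl_muX K hK
    refine ⟨fun x r hr => (h.dbl x r hr).trans ?_, h.pos, h.fin⟩
    gcongr
    exact Csp_dbl n
  POI f hf x r hr := by
    refine (poi_calcX P K hK f hf x r hr).trans ?_
    have h1 : 0 ≤ ⨍ z in closedBall x (2 * r), √((calcX P K).Gam f z) ∂(muX K) := by
      rw [setAverage_eq, smul_eq_mul]
      exact mul_nonneg (inv_nonneg.2 measureReal_nonneg)
        (integral_nonneg fun _ => Real.sqrt_nonneg _)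
    gcongr
    exact Csp_poi n
  DG1 f hf hf0 y r a b hr ha hb hbr hL x hx := by
    refine (dg_calcX hn K hK hf hf0 y hr ha hb hbr hL hx).trans ?_
    have h1 : 0 ≤ ⨍ z in closedBall y r, f z ∂(muX K) := by
      rw [setAverage_eq, smul_eq_mul]
      exact mul_nonneg (inv_nonneg.2 measureReal_nonneg) (integral_nonneg hf0)
    gcongr
    exact Csp_dg n
  CAC f hf hf0 h hh h0 y r a b hr ha hb hfa hL := by
    refine (cac_calcX hn K hK hf hf0 hh h0 y hr ha hb hfa hL).trans ?_
    gcongr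
    exact Csp_cac n
  LIP f hf y r G hr hG hb p hp q hq := by
    refine (lip_calcX P K hK f hf y r G hr hG hb p hp q hq).trans ?_
    gcongr
    exact Csp_two n

end Crest.Agent.R281.Spi_405
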