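import Crest.Agent.R281.Df2_612_Mg

-- ▼ part R281/Df3_612
section

namespace Crest.Agent.R281.Df3_612

open MeasureTheory Measure Set Metric Module Complex
open scoped ENNReal NNReal Real Topology unitInterval

/-- A curve whose local speed is at most the continuous function `c` has length at most `∫ c`. -/
theorem dist_le_integral {X : Type*} [PseudoMetricSpace X] {γ : ℝ → X} (hγ : Continuous γ)
    {c : ℝ → ℝ} (hc : Continuous c)
    (hloc : ∀ t ∈ Ico (0 : ℝ) 1, ∀ ε > 0, ∀ᶠ u in 𝓝[>] t, dist (γ t) (γ u) ≤ (c t + ε) * (u - t)) :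
    dist (γ 0) (γ 1) ≤ ∫ t in (0 : ℝ)..1, c t := by
  set F : ℝ → ℝ := fun t => dist (γ 0) (γ t) with hF
  set B : ℝ → ℝ := fun t => ∫ s in (0 : ℝ)..t, c s with hB
  have hBd : ∀ x : ℝ, HasDerivAt B (c x) x := fun x =>
    (hc.integral_hasStrictDerivAt 0 x).hasDerivAt
  have hBc : Continuous B := continuous_iff_continuousAt.2 fun x => (hBd x).continuousAt
  have h1 := image_le_of_liminf_slope_right_le_deriv_boundary (f := F) (a := 0) (b := 1)
    (continuous_const.dist hγ).continuousOn (B := B) (B' := c)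
    (by simp [hF, hB]) hBc.continuousOn (fun x _ => (hBd x).hasDerivWithinAt)
    (fun x hx r hr => by
      refine Filter.Eventually.frequently ?_
      have h2 := hloc x hx ((r - c x) / 2) (by linarith)
      filter_upwards [h2, self_mem_nhdsWithin] with u hu hxu
      have hxu' : x < u := hxu
      have hpos : 0 < u - x := by linarith
      rw [slope_def_field, div_lt_iff₀ hpos]
      have h3 : F u - F x ≤ dist (γ x) (γ u) := by
        have := dist_triangle (γ 0) (γ x) (γ u)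
        simp only [hF]
        linarith
      have h4 : (c x + (r - c x) / 2) * (u - x) < r * (u - x) := by
        refine mul_lt_mul_of_pos_right ?_ hpos
        linarith
      linarith)
  exact h1 (x := 1) (by simp)

variable {ι : Type*} [Fintype ι]

/-- coordinatewise exponential -/
noncomputable def expPi (z : ι → ℂ) : ι → ℂ := fun j => Complex.exp (z j)

omit [Fintype ι] in
theorem continuous_expPi : Continuous (expPi (ι := ι)) := by
  unfold expPi; fun_prop

theorem differentiable_expPi : Differentiable ℂ (expPi (ι := ι)) := by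
  unfold expPi; fun_prop

omit [Fintype ι] in
theorem expPi_ne_zero (z : ι → ℂ) (j : ι) : expPi z j ≠ 0 := Complex.exp_ne_zero _

/-- local sections with the metric estimate: near `p` the inverse branch of `log f` is
`(sg p + ε)`-Lipschitz. -/
def LenAt {X : Type*} [PseudoMetricSpace X] (f : X → ι → ℂ) (sg : X → ℝ) (p : X) : Prop :=
  ∀ ζ0 : ι → ℂ, expPi ζ0 = f p → ∀ ε > 0, ∃ δ > 0, ∃ s : (ι → ℂ) → X, s ζ0 = p ∧
    (∀ ζ ∈ ball ζ0 δ, f (s ζ) = expPi ζ) ∧
    ∀ ζ ∈ ball ζ0 δ, dist p (s ζ) ≤ (sg p + ε) * ‖ζ - ζ0‖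

/-- the lift of a straight segment and its length -/
theorem exists_lift {X : Type*} [PseudoMetricSpace X] {f : X → ι → ℂ} {U : Set (ι → ℂ)}
    (cov : IsCoveringMapOn f U) {sg : X → ℝ} (hsg : ContinuousOn sg (f ⁻¹' U))
    (hsg0 : ∀ p ∈ f ⁻¹' U, 0 ≤ sg p)
    (hlen : ∀ p ∈ f ⁻¹' U, LenAt f sg p) {x : X} {ζ0 q : ι → ℂ}
    (hx : f x = expPi ζ0) (hU : ∀ t ∈ Icc (0 : ℝ) 1, expPi (ζ0 + t • (q - ζ0)) ∈ U) :
    ∃ Γ : ℝ → X, Continuous Γ ∧ Γ 0 = x ∧
      (∀ t ∈ Icc (0 : ℝ) 1, f (Γ t) = expPi (ζ0 + t • (q - ζ0))) ∧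
      (∀ t, Γ t ∈ f ⁻¹' U) ∧
      dist x (Γ 1) ≤ ∫ t in (0 : ℝ)..1, ‖q - ζ0‖ * sg (Γ t) := by
  have hcont : Continuous fun t : unitInterval => expPi (ζ0 + (t : ℝ) • (q - ζ0)) := by
    refine continuous_expPi.comp ?_
    fun_prop
  obtain ⟨G, hG0, hGf⟩ : ∃ G : C(unitInterval, X), G 0 = x ∧
      ∀ t : unitInterval, f (G t) = expPi (ζ0 + (t : ℝ) • (q - ζ0)) := by
    have hxU : f x ∈ U := by
      have := hU 0 (by simp)
      rw [hx]
      simpa using this
    obtain ⟨G, hG, hG0⟩ := cov.isCoveringMap_restrictPreimage.exists_path_lifts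
      (⟨fun t : unitInterval => ⟨expPi (ζ0 + (t : ℝ) • (q - ζ0)), hU t t.2⟩,
        hcont.subtype_mk _⟩ : C(unitInterval, U)) ⟨x, hxU⟩
      (by
        apply Subtype.ext
        simpa using hx.symm)
    refine ⟨⟨fun t => (G t : X), continuous_subtype_val.comp G.continuous⟩, ?_, fun t => ?_⟩
    · change ((G 0 : f ⁻¹' U) : X) = x
      rw [hG0]
    · have := congrFun hG t
      exact congrArg Subtype.val this
  set Γ : ℝ → X := fun t => G (projIcc 0 1 zero_le_one t) with hΓ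
  have hΓc : Continuous Γ := G.continuous.comp continuous_projIcc
  have hΓ0 : Γ 0 = x := by
    simp only [hΓ]
    rw [projIcc_left]
    exact hG0
  have hΓf : ∀ t ∈ Icc (0 : ℝ) 1, f (Γ t) = expPi (ζ0 + t • (q - ζ0)) := by
    intro t ht
    simp only [hΓ]
    rw [hGf, projIcc_of_mem zero_le_one ht]
  have hΓU : ∀ t, Γ t ∈ f ⁻¹' U := by
    intro t
    simp only [hΓ, mem_preimage]
    rw [hGf]
    exact hU _ (projIcc 0 1 zero_le_one t).2
  refine ⟨Γ, hΓc, hΓ0, hΓf, hΓU, ?_⟩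
  have hsgc : Continuous fun t => sg (Γ t) := by
    rw [continuous_iff_continuousAt]
    intro t
    exact (hsg.comp_continuous hΓc hΓU).continuousAt
  have h0 := dist_le_integral hΓc (c := fun t => ‖q - ζ0‖ * sg (Γ t))
    (continuous_const.mul hsgc)
    (fun t ht ε hε => ?_)
  · rw [hΓ0] at h0
    exact h0
  -- local estimate
  set v := q - ζ0 with hv
  have htI : t ∈ Icc (0 : ℝ) 1 := ⟨ht.1, ht.2.le⟩
  have hpU := hΓU t
  obtain ⟨δ, hδ, s, hs0, hsf, hsd⟩ := hlen (Γ t) hpU (ζ0 + t • v) (hΓf t htI).symm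
    (ε / (‖v‖ + 1)) (by positivity)
  -- `f` is injective near `Γ t`
  obtain ⟨φ, hφm, hφ⟩ := cov.isLocalHomeomorphOn (Γ t) hpU
  have hφf : ∀ y, φ y = f y := fun y => congrFun hφ.symm y
  have hsgp := hsg0 _ hpU
  -- `s` is continuous at the centre
  have hsc : Filter.Tendsto (fun u : ℝ => s (ζ0 + u • v)) (𝓝[>] t) (𝓝 (Γ t)) := by
    rw [tendsto_iff_dist_tendsto_zero]
    have hb : ∀ᶠ u in 𝓝[>] t, ζ0 + u • v ∈ ball (ζ0 + t • v) δ := by
      have hc1 : Continuous fun u : ℝ => ζ0 + u • v := by fun_prop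
      exact (hc1.tendsto t).mono_left nhdsWithin_le_nhds (ball_mem_nhds _ hδ)
    have hlim : Filter.Tendsto (fun u : ℝ => (sg (Γ t) + ε / (‖v‖ + 1)) * ‖(ζ0 + u • v) - (ζ0 + t • v)‖)
        (𝓝[>] t) (𝓝 0) := by
      have hc1 : Continuous fun u : ℝ => (sg (Γ t) + ε / (‖v‖ + 1)) * ‖(ζ0 + u • v) - (ζ0 + t • v)‖ := by
        fun_prop
      have := (hc1.tendsto t).mono_left (nhdsWithin_le_nhds (s := Ioi t))
      simpa using this
    refine squeeze_zero' (Filter.Eventually.of_forall fun u => dist_nonneg) ?_ hlim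
    filter_upwards [hb] with u hu
    rw [dist_comm]
    exact hsd _ hu
  have hev1 : ∀ᶠ u in 𝓝[>] t, s (ζ0 + u • v) ∈ φ.source :=
    hsc (φ.open_source.mem_nhds hφm)
  have hev2 : ∀ᶠ u in 𝓝[>] t, Γ u ∈ φ.source :=
    ((hΓc.tendsto t).mono_left nhdsWithin_le_nhds) (φ.open_source.mem_nhds hφm)
  have hev3 : ∀ᶠ u in 𝓝[>] t, u ∈ Ioo t 1 := Ioo_mem_nhdsGT ht.2
  have hev4 : ∀ᶠ u in 𝓝[>] t, ζ0 + u • v ∈ ball (ζ0 + t • v) δ := by
    have hc1 : Continuous fun u : ℝ => ζ0 + u • v := by fun_prop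
    exact (hc1.tendsto t).mono_left nhdsWithin_le_nhds (ball_mem_nhds _ hδ)
  filter_upwards [hev1, hev2, hev3, hev4] with u hu1 hu2 hu3 hu4
  have huI : u ∈ Icc (0 : ℝ) 1 := ⟨by linarith [ht.1, hu3.1], hu3.2.le⟩
  have heq : s (ζ0 + u • v) = Γ u := by
    refine φ.injOn hu1 hu2 ?_
    rw [hφf, hφf, hsf _ hu4, hΓf u huI]
  rw [← heq]
  refine (hsd _ hu4).trans ?_
  have hnorm : ‖(ζ0 + u • v) - (ζ0 + t • v)‖ = (u - t) * ‖v‖ := by
    have : (ζ0 + u • v) - (ζ0 + t • v) = (u - t) • v := by module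
    rw [this, norm_smul, Real.norm_of_nonneg (by linarith [hu3.1])]
  rw [hnorm]
  have h5 : ε / (‖v‖ + 1) * ‖v‖ ≤ ε := by
    rw [div_mul_eq_mul_div, div_le_iff₀ (by positivity)]
    nlinarith [norm_nonneg v]
  have h6 : 0 < u - t := by linarith [hu3.1]
  calc (sg (Γ t) + ε / (‖v‖ + 1)) * ((u - t) * ‖v‖)
      = (‖v‖ * sg (Γ t) + ε / (‖v‖ + 1) * ‖v‖) * (u - t) := by ring
    _ ≤ (‖v‖ * sg (Γ t) + ε) * (u - t) := by
      refine mul_le_mul_of_nonneg_right ?_ h6.le
      linarith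

/-- sum over the fibre -/
noncomputable def fiberSum {X B : Type*} (f : X → B) (φ : X → ℝ≥0∞) (w : B) : ℝ≥0∞ :=
  ∑' y : f ⁻¹' {w}, φ y

theorem le_fiberSum {X B : Type*} {f : X → B} {φ : X → ℝ≥0∞} {w : B} {y : X} (hy : f y = w) :
    φ y ≤ fiberSum f φ w :=
  ENNReal.le_tsum (f := fun y : f ⁻¹' {w} => φ y) ⟨y, hy⟩

end Crest.Agent.R281.Df3_612
end

-- ▼ part R281/Df4_612
section

namespace Crest.Agent.R281.Df4_612

open MeasureTheory Measure Set Metric Module Complex
open scoped ENNReal NNReal Real Topology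
open Crest.Agent.R281.Df3_612

section fib

variable {X B : Type*} [TopologicalSpace X] [TopologicalSpace B] {f : X → B}

/-- local sections of a covering with finite fibres -/
theorem exists_sections {w0 : B} {U : Set B} (hw0 : w0 ∈ U)
    (cov : IsCoveringMapOn f U) (hfin : (f ⁻¹' {w0}).Finite) :
    ∃ (V : Set B) (n : ℕ) (S : Fin n → B → X), IsOpen V ∧ w0 ∈ V ∧
      (∀ i, ContinuousOn (S i) V) ∧ (∀ i, ∀ w ∈ V, f (S i w) = w) ∧
      (∀ w ∈ V, ∀ i j, S i w = S j w → i = j) ∧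
      (∀ w ∈ V, ∀ x, f x = w → ∃ i, S i w = x) := by
  obtain ⟨hdisc, V, hwV, hV, hfV, H, hH⟩ := cov w0 hw0
  have hfI : Finite (f ⁻¹' {w0}) := hfin
  obtain ⟨n, ⟨e⟩⟩ := Finite.exists_equiv_fin (f ⁻¹' {w0})
  rcases isEmpty_or_nonempty X with hX | hX
  · refine ⟨V, 0, fun i => i.elim0, hV, hwV, fun i => i.elim0, fun i => i.elim0,
      fun w _ i => i.elim0, fun w _ x => (hX.false x).elim⟩
  classical
  refine ⟨V, n, fun i w => if hw : w ∈ V then (H.symm (⟨w, hw⟩, e.symm i) : X) else Classical.arbitrary X,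
    hV, hwV, fun i => ?_, fun i w hw => ?_, fun w hw i j hij => ?_, fun w hw x hx => ?_⟩
  · rw [continuousOn_iff_continuous_domRestrict]
    have : (V.domRestrict fun w => if hw : w ∈ V then (H.symm (⟨w, hw⟩, e.symm i) : X)
        else Classical.arbitrary X) = fun w : V => (H.symm (w, e.symm i) : X) := by
      funext w
      simp [Set.domRestrict]
    rw [this]
    exact continuous_subtype_val.comp (H.symm.continuous.comp (by fun_prop))
  · simp only [dif_pos hw]
    have := hH (H.symm (⟨w, hw⟩, e.symm i))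
    rw [H.apply_symm_apply] at this
    exact this.symm
  · simp only [dif_pos hw] at hij
    have h1 := H.symm.injective (Subtype.ext hij)
    have h2 : e.symm i = e.symm j := (Prod.mk.inj h1).2
    exact e.symm.injective h2
  · have hxV : x ∈ f ⁻¹' V := by
      rw [mem_preimage, hx]; exact hw
    refine ⟨e (H ⟨x, hxV⟩).2, ?_⟩
    simp only [dif_pos hw, Equiv.symm_apply_apply]
    have h3 : (⟨w, hw⟩, (H ⟨x, hxV⟩).2) = H ⟨x, hxV⟩ := by
      refine Prod.ext (Subtype.ext ?_) rfl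
      rw [hH]
      exact hx.symm
    rw [h3, H.symm_apply_apply]

omit [TopologicalSpace X] [TopologicalSpace B] in
/-- the fibre sum through sections -/
theorem fiberSum_eq {V : Set B} {n : ℕ} {S : Fin n → B → X}
    (hS : ∀ i, ∀ w ∈ V, f (S i w) = w) (hinj : ∀ w ∈ V, ∀ i j, S i w = S j w → i = j)
    (hsurj : ∀ w ∈ V, ∀ x, f x = w → ∃ i, S i w = x) (φ : X → ℝ≥0∞) {w : B} (hw : w ∈ V) :
    fiberSum f φ w = ∑ i, φ (S i w) := by
  have hbij : Function.Bijective (fun i : Fin n => (⟨S i w, hS i w hw⟩ : f ⁻¹' {w})) := by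
    constructor
    · intro i j hij
      exact hinj w hw i j (congrArg Subtype.val hij)
    · rintro ⟨x, hx⟩
      obtain ⟨i, hi⟩ := hsurj w hw x hx
      exact ⟨i, Subtype.ext hi⟩
  unfold fiberSum
  rw [← (Equiv.ofBijective _ hbij).tsum_eq, tsum_fintype]
  rfl

theorem fiberSum_continuousOn {U : Set B} (cov : IsCoveringMapOn f U)
    (hfin : ∀ w ∈ U, (f ⁻¹' {w}).Finite) {φ : X → ℝ≥0∞} (hφ : ContinuousOn φ (f ⁻¹' U))
    (hU : IsOpen U) : ContinuousOn (fiberSum f φ) U := by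
  intro w0 hw0
  refine ContinuousAt.continuousWithinAt ?_
  obtain ⟨V, n, S, hV, hwV, hSc, hS, hinj, hsurj⟩ := exists_sections hw0 cov (hfin w0 hw0)
  have hVU : V ∩ U ∈ 𝓝 w0 := (hV.inter hU).mem_nhds ⟨hwV, hw0⟩
  have h1 : ContinuousOn (fun w => ∑ i, φ (S i w)) (V ∩ U) := by
    refine continuousOn_finsetSum _ fun i _ => ?_
    refine hφ.comp ((hSc i).mono inter_subset_left) ?_
    intro w hw
    rw [mem_preimage, hS i w hw.1]
    exact hw.2
  have h2 : ContinuousAt (fun w => ∑ i, φ (S i w)) w0 := h1.continuousAt hVU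
  refine h2.congr ?_
  filter_upwards [hVU] with w hw
  exact (fiberSum_eq hS hinj hsurj φ hw.1).symm

end fib

section meas

variable {ι : Type*} [Fintype ι]

omit [Fintype ι] in
theorem expPi_injOn_of_im {K : Set (ι → ℂ)}
    (hK : ∀ z ∈ K, ∀ w ∈ K, ∀ j, |(z j).im - (w j).im| < 2 * π) : InjOn (expPi (ι := ι)) K := by
  intro z hz w hw h
  funext j
  have h1 : Complex.exp (z j) = Complex.exp (w j) := congrFun h j
  obtain ⟨n, hn⟩ := Complex.exp_eq_exp_iff_exists_int.1 h1
  have h2 : (z j).im - (w j).im = n * (2 * π) := by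
    have := congrArg Complex.im hn
    simp at this
    linarith
  have h3 := hK z hz w hw j
  rw [h2, abs_mul, abs_of_pos (show (0 : ℝ) < 2 * π by positivity)] at h3
  have h4 : |(n : ℝ)| < 1 := by
    have hpi : (0 : ℝ) < 2 * π := by positivity
    by_contra hcon
    push Not at hcon
    nlinarith
  have h5 : n = 0 := by
    rw [← Int.cast_abs] at h4
    have : |n| < 1 := by exact_mod_cast h4
    exact Int.abs_lt_one_iff.1 this
  rw [h5] at hn
  simpa using hn

/-- local change of variables for the inverse branches of `log f` -/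
def MeasAt {X : Type*} [TopologicalSpace X] [MeasurableSpace X] (f : X → ι → ℂ)
    (mX : Measure X) (p : X) : Prop :=
  ∀ ζ0 : ι → ℂ, expPi ζ0 = f p → ∃ δ > 0, ∃ s : (ι → ℂ) → X, s ζ0 = p ∧
    ContinuousOn s (ball ζ0 δ) ∧ (∀ ζ ∈ ball ζ0 δ, f (s ζ) = expPi ζ) ∧
    ∀ φ : X → ℝ≥0∞, Measurable φ → ∀ A ⊆ ball ζ0 δ, MeasurableSet A →
      ∫⁻ x in s '' A, φ x ∂mX = ∫⁻ z in A, φ (s z)

theorem local_cov {X : Type*} [TopologicalSpace X] [T2Space X] [MeasurableSpace X] [BorelSpace X]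
    {f : X → ι → ℂ} {mX : Measure X} {U : Set (ι → ℂ)}
    (cov : IsCoveringMapOn f U) (hfin : ∀ w ∈ U, (f ⁻¹' {w}).Finite)
    (hmeas : ∀ p ∈ f ⁻¹' U, MeasAt f mX p) {z0 : ι → ℂ} (hz0 : expPi z0 ∈ U) :
    ∃ ε > 0, ∀ φ : X → ℝ≥0∞, Measurable φ → ∀ A ⊆ ball z0 ε, MeasurableSet A →
      MeasurableSet (f ⁻¹' (expPi '' A)) ∧
      ∫⁻ x in f ⁻¹' (expPi '' A), φ x ∂mX = ∫⁻ z in A, fiberSum f φ (expPi z) := by
  classical
  obtain ⟨V, n, S, hV, hwV, hSc, hS, hinj, hsurj⟩ := exists_sections hz0 cov (hfin _ hz0)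
  have hp : ∀ i, S i (expPi z0) ∈ f ⁻¹' U := fun i => by
    rw [mem_preimage, hS i _ hwV]; exact hz0
  choose δ hδ s hs0 hsc hsf hsm using fun i => hmeas _ (hp i) z0 (hS i _ hwV).symm
  -- agreement of the two sections near `z0`
  have hagree : ∀ i, ∃ ε > 0, ε ≤ δ i ∧ ∀ z ∈ ball z0 ε, expPi z ∈ V ∧ s i z = S i (expPi z) := by
    intro i
    obtain ⟨ψ, hψm, hψ⟩ := cov.isLocalHomeomorphOn _ (hp i)
    have hψf : ∀ y, ψ y = f y := fun y => congrFun hψ.symm y
    have h1 : ContinuousAt (fun z => S i (expPi z)) z0 := by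
      refine ContinuousAt.comp (f := expPi) (g := S i) ?_ continuous_expPi.continuousAt
      exact (hSc i).continuousAt (hV.mem_nhds hwV)
    have h2 : ContinuousAt (s i) z0 := (hsc i).continuousAt (ball_mem_nhds _ (hδ i))
    have e1 : ∀ᶠ z in 𝓝 z0, S i (expPi z) ∈ ψ.source := h1 (ψ.open_source.mem_nhds hψm)
    have e2 : ∀ᶠ z in 𝓝 z0, s i z ∈ ψ.source := by
      refine h2 (ψ.open_source.mem_nhds ?_)
      rw [hs0 i]; exact hψm
    have e3 : ∀ᶠ z in 𝓝 z0, expPi z ∈ V :=
      continuous_expPi.continuousAt (hV.mem_nhds hwV)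
    have e4 : ∀ᶠ z in 𝓝 z0, z ∈ ball z0 (δ i) := ball_mem_nhds _ (hδ i)
    obtain ⟨ε, hε, hball⟩ := Metric.eventually_nhds_iff_ball.1 (e1.and (e2.and (e3.and e4)))
    refine ⟨min ε (δ i), lt_min hε (hδ i), min_le_right _ _, fun z hz => ?_⟩
    obtain ⟨a1, a2, a3, a4⟩ := hball z (ball_subset_ball (min_le_left _ _) hz)
    refine ⟨a3, ψ.injOn a2 a1 ?_⟩
    rw [hψf, hψf, hsf i z a4, hS i _ a3]
  choose ε hε hεδ hεag using hagree
  have e5 : ∀ᶠ z in 𝓝 z0, expPi z ∈ V := continuous_expPi.continuousAt (hV.mem_nhds hwV)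
  obtain ⟨ε0, hε0, hball0⟩ := Metric.eventually_nhds_iff_ball.1 e5
  -- a common radius
  obtain ⟨r, hr, hrε⟩ : ∃ r > 0, ∀ i, r ≤ ε i := by
    rcases isEmpty_or_nonempty (Fin n) with hE | hE
    · exact ⟨1, one_pos, fun i => hE.elim i⟩
    · refine ⟨Finset.univ.inf' Finset.univ_nonempty ε, ?_, fun i => Finset.inf'_le _ (Finset.mem_univ i)⟩
      rw [gt_iff_lt, Finset.lt_inf'_iff]
      exact fun i _ => hε i
  refine ⟨min (min r ε0) 1, lt_min (lt_min hr hε0) one_pos, fun φ hφ A hA hAm => ?_⟩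
  set R := min (min r ε0) 1
  have hAi : ∀ i, A ⊆ ball z0 (ε i) := fun i =>
    hA.trans (ball_subset_ball (((min_le_left _ _).trans (min_le_left _ _)).trans (hrε i)))
  have hAδ : ∀ i, A ⊆ ball z0 (δ i) := fun i => (hAi i).trans (ball_subset_ball (hεδ i))
  have hAV : ∀ z ∈ A, expPi z ∈ V := fun z hz =>
    hball0 z (ball_subset_ball ((min_le_left _ _).trans (min_le_right _ _)) (hA hz))
  have hA1 : A ⊆ ball z0 1 := hA.trans (ball_subset_ball (min_le_right _ _))
  have hinjA : InjOn (expPi (ι := ι)) A := by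
    refine expPi_injOn_of_im fun z hz w hw j => ?_
    have h1 := hA1 hz
    have h2 := hA1 hw
    rw [mem_ball, dist_eq_norm] at h1 h2
    have h3 : |(z j).im - (w j).im| ≤ ‖z - w‖ := by
      have h4 : (z j).im - (w j).im = ((z - w) j).im := by simp
      rw [h4]
      exact (Complex.abs_im_le_norm _).trans (norm_le_pi_norm (z - w) j)
    have h5 : ‖z - w‖ < 2 := by
      calc ‖z - w‖ = ‖(z - z0) - (w - z0)‖ := by congr 1; abel
        _ ≤ ‖z - z0‖ + ‖w - z0‖ := norm_sub_le _ _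
        _ < 2 := by linarith
    have h6 := Real.pi_gt_three
    linarith
  have hsinj : ∀ i, InjOn (s i) A := by
    intro i z hz w hw h
    refine hinjA hz hw ?_
    rw [← hsf i z (hAδ i hz), ← hsf i w (hAδ i hw), h]
  have him : ∀ i, MeasurableSet (s i '' A) := fun i =>
    hAm.image_of_continuousOn_injOn ((hsc i).mono (hAδ i)) (hsinj i)
  have hunion : f ⁻¹' (expPi '' A) = ⋃ i, s i '' A := by
    ext x
    simp only [mem_preimage, mem_image, mem_iUnion]
    constructor
    · rintro ⟨z, hz, hzx⟩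
      obtain ⟨i, hi⟩ := hsurj (expPi z) (hAV z hz) x hzx.symm
      exact ⟨i, z, hz, by rw [(hεag i z (hAi i hz)).2, hi]⟩
    · rintro ⟨i, z, hz, rfl⟩
      exact ⟨z, hz, (hsf i z (hAδ i hz)).symm⟩
  have hdisj : Pairwise (Function.onFun Disjoint fun i => s i '' A) := by
    intro i j hij
    rw [Function.onFun, Set.disjoint_left]
    rintro x ⟨z, hz, rfl⟩ ⟨w, hw, hwz⟩
    have h1 : expPi w = expPi z := by
      rw [← hsf i z (hAδ i hz), ← hsf j w (hAδ j hw), hwz]
    have h2 := hinjA hw hz h1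
    subst h2
    rw [(hεag i w (hAi i hw)).2, (hεag j w (hAi j hw)).2] at hwz
    exact hij (hinj _ (hAV w hw) _ _ hwz.symm)
  refine ⟨by rw [hunion]; exact MeasurableSet.iUnion him, ?_⟩
  rw [hunion, lintegral_iUnion him hdisj, tsum_fintype]
  have h7 : ∀ i, ∫⁻ x in s i '' A, φ x ∂mX = ∫⁻ z in A, φ (s i z) := fun i =>
    hsm i φ hφ A (hAδ i) hAm
  simp_rw [h7]
  have hae : ∀ i, AEMeasurable (fun z => φ (s i z)) (volume.restrict A) := fun i =>
    hφ.comp_aemeasurable (((hsc i).mono (hAδ i)).aemeasurable hAm)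
  rw [← lintegral_finsetSum' Finset.univ (fun i _ => hae i)]
  refine setLIntegral_congr_fun hAm fun z hz => ?_
  rw [fiberSum_eq hS hinj hsurj φ (hAV z hz)]
  exact Finset.sum_congr rfl fun i _ => by rw [(hεag i z (hAi i hz)).2]

/-- GLOBAL CHANGE OF VARIABLES. -/
theorem lintegral_cov {X : Type*} [TopologicalSpace X] [T2Space X] [MeasurableSpace X]
    [BorelSpace X] {f : X → ι → ℂ} {mX : Measure X} {U : Set (ι → ℂ)}
    (cov : IsCoveringMapOn f U) (hfin : ∀ w ∈ U, (f ⁻¹' {w}).Finite)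
    (hmeas : ∀ p ∈ f ⁻¹' U, MeasAt f mX p) {A : Set (ι → ℂ)} (hAm : MeasurableSet A)
    (hAU : ∀ z ∈ A, expPi z ∈ U) (hinj : InjOn (expPi (ι := ι)) A)
    {φ : X → ℝ≥0∞} (hφ : Measurable φ) :
    MeasurableSet (f ⁻¹' (expPi '' A)) ∧
      ∫⁻ x in f ⁻¹' (expPi '' A), φ x ∂mX = ∫⁻ z in A, fiberSum f φ (expPi z) := by
  classical
  choose! ε hε hloc using fun (z0 : ι → ℂ) (hz0 : z0 ∈ A) => local_cov cov hfin hmeas (hAU z0 hz0)
  obtain ⟨t, htA, htc, hcov⟩ := TopologicalSpace.countable_cover_nhdsWithin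
    (s := A) (f := fun z => ball z (ε z)) (fun z hz =>
      mem_nhdsWithin_of_mem_nhds (ball_mem_nhds z (hε z hz)))
  rcases t.eq_empty_or_nonempty with rfl | htne
  · have hA0 : A = ∅ := by
      simpa using hcov
    subst hA0
    simp
  obtain ⟨u, hu⟩ := htc.exists_eq_range htne
  have huA : ∀ k, u k ∈ A := fun k => htA (by rw [hu]; exact mem_range_self k)
  set B : ℕ → Set (ι → ℂ) := fun k => A ∩ ball (u k) (ε (u k)) with hB
  have hBm : ∀ k, MeasurableSet (B k) := fun k => hAm.inter measurableSet_ball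
  set D : ℕ → Set (ι → ℂ) := disjointed B with hD
  have hDm : ∀ k, MeasurableSet (D k) := fun k => MeasurableSet.disjointed hBm k
  have hDB : ∀ k, D k ⊆ B k := fun k => disjointed_subset B k
  have hDA : ∀ k, D k ⊆ A := fun k => (hDB k).trans inter_subset_left
  have hDU : ⋃ k, D k = A := by
    rw [hD, iUnion_disjointed]
    refine subset_antisymm (iUnion_subset fun k => inter_subset_left) fun z hz => ?_
    obtain ⟨y, hy, hzy⟩ := mem_iUnion₂.1 (hcov hz)
    rw [hu] at hy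
    obtain ⟨k, rfl⟩ := hy
    exact mem_iUnion.2 ⟨k, hz, hzy⟩
  have hDd : Pairwise (Function.onFun Disjoint D) := disjoint_disjointed B
  have hk := fun k => hloc (u k) (huA k) φ hφ (D k) ((hDB k).trans inter_subset_right) (hDm k)
  have hset : f ⁻¹' (expPi '' A) = ⋃ k, f ⁻¹' (expPi '' (D k)) := by
    rw [← preimage_iUnion, ← image_iUnion, hDU]
  have hdisj : Pairwise (Function.onFun Disjoint fun k => f ⁻¹' (expPi '' (D k))) := by
    intro i j hij
    rw [Function.onFun, Set.disjoint_left]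
    rintro x ⟨z, hz, hzx⟩ ⟨w, hw, hwx⟩
    have h1 : z = w := hinj (hDA i hz) (hDA j hw) (hzx.trans hwx.symm)
    subst h1
    exact Set.disjoint_left.1 (hDd hij) hz hw
  refine ⟨by rw [hset]; exact MeasurableSet.iUnion fun k => (hk k).1, ?_⟩
  rw [hset, lintegral_iUnion (fun k => (hk k).1) hdisj]
  conv_rhs => rw [← hDU]
  rw [lintegral_iUnion hDm hDd]
  exact tsum_congr fun k => (hk k).2

end meas

end Crest.Agent.R281.Df4_612
end

-- ▼ part R281/Df5_612

namespace Crest.Agent.R281.Df5_612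

open MeasureTheory Measure Set Metric Module Complex
open scoped ENNReal NNReal Real Topology
open Crest.Agent.R281.Di1_612 Crest.Agent.R281.Di2_612 Crest.Agent.R281.Df1_612
open Crest.Agent.R281.Df2_612 Crest.Agent.R281.Df3_612 Crest.Agent.R281.Df4_612

variable {ι : Type*} [Fintype ι]

/-- the half-open period rectangle -/
def strip (a : ℝ) : Set ℂ := {w | |w.re| ≤ a ∧ 0 < w.im ∧ w.im ≤ 2 * π}

/-- the period box -/
def box (ι : Type*) (a : ℝ) : Set (ι → ℂ) := {z | ∀ j, z j ∈ strip a}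

theorem strip_eq (a : ℝ) : strip a = measurableEquivRealProd ⁻¹' (Icc (-a) a ×ˢ Ioc 0 (2 * π)) := by
  ext w
  simp [strip, abs_le, measurableEquivRealProd, and_assoc]

theorem measurableSet_strip (a : ℝ) : MeasurableSet (strip a) := by
  rw [strip_eq]
  exact measurableEquivRealProd.measurable (measurableSet_Icc.prod measurableSet_Ioc)

theorem volume_strip (a : ℝ) : volume (strip a) = ENNReal.ofReal (4 * π * a) := by
  rw [strip_eq, volume_preserving_equiv_real_prod.measure_preimage_equiv, Measure.volume_eq_prod,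
    Measure.prod_prod, Real.volume_Icc, Real.volume_Ioc, sub_zero,
    ← ENNReal.ofReal_mul' (by positivity)]
  congr 1
  ring

theorem convex_strip (a : ℝ) : Convex ℝ (strip a) := by
  have : strip a = (reLm ⁻¹' (Icc (-a) a)) ∩ (imLm ⁻¹' (Ioc 0 (2 * π))) := by
    ext w
    simp [strip, abs_le]
  rw [this]
  exact ((convex_Icc _ _).linear_preimage reLm).inter ((convex_Ioc _ _).linear_preimage imLm)

omit [Fintype ι] in
theorem box_eq (a : ℝ) : box ι a = Set.pi univ fun _ => strip a := by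
  ext z; simp [box]

theorem measurableSet_box (a : ℝ) : MeasurableSet (box ι a) := by
  rw [box_eq]
  exact MeasurableSet.univ_pi fun _ => measurableSet_strip a

omit [Fintype ι] in
theorem convex_box (a : ℝ) : Convex ℝ (box ι a) := by
  rw [box_eq]
  exact convex_pi fun _ _ => convex_strip a

theorem volume_box (a : ℝ) :
    volume (box ι a) = ENNReal.ofReal (4 * π * a) ^ Fintype.card ι := by
  rw [box_eq, volume_pi_pi]
  simp [volume_strip]

theorem ediam_box_le {a : ℝ} (ha : 0 < a) :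
    ediam (box ι a) ≤ ENNReal.ofReal (2 * a + 2 * π) := by
  refine ediam_le fun z hz w hw => ?_
  rw [edist_dist]
  refine ENNReal.ofReal_le_ofReal ?_
  have hpi := Real.pi_pos
  rw [dist_pi_le_iff (by positivity)]
  intro j
  obtain ⟨z1, z2, z3⟩ := hz j
  obtain ⟨w1, w2, w3⟩ := hw j
  rw [dist_eq_norm]
  refine (Complex.norm_le_abs_re_add_abs_im _).trans ?_
  rw [abs_le] at z1 w1
  refine add_le_add ?_ ?_
  · rw [sub_re, abs_le]; constructor <;> linarith
  · rw [sub_im, abs_le]; constructor <;> linarith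

omit [Fintype ι] in
theorem injOn_box (a : ℝ) : InjOn (expPi (ι := ι)) (box ι a) := by
  refine expPi_injOn_of_im fun z hz w hw j => ?_
  obtain ⟨-, z2, z3⟩ := hz j
  obtain ⟨-, w2, w3⟩ := hw j
  rw [abs_lt]; constructor <;> linarith

/-- the branch of the logarithm with imaginary part in `(0, 2π]` -/
noncomputable def lg (w : ι → ℂ) : ι → ℂ := fun j => Complex.log (-(w j)) + π * I

omit [Fintype ι] in
theorem lg_re (w : ι → ℂ) (j : ι) : (lg w j).re = Real.log ‖w j‖ := by
  simp [lg, log_re]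

omit [Fintype ι] in
theorem lg_im (w : ι → ℂ) (j : ι) : 0 < (lg w j).im ∧ (lg w j).im ≤ 2 * π := by
  have h1 := neg_pi_lt_log_im (-(w j))
  have h2 := log_im_le_pi (-(w j))
  simp only [lg, add_im, mul_im, ofReal_re, I_im, mul_one, ofReal_im, I_re, mul_zero, add_zero]
  constructor <;> linarith

omit [Fintype ι] in
theorem expPi_lg {w : ι → ℂ} (hw : ∀ j, w j ≠ 0) : expPi (lg w) = w := by
  funext j
  simp only [expPi, lg, Complex.exp_add, exp_pi_mul_I]
  rw [Complex.exp_log (neg_ne_zero.2 (hw j))]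
  ring

omit [Fintype ι] in
theorem lg_mem_box {w : ι → ℂ} {a : ℝ} (hw : ∀ j, |Real.log ‖w j‖| ≤ a) : lg w ∈ box ι a :=
  fun j => ⟨by rw [lg_re]; exact hw j, lg_im w j⟩

omit [Fintype ι] in
theorem lg_expPi {q : ι → ℂ} {a : ℝ} (hq : q ∈ box ι a) : lg (expPi q) = q := by
  have h1 : lg (expPi q) ∈ box ι a := by
    refine lg_mem_box fun j => ?_
    have : ‖expPi q j‖ = Real.exp (q j).re := Complex.norm_exp _
    rw [this, Real.log_exp]
    exact (hq j).1
  exact injOn_box a h1 hq (expPi_lg (expPi_ne_zero q))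

/-- the set of the points of `X` over the region `|log|f_j|| ≤ a` of the covering. -/
def reg {X : Type*} (f : X → ι → ℂ) (P : (ι → ℂ) → ℂ) (a : ℝ) : Set X :=
  {x | (∀ j, f x j ≠ 0) ∧ P (f x) ≠ 0 ∧ ∀ j, |Real.log ‖f x j‖| ≤ a}

omit [Fintype ι] in
theorem norm_expPi (q : ι → ℂ) (j : ι) : ‖expPi q j‖ = Real.exp (q j).re := Complex.norm_exp _

/-- **(CF) CHART-FREE DIAMETER BOUND.** -/
theorem diam_le_fin [Nonempty ι] {X : Type*} [MetricSpace X] [MeasurableSpace X] [BorelSpace X]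
    {n : ℕ} {ν mX : Measure X} (hν0 : ν univ ≠ 0) (hν1 : ν univ ≠ ∞)
    (hBG : ∀ q : X, ∀ r R : ℝ, 0 < r → r ≤ R →
      ν (closedBall q R \ closedBall q r) ≤ ENNReal.ofReal ((R / r) ^ n - 1) * ν (closedBall q r))
    {f : X → ι → ℂ} {P : (ι → ℂ) → ℂ} (hfm : Measurable f) (hP : Differentiable ℂ P)
    (cov : IsCoveringMapOn f {w | (∀ j, w j ≠ 0) ∧ P w ≠ 0}) {d : ℕ}
    (hd : ∀ w : ι → ℂ, (∀ j, w j ≠ 0) → P w ≠ 0 → (f ⁻¹' {w}).encard ≤ d)
    {sg : X → ℝ} (hsg : ContinuousOn sg (f ⁻¹' {w | (∀ j, w j ≠ 0) ∧ P w ≠ 0}))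
    (hsg0 : ∀ x, 0 ≤ sg x)
    (hlen : ∀ p, (∀ j, f p j ≠ 0) → P (f p) ≠ 0 → LenAt f sg p)
    (hmeas : ∀ p, (∀ j, f p j ≠ 0) → P (f p) ≠ 0 → MeasAt f mX p)
    {G : Set X} {a B C c : ℝ} (ha : 0 < a) (hB : 0 < B) (hC : 0 < C) (hc : 0 < c)
    (hGr : G ⊆ reg f P a)
    (hdens : ∀ A : Set (ι → ℂ), A ⊆ box ι a → MeasurableSet A →
      ν (G ∩ f ⁻¹' (expPi '' A)) * volume (box ι a) ≤
        ENNReal.ofReal B * mX (f ⁻¹' (expPi '' A) ∩ reg f P a) * ν univ)
    (hE : ∫⁻ x in reg f P a, ENNReal.ofReal (sg x) ∂mX ≤ ENNReal.ofReal C * volume (box ι a))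
    (hG : ENNReal.ofReal c * ν univ ≤ ν G) (x y : X) :
    dist x y ≤ diamC n (c / (4 * d)) *
      (2 * (2 * (d + 1) * (2 ^ (2 * Fintype.card ι) * (2 * a + 2 * π) * C * (2 * (B * d) / c)))) := by
  classical
  set U : Set (ι → ℂ) := {w | (∀ j, w j ≠ 0) ∧ P w ≠ 0} with hUdef
  have hUo : IsOpen U := by
    have h1 : IsOpen {w : ι → ℂ | ∀ j, w j ≠ 0} := by
      simp only [ofPred_forall]
      exact isOpen_iInter_of_finite fun j => isOpen_ne.preimage (continuous_apply j)
    exact h1.inter (isOpen_ne.preimage hP.continuous)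
  have hpi := Real.pi_pos
  have hfin : ∀ w ∈ U, (f ⁻¹' {w}).Finite := fun w hw => by
    have := hd w hw.1 hw.2
    exact finite_of_encard_le_coe this
  have hmeas' : ∀ p ∈ f ⁻¹' U, MeasAt f mX p := fun p hp => hmeas p hp.1 hp.2
  have hlen' : ∀ p ∈ f ⁻¹' U, LenAt f sg p := fun p hp => hlen p hp.1 hp.2
  have hfU : MeasurableSet (f ⁻¹' U) := hfm hUo.measurableSet
  set φ : X → ℝ≥0∞ := (f ⁻¹' U).indicator (fun x => ENNReal.ofReal (sg x)) with hφ
  have hsgc : ContinuousOn (fun x => ENNReal.ofReal (sg x)) (f ⁻¹' U) :=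
    ENNReal.continuous_ofReal.comp_continuousOn hsg
  have hφm : Measurable φ := by
    rw [hφ, ← piecewise_eq_indicator]
    exact hsgc.measurable_piecewise continuousOn_const hfU
  have hφc : ContinuousOn φ (f ⁻¹' U) := hsgc.congr fun x hx => indicator_of_mem hx _
  set V : Set (ι → ℂ) := expPi ⁻¹' U with hV
  have hVo : IsOpen V := hUo.preimage continuous_expPi
  have hfs := fiberSum_continuousOn cov hfin hφc hUo
  set g : (ι → ℂ) → ℝ≥0∞ := V.indicator (fun z => fiberSum f φ (expPi z)) with hg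
  have hgc : ContinuousOn (fun z => fiberSum f φ (expPi z)) V :=
    hfs.comp continuous_expPi.continuousOn fun z hz => hz
  have hgm : Measurable g := by
    rw [hg, ← piecewise_eq_indicator]
    exact hgc.measurable_piecewise continuousOn_const hVo.measurableSet
  have hregU : reg f P a ⊆ f ⁻¹' U := fun x hx => ⟨hx.1, hx.2.1⟩
  have hK0 : volume (box ι a) ≠ 0 := by
    rw [volume_box]
    exact pow_ne_zero _ (by simpa using (by positivity : 0 < 4 * π * a))
  have hK1 : volume (box ι a) ≠ ∞ := by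
    rw [volume_box]
    exact ENNReal.pow_ne_top ENNReal.ofReal_ne_top
  have hregV : f ⁻¹' (expPi '' (box ι a ∩ V)) = reg f P a := by
    ext x
    simp only [mem_preimage, mem_image, mem_inter_iff]
    constructor
    · rintro ⟨z, ⟨hz, hzV⟩, hzx⟩
      have h1 : f x ∈ U := by rw [← hzx]; exact hzV
      refine ⟨h1.1, h1.2, fun j => ?_⟩
      rw [← hzx, norm_expPi, Real.log_exp]
      exact (hz j).1
    · rintro ⟨h1, h2, h3⟩
      refine ⟨lg (f x), ⟨lg_mem_box h3, ?_⟩, expPi_lg h1⟩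
      rw [hV, mem_preimage, expPi_lg h1]
      exact ⟨h1, h2⟩
  have hKV : MeasurableSet (box ι a ∩ V) := (measurableSet_box a).inter hVo.measurableSet
  have hgint : ∫⁻ z in box ι a, g z = ∫⁻ x in reg f P a, φ x ∂mX := by
    have h1 := (lintegral_cov cov hfin hmeas' hKV (fun z hz => hz.2)
      ((injOn_box a).mono inter_subset_left) hφm).2
    rw [hregV] at h1
    rw [h1, hg, setLIntegral_indicator hVo.measurableSet, inter_comm]
  have hregm : MeasurableSet (reg f P a) := by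
    have h1 := (lintegral_cov cov hfin hmeas' hKV (fun z hz => hz.2)
      ((injOn_box a).mono inter_subset_left) hφm).1
    rwa [hregV] at h1
  have key := diam_le_cf (m := (volume : Measure (ι → ℂ))) (n := n) hν0 hν1 hBG (convex_box a)
    (measurableSet_box a) hK0 hK1 hgm (G := G) (D := reg f P a) (ζ := fun x => lg (f x)) (d := d)
    (B := B * d) (C := C) (Dm := 2 * a + 2 * π) (c := c)
  have hd0 : (0 : ℝ) < d := by
    -- `G` is nonempty, so some fibre is nonempty
    have hGne : (ν G) ≠ 0 := by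
      intro h0
      rw [h0] at hG
      have := le_antisymm hG zero_le
      rw [mul_eq_zero] at this
      rcases this with h | h
      · simp at h; linarith
      · exact hν0 h
    obtain ⟨x0, hx0⟩ : G.Nonempty := by
      by_contra hcon
      rw [not_nonempty_iff_eq_empty] at hcon
      rw [hcon] at hGne
      simp at hGne
    have h1 := hd (f x0) (hGr hx0).1 (hGr hx0).2.1
    have h2 : (1 : ℕ∞) ≤ (f ⁻¹' {f x0}).encard :=
      one_le_encard_iff_nonempty.2 ⟨x0, rfl⟩
    have h3 : (1 : ℕ∞) ≤ d := h2.trans h1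
    have : 1 ≤ d := by exact_mod_cast h3
    exact_mod_cast this
  have hfr : finrank ℝ (ι → ℂ) = 2 * Fintype.card ι := by
    rw [finrank_pi_fintype]
    simp [mul_comm]
  rw [hfr] at key
  refine key (by positivity) hC (by positivity) hc (fun x hx => lg_mem_box (hGr hx).2.2)
    ?_ ?_ ?_ ?_ (ediam_box_le ha) hG x y
  · -- lifting
    intro x hx
    have hxr := hGr hx
    have hF0 : (fun z => P (expPi z)) (lg (f x)) ≠ 0 := by
      simp only [expPi_lg hxr.1]
      exact hxr.2.1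
    have hae := ae_segment_ne_zero (m := (volume : Measure (ι → ℂ)))
      (hP.comp differentiable_expPi) hF0
    refine (ae_restrict_iff' (measurableSet_box a)).2 ?_
    filter_upwards [hae] with q hq hqK
    obtain ⟨Γ, hΓc, hΓ0, hΓf, hΓU, hΓd⟩ := exists_lift cov hsg (fun p _ => hsg0 p) hlen'
      (x := x) (ζ0 := lg (f x)) (q := q) (expPi_lg hxr.1).symm
      (fun t ht => ⟨fun j => expPi_ne_zero _ j, hq t ht⟩)
    have h1 : f (Γ 1) = expPi q := by
      rw [hΓf 1 (by simp)]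
      congr 1
      module
    have hreg1 : Γ 1 ∈ reg f P a := by
      have h2 := hΓU 1
      refine ⟨h2.1, h2.2, fun j => ?_⟩
      rw [h1, norm_expPi, Real.log_exp]
      exact (hqK j).1
    refine ⟨Γ 1, hreg1, ?_, ?_⟩
    · simp only [h1]
      exact lg_expPi hqK
    · rw [edist_dist]
      have hint : ENNReal.ofReal (∫ t in (0 : ℝ)..1, ‖q - lg (f x)‖ * sg (Γ t)) =
          ‖q - lg (f x)‖ₑ * ∫⁻ t in Ioc (0 : ℝ) 1, ENNReal.ofReal (sg (Γ t)) := by
        have hcs : Continuous fun t => sg (Γ t) := by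
          rw [continuous_iff_continuousAt]
          intro t
          exact (hsg.comp_continuous hΓc hΓU).continuousAt
        rw [intervalIntegral.integral_of_le zero_le_one, integral_const_mul,
          ENNReal.ofReal_mul (norm_nonneg _), ofReal_norm,
          ofReal_integral_eq_lintegral_ofReal]
        · exact (hcs.continuousOn.integrableOn_compact isCompact_Icc).mono_set Ioc_subset_Icc_self
        · exact Filter.Eventually.of_forall fun t => hsg0 _
      refine (ENNReal.ofReal_le_ofReal hΓd).trans ?_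
      rw [hint]
      unfold len
      rw [mul_comm]
      refine mul_le_mul' ?_ le_rfl
      refine le_trans (lintegral_mono_set Ioc_subset_Icc_self) ?_
      refine setLIntegral_mono' measurableSet_Icc fun t ht => ?_
      have h3 : lg (f x) + t • (q - lg (f x)) ∈ V := by
        rw [hV, mem_preimage, ← hΓf t ht]
        exact hΓU t
      have h4 : g (lg (f x) + t • (q - lg (f x))) =
          fiberSum f φ (expPi (lg (f x) + t • (q - lg (f x)))) := by
        rw [hg, indicator_of_mem h3]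
      rw [h4]
      have h5 : φ (Γ t) = ENNReal.ofReal (sg (Γ t)) := by
        rw [hφ, indicator_of_mem (hΓU t)]
      rw [← h5]
      exact le_fiberSum (hΓf t ht)
  · -- fibres
    refine Filter.Eventually.of_forall fun q => ?_
    by_cases hne : ({y ∈ reg f P a | lg (f y) = q}).Nonempty
    · obtain ⟨y0, hy0, hq0⟩ := hne
      refine (encard_le_encard (fun y hy => ?_)).trans (hd (f y0) hy0.1 hy0.2.1)
      rw [mem_preimage, mem_singleton_iff]
      have h1 : expPi (lg (f y)) = expPi (lg (f y0)) := by rw [hy.2, hq0]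
      rwa [expPi_lg hy.1.1, expPi_lg hy0.1] at h1
    · rw [not_nonempty_iff_eq_empty] at hne
      rw [hne]
      simp
  · -- push forward
    intro A hA hAm
    have hset : G ∩ (fun x => lg (f x)) ⁻¹' A ⊆ G ∩ f ⁻¹' (expPi '' A) := by
      rintro x ⟨hx, hxA⟩
      exact ⟨hx, lg (f x), hxA, expPi_lg (hGr hx).1⟩
    have hAV : MeasurableSet (A ∩ V) := hAm.inter hVo.measurableSet
    have hinjA : InjOn (expPi (ι := ι)) A := (injOn_box a).mono hA
    have h1 := (lintegral_cov cov hfin hmeas' hAV (fun z hz => hz.2)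
      (hinjA.mono inter_subset_left) (φ := fun _ => 1) measurable_const).2
    have h2 : f ⁻¹' (expPi '' A) ∩ reg f P a ⊆ f ⁻¹' (expPi '' (A ∩ V)) := by
      rintro x ⟨⟨z, hz, hzx⟩, hxr⟩
      refine ⟨z, ⟨hz, ?_⟩, hzx⟩
      rw [hV, mem_preimage, hzx]
      exact ⟨hxr.1, hxr.2.1⟩
    have h3 : mX (f ⁻¹' (expPi '' A) ∩ reg f P a) ≤ d * volume A := by
      refine (measure_mono h2).trans ?_
      rw [setLIntegral_one] at h1
      rw [h1]
      calc ∫⁻ z in A ∩ V, fiberSum f (fun _ => 1) (expPi z)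
          ≤ ∫⁻ _ in A ∩ V, (d : ℝ≥0∞) := by
            refine setLIntegral_mono' hAV fun z hz => ?_
            unfold fiberSum
            rw [ENNReal.tsum_one, ENat.card_coe_set_eq]
            have := hd (expPi z) hz.2.1 hz.2.2
            calc (((f ⁻¹' {expPi z}).encard : ℕ∞) : ℝ≥0∞) ≤ ((d : ℕ∞) : ℝ≥0∞) := by
                  exact_mod_cast this
              _ = d := by simp
        _ = d * volume (A ∩ V) := by rw [setLIntegral_const]
        _ ≤ d * volume A := by gcongr; exact inter_subset_left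
    calc ν (G ∩ (fun x => lg (f x)) ⁻¹' A) * volume (box ι a)
        ≤ ν (G ∩ f ⁻¹' (expPi '' A)) * volume (box ι a) := by
          gcongr
      _ ≤ ENNReal.ofReal B * mX (f ⁻¹' (expPi '' A) ∩ reg f P a) * ν univ := hdens A hA hAm
      _ ≤ ENNReal.ofReal B * (d * volume A) * ν univ := by gcongr
      _ = ENNReal.ofReal (B * d) * volume A * ν univ := by
          rw [ENNReal.ofReal_mul hB.le, ENNReal.ofReal_natCast]
          ring
  · -- mass of g
    rw [hgint]
    refine le_trans (le_of_eq ?_) hE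
    refine setLIntegral_congr_fun hregm fun x hx => ?_
    simp only [hφ]
    rw [indicator_of_mem (hregU hx)]

end Crest.Agent.R281.Df5_612
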