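import Crest.Agent.R281.Dg5_612_Mg
import Crest.Agent.R281.Df5_612
import Crest.Agent.R281.Fra1_922
import Crest.Agent.R273.C2a_289
import Crest.Agent.R281.Ins3_615
import Crest.Agent.R281.Ins4_615
import Crest.Agent.R281.Glob1_484
import Crest.Agent.R281.SIn_14
import Crest.Agent.R273.YauMax_635
import Crest.Agent.R273.VolInv_5
import Crest.Agent.R273.FId0_597

-- ▼ part R281/Dh1_612
section

set_option autoImplicit false
set_option linter.unusedSectionVars false
set_option linter.ambiguousOpen false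
set_option maxSynthPendingDepth 3

namespace Crest.Agent.R281.Dh1_612

open Set Filter Complex MeasureTheory Metric
open scoped _root_.Topology ContDiff Matrix ComplexConjugate ComplexOrder ENNReal
open Crest.Agent.R275.Geo Crest.Agent.R275.Core144
open Crest.Agent.R273.Defs_333 Crest.Agent.R273.HM_333 Crest.Agent.R273.Kah_333
open Crest.Agent.R273.Vol_333 Crest.Agent.R273.Vm_333 Crest.Agent.R273.FIb0_597
open Crest.Agent.R273.SteinC_794 Crest.Agent.R273.SteinD_794
open Crest.Agent.R281.Dg3_612 Crest.Agent.R281.Dg4_612 Crest.Agent.R281.Dg5_612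
open Crest.Agent.R281.SIn_14 Crest.Agent.R281.Per_368
open Crest.Agent.R281.Df3_612 (expPi continuous_expPi differentiable_expPi)

noncomputable section

variable {N : ℕ} {M : Type} [TopologicalSpace M] {A : Atl N M} {Lb : LB A}
  {s : Fin (N + 1) → A.ι → M → ℂ}

/-- the sections `s_1 .. s_N` -/
abbrev tl (s : Fin (N + 1) → A.ι → M → ℂ) : Fin N → A.ι → M → ℂ := fun j => s j.succ

theorem quo_rf (s : Fin (N + 1) → A.ι → M → ℂ) : quo s = rf (s 0) (tl s) := rfl

theorem nz_iff {x : M} : NZ s x ↔ ∀ j, x ∈ nz (s j) := Iff.rfl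

theorem isOpen_NZ (hs : ∀ j, IsHS Lb univ (s j)) : IsOpen {x : M | NZ s x} := by
  have : {x : M | NZ s x} = ⋂ j, nz (s j) := by
    ext x; simp [nz_iff]
  rw [this]
  exact isOpen_iInter_of_finite fun j => isOpen_nz (hs j)


theorem quo_eq (hs : ∀ j, IsHS Lb univ (s j)) {i : A.ι} {x : M} (hx : x ∈ (A.e i).source)
    (j : Fin N) : quo s x j = s j.succ i x / s 0 i x := qt_eq (hs j.succ) (hs 0) hx

theorem quo_ne (hs : ∀ j, IsHS Lb univ (s j)) {x : M} (h : NZ s x) (j : Fin N) :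
    quo s x j ≠ 0 := div_ne_zero (h j.succ) (h 0)

theorem NZ_of_quo (hN : 0 < N) (hs : ∀ j, IsHS Lb univ (s j)) {x : M}
    (h : ∀ j, quo s x j ≠ 0) : NZ s x := by
  have h0 : x ∈ nz (s 0) := nz_of_rf hN (hs 0) (fun j => hs j.succ) h
  intro j
  refine Fin.cases h0 (fun j => ?_) j
  have := h j
  intro h1
  apply this
  show s j.succ (ch A x) x / s 0 (ch A x) x = 0
  rw [h1, zero_div]

/-- `eta = diag(1/F) · DF` -/
theorem eta_eq (hs : ∀ j, IsHS Lb univ (s j)) {i : A.ι} {x : M} (hx : x ∈ (A.e i).source)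
    (h : NZ s x) : eta s i x = Matrix.diagonal (fun j => (quo s x j)⁻¹) *
      Df (s 0) (tl s) i x := by
  ext j a
  rw [Matrix.diagonal_mul]
  have h0 : s 0 i x ≠ 0 := (mem_nz (hs 0) hx).1 (h 0)
  have hj : s j.succ i x ≠ 0 := (mem_nz (hs j.succ) hx).1 (h j.succ)
  show pd A i (s j.succ i) x a / s j.succ i x - pd A i (s 0 i) x a / s 0 i x =
    (quo s x j)⁻¹ * dc A i a (qt (s j.succ) (s 0)) x
  rw [dc_qt (hs 0) (hs j.succ) hx (h 0), quo_eq hs hx]
  show pd A i (s j.succ i) x a / s j.succ i x - pd A i (s 0 i) x a / s 0 i x =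
    (s j.succ i x / s 0 i x)⁻¹ * ((s 0 i x * pd A i (s j.succ i) x a -
      s j.succ i x * pd A i (s 0 i) x a) / s 0 i x ^ 2)
  field_simp

theorem Df_tr (hs : ∀ j, IsHS Lb univ (s j)) {i k : A.ι} {x : M}
    (hx : x ∈ (A.e i).source ∩ (A.e k).source) (h0 : x ∈ nz (s 0)) :
    Df (s 0) (tl s) i x = Df (s 0) (tl s) k x * Jm A i k x := by
  ext j a
  rw [Matrix.mul_apply]
  exact dc_chg hx ((qt_hol (hs j.succ) (hs 0) k).diffAt (isOpen_nz (hs 0)) hx.2 h0) a

theorem eta_tr (hs : ∀ j, IsHS Lb univ (s j)) {i k : A.ι} {x : M}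
    (hx : x ∈ (A.e i).source ∩ (A.e k).source) (h : NZ s x) :
    eta s i x = eta s k x * Jm A i k x := by
  rw [eta_eq hs hx.1 h, eta_eq hs hx.2 h, Df_tr hs hx (h 0), Matrix.mul_assoc]

theorem Jm_det_ne {i k : A.ι} {x : M} (hx : x ∈ (A.e i).source ∩ (A.e k).source) :
    (Jm A i k x).det ≠ 0 := by
  rw [← KB_g hx]; exact (KB A).ne_zero i k x

theorem det_g_tr (K : Kah A) {i k : A.ι} {x : M} (hx : x ∈ (A.e i).source ∩ (A.e k).source) :
    (K.g i x).det.re = ‖(Jm A i k x).det‖ ^ 2 * (K.g k x).det.re := by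
  have h1 : (K.g k x).det.re = ‖(KB A)⁻¹.g i k x‖ ^ 2 * (K.g i x).det.re := (volK K).tr i k x hx
  rw [LB.inv_g, KB_g hx] at h1
  have h4 := Jm_det_ne hx
  rw [h1, norm_inv, ← mul_assoc, inv_pow, mul_inv_cancel₀ (by positivity), one_mul]

theorem Jsq_chart (K : Kah A) (hs : ∀ j, IsHS Lb univ (s j)) {i : A.ι} {x : M}
    (hx : x ∈ (A.e i).source) (h : NZ s x) :
    Jsq K s x = ‖(eta s i x).det‖ ^ 2 / (K.g i x).det.re := by
  have hc := mem_ch A x
  have hJ := Jm_det_ne (A := A) (i := i) (k := ch A x) ⟨hx, hc⟩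
  unfold Jsq
  rw [eta_tr hs ⟨hx, hc⟩ h, det_g_tr K (i := i) (k := ch A x) ⟨hx, hc⟩, Matrix.det_mul, norm_mul,
    mul_pow, mul_comm (‖(eta s (ch A x) x).det‖ ^ 2)]
  rw [mul_div_mul_left]
  positivity

theorem det_eta (hs : ∀ j, IsHS Lb univ (s j)) {i : A.ι} {x : M} (hx : x ∈ (A.e i).source)
    (h : NZ s x) : (eta s i x).det = (∏ j, (quo s x j)⁻¹) * (Df (s 0) (tl s) i x).det := by
  rw [eta_eq hs hx h, Matrix.det_mul, Matrix.det_diagonal]

theorem Jsq_ne_iff (K : Kah A) (hs : ∀ j, IsHS Lb univ (s j)) {i : A.ι} {x : M}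
    (hx : x ∈ (A.e i).source) (h : NZ s x) :
    Jsq K s x ≠ 0 ↔ (eta s i x).det ≠ 0 := by
  rw [Jsq_chart K hs hx h]
  have hg : (K.g i x).det.re ≠ 0 := (det_re_pos (K.pos i x hx)).ne'
  simp [hg]

theorem eta_det_ne_iff (hs : ∀ j, IsHS Lb univ (s j)) {i : A.ι} {x : M}
    (hx : x ∈ (A.e i).source) (h : NZ s x) :
    (eta s i x).det ≠ 0 ↔ (Df (s 0) (tl s) i x).det ≠ 0 := by
  rw [det_eta hs hx h]
  have : (∏ j, (quo s x j)⁻¹) ≠ 0 := Finset.prod_ne_zero_iff.2 fun j _ =>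
    inv_ne_zero (quo_ne hs h j)
  constructor
  · exact fun h => right_ne_zero_of_mul h
  · exact fun h => mul_ne_zero this h


/-! ### continuity -/

theorem continuousAt_of_smAt {i : A.ι} {f : M → ℂ} (hf : A.SmAt i f) {x : M}
    (hx : x ∈ (A.e i).source) : ContinuousAt f x := by
  have h1 : ContinuousAt (fun z => f ((A.e i).symm z)) (A.e i x) :=
    (hf.continuousOn).continuousAt ((A.e i).open_target.mem_nhds ((A.e i).map_source hx))
  have h2 : ContinuousAt (fun y => f ((A.e i).symm (A.e i y))) x :=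
    ContinuousAt.comp (g := fun z => f ((A.e i).symm z)) h1 ((A.e i).continuousAt hx)
  refine h2.congr ?_
  filter_upwards [(A.e i).open_source.mem_nhds hx] with y hy
  rw [(A.e i).left_inv hy]

theorem holAt_eta (hs : ∀ j, IsHS Lb univ (s j)) (i : A.ι) (j a : Fin N) :
    HolAt A i {x | NZ s x} (fun x => eta s i x j a) := by
  have key : ∀ k, HolAt A i {x | NZ s x} (fun x => dc A i a (s k i) x * (s k i x)⁻¹) := by
    intro k
    have h1 : HolAt A i {x | NZ s x} (dc A i a (s k i)) :=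
      (holAt_dc isOpen_univ ((hs k).hol i) a).mono (subset_univ _)
    have h2 : HolAt A i {x | NZ s x} (fun x => (s k i x)⁻¹) :=
      (((hs k).hol i).mono (subset_univ _)).inv fun x hx hn => (mem_nz (hs k) hx).1 (hn k)
    exact h1.mul h2
  refine ((key j.succ).sub (key 0)).congr fun x hx hn => ?_
  rw [← div_eq_mul_inv, ← div_eq_mul_inv]
  rfl

theorem continuousAt_eta (hs : ∀ j, IsHS Lb univ (s j)) {i : A.ι} {x : M}
    (hx : x ∈ (A.e i).source) (h : NZ s x) (j a : Fin N) :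
    ContinuousAt (fun y => eta s i y j a) x :=
  continuousAt_of_holAt (isOpen_NZ hs) (holAt_eta hs i j a) hx h

theorem continuousAt_mat_det {m : M → Matrix (Fin N) (Fin N) ℂ} {x : M}
    (h : ∀ j a, ContinuousAt (fun y => m y j a) x) : ContinuousAt (fun y => (m y).det) x := by
  simp only [Matrix.det_apply]
  refine tendsto_finsetSum _ fun σ _ => ?_
  exact (tendsto_finsetProd _ fun b _ => h (σ b) b).const_smul _

theorem continuousOn_Jsq (K : Kah A) (hs : ∀ j, IsHS Lb univ (s j)) :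
    ContinuousOn (Jsq K s) {x | NZ s x} := by
  intro x h
  refine ContinuousAt.continuousWithinAt ?_
  have hc := mem_ch A x
  have h1 : ContinuousAt (fun y => ‖(eta s (ch A x) y).det‖ ^ 2 / (K.g (ch A x) y).det.re) x := by
    refine ContinuousAt.div ?_ ?_ (det_re_pos (K.pos _ x hc)).ne'
    · exact ((continuousAt_mat_det fun j a => continuousAt_eta hs hc h j a).norm).pow 2
    · exact Complex.continuous_re.continuousAt.comp
        (continuousAt_mat_det fun j a => continuousAt_of_smAt (K.sm _ j a) hc)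
  refine h1.congr ?_
  filter_upwards [(A.e (ch A x)).open_source.mem_nhds hc, (isOpen_NZ hs).mem_nhds h] with y hy hn
  exact (Jsq_chart K hs hy hn).symm

theorem continuousOn_quo (hs : ∀ j, IsHS Lb univ (s j)) :
    ContinuousOn (quo s) {x | NZ s x} :=
  (rf_continuousOn (hs 0) (fun j => hs j.succ)).mono fun _ h => h 0

/-! ### local inverses -/

/-- the set where the logarithmic coordinates are local coordinates -/
def Reg (K : Kah A) (s : Fin (N + 1) → A.ι → M → ℂ) : Set M := {x | NZ s x ∧ Jsq K s x ≠ 0}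

theorem isOpen_Reg (K : Kah A) (hs : ∀ j, IsHS Lb univ (s j)) : IsOpen (Reg K s) :=
  (continuousOn_Jsq K hs).isOpen_inter_preimage (isOpen_NZ hs) isOpen_ne

/-- **local inverse branches of `log F`** -/
theorem exists_branch (K : Kah A) (hs : ∀ j, IsHS Lb univ (s j)) {p : M} (hp : p ∈ Reg K s)
    {ζ0 : Fin N → ℂ} (hζ0 : expPi ζ0 = quo s p) :
    ∃ δ > 0, ∃ Φ : (Fin N → ℂ) → M, Φ ζ0 = p ∧ HolI A (ball ζ0 δ) Φ ∧
      (∀ ζ ∈ ball ζ0 δ, quo s (Φ ζ) = expPi ζ ∧ Φ ζ ∈ Reg K s) ∧ InjOn Φ (ball ζ0 δ) ∧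
      (∀ B ⊆ ball ζ0 δ, IsOpen B → IsOpen (Φ '' B)) ∧
      ∀ ζ ∈ ball ζ0 δ, ∀ i, Φ ζ ∈ (A.e i).source → eta s i (Φ ζ) * jac A Φ i ζ = 1 := by
  have hc := mem_ch A p
  have hDf : (Df (s 0) (tl s) (ch A p) p).det ≠ 0 :=
    (eta_det_ne_iff hs hc hp.1).1 ((Jsq_ne_iff K hs hc hp.1).1 hp.2)
  obtain ⟨e, hpe, he⟩ := exists_chart (hs 0) (fun j => hs j.succ) hc (hp.1 0) hDf
  have hep : e p = expPi ζ0 := by rw [← he hpe, hζ0]; rfl
  have htgt : expPi ζ0 ∈ e.target := by rw [← hep]; exact e.map_source hpe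
  set Φ : (Fin N → ℂ) → M := fun ζ => e.symm (expPi ζ) with hΦ
  have hΦ0 : Φ ζ0 = p := by
    simp only [hΦ]
    rw [← hep, e.left_inv hpe]
  have hcont0 : ContinuousAt Φ ζ0 :=
    ContinuousAt.comp (g := e.symm) (e.continuousAt_symm htgt) continuous_expPi.continuousAt
  have h1 : ∀ᶠ ζ in 𝓝 ζ0, expPi ζ ∈ e.target :=
    continuous_expPi.continuousAt.eventually_mem (e.open_target.mem_nhds htgt)
  have h2 : ∀ᶠ ζ in 𝓝 ζ0, Φ ζ ∈ Reg K s :=
    hcont0.eventually_mem ((isOpen_Reg K hs).mem_nhds (by rw [hΦ0]; exact hp))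
  obtain ⟨δ0, hδ0, hball0⟩ := Metric.mem_nhds_iff.1 (inter_mem h1 h2)
  set δ := min δ0 1 with hδ
  have hball : ball ζ0 δ ⊆ _ := (ball_subset_ball (min_le_left δ0 1)).trans hball0
  have hcont : ContinuousOn Φ (ball ζ0 δ) := fun ζ hζ =>
    (ContinuousAt.comp (g := e.symm) (e.continuousAt_symm (hball hζ).1)
      continuous_expPi.continuousAt).continuousWithinAt
  have hquo : ∀ ζ ∈ ball ζ0 δ, quo s (Φ ζ) = expPi ζ := by
    intro ζ hζ
    have h3 : Φ ζ ∈ e.source := e.map_target (hball hζ).1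
    have h4 : rf (s 0) (tl s) (Φ ζ) = e (Φ ζ) := he h3
    rw [quo_rf, h4]
    exact e.right_inv (hball hζ).1
  have hinjE : InjOn (expPi (ι := Fin N)) (ball ζ0 δ) := by
    refine Df4_612.expPi_injOn_of_im fun z hz w hw j => ?_
    have e1 := mem_ball.1 (ball_subset_ball (min_le_right δ0 1) hz)
    have e2 := mem_ball.1 (ball_subset_ball (min_le_right δ0 1) hw)
    rw [dist_eq_norm] at e1 e2
    have e3 : |(z j).im - (w j).im| ≤ ‖z - w‖ := by
      have h4 : (z j).im - (w j).im = ((z - w) j).im := by simp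
      rw [h4]
      exact (Complex.abs_im_le_norm _).trans (norm_le_pi_norm (z - w) j)
    have e4 : ‖z - w‖ < 2 := by
      calc ‖z - w‖ = ‖(z - ζ0) - (w - ζ0)‖ := by congr 1; abel
        _ ≤ ‖z - ζ0‖ + ‖w - ζ0‖ := norm_sub_le _ _
        _ < 2 := by linarith
    have h6 := Real.pi_gt_three
    linarith
  have hinj : InjOn Φ (ball ζ0 δ) := by
    intro z hz w hw hzw
    refine hinjE hz hw ?_
    rw [← hquo z hz, ← hquo w hw, hzw]
  have hexpd : ∀ ζ : Fin N → ℂ, HasFDerivAt (expPi (ι := Fin N))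
      (ContinuousLinearMap.pi fun j => Complex.exp (ζ j) •
        (ContinuousLinearMap.proj j : (Fin N → ℂ) →L[ℂ] ℂ)) ζ := by
    intro ζ
    refine hasFDerivAt_pi.2 fun j => ?_
    have h3 : HasDerivAt Complex.exp (Complex.exp (ζ j)) (ζ j) := Complex.hasDerivAt_exp _
    have h4 : HasFDerivAt (fun z : Fin N → ℂ => z j)
      (ContinuousLinearMap.proj j : (Fin N → ℂ) →L[ℂ] ℂ) ζ :=
      (ContinuousLinearMap.proj j : (Fin N → ℂ) →L[ℂ] ℂ).hasFDerivAt
    have h5 := h3.comp_hasFDerivAt ζ h4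
    exact h5
  -- holomorphy in the charts
  have hdiff : ∀ ζ ∈ ball ζ0 δ, ∀ i, Φ ζ ∈ (A.e i).source →
      DifferentiableAt ℂ (fun w => A.e i (Φ w)) ζ := by
    intro ζ hζ i hi
    have hR := (hball hζ).2
    have hDf' : (Df (s 0) (tl s) i (Φ ζ)).det ≠ 0 :=
      (eta_det_ne_iff hs hi hR.1).1 ((Jsq_ne_iff K hs hi hR.1).1 hR.2)
    -- the coordinate change `ψ`
    set ψ : OpenPartialHomeomorph (Cn N) (Fin N → ℂ) := (A.e i).symm.trans e with hψ
    have hzt : A.e i (Φ ζ) ∈ ψ.source := by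
      rw [hψ, OpenPartialHomeomorph.trans_source]
      refine ⟨(A.e i).map_source hi, ?_⟩
      rw [mem_preimage, (A.e i).left_inv hi]
      exact e.map_target (hball hζ).1
    have hψv : ψ (A.e i (Φ ζ)) = expPi ζ := by
      show e ((A.e i).symm (A.e i (Φ ζ))) = _
      rw [(A.e i).left_inv hi]
      exact e.right_inv (hball hζ).1
    have hψt : expPi ζ ∈ ψ.target := by rw [← hψv]; exact ψ.map_source hzt
    have hψs : ψ.symm (expPi ζ) = A.e i (Φ ζ) := by rw [← hψv, ψ.left_inv hzt]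
    have hdr : HasFDerivAt ψ (fderiv ℂ (rc' (s 0) (tl s) i) (A.e i (Φ ζ))) (A.e i (Φ ζ)) := by
      have hd : DifferentiableAt ℂ (rc' (s 0) (tl s) i) (A.e i (Φ ζ)) :=
        (rc'_diffOn (hs 0) (fun j => hs j.succ) i).differentiableAt
          ((isOpen_ti (isOpen_nz (hs 0))).mem_nhds
          ⟨(A.e i).map_source hi, by rw [mem_preimage, (A.e i).left_inv hi]; exact hR.1 0⟩)
      refine hd.hasFDerivAt.congr_of_eventuallyEq ?_
      filter_upwards [ψ.open_source.mem_nhds hzt] with z hz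
      have hz' : (A.e i).symm z ∈ e.source := by
        rw [hψ, OpenPartialHomeomorph.trans_source] at hz
        exact hz.2
      exact (he hz').symm
    have hinjd : Function.Injective (fderiv ℂ (rc' (s 0) (tl s) i) (A.e i (Φ ζ))) := by
      rw [injective_iff_map_eq_zero]
      intro v hv
      rw [fderiv_rc' (hs 0) (fun j => hs j.succ) hi (hR.1 0)] at hv
      have h1 := Matrix.eq_zero_of_mulVec_eq_zero hDf' hv
      ext a
      exact congrFun h1 a
    set D : Cn N ≃L[ℂ] (Fin N → ℂ) := (LinearEquiv.ofInjectiveOfFinrankEq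
      (fderiv ℂ (rc' (s 0) (tl s) i) (A.e i (Φ ζ))).toLinearMap hinjd
        (by simp)).toContinuousLinearEquiv with hD
    have hDe : (D : Cn N →L[ℂ] (Fin N → ℂ)) =
        fderiv ℂ (rc' (s 0) (tl s) i) (A.e i (Φ ζ)) := by
      ext v : 1
      rfl
    have h5 : HasFDerivAt ψ.symm (D.symm : (Fin N → ℂ) →L[ℂ] Cn N) (expPi ζ) :=
      ψ.hasFDerivAt_symm hψt (by rw [hψs, hDe]; exact hdr)
    have h6 := HasFDerivAt.comp (g := ψ.symm) (f := expPi (ι := Fin N)) ζ h5 (hexpd ζ)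
    exact h6.differentiableAt
  -- the product is the identity
  have hmul : ∀ ζ ∈ ball ζ0 δ, ∀ i, Φ ζ ∈ (A.e i).source →
      eta s i (Φ ζ) * jac A Φ i ζ = 1 := by
    intro ζ hζ i hi
    have hR := (hball hζ).2
    have hd := hdiff ζ hζ i hi
    have hdr : DifferentiableAt ℂ (rc' (s 0) (tl s) i) (A.e i (Φ ζ)) :=
      (rc'_diffOn (hs 0) (fun j => hs j.succ) i).differentiableAt
        ((isOpen_ti (isOpen_nz (hs 0))).mem_nhds
        ⟨(A.e i).map_source hi, by rw [mem_preimage, (A.e i).left_inv hi]; exact hR.1 0⟩)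
    have hcomp := HasFDerivAt.comp (g := rc' (s 0) (tl s) i) (f := fun w => A.e i (Φ w)) ζ
      hdr.hasFDerivAt hd.hasFDerivAt
    have heq : (expPi (ι := Fin N)) =ᶠ[𝓝 ζ] (rc' (s 0) (tl s) i) ∘ fun w => A.e i (Φ w) := by
      have hpre : ∀ᶠ w in 𝓝 ζ, Φ w ∈ (A.e i).source :=
        (hcont.continuousAt (isOpen_ball.mem_nhds hζ)).eventually_mem
          ((A.e i).open_source.mem_nhds hi)
      filter_upwards [hpre, isOpen_ball.mem_nhds hζ] with w hw hwb
      show expPi w = rf (s 0) (tl s) ((A.e i).symm (A.e i (Φ w)))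
      rw [(A.e i).left_inv hw, ← hquo w hwb]
      rfl
    have huniq := (hcomp.congr_of_eventuallyEq heq).unique (hexpd ζ)
    rw [eta_eq hs hi hR.1, Matrix.mul_assoc]
    ext j a
    rw [Matrix.diagonal_mul, Matrix.mul_apply]
    have h7 := congrArg (fun T : (Fin N → ℂ) →L[ℂ] (Fin N → ℂ) => T (Pi.single a 1) j) huniq
    simp only [ContinuousLinearMap.coe_comp, Function.comp_apply] at h7
    rw [fderiv_rc' (hs 0) (fun j => hs j.succ) hi (hR.1 0)] at h7
    have h8 : ∑ b, Df (s 0) (tl s) i (Φ ζ) j b * jac A Φ i ζ b a =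
        Complex.exp (ζ j) * (if j = a then 1 else 0) := by
      refine Eq.trans ?_ (h7.trans ?_)
      · rfl
      · simp [Pi.single_apply]
    rw [h8, hquo ζ hζ]
    show (Complex.exp (ζ j))⁻¹ * (Complex.exp (ζ j) * (if j = a then 1 else 0)) = _
    rw [← mul_assoc, inv_mul_cancel₀ (Complex.exp_ne_zero _), one_mul, Matrix.one_apply]
  have hHol : HolI A (ball ζ0 δ) Φ := ⟨isOpen_ball, hcont, fun ζ hζ i hi => by
    refine ⟨hdiff ζ hζ i hi, fun h0 => ?_⟩
    have h9 := congrArg Matrix.det (hmul ζ hζ i hi)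
    rw [Matrix.det_mul, h0, mul_zero, Matrix.det_one] at h9
    exact zero_ne_one h9⟩
  refine ⟨δ, lt_min hδ0 one_pos, Φ, hΦ0, hHol, fun ζ hζ => ⟨hquo ζ hζ, (hball hζ).2⟩, hinj,
    fun B hB hBo => ?_, hmul⟩
  -- openness
  have hopen : IsOpenMap (expPi (ι := Fin N)) := by
    have h1 : (expPi (ι := Fin N)) = Pi.map (fun _ : Fin N => Complex.exp) := rfl
    rw [h1]
    exact IsOpenMap.piMap (fun _ => Complex.isOpenMap_exp) (by simp)
  have himg : Φ '' B = e.symm '' (expPi '' B) := by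
    rw [image_image]
  rw [himg]
  refine e.symm.isOpen_image_of_subset_source (hopen B hBo) ?_
  rintro _ ⟨ζ, hζ, rfl⟩
  exact (hball (hB hζ)).1

end

end Crest.Agent.R281.Dh1_612
end

-- ▼ part R281/Dh2_612
section

set_option autoImplicit false
set_option linter.unusedSectionVars false
set_option linter.ambiguousOpen false
set_option maxSynthPendingDepth 3

namespace Crest.Agent.R281.Dh2_612

open Set Filter Complex MeasureTheory Metric
open scoped _root_.Topology ContDiff Matrix ComplexConjugate ComplexOrder ENNReal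
open Crest.Agent.R275.Geo Crest.Agent.R275.Core144
open Crest.Agent.R273.Defs_333 Crest.Agent.R273.HM_333 Crest.Agent.R273.Kah_333
open Crest.Agent.R273.Vol_333 Crest.Agent.R273.Vm_333 Crest.Agent.R273.FIb0_597
open Crest.Agent.R273.SteinC_794 Crest.Agent.R273.SteinD_794
open Crest.Agent.R281.Dg3_612 Crest.Agent.R281.Dg4_612 Crest.Agent.R281.Dg5_612
open Crest.Agent.R281.SIn_14 Crest.Agent.R281.Per_368 Crest.Agent.R281.Dh1_612
open Crest.Agent.R281.Df3_612 (expPi continuous_expPi differentiable_expPi)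

noncomputable section

variable {N : ℕ} {M : Type} [TopologicalSpace M] {A : Atl N M} {Lb : LB A}
  {s : Fin (N + 1) → A.ι → M → ℂ}

/-- `J_Φ² · Jsq = 1` for an inverse branch of `log F` -/
theorem pbg_Jsq (K : Kah A) (hs : ∀ j, IsHS Lb univ (s j)) {S : Set (Fin N → ℂ)}
    {Φ : (Fin N → ℂ) → M} (h : HolI A S Φ) {ζ : Fin N → ℂ} (hζ : ζ ∈ S) (hN : NZ s (Φ ζ))
    (hmul : ∀ i, Φ ζ ∈ (A.e i).source → eta s i (Φ ζ) * jac A Φ i ζ = 1) :
    (pbg K Φ ζ).det.re * Jsq K s (Φ ζ) = 1 := by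
  have hc := mem_ch A (Φ ζ)
  have hg := det_re_pos (K.pos _ _ hc)
  rw [h.det_pbg K hζ hc, Jsq_chart K hs hc hN]
  have h1 := congrArg Matrix.det (hmul _ hc)
  rw [Matrix.det_mul, Matrix.det_one] at h1
  have h2 : ‖(eta s (ch A (Φ ζ)) (Φ ζ)).det‖ * ‖(jac A Φ (ch A (Φ ζ)) ζ).det‖ = 1 := by
    rw [← norm_mul, h1, norm_one]
  have h3 : (‖(eta s (ch A (Φ ζ)) (Φ ζ)).det‖ * ‖(jac A Φ (ch A (Φ ζ)) ζ).det‖) ^ 2 = 1 := by
    rw [h2, one_pow]
  rw [← h3]
  field_simp

open Classical in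
/-- the density of the pulled back Lebesgue measure -/
def dJ (K : Kah A) (s : Fin (N + 1) → A.ι → M → ℂ) (x : M) : ℝ≥0∞ :=
  if NZ s x then ENNReal.ofReal (Jsq K s x) else 0

variable [MeasurableSpace M] [BorelSpace M]

theorem measurable_dJ (K : Kah A) (hs : ∀ j, IsHS Lb univ (s j)) : Measurable (dJ K s) := by
  classical
  have h1 : dJ K s = ({x : M | NZ s x}).piecewise (fun x => ENNReal.ofReal (Jsq K s x))
      (fun _ => 0) := by
    funext x
    by_cases h : NZ s x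
    · rw [piecewise_eq_of_mem _ _ _ h]
      simp [dJ, h]
    · rw [piecewise_eq_of_notMem _ _ _ h]
      simp [dJ, h]
  rw [h1]
  exact (ENNReal.continuous_ofReal.comp_continuousOn (continuousOn_Jsq K hs)).measurable_piecewise
    continuousOn_const (isOpen_NZ hs).measurableSet

variable [Countable A.ι]

/-- the pulled back Lebesgue measure -/
def mM (K : Kah A) (s : Fin (N + 1) → A.ι → M → ℂ) : Measure M := (vm (volK K)).withDensity (dJ K s)

theorem lint_mM (K : Kah A) (hs : ∀ j, IsHS Lb univ (s j)) {W : Set M} (hW : MeasurableSet W)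
    {φ : M → ℝ≥0∞} (hφ : Measurable φ) :
    ∫⁻ x in W, φ x ∂(mM K s) = ∫⁻ x in W, dJ K s x * φ x ∂(vm (volK K)) :=
  setLIntegral_withDensity_eq_setLIntegral_mul _ (measurable_dJ K hs) hφ hW

theorem branch_lint [T2Space M] (K : Kah A) (hs : ∀ j, IsHS Lb univ (s j)) {ζ0 : Fin N → ℂ}
    {δ : ℝ} {Φ : (Fin N → ℂ) → M} (h : HolI A (ball ζ0 δ) Φ)
    (hR : ∀ ζ ∈ ball ζ0 δ, quo s (Φ ζ) = expPi ζ ∧ Φ ζ ∈ Reg K s) (hinj : InjOn Φ (ball ζ0 δ))
    (hmul : ∀ ζ ∈ ball ζ0 δ, ∀ i, Φ ζ ∈ (A.e i).source → eta s i (Φ ζ) * jac A Φ i ζ = 1)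
    {φ : M → ℝ≥0∞} (hφ : Measurable φ) {B : Set (Fin N → ℂ)} (hB : B ⊆ ball ζ0 δ)
    (hBm : MeasurableSet B) :
    MeasurableSet (Φ '' B) ∧ ∫⁻ x in Φ '' B, φ x ∂(mM K s) = ∫⁻ ζ in B, φ (Φ ζ) := by
  have hW : MeasurableSet (Φ '' B) :=
    hBm.image_of_continuousOn_injOn (h.cont.mono hB) (hinj.mono hB)
  refine ⟨hW, ?_⟩
  rw [lint_mM K hs hW hφ]
  set f : M → ℝ≥0∞ := fun x => dJ K s x * φ x with hf
  have hfm : Measurable f := (measurable_dJ K hs).mul hφ
  have key : ∫⁻ ζ in B, ENNReal.ofReal (pbg K Φ ζ).det.re * f (Φ ζ) = ∫⁻ ζ in B, φ (Φ ζ) := by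
    refine setLIntegral_congr_fun hBm fun ζ hζ => ?_
    obtain ⟨-, hN, hJ⟩ := hR ζ (hB hζ)
    simp only [hf, dJ, if_pos hN]
    rw [← mul_assoc, ← ENNReal.ofReal_mul', pbg_Jsq K hs h (hB hζ) hN (hmul ζ (hB hζ)),
      ENNReal.ofReal_one, one_mul]
    have hc := mem_ch A (Φ ζ)
    have hg := det_re_pos (K.pos _ _ hc)
    unfold Jsq
    positivity
  rw [← key]
  refine le_antisymm ?_ ?_
  · classical
    set Bk : ℕ → Set (Fin N → ℂ) := fun k => if k = 0 then B else ∅ with hBk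
    have hU : ⋃ k, Bk k = B := by
      ext ζ
      simp only [hBk, mem_iUnion]
      constructor
      · rintro ⟨k, hk⟩
        split_ifs at hk
        · exact hk
        · exact absurd hk (notMem_empty _)
      · intro hζ
        exact ⟨0, by simpa using hζ⟩
    have hsub : ∀ k, Bk k ⊆ B := fun k => by
      simp only [hBk]
      split_ifs
      · exact subset_rfl
      · exact empty_subset _
    have h1 := image_lint_of h K (B := Bk)
      (fun k => by
        simp only [hBk]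
        split_ifs
        · exact hBm
        · exact MeasurableSet.empty)
      (fun k => (hsub k).trans hB)
      (fun i j hij => by
        rw [Function.onFun, Set.disjoint_left]
        intro ζ h1 h2
        simp only [hBk] at h1 h2
        split_ifs at h1 h2
        · omega
        · exact notMem_empty _ h2
        · exact notMem_empty _ h1
        · exact notMem_empty _ h1)
      (fun k => hinj.mono ((hsub k).trans hB)) hfm hW (by rw [hU])
    rwa [hU] at h1
  · exact cv_inj' h K hBm hB (hinj.mono hB) hfm hW (mapsTo_image Φ B)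

/-- the change of variables hypothesis of the diameter theorem, on `M` -/
theorem measAt [T2Space M] (K : Kah A) (hs : ∀ j, IsHS Lb univ (s j)) {p : M} (hp : p ∈ Reg K s) :
    Df4_612.MeasAt (quo s) (mM K s) p := by
  intro ζ0 hζ0
  obtain ⟨δ, hδ, Φ, h0, hH, hR, hinj, -, hmul⟩ := exists_branch K hs hp hζ0
  exact ⟨δ, hδ, Φ, h0, hH.cont, fun ζ hζ => (hR ζ hζ).1, fun φ hφ B hB hBm =>
    (branch_lint K hs hH hR hinj hmul hφ hB hBm).2⟩

omit [MeasurableSpace M] [BorelSpace M] [Countable A.ι] in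
theorem quo_local (K : Kah A) (hs : ∀ j, IsHS Lb univ (s j)) :
    IsLocalHomeomorphOn (quo s) (Reg K s) := by
  refine IsLocalHomeomorphOn.mk _ _ fun x hx => ?_
  have hc := mem_ch A x
  have hDf : (Df (s 0) (tl s) (ch A x) x).det ≠ 0 :=
    (eta_det_ne_iff hs hc hx.1).1 ((Jsq_ne_iff K hs hc hx.1).1 hx.2)
  exact exists_chart (hs 0) (fun j => hs j.succ) hc (hx.1 0) hDf

omit [MeasurableSpace M] [BorelSpace M] [Countable A.ι] in
/-- the covering from the field `cov` of `SDat` -/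
theorem covering [T2Space M] [CompactSpace M] (hN : 0 < N) (K : Kah A)
    (hs : ∀ j, IsHS Lb univ (s j)) {P : MvPolynomial (Fin N) ℂ}
    (hPJ : ∀ x, NZ s x → MvPolynomial.eval (quo s x) P ≠ 0 → Jsq K s x ≠ 0)
    (hprop : ∀ C : Set (Fin N → ℂ), IsCompact C →
      (∀ w ∈ C, (∀ j, w j ≠ 0) ∧ MvPolynomial.eval w P ≠ 0) →
      IsCompact {x | NZ s x ∧ quo s x ∈ C}) :
    IsCoveringMapOn (quo s) {w | (∀ j, w j ≠ 0) ∧ MvPolynomial.eval w P ≠ 0} ∧
    ∀ w ∈ {w : Fin N → ℂ | (∀ j, w j ≠ 0) ∧ MvPolynomial.eval w P ≠ 0},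
      (quo s ⁻¹' {w}).Finite := by
  set U : Set (Fin N → ℂ) := {w | (∀ j, w j ≠ 0) ∧ MvPolynomial.eval w P ≠ 0} with hU
  have hUo : IsOpen U := by
    have h1 : IsOpen {w : Fin N → ℂ | ∀ j, w j ≠ 0} := by
      simp only [ofPred_forall]
      exact isOpen_iInter_of_finite fun j => isOpen_ne.preimage (continuous_apply j)
    exact h1.inter (isOpen_ne.preimage (MvPolynomial.continuous_eval P))
  have hUs : quo s ⁻¹' U ⊆ Reg K s := fun x hx => by
    have h1 := NZ_of_quo hN hs hx.1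
    exact ⟨h1, hPJ x h1 hx.2⟩
  have hZo : IsOpen (quo s ⁻¹' U) := by
    have := (continuousOn_quo hs).isOpen_inter_preimage (isOpen_NZ hs) hUo
    have hsub : quo s ⁻¹' U ⊆ {x | NZ s x} := fun x hx => (hUs hx).1
    rwa [inter_eq_right.2 hsub] at this
  refine Dg1_612.covering_of_closure hUo hZo ((quo_local K hs).mono hUs) fun w0 hw0 => ?_
  obtain ⟨ε, hε, hball⟩ := Metric.nhds_basis_closedBall.mem_iff.1 (hUo.mem_nhds hw0)
  have h1 := hprop (closedBall w0 ε) (isCompact_closedBall _ _) fun w hw => hball hw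
  refine ⟨closedBall w0 ε, closedBall_mem_nhds w0 hε, ?_⟩
  have h2 : quo s ⁻¹' closedBall w0 ε ⊆ {x | NZ s x ∧ quo s x ∈ closedBall w0 ε} :=
    fun x hx => ⟨NZ_of_quo hN hs (hball hx).1, hx⟩
  exact (closure_minimal h2 h1.isClosed).trans fun x hx => hball hx.2

end

end Crest.Agent.R281.Dh2_612
end

-- ▼ part R281/Dh3_612
section

set_option autoImplicit false
set_option linter.unusedSectionVars false
set_option linter.ambiguousOpen false
set_option maxSynthPendingDepth 3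

namespace Crest.Agent.R281.Dh3_612

open Set Filter Complex MeasureTheory Metric Matrix
open scoped _root_.Topology ContDiff Matrix ComplexConjugate ComplexOrder ENNReal
open scoped Manifold
open Crest.Agent.R275.Geo Crest.Agent.R275.Core144
open Crest.Agent.R273.Defs_333 Crest.Agent.R273.HM_333 Crest.Agent.R273.Kah_333
open Crest.Agent.R273.Vol_333 Crest.Agent.R273.Vm_333 Crest.Agent.R273.FIb0_597
open Crest.Agent.R273.SteinC_794 Crest.Agent.R273.SteinD_794
open Crest.Agent.R273.Ric_798 Crest.Agent.R273.RMan_798 Crest.Agent.R273.RMan4_798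
open Crest.Agent.R281.Dg3_612 Crest.Agent.R281.Dg4_612 Crest.Agent.R281.Dg5_612
open Crest.Agent.R281.SIn_14 Crest.Agent.R281.Per_368 Crest.Agent.R281.Dh1_612
open Crest.Agent.R281.Fra_922
open Crest.Agent.R281.Df3_612 (expPi continuous_expPi differentiable_expPi)

noncomputable section

variable {N : ℕ} {M : Type} [TopologicalSpace M] {A : Atl N M} {Lb : LB A}
  {s : Fin (N + 1) → A.ι → M → ℂ}

/-- `∑_j η_j ⊗ η̄_j` for the square matrix `E` with rows `η_j` -/
def Xe (E : Matrix (Fin N) (Fin N) ℂ) : Matrix (Fin N) (Fin N) ℂ := Eᵀ * E.map conj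

theorem bf_Xe (E : Matrix (Fin N) (Fin N) ℂ) (v : Fin N → ℂ) :
    Crest.Agent.R273.C2a_289.bf (Xe E) v v = ((∑ j, ‖(E *ᵥ v) j‖ ^ 2 : ℝ) : ℂ) := by
  unfold Crest.Agent.R273.C2a_289.bf Xe
  rw [← Matrix.mulVec_mulVec, Matrix.dotProduct_mulVec, Matrix.vecMul_transpose]
  have h1 : E.map conj *ᵥ star v = star (E *ᵥ v) := by
    funext j
    simp [Matrix.mulVec, dotProduct]
  rw [h1]
  simp only [dotProduct, Pi.star_apply, Complex.ofReal_sum]
  refine Finset.sum_congr rfl fun j _ => ?_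
  rw [← Complex.normSq_eq_norm_sq, ← Complex.mul_conj]
  rfl

theorem Xe_posDef {E : Matrix (Fin N) (Fin N) ℂ} (hE : E.det ≠ 0) : (Xe E).PosDef := by
  have h1 : Xe E = (E.map conj)ᴴ * E.map conj := by
    unfold Xe
    congr 1
    ext i j
    simp
  rw [h1]
  refine Matrix.PosDef.conjTranspose_mul_self _ ?_
  refine Matrix.mulVec_injective_of_isUnit ?_
  rw [Matrix.isUnit_iff_isUnit_det]
  have h2 : (E.map conj).det = conj E.det := by
    rw [← RingHom.mapMatrix_apply, ← RingHom.map_det]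
  rw [h2, isUnit_iff_ne_zero]
  simpa using hE

/-- `tr_E g = ∑` of the squared lengths of the dual frame -/
def tz (E g : Matrix (Fin N) (Fin N) ℂ) : ℝ := ((Xe E)⁻¹ * g).trace.re

theorem tz_nonneg {E g : Matrix (Fin N) (Fin N) ℂ} (hE : E.det ≠ 0) (hg : g.PosDef) :
    0 ≤ tz E g := by
  have h1 := Crest.Agent.R273.C2a_289.trace_mul_nonneg (Xe_posDef hE).inv.posSemidef
    hg.posSemidef
  exact (Complex.le_def.1 h1).1

/-- `|v|_g² ≤ tr_E(g) ∑ |η_j(v)|²` -/
theorem form_le_tz {E g : Matrix (Fin N) (Fin N) ℂ} (hE : E.det ≠ 0) (hg : g.PosDef)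
    (v : Fin N → ℂ) :
    (star v ⬝ᵥ (gᵀ *ᵥ v)).re ≤ tz E g * ∑ j, ‖(E *ᵥ v) j‖ ^ 2 := by
  have h0 : star v ⬝ᵥ (gᵀ *ᵥ v) = Crest.Agent.R273.C2a_289.bf g v v := by
    unfold Crest.Agent.R273.C2a_289.bf
    rw [Matrix.mulVec_transpose, Matrix.dotProduct_mulVec, dotProduct_comm]
  rw [h0]
  by_cases hv : v = 0
  · subst hv
    simp [Crest.Agent.R273.C2a_289.bf]
  have h1 := Crest.Agent.R273.C2a_289.bf_le_trace (Xe_posDef hE) hg.posSemidef hv
  rw [bf_Xe] at h1
  have h2 := (Complex.le_def.1 h1).1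
  rwa [Complex.re_mul_ofReal] at h2

theorem sum_sq_le (w : Fin N → ℂ) : ∑ j, ‖w j‖ ^ 2 ≤ N * ‖w‖ ^ 2 := by
  calc ∑ j, ‖w j‖ ^ 2 ≤ ∑ _j : Fin N, ‖w‖ ^ 2 := by
        refine Finset.sum_le_sum fun j _ => ?_
        have := norm_le_pi_norm w j
        gcongr
    _ = N * ‖w‖ ^ 2 := by simp

/-- transformation -/
theorem tz_tr {E g J : Matrix (Fin N) (Fin N) ℂ} (hJ : J.det ≠ 0) :
    tz (E * J) (Jᵀ * g * J.map conj) = tz E g := by
  unfold tz Xe
  have hJu : IsUnit J.det := isUnit_iff_ne_zero.2 hJ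
  have hJc : IsUnit (J.map conj).det := by
    have h2 : (J.map conj).det = conj J.det := by
      rw [← RingHom.mapMatrix_apply, ← RingHom.map_det]
    rw [h2, isUnit_iff_ne_zero]
    simpa using hJ
  have hJt : IsUnit (Jᵀ).det := by rw [Matrix.det_transpose]; exact hJu
  have h1 : (E * J)ᵀ * (E * J).map conj = Jᵀ * (Eᵀ * E.map conj) * J.map conj := by
    rw [Matrix.transpose_mul, Matrix.map_mul]
    simp only [Matrix.mul_assoc]
  rw [h1, Matrix.mul_inv_rev, Matrix.mul_inv_rev]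
  have h2 : (J.map conj)⁻¹ * ((Eᵀ * E.map conj)⁻¹ * (Jᵀ)⁻¹) * (Jᵀ * g * J.map conj) =
      (J.map conj)⁻¹ * ((Eᵀ * E.map conj)⁻¹ * g * J.map conj) := by
    calc _ = (J.map conj)⁻¹ * ((Eᵀ * E.map conj)⁻¹ * (((Jᵀ)⁻¹ * Jᵀ) * (g * J.map conj))) := by
          simp only [Matrix.mul_assoc]
      _ = _ := by
          rw [Matrix.nonsing_inv_mul _ hJt, Matrix.one_mul]
          simp only [Matrix.mul_assoc]
  rw [h2, Matrix.trace_mul_comm, Matrix.mul_assoc, Matrix.mul_nonsing_inv _ hJc, Matrix.mul_one]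

/-- the local Lipschitz constant of the inverse branches -/
def sg (K : Kah A) (s : Fin (N + 1) → A.ι → M → ℂ) (x : M) : ℝ :=
  Real.sqrt (N * tz (eta s (ch A x) x) (K.g (ch A x) x))

theorem sg_nonneg (K : Kah A) (x : M) : 0 ≤ sg K s x := Real.sqrt_nonneg _

theorem tz_chart (K : Kah A) (hs : ∀ j, IsHS Lb univ (s j)) {i : A.ι} {x : M}
    (hx : x ∈ (A.e i).source) (hR : x ∈ Reg K s) :
    tz (eta s (ch A x) x) (K.g (ch A x) x) = tz (eta s i x) (K.g i x) := by
  have hc := mem_ch A x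
  rw [eta_tr hs ⟨hx, hc⟩ hR.1, K.tr i (ch A x) x ⟨hx, hc⟩,
    tz_tr (Jm_det_ne ⟨hx, hc⟩)]

theorem continuousAt_tz {E g : M → Matrix (Fin N) (Fin N) ℂ} {x : M}
    (hE : ContinuousAt E x) (hg : ContinuousAt g x) (h0 : (E x).det ≠ 0) :
    ContinuousAt (fun y => tz (E y) (g y)) x := by
  have hX : ContinuousAt (fun y => Xe (E y)) x := by
    have h1 : Continuous fun B : Matrix (Fin N) (Fin N) ℂ => Xe B := by
      unfold Xe
      exact (continuous_id.matrix_transpose).matrix_mul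
        (continuous_id.matrix_map Complex.continuous_conj)
    exact (h1.tendsto (E x)).comp hE
  have hX0 : (Xe (E x)).det ≠ 0 := (Xe_posDef h0).det_pos.ne'
  have hadj : ContinuousAt (fun y => ((Xe (E y)).adjugate * g y).trace) x := by
    have a1 : ContinuousAt (fun y => (Xe (E y)).adjugate) x := by
      have b1 : Continuous fun B : Matrix (Fin N) (Fin N) ℂ => B.adjugate :=
        continuous_id.matrix_adjugate
      exact (b1.tendsto (Xe (E x))).comp hX
    have a2 : ∀ i j, ContinuousAt (fun y => (Xe (E y)).adjugate i j) x := fun i j =>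
      (continuousAt_pi.1 ((continuousAt_pi.1 a1) i)) j
    have a3 : ∀ i j, ContinuousAt (fun y => g y i j) x := fun i j =>
      (continuousAt_pi.1 ((continuousAt_pi.1 hg) i)) j
    simp only [Matrix.trace, Matrix.diag, Matrix.mul_apply]
    exact tendsto_finsetSum _ fun i _ => tendsto_finsetSum _ fun j _ => (a2 i j).mul (a3 j i)
  have hdet : ContinuousAt (fun y => (Xe (E y)).det) x := by
    have h1 : Continuous fun B : Matrix (Fin N) (Fin N) ℂ => B.det := continuous_id.matrix_det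
    exact (h1.tendsto (Xe (E x))).comp hX
  have h2 : ContinuousAt (fun y => ((Xe (E y)).det⁻¹ * ((Xe (E y)).adjugate * g y).trace).re) x :=
    Complex.continuous_re.continuousAt.comp ((hdet.inv₀ hX0).mul hadj)
  refine h2.congr (Filter.Eventually.of_forall fun y => ?_)
  show ((Xe (E y)).det⁻¹ * ((Xe (E y)).adjugate * g y).trace).re = ((Xe (E y))⁻¹ * g y).trace.re
  rw [Matrix.inv_def, Ring.inverse_eq_inv', Matrix.smul_mul, Matrix.trace_smul, smul_eq_mul]

theorem continuousOn_sg' (K : Kah A) (hs : ∀ j, IsHS Lb univ (s j)) :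
    ContinuousOn (sg K s) (Reg K s) := by
  intro x hR
  refine ContinuousAt.continuousWithinAt ?_
  have hc := mem_ch A x
  have h1 : ContinuousAt (fun y => tz (eta s (ch A x) y) (K.g (ch A x) y)) x := by
    refine continuousAt_tz ?_ ?_ ((Jsq_ne_iff K hs hc hR.1).1 hR.2)
    · exact continuousAt_pi.2 fun j => continuousAt_pi.2 fun a => continuousAt_eta hs hc hR.1 j a
    · exact continuousAt_pi.2 fun j => continuousAt_pi.2 fun a =>
        continuousAt_of_smAt (K.sm _ j a) hc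
  have h2 : ContinuousAt (fun y => Real.sqrt (N * tz (eta s (ch A x) y) (K.g (ch A x) y))) x :=
    (continuousAt_const.mul h1).sqrt
  refine h2.congr ?_
  filter_upwards [(A.e (ch A x)).open_source.mem_nhds hc, (isOpen_Reg K hs).mem_nhds hR] with y hy hn
  unfold sg
  rw [tz_chart K hs hy hn]

/-- `dlog F` is the matrix `eta` -/
theorem dlg_eta (hs : ∀ j, IsHS Lb univ (s j)) {i : A.ι} {z : Cn N} (hz : z ∈ (A.e i).target)
    (h : NZ s ((A.e i).symm z)) (v : Cn N) :
    dlg A (quo s) i z v = eta s i ((A.e i).symm z) *ᵥ v.ofLp := by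
  have hx := (A.e i).map_target hz
  funext j
  unfold dlg
  have h1 := fderiv_rc' (hs 0) (fun j => hs j.succ) hx (h 0) v
  rw [(A.e i).right_inv hz] at h1
  have h2 : (fderiv ℂ (fun w => quo s ((A.e i).symm w)) z v) j =
      (Df (s 0) (tl s) i ((A.e i).symm z) *ᵥ v.ofLp) j := congrFun h1 j
  rw [h2, eta_eq hs hx h, ← Matrix.mulVec_mulVec, Matrix.mulVec_diagonal, div_eq_inv_mul]

/-- **length of the inverse branches** -/
theorem lenAt [T2Space M] [ConnectedSpace M] [CompactSpace M] (K : Kah A)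
    (hs : ∀ j, IsHS Lb univ (s j)) {p : M} (hp : p ∈ Reg K s) :
    Df3_612.LenAt (X := (ofKah K).M) (onX K (quo s)) (onX K (sg K s)) p := by
  intro ζ0 hζ0 ε hε
  set W : Set M := Reg K s ∩ {x | sg K s x < sg K s p + ε} with hWdef
  have hW : IsOpen W := by
    have := (continuousOn_sg' K hs).isOpen_inter_preimage (isOpen_Reg K hs)
      (isOpen_Iio (a := sg K s p + ε))
    exact this
  have hpW : p ∈ W := ⟨hp, by show sg K s p < sg K s p + ε; linarith⟩
  have hC : 0 ≤ sg K s p + ε := by have := sg_nonneg (s := s) K p; linarith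
  have hHol : HolW A W (quo s) := by
    intro i
    refine differentiableOn_pi.2 fun j => ?_
    exact DifferentiableOn.mono (qt_hol (hs j.succ) (hs 0) i) fun z hz => ⟨hz.1, hz.2.1.1 0⟩
  have hne : ∀ q ∈ W, ∀ j, quo s q j ≠ 0 := fun q hq j => quo_ne hs hq.1.1 j
  have hFr : Crest.Agent.R281.Tor_922.FrameBd (E := EE (2 * N)) (onX K (quo s))
      (W : Set (ofKah K).M) (sg K s p + ε) := by
    refine frameBd K hW hHol hne hC fun i z hz hzW v => ?_
    have hx := (A.e i).map_target hz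
    have hdet := (Jsq_ne_iff K hs hx hzW.1.1).1 hzW.1.2
    have h1 := form_le_tz hdet (K.pos i _ hx) v.ofLp
    have h2 : G (KK K i) z v v = (star v.ofLp ⬝ᵥ ((K.g i ((A.e i).symm z))ᵀ *ᵥ v.ofLp)).re := rfl
    rw [h2, dlg_eta hs hz hzW.1.1]
    refine h1.trans ?_
    have h3 := sum_sq_le (eta s i ((A.e i).symm z) *ᵥ v.ofLp)
    have h4 := tz_nonneg hdet (K.pos i _ hx)
    have h5 : (N : ℝ) * tz (eta s i ((A.e i).symm z)) (K.g i ((A.e i).symm z)) ≤
        (sg K s p + ε) ^ 2 := by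
      have h6 : sg K s ((A.e i).symm z) < sg K s p + ε := hzW.2
      unfold sg at h6
      rw [tz_chart K hs hx hzW.1] at h6
      exact (Real.sqrt_le_left hC).1 h6.le
    calc tz (eta s i ((A.e i).symm z)) (K.g i ((A.e i).symm z)) *
        ∑ j, ‖(eta s i ((A.e i).symm z) *ᵥ v.ofLp) j‖ ^ 2
        ≤ tz (eta s i ((A.e i).symm z)) (K.g i ((A.e i).symm z)) *
          (N * ‖eta s i ((A.e i).symm z) *ᵥ v.ofLp‖ ^ 2) := mul_le_mul_of_nonneg_left h3 h4
      _ = (N * tz (eta s i ((A.e i).symm z)) (K.g i ((A.e i).symm z))) *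
          ‖eta s i ((A.e i).symm z) *ᵥ v.ofLp‖ ^ 2 := by ring
      _ ≤ (sg K s p + ε) ^ 2 * ‖eta s i ((A.e i).symm z) *ᵥ v.ofLp‖ ^ 2 :=
          mul_le_mul_of_nonneg_right h5 (by positivity)
      _ = _ := by rw [mul_pow]
  have hlcx := hFr.lcx hC hW (finrank_EE N)
  obtain ⟨δ, hδ, b, hb0, hb1, hb2⟩ := hlcx p hpW ζ0 hζ0
  refine ⟨δ, hδ, b, hb0, fun ζ hζ => (hb1 ζ hζ).2, fun ζ hζ => ?_⟩
  have h7 := hb2 ζ0 (mem_ball_self hδ) ζ hζ
  rw [hb0] at h7
  rw [norm_sub_rev] at h7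
  exact h7

end

end Crest.Agent.R281.Dh3_612
end

-- ▼ part R281/Dh4_612
section

set_option autoImplicit false
set_option linter.unusedSectionVars false
set_option linter.ambiguousOpen false
set_option maxSynthPendingDepth 3

namespace Crest.Agent.R281.Dh4_612

open Set Filter Complex MeasureTheory Metric Matrix
open scoped _root_.Topology ContDiff Matrix ComplexConjugate ComplexOrder ENNReal
open scoped Manifold
open Crest.Agent.R275.Geo Crest.Agent.R275.Core144
open Crest.Agent.R273.Defs_333 Crest.Agent.R273.HM_333 Crest.Agent.R273.Kah_333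
open Crest.Agent.R273.Vol_333 Crest.Agent.R273.Vm_333 Crest.Agent.R273.FIb0_597
open Crest.Agent.R273.SteinC_794 Crest.Agent.R273.SteinD_794
open Crest.Agent.R273.Ric_798 Crest.Agent.R273.RMan_798 Crest.Agent.R273.RMan4_798
open Crest.Agent.R281.Dg3_612 Crest.Agent.R281.Dg4_612 Crest.Agent.R281.Dg5_612
open Crest.Agent.R281.SIn_14 Crest.Agent.R281.Per_368 Crest.Agent.R281.Dh1_612
open Crest.Agent.R281.Dh2_612 Crest.Agent.R281.Dh3_612
open Crest.Agent.R281.Fra_922 Crest.Agent.R281.Ins_615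
open Crest.Agent.R281.Df3_612 (expPi continuous_expPi differentiable_expPi)

noncomputable section

section linalg

variable {N : ℕ}

theorem det_map_conj (E : Matrix (Fin N) (Fin N) ℂ) : (E.map conj).det = conj E.det := by
  rw [← RingHom.mapMatrix_apply, ← RingHom.map_det]

theorem det_gram {E g : Matrix (Fin N) (Fin N) ℂ} (hg : g.PosDef) :
    (E.map conj * g⁻¹ * Eᵀ).det = ((‖E.det‖ ^ 2 / g.det.re : ℝ) : ℂ) := by
  have hgr : ((g.det.re : ℝ) : ℂ) = g.det := by
    have h1 := hg.det_pos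
    have h2 := (Complex.lt_def.1 h1).2
    exact Complex.ext (by simp) (by simpa using h2)
  rw [Matrix.det_mul, Matrix.det_mul, det_map_conj, Matrix.det_transpose,
    Matrix.det_nonsing_inv, Ring.inverse_eq_inv', ← Complex.normSq_eq_norm_sq]
  push_cast
  rw [hgr, ← Complex.mul_conj]
  ring

/-- `|det E|²/det g · tr((E^* E)⁻¹ g) = tr adj(E g⁻¹ E^*)` -/
theorem adj_gram {E g : Matrix (Fin N) (Fin N) ℂ} (hE : E.det ≠ 0) (hg : g.PosDef) :
    (E.map conj * g⁻¹ * Eᵀ).adjugate.trace.re = ‖E.det‖ ^ 2 / g.det.re * tz E g := by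
  have hgu : IsUnit g.det := (Matrix.isUnit_iff_isUnit_det _).1 hg.isUnit
  have hEu : IsUnit E.det := isUnit_iff_ne_zero.2 hE
  have hEt : IsUnit (Eᵀ).det := by rw [Matrix.det_transpose]; exact hEu
  have hEc : IsUnit (E.map conj).det := by
    rw [det_map_conj, isUnit_iff_ne_zero]
    simpa using hE
  set Gr := E.map conj * g⁻¹ * Eᵀ with hGr
  have hdet : Gr.det = ((‖E.det‖ ^ 2 / g.det.re : ℝ) : ℂ) := det_gram hg
  have hG0 : Gr.det ≠ 0 := by
    rw [hGr, Matrix.det_mul, Matrix.det_mul, Matrix.det_nonsing_inv, Ring.inverse_eq_inv']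
    exact mul_ne_zero (mul_ne_zero hEc.ne_zero (inv_ne_zero hgu.ne_zero)) hEt.ne_zero
  have h1 : Gr.adjugate = Gr.det • Gr⁻¹ := by
    rw [Matrix.inv_def, Ring.inverse_eq_inv', smul_smul, mul_inv_cancel₀ hG0, one_smul]
  have h2 : Gr⁻¹.trace = ((Xe E)⁻¹ * g).trace := by
    unfold Xe
    rw [hGr, Matrix.mul_inv_rev, Matrix.mul_inv_rev, Matrix.mul_inv_rev,
      Matrix.nonsing_inv_nonsing_inv _ hgu]
    rw [← Matrix.mul_assoc, Matrix.trace_mul_comm, ← Matrix.mul_assoc]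
  rw [h1, Matrix.trace_smul, h2, hdet, smul_eq_mul, Complex.re_ofReal_mul]
  rfl

end linalg

theorem differentiable_eval {N : ℕ} (P : MvPolynomial (Fin N) ℂ) :
    Differentiable ℂ fun w : Fin N → ℂ => MvPolynomial.eval w P := by
  induction P using MvPolynomial.induction_on with
  | C a =>
    simp only [MvPolynomial.eval_C]
    exact differentiable_const a
  | add p q hp hq =>
    simp only [map_add]
    exact hp.add hq
  | mul_X p j hp =>
    simp only [map_mul, MvPolynomial.eval_X]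
    exact hp.mul (differentiable_pi.1 differentiable_id j)

/-- a nonzero polynomial does not vanish identically on the torus -/
theorem exists_eval_ne {N : ℕ} {P : MvPolynomial (Fin N) ℂ} (hP : P ≠ 0) :
    ∃ w : Fin N → ℂ, (∀ j, w j ≠ 0) ∧ MvPolynomial.eval w P ≠ 0 := by
  by_contra hcon
  push Not at hcon
  have h1 : P * ∏ j, MvPolynomial.X j = 0 := by
    refine MvPolynomial.funext fun w => ?_
    rw [map_mul, map_zero, map_prod]
    by_cases h : ∀ j, w j ≠ 0
    · rw [hcon w h, zero_mul]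
    · push Not at h
      obtain ⟨j, hj⟩ := h
      refine mul_eq_zero_of_right _ (Finset.prod_eq_zero (Finset.mem_univ j) ?_)
      rw [MvPolynomial.eval_X, hj]
  rcases mul_eq_zero.1 h1 with h | h
  · exact hP h
  · exact (Finset.prod_ne_zero_iff.2 fun j _ => MvPolynomial.X_ne_zero j) h

/-- `{ζ | P(exp ζ) = 0}` is a null set -/
theorem volume_zero {N : ℕ} {P : MvPolynomial (Fin N) ℂ} (hP : P ≠ 0) :
    volume {ζ : Fin N → ℂ | MvPolynomial.eval (expPi ζ) P = 0} = 0 := by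
  obtain ⟨w, hw, hPw⟩ := exists_eval_ne hP
  have h1 := Df2_612.ae_segment_ne_zero (m := (volume : Measure (Fin N → ℂ)))
    (F := fun ζ => MvPolynomial.eval (expPi ζ) P)
    ((differentiable_eval P).comp differentiable_expPi) (z0 := Df5_612.lg w)
    (by
      show MvPolynomial.eval (expPi (Df5_612.lg w)) P ≠ 0
      rw [Df5_612.expPi_lg hw]; exact hPw)
  have h2 : ∀ᵐ ζ : Fin N → ℂ, MvPolynomial.eval (expPi ζ) P ≠ 0 := by
    filter_upwards [h1] with ζ hζ
    have h3 := hζ 1 ⟨zero_le_one, le_rfl⟩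
    have h4 : Df5_612.lg w + (1 : ℝ) • (ζ - Df5_612.lg w) = ζ := by
      rw [one_smul]; abel
    rwa [h4] at h3
  rw [ae_iff] at h2
  simpa using h2

variable {N : ℕ} {M : Type} [TopologicalSpace M] {A : Atl N M} {Lb : LB A}
  {s : Fin (N + 1) → A.ι → M → ℂ}

theorem quo_zero {x : M} (h : x ∉ nz (s 0)) : quo s x = 0 := by
  funext j
  have h0 : s 0 (ch A x) x = 0 := by
    by_contra hne
    exact h hne
  show s j.succ (ch A x) x / s 0 (ch A x) x = 0
  rw [h0, div_zero]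

variable [MeasurableSpace M] [BorelSpace M]

theorem measurable_quo (hs : ∀ j, IsHS Lb univ (s j)) : Measurable (quo s) := by
  classical
  have h1 : quo s = (nz (s 0)).piecewise (quo s) (fun _ => 0) := by
    funext x
    by_cases h : x ∈ nz (s 0)
    · rw [piecewise_eq_of_mem _ _ _ h]
    · rw [piecewise_eq_of_notMem _ _ _ h, quo_zero h]
  rw [h1]
  exact (rf_continuousOn (hs 0) (fun j => hs j.succ)).measurable_piecewise continuousOn_const
    (isOpen_nz (hs 0)).measurableSet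

variable [Countable A.ι] [T2Space M] [SecondCountableTopology M]

/-- `{P(F) = 0}` is a null set for the pulled back Lebesgue measure -/
theorem mM_zero (K : Kah A) (hs : ∀ j, IsHS Lb univ (s j)) {P : MvPolynomial (Fin N) ℂ}
    (hP : P ≠ 0) : mM K s {x | x ∈ Reg K s ∧ MvPolynomial.eval (quo s x) P = 0} = 0 := by
  have hloc : ∀ p ∈ Reg K s, ∃ O : Set M, IsOpen O ∧ p ∈ O ∧
      mM K s (O ∩ {x | x ∈ Reg K s ∧ MvPolynomial.eval (quo s x) P = 0}) = 0 := by
    intro p hp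
    have hq : expPi (Df5_612.lg (quo s p)) = quo s p := Df5_612.expPi_lg fun j => quo_ne hs hp.1 j
    obtain ⟨δ, hδ, Φ, h0, hH, hR, hinj, hop, hmul⟩ := exists_branch K hs hp hq
    refine ⟨Φ '' ball (Df5_612.lg (quo s p)) δ, hop _ subset_rfl isOpen_ball,
      ⟨_, mem_ball_self hδ, h0⟩, ?_⟩
    set B : Set (Fin N → ℂ) := ball (Df5_612.lg (quo s p)) δ ∩
      {ζ | MvPolynomial.eval (expPi ζ) P = 0} with hB
    have hBm : MeasurableSet B := by
      refine measurableSet_ball.inter ?_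
      exact (isClosed_singleton (x := (0 : ℂ))).measurableSet.preimage
        ((differentiable_eval P).continuous.comp continuous_expPi).measurable
    have h1 := (branch_lint K hs hH hR hinj hmul (φ := fun _ => 1) measurable_const
      (B := B) inter_subset_left hBm).2
    rw [setLIntegral_one, setLIntegral_one] at h1
    have h2 : volume B = 0 := measure_mono_null inter_subset_right (volume_zero hP)
    rw [h2] at h1
    refine measure_mono_null ?_ h1
    rintro _ ⟨⟨ζ, hζ, rfl⟩, hx⟩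
    refine ⟨ζ, ⟨hζ, ?_⟩, rfl⟩
    show MvPolynomial.eval (expPi ζ) P = 0
    rw [← (hR ζ hζ).1]
    exact hx.2
  choose! O hO hpO hnull using hloc
  obtain ⟨T, hTR, hTc, hT⟩ := TopologicalSpace.countable_cover_nhdsWithin
    (s := Reg K s) (f := O) (fun p hp => mem_nhdsWithin_of_mem_nhds ((hO p hp).mem_nhds (hpO p hp)))
  refine measure_mono_null (t := ⋃ p ∈ T, O p ∩ {x | x ∈ Reg K s ∧
    MvPolynomial.eval (quo s x) P = 0}) ?_ ?_
  · intro x hx
    obtain ⟨p, hp, hxp⟩ := mem_iUnion₂.1 (hT hx.1)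
    exact mem_iUnion₂.2 ⟨p, hp, hxp, hx⟩
  · exact (measure_biUnion_null_iff hTc).2 fun p hp => hnull p (hTR hp)

/-- ... and for the volume -/
theorem vm_zero (K : Kah A) (hs : ∀ j, IsHS Lb univ (s j)) {P : MvPolynomial (Fin N) ℂ}
    (hP : P ≠ 0) :
    vm (volK K) {x | x ∈ Reg K s ∧ MvPolynomial.eval (quo s x) P = 0} = 0 := by
  set S : Set M := {x | x ∈ Reg K s ∧ MvPolynomial.eval (quo s x) P = 0} with hS
  have hSm : MeasurableSet S := by
    refine (isOpen_Reg K hs).measurableSet.inter ?_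
    exact (isClosed_singleton (x := (0 : ℂ))).measurableSet.preimage
      ((differentiable_eval P).continuous.measurable.comp (measurable_quo hs))
  have h1 := mM_zero K hs hP
  rw [← hS, mM, withDensity_apply _ hSm, lintegral_eq_zero_iff (measurable_dJ K hs)] at h1
  rw [Filter.EventuallyEq, ae_restrict_iff' hSm] at h1
  rw [← nonpos_iff_eq_zero]
  refine le_trans (measure_mono fun x hx => ?_) (ae_iff.1 h1).le
  show ¬ (x ∈ S → Dh2_612.dJ K s x = (0 : M → ℝ≥0∞) x)
  intro hcon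
  have h2 := hcon hx
  have h3 : Dh2_612.dJ K s x = ENNReal.ofReal (Jsq K s x) := by simp [Dh2_612.dJ, hx.1.1]
  rw [h3, Pi.zero_apply, ENNReal.ofReal_eq_zero] at h2
  have h4 : 0 ≤ Jsq K s x := by
    have hc := mem_ch A x
    have hg := det_re_pos (K.pos _ _ hc)
    unfold Jsq
    positivity
  exact hx.1.2 (le_antisymm h2 h4)

end

end Crest.Agent.R281.Dh4_612
end

-- ▼ part R281/Th1_484
section

/-!
# R281 (S0424), DIV 4, THETA part 1 (helper484): the pointwise bound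

* `flat` : `∂∂̄ log(|f₀|² + |f₁|² + ε e^φ) ≥ W W^* / q²`, `W = f₀ ∂f₁ - f₁ ∂f₀`
* `psi2 h s0 s1 ε = log(|s0|²_h + |s1|²_h + ε)`
* `theta2` : `cur h + ∂∂̄ psi2 ≥ (u₀u₁/(u₀+u₁+ε)²) η η^*`, `η = dlog(s1/s0)`
-/

set_option autoImplicit false
set_option linter.unusedSectionVars false

open Set Filter Topology Complex MeasureTheory
open scoped ContDiff Matrix ComplexConjugate ComplexOrder

namespace Crest.Agent.R281.Th1_484

open Crest.Agent.R275 Crest.Agent.R275.Geo Crest.Agent.R275.Core144 Crest.Agent.R275.EDR890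
open Crest.Agent.R273.Defs_333 Crest.Agent.R273.Hess_333 Crest.Agent.R273.HessB_333
open Crest.Agent.R273.HM_333 Crest.Agent.R273.Kah_333 Crest.Agent.R273.Vol_333
open Crest.Agent.R273.Vm_333
open Crest.Agent.R273.FIa0_597 Crest.Agent.R273.FIb0_597 Crest.Agent.R273
open Crest.Agent.R273.FS_333 (sq wd_sq wd_sq' hess_sq contDiffAt_of_hol)
open Crest.Agent.R281.Glob1_484 Crest.Agent.R281.SIn_14

noncomputable section

variable {n : ℕ}

/-! ### linear algebra -/

/-- Lagrange identity for three vectors -/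
theorem lag3 (f0 f1 : ℂ) (D0 D1 g : Fin n → ℂ) (E : ℝ) :
    ((‖f0‖ ^ 2 + ‖f1‖ ^ 2 + E : ℝ) : ℂ) • (Matrix.vecMulVec D0 (star D0) +
        Matrix.vecMulVec D1 (star D1) + (E : ℂ) • Matrix.vecMulVec g (star g)) -
      Matrix.vecMulVec (conj f0 • D0 + conj f1 • D1 + (E : ℂ) • g)
        (star (conj f0 • D0 + conj f1 • D1 + (E : ℂ) • g)) =
    Matrix.vecMulVec (f0 • D1 - f1 • D0) (star (f0 • D1 - f1 • D0)) +
      ((E : ℂ) • Matrix.vecMulVec (D0 - f0 • g) (star (D0 - f0 • g)) +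
      (E : ℂ) • Matrix.vecMulVec (D1 - f1 • g) (star (D1 - f1 • g))) := by
  have e0 : ((‖f0‖ ^ 2 : ℝ) : ℂ) = f0 * conj f0 := by
    rw [Complex.mul_conj, Complex.normSq_eq_norm_sq]
  have e1 : ((‖f1‖ ^ 2 : ℝ) : ℂ) = f1 * conj f1 := by
    rw [Complex.mul_conj, Complex.normSq_eq_norm_sq]
  ext a b
  simp only [Matrix.sub_apply, Matrix.add_apply, Matrix.smul_apply, Matrix.vecMulVec_apply,
    Pi.add_apply, Pi.sub_apply, Pi.smul_apply, Pi.star_apply, RCLike.star_def, smul_eq_mul,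
    map_add, map_sub, map_mul, Complex.conj_conj, Complex.conj_ofReal]
  rw [Complex.ofReal_add, Complex.ofReal_add, e0, e1]
  ring

theorem vmv_smul (c : ℂ) (v : Fin n → ℂ) :
    Matrix.vecMulVec (c • v) (star (c • v)) =
      ((‖c‖ ^ 2 : ℝ) : ℂ) • Matrix.vecMulVec v (star v) := by
  have e0 : ((‖c‖ ^ 2 : ℝ) : ℂ) = c * conj c := by
    rw [Complex.mul_conj, Complex.normSq_eq_norm_sq]
  ext a b
  simp only [Matrix.smul_apply, Matrix.vecMulVec_apply, Pi.smul_apply, Pi.star_apply,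
    RCLike.star_def, smul_eq_mul, map_mul, e0]
  ring

/-! ### the flat computation -/

/-- the vector `∂f` -/
def dv (f : Cn n → ℂ) (z : Cn n) : Fin n → ℂ := fun a => fderiv ℂ f z (EuclideanSpace.single a 1)

section flat

variable {f0 f1 : Cn n → ℂ} {φ : Cn n → ℝ} {U : Set (Cn n)} {z : Cn n}

theorem sq2 (f0 f1 : Cn n → ℂ) :
    (FS_333.sq fun w => ![f0 w, f1 w]) = fun w => ‖f0 w‖ ^ 2 + ‖f1 w‖ ^ 2 := by
  funext w
  simp [FS_333.sq, Fin.sum_univ_two]

theorem hol2 (h0 : DifferentiableOn ℂ f0 U) (h1 : DifferentiableOn ℂ f1 U) :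
    ∀ k, DifferentiableOn ℂ (fun w => (fun w => ![f0 w, f1 w]) w k) U := by
  intro k
  fin_cases k
  · exact h0
  · exact h1

theorem hess2 (hU : IsOpen U) (h0 : DifferentiableOn ℂ f0 U) (h1 : DifferentiableOn ℂ f1 U)
    (hz : z ∈ U) : hess (fun w => ‖f0 w‖ ^ 2 + ‖f1 w‖ ^ 2) z =
      Matrix.vecMulVec (dv f0 z) (star (dv f0 z)) + Matrix.vecMulVec (dv f1 z) (star (dv f1 z)) := by
  rw [← sq2]
  ext a b
  rw [hess_sq hU (hol2 h0 h1) hz, Fin.sum_univ_two]
  rfl

theorem gr2 (hU : IsOpen U) (h0 : DifferentiableOn ℂ f0 U) (h1 : DifferentiableOn ℂ f1 U)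
    (hz : z ∈ U) : gr (fun w => ‖f0 w‖ ^ 2 + ‖f1 w‖ ^ 2) z =
      conj (f0 z) • dv f0 z + conj (f1 z) • dv f1 z := by
  rw [← sq2]
  funext a
  rw [gr, wd_sq' hU (hol2 h0 h1) hz, Fin.sum_univ_two]
  exact congrArg₂ (· + ·) (mul_comm _ _) (mul_comm _ _)

theorem sm2 (hU : IsOpen U) (h0 : DifferentiableOn ℂ f0 U) (h1 : DifferentiableOn ℂ f1 U)
    (hz : z ∈ U) : ContDiffAt ℝ ∞ (fun w => ‖f0 w‖ ^ 2 + ‖f1 w‖ ^ 2) z :=
  ((contDiffAt_of_hol hU h0 hz).norm_sq ℝ).add ((contDiffAt_of_hol hU h1 hz).norm_sq ℝ)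

theorem gr_add' {u v : Cn n → ℝ} (hu : DifferentiableAt ℝ u z) (hv : DifferentiableAt ℝ v z) :
    gr (fun w => u w + v w) z = gr u z + gr v z := by
  funext a
  have h1 : cu (fun w => u w + v w) = fun w => cu u w + cu v w := by
    funext w; simp [cu]
  have hu' : DifferentiableAt ℝ (cu u) z := Complex.ofRealCLM.differentiableAt.comp z hu
  have hv' : DifferentiableAt ℝ (cu v) z := Complex.ofRealCLM.differentiableAt.comp z hv
  show wd (false, a) (cu fun w => u w + v w) z = wd (false, a) (cu u) z + wd (false, a) (cu v) z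
  rw [h1, wd_add hu' hv']

theorem flat (hU : IsOpen U) (h0 : DifferentiableOn ℂ f0 U) (h1 : DifferentiableOn ℂ f1 U)
    (hz : z ∈ U) (hφ : ContDiffAt ℝ ∞ φ z) (hp : (hess φ z).PosSemidef) {ε : ℝ} (hε : 0 < ε) :
    (hess (fun w => Real.log (‖f0 w‖ ^ 2 + ‖f1 w‖ ^ 2 + ε * Real.exp (φ w))) z -
      ((((‖f0 z‖ ^ 2 + ‖f1 z‖ ^ 2 + ε * Real.exp (φ z)) ^ 2)⁻¹ : ℝ) : ℂ) •
        Matrix.vecMulVec (f0 z • dv f1 z - f1 z • dv f0 z)
          (star (f0 z • dv f1 z - f1 z • dv f0 z))).PosSemidef := by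
  set E : ℝ := ε * Real.exp (φ z) with hE
  have hE0 : 0 < E := by positivity
  set q : ℝ := ‖f0 z‖ ^ 2 + ‖f1 z‖ ^ 2 + E with hq
  have hq0 : 0 < q := by positivity
  -- the third summand
  have hex : ContDiffAt ℝ ∞ (fun w => ε * Real.exp (φ w)) z := contDiffAt_const.mul hφ.exp
  have e1 : hess (fun w => ε * Real.exp (φ w)) z = (E : ℂ) • hess φ z +
      (E : ℂ) • Matrix.vecMulVec (gr φ z) (star (gr φ z)) := by
    have := hess_comp_mat (φ := fun s => ε * Real.exp s) (φ' := fun s => ε * Real.exp s)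
      (d2 := ε * Real.exp (φ z)) hφ
      (Eventually.of_forall fun s => (Real.hasDerivAt_exp s).const_mul ε)
      ((Real.hasDerivAt_exp _).const_mul ε)
    rw [this]
    rfl
  have e2 : gr (fun w => ε * Real.exp (φ w)) z = (E : ℂ) • gr φ z := by
    funext a
    exact wd_comp_real (φ := fun s => ε * Real.exp s) (false, a) (hφ.differentiableAt (by simp))
      ((Real.hasDerivAt_exp _).const_mul ε)
  have hs := sm2 hU h0 h1 hz
  have e3 : hess (fun w => ‖f0 w‖ ^ 2 + ‖f1 w‖ ^ 2 + ε * Real.exp (φ w)) z =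
      Matrix.vecMulVec (dv f0 z) (star (dv f0 z)) + Matrix.vecMulVec (dv f1 z) (star (dv f1 z)) +
        ((E : ℂ) • hess φ z + (E : ℂ) • Matrix.vecMulVec (gr φ z) (star (gr φ z))) := by
    rw [hess_add hs hex, hess2 hU h0 h1 hz, e1]
  have e4 : gr (fun w => ‖f0 w‖ ^ 2 + ‖f1 w‖ ^ 2 + ε * Real.exp (φ w)) z =
      conj (f0 z) • dv f0 z + conj (f1 z) • dv f1 z + (E : ℂ) • gr φ z := by
    rw [gr_add' (hs.differentiableAt (by simp)) (hex.differentiableAt (by simp)),
      gr2 hU h0 h1 hz, e2]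
  have hU' : ContDiffAt ℝ ∞ (fun w => ‖f0 w‖ ^ 2 + ‖f1 w‖ ^ 2 + ε * Real.exp (φ w)) z :=
    hs.add hex
  have h3 := hess_log_add_mat 0 hU' (by simpa using hq0)
  simp only [add_zero] at h3
  rw [h3, e3, e4]
  have h4 := lag3 (f0 z) (f1 z) (dv f0 z) (dv f1 z) (gr φ z) E
  set W := f0 z • dv f1 z - f1 z • dv f0 z with hW
  set S := Matrix.vecMulVec (dv f0 z) (star (dv f0 z)) +
    Matrix.vecMulVec (dv f1 z) (star (dv f1 z)) with hS
  set V := conj (f0 z) • dv f0 z + conj (f1 z) • dv f1 z + (E : ℂ) • gr φ z with hV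
  set R := (E : ℂ) • Matrix.vecMulVec (dv f0 z - f0 z • gr φ z) (star (dv f0 z - f0 z • gr φ z)) +
      (E : ℂ) • Matrix.vecMulVec (dv f1 z - f1 z • gr φ z) (star (dv f1 z - f1 z • gr φ z)) with hR
  have hRp : R.PosSemidef := by
    have hE' : (0 : ℂ) ≤ (E : ℂ) := by exact_mod_cast hE0.le
    exact ((Matrix.posSemidef_vecMulVec_self_star _).smul hE').add
      ((Matrix.posSemidef_vecMulVec_self_star _).smul hE')
  have hqc : ((q : ℝ) : ℂ) ≠ 0 := by exact_mod_cast hq0.ne'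
  have key : ((q⁻¹ : ℝ) • (S + ((E : ℂ) • hess φ z +
      (E : ℂ) • Matrix.vecMulVec (gr φ z) (star (gr φ z)))) -
      (((q ^ 2)⁻¹ : ℝ)) • Matrix.vecMulVec V (star V)) -
      ((((q ^ 2)⁻¹ : ℝ)) : ℂ) • Matrix.vecMulVec W (star W) =
      (((q ^ 2)⁻¹ : ℝ) : ℂ) • R + ((q⁻¹ * E : ℝ) : ℂ) • hess φ z := by
    have h5 : R = (q : ℂ) • (S + (E : ℂ) • Matrix.vecMulVec (gr φ z) (star (gr φ z))) -
        Matrix.vecMulVec V (star V) - Matrix.vecMulVec W (star W) := by
      rw [hS, h4]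
      abel
    rw [h5]
    have r1 : ∀ (t : ℝ) (X : Matrix (Fin n) (Fin n) ℂ), t • X = (t : ℂ) • X := fun t X => by
      ext a b; simp [Complex.real_smul]
    rw [r1, r1]
    simp only [smul_sub, smul_add, smul_smul]
    have r2 : (((q ^ 2)⁻¹ : ℝ) : ℂ) * (q : ℂ) = ((q⁻¹ : ℝ) : ℂ) := by
      push_cast
      field_simp
    simp only [← mul_assoc, r2, Complex.ofReal_mul]
    abel
  have hgoal : (hess φ z).PosSemidef := hp
  change ((q⁻¹ : ℝ) • (S + ((E : ℂ) • hess φ z +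
      (E : ℂ) • Matrix.vecMulVec (gr φ z) (star (gr φ z)))) -
      (((q ^ 2)⁻¹ : ℝ)) • Matrix.vecMulVec V (star V) -
      ((((q ^ 2)⁻¹ : ℝ)) : ℂ) • Matrix.vecMulVec W (star W)).PosSemidef
  rw [key]
  refine (hRp.smul ?_).add (hp.smul ?_)
  · have : 0 ≤ (q ^ 2)⁻¹ := by positivity
    exact_mod_cast this
  · have : 0 ≤ q⁻¹ * E := by positivity
    exact_mod_cast this

end flat

/-! ### on the manifold -/

variable {M : Type} [TopologicalSpace M] {A : Atl n M} {L : LB A}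

/-- `log(|s0|²_h + |s1|²_h + ε)` -/
def psi2 (h : HM L) (s0 s1 : A.ι → M → ℂ) (ε : ℝ) (x : M) : ℝ :=
  Real.log (nsM h s0 x + nsM h s1 x + ε)

theorem sm_psi2 (h : HM L) {s0 s1 : A.ι → M → ℂ} (h0 : IsHS L univ s0) (h1 : IsHS L univ s1)
    {ε : ℝ} (hε : 0 < ε) : A.Sm (psi2 h s0 s1 ε) := by
  intro i
  refine ContDiffOn.log (((sm_nsM h h0 i).add (sm_nsM h h1 i)).add contDiffOn_const) ?_
  intro z _
  have h2 := nsM_nonneg h s0 ((A.e i).symm z)
  have h3 := nsM_nonneg h s1 ((A.e i).symm z)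
  show nsM h s0 _ + nsM h s1 _ + ε ≠ 0
  positivity

/-- `∂s` in the chart `i` -/
def pdv (A : Atl n M) (i : A.ι) (s : A.ι → M → ℂ) (x : M) : Fin n → ℂ :=
  dv (fun z => s i ((A.e i).symm z)) (A.e i x)

theorem pdv_eq (i : A.ι) (s : A.ι → M → ℂ) (x : M) (a : Fin n) :
    pdv A i s x a = pd A i (s i) x a := rfl

theorem theta1 (h : HM L) {s0 s1 : A.ι → M → ℂ} (h0 : IsHS L univ s0) (h1 : IsHS L univ s1)
    {ε : ℝ} (hε : 0 < ε) {i : A.ι} {x : M} (hx : x ∈ (A.e i).source)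
    (hc : (cur h i x).PosSemidef) :
    (cur h i x + hsf A (psi2 h s0 s1 ε) i x -
      ((((‖s0 i x‖ ^ 2 + ‖s1 i x‖ ^ 2 + ε * (h.w i x)⁻¹) ^ 2)⁻¹ : ℝ) : ℂ) •
        Matrix.vecMulVec (s0 i x • pdv A i s1 x - s1 i x • pdv A i s0 x)
          (star (s0 i x • pdv A i s1 x - s1 i x • pdv A i s0 x))).PosSemidef := by
  have hz := (A.e i).map_source hx
  have hd : ∀ s : A.ι → M → ℂ, IsHS L univ s →
      DifferentiableOn ℂ (fun z => s i ((A.e i).symm z)) (A.e i).target := by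
    intro s hs
    have h1 : DifferentiableOn ℂ (fun z => s i ((A.e i).symm z))
      ((A.e i).target ∩ (A.e i).symm ⁻¹' univ) := hs.hol i
    rwa [preimage_univ, inter_univ] at h1
  have hw : ContDiffAt ℝ ∞ (h.wt i) (A.e i x) :=
    (wt_smooth h i).contDiffAt ((A.e i).open_target.mem_nhds hz)
  have hcur : hess (h.wt i) (A.e i x) = cur h i x := rfl
  have hexp : ∀ z ∈ (A.e i).target, Real.exp (h.wt i z) = (h.w i ((A.e i).symm z))⁻¹ := by
    intro z hz
    have h3 := h.pos i _ ((A.e i).map_target hz)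
    rw [HM.wt, Real.exp_neg, Real.exp_log h3]
  have hf := flat (f0 := fun z => s0 i ((A.e i).symm z)) (f1 := fun z => s1 i ((A.e i).symm z))
    (φ := h.wt i) (A.e i).open_target (hd s0 h0) (hd s1 h1) hz hw (by rw [hcur]; exact hc) hε
  have e1 : (fun z => psi2 h s0 s1 ε ((A.e i).symm z)) =ᶠ[𝓝 (A.e i x)]
      fun z => Real.log (‖s0 i ((A.e i).symm z)‖ ^ 2 + ‖s1 i ((A.e i).symm z)‖ ^ 2 +
        ε * Real.exp (h.wt i z)) - h.wt i z := by
    filter_upwards [(A.e i).open_target.mem_nhds hz] with z hz2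
    have hz3 := (A.e i).map_target hz2
    have h3 := h.pos i _ hz3
    rw [psi2, nsM_eq h h0 hz3, nsM_eq h h1 hz3, nsq, nsq, hexp z hz2, HM.wt, sub_neg_eq_add,
      ← Real.log_mul _ h3.ne']
    · congr 1
      field_simp
    · positivity
  have e2 : hsf A (psi2 h s0 s1 ε) i x = hess (fun z => Real.log (‖s0 i ((A.e i).symm z)‖ ^ 2 +
      ‖s1 i ((A.e i).symm z)‖ ^ 2 + ε * Real.exp (h.wt i z))) (A.e i x) - cur h i x := by
    show hess (fun z => psi2 h s0 s1 ε ((A.e i).symm z)) (A.e i x) = _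
    rw [hess_congr e1, hess_sub _ hw]
    · rfl
    · have hs := sm2 (A.e i).open_target (hd s0 h0) (hd s1 h1) hz
      refine (hs.add (contDiffAt_const.mul hw.exp)).log ?_
      positivity
  rw [e2, add_sub_cancel]
  have e3 : (A.e i).symm (A.e i x) = x := (A.e i).left_inv hx
  rw [hexp _ hz] at hf
  simp only [e3] at hf
  exact hf

/-- `dlog(s1/s0)` -/
def etaV (A : Atl n M) (i : A.ι) (s0 s1 : A.ι → M → ℂ) (x : M) : Fin n → ℂ :=
  fun a => pd A i (s1 i) x a / s1 i x - pd A i (s0 i) x a / s0 i x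

theorem theta2 (h : HM L) {s0 s1 : A.ι → M → ℂ} (h0 : IsHS L univ s0) (h1 : IsHS L univ s1)
    {ε : ℝ} (hε : 0 < ε) {i : A.ι} {x : M} (hx : x ∈ (A.e i).source)
    (hc : (cur h i x).PosSemidef) (n0 : s0 i x ≠ 0) (n1 : s1 i x ≠ 0) :
    (cur h i x + hsf A (psi2 h s0 s1 ε) i x -
      ((nsM h s0 x * nsM h s1 x / (nsM h s0 x + nsM h s1 x + ε) ^ 2 : ℝ) : ℂ) •
        Matrix.vecMulVec (etaV A i s0 s1 x) (star (etaV A i s0 s1 x))).PosSemidef := by
  have h2 := theta1 h h0 h1 hε hx hc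
  have h3 : s0 i x • pdv A i s1 x - s1 i x • pdv A i s0 x =
      (s0 i x * s1 i x) • etaV A i s0 s1 x := by
    funext a
    simp only [Pi.sub_apply, Pi.smul_apply, smul_eq_mul, etaV, pdv_eq]
    field_simp
  rw [h3, vmv_smul, smul_smul, ← Complex.ofReal_mul] at h2
  have h4 := h.pos i _ hx
  have h5 : ((‖s0 i x‖ ^ 2 + ‖s1 i x‖ ^ 2 + ε * (h.w i x)⁻¹) ^ 2)⁻¹ * ‖s0 i x * s1 i x‖ ^ 2 =
      nsM h s0 x * nsM h s1 x / (nsM h s0 x + nsM h s1 x + ε) ^ 2 := by
    rw [nsM_eq h h0 hx, nsM_eq h h1 hx, nsq, nsq, norm_mul]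
    have h6 : ‖s0 i x‖ ^ 2 * h.w i x + ‖s1 i x‖ ^ 2 * h.w i x + ε =
        (‖s0 i x‖ ^ 2 + ‖s1 i x‖ ^ 2 + ε * (h.w i x)⁻¹) * h.w i x := by
      field_simp
    rw [h6, mul_pow]
    have h7 : 0 < ‖s0 i x‖ ^ 2 + ‖s1 i x‖ ^ 2 + ε * (h.w i x)⁻¹ := by positivity
    field_simp
  rwa [h5] at h2

/-- `cur h + ∂∂̄ psi2 ≥ 0` -/
theorem theta0 (h : HM L) {s0 s1 : A.ι → M → ℂ} (h0 : IsHS L univ s0) (h1 : IsHS L univ s1)
    {ε : ℝ} (hε : 0 < ε) {i : A.ι} {x : M} (hx : x ∈ (A.e i).source)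
    (hc : (cur h i x).PosSemidef) :
    (cur h i x + hsf A (psi2 h s0 s1 ε) i x).PosSemidef := by
  have h2 := theta1 h h0 h1 hε hx hc
  have h3 : (0 : ℂ) ≤
      ((((‖s0 i x‖ ^ 2 + ‖s1 i x‖ ^ 2 + ε * (h.w i x)⁻¹) ^ 2)⁻¹ : ℝ) : ℂ) := by
    exact_mod_cast inv_nonneg.2 (sq_nonneg _)
  have h4 := h2.add ((Matrix.posSemidef_vecMulVec_self_star
    (s0 i x • pdv A i s1 x - s1 i x • pdv A i s0 x)).smul h3)
  rwa [sub_add_cancel] at h4

end

end Crest.Agent.R281.Th1_484
end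

-- ▼ part R281/Th2_484
section

/-!
# R281 (S0424), DIV 4, THETA part 2 (helper484): the averaged potential and its mass

Over the fields `hol`, `curv` of `SIn_14.SDat`:
* `Hm s i x = ∑_j η_j η_j^*` (`η_j = dlog F_j`)
* `dR K s c x = det(K + c Hm)/det K`
* **`mass_le`** : `∫_R det(K + c₁ Hm)/det K ≤ (1+m)^N vol`, `c₁ = 1/(8 N (2 C0 + 3))`, for every set
  `R` on which no `s_j` vanishes and all `|log|F_j|| ≤ C0 L` (`L ≥ 1`)
-/

set_option autoImplicit false
set_option linter.unusedSectionVars false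

open Set Filter Topology Complex MeasureTheory
open scoped ContDiff Matrix ComplexConjugate ComplexOrder ENNReal

namespace Crest.Agent.R281.Th2_484

open Crest.Agent.R275 Crest.Agent.R275.Geo Crest.Agent.R275.Core144 Crest.Agent.R275.EDR890
open Crest.Agent.R273.Defs_333 Crest.Agent.R273.Hess_333 Crest.Agent.R273.HessB_333
open Crest.Agent.R273.HM_333 Crest.Agent.R273.Kah_333 Crest.Agent.R273.Vol_333
open Crest.Agent.R273.Vm_333 Crest.Agent.R273.Green_5 Crest.Agent.R273.VolInv_5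
open Crest.Agent.R273.StV_37 Crest.Agent.R273.Piola_5
open Crest.Agent.R273.FIa0_597 Crest.Agent.R273.FIb0_597 Crest.Agent.R273.FId0_597
open Crest.Agent.R273
open Crest.Agent.R281.Glob1_484 Crest.Agent.R281.SIn_14 Crest.Agent.R281.Th1_484

noncomputable section

variable {N : ℕ} {M : Type} [TopologicalSpace M] {A : Atl N M} {Lb : LB A}

/-! ### the sections `e^k s_0` -/

/-- `e^k s_0` -/
def sk (s : Fin (N + 1) → A.ι → M → ℂ) (k : ℤ) : A.ι → M → ℂ := ((Real.exp k : ℝ) : ℂ) • s 0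

variable {s : Fin (N + 1) → A.ι → M → ℂ}

theorem isHS_sk (hs : ∀ j, IsHS Lb univ (s j)) (k : ℤ) : IsHS Lb univ (sk s k) :=
  (hs 0).smul _

theorem nsM_sk (h : HM Lb) (s : Fin (N + 1) → A.ι → M → ℂ) (k : ℤ) (x : M) :
    nsM h (sk s k) x = Real.exp (2 * k) * nsM h (s 0) x := by
  unfold nsM nsq sk
  rw [Pi.smul_apply, Pi.smul_apply, smul_eq_mul, norm_mul, Complex.norm_real, Real.norm_eq_abs,
    abs_of_pos (Real.exp_pos _), mul_pow, ← Real.exp_nat_mul]
  push_cast
  ring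

theorem sk_ne {k : ℤ} {i : A.ι} {x : M} (h0 : s 0 i x ≠ 0) : sk s k i x ≠ 0 := by
  unfold sk
  rw [Pi.smul_apply, Pi.smul_apply, smul_eq_mul]
  exact mul_ne_zero (by exact_mod_cast (Real.exp_pos _).ne') h0

theorem etaV_sk (hs : ∀ j, IsHS Lb univ (s j)) (k : ℤ) (j : Fin N) {i : A.ι} {x : M}
    (hx : x ∈ (A.e i).source) : etaV A i (sk s k) (s j.succ) x = fun a => eta s i x j a := by
  funext a
  have hd : DifferentiableAt ℂ (fun z => s 0 i ((A.e i).symm z)) (A.e i x) :=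
    (hol_at (hs 0) i ((A.e i).map_source hx)).self_of_nhds
  have h1 : pd A i (sk s k i) x a = ((Real.exp k : ℝ) : ℂ) * pd A i (s 0 i) x a := by
    unfold pd sk
    have h2 : (fun z => (((Real.exp k : ℝ) : ℂ) • s 0) i ((A.e i).symm z)) =
        fun z => ((Real.exp k : ℝ) : ℂ) * s 0 i ((A.e i).symm z) := rfl
    rw [h2, fderiv_const_mul hd]
    rfl
  have h3 : ((Real.exp k : ℝ) : ℂ) ≠ 0 := by exact_mod_cast (Real.exp_pos _).ne'
  show pd A i (s j.succ i) x a / s j.succ i x - pd A i (sk s k i) x a / sk s k i x = _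
  rw [h1]
  have h4 : sk s k i x = ((Real.exp k : ℝ) : ℂ) * s 0 i x := rfl
  rw [h4, mul_div_mul_left _ _ h3]
  rfl

/-- `∑_j η_j η_j^*` -/
def Hm (s : Fin (N + 1) → A.ι → M → ℂ) (i : A.ι) (x : M) : Matrix (Fin N) (Fin N) ℂ :=
  ∑ j : Fin N, Matrix.vecMulVec (eta s i x j) (star (eta s i x j))

theorem Hm_eq (s : Fin (N + 1) → A.ι → M → ℂ) (i : A.ι) (x : M) :
    Hm s i x = (eta s i x)ᵀ * (eta s i x).map conj := by
  ext a b
  rw [Hm, Matrix.sum_apply, Matrix.mul_apply]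
  rfl

theorem Hm_psd (s : Fin (N + 1) → A.ι → M → ℂ) (i : A.ι) (x : M) : (Hm s i x).PosSemidef :=
  Matrix.posSemidef_sum _ fun _ _ => Matrix.posSemidef_vecMulVec_self_star _

/-- `det(K + c Hm)/det K` -/
def dR (K : Kah A) (s : Fin (N + 1) → A.ι → M → ℂ) (c : ℝ) (x : M) : ℝ :=
  (K.g (ch A x) x + (c : ℂ) • Hm s (ch A x) x).det.re / (K.g (ch A x) x).det.re

/-! ### the averaged potential -/

/-- integers of absolute value at most `a` -/
def Ks (a : ℕ) : Finset ℤ := Finset.Icc (-(a : ℤ)) a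

theorem card_Ks (a : ℕ) : (Ks a).card = 2 * a + 1 := by
  rw [Ks, Int.card_Icc]
  omega

def Psi (h : HM Lb) (s : Fin (N + 1) → A.ι → M → ℂ) (a : ℕ) (ε : ℝ) (x : M) : ℝ :=
  ∑ p ∈ (Finset.univ : Finset (Fin N)) ×ˢ Ks a, psi2 h (sk s p.2) (s p.1.succ) ε x

theorem sm_sum {ι : Type*} (T : Finset ι) {u : ι → M → ℝ} (hu : ∀ t ∈ T, A.Sm (u t)) :
    A.Sm (fun x => ∑ t ∈ T, u t x) := fun i => ContDiffOn.sum fun t ht => hu t ht i

theorem hsf_sum {ι : Type*} (T : Finset ι) {u : ι → M → ℝ} (hu : ∀ t ∈ T, A.Sm (u t)) {i : A.ι}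
    {x : M} (hx : x ∈ (A.e i).source) :
    hsf A (fun y => ∑ t ∈ T, u t y) i x = ∑ t ∈ T, hsf A (u t) i x := by
  classical
  induction T using Finset.induction_on with
  | empty =>
    simp only [Finset.sum_empty]
    show hess (fun _ => (0 : ℝ)) (A.e i x) = 0
    ext a b
    rw [hess_apply]
    have h4 : wd (true, b) (cu fun _ : Cn N => (0 : ℝ)) = fun _ => 0 := by
      funext w
      exact wd_const _ _ _
    rw [h4, wd_const]
    rfl
  | insert t T ht ih =>
    simp only [Finset.sum_insert ht]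
    have h1 := hess_add (sm_at (hu t (by simp)) hx)
      (sm_at (sm_sum T fun t' h' => hu t' (by simp [h'])) hx)
    rw [← ih fun t' h' => hu t' (by simp [h'])]
    exact h1

theorem sm_Psi (h : HM Lb) (hs : ∀ j, IsHS Lb univ (s j)) (a : ℕ) {ε : ℝ} (hε : 0 < ε) :
    A.Sm (Psi h s a ε) := sm_sum _ fun p _ => sm_psi2 h (isHS_sk hs _) (hs _) hε

/-- the form `K + β ∑ (cur h + ∂∂̄ ψ_{jk})` -/
def Tm (K : Kah A) (h : HM Lb) (s : Fin (N + 1) → A.ι → M → ℂ) (a : ℕ) (β ε : ℝ) (i : A.ι)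
    (x : M) : Matrix (Fin N) (Fin N) ℂ :=
  K.g i x + (β : ℂ) • ∑ p ∈ (Finset.univ : Finset (Fin N)) ×ˢ Ks a,
    (cur h i x + hsf A (psi2 h (sk s p.2) (s p.1.succ) ε) i x)

theorem Tm_eq (K : Kah A) (h : HM Lb) (hs : ∀ j, IsHS Lb univ (s j)) {t : ℝ}
    (hc : ∀ i, ∀ x ∈ (A.e i).source, cur h i x = (t : ℂ) • K.g i x) (a : ℕ) (β : ℝ) {ε : ℝ}
    (hε : 0 < ε) {i : A.ι} {x : M} (hx : x ∈ (A.e i).source) :
    Tm K h s a β ε i x = ((1 + β * (N * (2 * a + 1)) * t : ℝ) : ℂ) • K.g i x +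
      hsf A (fun y => β * Psi h s a ε y) i x := by
  have h1 : hsf A (fun y => β * Psi h s a ε y) i x = (β : ℂ) • hsf A (Psi h s a ε) i x :=
    hess_const_mul β (sm_at (sm_Psi h hs a hε) hx)
  have h2 : hsf A (Psi h s a ε) i x = ∑ p ∈ (Finset.univ : Finset (Fin N)) ×ˢ Ks a,
      hsf A (psi2 h (sk s p.2) (s p.1.succ) ε) i x :=
    hsf_sum _ (fun p _ => sm_psi2 h (isHS_sk hs _) (hs _) hε) hx
  rw [Tm, Finset.sum_add_distrib, Finset.sum_const, Finset.card_product, Finset.card_univ,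
    Fintype.card_fin, card_Ks, h1, h2, hc i x hx, smul_add, ← add_assoc]
  congr 1
  rw [← Nat.cast_smul_eq_nsmul ℂ, smul_smul, smul_smul]
  conv_lhs => rw [← one_smul ℂ (K.g i x)]
  rw [smul_smul, ← add_smul]
  congr 1
  push_cast
  ring

theorem Tm_pd (K : Kah A) (h : HM Lb) (hs : ∀ j, IsHS Lb univ (s j))
    {β : ℝ} (hβ : 0 ≤ β) (a : ℕ) {ε : ℝ} (hε : 0 < ε) {i : A.ι} {x : M}
    (hx : x ∈ (A.e i).source) (hc : (cur h i x).PosSemidef) : (Tm K h s a β ε i x).PosDef := by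
  have hβ' : (0 : ℂ) ≤ (β : ℂ) := by exact_mod_cast hβ
  exact (K.pos i x hx).add_posSemidef ((Matrix.posSemidef_sum _ fun p _ =>
    theta0 h (isHS_sk hs _) (hs _) hε hx hc).smul hβ')

/-- lower bound: one `k_j` for every `j` -/
theorem Tm_ge (K : Kah A) (h : HM Lb) (hs : ∀ j, IsHS Lb univ (s j))
    {β : ℝ} (hβ : 0 ≤ β) (a : ℕ) {ε : ℝ} (hε : 0 < ε) {i : A.ι} {x : M}
    (hx : x ∈ (A.e i).source) (hc : (cur h i x).PosSemidef) (hn : ∀ j, s j i x ≠ 0)
    (kk : Fin N → ℤ) (hk : ∀ j, kk j ∈ Ks a) :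
    (K.g i x + (β : ℂ) • ∑ j : Fin N, ((nsM h (sk s (kk j)) x * nsM h (s j.succ) x /
      (nsM h (sk s (kk j)) x + nsM h (s j.succ) x + ε) ^ 2 : ℝ) : ℂ) •
        Matrix.vecMulVec (eta s i x j) (star (eta s i x j))).det.re ≤
      (Tm K h s a β ε i x).det.re := by
  have hβ' : (0 : ℂ) ≤ (β : ℂ) := by exact_mod_cast hβ
  set Q : Fin N → Matrix (Fin N) (Fin N) ℂ := fun j => ((nsM h (sk s (kk j)) x *
    nsM h (s j.succ) x / (nsM h (sk s (kk j)) x + nsM h (s j.succ) x + ε) ^ 2 : ℝ) : ℂ) •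
        Matrix.vecMulVec (eta s i x j) (star (eta s i x j)) with hQ
  set G : Fin N × ℤ → Matrix (Fin N) (Fin N) ℂ := fun p =>
    cur h i x + hsf A (psi2 h (sk s p.2) (s p.1.succ) ε) i x with hG
  have hG0 : ∀ p, (G p).PosSemidef := fun p => theta0 h (isHS_sk hs _) (hs _) hε hx hc
  have hQ0 : ∀ j, (Q j).PosSemidef := by
    intro j
    refine (Matrix.posSemidef_vecMulVec_self_star _).smul ?_
    have h1 := nsM_nonneg h (sk s (kk j)) x
    have h2 := nsM_nonneg h (s j.succ) x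
    exact_mod_cast (by positivity : 0 ≤ nsM h (sk s (kk j)) x * nsM h (s j.succ) x /
      (nsM h (sk s (kk j)) x + nsM h (s j.succ) x + ε) ^ 2)
  have hGQ : ∀ j, (G (j, kk j) - Q j).PosSemidef := by
    intro j
    have h1 := theta2 h (isHS_sk hs (kk j)) (hs j.succ) hε hx hc (sk_ne (hn 0)) (hn _)
    rw [etaV_sk hs (kk j) j hx] at h1
    exact h1
  have h1 : (∑ p ∈ (Finset.univ : Finset (Fin N)) ×ˢ Ks a, G p - ∑ j, Q j).PosSemidef := by
    rw [Finset.sum_product, ← Finset.sum_sub_distrib]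
    refine Matrix.posSemidef_sum _ fun j _ => ?_
    rw [← Finset.add_sum_erase _ _ (hk j), add_sub_right_comm]
    exact (hGQ j).add (Matrix.posSemidef_sum _ fun k _ => hG0 _)
  have h2 : (K.g i x + (β : ℂ) • ∑ j, Q j).PosDef :=
    (K.pos i x hx).add_posSemidef ((Matrix.posSemidef_sum _ fun j _ => hQ0 j).smul hβ')
  have h3 := YauMax_635.det_le_det_add h2 (h1.smul hβ')
  have h4 : K.g i x + (β : ℂ) • ∑ j, Q j + (β : ℂ) •
      (∑ p ∈ (Finset.univ : Finset (Fin N)) ×ˢ Ks a, G p - ∑ j, Q j) = Tm K h s a β ε i x := by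
    rw [smul_sub, Tm]
    abel
  rw [h4] at h3
  exact (Complex.le_def.1 h3).1

/-! ### the mass of `Tm` -/

section int

variable [T2Space M] [CompactSpace M] [Fintype A.ι] [MeasurableSpace M] [BorelSpace M]

/-- the density of `Tm` as a function -/
def DT (K : Kah A) (h : HM Lb) (s : Fin (N + 1) → A.ι → M → ℂ) (a : ℕ) (β ε : ℝ) (x : M) : ℝ :=
  (Tm K h s a β ε (ch A x) x).det.re / (K.g (ch A x) x).det.re

theorem DT_nonneg (K : Kah A) (h : HM Lb) (hs : ∀ j, IsHS Lb univ (s j))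
    (hp : ∀ i, ∀ x ∈ (A.e i).source, (cur h i x).PosSemidef)
    {β : ℝ} (hβ : 0 ≤ β) (a : ℕ) {ε : ℝ} (hε : 0 < ε) (x : M) : 0 ≤ DT K h s a β ε x := by
  have hx := mem_ch A x
  have h1 := (Complex.lt_def.1 (Tm_pd K h hs hβ a hε hx (hp _ x hx)).det_pos).1
  have h2 := (Complex.lt_def.1 (K.pos _ x hx).det_pos).1
  simp only [Complex.zero_re] at h1 h2
  unfold DT
  positivity

theorem DT_eq (K : Kah A) (h : HM Lb) (hs : ∀ j, IsHS Lb univ (s j)) {t : ℝ}
    (hc : ∀ i, ∀ x ∈ (A.e i).source, cur h i x = (t : ℂ) • K.g i x) (a : ℕ) (β : ℝ) {ε : ℝ}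
    (hε : 0 < ε) (x : M) : DT K h s a β ε x = dtM (volK K) (fun i x =>
      ((1 + β * (N * (2 * a + 1)) * t : ℝ) : ℂ) • K.g i x +
      hsf A (fun y => β * Psi h s a ε y) i x) x := by
  have hx := mem_ch A x
  unfold DT dtM
  rw [Tm_eq K h hs hc a β hε hx]
  congr 1

theorem sm_bPsi (h : HM Lb) (hs : ∀ j, IsHS Lb univ (s j)) (a : ℕ) (β : ℝ) {ε : ℝ}
    (hε : 0 < ε) : A.Sm (fun y => β * Psi h s a ε y) := fun i =>
  contDiffOn_const.mul (sm_Psi h hs a hε i)

theorem cont_DT (K : Kah A) (h : HM Lb) (hs : ∀ j, IsHS Lb univ (s j)) {t : ℝ}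
    (hc : ∀ i, ∀ x ∈ (A.e i).source, cur h i x = (t : ℂ) • K.g i x) (a : ℕ) (β : ℝ) {ε : ℝ}
    (hε : 0 < ε) : Continuous (DT K h s a β ε) := by
  have h1 : DT K h s a β ε = dtM (volK K) (fun i x =>
      ((1 + β * (N * (2 * a + 1)) * t : ℝ) : ℂ) • K.g i x +
      hsf A (fun y => β * Psi h s a ε y) i x) := funext fun x => DT_eq K h hs hc a β hε x
  rw [h1]
  exact cont_dtM _ (((tf_kah K).smul _).add (tf_hsf (sm_bPsi h hs a β hε)))

theorem int_DT (P : Part A) (K : Kah A) (h : HM Lb) (hs : ∀ j, IsHS Lb univ (s j)) {t : ℝ}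
    (hc : ∀ i, ∀ x ∈ (A.e i).source, cur h i x = (t : ℂ) • K.g i x) (a : ℕ) (β : ℝ) {ε : ℝ}
    (hε : 0 < ε) : ∫ x, DT K h s a β ε x ∂(vm (volK K)) =
      (1 + β * (N * (2 * a + 1)) * t) ^ N * (vm (volK K)).real univ := by
  set c : ℝ := 1 + β * (N * (2 * a + 1)) * t with hcdef
  have h1 : ∀ x, DT K h s a β ε x = dtM (volK K) (fun i x =>
      (c : ℂ) • K.g i x + hsf A (fun y => β * Psi h s a ε y) i x) x :=
    fun x => DT_eq K h hs hc a β hε x
  simp only [h1]
  have hcf : CF A (fun i x => (c : ℂ) • K.g i x) := (kah_cf K).smul c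
  rw [int_dtM P (volK K) (((tf_kah K).smul _).add (tf_hsf (sm_bPsi h hs a β hε))),
    volinv P hcf (sm_bPsi h hs a β hε)]
  have h2 : totc P (fun i x => ((c : ℂ) • K.g i x).det) =
      (c : ℂ) ^ N * totc P (fun i x => (K.g i x).det) := by
    rw [← totc_smul]
    refine totc_congr P fun i x _ => ?_
    rw [Matrix.det_smul, Fintype.card_fin]
  have h3 : (totc P (fun i x => (K.g i x).det)).re = (vm (volK K)).real univ := by
    rw [← int_dtM P (volK K) (tf_kah K)]
    have h4 : ∀ x, dtM (volK K) K.g x = 1 := by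
      intro x
      have hx := mem_ch A x
      unfold dtM
      have h5 := volK_w K (ch A x) hx
      rw [← h5, Complex.ofReal_re, div_self ((volK K).pos _ _ hx).ne']
    simp only [h4]
    rw [integral_const, smul_eq_mul, mul_one]
  rw [h2, ← Complex.ofReal_pow, Complex.re_ofReal_mul, h3]

theorem lint_DT (P : Part A) (K : Kah A) (h : HM Lb) (hs : ∀ j, IsHS Lb univ (s j)) {t : ℝ}
    (ht : 0 ≤ t) (hc : ∀ i, ∀ x ∈ (A.e i).source, cur h i x = (t : ℂ) • K.g i x) (a : ℕ) {β : ℝ}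
    (hβ : 0 ≤ β) {ε : ℝ} (hε : 0 < ε) :
    ∫⁻ x, ENNReal.ofReal (DT K h s a β ε x) ∂(vm (volK K)) =
      ENNReal.ofReal ((1 + β * (N * (2 * a + 1)) * t) ^ N) * vm (volK K) univ := by
  have := isFinite_vm (volK K)
  have hp : ∀ i, ∀ x ∈ (A.e i).source, (cur h i x).PosSemidef := by
    intro i x hx
    rw [hc i x hx]
    exact (K.pos i x hx).posSemidef.smul (by exact_mod_cast ht)
  have hcont := cont_DT K h hs hc a β hε
  have hi : Integrable (DT K h s a β ε) (vm (volK K)) := by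
    obtain ⟨C, hC⟩ := isCompact_univ.exists_bound_of_continuousOn hcont.continuousOn
    exact Integrable.of_bound hcont.measurable.aestronglyMeasurable C
      (Eventually.of_forall fun x => hC x (mem_univ x))
  rw [← ofReal_integral_eq_lintegral_ofReal hi
    (Eventually.of_forall fun x => DT_nonneg K h hs hp hβ a hε x), int_DT P K h hs hc a β hε,
    ENNReal.ofReal_mul (by positivity), ofReal_measureReal]

end int

end

end Crest.Agent.R281.Th2_484
end

-- ▼ part R281/Th3_484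

/-!
# R281 (S0424), DIV 4, THETA part 3 (helper484): the energy `e1`

* `mass` : `∫_R det(K + (β/8) Hm)/det K ≤ (1 + β N (2a+3) q)^N vol` if `cur h = q K`, on every set `R`
  where no `s_j` vanishes and `|log|F_j|| ≤ a`
* **`e1`** : `∫_R tr adj(Gram(η)) ≤ (CE N q a)^(N-1) vol` (literal form of helper612, #7974)
-/

set_option autoImplicit false
set_option linter.unusedSectionVars false

open Set Filter Topology Complex MeasureTheory
open scoped ContDiff Matrix ComplexConjugate ComplexOrder ENNReal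

namespace Crest.Agent.R281.Th3_484

open Crest.Agent.R275 Crest.Agent.R275.Geo Crest.Agent.R275.Core144 Crest.Agent.R275.EDR890
open Crest.Agent.R273.Defs_333 Crest.Agent.R273.Hess_333 Crest.Agent.R273.HessB_333
open Crest.Agent.R273.HM_333 Crest.Agent.R273.Kah_333 Crest.Agent.R273.Vol_333
open Crest.Agent.R273.Vm_333
open Crest.Agent.R273.FIa0_597 Crest.Agent.R273.FIb0_597 Crest.Agent.R273.FId0_597
open Crest.Agent.R273
open Crest.Agent.R281.Glob1_484 Crest.Agent.R281.SIn_14 Crest.Agent.R281.Th1_484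
open Crest.Agent.R281.Th2_484

noncomputable section

/-! ### numbers -/

theorem kap_ge {t : ℝ} (ht : |t| ≤ 1) : 1 / 8 ≤ Real.exp t / (Real.exp t + 1) ^ 2 := by
  have h1 : Real.exp t ≤ Real.exp 1 := Real.exp_le_exp.2 (abs_le.1 ht).2
  have h2 : Real.exp (-t) ≤ Real.exp 1 := Real.exp_le_exp.2 (by linarith [(abs_le.1 ht).1])
  have h3 : Real.exp 1 < 3 := lt_trans Real.exp_one_lt_d9 (by norm_num)
  have h4 : Real.exp t * Real.exp (-t) = 1 := by rw [← Real.exp_add]; simp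
  have h5 := Real.exp_pos t
  rw [div_le_div_iff₀ (by norm_num) (by positivity)]
  have h6 : 1 * (Real.exp t + 1) ^ 2 = Real.exp t * (Real.exp t + 2 + Real.exp (-t)) := by
    have : Real.exp t * (Real.exp t + 2 + Real.exp (-t)) =
        Real.exp t ^ 2 + 2 * Real.exp t + Real.exp t * Real.exp (-t) := by ring
    rw [this, h4]
    ring
  rw [h6]
  refine mul_le_mul_of_nonneg_left ?_ h5.le
  linarith

theorem kap_lim {u v t : ℝ} (hv : 0 < v) (hu : u = Real.exp t * v) (ht : |t| ≤ 1) :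
    1 / 8 ≤ u * v / (u + v) ^ 2 := by
  have h1 : u * v / (u + v) ^ 2 = Real.exp t / (Real.exp t + 1) ^ 2 := by
    rw [hu]
    have := Real.exp_pos t
    field_simp
  rw [h1]
  exact kap_ge ht

theorem round_mem {y a : ℝ} (hy : |y| ≤ a) : round y ∈ Ks (⌊a⌋₊ + 1) := by
  have h0 : 0 ≤ a := (abs_nonneg y).trans hy
  have h1 := abs_sub_round y
  have h2 : |(round y : ℝ)| < (⌊a⌋₊ : ℝ) + 2 := by
    have h3 : |(round y : ℝ)| ≤ |y| + 1 / 2 := by
      have : (round y : ℝ) = y - (y - round y) := by ring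
      rw [this]
      exact (abs_sub _ _).trans (by linarith)
    have h4 := Nat.lt_floor_add_one a
    linarith
  have h5 : |round y| < (⌊a⌋₊ : ℤ) + 2 := by exact_mod_cast h2
  rw [Ks, Finset.mem_Icc]
  have h6 := abs_lt.1 h5
  push_cast
  constructor <;> omega

/-! ### linear algebra -/

section Mat

variable {m : Type*} [Fintype m] [DecidableEq m]


/-- `det(1 + B) ≥ tr adj B` for `B ≥ 0` -/
theorem tr_adj_le {B : Matrix m m ℂ} (hB : B.PosSemidef) :
    B.adjugate.trace.re ≤ (1 + B).det.re := by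
  have hs := hB.1.spectral_theorem
  set U := hB.1.eigenvectorUnitary
  set lam : m → ℝ := hB.1.eigenvalues with hlam
  have h4 : (U : Matrix m m ℂ) * star (U : Matrix m m ℂ) = 1 := Unitary.coe_mul_star_self U
  have h4' : star (U : Matrix m m ℂ) * (U : Matrix m m ℂ) = 1 := Unitary.coe_star_mul_self U
  have hB' : B = (U : Matrix m m ℂ) * Matrix.diagonal (fun i => (lam i : ℂ)) *
      star (U : Matrix m m ℂ) := hs
  have h7 : (U : Matrix m m ℂ).det * (star (U : Matrix m m ℂ)).det = 1 := by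
    rw [← Matrix.det_mul, h4, Matrix.det_one]
  have h1 : (1 + B).det = ((∏ i, (1 + lam i) : ℝ) : ℂ) := by
    have h2 : 1 + B = (U : Matrix m m ℂ) *
        (Matrix.diagonal fun i => 1 + (lam i : ℂ)) * star (U : Matrix m m ℂ) := by
      have h3 : (Matrix.diagonal fun i => 1 + (lam i : ℂ)) =
          (1 : Matrix m m ℂ) + Matrix.diagonal (fun i => (lam i : ℂ)) := by
        rw [← Matrix.diagonal_one, Matrix.diagonal_add]
      rw [h3, Matrix.mul_add, Matrix.add_mul, Matrix.mul_one, h4, ← hB']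
    rw [h2, Matrix.det_mul, Matrix.det_mul, Matrix.det_diagonal]
    push_cast
    linear_combination (∏ i, (1 + (lam i : ℂ))) * h7
  have h2 : B.adjugate.trace = ((∑ i, ∏ j ∈ Finset.univ.erase i, lam j : ℝ) : ℂ) := by
    have h3 : B.adjugate = (star (U : Matrix m m ℂ)).adjugate *
        ((Matrix.diagonal (fun i => (lam i : ℂ))).adjugate * (U : Matrix m m ℂ).adjugate) := by
      conv_lhs => rw [hB']
      rw [Matrix.adjugate_mul_distrib, Matrix.adjugate_mul_distrib]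
    have h5 : (U : Matrix m m ℂ).adjugate * (star (U : Matrix m m ℂ)).adjugate = 1 := by
      rw [← Matrix.adjugate_mul_distrib, h4', Matrix.adjugate_one]
    rw [h3, Matrix.trace_mul_comm, Matrix.mul_assoc, h5, Matrix.mul_one,
      Matrix.adjugate_diagonal, Matrix.trace_diagonal]
    push_cast
    rfl
  rw [h1, h2, Complex.ofReal_re, Complex.ofReal_re]
  have hl : ∀ i, 0 ≤ lam i := hB.eigenvalues_nonneg
  -- expand the product over subsets of the complement of one element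
  have h8 : ∏ i, (1 + lam i) = ∑ t ∈ (Finset.univ : Finset m).powerset, ∏ i ∈ t, lam i := by
    rw [← Finset.prod_one_add]
  rw [h8]
  have h9 : ∑ i, ∏ j ∈ Finset.univ.erase i, lam j =
      ∑ t ∈ (Finset.univ : Finset m).image (fun i => Finset.univ.erase i), ∏ j ∈ t, lam j := by
    rw [Finset.sum_image]
    intro i _ j _ hij
    by_contra hne
    have h10 : i ∈ (Finset.univ : Finset m).erase j := Finset.mem_erase.2 ⟨hne, Finset.mem_univ _⟩
    have hij' : (Finset.univ : Finset m).erase i = Finset.univ.erase j := hij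
    rw [← hij'] at h10
    exact absurd h10 (Finset.notMem_erase _ _)
  rw [h9]
  exact Finset.sum_le_sum_of_subset_of_nonneg (fun t _ => by simp)
    fun t _ _ => Finset.prod_nonneg fun j _ => hl j

/-- Sylvester form -/
theorem det_ratio {g E : Matrix m m ℂ} (hg : g.PosDef) (y : ℝ) :
    (g + (y : ℂ) • (Eᵀ * E.map conj)).det =
      g.det * (1 + (y : ℂ) • (E.map conj * g⁻¹ * Eᵀ)).det := by
  have hu : IsUnit g.det := (Matrix.isUnit_iff_isUnit_det _).1 hg.isUnit
  have h1 : g + (y : ℂ) • (Eᵀ * E.map conj) = g * (1 + (g⁻¹ * ((y : ℂ) • Eᵀ)) * E.map conj) := by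
    rw [Matrix.mul_add, Matrix.mul_one, ← Matrix.mul_assoc, ← Matrix.mul_assoc,
      Matrix.mul_nonsing_inv _ hu, Matrix.one_mul, Matrix.smul_mul]
  rw [h1, Matrix.det_mul, Matrix.det_one_add_mul_comm]
  congr 2
  rw [Matrix.mul_smul, Matrix.mul_smul, Matrix.mul_assoc]

theorem gram_psd {g E : Matrix m m ℂ} (hg : g.PosDef) :
    (E.map conj * g⁻¹ * Eᵀ).PosSemidef := by
  have h1 : Eᵀ = (E.map conj)ᴴ := by
    ext i j
    simp [Matrix.conjTranspose_apply]
  rw [h1]
  exact hg.inv.posSemidef.mul_mul_conjTranspose_same _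

end Mat

variable {N : ℕ} {M : Type} [TopologicalSpace M] {A : Atl N M} {Lb : LB A}
  {s : Fin (N + 1) → A.ι → M → ℂ}

/-- the Gram matrix of the forms `η_j` -/
def Gj (K : Kah A) (s : Fin (N + 1) → A.ι → M → ℂ) (i : A.ι) (x : M) : Matrix (Fin N) (Fin N) ℂ :=
  (eta s i x).map conj * (K.g i x)⁻¹ * (eta s i x)ᵀ

theorem dR_eq (K : Kah A) (s : Fin (N + 1) → A.ι → M → ℂ) (y : ℝ) (x : M) :
    dR K s y x = (1 + (y : ℂ) • Gj K s (ch A x) x).det.re := by
  have hx := mem_ch A x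
  have hg := K.pos _ x hx
  unfold dR Gj
  rw [Hm_eq, det_ratio hg]
  have h1 : (K.g (ch A x) x).det = (((K.g (ch A x) x).det.re : ℝ) : ℂ) := by
    have := volK_w K (ch A x) hx
    rw [← this, Complex.ofReal_re]
  have h2 : 0 < (K.g (ch A x) x).det.re := by
    have := (Complex.lt_def.1 hg.det_pos).1
    simpa using this
  rw [h1, Complex.re_ofReal_mul, Complex.ofReal_re, mul_div_cancel_left₀ _ h2.ne']

theorem adj_le_dR (K : Kah A) (s : Fin (N + 1) → A.ι → M → ℂ) {y : ℝ} (hy : 0 ≤ y) (x : M) :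
    y ^ (N - 1) * (Gj K s (ch A x) x).adjugate.trace.re ≤ dR K s y x := by
  have hx := mem_ch A x
  have hB : (Gj K s (ch A x) x).PosSemidef := gram_psd (K.pos _ x hx)
  have h1 := tr_adj_le (hB.smul (by exact_mod_cast hy : (0 : ℂ) ≤ (y : ℂ)))
  rw [← dR_eq, Matrix.adjugate_smul, Matrix.trace_smul, Fintype.card_fin, smul_eq_mul,
    ← Complex.ofReal_pow, Complex.re_ofReal_mul] at h1
  exact h1

/-! ### Fatou -/

section int

variable [T2Space M] [CompactSpace M] [Fintype A.ι] [MeasurableSpace M] [BorelSpace M]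

theorem quo_exp (h : HM Lb) (hs : ∀ j, IsHS Lb univ (s j)) {x : M} (hn : NZ s x) (j : Fin N)
    (k : ℤ) : nsM h (sk s k) x =
      Real.exp (2 * (k - Real.log ‖quo s x j‖)) * nsM h (s j.succ) x := by
  have h0 : 0 < ‖s 0 (ch A x) x‖ := norm_pos_iff.2 (hn 0)
  have h1 : 0 < ‖s j.succ (ch A x) x‖ := norm_pos_iff.2 (hn _)
  rw [nsM_sk]
  unfold nsM nsq quo
  have h2 : Real.exp (2 * ((k : ℝ) - Real.log ‖s j.succ (ch A x) x / s 0 (ch A x) x‖)) =
      Real.exp (2 * k) * (‖s 0 (ch A x) x‖ ^ 2 / ‖s j.succ (ch A x) x‖ ^ 2) := by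
    rw [mul_sub, Real.exp_sub, norm_div]
    have h3 : Real.exp (2 * Real.log (‖s j.succ (ch A x) x‖ / ‖s 0 (ch A x) x‖)) =
        (‖s j.succ (ch A x) x‖ / ‖s 0 (ch A x) x‖) ^ 2 := by
      rw [two_mul, Real.exp_add, Real.exp_log (by positivity)]
      ring
    rw [h3]
    field_simp
  rw [h2]
  field_simp

/-- **the mass bound** -/
theorem mass (P : Part A) (K : Kah A) (h : HM Lb) (hs : ∀ j, IsHS Lb univ (s j)) {q : ℝ}
    (hq : 0 ≤ q) (hc : ∀ i, ∀ x ∈ (A.e i).source, cur h i x = (q : ℂ) • K.g i x) {a : ℝ}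
    (ha : 0 ≤ a) {β : ℝ} (hβ : 0 ≤ β) {R : Set M}
    (hR : ∀ x ∈ R, NZ s x ∧ ∀ j, |Real.log ‖quo s x j‖| ≤ a) :
    ∫⁻ x in R, ENNReal.ofReal (dR K s (β / 8) x) ∂(vm (volK K)) ≤
      ENNReal.ofReal ((1 + β * (N * (2 * a + 3)) * q) ^ N) * vm (volK K) univ := by
  have hp : ∀ i, ∀ x ∈ (A.e i).source, (cur h i x).PosSemidef := by
    intro i x hx
    rw [hc i x hx]
    exact (K.pos i x hx).posSemidef.smul (by exact_mod_cast hq)
  set b : ℕ := ⌊a⌋₊ + 1 with hb
  set e : ℕ → ℝ := fun n => 1 / ((n : ℝ) + 1) with he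
  have he0 : ∀ n, 0 < e n := fun n => by positivity
  have hel : Tendsto e atTop (𝓝 0) := tendsto_one_div_add_atTop_nhds_zero_nat
  set D : ℕ → M → ℝ≥0∞ := fun n x => ENNReal.ofReal (DT K h s b β (e n) x) with hD
  have hDm : ∀ n, Measurable (D n) := fun n =>
    ENNReal.measurable_ofReal.comp (cont_DT K h hs hc b β (he0 n)).measurable
  -- pointwise
  have hpt : ∀ x ∈ R, ENNReal.ofReal (dR K s (β / 8) x) ≤ liminf (fun n => D n x) atTop := by
    intro x hx
    obtain ⟨hn, hlog⟩ := hR x hx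
    have hxi := mem_ch A x
    set i := ch A x with hi
    set kk : Fin N → ℤ := fun j => round (Real.log ‖quo s x j‖) with hkk
    have hkm : ∀ j, kk j ∈ Ks b := fun j => round_mem (hlog j)
    set u : Fin N → ℝ := fun j => nsM h (sk s (kk j)) x with hu
    set v : Fin N → ℝ := fun j => nsM h (s j.succ) x with hv
    have hv0 : ∀ j, 0 < v j := by
      intro j
      have h1 : 0 < ‖s j.succ i x‖ := norm_pos_iff.2 (hn _)
      have h2 := h.pos i x hxi
      show 0 < ‖s j.succ i x‖ ^ 2 * h.w i x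
      positivity
    have hu0 : ∀ j, 0 ≤ u j := fun j => nsM_nonneg h _ x
    set κ : ℝ → Fin N → ℝ := fun ε j => u j * v j / (u j + v j + ε) ^ 2 with hκ
    set F : ℝ → ℝ := fun ε => (K.g i x + (β : ℂ) • ∑ j : Fin N, ((κ ε j : ℝ) : ℂ) •
      Matrix.vecMulVec (eta s i x j) (star (eta s i x j))).det.re / (K.g i x).det.re with hF
    have hdet : 0 < (K.g i x).det.re := by
      have := (Complex.lt_def.1 (K.pos i x hxi).det_pos).1
      simpa using this
    have hF1 : ∀ n, F (e n) ≤ DT K h s b β (e n) x := by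
      intro n
      have h1 := Tm_ge K h hs hβ b (he0 n) hxi (hp i x hxi) hn kk hkm
      exact div_le_div_of_nonneg_right h1 hdet.le
    have hF0 : dR K s (β / 8) x ≤ F 0 := by
      have h1 : ∀ j, 1 / 8 ≤ κ 0 j := by
        intro j
        have h2 := quo_exp h hs hn j (kk j)
        have h3 : |2 * ((kk j : ℝ) - Real.log ‖quo s x j‖)| ≤ 1 := by
          rw [abs_mul, abs_two, abs_sub_comm]
          have := abs_sub_round (Real.log ‖quo s x j‖)
          linarith
        have h4 := kap_lim (hv0 j) h2 h3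
        show 1 / 8 ≤ u j * v j / (u j + v j + 0) ^ 2
        rw [add_zero]
        exact h4
      have h5 : (K.g i x + ((β / 8 : ℝ) : ℂ) • Hm s i x).PosDef :=
        (K.pos i x hxi).add_posSemidef ((Hm_psd s i x).smul
          (by exact_mod_cast (by positivity : 0 ≤ β / 8)))
      have h6 : (∑ j : Fin N, ((β * (κ 0 j - 1 / 8) : ℝ) : ℂ) •
          Matrix.vecMulVec (eta s i x j) (star (eta s i x j))).PosSemidef :=
        Matrix.posSemidef_sum _ fun j _ => (Matrix.posSemidef_vecMulVec_self_star _).smul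
          (by exact_mod_cast mul_nonneg hβ (sub_nonneg.2 (h1 j)))
      have h7 := YauMax_635.det_le_det_add h5 h6
      have h8 : K.g i x + ((β / 8 : ℝ) : ℂ) • Hm s i x + (∑ j : Fin N,
          ((β * (κ 0 j - 1 / 8) : ℝ) : ℂ) •
            Matrix.vecMulVec (eta s i x j) (star (eta s i x j))) =
          K.g i x + (β : ℂ) • ∑ j : Fin N, ((κ 0 j : ℝ) : ℂ) •
            Matrix.vecMulVec (eta s i x j) (star (eta s i x j)) := by
        rw [add_assoc, Hm, Finset.smul_sum, Finset.smul_sum, ← Finset.sum_add_distrib]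
        congr 1
        refine Finset.sum_congr rfl fun j _ => ?_
        rw [smul_smul, ← add_smul]
        congr 1
        push_cast
        ring
      rw [h8] at h7
      exact div_le_div_of_nonneg_right (Complex.le_def.1 h7).1 hdet.le
    have hFl : Tendsto (fun n => F (e n)) atTop (𝓝 (F 0)) := by
      have h1 : ContinuousAt F 0 := by
        have h2 : ∀ j, ContinuousAt (fun ε : ℝ => κ ε j) 0 := by
          intro j
          refine ContinuousAt.div continuousAt_const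
            ((continuousAt_const.add continuousAt_id).pow 2) ?_
          have := hv0 j
          have := hu0 j
          show (u j + v j + 0) ^ 2 ≠ 0
          positivity
        have h3 : ContinuousAt (fun ε : ℝ => K.g i x + (β : ℂ) • ∑ j : Fin N,
            ((κ ε j : ℝ) : ℂ) • Matrix.vecMulVec (eta s i x j) (star (eta s i x j))) 0 := by
          refine continuousAt_const.add (ContinuousAt.const_smul ?_ (β : ℂ))
          refine tendsto_finset_sum _ fun j _ => ?_
          exact (Complex.continuous_ofReal.continuousAt.comp (h2 j)).smul continuousAt_const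
        have h4 : ContinuousAt (fun ε : ℝ => (K.g i x + (β : ℂ) • ∑ j : Fin N,
            ((κ ε j : ℝ) : ℂ) • Matrix.vecMulVec (eta s i x j) (star (eta s i x j))).det) 0 :=
          (Continuous.matrix_det continuous_id).continuousAt.comp h3
        exact (Complex.continuous_re.continuousAt.comp h4).div_const _
      exact h1.tendsto.comp hel
    have hFl' : Tendsto (fun n => ENNReal.ofReal (F (e n))) atTop (𝓝 (ENNReal.ofReal (F 0))) :=
      (ENNReal.continuous_ofReal.tendsto _).comp hFl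
    calc ENNReal.ofReal (dR K s (β / 8) x) ≤ ENNReal.ofReal (F 0) := ENNReal.ofReal_le_ofReal hF0
      _ = liminf (fun n => ENNReal.ofReal (F (e n))) atTop := hFl'.liminf_eq.symm
      _ ≤ liminf (fun n => D n x) atTop :=
        liminf_le_liminf (Eventually.of_forall fun n => ENNReal.ofReal_le_ofReal (hF1 n))
  have hab : (1 + β * (N * (2 * (b : ℝ) + 1)) * q) ^ N ≤ (1 + β * (N * (2 * a + 3)) * q) ^ N := by
    have h1 : (b : ℝ) ≤ a + 1 := by
      rw [hb]
      push_cast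
      linarith [Nat.floor_le ha]
    have h2 : (N : ℝ) * (2 * (b : ℝ) + 1) ≤ N * (2 * a + 3) :=
      mul_le_mul_of_nonneg_left (by linarith) (Nat.cast_nonneg _)
    have h3 : β * (N * (2 * (b : ℝ) + 1)) * q ≤ β * (N * (2 * a + 3)) * q :=
      mul_le_mul_of_nonneg_right (mul_le_mul_of_nonneg_left h2 hβ) hq
    exact pow_le_pow_left₀ (by positivity) (by linarith) N
  calc ∫⁻ x in R, ENNReal.ofReal (dR K s (β / 8) x) ∂(vm (volK K))
      ≤ ∫⁻ x in R, liminf (fun n => D n x) atTop ∂(vm (volK K)) :=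
        setLIntegral_mono (Measurable.liminf hDm) hpt
    _ ≤ ∫⁻ x, liminf (fun n => D n x) atTop ∂(vm (volK K)) := setLIntegral_le_lintegral _ _
    _ ≤ liminf (fun n => ∫⁻ x, D n x ∂(vm (volK K))) atTop := lintegral_liminf_le hDm
    _ = liminf (fun _ : ℕ => ENNReal.ofReal ((1 + β * (N * (2 * (b : ℝ) + 1)) * q) ^ N) *
          vm (volK K) univ) atTop := by
        congr 1
        funext n
        exact lint_DT P K h hs hq hc b hβ (he0 n)
    _ = ENNReal.ofReal ((1 + β * (N * (2 * (b : ℝ) + 1)) * q) ^ N) * vm (volK K) univ :=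
        liminf_const _
    _ ≤ _ := mul_le_mul_left (ENNReal.ofReal_le_ofReal hab) _

/-- the constant of `e1` -/
def CE (N : ℕ) : ℝ := 160 * N

theorem e1_aux (P : Part A) (K : Kah A) (h : HM Lb) (hs : ∀ j, IsHS Lb univ (s j)) {q a : ℝ}
    (hq : 0 ≤ q) (ha : 0 ≤ a)
    (curv : ∀ i, ∀ x ∈ (A.e i).source, cur h i x = (q : ℂ) • K.g i x) {y : ℝ} (hy : 0 ≤ y)
    {R : Set M} (hR : ∀ x ∈ R, NZ s x ∧ ∀ j, |Real.log ‖quo s x j‖| ≤ a) :
    ENNReal.ofReal (y ^ (N - 1)) * ∫⁻ x in R,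
      ENNReal.ofReal ((Gj K s (ch A x) x).adjugate.trace.re) ∂(vm (volK K)) ≤
      ENNReal.ofReal ((1 + 8 * y * (N * (2 * a + 3)) * q) ^ N) * vm (volK K) univ := by
  have h1 := mass P K h hs hq curv ha (β := 8 * y) (by positivity) hR
  refine le_trans ?_ h1
  rw [← lintegral_const_mul' _ _ ENNReal.ofReal_ne_top]
  refine lintegral_mono fun x => ?_
  rw [← ENNReal.ofReal_mul (by positivity)]
  refine ENNReal.ofReal_le_ofReal ?_
  have h2 : 8 * y / 8 = y := by ring
  rw [h2]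
  exact adj_le_dR K s hy x

/-- **energy of the inverse metric** (literal form of helper612) -/
theorem e1 (P : Part A) (K : Kah A) (h : HM Lb) (hs : ∀ j, IsHS Lb univ (s j)) {q a : ℝ}
    (hq : 0 ≤ q) (ha : 1 ≤ a)
    (curv : ∀ i, ∀ x ∈ (A.e i).source, cur h i x = (q : ℂ) • K.g i x) (hN : 1 ≤ N) :
    ∫⁻ x in {x | NZ s x ∧ ∀ j, |Real.log ‖quo s x j‖| ≤ a},
      ENNReal.ofReal (((eta s (ch A x) x).map conj * (K.g (ch A x) x)⁻¹ *
        (eta s (ch A x) x)ᵀ).adjugate.trace.re) ∂(vm (volK K)) ≤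
      ENNReal.ofReal ((CE N * q * a) ^ (N - 1)) * vm (volK K) univ := by
  have hfin := isFinite_vm (volK K)
  set R : Set M := {x | NZ s x ∧ ∀ j, |Real.log ‖quo s x j‖| ≤ a} with hRdef
  set I : ℝ≥0∞ := ∫⁻ x in R, ENNReal.ofReal ((Gj K s (ch A x) x).adjugate.trace.re)
    ∂(vm (volK K)) with hI
  change I ≤ _
  have haux : ∀ y : ℝ, 0 ≤ y → ENNReal.ofReal (y ^ (N - 1)) * I ≤
      ENNReal.ofReal ((1 + 8 * y * (N * (2 * a + 3)) * q) ^ N) * vm (volK K) univ := fun y hy =>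
    e1_aux P K h hs hq (by linarith) curv hy fun x hx => hx
  have hV : vm (volK K) univ ≠ ⊤ := measure_ne_top _ _
  rcases hN.eq_or_lt with h1 | h2
  · -- `N = 1`
    subst h1
    have h3 : I ≤ vm (volK K) univ := by
      rw [hI]
      calc ∫⁻ x in R, ENNReal.ofReal ((Gj K s (ch A x) x).adjugate.trace.re) ∂(vm (volK K))
          = ∫⁻ _ in R, 1 ∂(vm (volK K)) := by
            refine lintegral_congr fun x => ?_
            rw [Matrix.adjugate_subsingleton, Matrix.trace_one]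
            simp
        _ = vm (volK K) R := by simp
        _ ≤ _ := measure_mono (subset_univ _)
    simpa using h3
  · rcases hq.eq_or_lt with h3 | h3
    · -- `q = 0`
      subst h3
      by_contra hcon
      have hI0 : I ≠ 0 := by
        intro h0
        rw [h0] at hcon
        exact hcon bot_le
      obtain ⟨k, hk⟩ := ENNReal.exists_nat_mul_gt hI0 hV
      have h4 := haux ((k : ℝ) + 1) (by positivity)
      simp only [mul_zero, add_zero, one_pow, ENNReal.ofReal_one, one_mul] at h4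
      have h5 : (k : ℝ≥0∞) ≤ ENNReal.ofReal (((k : ℝ) + 1) ^ (N - 1)) := by
        rw [← ENNReal.ofReal_natCast]
        refine ENNReal.ofReal_le_ofReal ?_
        calc (k : ℝ) ≤ (k : ℝ) + 1 := by linarith
          _ = ((k : ℝ) + 1) ^ 1 := by ring
          _ ≤ ((k : ℝ) + 1) ^ (N - 1) := by
            refine pow_le_pow_right₀ ?_ (by omega)
            linarith [(Nat.cast_nonneg k : (0 : ℝ) ≤ k)]
      have h6 : (k : ℝ≥0∞) * I ≤ vm (volK K) univ := (mul_le_mul_left h5 _).trans h4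
      exact absurd hk (not_lt.2 h6)
    · -- `q > 0`
      have hN0 : (0 : ℝ) < N := by exact_mod_cast (by omega : 0 < N)
      set y : ℝ := 1 / (40 * N * q * a) with hy
      have ha0 : 0 < a := by linarith
      have hy0 : 0 < y := by positivity
      have h4 := haux y hy0.le
      have h5 : (1 + 8 * y * (N * (2 * a + 3)) * q) ^ N ≤ 2 ^ N := by
        refine pow_le_pow_left₀ (by positivity) ?_ N
        have h6 : 8 * y * (N * (2 * a + 3)) * q ≤ 8 * y * (N * (5 * a)) * q := by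
          have h7 : (N : ℝ) * (2 * a + 3) ≤ N * (5 * a) :=
            mul_le_mul_of_nonneg_left (by linarith) hN0.le
          exact mul_le_mul_of_nonneg_right (mul_le_mul_of_nonneg_left h7 (by positivity)) hq
        have h8 : 8 * y * (N * (5 * a)) * q = 1 := by
          rw [hy]
          field_simp
          norm_num
        linarith
      have h9 : ENNReal.ofReal (y ^ (N - 1)) * I ≤ ENNReal.ofReal (2 ^ N) * vm (volK K) univ :=
        h4.trans (mul_le_mul_left (ENNReal.ofReal_le_ofReal h5) _)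
      have h10 : I = ENNReal.ofReal ((40 * N * q * a) ^ (N - 1)) *
          (ENNReal.ofReal (y ^ (N - 1)) * I) := by
        rw [← mul_assoc, ← ENNReal.ofReal_mul (by positivity), ← mul_pow]
        have : 40 * (N : ℝ) * q * a * y = 1 := by
          rw [hy]
          field_simp
        rw [this, one_pow, ENNReal.ofReal_one, one_mul]
      calc I = ENNReal.ofReal ((40 * N * q * a) ^ (N - 1)) *
          (ENNReal.ofReal (y ^ (N - 1)) * I) := h10
        _ ≤ ENNReal.ofReal ((40 * N * q * a) ^ (N - 1)) *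
          (ENNReal.ofReal (2 ^ N) * vm (volK K) univ) := mul_le_mul_right h9 _
        _ = ENNReal.ofReal ((40 * N * q * a) ^ (N - 1) * 2 ^ N) * vm (volK K) univ := by
          rw [← mul_assoc, ← ENNReal.ofReal_mul (by positivity)]
        _ ≤ ENNReal.ofReal ((CE N * q * a) ^ (N - 1)) * vm (volK K) univ := by
          refine mul_le_mul_left (ENNReal.ofReal_le_ofReal ?_) _
          have e1 : CE N * q * a = 4 * (40 * N * q * a) := by unfold CE; ring
          have e3 : (CE N * q * a) ^ (N - 1) = 4 ^ (N - 1) * (40 * N * q * a) ^ (N - 1) := by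
            rw [e1, mul_pow]
          rw [e3, mul_comm ((40 * N * q * a) ^ (N - 1))]
          have e2 : (2 : ℝ) ^ N ≤ 4 ^ (N - 1) := by
            calc (2 : ℝ) ^ N ≤ 2 ^ (2 * (N - 1)) := pow_le_pow_right₀ (by norm_num) (by omega)
              _ = 4 ^ (N - 1) := by rw [pow_mul]; norm_num
          exact mul_le_mul_of_nonneg_right e2 (by positivity)

end int

end

end Crest.Agent.R281.Th3_484
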