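import Mathlib
import Crest.Agent.R281.Bo2_815
import Crest.Agent.R281.Insp0_615
import Crest.Agent.R273.BochI_101
import Crest.Agent.R281.Spi3_405_Mg
import Crest.Agent.R281.TI4_671
import Crest.Agent.R281.SGP_790
import Crest.Agent.R281.Th3_484_Mg
import Crest.Agent.R281.HfG2_615
import Crest.Agent.R281.Cr1_808
import Crest.Agent.R281.Xi7_831
import Crest.Agent.R281.SDR3_273

-- ▼ part R281/Jet1_484
section

/-!
# R281 (S0424), leaf S-GLOB (helper484): linear algebra of the 1-jet Bochner inequality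

`s : ℂ`, `p : Fin n → ℂ` (`= ∇s` in an orthonormal frame), `q` (`= ∇∇s`), `c ≥ 0` (curvature constant),
`u = |s|²`, `w = |p|²`, `H = |q|²`, `du = s̄ p`, `dw = q p̄ - c s̄ p`.
`jet_main`: with `S = u + w + e`, `LF = (w - c n u) + (H - c (n+2) w + c² n u)`:
`|S du - u (du + dw)|² ≤ (3/2) S² (S LF - |du + dw|²) + ((3/2)(n+2) c + 4 c²) S⁴`.
-/

set_option autoImplicit false

open scoped ComplexConjugate

namespace Crest.Agent.R281.Jet1_484

noncomputable section

variable {n : ℕ}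

/-- `(q p̄)_c` -/
def X (p : Fin n → ℂ) (q : Fin n → Fin n → ℂ) (c : Fin n) : ℂ := ∑ a, q c a * conj (p a)

/-- `|v|²` -/
def N2 (v : Fin n → ℂ) : ℝ := ∑ a, ‖v a‖ ^ 2

/-- `|q|²` -/
def H2 (q : Fin n → Fin n → ℂ) : ℝ := ∑ c, ∑ a, ‖q c a‖ ^ 2

/-- `Y = s q - p pᵀ` -/
def Y (s : ℂ) (p : Fin n → ℂ) (q : Fin n → Fin n → ℂ) (c a : Fin n) : ℂ := s * q c a - p c * p a

theorem N2_nonneg (v : Fin n → ℂ) : 0 ≤ N2 v := Finset.sum_nonneg fun _ _ => by positivity

theorem H2_nonneg (q : Fin n → Fin n → ℂ) : 0 ≤ H2 q :=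
  Finset.sum_nonneg fun _ _ => Finset.sum_nonneg fun _ _ => by positivity

theorem norm_sum_sq_le (q p : Fin n → ℂ) :
    ‖∑ a, q a * conj (p a)‖ ^ 2 ≤ N2 p * N2 q := by
  have h1 : ‖∑ a, q a * conj (p a)‖ ≤ ∑ a, ‖q a‖ * ‖p a‖ := by
    refine (norm_sum_le _ _).trans (Finset.sum_le_sum fun a _ => ?_)
    rw [norm_mul, Complex.norm_conj]
  have h2 := Finset.sum_mul_sq_le_sq_mul_sq Finset.univ (fun a => ‖q a‖) (fun a => ‖p a‖)
  have h3 : ‖∑ a, q a * conj (p a)‖ ^ 2 ≤ (∑ a, ‖q a‖ * ‖p a‖) ^ 2 := by gcongr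
  calc _ ≤ _ := h3
    _ ≤ _ := h2
    _ = _ := by unfold N2; ring

theorem sq_norm_re (z : ℂ) : ‖z‖ ^ 2 = (z * conj z).re := by
  rw [Complex.mul_conj, Complex.ofReal_re, Complex.normSq_eq_norm_sq]

theorem norm_add_sq_c (z w : ℂ) : ‖z + w‖ ^ 2 = ‖z‖ ^ 2 + 2 * (z * conj w).re + ‖w‖ ^ 2 := by
  rw [sq_norm_re, sq_norm_re, sq_norm_re, map_add]
  have : (w * conj z).re = (z * conj w).re := by
    simp only [Complex.mul_re, Complex.conj_re, Complex.conj_im]; ring
  rw [add_mul, mul_add, mul_add]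
  simp only [Complex.add_re]
  rw [this]; ring

theorem norm_sub_sq_c (z w : ℂ) : ‖z - w‖ ^ 2 = ‖z‖ ^ 2 - 2 * (z * conj w).re + ‖w‖ ^ 2 := by
  have := norm_add_sq_c z (-w)
  rw [sub_eq_add_neg, this, norm_neg, map_neg, mul_neg, Complex.neg_re]
  ring

/-- Lagrange identity for one row -/
theorem row (s : ℂ) (p : Fin n → ℂ) (q : Fin n → Fin n → ℂ) (c : Fin n) :
    ‖conj s * p c + X p q c‖ ^ 2 + ∑ a, ‖Y s p q c a‖ ^ 2 =
      (‖s‖ ^ 2 + N2 p) * ‖p c‖ ^ 2 + ‖s‖ ^ 2 * N2 (q c) + ‖X p q c‖ ^ 2 := by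
  have h1 : ∀ a, ‖Y s p q c a‖ ^ 2 = ‖s‖ ^ 2 * ‖q c a‖ ^ 2 -
      2 * (s * conj (p c) * (q c a * conj (p a))).re + ‖p c‖ ^ 2 * ‖p a‖ ^ 2 := by
    intro a
    unfold Y
    rw [norm_sub_sq_c, norm_mul, norm_mul, mul_pow, mul_pow, map_mul]
    congr 3
    ring_nf
  have h2 : ∑ a, ‖Y s p q c a‖ ^ 2 = ‖s‖ ^ 2 * N2 (q c) - 2 * (s * conj (p c) * X p q c).re +
      ‖p c‖ ^ 2 * N2 p := by
    rw [Finset.sum_congr rfl fun a _ => h1 a, Finset.sum_add_distrib, Finset.sum_sub_distrib,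
      ← Finset.mul_sum, ← Finset.mul_sum, ← Finset.mul_sum]
    change ‖s‖ ^ 2 * N2 (q c) - _ + ‖p c‖ ^ 2 * N2 p = _
    have e : s * conj (p c) * X p q c = ∑ a, s * conj (p c) * (q c a * conj (p a)) := by
      unfold X; rw [Finset.mul_sum]
    rw [e, Complex.re_sum]
  rw [h2, norm_add_sq_c, norm_mul, Complex.norm_conj, mul_pow]
  have h3 : (conj s * p c * conj (X p q c)).re = (s * conj (p c) * X p q c).re := by
    have : conj (s * conj (p c) * X p q c) = conj s * p c * conj (X p q c) := by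
      simp [map_mul]
    rw [← this, Complex.conj_re]
  rw [h3]
  ring

theorem lagrange (s : ℂ) (p : Fin n → ℂ) (q : Fin n → Fin n → ℂ) :
    N2 (fun c => conj s * p c + X p q c) + H2 (Y s p q) ≤
      (‖s‖ ^ 2 + N2 p) * (N2 p + H2 q) := by
  have h0 : N2 (fun c => conj s * p c + X p q c) + H2 (Y s p q) =
      ∑ c, ((‖s‖ ^ 2 + N2 p) * ‖p c‖ ^ 2 + ‖s‖ ^ 2 * N2 (q c) + ‖X p q c‖ ^ 2) := by
    unfold N2 H2
    rw [← Finset.sum_add_distrib]
    exact Finset.sum_congr rfl fun c _ => row s p q c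
  rw [h0]
  calc ∑ c, ((‖s‖ ^ 2 + N2 p) * ‖p c‖ ^ 2 + ‖s‖ ^ 2 * N2 (q c) + ‖X p q c‖ ^ 2)
      ≤ ∑ c, ((‖s‖ ^ 2 + N2 p) * ‖p c‖ ^ 2 + ‖s‖ ^ 2 * N2 (q c) + N2 p * N2 (q c)) :=
        Finset.sum_le_sum fun c _ => by
          have := norm_sum_sq_le (q c) p
          unfold X
          linarith
    _ = _ := by
      have e1 : N2 p = ∑ c, ‖p c‖ ^ 2 := rfl
      have e2 : H2 q = ∑ c, N2 (q c) := rfl
      rw [Finset.sum_add_distrib, Finset.sum_add_distrib, ← Finset.mul_sum, ← Finset.mul_sum,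
        ← Finset.mul_sum, ← e1, ← e2]
      ring

/-- `s X_c = (Y p̄)_c + p_c |p|²` -/
theorem sX (s : ℂ) (p : Fin n → ℂ) (q : Fin n → Fin n → ℂ) (c : Fin n) :
    s * X p q c = X p (Y s p q) c + p c * (N2 p : ℝ) := by
  unfold X Y N2
  push_cast
  rw [Finset.mul_sum, Finset.mul_sum, ← Finset.sum_add_distrib]
  refine Finset.sum_congr rfl fun a _ => ?_
  have : ((‖p a‖ : ℂ)) ^ 2 = p a * conj (p a) := by
    rw [Complex.mul_conj, Complex.normSq_eq_norm_sq]; push_cast; ring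
  rw [this]; ring

/-- `|p̄ᵀ Y p̄|² ≤ |Y|² |p|⁴` -/
theorem pYp (p : Fin n → ℂ) (y : Fin n → Fin n → ℂ) :
    ‖∑ c, X p y c * conj (p c)‖ ^ 2 ≤ H2 y * N2 p ^ 2 := by
  have h1 := norm_sum_sq_le (X p y) p
  have h2 : N2 (X p y) ≤ N2 p * H2 y := by
    unfold H2
    rw [Finset.mul_sum]
    exact Finset.sum_le_sum fun c _ => norm_sum_sq_le (y c) p
  calc _ ≤ N2 p * N2 (X p y) := h1
    _ ≤ N2 p * (N2 p * H2 y) := by
      have := N2_nonneg p
      gcongr
    _ = _ := by ring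

theorem N2_X_le (p : Fin n → ℂ) (y : Fin n → Fin n → ℂ) : N2 (X p y) ≤ N2 p * H2 y := by
  unfold H2
  rw [Finset.mul_sum]
  exact Finset.sum_le_sum fun c _ => norm_sum_sq_le (y c) p

/-- `|∂F|²` for `∂F = s̄ p + q p̄ - c s̄ p` -/
theorem dF (s : ℂ) (p : Fin n → ℂ) (q : Fin n → Fin n → ℂ) (c : ℝ) :
    N2 (fun i => conj s * p i + (X p q i - c * (conj s * p i))) =
      N2 (fun i => conj s * p i + X p q i) -
        2 * c * (N2 p * (‖s‖ ^ 2 + N2 p) + (∑ i, X p (Y s p q) i * conj (p i)).re) +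
        c ^ 2 * (‖s‖ ^ 2 * N2 p) := by
  have h1 : ∀ i, ‖conj s * p i + (X p q i - c * (conj s * p i))‖ ^ 2 =
      ‖conj s * p i + X p q i‖ ^ 2 - 2 * c * ((conj s * p i + X p q i) * conj (conj s * p i)).re +
        c ^ 2 * (‖s‖ ^ 2 * ‖p i‖ ^ 2) := by
    intro i
    have e : conj s * p i + (X p q i - c * (conj s * p i)) =
        (conj s * p i + X p q i) - (c : ℂ) * (conj s * p i) := by ring
    rw [e, norm_sub_sq_c, map_mul (starRingEnd ℂ) (c : ℂ), Complex.conj_ofReal]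
    have e2 : (conj s * p i + X p q i) * ((c : ℂ) * conj (conj s * p i)) =
        (c : ℂ) * ((conj s * p i + X p q i) * conj (conj s * p i)) := by ring
    rw [e2, Complex.re_ofReal_mul, norm_mul, Complex.norm_real, mul_pow, norm_mul,
      Complex.norm_conj, Real.norm_eq_abs, sq_abs]
    ring
  have h2 : ∀ i, ((conj s * p i + X p q i) * conj (conj s * p i)).re =
      ‖s‖ ^ 2 * ‖p i‖ ^ 2 + (X p (Y s p q) i * conj (p i)).re + N2 p * ‖p i‖ ^ 2 := by
    intro i
    have e : (conj s * p i + X p q i) * conj (conj s * p i) =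
        (conj s * p i) * conj (conj s * p i) + (s * X p q i) * conj (p i) := by
      rw [map_mul, Complex.conj_conj]; ring
    have e1 : (X p (Y s p q) i + p i * (N2 p : ℝ)) * conj (p i) =
        X p (Y s p q) i * conj (p i) + (N2 p : ℝ) * (p i * conj (p i)) := by ring
    rw [e, sX, e1, Complex.add_re, ← sq_norm_re, Complex.add_re, Complex.re_ofReal_mul,
      ← sq_norm_re, norm_mul, Complex.norm_conj, mul_pow]
    ring
  have h3 : N2 (fun i => conj s * p i + (X p q i - c * (conj s * p i))) =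
      ∑ i, (‖conj s * p i + X p q i‖ ^ 2 - 2 * c * (‖s‖ ^ 2 * ‖p i‖ ^ 2 +
        (X p (Y s p q) i * conj (p i)).re + N2 p * ‖p i‖ ^ 2) +
        c ^ 2 * (‖s‖ ^ 2 * ‖p i‖ ^ 2)) := by
    unfold N2
    refine Finset.sum_congr rfl fun i _ => ?_
    rw [h1, h2]
    rfl
  rw [h3, Finset.sum_add_distrib, Finset.sum_sub_distrib, ← Finset.mul_sum, ← Finset.mul_sum,
    Finset.sum_add_distrib, Finset.sum_add_distrib, ← Finset.mul_sum, ← Finset.mul_sum,
    Complex.re_sum]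
  have e1 : N2 p = ∑ c, ‖p c‖ ^ 2 := rfl
  rw [← e1]
  show N2 (fun i => conj s * p i + X p q i) - _ + _ = _
  ring

/-- numerator of `∂(u/S)` -/
theorem num (s : ℂ) (p : Fin n → ℂ) (q : Fin n → Fin n → ℂ) (c e : ℝ) (i : Fin n) :
    ((‖s‖ ^ 2 + N2 p + e : ℝ) : ℂ) * (conj s * p i) -
      ((‖s‖ ^ 2 : ℝ) : ℂ) * (conj s * p i + (X p q i - c * (conj s * p i))) =
      conj s * ((e : ℂ) * p i - X p (Y s p q) i + (c : ℂ) * ((‖s‖ ^ 2 : ℝ) : ℂ) * p i) := by
  have h1 : X p (Y s p q) i = s * X p q i - p i * (N2 p : ℝ) := by rw [sX]; ring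
  have h2 : ((‖s‖ ^ 2 : ℝ) : ℂ) = s * conj s := by
    rw [Complex.mul_conj, Complex.normSq_eq_norm_sq]
  rw [h1]
  push_cast at h2 ⊢
  rw [h2]
  ring

theorem norm_sq3 (a b d : ℂ) : ‖a - b + d‖ ^ 2 ≤ 3 * (‖a‖ ^ 2 + ‖b‖ ^ 2 + ‖d‖ ^ 2) := by
  have h1 : ‖a - b + d‖ ≤ ‖a‖ + ‖b‖ + ‖d‖ :=
    (norm_add_le _ _).trans (by gcongr; exact norm_sub_le _ _)
  have h2 : ‖a - b + d‖ ^ 2 ≤ (‖a‖ + ‖b‖ + ‖d‖) ^ 2 := by gcongr
  nlinarith [sq_nonneg (‖a‖ - ‖b‖), sq_nonneg (‖a‖ - ‖d‖), sq_nonneg (‖b‖ - ‖d‖)]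

/-- **the 1-jet Bochner inequality, pointwise** -/
theorem jet_main (s : ℂ) (p : Fin n → ℂ) (q : Fin n → Fin n → ℂ) {c e : ℝ} (hc : 0 ≤ c)
    (he : 0 < e) {u w H S LF : ℝ} (hu : u = ‖s‖ ^ 2) (hw : w = N2 p) (hH : H = H2 q)
    (hS : S = u + w + e)
    (hLF : LF = (w - c * n * u) + (H - c * (n + 2) * w + c ^ 2 * n * u)) :
    N2 (fun i => (S : ℂ) * (conj s * p i) -
      (u : ℂ) * (conj s * p i + (X p q i - c * (conj s * p i)))) ≤
      3 / 2 * (S ^ 2 * (S * LF - N2 (fun i => conj s * p i + (X p q i - c * (conj s * p i))))) +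
        (3 / 2 * (n + 2) * c + 4 * c ^ 2) * S ^ 4 := by
  set y2 := H2 (Y s p q) with hy2
  have hu0 : 0 ≤ u := by rw [hu]; positivity
  have hw0 : 0 ≤ w := by rw [hw]; exact N2_nonneg p
  have hH0 : 0 ≤ H := by rw [hH]; exact H2_nonneg q
  have hy0 : 0 ≤ y2 := H2_nonneg _
  have hn0 : (0 : ℝ) ≤ n := Nat.cast_nonneg n
  -- the left hand side
  have hL : N2 (fun i => (S : ℂ) * (conj s * p i) -
      (u : ℂ) * (conj s * p i + (X p q i - c * (conj s * p i)))) ≤
      3 * u * (e ^ 2 * w + w * y2 + c ^ 2 * u ^ 2 * w) := by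
    have h1 : ∀ i, (S : ℂ) * (conj s * p i) -
        (u : ℂ) * (conj s * p i + (X p q i - c * (conj s * p i))) =
        conj s * ((e : ℂ) * p i - X p (Y s p q) i + (c : ℂ) * (u : ℂ) * p i) := by
      intro i
      rw [hS, hw, hu]
      exact num s p q c e i
    have h2 : ∀ i, ‖(S : ℂ) * (conj s * p i) -
        (u : ℂ) * (conj s * p i + (X p q i - c * (conj s * p i)))‖ ^ 2 ≤
        3 * u * (e ^ 2 * ‖p i‖ ^ 2 + ‖X p (Y s p q) i‖ ^ 2 + c ^ 2 * u ^ 2 * ‖p i‖ ^ 2) := by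
      intro i
      rw [h1, norm_mul, Complex.norm_conj, mul_pow, ← hu]
      have h3 := norm_sq3 ((e : ℂ) * p i) (X p (Y s p q) i) ((c : ℂ) * (u : ℂ) * p i)
      have h4 : ‖(e : ℂ) * p i‖ ^ 2 = e ^ 2 * ‖p i‖ ^ 2 := by
        rw [norm_mul, mul_pow, Complex.norm_real, Real.norm_eq_abs, sq_abs]
      have h5 : ‖(c : ℂ) * (u : ℂ) * p i‖ ^ 2 = c ^ 2 * u ^ 2 * ‖p i‖ ^ 2 := by
        rw [norm_mul, norm_mul, mul_pow, mul_pow, Complex.norm_real, Complex.norm_real,
          Real.norm_eq_abs, Real.norm_eq_abs, sq_abs, sq_abs]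
      rw [h4, h5] at h3
      calc u * _ ≤ u * (3 * (e ^ 2 * ‖p i‖ ^ 2 + ‖X p (Y s p q) i‖ ^ 2 +
            c ^ 2 * u ^ 2 * ‖p i‖ ^ 2)) := mul_le_mul_of_nonneg_left h3 hu0
        _ = _ := by ring
    calc _ ≤ ∑ i, 3 * u * (e ^ 2 * ‖p i‖ ^ 2 + ‖X p (Y s p q) i‖ ^ 2 +
            c ^ 2 * u ^ 2 * ‖p i‖ ^ 2) := Finset.sum_le_sum fun i _ => h2 i
      _ = 3 * u * (e ^ 2 * w + N2 (X p (Y s p q)) + c ^ 2 * u ^ 2 * w) := by
        rw [← Finset.mul_sum, Finset.sum_add_distrib, Finset.sum_add_distrib, ← Finset.mul_sum,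
          ← Finset.mul_sum, hw]
        rfl
      _ ≤ _ := by
        have := N2_X_le p (Y s p q)
        rw [← hw] at this
        have h3 : 0 ≤ 3 * u := by positivity
        exact mul_le_mul_of_nonneg_left (by linarith) h3
  -- the right hand side
  have hR : e * w + y2 / 2 - (c * (n + 2) + 2 * c ^ 2) * S ^ 2 ≤
      S * LF - N2 (fun i => conj s * p i + (X p q i - c * (conj s * p i))) := by
    rw [dF s p q c, ← hu, ← hw]
    have h1 := lagrange s p q
    rw [← hu, ← hw, ← hH] at h1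
    have h2 := pYp p (Y s p q)
    rw [← hw] at h2
    set r := (∑ i, X p (Y s p q) i * conj (p i)).re with hr
    have h3 : r ^ 2 ≤ y2 * w ^ 2 := by
      refine le_trans ?_ h2
      rw [← sq_abs r]
      have := Complex.abs_re_le_norm (∑ i, X p (Y s p q) i * conj (p i))
      rw [← hr] at this
      gcongr
    -- `-2 c r ≤ y2 / 2 + 2 c² w²`
    have h4 : -(2 * c * r) ≤ y2 / 2 + 2 * c ^ 2 * w ^ 2 := by
      by_cases hw1 : w = 0
      · rw [hw1] at h3 ⊢
        have : r = 0 := by nlinarith [sq_nonneg r]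
        rw [this]; nlinarith
      · have hwp : 0 < w := lt_of_le_of_ne hw0 (Ne.symm hw1)
        -- `(r / w)² ≤ y2`
        have h5 : (r / w) ^ 2 ≤ y2 := by
          rw [div_pow, div_le_iff₀ (by positivity)]; exact h3
        have h6 : r = (r / w) * w := by field_simp
        rw [h6]
        nlinarith [sq_nonneg (r / w + 2 * c * w)]
    have h7 : S * LF - (N2 (fun i => conj s * p i + X p q i) - 2 * c * (w * (u + w) + r) +
        c ^ 2 * (u * w)) ≥ S * LF - ((u + w) * (w + H) - y2) + 2 * c * (w * (u + w) + r) -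
          c ^ 2 * (u * w) := by linarith
    have h8 : S * LF = (u + w + e) * (w + H) - (u + w + e) * (c * n * u + c * (n + 2) * w) +
        (u + w + e) * (c ^ 2 * n * u) := by rw [hLF, hS]; ring
    have h9 : (u + w + e) * (c * n * u + c * (n + 2) * w) ≤ c * (n + 2) * S ^ 2 := by
      rw [hS]
      have : c * n * u + c * (n + 2) * w ≤ c * (n + 2) * (u + w + e) := by
        have a1 : 0 ≤ c * u := by positivity
        have a2 : 0 ≤ c * (n + 2) * e := by positivity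
        nlinarith
      calc _ ≤ (u + w + e) * (c * (n + 2) * (u + w + e)) :=
            mul_le_mul_of_nonneg_left this (by positivity)
        _ = _ := by ring
    have h10 : 2 * c ^ 2 * w ^ 2 + c ^ 2 * (u * w) ≤ 2 * c ^ 2 * S ^ 2 := by
      have : 2 * w ^ 2 + u * w ≤ 2 * S ^ 2 := by
        rw [hS]
        nlinarith [mul_nonneg hu0 hw0, mul_nonneg hu0 he.le, mul_nonneg hw0 he.le,
          sq_nonneg u, sq_nonneg e]
      nlinarith [sq_nonneg c]
    have h11 : 0 ≤ (u + w + e) * (c ^ 2 * n * u) := by positivity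
    have h12 : 0 ≤ 2 * c * (w * (u + w)) := by positivity
    have h13 : 0 ≤ e * H := by positivity
    linarith
  -- conclusion
  have hSp : 0 < S := by rw [hS]; positivity
  have m1 := mul_nonneg hu0 he.le
  have m2 := mul_nonneg hw0 he.le
  have m3 := mul_nonneg hu0 hw0
  have k1 : u * w ≤ S ^ 2 / 4 := by
    rw [hS]; nlinarith [sq_nonneg (u - w), sq_nonneg e]
  have k2 : u * e ≤ S ^ 2 / 4 := by
    rw [hS]; nlinarith [sq_nonneg (u - e), sq_nonneg w]
  have k3 : u ^ 2 ≤ S ^ 2 := by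
    rw [hS]; nlinarith [sq_nonneg e, sq_nonneg w]
  have a1 : u * (e ^ 2 * w) ≤ S ^ 2 / 4 * (e * w) := by
    calc u * (e ^ 2 * w) = (u * e) * (e * w) := by ring
      _ ≤ _ := mul_le_mul_of_nonneg_right k2 (by positivity)
  have a2 : u * (w * y2) ≤ S ^ 2 / 4 * y2 := by
    calc u * (w * y2) = (u * w) * y2 := by ring
      _ ≤ _ := mul_le_mul_of_nonneg_right k1 hy0
  have a3 : u * (c ^ 2 * u ^ 2 * w) ≤ c ^ 2 * (S ^ 2 / 4 * S ^ 2) := by
    calc u * (c ^ 2 * u ^ 2 * w) = c ^ 2 * ((u * w) * u ^ 2) := by ring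
      _ ≤ _ := by gcongr
  have b1 : 3 / 2 * (S ^ 2 * (e * w + y2 / 2 - (c * (n + 2) + 2 * c ^ 2) * S ^ 2)) ≤
      3 / 2 * (S ^ 2 * (S * LF - N2 (fun i => conj s * p i + (X p q i - c * (conj s * p i))))) := by
    gcongr
  have b2 : 3 * u * (e ^ 2 * w + w * y2 + c ^ 2 * u ^ 2 * w) ≤
      3 * (S ^ 2 / 4 * (e * w) + S ^ 2 / 4 * y2 + c ^ 2 * (S ^ 2 / 4 * S ^ 2)) := by
    linarith
  have b3 : 0 ≤ S ^ 2 * (e * w) := by positivity
  have b4 : 0 ≤ c ^ 2 * S ^ 4 := by positivity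
  linarith

end

end Crest.Agent.R281.Jet1_484
end

-- ▼ part R281/Jet2_484
section

/-!
# R281 (S0424), leaf S-GLOB (helper484): `u = |s|²`, `w = |∇s|²` in a chart

`s = f e^{-φ/2}`, `f` holomorphic, `∂∂̄ φ = c g`, `Ric = 0`.
* `eta φ f` : the column `∂_a f - f ∂_a φ`; `uu φ f = e^{-φ}|f|²`; `ww K φ f = e^{-φ} g^{ab̄} η_a η̄_b`
* `hess_uu`, `lap_uu : lap u = w - c n u`; `dS_uu`
* `lap_ww : lap w = |∇∇s|² - c (n+2) w + c² n u`; `dS_ww`
-/

set_option autoImplicit false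
set_option linter.unusedSectionVars false

open Finset Matrix Complex Filter Topology
open scoped ContDiff ComplexConjugate ComplexOrder

namespace Crest.Agent.R281.Jet2_484

open Crest.Agent.R275.Geo Crest.Agent.R275.EDR890
open Crest.Agent.R273.Fock_243 Crest.Agent.R273.Calc_243
open Crest.Agent.R273.Bkn_243 Crest.Agent.R273.Pos_243 Crest.Agent.R273.BochA_101
open Crest.Agent.R273.BochB_101 Crest.Agent.R273.BochC_101 Crest.Agent.R273.BochD_101
open Crest.Agent.R273.Hess_333 Crest.Agent.R273.HessB_333 Crest.Agent.R273.FIa0_597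
open Crest.Agent.R281.Bo1_815 Crest.Agent.R281.Bo2_815

noncomputable section

variable {n : ℕ} {K : Cn n → Matrix (Fin n) (Fin n) ℂ} {z : Cn n} {φ : Cn n → ℝ} {f : Cn n → ℂ}
  {c : ℝ}

/-- `e^{-φ}` -/
def ex (φ : Cn n → ℝ) (y : Cn n) : ℝ := Real.exp (-φ y)

/-- `∂_a f - f ∂_a φ` -/
def et (φ : Cn n → ℝ) (f : Cn n → ℂ) (a : Fin n) (y : Cn n) : ℂ :=
  dS (-I) a f y - f y * dS (-I) a (cu φ) y

/-- the column `∂ f - f ∂ φ` -/
def eta (φ : Cn n → ℝ) (f : Cn n → ℂ) (y : Cn n) : Matrix (Fin n) Unit ℂ :=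
  Matrix.of fun a _ => et φ f a y

/-- hypotheses at a point -/
structure Hyp (K : Cn n → Matrix (Fin n) (Fin n) ℂ) (φ : Cn n → ℝ) (f : Cn n → ℂ) (c : ℝ)
    (y : Cn n) : Prop where
  sm : SmM y K
  pos : (K y).PosDef
  kah : KahAt K y
  φs : ContDiffAt ℝ ∞ φ y
  cur : ∀ a b, hess φ y a b = (c : ℂ) * K y b a
  fs : Sm y f
  hol : ∀ a, dS I a f y = 0

theorem sml {a b : Cn n → ℂ} {z : Cn n} (ha : Sm z a) (hb : Sm z b) :
    Sm z (fun y => a y * b y) := ContDiffAt.mul ha hb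

theorem sm_et (h : ∀ᶠ y in 𝓝 z, Hyp K φ f c y) (a : Fin n) : Sm z (et φ f a) :=
  (Sm.dS h.self_of_nhds.fs _ _).sub
    (h.self_of_nhds.fs.mul (Sm.dS (contDiffAt_cu h.self_of_nhds.φs) _ _))

theorem smM_eta (h : ∀ᶠ y in 𝓝 z, Hyp K φ f c y) : SmM z (eta φ f) := fun a _ => sm_et h a

theorem ev (h : ∀ᶠ y in 𝓝 z, Hyp K φ f c y) :
    ∀ᶠ y in 𝓝 z, ∀ᶠ x in 𝓝 y, Hyp K φ f c x := h.eventually_nhds

theorem dS_ex (hφ : DifferentiableAt ℝ φ z) (s : WI n) :
    wd s (cu (ex φ)) z = -((ex φ z : ℝ) : ℂ) * wd s (cu φ) z := by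
  have h1 : HasDerivAt (fun t : ℝ => Real.exp (-t)) (-Real.exp (-φ z)) (φ z) := by
    have := (hasDerivAt_neg (φ z)).exp
    simpa using this
  have h2 := wd_comp_real (φ := fun t : ℝ => Real.exp (-t)) (u := φ) s hφ h1
  have h3 : cu (ex φ) = cu fun w => Real.exp (-φ w) := rfl
  rw [h3, h2]
  simp [ex]

theorem sm_ex (hφ : ContDiffAt ℝ ∞ φ z) : Sm z (cu (ex φ)) := contDiffAt_cu (sm_exp hφ)

/-- `∂_{l̄} η_a = - c f g_{a l̄}` -/
theorem dbar_et (h : ∀ᶠ y in 𝓝 z, Hyp K φ f c y) (l a : Fin n) :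
    dS I l (et φ f a) z = -((c : ℂ) * f z * K z l a) := by
  have hz := h.self_of_nhds
  have d1 : DifferentiableAt ℝ (dS (-I) a f) z := (Sm.dS hz.fs _ _).diff
  have d2 : DifferentiableAt ℝ (dS (-I) a (cu φ)) z := (Sm.dS (contDiffAt_cu hz.φs) _ _).diff
  have d3 : DifferentiableAt ℝ f z := hz.fs.diff
  have e1 : dS I l (dS (-I) a f) z = 0 := by
    rw [dS_comm hz.fs]
    have : dS I l f =ᶠ[𝓝 z] fun _ => 0 := h.mono fun y hy => hy.hol l
    rw [dS_congr this]
    exact dS_const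
  have e2 : dS I l (dS (-I) a (cu φ)) z = (c : ℂ) * K z l a := by
    rw [dS_comm (contDiffAt_cu hz.φs), ← hz.cur a l, hess_eq]
  have e3 : et φ f a = fun y => dS (-I) a f y + (-1) * (f y * dS (-I) a (cu φ) y) := by
    funext y; unfold et; ring
  have d4 : DifferentiableAt ℝ (fun y => f y * dS (-I) a (cu φ) y) z := d3.mul d2
  have d5 : DifferentiableAt ℝ (fun y => (-1) * (f y * dS (-I) a (cu φ) y)) z :=
    d4.const_mul (-1 : ℂ)
  rw [e3, dS_add d1 d5, dS_const_mul (-1 : ℂ) d4, dS_mul d3 d2, e1, e2, hz.hol l]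
  ring

/-- `∂_k (e^{-φ} f) = e^{-φ} η_k` -/
theorem del_exf (h : ∀ᶠ y in 𝓝 z, Hyp K φ f c y) (k : Fin n) :
    dS (-I) k (fun y => cu (ex φ) y * f y) z = (ex φ z : ℂ) * et φ f k z := by
  have hz := h.self_of_nhds
  rw [dS_mul (sm_ex hz.φs).diff hz.fs.diff]
  have h1 : dS (-I) k (cu (ex φ)) z = -((ex φ z : ℝ) : ℂ) * dS (-I) k (cu φ) z :=
    dS_ex (hz.φs.differentiableAt (by simp)) (false, k)
  rw [h1]
  unfold et cu
  ring

/-- `∂_k conj f = 0` -/
theorem del_conjf (h : ∀ᶠ y in 𝓝 z, Hyp K φ f c y) (k : Fin n) :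
    dS (-I) k (fun y => conj (f y)) z = 0 := by
  rw [dS_conj h.self_of_nhds.fs.diff, conjnI, h.self_of_nhds.hol, map_zero]

theorem dbar_conjf (h : ∀ᶠ y in 𝓝 z, Hyp K φ f c y) (k : Fin n) :
    dS I k (fun y => conj (f y)) z = conj (dS (-I) k f z) := by
  rw [dS_conj h.self_of_nhds.fs.diff, conjI]

/-- `∂_{l̄} (e^{-φ} conj f) = e^{-φ} conj η_l` -/
theorem dbar_excf (h : ∀ᶠ y in 𝓝 z, Hyp K φ f c y) (l : Fin n) :
    dS I l (fun y => cu (ex φ) y * conj (f y)) z = (ex φ z : ℂ) * conj (et φ f l z) := by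
  have hz := h.self_of_nhds
  rw [dS_mul (sm_ex hz.φs).diff (Sm.conj hz.fs).diff, dbar_conjf h]
  have h1 : dS I l (cu (ex φ)) z = -((ex φ z : ℝ) : ℂ) * dS I l (cu φ) z :=
    dS_ex (hz.φs.differentiableAt (by simp)) (true, l)
  have h2 : dS I l (cu φ) z = conj (dS (-I) l (cu φ) z) :=
    dS_bar (hz.φs.differentiableAt (by simp)) l
  rw [h1, h2]
  unfold et cu
  rw [map_sub, map_mul]
  ring

theorem del_conj_et (h : ∀ᶠ y in 𝓝 z, Hyp K φ f c y) (k l : Fin n) :
    dS (-I) k (fun y => conj (et φ f l y)) z = -((c : ℂ) * conj (f z) * K z l k) := by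
  have hz := h.self_of_nhds
  rw [dS_conj (sm_et h l).diff, conjnI, dbar_et h, map_neg, map_mul, map_mul,
    Complex.conj_ofReal]
  have : conj (K z k l) = K z l k := hz.pos.isHermitian.apply l k
  rw [this]

/-! ### `u` -/

/-- `e^{-φ} |f|²` -/
def uu (φ : Cn n → ℝ) (f : Cn n → ℂ) (y : Cn n) : ℝ := ex φ y * ‖f y‖ ^ 2

theorem cu_uu (φ : Cn n → ℝ) (f : Cn n → ℂ) :
    cu (uu φ f) = fun y => (cu (ex φ) y * conj (f y)) * f y := by
  funext y
  simp only [cu, uu]
  push_cast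
  rw [mul_assoc, mul_comm (conj (f y)), Complex.mul_conj, Complex.normSq_eq_norm_sq]
  push_cast
  ring

theorem sm_uu (h : ∀ᶠ y in 𝓝 z, Hyp K φ f c y) : ContDiffAt ℝ ∞ (uu φ f) z :=
  (sm_exp h.self_of_nhds.φs).mul (h.self_of_nhds.fs.norm_sq ℝ)

theorem dS_uu (h : ∀ᶠ y in 𝓝 z, Hyp K φ f c y) (k : Fin n) :
    dS (-I) k (cu (uu φ f)) z = (ex φ z : ℂ) * conj (f z) * et φ f k z := by
  have hz := h.self_of_nhds
  have e : cu (uu φ f) = fun y => (cu (ex φ) y * f y) * conj (f y) := by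
    rw [cu_uu]; funext y; ring
  rw [e, dS_mul (sml (sm_ex hz.φs) hz.fs).diff (Sm.conj hz.fs).diff, del_exf h, del_conjf h]
  ring

theorem dbar_uu (h : ∀ᶠ y in 𝓝 z, Hyp K φ f c y) (l : Fin n) :
    dS I l (cu (uu φ f)) z = (ex φ z : ℂ) * conj (et φ f l z) * f z := by
  have hz := h.self_of_nhds
  rw [cu_uu, dS_mul (sml (sm_ex hz.φs) (Sm.conj hz.fs)).diff hz.fs.diff, dbar_excf h, hz.hol]
  ring

theorem hess_uu (h : ∀ᶠ y in 𝓝 z, Hyp K φ f c y) (k l : Fin n) :
    hess (uu φ f) z k l = (ex φ z : ℂ) * (et φ f k z * conj (et φ f l z)) -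
      (c : ℂ) * (uu φ f z : ℝ) * K z l k := by
  have hz := h.self_of_nhds
  have e1 : dS I l (cu (uu φ f)) =ᶠ[𝓝 z] fun y => (cu (ex φ) y * f y) * conj (et φ f l y) := by
    filter_upwards [ev h] with y hy
    rw [dbar_uu hy]
    simp only [cu]
    ring
  rw [hess_eq, dS_congr e1, dS_mul (sml (sm_ex hz.φs) hz.fs).diff (Sm.conj (sm_et h l)).diff,
    del_exf h, del_conj_et h]
  have e2 : ((uu φ f z : ℝ) : ℂ) = (ex φ z : ℂ) * (f z * conj (f z)) := by
    rw [Complex.mul_conj, Complex.normSq_eq_norm_sq]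
    simp only [uu]
    push_cast
    ring
  rw [e2]
  simp only [cu]
  ring

theorem nsq_eta (y : Cn n) : nsq (tw φ (Kd K)) (eta φ f) y =
    (ex φ y) * (tk K y (fun k l => et φ f k y * conj (et φ f l y))).re := by
  rw [nsq_tw]
  unfold nsq tk ex
  congr 2
  rw [Matrix.mul_assoc, Matrix.trace, Finset.sum_eq_single (a := ()) (by simp) (by simp)]
  simp only [Matrix.diag_apply, Matrix.mul_apply, Matrix.conjTranspose_apply, eta,
    Matrix.of_apply, Kd, Matrix.transpose_apply, Finset.mul_sum]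
  rw [Finset.sum_comm]
  refine Finset.sum_congr rfl fun a _ => Finset.sum_congr rfl fun b _ => ?_
  show conj _ * _ = _
  ring

theorem tk_K (hp : (K z).PosDef) : tk K z (fun k l => K z l k) = n := by
  have hi : (K z)⁻¹ * K z = 1 := Matrix.nonsing_inv_mul _ (isUnit_iff_ne_zero.2 hp.det_pos.ne')
  have h1 : tk K z (fun k l => K z l k) = ((K z)⁻¹ * K z).trace := by
    unfold tk Matrix.trace
    refine Finset.sum_congr rfl fun k _ => ?_
    rw [Matrix.diag_apply, Matrix.mul_apply]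
  rw [h1, hi, Matrix.trace_one, Fintype.card_fin]

/-- `lap u = w - c n u` -/
theorem lap_uu (h : ∀ᶠ y in 𝓝 z, Hyp K φ f c y) :
    lap K (uu φ f) z = nsq (tw φ (Kd K)) (eta φ f) z - c * n * uu φ f z := by
  have hz := h.self_of_nhds
  unfold lap
  rw [tk_congr (hess_uu h), tk_sub, tk_smul, tk_smul _ (fun k l => K z l k), tk_K hz.pos,
    nsq_eta, Complex.sub_re, Complex.re_ofReal_mul]
  congr 1
  rw [show ((c : ℂ) * (uu φ f z : ℝ) * (n : ℂ)) = ((c * n * uu φ f z : ℝ) : ℂ) by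
    push_cast; ring, Complex.ofReal_re]

/-! ### `w` -/

/-- the fibre metric of `Ω¹ ⊗ L` -/
abbrev GG (K : Cn n → Matrix (Fin n) (Fin n) ℂ) (φ : Cn n → ℝ) : Cn n → Matrix (Fin n) (Fin n) ℂ :=
  tw φ (Kd K)

/-- `w = |∇s|²` -/
def ww (K : Cn n → Matrix (Fin n) (Fin n) ℂ) (φ : Cn n → ℝ) (f : Cn n → ℂ) : Cn n → ℝ :=
  nsq (GG K φ) (eta φ f)

/-- the row `e_kᵀ` -/
def rE (k : Fin n) : Matrix Unit (Fin n) ℂ := Matrix.of fun _ a => if a = k then 1 else 0

theorem smG (h : Hyp K φ f c z) : SmM z (GG K φ) := sm_tw h.φs (sm_Kd h.sm h.pos.det_pos.ne')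

theorem posG (h : Hyp K φ f c z) : (GG K φ z).PosDef := tw_posDef (Kd_posDef h.pos)

theorem hermG (h : Hyp K φ f c z) : (GG K φ z).IsHermitian := (posG h).isHermitian

theorem dbar_eta (h : ∀ᶠ y in 𝓝 z, Hyp K φ f c y) (k : Fin n) :
    dM I k (eta φ f) z = Matrix.of fun a _ => -((c : ℂ) * f z * K z k a) := by
  ext a b
  exact dbar_et h k a

/-- `E_kᴴ G = - c e^{-φ} conj f e_kᵀ` -/
theorem EG (h : ∀ᶠ y in 𝓝 z, Hyp K φ f c y) (k : Fin n) :
    (dM I k (eta φ f) z)ᴴ * GG K φ z = (-(c : ℂ) * (cu (ex φ) z * conj (f z))) • rE k := by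
  have hz := h.self_of_nhds
  rw [dbar_eta h]
  ext u b
  have hi : (K z) * (K z)⁻¹ = 1 := Matrix.mul_nonsing_inv _ (isUnit_iff_ne_zero.2 hz.pos.det_pos.ne')
  have hi' : (K z)⁻¹ * K z = 1 := mul_eq_one_comm.1 hi
  have h1 : ∑ a, (K z)⁻¹ b a * K z a k = if b = k then 1 else 0 := by
    rw [← Matrix.mul_apply, hi', Matrix.one_apply]
  rw [Matrix.smul_apply, smul_eq_mul, rE, Matrix.of_apply, ← h1, Matrix.mul_apply, Finset.mul_sum]
  refine Finset.sum_congr rfl fun a _ => ?_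
  have h2 : conj (K z k a) = K z a k := hz.pos.isHermitian.apply a k
  have h3 : GG K φ z a b = cu (ex φ) z * (K z)⁻¹ b a := rfl
  rw [h3, Matrix.conjTranspose_apply, Matrix.of_apply]
  show conj _ * _ = _
  rw [map_neg, map_mul, map_mul, Complex.conj_ofReal, h2]
  ring

theorem rE_mul (k : Fin n) (V : Matrix (Fin n) Unit ℂ) : (rE k * V).trace = V k () := by
  rw [Matrix.trace, Finset.sum_eq_single (a := ()) (by simp) (by simp), Matrix.diag_apply,
    Matrix.mul_apply, Finset.sum_eq_single (a := k)]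
  · simp [rE]
  · intro b _ hb; simp [rE, hb]
  · simp

theorem mul_rE (k : Fin n) (V : Matrix (Fin n) Unit ℂ) : (Vᴴ * (rE k)ᴴ).trace = conj (V k ()) := by
  rw [← Matrix.conjTranspose_mul, Matrix.trace_conjTranspose, rE_mul]
  rfl

/-- `Vᴴ G E_l` -/
theorem VGE (h : ∀ᶠ y in 𝓝 z, Hyp K φ f c y) (l : Fin n) :
    ((eta φ f z)ᴴ * (GG K φ z * dM I l (eta φ f) z)).trace =
      -(c : ℂ) * ((cu (ex φ) z * f z) * conj (et φ f l z)) := by
  have hz := h.self_of_nhds
  have h1 := congrArg Matrix.conjTranspose (EG h l)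
  rw [Matrix.conjTranspose_mul, Matrix.conjTranspose_conjTranspose, (hermG hz).eq,
    Matrix.conjTranspose_smul] at h1
  rw [h1, Matrix.mul_smul, Matrix.trace_smul, mul_rE, smul_eq_mul]
  show conj _ * _ = _
  rw [map_mul, map_neg, map_mul, Complex.conj_conj, Complex.conj_ofReal]
  have : conj (cu (ex φ) z) = cu (ex φ) z := Complex.conj_ofReal _
  rw [this]
  show _ * conj (et φ f l z) = _
  ring

theorem cu_ww (h : ∀ᶠ y in 𝓝 z, Hyp K φ f c y) :
    cu (ww K φ f) =ᶠ[𝓝 z] fun y => ((eta φ f y)ᴴ * GG K φ y * eta φ f y).trace :=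
  cu_tr (h.mono fun y hy => gram_herm (hermG hy) (eta φ f y))

theorem sm_ww (h : ∀ᶠ y in 𝓝 z, Hyp K φ f c y) : ContDiffAt ℝ ∞ (ww K φ f) z :=
  sm_nsq (smG h.self_of_nhds) (smM_eta h)

/-- `∂_{l̄} w` -/
theorem dbar_ww (h : ∀ᶠ y in 𝓝 z, Hyp K φ f c y) (l : Fin n) :
    dS I l (cu (ww K φ f)) z =
      (((dM (-I) l (eta φ f) z)ᴴ * GG K φ z + (eta φ f z)ᴴ * dM I l (GG K φ) z) *
        eta φ f z).trace + -(c : ℂ) * ((cu (ex φ) z * f z) * conj (et φ f l z)) := by
  have hz := h.self_of_nhds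
  have hV := smM_eta h
  have hG := smG hz
  have hVH : SmM z (fun y => (eta φ f y)ᴴ) := SmM.conjTranspose hV
  rw [dS_congr (cu_ww h), dS_trace (sm_gram hG hV),
    dM_mul (fun S T => (SmM.mul hVH hG S T).diff) (fun S T => (hV S T).diff),
    dM_mul (fun S T => (hVH S T).diff) (fun S T => (hG S T).diff), dM_conjTranspose hV, conjI,
    Matrix.trace_add, Matrix.mul_assoc (eta φ f z)ᴴ (GG K φ z), VGE h]

/-- `∂_k w` -/
theorem del_ww (h : ∀ᶠ y in 𝓝 z, Hyp K φ f c y) (k : Fin n) :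
    dS (-I) k (cu (ww K φ f)) z =
      ((eta φ f z)ᴴ * GG K φ z * Dp (GG K φ) (eta φ f) k z).trace -
        (c : ℂ) * ((ex φ z : ℂ) * conj (f z) * et φ f k z) := by
  have hz := h.self_of_nhds
  have hV := smM_eta h
  have hG := smG hz
  have hVH : SmM z (fun y => (eta φ f y)ᴴ) := SmM.conjTranspose hV
  have hGi : GG K φ z * (GG K φ z)⁻¹ = 1 :=
    Matrix.mul_nonsing_inv _ (isUnit_iff_ne_zero.2 (posG hz).det_pos.ne')
  rw [dS_congr (cu_ww h), dS_trace (sm_gram hG hV),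
    dM_mul (fun S T => (SmM.mul hVH hG S T).diff) (fun S T => (hV S T).diff),
    dM_mul (fun S T => (hVH S T).diff) (fun S T => (hG S T).diff), dM_conjTranspose hV, conjnI,
    EG h, Matrix.add_mul, Matrix.trace_add, Matrix.trace_add, Matrix.smul_mul, Matrix.trace_smul,
    rE_mul]
  have h1 : (eta φ f z)ᴴ * GG K φ z * Dp (GG K φ) (eta φ f) k z =
      (eta φ f z)ᴴ * dM (-I) k (GG K φ) z * eta φ f z +
        (eta φ f z)ᴴ * GG K φ z * dM (-I) k (eta φ f) z := by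
    unfold Dp
    rw [Matrix.mul_assoc, Matrix.mul_add (GG K φ z), ← Matrix.mul_assoc (GG K φ z),
      ← Matrix.mul_assoc (GG K φ z), hGi, Matrix.one_mul, Matrix.mul_add]
    simp only [Matrix.mul_assoc]
    abel
  rw [h1, Matrix.trace_add, smul_eq_mul]
  show _ * et φ f k z + _ + _ = _
  simp only [cu]
  ring

/-- the Hessian of `w` -/
theorem hess_ww (h : ∀ᶠ y in 𝓝 z, Hyp K φ f c y) (k l : Fin n) :
    hess (ww K φ f) z k l =
      ((Dp (GG K φ) (eta φ f) l z)ᴴ * GG K φ z * Dp (GG K φ) (eta φ f) k z).trace -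
        ((eta φ f z)ᴴ * rm (GG K φ) z k l * eta φ f z).trace -
        2 * (c : ℂ) * ((ex φ z : ℂ) * (et φ f k z * conj (et φ f l z))) +
        (c : ℂ) ^ 2 * (uu φ f z : ℝ) * K z l k := by
  have hz := h.self_of_nhds
  have hV := smM_eta h
  have hG := smG hz
  have hVH : SmM z (fun y => (eta φ f y)ᴴ) := SmM.conjTranspose hV
  have hdV : SmM z (dM (-I) l (eta φ f)) := SmM.dM hV _ _
  have hdVH : SmM z (fun y => (dM (-I) l (eta φ f) y)ᴴ) := SmM.conjTranspose hdV
  have hdG : SmM z (dM I l (GG K φ)) := SmM.dM hG _ _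
  have hE : SmM z (dM I k (eta φ f)) := SmM.dM hV _ _
  have hEH : SmM z (fun y => (dM I k (eta φ f) y)ᴴ) := SmM.conjTranspose hE
  have hA : SmM z (fun y => (dM (-I) l (eta φ f) y)ᴴ * GG K φ y) := SmM.mul hdVH hG
  have hB : SmM z (fun y => (eta φ f y)ᴴ * dM I l (GG K φ) y) := SmM.mul hVH hdG
  have hAB : SmM z (fun y => (dM (-I) l (eta φ f) y)ᴴ * GG K φ y +
      (eta φ f y)ᴴ * dM I l (GG K φ) y) := fun S T => (hA S T).add (hB S T)
  have hT : SmM z (fun y => ((dM (-I) l (eta φ f) y)ᴴ * GG K φ y +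
      (eta φ f y)ᴴ * dM I l (GG K φ) y) * eta φ f y) := SmM.mul hAB hV
  have hGi : GG K φ z * (GG K φ z)⁻¹ = 1 :=
    Matrix.mul_nonsing_inv _ (isUnit_iff_ne_zero.2 (posG hz).det_pos.ne')
  have hhG : ∀ᶠ y in 𝓝 z, (GG K φ y).IsHermitian := h.mono fun y hy => hermG hy
  -- the germ of the first derivative
  have e1 : dS I l (cu (ww K φ f)) =ᶠ[𝓝 z] fun y =>
      (((dM (-I) l (eta φ f) y)ᴴ * GG K φ y + (eta φ f y)ᴴ * dM I l (GG K φ) y) *
        eta φ f y).trace + -(c : ℂ) * ((cu (ex φ) y * f y) * conj (et φ f l y)) := by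
    filter_upwards [ev h] with y hy
    exact dbar_ww hy l
  have s2 : Sm z (fun y => (cu (ex φ) y * f y) * conj (et φ f l y)) :=
    sml (sml (sm_ex hz.φs) hz.fs) (Sm.conj (sm_et h l))
  have d2 : DifferentiableAt ℝ (fun y => -(c : ℂ) * ((cu (ex φ) y * f y) * conj (et φ f l y))) z :=
    s2.diff.const_mul _
  -- the extra term
  have e3 : (dM (-I) l (dM I k (eta φ f)) z)ᴴ * GG K φ z +
      (dM I k (eta φ f) z)ᴴ * dM I l (GG K φ) z =
      (-(c : ℂ) * ((ex φ z : ℂ) * conj (et φ f l z))) • rE k := by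
    have g1 : (fun y => (dM I k (eta φ f) y)ᴴ * GG K φ y) =ᶠ[𝓝 z] fun y =>
        (-(c : ℂ) * (cu (ex φ) y * conj (f y))) • rE k := by
      filter_upwards [ev h] with y hy
      exact EG hy k
    have g2 := dM_congr (s := I) (a := l) g1
    rw [dM_mul (fun S T => (hEH S T).diff) (fun S T => (hG S T).diff), dM_conjTranspose hE,
      conjI] at g2
    rw [g2]
    ext u b
    rw [dM_apply, Matrix.smul_apply, smul_eq_mul]
    have s3 : Sm z (fun y => cu (ex φ) y * conj (f y)) := sml (sm_ex hz.φs) (Sm.conj hz.fs)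
    have g3 : (fun y => ((-(c : ℂ) * (cu (ex φ) y * conj (f y))) • rE k : Matrix Unit (Fin n) ℂ) u b)
        = fun y => (-(c : ℂ) * rE k u b) * (cu (ex φ) y * conj (f y)) := by
      funext y
      rw [Matrix.smul_apply, smul_eq_mul]; ring
    rw [g3, dS_const_mul _ s3.diff, dbar_excf h]
    ring
  have e4 : dM I k (dM (-I) l (eta φ f)) z = dM (-I) l (dM I k (eta φ f)) z := by
    ext S T
    exact dS_comm (hV S T)
  have e5 : dM (-I) k (fun y => ((dM (-I) l (eta φ f) y)ᴴ * GG K φ y +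
      (eta φ f y)ᴴ * dM I l (GG K φ) y) * eta φ f y) z =
      ((Dp (GG K φ) (eta φ f) l z)ᴴ * GG K φ z * Dp (GG K φ) (eta φ f) k z -
        (eta φ f z)ᴴ * rm (GG K φ) z k l * eta φ f z) +
      (-(c : ℂ) * ((ex φ z : ℂ) * conj (et φ f l z))) • (rE k * eta φ f z) := by
    rw [dM_mul (fun S T => (hAB S T).diff) (fun S T => (hV S T).diff),
      dM_add hA hB, dM_mul (fun S T => (hdVH S T).diff) (fun S T => (hG S T).diff),
      dM_mul (fun S T => (hVH S T).diff) (fun S T => (hdG S T).diff), dM_conjTranspose hdV,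
      dM_conjTranspose hV, conjnI, e4]
    have g1 := alg1 (V := eta φ f z) (Vc := dM (-I) k (eta φ f) z) (Vd := dM (-I) l (eta φ f) z)
      (Gc := dM (-I) k (GG K φ) z) (Gd := dM (-I) l (GG K φ) z) (Gdb := dM I l (GG K φ) z)
      (Gcd := dM (-I) k (dM I l (GG K φ)) z) (hermG hz) hGi (dbar_herm hG hhG l)
    have g2 : (Dp (GG K φ) (eta φ f) l z)ᴴ * GG K φ z * Dp (GG K φ) (eta φ f) k z -
        (eta φ f z)ᴴ * rm (GG K φ) z k l * eta φ f z =
        (dM (-I) l (eta φ f) z)ᴴ * (dM (-I) k (GG K φ) z * eta φ f z + GG K φ z *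
          dM (-I) k (eta φ f) z) + (eta φ f z)ᴴ * (dM (-I) k (dM I l (GG K φ)) z * eta φ f z +
          dM I l (GG K φ) z * dM (-I) k (eta φ f) z) := g1.symm
    rw [g2, ← Matrix.smul_mul, ← e3]
    simp only [Matrix.mul_add, Matrix.add_mul, Matrix.mul_assoc]
    abel
  rw [hess_eq, dS_congr e1, dS_add (Sm.trace hT).diff d2, dS_trace hT, e5,
    dS_const_mul _ s2.diff, dS_mul (sml (sm_ex hz.φs) hz.fs).diff (Sm.conj (sm_et h l)).diff,
    del_exf h, del_conj_et h, Matrix.trace_add, Matrix.trace_sub, Matrix.trace_smul, rE_mul]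
  have e6 : ((uu φ f z : ℝ) : ℂ) = (ex φ z : ℂ) * (f z * conj (f z)) := by
    rw [Complex.mul_conj, Complex.normSq_eq_norm_sq]
    simp only [uu]
    push_cast
    ring
  rw [e6, smul_eq_mul]
  show _ - _ + _ * et φ f k z + _ = _
  simp only [cu]
  ring

theorem ene_eq : ene K (GG K φ) (eta φ f) z = (tk K z fun k l =>
    ((Dp (GG K φ) (eta φ f) l z)ᴴ * GG K φ z * Dp (GG K φ) (eta φ f) k z).trace).re := rfl

theorem lap_φ (h : Hyp K φ f c z) : lap K φ z = c * n := by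
  unfold lap
  rw [tk_congr h.cur, tk_smul _ (fun k l => K z l k), tk_K h.pos]
  rw [show ((c : ℂ) * (n : ℂ)) = ((c * n : ℝ) : ℂ) by push_cast; ring, Complex.ofReal_re]

/-- **`lap w = |∇∇s|² - c (n+2) w + c² n u`** -/
theorem lap_ww (h : ∀ᶠ y in 𝓝 z, Hyp K φ f c y) (hR : Matrix.of (ric K z) = 0) :
    lap K (ww K φ f) z = ene K (GG K φ) (eta φ f) z - c * (n + 2) * ww K φ f z +
      c ^ 2 * n * uu φ f z := by
  have hz := h.self_of_nhds
  have h1 : cvt K (GG K φ) (eta φ f) z = c * n * ww K φ f z := by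
    rw [cvt_twform (h.mono fun y hy => hy.sm) (h.mono fun y hy => hy.pos)
      (h.mono fun y hy => hy.kah) hR hz.φs, lap_φ hz]
    rfl
  have h2 : tk K z (fun k l => hess (ww K φ f) z k l) =
      tk K z (fun k l => ((Dp (GG K φ) (eta φ f) l z)ᴴ * GG K φ z *
        Dp (GG K φ) (eta φ f) k z).trace) -
      tk K z (fun k l => ((eta φ f z)ᴴ * rm (GG K φ) z k l * eta φ f z).trace) -
      2 * (c : ℂ) * ((ex φ z : ℂ) * tk K z (fun k l => et φ f k z * conj (et φ f l z))) +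
      (c : ℂ) ^ 2 * (uu φ f z : ℝ) * n := by
    rw [tk_congr (hess_ww h), tk_add, tk_sub, tk_sub, tk_smul, tk_smul,
      tk_smul _ (fun k l => K z l k), tk_K hz.pos]
  have h3 : (cvt K (GG K φ) (eta φ f) z) = (tk K z (fun k l =>
      ((eta φ f z)ᴴ * rm (GG K φ) z k l * eta φ f z).trace)).re := rfl
  have h4 : ww K φ f z = ex φ z * (tk K z (fun k l => et φ f k z * conj (et φ f l z))).re :=
    nsq_eta z
  unfold lap
  rw [h2, Complex.add_re, Complex.sub_re, Complex.sub_re, ← ene_eq, ← h3, h1]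
  have h5 : (2 * (c : ℂ) * ((ex φ z : ℂ) * tk K z (fun k l => et φ f k z *
      conj (et φ f l z)))).re = 2 * c * ww K φ f z := by
    rw [h4, show (2 * (c : ℂ) * ((ex φ z : ℂ) * tk K z (fun k l => et φ f k z *
      conj (et φ f l z)))) = ((2 * c * ex φ z : ℝ) : ℂ) * tk K z (fun k l => et φ f k z *
      conj (et φ f l z)) by push_cast; ring, Complex.re_ofReal_mul]
    ring
  have h6 : ((c : ℂ) ^ 2 * (uu φ f z : ℝ) * (n : ℂ)).re = c ^ 2 * n * uu φ f z := by
    rw [show ((c : ℂ) ^ 2 * (uu φ f z : ℝ) * (n : ℂ)) = ((c ^ 2 * n * uu φ f z : ℝ) : ℂ) by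
      push_cast; ring, Complex.ofReal_re]
  rw [h5, h6]
  ring

end

end Crest.Agent.R281.Jet2_484
end

-- ▼ part R281/Jet3_484
section

/-!
# R281 (S0424), leaf S-GLOB (helper484): the 1-jet Bochner inequality in a chart

* `gsq_uu : |∂u|² = u w`
* `gsq_bb_le : |∂b|² ≤ (3/2) lap log(u+w+e) + (3/2)(n+2)c + 4c²`, `b = u/(u+w+e)`
* `lap_ww_ge : lap w ≥ - c (n+2) w`
-/

set_option autoImplicit false
set_option linter.unusedSectionVars false

open Finset Matrix Complex Filter Topology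
open scoped ContDiff ComplexConjugate ComplexOrder

namespace Crest.Agent.R281.Jet3_484

open Crest.Agent.R275.Geo Crest.Agent.R275.EDR890
open Crest.Agent.R273.Fock_243 Crest.Agent.R273.Calc_243
open Crest.Agent.R273.Bkn_243 Crest.Agent.R273.Pos_243 Crest.Agent.R273.BochA_101
open Crest.Agent.R273.BochB_101 Crest.Agent.R273.BochC_101 Crest.Agent.R273.BochD_101
open Crest.Agent.R273.Hess_333 Crest.Agent.R273.HessB_333 Crest.Agent.R273.FIa0_597
open Crest.Agent.R281.Bo1_815 Crest.Agent.R281.Bo2_815 Crest.Agent.R281.Jet2_484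
open Crest.Agent.R281.Jet1_484 (N2 H2 X N2_nonneg H2_nonneg)

noncomputable section

variable {n : ℕ} {K : Cn n → Matrix (Fin n) (Fin n) ℂ} {z : Cn n} {φ : Cn n → ℝ} {f : Cn n → ℂ}
  {c : ℝ}

/-- components in an orthonormal frame -/
def Fr (C : Matrix (Fin n) (Fin n) ℂ) (v : Fin n → ℂ) (i : Fin n) : ℂ := ∑ a, conj (C i a) * v a

theorem Fr_smul (C : Matrix (Fin n) (Fin n) ℂ) (t : ℂ) (v : Fin n → ℂ) (i : Fin n) :
    Fr C (fun a => t * v a) i = t * Fr C v i := by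
  unfold Fr; rw [Finset.mul_sum]; exact Finset.sum_congr rfl fun a _ => by ring

theorem Fr_add (C : Matrix (Fin n) (Fin n) ℂ) (v w : Fin n → ℂ) (i : Fin n) :
    Fr C (fun a => v a + w a) i = Fr C v i + Fr C w i := by
  unfold Fr; rw [← Finset.sum_add_distrib]; exact Finset.sum_congr rfl fun a _ => by ring

theorem Fr_sub (C : Matrix (Fin n) (Fin n) ℂ) (v w : Fin n → ℂ) (i : Fin n) :
    Fr C (fun a => v a - w a) i = Fr C v i - Fr C w i := by
  unfold Fr; rw [← Finset.sum_sub_distrib]; exact Finset.sum_congr rfl fun a _ => by ring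

theorem tk_fr {C : Matrix (Fin n) (Fin n) ℂ} (hC : (K z)⁻¹ = Cᴴ * C) (a b : Fin n → ℂ) :
    tk K z (fun k l => a k * conj (b l)) = ∑ i, Fr C a i * conj (Fr C b i) := by
  unfold tk Fr
  rw [hC]
  have h1 : ∀ i, (∑ k, conj (C i k) * a k) * conj (∑ l, conj (C i l) * b l) =
      ∑ k, ∑ l, conj (C i k) * C i l * (a k * conj (b l)) := by
    intro i
    rw [map_sum, Finset.sum_mul]
    refine Finset.sum_congr rfl fun k _ => ?_
    rw [Finset.mul_sum]
    refine Finset.sum_congr rfl fun l _ => ?_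
    rw [map_mul, Complex.conj_conj]
    ring
  rw [Finset.sum_congr rfl fun i _ => h1 i]
  have h2 : (∑ i, ∑ k, ∑ l, conj (C i k) * C i l * (a k * conj (b l))) =
      ∑ k, ∑ l, ∑ i, conj (C i k) * C i l * (a k * conj (b l)) := by
    rw [Finset.sum_comm]
    exact Finset.sum_congr rfl fun k _ => Finset.sum_comm
  rw [h2]
  refine Finset.sum_congr rfl fun k _ => ?_
  refine Finset.sum_congr rfl fun l _ => ?_
  rw [Matrix.mul_apply, Finset.sum_mul]
  refine Finset.sum_congr rfl fun i _ => ?_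
  rw [Matrix.conjTranspose_apply]
  rfl

theorem sum_mul_conj (v : Fin n → ℂ) : (∑ i, v i * conj (v i)) = ((N2 v : ℝ) : ℂ) := by
  unfold N2
  push_cast
  refine Finset.sum_congr rfl fun i _ => ?_
  rw [Complex.mul_conj, Complex.normSq_eq_norm_sq]
  push_cast
  rfl

theorem gsq_fr {C : Matrix (Fin n) (Fin n) ℂ} (hC : (K z)⁻¹ = Cᴴ * C) {g : Cn n → ℝ}
    (hg : DifferentiableAt ℝ g z) :
    gsq K g z = N2 (Fr C fun k => dS (-I) k (cu g) z) := by
  unfold gsq
  have h1 : ∀ k l, dS (-I) k (cu g) z * dS I l (cu g) z =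
      dS (-I) k (cu g) z * conj (dS (-I) l (cu g) z) := fun k l => by rw [dS_bar hg]
  rw [tk_congr h1, tk_fr hC, sum_mul_conj, Complex.ofReal_re]

/-- `(D_l)ᴴ G D_k` in the frame -/
theorem gram_fr {C : Matrix (Fin n) (Fin n) ℂ} (hC : (K z)⁻¹ = Cᴴ * C)
    (a b : Matrix (Fin n) Unit ℂ) :
    (aᴴ * GG K φ z * b).trace =
      (ex φ z : ℂ) * ∑ j, Fr C (fun i => b i ()) j * conj (Fr C (fun i => a i ()) j) := by
  rw [← tk_fr hC]
  unfold tk
  rw [Matrix.mul_assoc, Matrix.trace, Finset.sum_eq_single (a := ()) (by simp) (by simp),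
    Matrix.diag_apply, Matrix.mul_apply, Finset.mul_sum]
  have h1 : ∀ i, (aᴴ) () i * (GG K φ z * b) i () =
      ∑ j, (ex φ z : ℂ) * ((K z)⁻¹ j i * (b j () * conj (a i ()))) := by
    intro i
    rw [Matrix.mul_apply, Finset.mul_sum]
    refine Finset.sum_congr rfl fun j _ => ?_
    have h3 : GG K φ z i j = (ex φ z : ℂ) * (K z)⁻¹ j i := rfl
    have h4 : (aᴴ) () i = conj (a i ()) := rfl
    rw [h3, h4]
    ring
  rw [Finset.sum_congr rfl fun i _ => h1 i, Finset.sum_comm]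
  refine Finset.sum_congr rfl fun k _ => ?_
  rw [Finset.mul_sum]

section main

variable {C : Matrix (Fin n) (Fin n) ℂ}

/-- `s` -/
def ss (φ : Cn n → ℝ) (f : Cn n → ℂ) (z : Cn n) : ℂ := (Real.exp (-φ z / 2) : ℂ) * f z

/-- `p` -/
def pp (C : Matrix (Fin n) (Fin n) ℂ) (φ : Cn n → ℝ) (f : Cn n → ℂ) (z : Cn n) (i : Fin n) : ℂ :=
  (Real.exp (-φ z / 2) : ℂ) * Fr C (fun a => et φ f a z) i

/-- `q` -/
def qq (C : Matrix (Fin n) (Fin n) ℂ) (K : Cn n → Matrix (Fin n) (Fin n) ℂ) (φ : Cn n → ℝ)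
    (f : Cn n → ℂ) (z : Cn n) (i j : Fin n) : ℂ :=
  (Real.exp (-φ z / 2) : ℂ) * Fr C (fun k => Fr C (fun a => Dp (GG K φ) (eta φ f) k z a ()) j) i

theorem r2 (φ : Cn n → ℝ) (z : Cn n) :
    (Real.exp (-φ z / 2) : ℂ) * (Real.exp (-φ z / 2) : ℂ) = (ex φ z : ℂ) := by
  unfold ex
  rw [← Complex.ofReal_mul, ← Real.exp_add]
  congr 2
  ring

theorem nr (φ : Cn n → ℝ) (z : Cn n) (v : ℂ) :
    ‖(Real.exp (-φ z / 2) : ℂ) * v‖ ^ 2 = ex φ z * ‖v‖ ^ 2 := by
  rw [norm_mul, mul_pow, Complex.norm_real, Real.norm_eq_abs, sq_abs]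
  congr 1
  unfold ex
  rw [sq, ← Real.exp_add]
  congr 1
  ring

theorem norm_ss : uu φ f z = ‖ss φ f z‖ ^ 2 := by
  unfold ss
  rw [nr]; rfl

theorem norm_pp (hC : (K z)⁻¹ = Cᴴ * C) : ww K φ f z = N2 (pp C φ f z) := by
  have h1 : ww K φ f z = ex φ z * (tk K z (fun k l => et φ f k z * conj (et φ f l z))).re :=
    nsq_eta z
  rw [h1, tk_fr hC, sum_mul_conj, Complex.ofReal_re]
  unfold N2 pp
  rw [Finset.mul_sum]
  exact Finset.sum_congr rfl fun i _ => (nr φ z _).symm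

theorem norm_qq (hC : (K z)⁻¹ = Cᴴ * C) :
    ene K (GG K φ) (eta φ f) z = H2 (qq C K φ f z) := by
  rw [ene_eq]
  have h1 : ∀ k l, ((Dp (GG K φ) (eta φ f) l z)ᴴ * GG K φ z * Dp (GG K φ) (eta φ f) k z).trace =
      (ex φ z : ℂ) * ∑ j, Fr C (fun i => Dp (GG K φ) (eta φ f) k z i ()) j *
        conj (Fr C (fun i => Dp (GG K φ) (eta φ f) l z i ()) j) := fun k l => gram_fr hC _ _
  rw [tk_congr h1, tk_smul, tk_sum]
  have h2 : ∀ j, tk K z (fun k l => Fr C (fun i => Dp (GG K φ) (eta φ f) k z i ()) j *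
        conj (Fr C (fun i => Dp (GG K φ) (eta φ f) l z i ()) j)) =
      ((N2 (Fr C fun k => Fr C (fun i => Dp (GG K φ) (eta φ f) k z i ()) j) : ℝ) : ℂ) := by
    intro j
    rw [tk_fr hC (fun k => Fr C (fun i => Dp (GG K φ) (eta φ f) k z i ()) j)
      (fun l => Fr C (fun i => Dp (GG K φ) (eta φ f) l z i ()) j), sum_mul_conj]
  rw [Finset.sum_congr rfl fun j _ => h2 j, ← Complex.ofReal_sum, ← Complex.ofReal_mul,
    Complex.ofReal_re, Finset.mul_sum]
  unfold H2 N2 qq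
  rw [Finset.sum_comm]
  refine Finset.sum_congr rfl fun j _ => ?_
  rw [Finset.mul_sum]
  exact Finset.sum_congr rfl fun i _ => (nr φ z _).symm

theorem du_fr (h : ∀ᶠ y in 𝓝 z, Hyp K φ f c y) (i : Fin n) :
    Fr C (fun k => dS (-I) k (cu (uu φ f)) z) i = conj (ss φ f z) * pp C φ f z i := by
  have h1 : (fun k => dS (-I) k (cu (uu φ f)) z) =
      fun k => ((ex φ z : ℂ) * conj (f z)) * et φ f k z := by
    funext k; exact dS_uu h k
  rw [h1, Fr_smul]
  unfold ss pp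
  rw [map_mul, Complex.conj_ofReal, ← r2]
  ring

theorem dw_fr (h : ∀ᶠ y in 𝓝 z, Hyp K φ f c y) (hC : (K z)⁻¹ = Cᴴ * C) (i : Fin n) :
    Fr C (fun k => dS (-I) k (cu (ww K φ f)) z) i =
      X (pp C φ f z) (qq C K φ f z) i - c * (conj (ss φ f z) * pp C φ f z i) := by
  have h1 : (fun k => dS (-I) k (cu (ww K φ f)) z) = fun k =>
      (ex φ z : ℂ) * (∑ j, Fr C (fun i => Dp (GG K φ) (eta φ f) k z i ()) j *
        conj (Fr C (fun a => et φ f a z) j)) - (c : ℂ) * dS (-I) k (cu (uu φ f)) z := by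
    funext k
    rw [del_ww h, dS_uu h, gram_fr hC]
    rfl
  rw [h1, Fr_sub, Fr_smul, Fr_smul, du_fr h]
  congr 1
  unfold X qq pp
  have h2 : Fr C (fun k => ∑ j, Fr C (fun i => Dp (GG K φ) (eta φ f) k z i ()) j *
      conj (Fr C (fun a => et φ f a z) j)) i =
      ∑ j, Fr C (fun k => Fr C (fun i => Dp (GG K φ) (eta φ f) k z i ()) j) i *
        conj (Fr C (fun a => et φ f a z) j) := by
    conv_lhs => unfold Fr
    simp only [Finset.mul_sum]
    rw [Finset.sum_comm]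
    refine Finset.sum_congr rfl fun j _ => ?_
    conv_rhs => rw [Fr, Finset.sum_mul]
    refine Finset.sum_congr rfl fun k _ => ?_
    rw [← mul_assoc]
    rfl
  rw [h2, Finset.mul_sum]
  refine Finset.sum_congr rfl fun j _ => ?_
  rw [map_mul, Complex.conj_ofReal, ← r2]
  ring

end main

theorem gsq_uu (h : ∀ᶠ y in 𝓝 z, Hyp K φ f c y) : gsq K (uu φ f) z = uu φ f z * ww K φ f z := by
  obtain ⟨C, hC⟩ := exists_sq h.self_of_nhds.pos.inv.posSemidef
  rw [gsq_fr hC ((sm_uu h).differentiableAt (by simp)), norm_ss, norm_pp hC]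
  have h1 : (Fr C fun k => dS (-I) k (cu (uu φ f)) z) =
      fun i => conj (ss φ f z) * pp C φ f z i := by
    funext i; exact du_fr h i
  rw [h1]
  unfold N2
  rw [Finset.mul_sum]
  exact Finset.sum_congr rfl fun i _ => by rw [norm_mul, Complex.norm_conj, mul_pow]

theorem lap_ww_ge (h : ∀ᶠ y in 𝓝 z, Hyp K φ f c y) (hR : Matrix.of (ric K z) = 0) :
    -(c * (n + 2) * ww K φ f z) ≤ lap K (ww K φ f) z := by
  rw [lap_ww h hR]
  have hz := h.self_of_nhds
  have h1 := ene_nonneg (K := K) (G := GG K φ) hz.pos (posG hz).posSemidef (eta φ f)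
  have h2 : 0 ≤ uu φ f z := by rw [norm_ss]; positivity
  have h3 : 0 ≤ c ^ 2 * n * uu φ f z := by positivity
  linarith

/-- `b = u/(u+w+e)` -/
def bb (K : Cn n → Matrix (Fin n) (Fin n) ℂ) (φ : Cn n → ℝ) (f : Cn n → ℂ) (e : ℝ) (y : Cn n) : ℝ :=
  uu φ f y / (uu φ f y + ww K φ f y + e)

theorem dS_div {u v : Cn n → ℝ} (hu' : ContDiffAt ℝ ∞ u z) (hv' : ContDiffAt ℝ ∞ v z)
    (h0 : v z ≠ 0) (k : Fin n) :
    dS (-I) k (cu fun y => u y / v y) z =
      ((v z : ℂ) * dS (-I) k (cu u) z - (u z : ℂ) * dS (-I) k (cu v) z) / (v z : ℂ) ^ 2 := by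
  have hv : DifferentiableAt ℝ v z := hv'.differentiableAt (by simp)
  have hd : DifferentiableAt ℝ (fun y => u y / v y) z :=
    (hu'.div hv' h0).differentiableAt (by simp)
  have cuD : ∀ {g : Cn n → ℝ}, DifferentiableAt ℝ g z → DifferentiableAt ℝ (cu g) z := fun hg =>
    Complex.ofRealCLM.differentiableAt.comp z hg
  have h1 : cu u =ᶠ[𝓝 z] fun y => cu (fun y => u y / v y) y * cu v y := by
    filter_upwards [hv.continuousAt.eventually_ne h0] with y hy
    simp only [cu]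
    push_cast
    field_simp
  have h2 : dS (-I) k (cu u) z = dS (-I) k (cu fun y => u y / v y) z * v z +
      ((u z / v z : ℝ) : ℂ) * dS (-I) k (cu v) z := by
    rw [dS_congr h1, dS_mul (cuD hd) (cuD hv)]
    rfl
  have h3 : (v z : ℂ) ≠ 0 := by exact_mod_cast h0
  rw [h2]
  push_cast
  field_simp
  ring

/-- **the 1-jet Bochner inequality** -/
theorem gsq_bb_le (h : ∀ᶠ y in 𝓝 z, Hyp K φ f c y) (hR : Matrix.of (ric K z) = 0) (hc : 0 ≤ c)
    {e : ℝ} (he : 0 < e) :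
    gsq K (bb K φ f e) z ≤
      3 / 2 * lap K (fun y => Real.log (uu φ f y + ww K φ f y + e)) z +
        (3 / 2 * (n + 2) * c + 4 * c ^ 2) := by
  have hz := h.self_of_nhds
  obtain ⟨C, hC⟩ := exists_sq hz.pos.inv.posSemidef
  have hu := sm_uu h
  have hw := sm_ww h
  have hF : ContDiffAt ℝ ∞ (fun y => uu φ f y + ww K φ f y) z := hu.add hw
  have hS : ContDiffAt ℝ ∞ (fun y => uu φ f y + ww K φ f y + e) z := hF.add contDiffAt_const
  have hu0 : 0 ≤ uu φ f z := by rw [norm_ss]; positivity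
  have hw0 : 0 ≤ ww K φ f z := by rw [norm_pp hC]; exact N2_nonneg _
  have hS0 : 0 < uu φ f z + ww K φ f z + e := by positivity
  set S := uu φ f z + ww K φ f z + e with hSd
  have cuD : ∀ {g : Cn n → ℝ}, DifferentiableAt ℝ g z → DifferentiableAt ℝ (cu g) z := fun hg =>
    Complex.ofRealCLM.differentiableAt.comp z hg
  have hdu : DifferentiableAt ℝ (uu φ f) z := hu.differentiableAt (by simp)
  have hdw : DifferentiableAt ℝ (ww K φ f) z := hw.differentiableAt (by simp)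
  have hdF : DifferentiableAt ℝ (fun y => uu φ f y + ww K φ f y) z := hdu.add hdw
  -- gradient of `F`
  have gF : ∀ k, dS (-I) k (cu fun y => uu φ f y + ww K φ f y) z =
      dS (-I) k (cu (uu φ f)) z + dS (-I) k (cu (ww K φ f)) z := by
    intro k
    have : cu (fun y => uu φ f y + ww K φ f y) = fun y => cu (uu φ f) y + cu (ww K φ f) y := by
      funext y; simp [cu]
    rw [this, dS_add (cuD hdu) (cuD hdw)]
  have gS : ∀ k, dS (-I) k (cu fun y => uu φ f y + ww K φ f y + e) z =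
      dS (-I) k (cu (uu φ f)) z + dS (-I) k (cu (ww K φ f)) z := by
    intro k
    rw [← gF]
    have : cu (fun y => uu φ f y + ww K φ f y + e) =
        fun y => cu (fun y => uu φ f y + ww K φ f y) y + (e : ℂ) := by
      funext y; simp [cu]
    rw [this, dS_add (cuD hdF) (differentiableAt_const _), dS_const, add_zero]
  have LF : lap K (fun y => uu φ f y + ww K φ f y) z =
      (ww K φ f z - c * n * uu φ f z) + (ene K (GG K φ) (eta φ f) z -
        c * (n + 2) * ww K φ f z + c ^ 2 * n * uu φ f z) := by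
    rw [lap_add hu hw, lap_uu h, lap_ww h hR]
    rfl
  have L1 := lap_log_add (K := K) e hF hS0
  rw [L1]
  have hfr : (Fr C fun k => dS (-I) k (cu fun y => uu φ f y + ww K φ f y) z) =
      fun i => conj (ss φ f z) * pp C φ f z i + (X (pp C φ f z) (qq C K φ f z) i -
        c * (conj (ss φ f z) * pp C φ f z i)) := by
    funext i
    have : (fun k => dS (-I) k (cu fun y => uu φ f y + ww K φ f y) z) = fun k =>
      dS (-I) k (cu (uu φ f)) z + dS (-I) k (cu (ww K φ f)) z := funext gF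
    rw [this, Fr_add, du_fr h, dw_fr h hC]
  have hgF := gsq_fr (K := K) hC (g := fun y => uu φ f y + ww K φ f y)
    (hF.differentiableAt (by simp))
  rw [hfr] at hgF
  have hgb := gsq_fr (K := K) hC (g := bb K φ f e)
    ((hu.div hS hS0.ne').differentiableAt (by simp))
  have hfb : (Fr C fun k => dS (-I) k (cu (bb K φ f e)) z) = fun i =>
      ((S : ℂ) ^ 2)⁻¹ * ((S : ℂ) * (conj (ss φ f z) * pp C φ f z i) -
      (uu φ f z : ℂ) * (conj (ss φ f z) * pp C φ f z i + (X (pp C φ f z) (qq C K φ f z) i -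
        c * (conj (ss φ f z) * pp C φ f z i)))) := by
    funext i
    have : (fun k => dS (-I) k (cu (bb K φ f e)) z) = fun k => ((S : ℂ) ^ 2)⁻¹ *
        ((S : ℂ) * dS (-I) k (cu (uu φ f)) z - (uu φ f z : ℂ) *
          (dS (-I) k (cu (uu φ f)) z + dS (-I) k (cu (ww K φ f)) z)) := by
      funext k
      have h1 := dS_div (z := z) (u := uu φ f) (v := fun y => uu φ f y + ww K φ f y + e) hu
        hS hS0.ne' k
      rw [gS] at h1
      rw [← div_eq_inv_mul]
      exact h1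
    rw [this, Fr_smul, Fr_sub, Fr_smul, Fr_smul, Fr_add, du_fr h, dw_fr h hC]
  rw [hfb] at hgb
  have hN : N2 (fun i => ((S : ℂ) ^ 2)⁻¹ * ((S : ℂ) * (conj (ss φ f z) * pp C φ f z i) -
      (uu φ f z : ℂ) * (conj (ss φ f z) * pp C φ f z i + (X (pp C φ f z) (qq C K φ f z) i -
        c * (conj (ss φ f z) * pp C φ f z i))))) = (S ^ 4)⁻¹ *
      N2 (fun i => (S : ℂ) * (conj (ss φ f z) * pp C φ f z i) -
      (uu φ f z : ℂ) * (conj (ss φ f z) * pp C φ f z i + (X (pp C φ f z) (qq C K φ f z) i -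
        c * (conj (ss φ f z) * pp C φ f z i)))) := by
    unfold N2
    rw [Finset.mul_sum]
    refine Finset.sum_congr rfl fun i _ => ?_
    rw [norm_mul, mul_pow, norm_inv, norm_pow, Complex.norm_real, Real.norm_eq_abs,
      abs_of_pos hS0]
    congr 1
    rw [inv_pow, ← pow_mul]
  rw [hN] at hgb
  have key := Jet1_484.jet_main (ss φ f z) (pp C φ f z) (qq C K φ f z) hc he (u := uu φ f z)
    (w := ww K φ f z) (H := ene K (GG K φ) (eta φ f) z) (S := S)
    (LF := lap K (fun y => uu φ f y + ww K φ f y) z) norm_ss (norm_pp hC) (norm_qq hC) hSd LF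
  rw [hgb, hgF]
  have hS4 : 0 < S ^ 4 := by positivity
  set NN := N2 (fun i => conj (ss φ f z) * pp C φ f z i + (X (pp C φ f z) (qq C K φ f z) i -
        c * (conj (ss φ f z) * pp C φ f z i))) with hNN
  set LL := lap K (fun y => uu φ f y + ww K φ f y) z
  calc _ ≤ (S ^ 4)⁻¹ * (3 / 2 * (S ^ 2 * (S * LL - NN)) +
        (3 / 2 * (n + 2) * c + 4 * c ^ 2) * S ^ 4) :=
        mul_le_mul_of_nonneg_left key (by positivity)
    _ = 3 / 2 * (LL / S - NN / S ^ 2) + (3 / 2 * (n + 2) * c + 4 * c ^ 2) := by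
      field_simp

end

end Crest.Agent.R281.Jet3_484
end

-- ▼ part R281/Glob3_484
section

/-!
# R281 (S0424), leaf S-GLOB, part 3 (helper484): `u = |s|²`, `w = |∇s|²` on a compact Ricci-flat
Kaehler manifold; the structure `SecD` of 405

* `Lap_lap : Lap K v x = lap (Kr K i) (v ∘ e_i⁻¹) (e_i x)`, `Dg_gsq` (the same for gradients)
* `wM K h s c = |∇s|²` as a function on `M` (`= Lap u + c n u`), `wM_read`
* `Lap_uM`, `Dg_uM`, `Lap_wM_ge`, `jetM` : the global formulas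
* `cur_volK_zero` : `det g = |Ω|²`, `Ω` holomorphic ⟹ `Ric = 0`
* `secD` : `SecD (calcX P K) C (n c) u w`
-/

set_option autoImplicit false
set_option linter.unusedSectionVars false

open Set Filter Topology Complex MeasureTheory
open scoped ContDiff Matrix ComplexConjugate ComplexOrder NNReal

namespace Crest.Agent.R281.Glob3_484

open Crest.Agent.R275 Crest.Agent.R275.Geo Crest.Agent.R275.Core144 Crest.Agent.R275.EDR890
open Crest.Agent.R273.Defs_333 Crest.Agent.R273.Hess_333 Crest.Agent.R273.HessB_333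
open Crest.Agent.R273.HM_333 Crest.Agent.R273.Kah_333 Crest.Agent.R273.Vol_333
open Crest.Agent.R273.Vm_333
open Crest.Agent.R273.Green_5 Crest.Agent.R273.FIa0_597 Crest.Agent.R273.FIb0_597
open Crest.Agent.R273.FIc0_597 Crest.Agent.R273
open Crest.Agent.R273.Calc_243 Crest.Agent.R273.BochB_101 Crest.Agent.R273.BochD_101
open Crest.Agent.R273.BKNa_37 Crest.Agent.R273.BochF_101
open Crest.Agent.R273.SchI_152 (Dg sm_sq Dg_nonneg continuous_Dg)
open Crest.Agent.R281.Glob1_484 Crest.Agent.R281.Glob2_484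
open Crest.Agent.R281.Jet2_484 Crest.Agent.R281.Jet3_484
open Crest.Agent.R281.Bo1_815 (lap gsq tk lap_congr)
open Crest.Agent.R281.St_405 Crest.Agent.R281.Ins_615
open Crest.Agent.R273.RMan_798 Crest.Agent.R273.RMan4_798

noncomputable section

variable {n : ℕ} {M : Type} [TopologicalSpace M] {A : Atl n M} {L L' : LB A}

/-! ### reading in a chart -/

/-- the Laplacian in a chart -/
theorem Lap_lap (K : Kah A) {v : M → ℝ} (hv : A.Sm v) {i : A.ι} {x : M}
    (hx : x ∈ (A.e i).source) :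
    Lap K v x = lap (Kr K i) (fun z => v ((A.e i).symm z)) (A.e i x) := by
  rw [Lap_read K hv hx, trC_sum K _ hx]
  rfl

theorem gsq_congr {K : Cn n → Matrix (Fin n) (Fin n) ℂ} {f g : Cn n → ℝ} {z : Cn n}
    (h : f =ᶠ[𝓝 z] g) : gsq K f z = gsq K g z := by
  have h1 : cu f =ᶠ[𝓝 z] cu g := h.mono fun y hy => by simp only [cu, hy]
  unfold gsq
  simp only [dS_congr h1]

theorem Dg_gsq (K : Kah A) {v : M → ℝ} (hv : A.Sm v) {i : A.ι} {x : M}
    (hx : x ∈ (A.e i).source) :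
    Dg K v x = gsq (Kr K i) (fun z => v ((A.e i).symm z)) (A.e i x) := by
  have hd : DifferentiableAt ℝ (fun z => v ((A.e i).symm z)) (A.e i x) :=
    (sm_at hv hx).differentiableAt (by simp)
  rw [Dg_eq K hv hx]
  unfold gq gsq tk Kr
  rw [(A.e i).left_inv hx, ← Matrix.transpose_nonsing_inv]
  congr 1
  simp only [Matrix.trace, Matrix.diag_apply, Matrix.mul_apply, Matrix.transpose_apply,
    Matrix.vecMulVec_apply]
  rw [Finset.sum_comm]
  refine Finset.sum_congr rfl fun c _ => Finset.sum_congr rfl fun d _ => ?_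
  rw [star_gr hd]
  rfl

/-- the hypotheses of the local computation -/
theorem hyp (K : Kah A) (h : HM L) {c : ℝ}
    (hc : ∀ i, ∀ x ∈ (A.e i).source, cur h i x = (c : ℂ) • K.g i x)
    {s : A.ι → M → ℂ} (hs : IsHS L univ s) (i : A.ι) {z : Cn n} (hz : z ∈ (A.e i).target) :
    Hyp (Kr K i) (h.wt i) (fun z => s i ((A.e i).symm z)) c z where
  sm := smM_Kr K i hz
  pos := Kr_posDef K i hz
  kah := kahAt K i hz
  φs := wt_contDiffAt h i hz
  cur a b := by
    have h1 := hc i _ ((A.e i).map_target hz)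
    rw [cur, (A.e i).right_inv hz] at h1
    rw [h1]
    rfl
  fs := (cd_at hs i).contDiffAt ((A.e i).open_target.mem_nhds hz)
  hol a := wd_hol (hol_at hs i hz).self_of_nhds a

theorem hypE (K : Kah A) (h : HM L) {c : ℝ}
    (hc : ∀ i, ∀ x ∈ (A.e i).source, cur h i x = (c : ℂ) • K.g i x)
    {s : A.ι → M → ℂ} (hs : IsHS L univ s) (i : A.ι) {z : Cn n} (hz : z ∈ (A.e i).target) :
    ∀ᶠ y in 𝓝 z, Hyp (Kr K i) (h.wt i) (fun z => s i ((A.e i).symm z)) c y := by
  filter_upwards [(A.e i).open_target.mem_nhds hz] with y hy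
  exact hyp K h hc hs i hy

/-- `u` in a chart -/
theorem uM_read (h : HM L) {s : A.ι → M → ℂ} (hs : IsHS L univ s) (i : A.ι) {z : Cn n}
    (hz : z ∈ (A.e i).target) :
    nsM h s ((A.e i).symm z) = uu (h.wt i) (fun z => s i ((A.e i).symm z)) z := by
  have hx := (A.e i).map_target hz
  rw [nsM_eq h hs hx, nsq, uu, ex, HM.wt, neg_neg, Real.exp_log (h.pos i _ hx), mul_comm]

/-- `w = |∇s|²` as a function on `M` -/
def wM (K : Kah A) (h : HM L) (s : A.ι → M → ℂ) (c : ℝ) (x : M) : ℝ :=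
  Lap K (nsM h s) x + c * n * nsM h s x

theorem sm_wM (K : Kah A) (h : HM L) {s : A.ι → M → ℂ} (hs : IsHS L univ s) (c : ℝ) :
    A.Sm (wM K h s c) :=
  sm_add (sm_Lap K (sm_nsM h hs)) (Glob2_484.sm_mul (sm_const (c * n)) (sm_nsM h hs))

section glob

variable {K : Kah A} {h : HM L} {c : ℝ}
  {s : A.ι → M → ℂ}

theorem wM_read (hc : ∀ i, ∀ x ∈ (A.e i).source, cur h i x = (c : ℂ) • K.g i x)
    (hs : IsHS L univ s) (i : A.ι) {z : Cn n} (hz : z ∈ (A.e i).target) :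
    wM K h s c ((A.e i).symm z) =
      ww (Kr K i) (h.wt i) (fun z => s i ((A.e i).symm z)) z := by
  have hx := (A.e i).map_target hz
  have h1 : (fun z => nsM h s ((A.e i).symm z)) =ᶠ[𝓝 z]
      uu (h.wt i) (fun z => s i ((A.e i).symm z)) := by
    filter_upwards [(A.e i).open_target.mem_nhds hz] with y hy
    exact uM_read h hs i hy
  have h2 : Lap K (nsM h s) ((A.e i).symm z) =
      lap (Kr K i) (uu (h.wt i) (fun z => s i ((A.e i).symm z))) z := by
    rw [Lap_lap K (sm_nsM h hs) hx, (A.e i).right_inv hz, lap_congr h1]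
  have h3 := lap_uu (hypE K h hc hs i hz)
  rw [wM, h2, h3, uM_read h hs i hz]
  change ww _ _ _ _ - _ + _ = _
  ring

theorem wM_nonneg (hc : ∀ i, ∀ x ∈ (A.e i).source, cur h i x = (c : ℂ) • K.g i x)
    (hs : IsHS L univ s) (x : M) : 0 ≤ wM K h s c x := by
  have hx := mem_ch A x
  have hz := (A.e (ch A x)).map_source hx
  have h1 := wM_read (K := K) hc hs (ch A x) hz
  rw [(A.e (ch A x)).left_inv hx] at h1
  rw [h1]
  exact Crest.Agent.R281.Bo1_815.nsq_nonneg
    (posG (hyp K h hc hs (ch A x) hz)).posSemidef _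

theorem germ_u (hs : IsHS L univ s) (i : A.ι) {z : Cn n} (hz : z ∈ (A.e i).target) :
    (fun z => nsM h s ((A.e i).symm z)) =ᶠ[𝓝 z]
      uu (h.wt i) (fun z => s i ((A.e i).symm z)) := by
  filter_upwards [(A.e i).open_target.mem_nhds hz] with y hy
  exact uM_read h hs i hy

theorem germ_w (hc : ∀ i, ∀ x ∈ (A.e i).source, cur h i x = (c : ℂ) • K.g i x)
    (hs : IsHS L univ s) (i : A.ι) {z : Cn n} (hz : z ∈ (A.e i).target) :
    (fun z => wM K h s c ((A.e i).symm z)) =ᶠ[𝓝 z]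
      ww (Kr K i) (h.wt i) (fun z => s i ((A.e i).symm z)) := by
  filter_upwards [(A.e i).open_target.mem_nhds hz] with y hy
  exact wM_read hc hs i hy

/-- `Lap u = w - c n u` -/
theorem Lap_uM (x : M) : Lap K (nsM h s) x = wM K h s c x - c * n * nsM h s x := by
  unfold wM; ring

/-- `|∂u|² = u w` -/
theorem Dg_uM (hc : ∀ i, ∀ x ∈ (A.e i).source, cur h i x = (c : ℂ) • K.g i x)
    (hs : IsHS L univ s) (x : M) : Dg K (nsM h s) x = nsM h s x * wM K h s c x := by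
  have hx := mem_ch A x
  have hz := (A.e (ch A x)).map_source hx
  rw [Dg_gsq K (sm_nsM h hs) hx, gsq_congr (germ_u hs _ hz), gsq_uu (hypE K h hc hs _ hz),
    ← uM_read h hs _ hz, ← wM_read hc hs _ hz, (A.e (ch A x)).left_inv hx]

/-- `Lap w ≥ - c (n+2) w` -/
theorem Lap_wM_ge (hc : ∀ i, ∀ x ∈ (A.e i).source, cur h i x = (c : ℂ) • K.g i x)
    (hR : ∀ i, ∀ x ∈ (A.e i).source, cur (volK K) i x = 0)
    (hs : IsHS L univ s) (x : M) :
    -(c * (n + 2) * wM K h s c x) ≤ Lap K (wM K h s c) x := by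
  have hx := mem_ch A x
  have hz := (A.e (ch A x)).map_source hx
  rw [Lap_lap K (sm_wM K h hs c) hx, lap_congr (germ_w hc hs _ hz)]
  have h1 := lap_ww_ge (hypE K h hc hs _ hz) (by rw [ric_eq K _ hx]; exact hR _ x hx)
  rw [← wM_read hc hs _ hz, (A.e (ch A x)).left_inv hx] at h1
  exact h1

/-- `S = u + w + e` -/
def SM (K : Kah A) (h : HM L) (s : A.ι → M → ℂ) (c e : ℝ) (x : M) : ℝ :=
  nsM h s x + wM K h s c x + e

theorem SM_pos (hc : ∀ i, ∀ x ∈ (A.e i).source, cur h i x = (c : ℂ) • K.g i x)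
    (hs : IsHS L univ s) {e : ℝ} (he : 0 < e) (x : M) : 0 < SM K h s c e x := by
  have h1 := nsM_nonneg h s x
  have h2 := wM_nonneg (K := K) hc hs x
  unfold SM; linarith

theorem sm_SM (hs : IsHS L univ s) (e : ℝ) : A.Sm (SM K h s c e) :=
  sm_add (sm_add (sm_nsM h hs) (sm_wM K h hs c)) (sm_const e)

theorem sm_logS (hc : ∀ i, ∀ x ∈ (A.e i).source, cur h i x = (c : ℂ) • K.g i x)
    (hs : IsHS L univ s) {e : ℝ} (he : 0 < e) : A.Sm (fun x => Real.log (SM K h s c e x)) :=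
  fun i => (sm_SM hs e i).log fun z _ => (SM_pos hc hs he _).ne'

theorem sm_b (hc : ∀ i, ∀ x ∈ (A.e i).source, cur h i x = (c : ℂ) • K.g i x)
    (hs : IsHS L univ s) {e : ℝ} (he : 0 < e) :
    A.Sm (fun x => nsM h s x / (nsM h s x + wM K h s c x + e)) :=
  fun i => (sm_nsM h hs i).div (sm_SM (K := K) (h := h) (c := c) hs e i)
    fun z _ => (SM_pos hc hs he _).ne'

/-- **the 1-jet Bochner inequality on `M`** -/
theorem jetM (hc : ∀ i, ∀ x ∈ (A.e i).source, cur h i x = (c : ℂ) • K.g i x)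
    (hR : ∀ i, ∀ x ∈ (A.e i).source, cur (volK K) i x = 0)
    (hs : IsHS L univ s) (hc0 : 0 ≤ c) {e : ℝ} (he : 0 < e) (x : M) :
    Dg K (fun x => nsM h s x / (nsM h s x + wM K h s c x + e)) x ≤
      3 / 2 * Lap K (fun x => Real.log (SM K h s c e x)) x +
        (3 / 2 * (n + 2) * c + 4 * c ^ 2) := by
  have hx := mem_ch A x
  have hz := (A.e (ch A x)).map_source hx
  have g1 : (fun z => nsM h s ((A.e (ch A x)).symm z) / (nsM h s ((A.e (ch A x)).symm z) +
      wM K h s c ((A.e (ch A x)).symm z) + e)) =ᶠ[𝓝 (A.e (ch A x) x)]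
      bb (Kr K (ch A x)) (h.wt (ch A x)) (fun z => s (ch A x) ((A.e (ch A x)).symm z)) e := by
    filter_upwards [germ_u (h := h) hs _ hz, germ_w hc hs _ hz] with y h1 h2
    rw [h1, h2]; rfl
  have g2 : (fun z => Real.log (SM K h s c e ((A.e (ch A x)).symm z))) =ᶠ[𝓝 (A.e (ch A x) x)]
      fun y => Real.log (uu (h.wt (ch A x)) (fun z => s (ch A x) ((A.e (ch A x)).symm z)) y +
        ww (Kr K (ch A x)) (h.wt (ch A x)) (fun z => s (ch A x) ((A.e (ch A x)).symm z)) y + e) := by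
    filter_upwards [germ_u (h := h) hs _ hz, germ_w hc hs _ hz] with y h1 h2
    rw [SM, h1, h2]
  rw [Dg_gsq K (sm_b hc hs he) hx, Lap_lap K (sm_logS hc hs he) hx, gsq_congr g1, lap_congr g2]
  exact gsq_bb_le (hypE K h hc hs _ hz) (by rw [ric_eq K _ hx]; exact hR _ x hx) hc0 he

/-- `det g = |Ω|²` implies `Ric = 0` -/
theorem cur_volK_zero (K : Kah A) {om : A.ι → M → ℂ} (ho : IsHS (KB A) univ om)
    (hn : ∀ i, ∀ x ∈ (A.e i).source, ‖om i x‖ ^ 2 = (K.g i x).det.re) :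
    ∀ i, ∀ x ∈ (A.e i).source, cur (volK K) i x = 0 := by
  intro i x hx
  have hz := (A.e i).map_source hx
  have hdet : ∀ y ∈ (A.e i).source, 0 < (K.g i y).det.re := fun y hy => (volK K).pos i y hy
  have h0 : om i ((A.e i).symm (A.e i x)) ≠ 0 := by
    rw [(A.e i).left_inv hx]
    intro h0
    have := hn i x hx
    rw [h0] at this
    have h2 := hdet x hx
    rw [← this] at h2
    simp at h2
  have h1 : (volK K).wt i =ᶠ[𝓝 (A.e i x)] fun z =>
      -Real.log (‖om i ((A.e i).symm z)‖ ^ 2) := by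
    filter_upwards [(A.e i).open_target.mem_nhds hz] with y hy
    rw [hn i _ ((A.e i).map_target hy)]
    rfl
  have hh := hol_at ho i hz
  have hs2 : ContDiffAt ℝ ∞ (fun z => Real.log (‖om i ((A.e i).symm z)‖ ^ 2)) (A.e i x) :=
    (((cd_at ho i).norm_sq ℝ).contDiffAt ((A.e i).open_target.mem_nhds hz)).log
      (pow_ne_zero 2 (norm_ne_zero_iff.2 h0))
  unfold cur
  rw [hess_congr h1, hess_neg hs2, hess_log_norm hh h0, neg_zero]

/-! ### the structure `SecD` -/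

variable [T2Space M] [ConnectedSpace M] [CompactSpace M] [Fintype A.ι]

theorem integrable_muX (K : Kah A) {f : (ofKah K).M → ℝ} (hf : Continuous f) :
    Integrable f (muX K) := by
  have := prob_muX K
  obtain ⟨C, hC⟩ := (isCompact_univ (X := M)).exists_bound_of_continuousOn (f := f)
    (Continuous.continuousOn hf)
  exact Integrable.of_bound hf.measurable.aestronglyMeasurable C
    (Eventually.of_forall fun x => hC x (mem_univ x))

/-- **the section data of 405 from a holomorphic section** -/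
theorem secD (P : Part A) (hc : ∀ i, ∀ x ∈ (A.e i).source, cur h i x = (c : ℂ) • K.g i x)
    (hR : ∀ i, ∀ x ∈ (A.e i).source, cur (volK K) i x = 0)
    (hs : IsHS L univ s) (hc0 : 0 ≤ c) (hc1 : c ≤ 1) (hn : 1 ≤ n) {C : ℝ≥0} (hC : 9 ≤ C) :
    SecD (calcX P K) C (c * n) (nsM h s : (ofKah K).M → ℝ) (wM K h s c) where
  u_mem := sm_nsM h hs
  w_mem := sm_wM K h hs c
  u_nonneg := nsM_nonneg h s
  w_nonneg := wM_nonneg hc hs
  Lap_u x := Lap_uM x
  Gam_u x := Dg_uM hc hs x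
  Lap_w x := by
    have h1 := Lap_wM_ge hc hR hs x
    have h2 := wM_nonneg (K := K) hc hs x
    have hC' : (9 : ℝ) ≤ (C : ℝ) := by exact_mod_cast hC
    have hn' : (1 : ℝ) ≤ n := by exact_mod_cast hn
    refine le_trans ?_ h1
    have h3 : c * (n + 2) ≤ C * (c * n) := by
      have : (n : ℝ) + 2 ≤ C * n := by nlinarith
      calc c * (n + 2) ≤ c * (C * n) := mul_le_mul_of_nonneg_left this hc0
        _ = _ := by ring
    exact neg_le_neg (mul_le_mul_of_nonneg_right h3 h2)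
  jet e₁ he₁ := by
    refine ⟨e₁, he₁, le_rfl, sm_b hc hs he₁, ?_⟩
    have := prob_muX K
    have hS := sm_logS (K := K) hc hs he₁
    have hb := sm_b (K := K) hc hs he₁
    have hI := (calcX P K).int_Lap (fun x => Real.log (SM K h s c e₁ x)) hS
    have i1 : Integrable (fun x : (ofKah K).M =>
        Dg K (fun x => nsM h s x / (nsM h s x + wM K h s c x + e₁)) x) (muX K) :=
      integrable_muX K (continuous_Dg K hb)
    have i2 : Integrable (fun x : (ofKah K).M => Lap K (fun x => Real.log (SM K h s c e₁ x)) x)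
        (muX K) := integrable_muX K (cont_sm (sm_Lap K hS))
    have h1 : ∫ x : (ofKah K).M, Dg K (fun x => nsM h s x / (nsM h s x + wM K h s c x + e₁)) x
        ∂(muX K) ≤ ∫ x : (ofKah K).M, (3 / 2 * Lap K (fun x => Real.log (SM K h s c e₁ x)) x +
          (3 / 2 * (n + 2) * c + 4 * c ^ 2)) ∂(muX K) :=
      integral_mono i1 ((i2.const_mul _).add (integrable_const _))
        fun x => jetM hc hR hs hc0 he₁ x
    rw [integral_add (i2.const_mul _) (integrable_const _), integral_const_mul, integral_const]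
      at h1
    have hI' : ∫ x : (ofKah K).M, Lap K (fun x => Real.log (SM K h s c e₁ x)) x ∂(muX K) = 0 := hI
    rw [hI'] at h1
    have hC' : (9 : ℝ) ≤ (C : ℝ) := by exact_mod_cast hC
    have hn' : (1 : ℝ) ≤ n := by exact_mod_cast hn
    refine le_trans h1 ?_
    rw [probReal_univ, one_smul]
    have h2 : c ^ 2 ≤ c := by nlinarith
    have h3 : 3 / 2 * (n + 2) * c + 4 * c ^ 2 ≤ 9 * (c * n) := by nlinarith
    have h4 : 9 * (c * n) ≤ C * (c * n) := mul_le_mul_of_nonneg_right hC' (by positivity)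
    linarith

end glob

end

end Crest.Agent.R281.Glob3_484
end

-- ▼ part R281/HfA2_593
section

/-!
# Row 281 (S0424), S-HALFA (helper593), part 2: the estimates at a good point

* `qf_lower`, `qf_upper` : bounds of the Gram matrix `gM K (VS s) x` give the bounds of `eta`;
* `core`  : at a good point (405's `GoodAt` for all `N + 1` sections, `c ≤ Jsq`) no `s_j` vanishes
  on `closedBall y R'` and the Gram matrix is pinched on `closedBall y (θ R')`.
-/

set_option autoImplicit false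
set_option linter.unusedSectionVars false

open Set Filter Topology Complex MeasureTheory
open scoped ContDiff Matrix ComplexConjugate ComplexOrder ENNReal NNReal

namespace Crest.Agent.R281.HfA_593

open Crest.Agent.R275.Geo Crest.Agent.R275.Core144 Crest.Agent.R275.EDR890
open Crest.Agent.R273.Defs_333 Crest.Agent.R273.Hess_333 Crest.Agent.R273.HessB_333
open Crest.Agent.R273.HM_333 Crest.Agent.R273.Kah_333 Crest.Agent.R273.Vol_333
open Crest.Agent.R273.Vm_333 Crest.Agent.R273.FIb0_597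
open Crest.Agent.R273.Ric_798 Crest.Agent.R273.RMan_798 Crest.Agent.R273.RMan4_798
open Crest.Agent.R273.SchI_152 (Dg Dg_nonneg continuous_Dg)
open Crest.Agent.R281.Tor_922 Crest.Agent.R281.SIn_14
open Crest.Agent.R281.SAsm_790 Crest.Agent.R281.Fra_922 Crest.Agent.R281.SGP_790
open Crest.Agent.R281.TI_671 (gM gm gM_eq gM_posSemidef VS hf_VS VS_eq_eta NZ_iff_pos exists_fields)
open Crest.Agent.R281.St_405 Crest.Agent.R281.Mx_405 Crest.Agent.R281.Ins_615
open Crest.Agent.R281.Spi_405 Crest.Agent.R281.T6_16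
open Crest.Agent.R281.Glob1_484 (nsM sm_nsM nsM_nonneg)

noncomputable section

variable {N : ℕ} {M : Type} [TopologicalSpace M] {A : Atl N M}

/-! ### from the Gram matrix to `eta` -/

theorem qf_star (K : Kah A) (i : A.ι) (x : M) (v : Cn N) :
    qf K i x v = (star (star v.ofLp) ⬝ᵥ (K.g i x *ᵥ star v.ofLp)).re := by
  unfold qf
  rw [star_star, Matrix.dotProduct_mulVec, Matrix.vecMul_transpose, dotProduct_comm]

theorem eta_star (V : Matrix (Fin N) (Fin N) ℂ) (v : Fin N → ℂ) :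
    ∑ j, ‖((Vᵀ)ᴴ *ᵥ star v) j‖ ^ 2 = ∑ j, ‖(V *ᵥ v) j‖ ^ 2 := by
  refine Finset.sum_congr rfl fun j _ => ?_
  have h1 : (Vᵀ)ᴴ *ᵥ star v = star (V *ᵥ v) := by
    rw [Matrix.star_mulVec, ← Matrix.mulVec_transpose]
    congr 1
  rw [h1, Pi.star_apply, norm_star]

section bounds

variable {Lb : LB A} {s : Fin (N + 1) → A.ι → M → ℂ}

theorem qf_lower (K : Kah A) (h : HM Lb) (hs : ∀ j, IsHS Lb univ (s j)) {i : A.ι} {x : M}
    (hx : x ∈ (A.e i).source) (hO : NZ s x) {lo : ℝ} (hlo : 0 < lo)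
    (hG : (gM K (VS s) x - ((lo : ℝ) : ℂ) • (1 : Matrix (Fin N) (Fin N) ℂ)).PosSemidef)
    (v : Cn N) : lo * qf K i x v ≤ ∑ j, ‖(eta s i x *ᵥ v.ofLp) j‖ ^ 2 := by
  rw [gM_eq K (hf_VS h hs) hx hO, gm, VS_eq_eta h hs hx hO] at hG
  have := form_lower (K.pos i x hx) hlo hG (star v.ofLp)
  rwa [← qf_star, eta_star] at this

theorem qf_upper (K : Kah A) (h : HM Lb) (hs : ∀ j, IsHS Lb univ (s j)) {i : A.ι} {x : M}
    (hx : x ∈ (A.e i).source) (hO : NZ s x) {hi : ℝ} (hhi : 0 < hi)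
    (hG : (((hi : ℝ) : ℂ) • (1 : Matrix (Fin N) (Fin N) ℂ) - gM K (VS s) x).PosSemidef)
    (v : Cn N) : ∑ j, ‖(eta s i x *ᵥ v.ofLp) j‖ ^ 2 ≤ hi * qf K i x v := by
  rw [gM_eq K (hf_VS h hs) hx hO, gm, VS_eq_eta h hs hx hO] at hG
  have := form_upper (K.pos i x hx) hhi hG (star v.ofLp)
  rwa [← qf_star, eta_star] at this

end bounds

/-! ### the core -/

section core

variable [T2Space M] [CompactSpace M] [ConnectedSpace M] [Fintype A.ι]
  {Lb : LB A} {s : Fin (N + 1) → A.ι → M → ℂ} {om : A.ι → M → ℂ}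

/-- the bound for the mean of the trace -/
def KT (N : ℕ) (K0 : ℝ) : ℝ := 16 * N * K0 ^ 2

theorem KT_pos (hN : 1 ≤ N) {K0 : ℝ} (h : 0 < K0) : 0 < KT N K0 := by
  have : (1 : ℝ) ≤ N := by exact_mod_cast hN
  unfold KT; positivity

/-- mean of `T` from the energies -/
theorem mean_T_le (P : Part A) (K : Kah A) (h : HM Lb) (hs : ∀ j, IsHS Lb univ (s j))
    {Cc : ℝ≥0} {kap : ℝ} {w : Fin (N + 1) → (ofKah K).M → ℝ} {t : Fin (N + 1) → ℝ}
    (ht : ∀ j, 0 < t j)
    (hsec : ∀ j, SecD (calcX P K) Cc kap (fun x => t j * nsM h (s j) x) (w j))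
    {Mb K0 R' : ℝ} (hMb : 0 < Mb) {y : (ofKah K).M}
    (hone : ∀ j, ∀ x ∈ Metric.closedBall y R', 1 ≤ Mb * (t j * nsM h (s j) x))
    (hen : ∀ j, ⨍ x in Metric.closedBall y R',
      (calcX P K).Gam (lg Mb (fun x => t j * nsM h (s j) x)) x ∂(muX K) ≤ K0 ^ 2)
    {T : (ofKah K).M → ℝ} (hT : Continuous T)
    (hTle : ∀ x ∈ Metric.closedBall y R', T x ≤ ∑ r : Fin N,
      (2 * (Dg K (M := M) (nsM h (s r.succ)) x / nsM h (s r.succ) x ^ 2) +
        2 * (Dg K (M := M) (nsM h (s 0)) x / nsM h (s 0) x ^ 2))) :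
    ⨍ x in Metric.closedBall y R', T x ∂(muX K) ≤ KT N K0 := by
  have hprob := prob_muX K
  set B : Set (ofKah K).M := Metric.closedBall y R' with hB
  set G : Fin (N + 1) → (ofKah K).M → ℝ := fun j x =>
    (calcX P K).Gam (lg Mb (fun x => t j * nsM h (s j) x)) x with hG
  have hGc : ∀ j, Continuous (G j) := fun j =>
    (calcX P K).contGam _ ((hsec j).lg_mem hMb.le)
  have hGi : ∀ j, IntegrableOn (G j) B (muX K) := fun j =>
    (integrable_of_continuous (hGc j)).integrableOn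
  have hr : ∀ j, ∀ x ∈ B, Dg K (M := M) (nsM h (s j)) x / nsM h (s j) x ^ 2 ≤ 4 * G j x := by
    intro j x hx
    have h1 := ratio_le (hsec j) hMb (hone j x hx)
    have h2 := ratio_smul (cal := calcX P K) (f := (nsM h (s j) : (ofKah K).M → ℝ))
      (sm_nsM h (hs j)) (ht j) x
    exact le_trans (le_of_eq h2.symm) h1
  have h1 : ∫ x in B, T x ∂(muX K) ≤ ∫ x in B, ∑ r : Fin N, (8 * G r.succ x + 8 * G 0 x) ∂(muX K) := by
    refine setIntegral_mono_on (integrable_of_continuous hT).integrableOn ?_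
      Metric.isClosed_closedBall.measurableSet fun x hx => ?_
    · refine integrable_finsetSum _ fun r _ => ?_
      exact ((hGi r.succ).const_mul 8).add ((hGi 0).const_mul 8)
    · refine (hTle x hx).trans (Finset.sum_le_sum fun r _ => ?_)
      have a1 := hr r.succ x hx
      have a2 := hr 0 x hx
      linarith
  rw [integral_finsetSum _ fun r _ => ((hGi r.succ).const_mul 8).add ((hGi 0).const_mul 8)] at h1
  have h2 : ∀ r : Fin N, ∫ x in B, (8 * G r.succ x + 8 * G 0 x) ∂(muX K) =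
      8 * ∫ x in B, G r.succ x ∂(muX K) + 8 * ∫ x in B, G 0 x ∂(muX K) := by
    intro r
    rw [integral_add ((hGi r.succ).const_mul 8) ((hGi 0).const_mul 8), integral_const_mul,
      integral_const_mul]
  simp only [h2] at h1
  have h3 : ∀ j, ((muX K).real B)⁻¹ * ∫ x in B, G j x ∂(muX K) ≤ K0 ^ 2 := by
    intro j
    have := hen j
    rwa [setAverage_eq, smul_eq_mul] at this
  rw [setAverage_eq, smul_eq_mul]
  have hm : 0 ≤ ((muX K).real B)⁻¹ := inv_nonneg.2 measureReal_nonneg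
  refine (mul_le_mul_of_nonneg_left h1 hm).trans ?_
  rw [Finset.mul_sum]
  calc ∑ r : Fin N, ((muX K).real B)⁻¹ * (8 * ∫ x in B, G r.succ x ∂(muX K) +
        8 * ∫ x in B, G 0 x ∂(muX K)) ≤ ∑ _r : Fin N, 16 * K0 ^ 2 := by
        refine Finset.sum_le_sum fun r _ => ?_
        have a1 := h3 r.succ
        have a2 := h3 0
        nlinarith
    _ = KT N K0 := by
        rw [Finset.sum_const, Finset.card_univ, Fintype.card_fin, nsmul_eq_mul]
        unfold KT
        ring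

/-- **the estimates at a good point** -/
theorem core (P : Part A) (K : Kah A) (hS : Sp (calcX P K) (Csp N)) (h : HM Lb)
    (hs : ∀ j, IsHS Lb univ (s j)) (homh : IsHS (KB A) univ om)
    (homn : ∀ i, ∀ x ∈ (A.e i).source, ‖om i x‖ ^ 2 = (K.g i x).det.re)
    {kap : ℝ} {w : Fin (N + 1) → (ofKah K).M → ℝ} {t : Fin (N + 1) → ℝ}
    (ht : ∀ j, 0 < t j)
    (hsec : ∀ j, SecD (calcX P K) (Csp N) kap (fun x => t j * nsM h (s j) x) (w j))
    {Mb K0 R' rho Aa : ℝ} (hMb : 0 < Mb) (hR' : 0 < R') {y : (ofKah K).M}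
    (hgood : ∀ j, GoodAt (calcX P K) (Csp N) Mb K0 R' rho Aa
      (fun x => t j * nsM h (s j) x) (w j) y)
    {c : ℝ} (hc : 0 < c) (hJ : c ≤ Jsq K s y) :
    (∀ x ∈ Metric.closedBall y R', NZ (A := A) (M := M) s x) ∧
    ∀ x ∈ Metric.closedBall y (th (Csp N) (KT N K0) N (Real.sqrt c) * R'),
      (gM K (VS s) x - ((c / 4 / (Csp N * KT N K0) ^ (N - 1) : ℝ) : ℂ) •
        (1 : Matrix (Fin N) (Fin N) ℂ)).PosSemidef ∧
      (((Csp N * KT N K0 : ℝ) : ℂ) • (1 : Matrix (Fin N) (Fin N) ℂ) - gM K (VS s) x).PosSemidef := by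
  have hnz : ∀ x ∈ Metric.closedBall y R', NZ (A := A) (M := M) s x := by
    intro x hx
    refine (NZ_iff_pos (A := A) (M := M) h).2 fun j => ?_
    by_contra hcon
    have h1 := (hgood j).one_le x hx
    have h2 : t j * nsM h (s j) x ≤ 0 := mul_nonpos_of_nonneg_of_nonpos (ht j).le (not_lt.1 hcon)
    have h3 : Mb * (t j * nsM h (s j) x) ≤ 0 := mul_nonpos_of_nonneg_of_nonpos hMb.le h2
    linarith
  refine ⟨hnz, ?_⟩
  have hcomp : IsCompact (Metric.closedBall y R' : Set (ofKah K).M) :=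
    Metric.isClosed_closedBall.isCompact
  obtain ⟨T, Pp, q, a, b, hF, hqJ, hTle⟩ := exists_fields (A := A) (M := M) h hs homh homn
    (B := (show Set M from (Metric.closedBall y R' : Set (ofKah K).M))) hcomp hnz
  have hy : y ∈ Metric.closedBall y R' := Metric.mem_closedBall_self hR'.le
  have hT6 : T6D (calcX P K) N y R' (KT N K0) T Pp q a b :=
    { T_mem := hF.T_sm
      P_mem := hF.P_sm
      q_mem := hF.q_sm
      a_mem := hF.a_sm
      b_mem := hF.b_sm
      T_nonneg := hF.T_nonneg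
      P_nonneg := hF.P_nonneg
      q_nonneg := hF.q_nonneg
      Lap_T := fun x hx => hF.Lap_T x hx
      Lap_P := fun x hx => hF.Lap_P x hx
      Lap_q := fun x hx => (hF.Lap_q x hx).le
      q_eq := fun x hx => hF.q_eq x hx
      q_le := fun x hx => hF.q_le x hx
      Gam_a := fun x hx => by
        have h1 := hF.Dg_a x hx
        have h2 := hF.P_nonneg x
        show Dg K (M := M) a x ≤ Pp x
        rw [h1]; linarith
      Gam_b := fun x hx => by
        have h1 := hF.Dg_b x hx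
        have h2 := hF.P_nonneg x
        show Dg K (M := M) b x ≤ Pp x
        rw [h1]; linarith
      mean_T := mean_T_le P K h hs ht hsec hMb (fun j => (hgood j).one_le)
        (fun j => (hgood j).energy R' hR') ((calcX P K).cont T hF.T_sm) hTle }
  have hq : Real.sqrt c ^ 2 ≤ q y := by
    rw [Real.sq_sqrt hc.le, hqJ y hy]
    exact hJ
  have key := hT6.gram hS hR' (Real.sqrt_pos.2 hc) hq (Gm := fun x => gM K (VS s) x)
    (fun x _ => gM_posSemidef K (VS s) x) (fun x hx => hF.q_det x hx) (fun x hx => hF.T_tr x hx)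
  intro x hx
  have h1 := key x hx
  rw [Real.sq_sqrt hc.le] at h1
  exact h1

end core

end

end Crest.Agent.R281.HfA_593
end

-- ▼ part R281/HfA3_593
section

/-!
# Row 281 (S0424), S-HALFA (helper593), part 3: the analytic half of Theorem S

* `DiamStmt` : the diameter bound (612), the only hypothesis;
* `halfA_of : DiamStmt → HalfA`.
-/

set_option autoImplicit false
set_option linter.unusedSectionVars false

open Set Filter Topology Complex MeasureTheory
open scoped ContDiff Matrix ComplexConjugate ComplexOrder ENNReal NNReal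

namespace Crest.Agent.R281.HfA_593

open Crest.Agent.R275.Geo Crest.Agent.R275.Core144 Crest.Agent.R275.EDR890
open Crest.Agent.R273.Defs_333 Crest.Agent.R273.Hess_333 Crest.Agent.R273.HessB_333
open Crest.Agent.R273.HM_333 Crest.Agent.R273.Kah_333 Crest.Agent.R273.Vol_333
open Crest.Agent.R273.Vm_333 Crest.Agent.R273.FIb0_597
open Crest.Agent.R273.Ric_798 Crest.Agent.R273.RMan_798 Crest.Agent.R273.RMan4_798
open Crest.Agent.R273.SchI_152 (Dg Dg_nonneg continuous_Dg)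
open Crest.Agent.R281.Tor_922 Crest.Agent.R281.SIn_14
open Crest.Agent.R281.SAsm_790 Crest.Agent.R281.Fra_922 Crest.Agent.R281.SGP_790
open Crest.Agent.R281.TI_671 (gM gm gM_eq gM_posSemidef VS hf_VS VS_eq_eta NZ_iff_pos exists_fields)
open Crest.Agent.R281.St_405 Crest.Agent.R281.Mx_405 Crest.Agent.R281.Ins_615
open Crest.Agent.R281.Spi_405 Crest.Agent.R281.T6_16
open Crest.Agent.R281.Glob1_484 (nsM sm_nsM nsM_nonneg)

noncomputable section

/-! ### the normalised volume against the measure of the volume form -/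

section measure

variable {N : ℕ} {M : Type} [TopologicalSpace M] {A : Atl N M} [T2Space M] [CompactSpace M]
  [ConnectedSpace M] [MeasurableSpace M] [BorelSpace M] [Countable A.ι]

theorem muHE_eq_vm (K : Kah A) (E : Set (ofKah K).M) :
    (Measure.euclideanHausdorffMeasure (2 * N) : Measure (ofKah K).M) E =
      vm (volK K) (show Set M from E) := by
  have h := muHE_apply K (show Set M from E)
  have h1 : (toX K '' (show Set M from E)) = E := by
    ext x
    constructor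
    · rintro ⟨z, hz, rfl⟩
      exact hz
    · intro hx
      exact ⟨(show M from x), hx, rfl⟩
  rwa [h1] at h

theorem vm_univ_pos (K : Kah A) : 0 < vm (volK K) univ := by
  have := muHE_univ_pos K
  rwa [muHE_eq_vm] at this

theorem vm_univ_ne_top (K : Kah A) : vm (volK K) univ ≠ ⊤ := by
  have := muHE_univ_ne_top K
  rwa [muHE_eq_vm] at this

theorem muX_apply (K : Kah A) (E : Set (ofKah K).M) :
    muX K E = (vm (volK K) univ)⁻¹ * vm (volK K) (show Set M from E) := by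
  unfold muX
  rw [Measure.smul_apply, smul_eq_mul, muHE_eq_vm, muHE_eq_vm]
  rfl

/-- integrals on measurable sets -/
theorem setLIntegral_vm (K : Kah A) (f : M → ℝ≥0∞) {E : Set (ofKah K).M} (hE : MeasurableSet E) :
    ∫⁻ x in E, f x ∂(Measure.euclideanHausdorffMeasure (2 * N) : Measure (ofKah K).M) =
      ∫⁻ x in (show Set M from E), f x ∂(vm (volK K)) := by
  have hE' : MeasurableSet (show Set M from E) := (emb_toX K).measurable hE
  have h1 := lintegral_indicator hE (f : (ofKah K).M → ℝ≥0∞)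
    (μ := (Measure.euclideanHausdorffMeasure (2 * N) : Measure (ofKah K).M))
  have h2 := lintegral_indicator hE' f (μ := vm (volK K))
  exact h1.symm.trans ((lintegral_muHE K (fun x : M => (show Set M from E).indicator f x)).trans h2)

theorem lintegral_muX (K : Kah A) (g : (ofKah K).M → ℝ≥0∞) :
    ∫⁻ x, g x ∂(muX K) =
      ((Measure.euclideanHausdorffMeasure (2 * N) : Measure (ofKah K).M) univ)⁻¹ *
        ∫⁻ x, g x ∂(Measure.euclideanHausdorffMeasure (2 * N)) := by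
  unfold muX
  rw [lintegral_smul_measure, smul_eq_mul]

theorem setLIntegral_muX (K : Kah A) (g : (ofKah K).M → ℝ≥0∞) (E : Set (ofKah K).M) :
    ∫⁻ x in E, g x ∂(muX K) =
      ((Measure.euclideanHausdorffMeasure (2 * N) : Measure (ofKah K).M) univ)⁻¹ *
        ∫⁻ x in E, g x ∂(Measure.euclideanHausdorffMeasure (2 * N)) := by
  rw [restrict_muX, lintegral_smul_measure, smul_eq_mul]

theorem lintegral_muX_le (K : Kah A) {f : M → ℝ≥0∞} {g : (ofKah K).M → ℝ≥0∞}
    (hg : ∀ x : M, g x = f x)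
    (hf : ∫⁻ x, f x ∂(vm (volK K)) ≤ vm (volK K) univ) :
    ∫⁻ x, g x ∂(muX K) ≤ 1 := by
  have hgf : g = f := funext hg
  rw [lintegral_muX]
  have h2 : ∫⁻ x, g x ∂(Measure.euclideanHausdorffMeasure (2 * N)) ≤
      (Measure.euclideanHausdorffMeasure (2 * N) : Measure (ofKah K).M) univ := by
    rw [muHE_eq_vm]
    subst hgf
    exact (le_of_eq (lintegral_muHE K g)).trans hf
  refine (mul_le_mul_right h2 _).trans ?_
  exact ENNReal.inv_mul_le_one _

/-- the mean bound of `GoodPt` from the maximal function -/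
theorem avg_of_Mx (K : Kah A) {Cc : ℝ≥0} (hD : Dbl (muX K) Cc) {f : M → ℝ≥0∞}
    {g : (ofKah K).M → ℝ≥0∞} (hg : ∀ x : M, g x = f x)
    {lam : ℝ≥0∞} {y : (ofKah K).M}
    (hM : Mx (muX K) g y ≤ lam) {ρ : ℝ} (hρ : 0 < ρ) :
    ∫⁻ x in cbX K y ρ, f x ∂(vm (volK K)) ≤ lam * vm (volK K) (cbX K y ρ) := by
  have hgf : g = f := funext hg
  have h1 := (avg_le_Mx (μ := muX K) g y hρ).trans hM
  unfold avg at h1
  rw [ENNReal.div_le_iff (hD.pos y ρ hρ).ne' (hD.fin y ρ).ne, setLIntegral_muX, muX_apply,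
    muHE_eq_vm] at h1
  subst hgf
  have h3 := setLIntegral_vm K g (E := Metric.closedBall y ρ)
    Metric.isClosed_closedBall.measurableSet
  have h2 : (vm (volK K) univ)⁻¹ * ∫⁻ x in cbX K y ρ, g x ∂(vm (volK K)) ≤
      (vm (volK K) univ)⁻¹ * (lam * vm (volK K) (cbX K y ρ)) := by
    refine (le_of_eq ?_).trans (h1.trans (le_of_eq ?_))
    · exact congrArg (fun z => (vm (volK K) univ)⁻¹ * z) h3.symm
    · rw [mul_left_comm]
      rfl
  exact (ENNReal.mul_le_mul_iff_right (ENNReal.inv_ne_zero.2 (vm_univ_ne_top K))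
    (ENNReal.inv_ne_top.2 (vm_univ_pos K).ne')).1 h2

/-- mass of a set, normalised -/
theorem le_muX (K : Kah A) {c : ℝ} (hc : 0 ≤ c) {S : Set M} {S' : Set (ofKah K).M}
    (hSS : ∀ x : M, x ∈ S → (x : (ofKah K).M) ∈ S')
    (h : c * (vm (volK K)).real univ ≤ (vm (volK K)).real S) : ENNReal.ofReal c ≤ muX K S' := by
  rw [muX_apply]
  have h0 : vm (volK K) univ ≠ ⊤ := vm_univ_ne_top K
  have h1 : vm (volK K) S ≠ ⊤ := ne_top_of_le_ne_top h0 (measure_mono (subset_univ _))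
  have h2 : ENNReal.ofReal c * vm (volK K) univ ≤ vm (volK K) S := by
    rw [← ofReal_measureReal h0, ← ofReal_measureReal h1, ← ENNReal.ofReal_mul hc]
    exact ENNReal.ofReal_le_ofReal h
  have h3 : vm (volK K) S ≤ vm (volK K) (show Set M from S') := measure_mono fun x hx => hSS x hx
  rw [← ENNReal.div_eq_inv_mul, ENNReal.le_div_iff_mul_le (Or.inl (vm_univ_pos K).ne') (Or.inl h0)]
  exact h2.trans h3

end measure

/-! ### normalisation of a section -/

theorem exists_scale {X : Type*} [TopologicalSpace X] [CompactSpace X] {u : X → ℝ}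
    (hu : Continuous u) {x0 : X} (h0 : 0 < u x0) :
    ∃ t : ℝ, 0 < t ∧ (∀ x, t * u x ≤ 1) ∧ ∃ p, t * u p = 1 := by
  obtain ⟨p, -, hp⟩ := isCompact_univ.exists_isMaxOn (f := u) ⟨x0, mem_univ x0⟩ hu.continuousOn
  have hp' : ∀ x, u x ≤ u p := fun x => hp (mem_univ x)
  have hpos : 0 < u p := h0.trans_le (hp' x0)
  refine ⟨(u p)⁻¹, inv_pos.2 hpos, fun x => ?_, p, inv_mul_cancel₀ hpos.ne'⟩
  rw [inv_mul_le_iff₀ hpos, mul_one]
  exact hp' x

/-! ### the diameter -/

/-- the diameter bound -/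
def DiamStmt : Prop :=
  ∀ (N : ℕ) (m v C0 c : ℝ) (d : ℕ), 1 ≤ N → 0 < m → 0 < v → 0 < c →
    ∃ C1 L1 : ℝ, 0 < C1 ∧ 1 ≤ L1 ∧ ∀ L : ℝ, L1 ≤ L →
    ∀ (M : Type) [TopologicalSpace M] [T2Space M] [CompactSpace M] [ConnectedSpace M]
      [MeasurableSpace M] [BorelSpace M] (A : Atl N M) [Finite A.ι], Part A →
    ∀ (K : Kah A) (Lb : LB A) (h : HM Lb) (s : Fin (N + 1) → A.ι → M → ℂ) (om : A.ι → M → ℂ),
      SDat A K Lb h s om m v C0 c d L → ∀ x y : (ofKah K).M, dist x y ≤ C1 * L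

/-- existence of a point outside two small bad sets -/
theorem exists_pt {X : Type*} [MeasurableSpace X] {μ : Measure X} {c : ℝ} (hc : 0 < c)
    {S B1 B2 : Set X} (hS : ENNReal.ofReal c ≤ μ S) (h1 : μ B1 ≤ ENNReal.ofReal (c / 4))
    (h2 : μ B2 ≤ ENNReal.ofReal (c / 4)) : ∃ y ∈ S, y ∉ B1 ∧ y ∉ B2 := by
  by_contra hcon
  push Not at hcon
  have hsub : S ⊆ B1 ∪ B2 := by
    intro y hy
    by_cases h : y ∈ B1
    · exact Or.inl h
    · exact Or.inr (hcon y hy h)
  have h3 : ENNReal.ofReal c ≤ ENNReal.ofReal (c / 4 + c / 4) := by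
    rw [ENNReal.ofReal_add (by positivity) (by positivity)]
    exact hS.trans ((measure_mono hsub).trans ((measure_union_le _ _).trans (add_le_add h1 h2)))
  rw [ENNReal.ofReal_le_ofReal_iff (by positivity)] at h3
  linarith

theorem nine_le (N : ℕ) (hN : 1 ≤ N) : (9 : ℝ≥0) ≤ Csp N := by
  have h1 := Csp_poi N
  have h2 : (4 : ℝ) ^ 2 ≤ 4 ^ (2 * N) := pow_le_pow_right₀ (by norm_num) (by omega)
  have h3 : (9 : ℝ) ≤ (Csp N : ℝ) := by nlinarith
  exact_mod_cast h3

set_option maxHeartbeats 1600000 in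
/-- **the analytic half of Theorem S** -/
theorem halfA_of (hD : DiamStmt) : HalfA := by
  intro N m v C0 c d hN hm hv hc
  obtain ⟨C1, L1, hC1, hL1, hdiam⟩ := hD N m v C0 c d hN hm hv hc
  have hN' : (1 : ℝ) ≤ N := by exact_mod_cast hN
  have hC9 : (9 : ℝ) ≤ (Csp N : ℝ) := by exact_mod_cast nine_le N hN
  have hCpos : (0 : ℝ) < (Csp N : ℝ) := by linarith
  obtain ⟨Lam, K0, hLam, hK0, hT25⟩ := T25.{0} (Csp N) (m * N) C1 (by positivity) hC1 (N + 1)
    (c / 4) (by positivity)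
  have hKT : 0 < KT N K0 := KT_pos hN hK0
  set lo : ℝ := c / 4 / (Csp N * KT N K0) ^ (N - 1) with hlo
  set hi : ℝ := Csp N * KT N K0 with hhi
  have hhi0 : 0 < hi := by positivity
  have hlo0 : 0 < lo := by positivity
  set lam : ℝ := 4 * (Csp N : ℝ) ^ 2 / c with hlam
  have hlam0 : 0 < lam := by positivity
  set θ : ℝ := th (Csp N) (KT N K0) N (Real.sqrt c) with hθ
  have hθ0 : 0 < θ := th_pos hCpos.le N (Real.sqrt_pos.2 hc)
  have hθ1 : θ ≤ 1 / 24 := th_le _ _ _ _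
  refine ⟨lo, hi, lam, hlo0, hhi0, hlam0, fun R hR => ?_⟩
  have hR' : 0 < R / θ := div_pos hR hθ0
  have hθR : θ * (R / θ) = R := by field_simp
  have hRR' : R ≤ R / θ := by
    rw [le_div_iff₀ hθ0]; nlinarith
  obtain ⟨rho, Aa, L₀, -, -, hL₀, hT⟩ := hT25 (R / θ) hR'
  refine ⟨max (max 1 L1) (max L₀ m), (le_max_left _ _).trans (le_max_left _ _), ?_⟩
  intro L hL M _ _ _ _ _ _ A _ P K Lb h s om hSD f hf hf1
  cases nonempty_fintype A.ι
  have hLa : 1 ≤ L := ((le_max_left _ _).trans (le_max_left _ _)).trans hL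
  have hLb : L1 ≤ L := ((le_max_right _ _).trans (le_max_left _ _)).trans hL
  have hLc : L₀ ≤ L := ((le_max_left _ _).trans (le_max_right _ _)).trans hL
  have hLd : m ≤ L := ((le_max_right _ _).trans (le_max_right _ _)).trans hL
  have hL0 : 0 < L := by linarith
  have hric := Crest.Agent.R281.Glob3_484.cur_volK_zero K hSD.omh hSD.omn
  have hsemi : (volK K).Semipos := by
    refine semipos_of_cur fun i x hx => ?_
    rw [hric i x hx]
    exact Matrix.PosSemidef.zero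
  have hS : Sp (calcX P K) (Csp N) := sp_calcX hN P K hsemi
  have hprob := prob_muX K
  -- the section data
  have hm0 : 0 ≤ m / L := by positivity
  have hm1 : m / L ≤ 1 := (div_le_one hL0).2 hLd
  have hsec0 : ∀ j, SecD (calcX P K) (Csp N) (m * N / L) (nsM h (s j) : (ofKah K).M → ℝ)
      (Crest.Agent.R281.Glob3_484.wM K h (s j) (m / L)) := by
    intro j
    have h1 := Crest.Agent.R281.Glob3_484.secD (n := N) P hSD.curv hric (hSD.hol j) hm0 hm1 hN
      (nine_le N hN)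
    have h2 : m / L * N = m * N / L := by ring
    rwa [h2] at h1
  -- the mass set
  set S' : Set (ofKah K).M := {x | NZ (A := A) (M := M) s x ∧ c ≤ Jsq K (M := M) s x} with hS'
  have hmass : ENNReal.ofReal c ≤ muX K S' :=
    le_muX K hc.le (fun x hx => ⟨hx.1, hx.2.2⟩) hSD.mass
  have hne : S'.Nonempty := by
    by_contra hcon
    rw [not_nonempty_iff_eq_empty] at hcon
    rw [hcon, measure_empty] at hmass
    have : ENNReal.ofReal c ≤ 0 := hmass
    simp at this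
    linarith
  obtain ⟨x0, hx0⟩ := hne
  have hpos0 : ∀ j, 0 < nsM h (s j) x0 := (NZ_iff_pos (A := A) (M := M) h).1 hx0.1
  have hscale : ∀ j, ∃ t : ℝ, 0 < t ∧ (∀ x : (ofKah K).M, t * nsM h (s j) x ≤ 1) ∧
      ∃ p : (ofKah K).M, t * nsM h (s j) p = 1 := fun j =>
    exists_scale (X := (ofKah K).M) (u := nsM h (s j))
      ((calcX P K).cont _ (sm_nsM h (hSD.hol j))) (hpos0 j)
  choose t ht ht1 ht2 using hscale
  have hsec : ∀ j, SecD (calcX P K) (Csp N) (m * N / L) (fun x => t j * nsM h (s j) x)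
      (fun x => t j * Crest.Agent.R281.Glob3_484.wM K h (s j) (m / L) x) :=
    fun j => smul_secD (hsec0 j) (ht j)
  have hbad1 := hT (ofKah K).M (muX K) (calcX P K) hS L hLc
    (hdiam L hLb M A P K Lb h s om hSD) (Fin (N + 1)) (by simp)
    (fun j x => t j * nsM h (s j) x)
    (fun j x => t j * Crest.Agent.R281.Glob3_484.wM K h (s j) (m / L) x) hsec
    (fun j => ⟨ht1 j, ht2 j⟩)
  obtain ⟨g, hg⟩ : ∃ g : (ofKah K).M → ℝ≥0∞, ∀ x : M, g x = f x := ⟨fun x => f x, fun _ => rfl⟩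
  have hbad2 : muX K {y | ENNReal.ofReal lam * 1 < Mx (muX K) g y} ≤
      ENNReal.ofReal (c / 4) := by
    have h1 := meas_bad_le hS.dbl g 1 (ENNReal.ofReal lam) one_ne_zero
      ENNReal.one_ne_top (by simpa using hlam0) ENNReal.ofReal_ne_top (lintegral_muX_le K hg hf1)
    refine h1.trans (le_of_eq ?_)
    have h2 : c / 4 = (Csp N : ℝ) ^ 2 / lam := by
      rw [hlam]; field_simp
    rw [h2, ENNReal.ofReal_div_of_pos hlam0, ENNReal.ofReal_pow (NNReal.coe_nonneg _),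
      ENNReal.ofReal_coe_nnreal]
  obtain ⟨y, hyS, hy1, hy2⟩ := exists_pt hc hmass hbad1 hbad2
  have hgood : ∀ j, GoodAt (calcX P K) (Csp N) (Real.exp (Lam * L)) K0 (R / θ) rho Aa
      (fun x => t j * nsM h (s j) x)
      (fun x => t j * Crest.Agent.R281.Glob3_484.wM K h (s j) (m / L) x) y := by
    by_contra hcon
    exact hy1 hcon
  have hMx : Mx (muX K) g y ≤ ENNReal.ofReal lam := by
    by_contra hcon
    refine hy2 ?_
    show ENNReal.ofReal lam * 1 < _
    rw [mul_one]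
    exact not_le.1 hcon
  obtain ⟨hnz, hpin⟩ := core P K hS h hSD.hol hSD.omh hSD.omn ht hsec (Real.exp_pos _) hR' hgood
    hc hyS.2
  rw [← hθ, hθR] at hpin
  have hsub : ∀ x : (ofKah K).M, (show M from x) ∈ bX K y R → x ∈ Metric.closedBall y R :=
    fun x hx => Metric.ball_subset_closedBall hx
  have hnz' : ∀ x : M, x ∈ bX K y R → NZ s x := fun x hx =>
    hnz x (Metric.closedBall_subset_closedBall hRR' (hsub x hx))
  refine ⟨y, hnz', ?_, ?_, ?_⟩
  · intro i x hx hxb w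
    exact qf_lower K h hSD.hol hx (hnz' x hxb) hlo0 (hpin x (hsub x hxb)).1 w
  · intro i x hx hxb w
    exact qf_upper K h hSD.hol hx (hnz' x hxb) hhi0 (hpin x (hsub x hxb)).2 w
  · intro ρ hρ
    exact avg_of_Mx K hS.dbl hg hMx hρ

end

end Crest.Agent.R281.HfA_593
end

-- ▼ part R281/Dh5_612
section

set_option autoImplicit false
set_option linter.unusedSectionVars false
set_option linter.ambiguousOpen false
set_option maxSynthPendingDepth 3

namespace Crest.Agent.R281.Dh5_612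

open Set Filter Complex MeasureTheory Metric Matrix
open scoped _root_.Topology ContDiff Matrix ComplexConjugate ComplexOrder ENNReal Real
open scoped Manifold
open Crest.Agent.R275.Geo Crest.Agent.R275.Core144
open Crest.Agent.R273.Defs_333 Crest.Agent.R273.HM_333 Crest.Agent.R273.Kah_333
open Crest.Agent.R273.Vol_333 Crest.Agent.R273.Vm_333 Crest.Agent.R273.FIb0_597
open Crest.Agent.R273.SteinC_794 (nz)
open Crest.Agent.R273.Ric_798 Crest.Agent.R273.RMan_798 Crest.Agent.R273.RMan4_798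
open Crest.Agent.R281.SIn_14 Crest.Agent.R281.Per_368 Crest.Agent.R281.Dh1_612
open Crest.Agent.R281.Dh2_612 Crest.Agent.R281.Dh3_612 Crest.Agent.R281.Dh4_612
open Crest.Agent.R281.Fra_922 Crest.Agent.R281.Ins_615
open Crest.Agent.R281.Df3_612 (expPi continuous_expPi differentiable_expPi expPi_ne_zero fiberSum)
open Crest.Agent.R281.Df5_612 (box strip reg norm_expPi measurableSet_box injOn_box volume_box
  lg_mem_box expPi_lg lg)

noncomputable section

/-- mass of the region of a finite covering -/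
theorem mass_reg_le {ι : Type*} [Fintype ι] {X : Type*} [TopologicalSpace X] [T2Space X]
    [MeasurableSpace X] [BorelSpace X] {mX : Measure X} {f : X → ι → ℂ} {P : (ι → ℂ) → ℂ}
    (hP : Continuous P) (cov : IsCoveringMapOn f {w | (∀ j, w j ≠ 0) ∧ P w ≠ 0}) {d : ℕ}
    (hd : ∀ w : ι → ℂ, (∀ j, w j ≠ 0) → P w ≠ 0 → (f ⁻¹' {w}).encard ≤ d)
    (hmeas : ∀ p, (∀ j, f p j ≠ 0) → P (f p) ≠ 0 → Df4_612.MeasAt f mX p) (a : ℝ) :
    MeasurableSet (reg f P a) ∧ mX (reg f P a) ≤ d * volume (box ι a) := by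
  set U : Set (ι → ℂ) := {w | (∀ j, w j ≠ 0) ∧ P w ≠ 0} with hUdef
  have hUo : IsOpen U := by
    have h1 : IsOpen {w : ι → ℂ | ∀ j, w j ≠ 0} := by
      simp only [ofPred_forall]
      exact isOpen_iInter_of_finite fun j => isOpen_ne.preimage (continuous_apply j)
    exact h1.inter (isOpen_ne.preimage hP)
  have hfin : ∀ w ∈ U, (f ⁻¹' {w}).Finite := fun w hw => by
    have := hd w hw.1 hw.2
    exact finite_of_encard_le_coe this
  set V : Set (ι → ℂ) := expPi ⁻¹' U with hV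
  have hVo : IsOpen V := hUo.preimage continuous_expPi
  have hregV : f ⁻¹' (expPi '' (box ι a ∩ V)) = reg f P a := by
    ext x
    simp only [mem_preimage, mem_image, mem_inter_iff]
    constructor
    · rintro ⟨z, ⟨hz, hzV⟩, hzx⟩
      have h1 : f x ∈ U := by rw [← hzx]; exact hzV
      refine ⟨h1.1, h1.2, fun j => ?_⟩
      rw [← hzx, norm_expPi, Real.log_exp]
      exact (hz j).1
    · rintro ⟨h1, h2, h3⟩
      refine ⟨lg (f x), ⟨lg_mem_box h3, ?_⟩, expPi_lg h1⟩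
      rw [hV, mem_preimage, expPi_lg h1]
      exact ⟨h1, h2⟩
  have hKV : MeasurableSet (box ι a ∩ V) := (measurableSet_box a).inter hVo.measurableSet
  have h1 := Df4_612.lintegral_cov cov hfin (fun p hp => hmeas p hp.1 hp.2) hKV (fun z hz => hz.2)
      ((injOn_box a).mono inter_subset_left) (φ := fun _ => 1) measurable_const
  rw [hregV] at h1
  refine ⟨h1.1, ?_⟩
  have h2 := h1.2
  rw [setLIntegral_one] at h2
  rw [h2]
  calc ∫⁻ z in box ι a ∩ V, fiberSum f (fun _ => 1) (expPi z)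
      ≤ ∫⁻ _ in box ι a ∩ V, (d : ℝ≥0∞) := by
        refine setLIntegral_mono' hKV fun z hz => ?_
        unfold Df3_612.fiberSum
        rw [ENNReal.tsum_one, ENat.card_coe_set_eq]
        have := hd (expPi z) hz.2.1 hz.2.2
        calc (((f ⁻¹' {expPi z}).encard : ℕ∞) : ℝ≥0∞) ≤ ((d : ℕ∞) : ℝ≥0∞) := by
              exact_mod_cast this
          _ = d := by simp
    _ = d * volume (box ι a ∩ V) := by rw [setLIntegral_const]
    _ ≤ d * volume (box ι a) := by gcongr; exact inter_subset_left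

section transfer

variable {n : ℕ} {M : Type} [TopologicalSpace M] {A : Atl n M} [T2Space M] [ConnectedSpace M]
  [CompactSpace M] [MeasurableSpace M] [BorelSpace M]

theorem setLIntegral_toX (K : Kah A) (mu : Measure M) (φ : (ofKah K).M → ℝ≥0∞)
    (S : Set (ofKah K).M) :
    ∫⁻ x in S, φ x ∂(Measure.map (toX K) mu) =
      ∫⁻ x in (show Set M from S), φ (toX K x) ∂mu := by
  rw [(emb_toX K).restrict_map, (emb_toX K).lintegral_map]
  rfl

theorem map_toX_apply (K : Kah A) (mu : Measure M) (S : Set (ofKah K).M) :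
    (Measure.map (toX K) mu) S = mu (show Set M from S) := by
  rw [(emb_toX K).map_apply]
  rfl

theorem measAt_map {ι : Type*} [Fintype ι] (K : Kah A) {f : M → ι → ℂ} {mu : Measure M} {p : M}
    (h : Df4_612.MeasAt f mu p) :
    Df4_612.MeasAt (X := (ofKah K).M) (onX K f) (Measure.map (toX K) mu) p := by
  intro ζ0 hζ0
  obtain ⟨δ, hδ, s, h0, hc, hf, hm⟩ := h ζ0 hζ0
  refine ⟨δ, hδ, s, h0, hc, hf, fun φ hφ B hB hBm => ?_⟩
  rw [setLIntegral_toX]
  exact hm (fun x => φ (toX K x)) (hφ.comp (emb_toX K).measurable) B hB hBm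

end transfer

section onM

variable {N : ℕ} {M : Type} [TopologicalSpace M] {A : Atl N M} {Lb : LB A}
  {s : Fin (N + 1) → A.ι → M → ℂ}

theorem Jsq_nonneg (K : Kah A) (x : M) : 0 ≤ Jsq K s x := by
  have hc := mem_ch A x
  have hg := det_re_pos (K.pos _ _ hc)
  unfold Jsq
  positivity

variable [T2Space M] [CompactSpace M] [Fintype A.ι] [MeasurableSpace M] [BorelSpace M]

/-- the energy of the length density over `Reg` -/
theorem lint_sg_sq (P : Part A) (K : Kah A) (h : HM Lb) (hs : ∀ j, IsHS Lb univ (s j)) {q a : ℝ}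
    (hq : 0 ≤ q) (ha : 1 ≤ a)
    (curv : ∀ i, ∀ x ∈ (A.e i).source, cur h i x = (q : ℂ) • K.g i x) (hN : 1 ≤ N) :
    ∫⁻ x in {x | x ∈ Reg K s ∧ ∀ j, |Real.log ‖quo s x j‖| ≤ a},
      ENNReal.ofReal (sg K s x ^ 2) ∂(mM K s) ≤
      ENNReal.ofReal (N * (Crest.Agent.R281.Th3_484.CE N * q * a) ^ (N - 1)) *
        vm (volK K) univ := by
  classical
  set R : Set M := {x | x ∈ Reg K s ∧ ∀ j, |Real.log ‖quo s x j‖| ≤ a} with hR
  have hRm : MeasurableSet R := by
    refine (isOpen_Reg K hs).measurableSet.inter ?_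
    have h1 : {x : M | ∀ j, |Real.log ‖quo s x j‖| ≤ a} =
        ⋂ j, {x : M | |Real.log ‖quo s x j‖| ≤ a} := by
      ext x; simp
    show MeasurableSet {x : M | ∀ j, |Real.log ‖quo s x j‖| ≤ a}
    rw [h1]
    refine MeasurableSet.iInter fun j => measurableSet_le ?_ measurable_const
    have h2 : Measurable fun x => quo s x j := (measurable_pi_apply j).comp (measurable_quo hs)
    exact (h2.norm.log).abs
  set φ : M → ℝ≥0∞ := (Reg K s).indicator (fun x => ENNReal.ofReal (sg K s x ^ 2)) with hφ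
  have hφm : Measurable φ := by
    rw [hφ, ← piecewise_eq_indicator]
    exact (ENNReal.continuous_ofReal.comp_continuousOn
      ((continuousOn_sg' K hs).pow 2)).measurable_piecewise continuousOn_const
      (isOpen_Reg K hs).measurableSet
  have h1 : ∫⁻ x in R, ENNReal.ofReal (sg K s x ^ 2) ∂(mM K s) = ∫⁻ x in R, φ x ∂(mM K s) := by
    refine setLIntegral_congr_fun hRm fun x hx => ?_
    simp only [hφ]
    rw [indicator_of_mem hx.1]
  rw [h1, lint_mM K hs hRm hφm]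
  have h2 : ∫⁻ x in R, Dh2_612.dJ K s x * φ x ∂(vm (volK K)) =
      ∫⁻ x in R, ENNReal.ofReal N * ENNReal.ofReal (((eta s (ch A x) x).map conj *
        (K.g (ch A x) x)⁻¹ * (eta s (ch A x) x)ᵀ).adjugate.trace.re) ∂(vm (volK K)) := by
    refine setLIntegral_congr_fun hRm fun x hx => ?_
    have hc := mem_ch A x
    have hE := (Jsq_ne_iff K hs hc hx.1.1).1 hx.1.2
    have hg := K.pos _ _ hc
    simp only [hφ]
    rw [indicator_of_mem hx.1, adj_gram hE hg, Dh2_612.dJ, if_pos hx.1.1]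
    have h3 : sg K s x ^ 2 = N * tz (eta s (ch A x) x) (K.g (ch A x) x) := by
      unfold Dh3_612.sg
      rw [Real.sq_sqrt]
      exact mul_nonneg (by positivity) (tz_nonneg hE hg)
    rw [h3, ← ENNReal.ofReal_mul (Jsq_nonneg K x), ← ENNReal.ofReal_mul (by positivity)]
    congr 1
    unfold Jsq
    ring
  rw [h2, lintegral_const_mul' _ _ ENNReal.ofReal_ne_top, ENNReal.ofReal_mul (by positivity),
    mul_assoc]
  refine mul_le_mul' le_rfl ?_
  refine le_trans (lintegral_mono_set fun x hx => ?_)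
    (Crest.Agent.R281.Th3_484.e1 P K h hs hq ha curv hN)
  exact ⟨hx.1.1, hx.2⟩

/-- the mass of the pulled back measure dominates `c · vol` where `Jsq ≥ c` -/
theorem vm_le_mM (K : Kah A) {c : ℝ} {S : Set M} (hs : ∀ j, IsHS Lb univ (s j))
    (hS : ∀ x ∈ S, NZ s x ∧ c ≤ Jsq K s x) :
    ENNReal.ofReal c * vm (volK K) S ≤ mM K s S := by
  refine le_trans ?_ (withDensity_apply_le _ _)
  rw [← setLIntegral_const]
  refine lintegral_mono_ae ?_
  rw [ae_restrict_iff (measurableSet_le measurable_const (measurable_dJ K hs))]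
  refine Filter.Eventually.of_forall fun x hx => ?_
  rw [Dh2_612.dJ, if_pos (hS x hx).1]
  exact ENNReal.ofReal_le_ofReal (hS x hx).2

end onM

theorem le_sq_add_one (t : ℝ) : t ≤ t ^ 2 + 1 := by nlinarith [sq_nonneg (t - 1), sq_nonneg t]

set_option maxHeartbeats 1600000 in
/-- **THE DIAMETER BOUND OF THEOREM S** -/
theorem diamStmt : Crest.Agent.R281.HfA_593.DiamStmt := by
  intro N m v C0 c d hN hm hv hc
  have hN0 : 0 < N := hN
  have : Nonempty (Fin N) := ⟨⟨0, hN0⟩⟩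
  have hpi := Real.pi_pos
  set a0 : ℝ := max C0 1 with ha0
  have ha1 : 1 ≤ a0 := le_max_right _ _
  have haC : C0 ≤ a0 := le_max_left _ _
  have ha0p : 0 < a0 := by linarith
  set V0 : ℝ := (4 * π * a0) ^ N with hV0
  have hV0p : 0 < V0 := by positivity
  set B : ℝ := V0 * v / c with hB
  have hBp : 0 < B := by positivity
  have hCE : 0 < Crest.Agent.R281.Th3_484.CE N := by
    unfold Crest.Agent.R281.Th3_484.CE
    have : (0 : ℝ) < N := by exact_mod_cast hN0
    positivity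
  set E1 : ℝ := N * (Crest.Agent.R281.Th3_484.CE N * m * a0) ^ (N - 1) * v with hE1
  have hE1p : 0 < E1 := by
    have : (0 : ℝ) < N := by exact_mod_cast hN0
    positivity
  set C : ℝ := E1 / V0 + d with hC
  have hCp : 0 < C := by positivity
  set D : ℝ := Di2_612.diamC (2 * N) (c / (4 * d)) with hD
  set Q : ℝ := 2 * (2 * (d + 1) * (2 ^ (2 * N) * (2 * a0 + 2 * π) * C * (2 * (B * d) / c))) with hQ
  have hQp : 0 ≤ Q := by positivity
  refine ⟨|D| * Q + 1, 1, by positivity, le_rfl, ?_⟩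
  intro L hL M _ _ _ _ _ _ A _ PA K Lb h s om hS
  have := Fintype.ofFinite A.ι
  have hL0 : 0 < L := by linarith
  have hSC : SecondCountableTopology M := instSC K
  have hs := hS.hol
  obtain ⟨P, hP0, hPJ, hprop⟩ := hS.cov
  obtain ⟨hcov, hfin⟩ := covering hN0 K hs hPJ hprop
  set Pf : (Fin N → ℂ) → ℂ := fun w => MvPolynomial.eval w P with hPf
  have hUR : ∀ x, (∀ j, quo s x j ≠ 0) → Pf (quo s x) ≠ 0 → x ∈ Reg K s := fun x h1 h2 => by
    have h3 := NZ_of_quo hN0 hs h1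
    exact ⟨h3, hPJ x h3 h2⟩
  have hd : ∀ w : Fin N → ℂ, (∀ j, w j ≠ 0) → Pf w ≠ 0 → (quo s ⁻¹' {w}).encard ≤ d := by
    intro w hw hPw
    have h1 := hfin w ⟨hw, hPw⟩
    have h2 := hS.deg h1.toFinset (fun x hx => by
      have hx' : quo s x = w := by simpa using hx
      refine hUR x ?_ ?_
      · rw [hx']; exact hw
      · rw [hx']; exact hPw) (fun x hx y hy => by
      have hx' : quo s x = w := by simpa using hx
      have hy' : quo s y = w := by simpa using hy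
      rw [hx', hy'])
    rw [h1.encard_eq_coe_toFinset_card]
    exact_mod_cast h2
  -- volumes
  set V : ℝ≥0∞ := vm (volK K) univ with hV
  have hfinm : IsFiniteMeasure (vm (volK K)) := isFinite_vm (volK K)
  have hVt : V ≠ ⊤ := measure_ne_top _ _
  have hVr : V = ENNReal.ofReal ((vm (volK K)).real univ) := by
    rw [Measure.real, ENNReal.ofReal_toReal hVt]
  have hVle : V ≤ ENNReal.ofReal (v * L ^ N) := by
    rw [hVr]; exact ENNReal.ofReal_le_ofReal hS.vol_le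
  have hVge : ENNReal.ofReal (L ^ N) ≤ ENNReal.ofReal v * V := by
    rw [hVr, ← ENNReal.ofReal_mul hv.le]
    refine ENNReal.ofReal_le_ofReal ?_
    have h1 := mul_le_mul_of_nonneg_left hS.vol_ge hv.le
    rwa [← mul_assoc, mul_inv_cancel₀ hv.ne', one_mul] at h1
  set a : ℝ := a0 * L with ha
  have hap : 0 < a := by positivity
  have ha1' : 1 ≤ a := by
    rw [ha]
    calc (1 : ℝ) = 1 * 1 := (one_mul 1).symm
      _ ≤ a0 * L := mul_le_mul ha1 hL zero_le_one (by linarith)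
  have hbox : volume (box (Fin N) a) = ENNReal.ofReal (V0 * L ^ N) := by
    rw [volume_box, Fintype.card_fin, ← ENNReal.ofReal_pow (by positivity), hV0, ← mul_pow, ha]
    congr 2
    ring
  -- curvature
  have hq : 0 ≤ m / L := by positivity
  have hqa : m / L * a = m * a0 := by
    rw [ha]
    field_simp
  -- the measure on `X`
  set nu : Measure (ofKah K).M := Measure.euclideanHausdorffMeasure (2 * N) with hnu
  have hnuv : ∀ S : Set M, nu (show Set (ofKah K).M from S) = vm (volK K) S := by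
    intro S
    rw [hnu, ← map_vm K, map_toX_apply]
  set mX : Measure (ofKah K).M := Measure.map (toX K) (mM K s) with hmX
  have hmXv : ∀ S : Set M, mX (show Set (ofKah K).M from S) = mM K s S := by
    intro S
    rw [hmX, map_toX_apply]
  -- regions
  obtain ⟨hregm, hregM⟩ := mass_reg_le (mX := mM K s) (differentiable_eval P).continuous hcov hd
    (fun p h1 h2 => measAt K hs (hUR p h1 h2)) a
  have hEM : ∫⁻ x in reg (quo s) Pf a, ENNReal.ofReal (Dh3_612.sg K s x) ∂(mM K s) ≤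
      ENNReal.ofReal C * volume (box (Fin N) a) := by
    have h1 : ∫⁻ x in reg (quo s) Pf a, ENNReal.ofReal (Dh3_612.sg K s x) ∂(mM K s) ≤
        ∫⁻ x in reg (quo s) Pf a, (ENNReal.ofReal (Dh3_612.sg K s x ^ 2) + 1) ∂(mM K s) := by
      refine lintegral_mono fun x => ?_
      rw [← ENNReal.ofReal_one, ← ENNReal.ofReal_add (by positivity) zero_le_one]
      exact ENNReal.ofReal_le_ofReal (le_sq_add_one _)
    have h2 := lint_sg_sq PA K h hs hq ha1' hS.curv hN
    have h3 : ∫⁻ x in reg (quo s) Pf a, ENNReal.ofReal (Dh3_612.sg K s x ^ 2) ∂(mM K s) ≤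
        ENNReal.ofReal (E1 / V0) * volume (box (Fin N) a) := by
      refine (lintegral_mono_set fun x hx => ?_).trans (h2.trans ?_)
      · exact ⟨hUR x hx.1 hx.2.1, hx.2.2⟩
      · rw [mul_assoc (Crest.Agent.R281.Th3_484.CE N), hqa, hbox,
          ← ENNReal.ofReal_mul (by positivity)]
        refine (mul_le_mul' le_rfl hVle).trans ?_
        rw [← ENNReal.ofReal_mul (by positivity)]
        refine ENNReal.ofReal_le_ofReal (le_of_eq ?_)
        rw [hE1]
        field_simp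
    refine h1.trans ?_
    rw [lintegral_add_right _ measurable_const, setLIntegral_const, one_mul, hC,
      ENNReal.ofReal_add (by positivity) (by positivity), add_mul, ENNReal.ofReal_natCast]
    exact add_le_add h3 hregM
  -- the good set
  set G : Set M := {x | NZ s x ∧ (∀ j, |Real.log ‖quo s x j‖| ≤ a) ∧ c ≤ Jsq K s x ∧
    Pf (quo s x) ≠ 0} with hG
  have hGmass : ENNReal.ofReal c * V ≤ vm (volK K) G := by
    set S0 : Set M := {x | NZ s x ∧ (∀ j, |Real.log ‖quo s x j‖| ≤ C0 * L) ∧ c ≤ Jsq K s x}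
      with hS0
    have h1 : ENNReal.ofReal c * V ≤ vm (volK K) S0 := by
      rw [hVr, ← ENNReal.ofReal_mul hc.le]
      refine (ENNReal.ofReal_le_ofReal hS.mass).trans (le_of_eq ?_)
      rw [Measure.real, ENNReal.ofReal_toReal (measure_ne_top _ _)]
    refine h1.trans ?_
    have h2 : S0 ⊆ G ∪ {x | x ∈ Reg K s ∧ MvPolynomial.eval (quo s x) P = 0} := by
      intro x hx
      by_cases h0 : MvPolynomial.eval (quo s x) P = 0
      · refine Or.inr ⟨⟨hx.1, ?_⟩, h0⟩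
        have := hx.2.2
        intro h4
        rw [h4] at this
        linarith
      · refine Or.inl ⟨hx.1, fun j => (hx.2.1 j).trans ?_, hx.2.2, h0⟩
        exact mul_le_mul_of_nonneg_right haC hL0.le
    refine (measure_mono h2).trans ((measure_union_le _ _).trans ?_)
    rw [vm_zero K hs hP0, add_zero]
  have hGr : G ⊆ reg (quo s) Pf a := fun x hx =>
    ⟨fun j => quo_ne hs hx.1 j, hx.2.2.2, hx.2.1⟩
  have hdens : ∀ S : Set M, vm (volK K) (G ∩ S) * volume (box (Fin N) a) ≤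
      ENNReal.ofReal B * mM K s (S ∩ reg (quo s) Pf a) * V := by
    intro S
    have h1 : ENNReal.ofReal c * vm (volK K) (G ∩ S) ≤ mM K s (S ∩ reg (quo s) Pf a) := by
      refine (vm_le_mM K hs (fun x hx => ⟨hx.1.1, hx.1.2.2.1⟩)).trans (measure_mono ?_)
      exact fun x hx => ⟨hx.2, hGr hx.1⟩
    have h2 : volume (box (Fin N) a) ≤ ENNReal.ofReal (V0 * v) * V := by
      rw [hbox, ENNReal.ofReal_mul hV0p.le, ENNReal.ofReal_mul hV0p.le, mul_assoc]
      exact mul_le_mul' le_rfl hVge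
    have h3 : ENNReal.ofReal (V0 * v) = ENNReal.ofReal B * ENNReal.ofReal c := by
      rw [← ENNReal.ofReal_mul hBp.le, hB]
      congr 1
      field_simp
    calc vm (volK K) (G ∩ S) * volume (box (Fin N) a)
        ≤ vm (volK K) (G ∩ S) * (ENNReal.ofReal (V0 * v) * V) := mul_le_mul' le_rfl h2
      _ = ENNReal.ofReal B * (ENNReal.ofReal c * vm (volK K) (G ∩ S)) * V := by
          rw [h3]; ring
      _ ≤ _ := by gcongr
  -- the metric space
  have hK : (volK K).Semipos := by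
    refine semipos_of_cur fun i x hx => ?_
    rw [Crest.Agent.R281.Glob3_484.cur_volK_zero K hS.omh hS.omn i x hx]
    exact Matrix.PosSemidef.zero
  obtain ⟨rd⟩ := rad K hK
  have hBG : ∀ q : (ofKah K).M, ∀ r R : ℝ, 0 < r → r ≤ R →
      nu (closedBall q R \ closedBall q r) ≤
        ENNReal.ofReal ((R / r) ^ (2 * N) - 1) * nu (closedBall q r) := by
    intro q r R hr hR
    exact Crest.Agent.R281.Poin_274.closedBall_diff_le rd rd q hr hR
      ((measure_mono (subset_univ _)).trans_lt (lt_top_iff_ne_top.2 (muHE_univ_ne_top K))).ne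
  intro x y
  have key := Df5_612.diam_le_fin (X := (ofKah K).M) (n := 2 * N) (ν := nu) (mX := mX)
    (muHE_univ_pos K).ne' (muHE_univ_ne_top K) hBG (f := onX K (quo s)) (P := Pf)
    ((measurable_quo hs).comp (toX K).symm.measurable) (differentiable_eval P) hcov hd
    (sg := onX K (Dh3_612.sg K s))
    ((continuousOn_sg' K hs).mono fun p hp => hUR p hp.1 hp.2)
    (fun p => Dh3_612.sg_nonneg K p) (fun p h1 h2 => lenAt K hs (hUR p h1 h2))
    (fun p h1 h2 => measAt_map K (measAt K hs (hUR p h1 h2)))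
    (G := G) hap hBp hCp hc hGr
    (fun S _ _ => by
      have h1 := hdens (quo s ⁻¹' (expPi '' S))
      have e1 := hnuv (G ∩ quo s ⁻¹' (expPi '' S))
      have e2 := hmXv (quo s ⁻¹' (expPi '' S) ∩ reg (quo s) Pf a)
      have e3 := hnuv univ
      rw [← e1, ← e2, hV, ← e3] at h1
      exact h1)
    (by
      rw [hmX, setLIntegral_toX]
      exact hEM)
    (by
      have e1 := hnuv G
      have e3 := hnuv univ
      have h1 := hGmass
      rw [← e1, hV, ← e3] at h1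
      exact h1) x y
  rw [Fintype.card_fin] at key
  refine key.trans ?_
  have h5 : 2 * a + 2 * π ≤ (2 * a0 + 2 * π) * L := by
    rw [ha]
    nlinarith
  have h6 : 2 * (2 * ((d : ℝ) + 1) * (2 ^ (2 * N) * (2 * a + 2 * π) * C * (2 * (B * d) / c))) ≤
      Q * L := by
    have h7 : Q * L = 2 * (2 * ((d : ℝ) + 1) *
        (2 ^ (2 * N) * ((2 * a0 + 2 * π) * L) * C * (2 * (B * d) / c))) := by
      rw [hQ]; ring
    rw [h7]
    gcongr
  have h8 : 0 ≤ 2 * (2 * ((d : ℝ) + 1) *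
      (2 ^ (2 * N) * (2 * a + 2 * π) * C * (2 * (B * d) / c))) := by positivity
  calc D * (2 * (2 * ((d : ℝ) + 1) * (2 ^ (2 * N) * (2 * a + 2 * π) * C * (2 * (B * d) / c))))
      ≤ |D| * (2 * (2 * ((d : ℝ) + 1) *
          (2 ^ (2 * N) * (2 * a + 2 * π) * C * (2 * (B * d) / c)))) :=
        mul_le_mul_of_nonneg_right (le_abs_self D) h8
    _ ≤ |D| * (Q * L) := mul_le_mul_of_nonneg_left h6 (abs_nonneg D)
    _ ≤ (|D| * Q + 1) * L := by nlinarith

end

end Crest.Agent.R281.Dh5_612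
end

-- ▼ part R281/HfG3_615
section

/-!
# Row 281 (S0424), HALF-G (helper615), file 3: **`halfG : HalfG`**
-/

set_option autoImplicit false
set_option linter.unusedSectionVars false

open Set Filter Topology Complex Metric MeasureTheory
open scoped ContDiff Matrix ComplexConjugate ComplexOrder ENNReal

namespace Crest.Agent.R281.HfG_615

open Crest.Agent.R275.Geo Crest.Agent.R275.Core144 Crest.Agent.R275.EDR890
open Crest.Agent.R273.Defs_333 Crest.Agent.R273.Hess_333 Crest.Agent.R273.HessB_333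
open Crest.Agent.R273.HM_333 Crest.Agent.R273.Kah_333 Crest.Agent.R273.Vol_333
open Crest.Agent.R273.Vm_333 Crest.Agent.R273.FIb0_597
open Crest.Agent.R273.Ric_798 Crest.Agent.R273.RMan_798 Crest.Agent.R273.RMan4_798
open Crest.Agent.R281.Tor_922 Crest.Agent.R281.SAsm_790 Crest.Agent.R281.Fra_922
open Crest.Agent.R281.SIn_14 Crest.Agent.R281.SGP_790 Crest.Agent.R281.TI_671
open Crest.Agent.R281.Glob1_484 (nsM)

noncomputable section

/-- lower bound of the determinant -/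
def dlo (N : ℕ) (hi : ℝ) : ℝ := ((N.factorial : ℝ) * (2 * (1 / hi⁻¹)) ^ N)⁻¹

/-- upper bound of the determinant -/
def dhi (N : ℕ) (lo : ℝ) : ℝ := (N.factorial : ℝ) * (2 * lo⁻¹) ^ N

/-- the radius of the sub-strip that covers the ball of radius `Cc R1 + 1` -/
def rr2 (N : ℕ) (lo hi R1 : ℝ) : ℝ := √hi * (Cc N lo * |R1| + 1)

/-- the radius of the second ball -/
def RR2 (N : ℕ) (lo hi R1 : ℝ) (d : ℕ) : ℝ := rr2 N lo hi R1 + 2 * Real.pi * d.factorial + 1

/-- the constant -/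
def KK1 (N : ℕ) (lo hi lam R1 : ℝ) (d : ℕ) : ℝ :=
  hi + lo⁻¹ + |Fcl_14.KF N R1 (RR2 N lo hi R1 d) (dlo N hi) (dhi N lo) lam|

section

variable {N : ℕ} {M : Type} [TopologicalSpace M] {A : Atl N M} {Lb : LB A}
  {s : Fin (N + 1) → A.ι → M → ℂ}
variable [T2Space M] [ConnectedSpace M] [Countable A.ι] [MeasurableSpace M] [BorelSpace M]
variable {K : Kah A} {y : (ofKah K).M} {R lo hi lam : ℝ} {f : M → ℝ≥0∞}

/-- the `f`-clause -/
theorem fcl (hN : 1 ≤ N) (hlo : 0 < lo) (hhi : 0 < hi) (hlam : 0 < lam)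
    (hG : GoodPt K s y R lo hi lam f) (hf : Measurable f) {R1 r : ℝ} {d : ℕ} {ζ0 : Fin N → ℂ}
    {Lam : AddSubgroup (Fin N → ℂ)} {Φ : (Fin N → ℂ) → M}
    (hO : SOk K (quo s) y (Cc N lo) (√hi) R r d ζ0 Lam Φ)
    (hp : ∀ ζ ∈ strip ζ0 r, ∀ i, Φ ζ ∈ (A.e i).source → ∀ v : Fin N → ℂ,
        hi⁻¹ * ∑ j, ‖v j‖ ^ 2 ≤ qf K i (Φ ζ) (fderiv ℂ (fun w => A.e i (Φ w)) ζ v) ∧
        qf K i (Φ ζ) (fderiv ℂ (fun w => A.e i (Φ w)) ζ v) ≤ lo⁻¹ * ∑ j, ‖v j‖ ^ 2)
    (hR1r : R1 ≤ r) (hR2r : RR2 N lo hi R1 d ≤ r) (hR : Cc N lo * |R1| + 1 ≤ R) :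
    ∫⁻ ζ in Metric.ball ζ0 R1, f (Φ ζ) ≤
      ENNReal.ofReal (Fcl_14.KF N R1 (RR2 N lo hi R1 d) (dlo N hi) (dhi N lo) lam) := by
  rcases le_or_gt R1 0 with h0 | h0
  · rw [Metric.ball_eq_empty.2 h0]
    simp
  have hC := Cc_pos hN hlo
  have habs : |R1| = R1 := abs_of_pos h0
  have hsh : 0 < √hi := Real.sqrt_pos.2 hhi
  have hr2 : 0 < rr2 N lo hi R1 := by unfold rr2; positivity
  have hsub : ∀ {R' : ℝ}, R' ≤ r → Metric.ball ζ0 R' ⊆ strip ζ0 r := by
    intro R' hR' ζ hζ j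
    rw [mem_ball, dist_eq_norm] at hζ
    have h1 : ‖(ζ - ζ0) j‖ ≤ ‖ζ - ζ0‖ := norm_le_pi_norm (ζ - ζ0) j
    rw [← Complex.sub_re]
    exact ((Complex.abs_re_le_norm _).trans h1).trans_lt (hζ.trans_le hR')
  have hr2r : rr2 N lo hi R1 ≤ r := by
    refine le_trans ?_ hR2r
    unfold RR2
    have := Real.pi_pos
    have h1 : 0 ≤ 2 * Real.pi * d.factorial := by positivity
    linarith
  have hdb : ∀ ζ ∈ strip ζ0 r, dlo N hi ≤ (pbg K Φ ζ).det.re ∧ (pbg K Φ ζ).det.re ≤ dhi N lo :=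
    fun ζ hζ => det_bounds K (inv_pos.2 hhi) (inv_pos.2 hlo) (hp ζ hζ)
  refine Fcl_14.fclause K (U := strip ζ0 r) ⟨isOpen_strip ζ0 r, hO.str.cont,
    fun ζ hζ i hi' => (hO.str.hol ζ hζ i hi').1⟩ ⟨fun ζ hζ ζ' hζ' he =>
    hO.str.le_lat ((hO.str.eq_iff ζ hζ ζ' hζ').1 he)⟩ (hsub hR1r) (hsub hR2r) ?_ ?_ hlam.le
    (fun ζ hζ => (hdb ζ (hsub hR1r hζ)).1) (fun ζ hζ => (hdb ζ (hsub hR2r hζ)).2)
    (B := cbX K y (Cc N lo * R1)) ?_ ?_ hf (hG.avg _ (by positivity))
  · unfold dlo; positivity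
  · unfold dhi; positivity
  · rintro _ ⟨ζ, hζ, rfl⟩
    have h1 := hO.dist_le ζ (hsub hR1r hζ)
    rw [mem_ball, dist_eq_norm] at hζ
    exact h1.trans (mul_le_mul_of_nonneg_left hζ.le hC.le)
  · have h1 : cbX K y (Cc N lo * R1) ⊆ bX K y (Cc N lo * |R1| + 1) := by
      intro x hx
      have h2 : dist (show (ofKah K).M from x) y ≤ Cc N lo * R1 := hx
      have h3 : dist (show (ofKah K).M from x) y < Cc N lo * |R1| + 1 := by
        rw [habs]; linarith
      exact h3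
    have h2 := hO.ball_sub (Cc N lo * |R1| + 1) (rr2 N lo hi R1) hr2 hr2r le_rfl hR
    have h3 := Fcl_14.strip_sub hO.str hr2.le hr2r
    refine (h1.trans (h2.trans h3)).trans (image_mono inter_subset_left)

end

/-- **the geometric half of Theorem S** -/
theorem halfG : HalfG := by
  intro N lo hi lam m R1 d hN hlo hhi hlam hm
  have hC := Cc_pos hN hlo
  have hK : hi ≤ KK1 N lo hi lam R1 d ∧ lo⁻¹ ≤ KK1 N lo hi lam R1 d ∧
      Fcl_14.KF N R1 (RR2 N lo hi R1 d) (dlo N hi) (dhi N lo) lam ≤ KK1 N lo hi lam R1 d := by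
    have h1 := inv_pos.2 hlo
    have h2 := abs_nonneg (Fcl_14.KF N R1 (RR2 N lo hi R1 d) (dlo N hi) (dhi N lo) lam)
    have h3 := le_abs_self (Fcl_14.KF N R1 (RR2 N lo hi R1 d) (dlo N hi) (dhi N lo) lam)
    unfold KK1
    refine ⟨by linarith, by linarith, by linarith⟩
  have hK0 : 0 < KK1 N lo hi lam R1 d := hhi.trans_le hK.1
  refine ⟨KK1 N lo hi lam R1 d, hK0, fun r ε hr1 hr hε => ?_⟩
  obtain ⟨r', hrr', hcl⟩ := SG4_790.closeC2 N hi⁻¹ lo⁻¹ (inv_pos.2 hhi) d r ε hr hε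
  set r'' : ℝ := max r' (RR2 N lo hi R1 d) with hr''
  have hr0 : 0 < r'' := (hr.trans_le hrr').trans_le (le_max_left _ _)
  have hd : (0 : ℝ) < d.factorial := by exact_mod_cast Nat.factorial_pos d
  have hpi := Real.pi_pos
  set R : ℝ := Cc N lo * (2 * (r'' + Real.pi * d.factorial)) + (Cc N lo * |R1| + 1) with hR
  have hR1 : 0 < Cc N lo * |R1| + 1 := by positivity
  have hR2 : 0 < Cc N lo * (2 * (r'' + Real.pi * d.factorial)) := by positivity
  refine ⟨R, by linarith, fun v C0 c L hL M _ _ _ _ _ _ A _ P K Lb h s om hS f hf y hG => ?_⟩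
  obtain ⟨ζ0, Lam, Φ, hO, hp⟩ := strip_good hN hS hlo hhi hG hr0 (by linarith)
  have hL0 : 0 < L := by linarith
  have hst : Strip A (quo s) d ζ0 r' Lam Φ := SG3_790.Strip.mono' (le_max_left _ _) hO.str
  have hm1 : strip ζ0 r' ⊆ strip ζ0 r'' := strip_mono (le_max_left _ _)
  have hz0 : ζ0 ∈ strip ζ0 r'' := mem_strip_self hr0
  refine ⟨ζ0, Lam, Φ, pbg K Φ ζ0, SG3_790.Strip.mono' hrr' hst, ?_, ?_, ?_, ?_⟩
  · refine SG3_790.pbg_lo K Φ fun i hi' v => le_trans ?_ (hp ζ0 hz0 i hi' v).1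
    refine mul_le_mul_of_nonneg_right ?_ (Finset.sum_nonneg fun j _ => by positivity)
    exact inv_anti₀ hhi hK.1
  · refine SG3_790.pbg_hi K Φ fun i hi' v => (hp ζ0 hz0 i hi' v).2.trans ?_
    exact mul_le_mul_of_nonneg_right hK.2.1 (Finset.sum_nonneg fun j _ => by positivity)
  · refine hcl M A K Lb h (s 0) om (L / m) (quo s) ζ0 Lam Φ (hS.hol 0) (by positivity) ?_ hS.omh
      hS.omn hst ?_ fun ζ hζ => hp ζ (hm1 hζ)
    · intro i x hx
      rw [hS.curv i x hx]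
      congr 1
      push_cast
      rw [inv_div]
    · intro ζ hζ
      exact (nsM_pos_iff h 0).2 (hG.nz _ (hO.mem ζ (hm1 hζ)) 0)
  · refine (fcl hN hlo hhi hlam hG hf hO hp (hr1.trans (hrr'.trans (le_max_left _ _)))
      (le_max_right _ _) (by linarith)).trans ?_
    exact ENNReal.ofReal_le_ofReal hK.2.2

end

end Crest.Agent.R281.HfG_615
end

-- ▼ part R281/ThS_612
section

/-!
# Row 281 (S0424), DIV 4: **Theorem S** (the literal statement of `SIn_14`)

assembled from `SGP_790.theoremS_of`, `HfA_593.halfA_of` (593), `halfG` (615) and `Dh5_612.diamStmt`.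
-/

namespace Crest.Agent.R281.ThS_612

/-- **Theorem S** -/
theorem theoremS : Crest.Agent.R281.SIn_14.TheoremS :=
  Crest.Agent.R281.SGP_790.theoremS_of
    (Crest.Agent.R281.HfA_593.halfA_of Crest.Agent.R281.Dh5_612.diamStmt)
    Crest.Agent.R281.HfG_615.halfG

end Crest.Agent.R281.ThS_612
end

-- ▼ part R281/Cr2_808

/-!
# R281, CORE-ASM (helper808), part 2: the composition on a vertical strip of periods

* `MemN.im`, `MemN.cl0`, `MemN.at`, `MemN.cl2` : periods of the rotated members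
* `SdatEnd`    : output of SDAT-RAY (273) for `K`; `sdatEnd_of` (modulo the static node)
* `core_ray_of`: **tubes at all members with `|re τ| ≤ B`, `im τ > Y1`** from `SdatEnd`
-/

set_option autoImplicit false
set_option linter.unusedSectionVars false
set_option maxSynthPendingDepth 3

open Set Filter Topology Complex Metric MeasureTheory
open scoped ContDiff Matrix ComplexConjugate ComplexOrder ENNReal

namespace Crest.Agent.R281.Cr_808

open Crest.Agent.R275.Geo Crest.Agent.R275.Core144 Crest.Agent.R275.EDR890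
open Crest.Agent.R275.GC293
open Crest.Agent.R273.Defs_333 Crest.Agent.R273.Hess_333 Crest.Agent.R273.HessB_333
open Crest.Agent.R273.HM_333 Crest.Agent.R273.Kah_333 Crest.Agent.R273.Vol_333
open Crest.Agent.R273.Vm_333 Crest.Agent.R273.FIb0_597
open Crest.Agent.R260.ACM_580 Crest.Agent.R260.NNB_580
open Crest.Agent.R281.Tor_922 Crest.Agent.R281.SIn_14
open Crest.Agent.R281.HkR_835 Crest.Agent.R281.Per_368 Crest.Agent.R281.Dif_268
open Crest.Agent.R281.T5L_808 Crest.Agent.R281.T5D_808 Crest.Agent.R281.T5F_808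
open Crest.Agent.R281.Cdr_234
open Crest.Agent.R281.Ti_846 (Ex)
open Crest.Agent.R281.Mc673 (V W tube ClF kv mn isOpen_tube)
open Crest.Agent.R281.Sta2_684 (smulP)
open Crest.Agent.R281.RkD_902 (Ctx MemN)
open Crest.Agent.R281.Alg_998
open Crest.Agent.R281.SDR_273 (MemW memW_of_memN Node SD)
open Crest.Agent.R238.Sch (ee norm_ee)

noncomputable section

/-! ### rotated members -/

section mem

variable {V X : Type} [NormedAddCommGroup V] [NormedSpace ℝ V] [TopologicalSpace X]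
  {C : RCh V X} {Q : F2 C →ₗ[ℝ] F2 C →ₗ[ℝ] ℝ} {F : Frm C Q} {A : F2 C} {K : Cusp F A} {τ : ℂ}
  {H : HkT C}


theorem memN_at (h : MemN K τ H) : AtTau F A H τ := by
  obtain ⟨⟨H', R, hR, hm, h0, he⟩, z, hz, h1, h2⟩ := h
  have h3 : (H'.rot R hR).om 0 = H'.om 0 := by
    show F2.lin (R 0) H'.om = _
    rw [F2.lin_eq, Fin.sum_univ_three, h0]
    simp
  have h4 : Cl (H.om 0) ((H'.rot R hR).om 0) := Cl.of_eq_on fun i z hz => (he.om 0 i z hz).symm
  rw [h3] at h4
  refine ⟨K.hY.trans (K.mem_im τ H' hm), h4.trans (K.mem_at τ H' hm).om0, z,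
    by exact_mod_cast hz.ne', ?_, ?_⟩
  · simpa using h1
  · simpa using h2

end mem

section ctx

variable {n : ℕ} {X : Type} [TopologicalSpace X] [CompactSpace X]
  {C : RCh (Cn (2 * n)) X} {Q : F2 C →ₗ[ℝ] F2 C →ₗ[ℝ] ℝ} {F : Frm C Q} {A : F2 C} {K : Cusp F A}

/-- `[om 0]`, `[om 2]` are orthogonal to `e` -/
theorem memN_perp (hX : Ctx n C Q) (hAe : Q A F.e = 0) {τ : ℂ} {H : HkT C} (h : MemN K τ H) :
    Q (H.om 0) F.e = 0 ∧ Q (H.om 2) F.e = 0 := by
  constructor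
  · rw [hX.cl_left (memN_at h).om0, hAe]
  · obtain ⟨-, z, -, -, h2⟩ := h
    rw [hX.cl_left h2, Frm.sim]
    simp only [map_smul, map_sub, LinearMap.smul_apply, LinearMap.sub_apply, smul_eq_mul, F.e_e]
    rw [hX.symm, F.e_v]
    ring

variable [MeasurableSpace X] [BorelSpace X]

/-- output of SDAT-RAY (273) -/
def SdatEnd (K : Cusp F A) : Prop :=
  ∃ (m v C0 c : ℝ) (d : ℕ) (y0 c0 : ℝ) (Lf : ℂ → ℝ), 0 < m ∧ 0 < v ∧ 0 < c ∧ 0 < c0 ∧
    (∀ τ : ℂ, y0 < τ.im → c0 * τ.im ≤ Lf τ) ∧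
    ∀ τ : ℂ, y0 < τ.im → ∀ H : HkT C, MemW K τ H → SD m v C0 c d (Lf τ) H

theorem sdatEnd_of {K : Cusp F A}
    (h : ∃ (m v C0 c : ℝ) (d : ℕ) (y0 c0 C1 : ℝ) (Lf : ℂ → ℝ), 0 < m ∧ 0 < v ∧ 0 < C0 ∧ 0 < c ∧
      0 < c0 ∧ (∀ τ : ℂ, y0 < τ.im → 1 ≤ Lf τ ∧ c0 * τ.im ≤ Lf τ ∧ Lf τ ≤ C1 * τ.im) ∧
      ∀ τ : ℂ, y0 < τ.im → ∀ H, MemW K τ H → SD m v C0 c d (Lf τ) H) : SdatEnd K := by
  obtain ⟨m, v, C0, c, d, y0, c0, C1, Lf, hm, hv, -, hc, hc0, h1, h2⟩ := h
  exact ⟨m, v, C0, c, d, y0, c0, Lf, hm, hv, hc, hc0, fun τ hτ => (h1 τ hτ).2.1, h2⟩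

variable [T2Space X] [ConnectedSpace X]

/-- **tubes at the high members** -/
theorem core_ray_of (hX : Ctx n C Q) (K : Cusp F A) (hAe : Q A F.e = 0)
    (hSd : (∃ τ H, MemN K τ H) → SdatEnd K) (B : ℝ) :
    ∃ Λ : ℝ, 0 < Λ ∧ ∀ R δ : ℝ, 0 < R → 0 < δ → ∃ Y1 : ℝ, ∀ τ : ℂ, |τ.re| ≤ B → Y1 < τ.im →
      ∀ H : HkT C, MemN K τ H →
      ∃ (A' : Atl (2 * n) X) (_ : Finite A'.ι) (_ : GoodA A') (_ : Nonempty (Part A'))
        (hp : Cp (H.acm 0) A') (L : ℝ) (hL : 0 < L) (Θ : W (2 * n) → X),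
        Mtub H {v | Q v F.e = 0} R Λ δ A' hp L hL Θ := by
  by_cases hne : ∃ τ H, MemN K τ H
  swap
  · exact ⟨1, one_pos, fun R δ _ _ => ⟨0, fun τ _ _ H hH => (hne ⟨τ, H, hH⟩).elim⟩⟩
  obtain ⟨τ1, H1, hH1⟩ := id hne
  have hQA : 0 < Q A A := by
    obtain ⟨z₁, hz₁, hzN, -⟩ := Md_252.atTau_z hX.symm hX.ex hX.eq (memN_at hH1)
    rw [← hzN]
    have h1 := norm_pos_iff.2 hz₁
    have h2 := (memN_at hH1).im_pos
    have h3 := F.hN
    positivity
  obtain ⟨κ, b, hb, hbe, hsp, -⟩ := Pall_162.ctx_exists_perp hX H1 F.int_e.rat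
  obtain ⟨Cf, hCf, hXi⟩ := Xi_831.xi_ray hX F hQA b hbe B
  obtain ⟨m, v, C0, c, d, y0, c0, Lf, hm, hv, hc, hc0, hLf, hSd⟩ := hSd hne
  have hn := hX.n1
  obtain ⟨Λ, hΛ, δ0, hδ0, hmt⟩ := member_tube ThS_612.theoremS (2 * n) d m v C0 c (by omega)
    hm hv hc
  refine ⟨Λ, hΛ, fun R δ hR hδ => ?_⟩
  obtain ⟨L0, hL0, hmt⟩ := hmt R δ hR hδ
  refine ⟨max (max y0 1) ((L0 + Cf / δ0) / c0), fun τ hre him H hH => ?_⟩
  have h1 : y0 < τ.im := lt_of_le_of_lt ((le_max_left _ _).trans (le_max_left _ _)) him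
  have h2 : 1 ≤ τ.im := (lt_of_le_of_lt ((le_max_right _ _).trans (le_max_left _ _)) him).le
  have h3 : (L0 + Cf / δ0) / c0 < τ.im := lt_of_le_of_lt (le_max_right _ _) him
  rw [div_lt_iff₀ hc0] at h3
  have h4 : L0 + Cf / δ0 ≤ Lf τ := by
    have := hLf τ h1
    linarith
  have h5 : 0 ≤ Cf / δ0 := by positivity
  have hL1 : L0 ≤ Lf τ := by linarith
  have hL : 0 < Lf τ := by linarith
  have hL2 : Cf ≤ δ0 * Lf τ ^ 2 := by
    have h6 : Cf / δ0 ≤ Lf τ ^ 2 := by nlinarith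
    rw [div_le_iff₀ hδ0] at h6
    linarith
  obtain ⟨A', hfin, hgood, ⟨P⟩, hp, K', Lb, h, s, om, hK, hSD⟩ := hSd τ h1 H (memW_of_memN hH)
  obtain ⟨b', hb', Fn, hFc, hF0, hbd, hint⟩ := hXi τ hre h2 H (memN_at hH) A' P (H.kah hp)
    (H.sig hp) (cmp_of_cp hp) (Md_252.memK_of P H hp)
  obtain ⟨ho0, ho2⟩ := memN_perp hX hAe hH
  obtain ⟨Θ, hΘ⟩ := hmt (Lf τ) hL1 hL X C H A' P hp K' Lb h s om hK hSD b hb (hsp _ ho0)
    (hsp _ ho2) b' hb' Fn Cf hFc hF0 hCf hL2 (fun k i x hx u v => by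
      rw [mul_assoc]
      exact hbd k i x hx u v) hint
  exact ⟨A', hfin, hgood, ⟨P⟩, hp, Lf τ, hL, Θ, hΘ.tub, hΘ.pin, fun v hv => hΘ.per v (hsp v hv)⟩

end ctx

end

end Crest.Agent.R281.Cr_808
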