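import Crest.Agent.R281.KrD_488
import Mathlib
import Crest.Agent.R281.Ehr2_268

-- ▼ part R281/KrB1_871
section

/-!
# R281, KRON (helper871, partner of helper488): the pointwise part

`KDat.map`, `Good.map` (specialisation of the coefficients) and, over a field of characteristic zero, the map
`H v = dG (v) • v - Nm (lam v, w v)`: it takes values in `ker lam`, its zeros with `dG ≠ 0` are the common
zeros of `E`, and its derivative is bijective on `ker lam`.
-/

set_option autoImplicit false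

open MvPolynomial Polynomial

namespace Crest.Agent.R281.KrB1_871

open Crest.Agent.R281.Kr_488

noncomputable section

variable {n N : ℕ} {R S : Type*} [CommRing R] [CommRing S]

/-- specialisation of the Kronecker data -/
def mapK (κ : KDat n N R) (φ : R →+* S) : KDat n N S where
  lam := fun j k => φ (κ.lam j k)
  w := fun k => φ (κ.w k)
  D := κ.D
  G := κ.G.map (MvPolynomial.map φ)
  Nm := fun k => (κ.Nm k).map (MvPolynomial.map φ)

theorem sub_map (κ : KDat n N R) (φ : R →+* S) (p : Polynomial (MvPolynomial (Fin (n + 1)) R)) :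
    (mapK κ φ).sub (p.map (MvPolynomial.map φ)) = MvPolynomial.map φ (κ.sub p) := by
  have h : (mapK κ φ).sub.comp (Polynomial.mapRingHom (MvPolynomial.map φ)) =
      (MvPolynomial.map φ).comp κ.sub := by
    refine Polynomial.ringHom_ext' ?_ ?_
    · refine MvPolynomial.ringHom_ext ?_ ?_
      · intro r
        simp [KDat.sub, KDat.subY, mapK]
      · intro j
        simp [KDat.sub, KDat.subY, mapK, map_lin]
    · simp [KDat.sub, KDat.subY, mapK, map_lin]
  exact congrArg (fun f => f p) h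

theorem dG_map (κ : KDat n N R) (φ : R →+* S) :
    (mapK κ φ).dG = MvPolynomial.map φ κ.dG := by
  unfold KDat.dG
  rw [← sub_map]
  congr 1
  simp [mapK, Polynomial.derivative_map]

theorem Good.map {κ : KDat n N R} {E : Set (MvPolynomial (Fin (N + 1)) R)} (h : κ.Good E)
    [Nontrivial S] (φ : R →+* S) : (mapK κ φ).Good (MvPolynomial.map φ '' E) where
  D_pos := h.D_pos
  monic := h.monic.map _
  deg := by
    show (κ.G.map (MvPolynomial.map φ)).natDegree = κ.D
    rw [h.monic.natDegree_map, h.deg]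
  homG := fun i hi => by
    show ((κ.G.map (MvPolynomial.map φ)).coeff i).IsHomogeneous (κ.D - i)
    rw [Polynomial.coeff_map]
    exact (h.homG i hi).map φ
  degN := fun k i hi => by
    show ((κ.Nm k).map (MvPolynomial.map φ)).coeff i = 0
    rw [Polynomial.coeff_map, h.degN k i hi, map_zero]
  homN := fun k i hi => by
    show (((κ.Nm k).map (MvPolynomial.map φ)).coeff i).IsHomogeneous (κ.D - i)
    rw [Polynomial.coeff_map]
    exact (h.homN k i hi).map φ
  lamN := fun j => by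
    have h1 := congrArg (Polynomial.map (MvPolynomial.map φ)) (h.lamN j)
    simpa [mapK, Polynomial.map_sum, Polynomial.derivative_map] using h1
  wN := by
    have h1 := congrArg (Polynomial.map (MvPolynomial.map φ)) h.wN
    simpa [mapK, Polynomial.map_sum, Polynomial.derivative_map] using h1
  dvd := by
    rintro _ ⟨F, hF, rfl⟩
    obtain ⟨c, hc⟩ := h.dvd F hF
    refine ⟨c.map (MvPolynomial.map φ), ?_⟩
    have h1 := congrArg (Polynomial.map (MvPolynomial.map φ)) hc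
    rw [Polynomial.map_mul] at h1
    rw [show (mapK κ φ).G = κ.G.map (MvPolynomial.map φ) from rfl, ← h1]
    have h2 : (Polynomial.mapRingHom (MvPolynomial.map φ)).comp
        (MvPolynomial.aeval κ.Nm : MvPolynomial (Fin (N + 1)) R →ₐ[R]
          Polynomial (MvPolynomial (Fin (n + 1)) R)).toRingHom =
        (MvPolynomial.aeval (mapK κ φ).Nm : MvPolynomial (Fin (N + 1)) S →ₐ[S]
          Polynomial (MvPolynomial (Fin (n + 1)) S)).toRingHom.comp (MvPolynomial.map φ) := by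
      refine MvPolynomial.ringHom_ext ?_ ?_
      · intro r
        simp [Polynomial.algebraMap_apply, MvPolynomial.algebraMap_eq]
      · intro j
        simp [mapK]
    exact (congrArg (fun f => f F) h2).symm
  memG := by
    refine ⟨_, h.memG, ?_⟩
    exact (sub_map κ φ κ.G).symm
  memN := fun k => by
    refine ⟨_, h.memN k, ?_⟩
    rw [map_sub, map_mul, MvPolynomial.map_X, dG_map]
    congr 1
    exact (sub_map κ φ (κ.Nm k)).symm

end

end Crest.Agent.R281.KrB1_871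
end

-- ▼ part R281/KrB2_871
section

/-!
# R281, KRON (helper871): the map `H v = dG (v) • v - Nm (lam v, w v)`

Polynomial identities `lam (H) = 0`, `w (H) = D * G`, the pointwise criterion on `dG ≠ 0`.
-/

set_option autoImplicit false

open MvPolynomial Polynomial

namespace Crest.Agent.R281.KrB2_871

open Crest.Agent.R281.Kr_488 Crest.Agent.R281.KrB1_871

noncomputable section

variable {n N : ℕ} {R S : Type*} [CommRing R] [CommRing S]

/-- the coordinates of `H` -/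
def Hp (κ : KDat n N R) (k : Fin (N + 1)) : MvPolynomial (Fin (N + 1)) R :=
  MvPolynomial.X k * κ.dG - κ.sub (κ.Nm k)

theorem Hp_map (κ : KDat n N R) (φ : R →+* S) (k : Fin (N + 1)) :
    Hp (mapK κ φ) k = MvPolynomial.map φ (Hp κ k) := by
  unfold Hp
  rw [map_sub, map_mul, MvPolynomial.map_X, dG_map]
  congr 1
  exact sub_map κ φ (κ.Nm k)

variable {κ : KDat n N R} {E : Set (MvPolynomial (Fin (N + 1)) R)}

theorem lam_Hp (h : κ.Good E) (j : Fin (n + 1)) :
    ∑ k, MvPolynomial.C (κ.lam j k) * Hp κ k = 0 := by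
  have h1 := congrArg κ.sub (h.lamN j)
  have h2 : κ.sub (Polynomial.C (MvPolynomial.X j) * Polynomial.derivative κ.G) =
      lin (κ.lam j) * κ.dG := by
    rw [map_mul]
    congr 1
    simp [KDat.sub, KDat.subY]
  rw [h2, map_sum] at h1
  have h3 : ∀ k, κ.sub (Polynomial.C (MvPolynomial.C (κ.lam j k)) * κ.Nm k) =
      MvPolynomial.C (κ.lam j k) * κ.sub (κ.Nm k) := by
    intro k
    rw [map_mul]
    congr 1
    simp [KDat.sub, KDat.subY]
  simp only [h3] at h1
  simp only [Hp, mul_sub, Finset.sum_sub_distrib, h1]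
  rw [lin, Finset.sum_mul, sub_eq_zero]
  exact Finset.sum_congr rfl fun k _ => (mul_assoc _ _ _).symm

theorem w_Hp (h : κ.Good E) :
    ∑ k, MvPolynomial.C (κ.w k) * Hp κ k = (κ.D : MvPolynomial (Fin (N + 1)) R) * κ.sub κ.G := by
  have h1 := congrArg κ.sub h.wN
  have h2 : κ.sub (Polynomial.X * Polynomial.derivative κ.G -
      (κ.D : Polynomial (MvPolynomial (Fin (n + 1)) R)) * κ.G) =
      lin κ.w * κ.dG - (κ.D : MvPolynomial (Fin (N + 1)) R) * κ.sub κ.G := by
    rw [map_sub, map_mul, map_mul, map_natCast]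
    congr 2
    simp [KDat.sub]
  rw [h2, map_sum] at h1
  have h3 : ∀ k, κ.sub (Polynomial.C (MvPolynomial.C (κ.w k)) * κ.Nm k) =
      MvPolynomial.C (κ.w k) * κ.sub (κ.Nm k) := by
    intro k
    rw [map_mul]
    congr 1
    simp [KDat.sub, KDat.subY]
  simp only [h3] at h1
  simp only [Hp, mul_sub, Finset.sum_sub_distrib, h1]
  rw [lin, Finset.sum_mul]
  simp only [← mul_assoc]
  ring

theorem eval_smul_homog {σ : Type*} {p : MvPolynomial σ R} {d : ℕ} (hp : p.IsHomogeneous d)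
    (c : R) (v : σ → R) : MvPolynomial.eval (c • v) p = c ^ d * MvPolynomial.eval v p := by
  rw [MvPolynomial.eval_eq, MvPolynomial.eval_eq, Finset.mul_sum]
  refine Finset.sum_congr rfl fun m hm => ?_
  have h1 : m.sum (fun _ e => e) = d := by
    have := hp (MvPolynomial.mem_support_iff.mp hm)
    rw [Finsupp.weight_apply] at this
    simpa using this
  have h2 : ∏ i ∈ m.support, (c • v) i ^ m i = c ^ d * ∏ i ∈ m.support, v i ^ m i := by
    rw [← h1, Finsupp.sum, ← Finset.prod_pow_eq_pow_sum, ← Finset.prod_mul_distrib]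
    exact Finset.prod_congr rfl fun i _ => by simp [mul_pow]
  rw [h2]
  ring

/-- **the pointwise criterion** -/
theorem mem_iff [IsDomain R] [CharZero R] (h : κ.Good E) (hE : ∀ F ∈ E, ∃ m, F.IsHomogeneous m)
    {v : Fin (N + 1) → R} (hd : MvPolynomial.eval v κ.dG ≠ 0) :
    (∀ F ∈ E, MvPolynomial.eval v F = 0) ↔ ∀ k, MvPolynomial.eval v (Hp κ k) = 0 := by
  constructor
  · intro h1 k
    exact h1 _ (h.memN k)
  · intro h1 F hF
    obtain ⟨m, hm⟩ := hE F hF
    have hG : MvPolynomial.eval v (κ.sub κ.G) = 0 := by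
      have h2 := congrArg (MvPolynomial.eval v) (w_Hp h)
      rw [map_sum, map_mul, map_natCast] at h2
      have h3 : ∑ x, MvPolynomial.eval v (MvPolynomial.C (κ.w x) * Hp κ x) = 0 :=
        Finset.sum_eq_zero fun k _ => by rw [map_mul, h1 k, mul_zero]
      rw [h3] at h2
      rcases mul_eq_zero.mp h2.symm with h4 | h4
      · exact absurd h4 (Nat.cast_ne_zero.mpr h.D_pos.ne')
      · exact h4
    set d := MvPolynomial.eval v κ.dG with hdd
    have hN : (fun k => MvPolynomial.eval v (κ.sub (κ.Nm k))) = d • v := by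
      funext k
      have h2 := h1 k
      rw [Hp, map_sub, map_mul, MvPolynomial.eval_X, sub_eq_zero] at h2
      rw [← h2, Pi.smul_apply, smul_eq_mul, mul_comm]
    have hFN : MvPolynomial.eval (d • v) F =
        KDat.ev (κ.lamv v) (lv κ.w v) (MvPolynomial.aeval κ.Nm F) := by
      rw [← hN]
      have h2 : (KDat.ev (κ.lamv v) (lv κ.w v)).comp
          (MvPolynomial.aeval κ.Nm : MvPolynomial (Fin (N + 1)) R →ₐ[R]
            Polynomial (MvPolynomial (Fin (n + 1)) R)).toRingHom =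
          MvPolynomial.eval fun k => MvPolynomial.eval v (κ.sub (κ.Nm k)) := by
        refine MvPolynomial.ringHom_ext ?_ ?_
        · intro r
          simp [KDat.ev, Polynomial.algebraMap_apply, MvPolynomial.algebraMap_eq]
        · intro k
          simp [κ.eval_sub]
      exact (congrArg (fun f => f F) h2).symm
    obtain ⟨c, hc⟩ := h.dvd F hF
    rw [hc, map_mul, ← κ.eval_sub, hG, zero_mul, eval_smul_homog hm] at hFN
    rcases mul_eq_zero.mp hFN with h4 | h4
    · exact absurd h4 (pow_ne_zero m hd)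
    · exact h4

end

end Crest.Agent.R281.KrB2_871
end

-- ▼ part R281/Eh1_461
section

/-!
# R281 (S0424), EHR-LOC, part 1 (helper461): the local theorem

`h : P × V → W` analytic near `(p0, u0)`, derivative in the `V`-direction onto at `(p0, u0)`.
`G (p, u) = u + A_u† w` solves `h (p, G (p, u)) = h (p0, u)`, `A_u = D_V h (p0, u)`.
-/

set_option autoImplicit false
set_option linter.unusedSectionVars false

open Set Filter Topology Metric
open scoped ContDiff InnerProductSpace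

namespace Crest.Agent.R281.Eh1_461

noncomputable section

variable {P V W : Type*} [NormedAddCommGroup P] [NormedSpace ℂ P] [CompleteSpace P]
  [NormedAddCommGroup V] [InnerProductSpace ℂ V] [CompleteSpace V] [FiniteDimensional ℂ V]
  [NormedAddCommGroup W] [InnerProductSpace ℂ W] [CompleteSpace W] [FiniteDimensional ℂ W]

/-- the derivative in the `V`-direction at `(p0, u)` -/
def dV (h : P × V → W) (p0 : P) (u : V) : V →L[ℂ] W := fderiv ℂ (fun v => h (p0, v)) u

/-- its adjoint -/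
def ad (h : P × V → W) (p0 : P) (u : V) : W →L[ℂ] V := ContinuousLinearMap.adjoint (dV h p0 u)

/-- the adjoint as a real linear map -/
def adR : (V →L[ℂ] W) →L[ℝ] (W →L[ℂ] V) :=
  AddMonoidHom.toRealLinearMap
    { toFun := fun T => ContinuousLinearMap.adjoint T
      map_zero' := by simp
      map_add' := fun S T => by simp } (ContinuousLinearMap.adjoint (𝕜 := ℂ)).continuous


theorem contDiffAt_dV {h : P × V → W} {p0 : P} {u0 : V} (hh : ContDiffAt ℂ ω h (p0, u0)) :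
    ContDiffAt ℂ ω (dV h p0) u0 := by
  have h1 : ContDiffAt ℂ ω (fun v => h (p0, v)) u0 :=
    ContDiffAt.comp (f := fun v => (p0, v)) u0 hh (contDiffAt_const.prodMk contDiffAt_id)
  exact h1.fderiv_right (m := ω) le_top

theorem contDiffAt_ad {h : P × V → W} {p0 : P} {u0 : V} (hh : ContDiffAt ℂ ω h (p0, u0)) :
    ContDiffAt ℝ ω (ad h p0) u0 := by
  have h1 : ContDiffAt ℝ ω (dV h p0) u0 := (contDiffAt_dV hh).restrict_scalars ℝ
  exact (adR (V := V) (W := W)).contDiff.contDiffAt.comp u0 h1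

theorem adjoint_injective {T : V →L[ℂ] W} (hT : Function.Surjective T) {y : W}
    (hy : ContinuousLinearMap.adjoint T y = 0) : y = 0 := by
  obtain ⟨x, rfl⟩ := hT y
  have : ⟪T x, T x⟫_ℂ = 0 := by
    rw [← ContinuousLinearMap.adjoint_inner_right, hy, inner_zero_right]
  exact inner_self_eq_zero.1 this

theorem comp_adjoint_injective {T : V →L[ℂ] W} (hT : Function.Surjective T) {y : W}
    (hy : T (ContinuousLinearMap.adjoint T y) = 0) : y = 0 := by
  refine adjoint_injective hT ?_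
  have : ⟪ContinuousLinearMap.adjoint T y, ContinuousLinearMap.adjoint T y⟫_ℂ = 0 := by
    rw [ContinuousLinearMap.adjoint_inner_right, hy, inner_zero_left]
  exact inner_self_eq_zero.1 this

theorem isInvertible {T : V →L[ℂ] W} (hT : Function.Surjective T) :
    (T ∘L ContinuousLinearMap.adjoint T).IsInvertible := by
  have hinj : Function.Injective (T ∘L ContinuousLinearMap.adjoint T).toLinearMap := by
    rw [← LinearMap.ker_eq_bot, LinearMap.ker_eq_bot']
    intro y hy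
    exact comp_adjoint_injective hT hy
  refine ⟨(LinearEquiv.ofInjectiveEndo _ hinj).toContinuousLinearEquiv, ?_⟩
  ext y
  rfl

/-- a continuous linear map is onto as soon as it is close to one which is onto -/
theorem eventually_surj {X : Type*} [TopologicalSpace X] {x0 : X} {T : X → V →L[ℂ] W}
    (hT : ContinuousAt T x0) (hs : Function.Surjective (T x0)) :
    ∀ᶠ x in 𝓝 x0, Function.Surjective (T x) := by
  have h1 : ContinuousAt (fun x => T x ∘L ContinuousLinearMap.adjoint (T x0)) x0 :=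
    hT.clm_comp continuousAt_const
  have h2 : ∀ᶠ x in 𝓝 x0, (T x ∘L ContinuousLinearMap.adjoint (T x0)) ∈
      {f : W →L[ℂ] W | f.IsInvertible} := by
    obtain ⟨e, he⟩ := isInvertible hs
    have h3 : range ((↑) : (W ≃L[ℂ] W) → W →L[ℂ] W) ∈ 𝓝 (T x0 ∘L ContinuousLinearMap.adjoint (T x0)) := by
      rw [← he]
      exact ContinuousLinearEquiv.nhds e
    filter_upwards [h1 h3] with x hx
    obtain ⟨e', he'⟩ := hx
    exact ⟨e', he'⟩
  filter_upwards [h2] with x hx
  obtain ⟨e, he⟩ := hx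
  intro y
  refine ⟨ContinuousLinearMap.adjoint (T x0) (e.symm y), ?_⟩
  have := congrArg (fun f : W →L[ℂ] W => f (e.symm y)) he
  simpa using this.symm

/-! ### the local theorem -/

/-- `(p, u, w) ↦ h (p, u + a w) - h (p0, u)` with `a` an independent variable -/
def eqn (h : P × V → W) (p0 : P) (z : (P × V × (W →L[ℂ] V)) × W) : W :=
  h (z.1.1, z.1.2.1 + z.1.2.2 z.2) - h (p0, z.1.2.1)

section Local

variable {h : P × V → W} {p0 : P} {u0 : V}

theorem contDiffAt_eqn (hh : ContDiffAt ℂ ω h (p0, u0)) (a0 : W →L[ℂ] V) :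
    ContDiffAt ℂ ω (eqn h p0) ((p0, u0, a0), 0) := by
  unfold eqn
  refine ContDiffAt.sub ?_ ?_
  · refine ContDiffAt.comp (g := h)
      (f := fun z : (P × V × (W →L[ℂ] V)) × W => (z.1.1, z.1.2.1 + z.1.2.2 z.2)) _ ?_ ?_
    · simpa using hh
    · fun_prop
  · refine ContDiffAt.comp (g := h)
      (f := fun z : (P × V × (W →L[ℂ] V)) × W => (p0, z.1.2.1)) _ ?_ ?_
    · simpa using hh
    · fun_prop

theorem fderiv_eqn (hh : ContDiffAt ℂ ω h (p0, u0)) (a0 : W →L[ℂ] V) :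
    fderiv ℂ (eqn h p0) ((p0, u0, a0), 0) ∘L .inr ℂ _ _ = dV h p0 u0 ∘L a0 := by
  have h1 : HasFDerivAt (eqn h p0) (fderiv ℂ (eqn h p0) ((p0, u0, a0), (0 : W)))
      ((p0, u0, a0), (0 : W)) :=
    ((contDiffAt_eqn hh a0).differentiableAt (by simp)).hasFDerivAt
  have h2 : HasFDerivAt (fun y : W => eqn h p0 ((p0, u0, a0), y))
      (fderiv ℂ (eqn h p0) ((p0, u0, a0), (0 : W)) ∘L .inr ℂ _ _) 0 :=
    HasFDerivAt.comp (f := fun y : W => ((p0, u0, a0), y)) (0 : W) h1 (hasFDerivAt_prodMk_right _ _)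
  have h3 : HasFDerivAt (fun v => h (p0, v)) (dV h p0 u0) u0 := by
    have : ContDiffAt ℂ ω (fun v => h (p0, v)) u0 :=
      ContDiffAt.comp (f := fun v => (p0, v)) u0 hh (contDiffAt_const.prodMk contDiffAt_id)
    exact (this.differentiableAt (by simp)).hasFDerivAt
  have h4 : HasFDerivAt (fun y : W => eqn h p0 ((p0, u0, a0), y)) (dV h p0 u0 ∘L a0) 0 := by
    have h5 : HasFDerivAt (fun y : W => u0 + a0 y) a0 0 := (a0.hasFDerivAt).const_add u0
    have h6 : HasFDerivAt (fun v => h (p0, v)) (dV h p0 u0) (u0 + a0 0) := by simpa using h3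
    exact (HasFDerivAt.comp (0 : W) h6 h5).sub_const (h (p0, u0))
  exact h2.unique h4

theorem local_triv (hh : ContDiffAt ℂ ω h (p0, u0)) (hs : Function.Surjective (dV h p0 u0)) :
    ∃ G G' : P × V → V, ContDiffAt ℝ ω G (p0, u0) ∧ ContDiffAt ℝ ω G' (p0, u0) ∧
      (∀ᶠ u in 𝓝 u0, G (p0, u) = u) ∧
      (∀ᶠ q in 𝓝 (p0, u0), h (q.1, G q) = h (p0, q.2) ∧ (∃ y, G q = q.2 + ad h p0 q.2 y) ∧
        DifferentiableAt ℂ (fun p => G (p, q.2)) q.1 ∧ G' (q.1, G q) = q.2 ∧
        G (q.1, G' q) = q.2) ∧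
      (∀ᶠ z in 𝓝 ((p0, u0), (0 : V)), ∀ y, z.2 = ad h p0 z.1.2 y →
        h (z.1.1, z.1.2 + z.2) = h (p0, z.1.2) → z.1.2 + z.2 = G z.1) := by
  set a0 : W →L[ℂ] V := ad h p0 u0 with ha0
  set x0 : (P × V × (W →L[ℂ] V)) × W := ((p0, u0, a0), 0) with hx0
  have hf : ContDiffAt ℂ ω (eqn h p0) x0 := contDiffAt_eqn hh a0
  have hf0 : eqn h p0 x0 = 0 := by simp [eqn, hx0]
  have hinv : (fderiv ℂ (eqn h p0) x0 ∘L .inr ℂ _ _).IsInvertible := by
    rw [fderiv_eqn hh a0]
    exact isInvertible hs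
  set w := hf.implicitFunction (by simp) hinv with hw
  have hw0 : w (p0, u0, a0) = 0 := hf.implicitFunction_apply_self (by simp) hinv
  have hwc : ContDiffAt ℂ ω w (p0, u0, a0) := hf.contDiffAt_implicitFunction (by simp) hinv
  have hw1 : ∀ᶠ x in 𝓝 (p0, u0, a0), eqn h p0 (x, w x) = 0 := by
    have := hf.eventually_apply_implicitFunction (by simp) hinv
    rw [hf0] at this
    exact this
  have hw2 : ∀ᶠ z in 𝓝 x0, eqn h p0 z = 0 ↔ w z.1 = z.2 := by
    have := hf.eventually_apply_eq_iff_implicitFunction (by simp) hinv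
    rw [hf0] at this
    exact this
  have hadR : ContDiffAt ℝ ω (ad h p0) u0 := contDiffAt_ad hh
  set ι : P × V → P × V × (W →L[ℂ] V) := fun q => (q.1, q.2, ad h p0 q.2) with hι
  have hιc : ContDiffAt ℝ ω ι (p0, u0) := by
    refine contDiffAt_fst.prodMk (contDiffAt_snd.prodMk ?_)
    exact ContDiffAt.comp (f := fun q : P × V => q.2) (p0, u0) hadR contDiffAt_snd
  have hι0 : ι (p0, u0) = (p0, u0, a0) := rfl
  have hιt : Tendsto ι (𝓝 (p0, u0)) (𝓝 (p0, u0, a0)) := hιc.continuousAt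
  set G : P × V → V := fun q => q.2 + ad h p0 q.2 (w (ι q)) with hG
  have hGc : ContDiffAt ℝ ω G (p0, u0) := by
    refine contDiffAt_snd.add ?_
    have h1 : ContDiffAt ℝ ω (fun q : P × V => ad h p0 q.2) (p0, u0) :=
      ContDiffAt.comp (f := fun q : P × V => q.2) (p0, u0) hadR contDiffAt_snd
    have h2 : ContDiffAt ℝ ω (fun q => w (ι q)) (p0, u0) :=
      ContDiffAt.comp (p0, u0) (hwc.restrict_scalars ℝ) hιc
    have h3 : ContDiff ℝ ω (fun p : (W →L[ℂ] V) × W => p.1 p.2) :=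
      (isBoundedBilinearMap_apply (𝕜 := ℂ) (E := W) (F := V)).contDiff.restrict_scalars ℝ
    exact ContDiffAt.comp (g := fun p : (W →L[ℂ] V) × W => p.1 p.2)
      (f := fun q : P × V => (ad h p0 q.2, w (ι q))) (p0, u0) h3.contDiffAt (h1.prodMk h2)
  have hG0 : G (p0, u0) = u0 := by simp [hG, hι0, hw0]
  -- `G (p0, u) = u`
  have hGu : ∀ᶠ u in 𝓝 u0, G (p0, u) = u := by
    have h1 : Tendsto (fun u : V => ((ι (p0, u), (0 : W)) : (P × V × (W →L[ℂ] V)) × W)) (𝓝 u0)
        (𝓝 x0) := by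
      have h2 : Tendsto (fun u : V => ι (p0, u)) (𝓝 u0) (𝓝 (p0, u0, a0)) :=
        hιt.comp (by rw [nhds_prod_eq]; exact tendsto_const_nhds.prodMk tendsto_id)
      exact h2.prodMk_nhds tendsto_const_nhds
    filter_upwards [h1 hw2] with u hu
    have h3 : eqn h p0 (ι (p0, u), (0 : W)) = 0 := by simp [eqn, hι]
    have h4 : w (ι (p0, u)) = 0 := hu.1 h3
    simp [hG, h4]
  -- the equation
  have hGe : ∀ᶠ q in 𝓝 (p0, u0), h (q.1, G q) = h (p0, q.2) := by
    filter_upwards [hιt hw1] with q hq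
    exact sub_eq_zero.1 hq
  -- holomorphy in `p`
  have hGh : ∀ᶠ q in 𝓝 (p0, u0), DifferentiableAt ℂ (fun p => G (p, q.2)) q.1 := by
    have h1 : ∀ᶠ x in 𝓝 (p0, u0, a0), ContDiffAt ℂ ω w x := hwc.eventually (by simp)
    filter_upwards [hιt h1] with q hq
    have hq' : ContDiffAt ℂ ω w (q.1, q.2, ad h p0 q.2) := hq
    have h2 : DifferentiableAt ℂ w (q.1, q.2, ad h p0 q.2) := hq'.differentiableAt (by simp)
    have h3 : DifferentiableAt ℂ (fun p : P => w (p, q.2, ad h p0 q.2)) q.1 :=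
      DifferentiableAt.comp (f := fun p : P => (p, q.2, ad h p0 q.2)) q.1 h2
        (differentiableAt_id.prodMk (differentiableAt_const _))
    exact ((ad h p0 q.2).differentiableAt.comp q.1 h3).const_add q.2
  -- the local inverse
  set H : P × V → P × V := fun q => (q.1, G q) with hH
  have hHc : ContDiffAt ℝ ω H (p0, u0) := contDiffAt_fst.prodMk hGc
  have hH0 : H (p0, u0) = (p0, u0) := by simp [hH, hG0]
  set D : P × V →L[ℝ] V := fderiv ℝ G (p0, u0) with hD
  have hGd : HasFDerivAt G D (p0, u0) := (hGc.differentiableAt (by simp)).hasFDerivAt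
  have hDr : D ∘L .inr ℝ P V = .id ℝ V := by
    have h1 : HasFDerivAt (fun u : V => G (p0, u)) (D ∘L .inr ℝ P V) u0 :=
      HasFDerivAt.comp (f := fun u : V => (p0, u)) u0 hGd (hasFDerivAt_prodMk_right _ _)
    have h2 : HasFDerivAt (fun u : V => G (p0, u)) (.id ℝ V) u0 :=
      (hasFDerivAt_id (𝕜 := ℝ) u0).congr_of_eventuallyEq hGu
    exact h1.unique h2
  have hDv : ∀ (a : P) (b : V), D (a, b) = D (a, 0) + b := by
    intro a b
    have h1 : ((a, b) : P × V) = (a, 0) + (0, b) := by simp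
    have h2 : D (0, b) = b := by
      have := congrArg (fun f : V →L[ℝ] V => f b) hDr
      simpa using this
    rw [h1, map_add, h2]
  let L : (P × V) ≃L[ℝ] (P × V) := ContinuousLinearEquiv.equivOfInverse
    ((ContinuousLinearMap.fst ℝ P V).prod D)
    ((ContinuousLinearMap.fst ℝ P V).prod (ContinuousLinearMap.snd ℝ P V -
      D ∘L (ContinuousLinearMap.inl ℝ P V) ∘L (ContinuousLinearMap.fst ℝ P V)))
    (fun q => by
      obtain ⟨a, b⟩ := q
      simp [hDv a b])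
    (fun q => by
      obtain ⟨a, b⟩ := q
      simp [hDv a (b - D (a, 0))])
  have hHd : HasFDerivAt H (L : (P × V) →L[ℝ] (P × V)) (p0, u0) := by
    have : HasFDerivAt H ((ContinuousLinearMap.fst ℝ P V).prod D) (p0, u0) :=
      hasFDerivAt_fst.prodMk hGd
    exact this
  have hHs : HasStrictFDerivAt H (L : (P × V) →L[ℝ] (P × V)) (p0, u0) :=
    hHc.hasStrictFDerivAt' hHd (by simp)
  set K : P × V → P × V := hHs.localInverse H L (p0, u0) with hK
  have hK1 : ∀ᶠ q in 𝓝 (p0, u0), K (H q) = q := hHs.eventually_left_inverse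
  have hK2 : ∀ᶠ q in 𝓝 (p0, u0), H (K q) = q := by
    have := hHs.eventually_right_inverse
    rwa [hH0] at this
  have hKc : ContDiffAt ℝ ω K (p0, u0) := by
    have := ContDiffAt.to_localInverse hHc hHd (by simp)
    rw [hH0] at this
    exact this
  refine ⟨G, fun q => (K q).2, hGc, ?_, hGu, ?_, ?_⟩
  · exact ContDiffAt.comp (g := fun q : P × V => q.2) (p0, u0) contDiffAt_snd hKc
  · filter_upwards [hGe, hGh, hK1, hK2] with q h1 h2 h3 h4
    refine ⟨h1, ⟨_, rfl⟩, h2, ?_, ?_⟩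
    · have := congrArg Prod.snd h3
      exact this
    · have h5 : (H (K q)).1 = q.1 := by rw [h4]
      have h6 : (H (K q)).2 = q.2 := by rw [h4]
      have h7 : (q.1, (K q).2) = K q := by rw [← h5]
      show G (q.1, (K q).2) = q.2
      rw [h7]
      exact h6
  · -- uniqueness
    set T : V → W →L[ℂ] W := fun u => dV h p0 u ∘L ad h p0 u with hT
    have hdc : ContinuousAt (dV h p0) u0 := (contDiffAt_dV hh).continuousAt
    have hac : ContinuousAt (ad h p0) u0 := hadR.continuousAt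
    have hTc : ContinuousAt T u0 := hdc.clm_comp hac
    obtain ⟨e, he⟩ := isInvertible hs
    have hTe : T u0 = (e : W →L[ℂ] W) := he.symm
    have hTi : ∀ᶠ u in 𝓝 u0, ∃ e' : W ≃L[ℂ] W, (e' : W →L[ℂ] W) = T u := by
      have h3 : range ((↑) : (W ≃L[ℂ] W) → W →L[ℂ] W) ∈ 𝓝 (T u0) := by
        rw [hTe]
        exact ContinuousLinearEquiv.nhds e
      exact hTc h3
    have hci : ContinuousAt (fun u => (T u).inverse) u0 := by
      have h1 : ContinuousAt ContinuousLinearMap.inverse (T u0) := by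
        rw [hTe]
        exact (contDiffAt_map_inverse (𝕜 := ℂ) (n := 1) e).continuousAt
      exact ContinuousAt.comp (g := ContinuousLinearMap.inverse) h1 hTc
    set Y : (P × V) × V → W := fun z => (T z.1.2).inverse (dV h p0 z.1.2 z.2) with hY
    have hYc : ContinuousAt Y ((p0, u0), 0) := by
      have h1 : ContinuousAt (fun z : (P × V) × V => z.1.2) ((p0, u0), 0) := by fun_prop
      have h2 : ContinuousAt (fun z : (P × V) × V => (T z.1.2).inverse) ((p0, u0), 0) :=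
        ContinuousAt.comp (g := fun u => (T u).inverse) (f := fun z : (P × V) × V => z.1.2) hci h1
      have h3 : ContinuousAt (fun z : (P × V) × V => dV h p0 z.1.2) ((p0, u0), 0) :=
        ContinuousAt.comp (g := dV h p0) (f := fun z : (P × V) × V => z.1.2) hdc h1
      have h4 : ContinuousAt (fun z : (P × V) × V => z.2) ((p0, u0), 0) := by fun_prop
      exact h2.clm_apply (h3.clm_apply h4)
    have hY0 : Y ((p0, u0), 0) = 0 := by simp [hY]
    have hZ : Tendsto (fun z : (P × V) × V => ((ι z.1, Y z) : (P × V × (W →L[ℂ] V)) × W))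
        (𝓝 ((p0, u0), 0)) (𝓝 x0) := by
      have h1 : Tendsto (fun z : (P × V) × V => ι z.1) (𝓝 ((p0, u0), 0)) (𝓝 (p0, u0, a0)) :=
        hιt.comp (by
          have : ContinuousAt (fun z : (P × V) × V => z.1) ((p0, u0), 0) := by fun_prop
          exact this)
      have h2 : Tendsto Y (𝓝 ((p0, u0), 0)) (𝓝 0) := by
        have := hYc
        rwa [ContinuousAt, hY0] at this
      exact h1.prodMk_nhds h2
    have h5 : ∀ᶠ z in 𝓝 ((p0, u0), (0 : V)), ∃ e' : W ≃L[ℂ] W, (e' : W →L[ℂ] W) = T z.1.2 := by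
      have h1 : Tendsto (fun z : (P × V) × V => z.1.2) (𝓝 ((p0, u0), 0)) (𝓝 u0) := by
        have : ContinuousAt (fun z : (P × V) × V => z.1.2) ((p0, u0), 0) := by fun_prop
        exact this
      exact h1 hTi
    filter_upwards [hZ hw2, h5] with z h6 h7 y hy1 hy2
    obtain ⟨e', he'⟩ := h7
    have h8 : Y z = y := by
      have : dV h p0 z.1.2 z.2 = T z.1.2 y := by rw [hy1]; rfl
      simp only [hY]
      rw [this, ← he', ContinuousLinearMap.inverse_equiv]
      simp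
    have h9 : eqn h p0 (ι z.1, Y z) = 0 := by
      simp only [eqn, hι, h8]
      rw [← hy1]
      exact sub_eq_zero.2 hy2
    have h10 : w (ι z.1) = Y z := h6.1 h9
    show z.1.2 + z.2 = z.1.2 + ad h p0 z.1.2 (w (ι z.1))
    rw [h10, h8, hy1]

end Local

end

end Crest.Agent.R281.Eh1_461
end

-- ▼ part R281/Eh2_461
section

/-!
# R281 (S0424), EHR-LOC, part 2 (helper461): tangent space of the fibre, local package
-/

set_option autoImplicit false
set_option linter.unusedSectionVars false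

open Set Filter Topology Metric
open scoped ContDiff InnerProductSpace

namespace Crest.Agent.R281.Eh2_461

open Crest.Agent.R281.Eh1_461

noncomputable section

variable {P V W : Type*} [NormedAddCommGroup P] [NormedSpace ℂ P] [CompleteSpace P]
  [NormedAddCommGroup V] [InnerProductSpace ℂ V] [CompleteSpace V] [FiniteDimensional ℂ V]
  [NormedAddCommGroup W] [InnerProductSpace ℂ W] [CompleteSpace W] [FiniteDimensional ℂ W]

/-- velocities at `u` of the curves in the fibre over `p0` -/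
def Tan (C : Set (P × V)) (p0 : P) (u : V) : Set V :=
  {k | ∃ γ : ℝ → V, γ 0 = u ∧ HasDerivAt γ k 0 ∧ ∀ᶠ t in 𝓝 (0 : ℝ), (p0, γ t) ∈ C}

/-- the vectors orthogonal to the tangent space of the fibre -/
def Nor (C : Set (P × V)) (p0 : P) (u : V) : Set V := {n | ∀ k ∈ Tan C p0 u, ⟪k, n⟫_ℂ = 0}

/-- `C` is given near `(p0, u)` by equations whose derivative in the `V`-direction is onto -/
def LocEq (C : Set (P × V)) (p0 : P) (u : V) : Prop :=
  ∃ (c : ℕ) (h : P × V → EuclideanSpace ℂ (Fin c)), AnalyticAt ℂ h (p0, u) ∧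
    Function.Surjective (fderiv ℂ (fun v => h (p0, v)) u) ∧ ∀ᶠ q in 𝓝 (p0, u), q ∈ C ↔ h q = 0

theorem Nor.zero_mem (C : Set (P × V)) (p0 : P) (u : V) : (0 : V) ∈ Nor C p0 u := fun k _ => by
  simp

section Tan

variable {C : Set (P × V)} {h : P × V → W} {p0 : P} {u0 : V}

theorem hasFDerivAt_slice (hh : ContDiffAt ℂ ω h (p0, u0)) :
    HasFDerivAt (fun v => h (p0, v)) (dV h p0 u0) u0 := by
  have : ContDiffAt ℂ ω (fun v => h (p0, v)) u0 :=
    ContDiffAt.comp (f := fun v => (p0, v)) u0 hh (contDiffAt_const.prodMk contDiffAt_id)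
  exact (this.differentiableAt (by simp)).hasFDerivAt

theorem dV_eq_zero_of_mem_tan (hh : ContDiffAt ℂ ω h (p0, u0))
    (hC : ∀ᶠ q in 𝓝 (p0, u0), q ∈ C ↔ h q = 0) {k : V} (hk : k ∈ Tan C p0 u0) :
    dV h p0 u0 k = 0 := by
  obtain ⟨γ, h0, h1, h2⟩ := hk
  have h3 : HasFDerivAt (fun v => h (p0, v)) ((dV h p0 u0).restrictScalars ℝ) (γ 0) := by
    rw [h0]
    exact (hasFDerivAt_slice hh).restrictScalars ℝ
  have h4 : HasDerivAt (fun t => h (p0, γ t)) (dV h p0 u0 k) 0 := h3.comp_hasDerivAt (0 : ℝ) h1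
  have h5 : Tendsto (fun t => (p0, γ t)) (𝓝 0) (𝓝 (p0, u0)) := by
    have : Tendsto γ (𝓝 0) (𝓝 u0) := by
      have := h1.continuousAt.tendsto
      rwa [h0] at this
    exact tendsto_const_nhds.prodMk_nhds this
  have h6 : (fun t => h (p0, γ t)) =ᶠ[𝓝 0] fun _ => (0 : W) := by
    filter_upwards [h5 hC, h2] with t ht1 ht2
    exact ht1.1 ht2
  have h7 : HasDerivAt (fun t => h (p0, γ t)) 0 0 :=
    (hasDerivAt_const (0 : ℝ) (0 : W)).congr_of_eventuallyEq h6
  exact h4.unique h7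

theorem mem_tan_of_dV_eq_zero (hh : ContDiffAt ℂ ω h (p0, u0))
    (hs : Function.Surjective (dV h p0 u0)) (h0 : h (p0, u0) = 0)
    (hC : ∀ᶠ q in 𝓝 (p0, u0), q ∈ C ↔ h q = 0) {k : V} (hk : dV h p0 u0 k = 0) :
    k ∈ Tan C p0 u0 := by
  set B : W →L[ℂ] V := ad h p0 u0 with hB
  set g : ℂ × W → V := fun z => u0 + (z.1 • k + B z.2) with hg
  set f : ℂ × W → W := fun z => h (p0, g z) with hf
  have hg0 : g (0, 0) = u0 := by simp [hg]
  have hgd : HasFDerivAt g (((ContinuousLinearMap.fst ℂ ℂ W).smulRight k) +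
      B ∘L (ContinuousLinearMap.snd ℂ ℂ W)) (0, 0) := by
    have h1 : HasFDerivAt (fun z : ℂ × W => z.1 • k)
        ((ContinuousLinearMap.fst ℂ ℂ W).smulRight k) (0, 0) :=
      ((ContinuousLinearMap.fst ℂ ℂ W).smulRight k).hasFDerivAt
    have h2 : HasFDerivAt (fun z : ℂ × W => B z.2) (B ∘L (ContinuousLinearMap.snd ℂ ℂ W)) (0, 0) :=
      (B ∘L (ContinuousLinearMap.snd ℂ ℂ W)).hasFDerivAt
    exact (h1.add h2).const_add u0
  have hgc : ContDiffAt ℂ ω g (0, 0) := by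
    have h1 : ContDiffAt ℂ ω (fun z : ℂ × W => z.1 • k) (0, 0) :=
      ((ContinuousLinearMap.fst ℂ ℂ W).smulRight k).contDiff.contDiffAt
    have h2 : ContDiffAt ℂ ω (fun z : ℂ × W => B z.2) (0, 0) :=
      (B ∘L (ContinuousLinearMap.snd ℂ ℂ W)).contDiff.contDiffAt
    exact contDiffAt_const.add (h1.add h2)
  have hfc : ContDiffAt ℂ ω f (0, 0) := by
    refine ContDiffAt.comp (g := h) (f := fun z => (p0, g z)) (0, 0) ?_
      (contDiffAt_const.prodMk hgc)
    rw [hg0]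
    exact hh
  have hfd : HasFDerivAt f (dV h p0 u0 ∘L (((ContinuousLinearMap.fst ℂ ℂ W).smulRight k) +
      B ∘L (ContinuousLinearMap.snd ℂ ℂ W))) (0, 0) := by
    have h1 : HasFDerivAt (fun v => h (p0, v)) (dV h p0 u0) (g (0, 0)) := by
      rw [hg0]
      exact hasFDerivAt_slice hh
    exact HasFDerivAt.comp (0, 0) h1 hgd
  have hff : fderiv ℂ f (0, 0) = dV h p0 u0 ∘L (((ContinuousLinearMap.fst ℂ ℂ W).smulRight k) +
      B ∘L (ContinuousLinearMap.snd ℂ ℂ W)) := hfd.fderiv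
  have hinr : fderiv ℂ f (0, 0) ∘L .inr ℂ ℂ W = dV h p0 u0 ∘L B := by
    rw [hff]
    ext y
    simp
  have hinl : fderiv ℂ f (0, 0) ∘L .inl ℂ ℂ W = 0 := by
    rw [hff]
    ext
    simp [hk]
  have hinv : (fderiv ℂ f (0, 0) ∘L .inr ℂ ℂ W).IsInvertible := by
    rw [hinr]
    exact isInvertible hs
  set y := hfc.implicitFunction (by simp) hinv with hy
  have hy0 : y 0 = 0 := hfc.implicitFunction_apply_self (by simp) hinv
  have hf0 : f (0, 0) = 0 := by simp [hf, hg0, h0]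
  have hy1 : ∀ᶠ t in 𝓝 (0 : ℂ), f (t, y t) = 0 := by
    have := hfc.eventually_apply_implicitFunction (by simp) hinv
    rw [hf0] at this
    exact this
  have hyd : HasFDerivAt y (0 : ℂ →L[ℂ] W) 0 := by
    have := (hfc.hasStrictFDerivAt_implicitFunction (by simp) hinv).hasFDerivAt
    rw [hinl] at this
    simpa using this
  have hyr : HasDerivAt (fun t : ℝ => y (t : ℂ)) 0 0 := by
    have h1 : HasFDerivAt y ((0 : ℂ →L[ℂ] W).restrictScalars ℝ) ((0 : ℝ) : ℂ) := by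
      rw [Complex.ofReal_zero]
      exact hyd.restrictScalars ℝ
    have h2 : HasDerivAt (fun t : ℝ => (t : ℂ)) 1 0 := Complex.ofRealCLM.hasDerivAt
    have h3 := HasFDerivAt.comp_hasDerivAt (0 : ℝ) h1 h2
    have h4 : HasDerivAt (fun t : ℝ => y (t : ℂ))
        (((0 : ℂ →L[ℂ] W).restrictScalars ℝ) 1) 0 := h3
    simpa using h4
  have hct : Tendsto (fun t : ℝ => (t : ℂ)) (𝓝 0) (𝓝 0) := by
    have := Complex.continuous_ofReal.continuousAt.tendsto (x := (0 : ℝ))
    simpa using this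
  refine ⟨fun t => g ((t : ℂ), y (t : ℂ)), by simp [hy0, hg0], ?_, ?_⟩
  · have h1 : HasDerivAt (fun t : ℝ => B (y (t : ℂ))) 0 0 := by
      have h3 : HasDerivAt (fun t : ℝ => B (y (t : ℂ))) ((B.restrictScalars ℝ) 0) 0 :=
        (B.restrictScalars ℝ).hasFDerivAt.comp_hasDerivAt (0 : ℝ) hyr
      rwa [map_zero] at h3
    have h2 : HasDerivAt (fun t : ℝ => (t : ℂ) • k) k 0 := by
      have h3 : HasDerivAt (fun t : ℝ => t • k) ((1 : ℝ) • k) 0 := (hasDerivAt_id (0 : ℝ)).smul_const k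
      rw [one_smul] at h3
      refine h3.congr_of_eventuallyEq (Filter.Eventually.of_forall fun t => ?_)
      simp
    have h5 := (h2.add h1).const_add u0
    rw [add_zero] at h5
    exact h5
  · have h1 : Tendsto (fun t : ℝ => (p0, g ((t : ℂ), y (t : ℂ)))) (𝓝 0) (𝓝 (p0, u0)) := by
      have h2 : Tendsto (fun t : ℝ => y (t : ℂ)) (𝓝 0) (𝓝 0) := by
        have := hyr.continuousAt.tendsto
        simpa [hy0] using this
      have h3 : Tendsto g (𝓝 (0, 0)) (𝓝 u0) := by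
        have := hgc.continuousAt.tendsto
        rwa [hg0] at this
      exact tendsto_const_nhds.prodMk_nhds (h3.comp (hct.prodMk_nhds h2))
    filter_upwards [h1 hC, hct hy1] with t ht1 ht2
    exact ht1.2 ht2

theorem mem_tan_iff (hh : ContDiffAt ℂ ω h (p0, u0))
    (hs : Function.Surjective (dV h p0 u0)) (h0 : h (p0, u0) = 0)
    (hC : ∀ᶠ q in 𝓝 (p0, u0), q ∈ C ↔ h q = 0) {k : V} :
    k ∈ Tan C p0 u0 ↔ dV h p0 u0 k = 0 :=
  ⟨dV_eq_zero_of_mem_tan hh hC, mem_tan_of_dV_eq_zero hh hs h0 hC⟩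

theorem mem_nor_iff (hh : ContDiffAt ℂ ω h (p0, u0))
    (hs : Function.Surjective (dV h p0 u0)) (h0 : h (p0, u0) = 0)
    (hC : ∀ᶠ q in 𝓝 (p0, u0), q ∈ C ↔ h q = 0) {n : V} :
    n ∈ Nor C p0 u0 ↔ ∃ y, n = ad h p0 u0 y := by
  constructor
  · intro hn
    have h1 : n ∈ (dV h p0 u0).kerᗮ := by
      rw [Submodule.mem_orthogonal]
      intro k hk
      exact hn k ((mem_tan_iff hh hs h0 hC).2 hk)
    rw [ContinuousLinearMap.orthogonal_ker] at h1
    have h2 : n ∈ (ContinuousLinearMap.adjoint (dV h p0 u0)).range := by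
      rwa [Submodule.closed_of_finiteDimensional _ |>.submodule_topologicalClosure_eq] at h1
    obtain ⟨y, hy⟩ := h2
    exact ⟨y, hy.symm⟩
  · rintro ⟨y, rfl⟩ k hk
    have h1 := (mem_tan_iff hh hs h0 hC).1 hk
    rw [ad, ContinuousLinearMap.adjoint_inner_right, h1, inner_zero_left]

end Tan

/-! ### the local package -/

section Pack

variable {C : Set (P × V)} {p0 : P} {u0 : V}

theorem local_package (hloc : LocEq C p0 u0) :
    ∃ G G' : P × V → V, ContDiffAt ℝ ω G (p0, u0) ∧ ContDiffAt ℝ ω G' (p0, u0) ∧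
      (∀ᶠ u in 𝓝 u0, G (p0, u) = u) ∧ G' (p0, u0) = u0 ∧
      (∀ᶠ q in 𝓝 (p0, u0), DifferentiableAt ℂ (fun p => G (p, q.2)) q.1 ∧
        G' (q.1, G q) = q.2 ∧ G (q.1, G' q) = q.2 ∧
        ((p0, q.2) ∈ C → (q.1, G q) ∈ C ∧ G q - q.2 ∈ Nor C p0 q.2) ∧
        (q ∈ C → (p0, G' q) ∈ C)) ∧
      (∀ᶠ z in 𝓝 ((p0, u0), (0 : V)), (p0, z.1.2) ∈ C → z.2 ∈ Nor C p0 z.1.2 →
        (z.1.1, z.1.2 + z.2) ∈ C → z.1.2 + z.2 = G z.1) := by
  obtain ⟨c, h, hA, hs, hC⟩ := hloc
  have hh : ContDiffAt ℂ ω h (p0, u0) := hA.contDiffAt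
  have hs' : Function.Surjective (dV h p0 u0) := hs
  obtain ⟨G, G', hG, hG', hGu, hE, hU⟩ := local_triv hh hs'
  have hG0 : G (p0, u0) = u0 := hGu.self_of_nhds
  have hG'0 : G' (p0, u0) = u0 := by
    have := (hE.self_of_nhds).2.2.2.1
    simpa [hG0] using this
  -- what holds at all points of the slice near `u0`
  have hsl : Tendsto (fun u : V => (p0, u)) (𝓝 u0) (𝓝 (p0, u0)) :=
    tendsto_const_nhds.prodMk_nhds tendsto_id
  have hN : ∀ᶠ u in 𝓝 u0, (p0, u) ∈ C → ∀ n, n ∈ Nor C p0 u ↔ ∃ y, n = ad h p0 u y := by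
    have h1 : ∀ᶠ u in 𝓝 u0, ContDiffAt ℂ ω h (p0, u) := hsl (hh.eventually (by simp))
    have h2 : ∀ᶠ u in 𝓝 u0, Function.Surjective (dV h p0 u) :=
      eventually_surj (contDiffAt_dV hh).continuousAt hs'
    have h3 : ∀ᶠ u in 𝓝 u0, ∀ᶠ q in 𝓝 (p0, u), q ∈ C ↔ h q = 0 := hsl hC.eventually_nhds
    filter_upwards [h1, h2, h3] with u g1 g2 g3 hu n
    exact mem_nor_iff g1 g2 (g3.self_of_nhds.1 hu) g3
  have hCs : ∀ᶠ u in 𝓝 u0, (p0, u) ∈ C ↔ h (p0, u) = 0 := hsl hC
  have ht2 : Tendsto (fun q : P × V => q.2) (𝓝 (p0, u0)) (𝓝 u0) := continuousAt_snd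
  have ht1 : Tendsto (fun q : P × V => q.1) (𝓝 (p0, u0)) (𝓝 p0) := continuousAt_fst
  have hGt : Tendsto (fun q : P × V => (q.1, G q)) (𝓝 (p0, u0)) (𝓝 (p0, u0)) := by
    have : Tendsto G (𝓝 (p0, u0)) (𝓝 u0) := by
      have := hG.continuousAt.tendsto
      rwa [hG0] at this
    exact ht1.prodMk_nhds this
  have hG't : Tendsto (fun q : P × V => (q.1, G' q)) (𝓝 (p0, u0)) (𝓝 (p0, u0)) := by
    have : Tendsto G' (𝓝 (p0, u0)) (𝓝 u0) := by
      have := hG'.continuousAt.tendsto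
      rwa [hG'0] at this
    exact ht1.prodMk_nhds this
  refine ⟨G, G', hG, hG', hGu, hG'0, ?_, ?_⟩
  · filter_upwards [hE, hG't hE, ht2 hN, ht2 hCs, hGt hC, hC,
      (ht2.comp hG't) hCs] with q h1 h2 h3 h4 h5 h6 h7
    obtain ⟨e1, e2, e3, e4, e5⟩ := h1
    refine ⟨e3, e4, e5, fun hq => ⟨?_, ?_⟩, fun hq => ?_⟩
    · refine h5.2 ?_
      show h (q.1, G q) = 0
      rw [e1]
      exact h4.1 hq
    · refine (h3 hq _).2 ?_
      obtain ⟨y, hy⟩ := e2
      exact ⟨y, by rw [hy]; abel⟩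
    · refine h7.2 ?_
      have h8 : h (q.1, G (q.1, G' q)) = h (p0, G' q) := h2.1
      rw [e5] at h8
      show h (p0, G' q) = 0
      rw [← h8]
      exact h6.1 hq
  · have hz1 : Tendsto (fun z : (P × V) × V => z.1.2) (𝓝 ((p0, u0), 0)) (𝓝 u0) := by
      have : ContinuousAt (fun z : (P × V) × V => z.1.2) ((p0, u0), 0) := by fun_prop
      exact this
    have hz2 : Tendsto (fun z : (P × V) × V => (z.1.1, z.1.2 + z.2)) (𝓝 ((p0, u0), 0))
        (𝓝 (p0, u0)) := by
      have : ContinuousAt (fun z : (P × V) × V => (z.1.1, z.1.2 + z.2)) ((p0, u0), 0) := by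
        fun_prop
      simpa [ContinuousAt] using this
    filter_upwards [hU, hz1 hN, hz1 hCs, hz2 hC] with z h1 h2 h3 h4 g1 g2 g3
    obtain ⟨y, hy⟩ := (h2 g1 _).1 g2
    refine h1 y hy ?_
    rw [h3.1 g1]
    exact h4.1 g3

end Pack

end

end Crest.Agent.R281.Eh2_461
end

-- ▼ part R281/Eh3_461
section

/-!
# R281 (S0424), EHR-LOC, part 3 (helper461): local triviality of an embedded holomorphic family

`C ⊆ P × V` conic, closed, with local equations at `p0`.  For `p` near `p0` there are mutually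
inverse bijections `Φ p : C_p0 → C_p`, `Ψ p : C_p → C_p0`, homogeneous, smooth (real-analytic)
jointly in all variables, `Φ` holomorphic in `p`, and `Φ p u - u` orthogonal to the tangent space.
-/

set_option autoImplicit false
set_option linter.unusedSectionVars false

open Set Filter Topology Metric
open scoped ContDiff InnerProductSpace

namespace Crest.Agent.R281.Eh3_461

open Crest.Agent.R281.Eh1_461 Crest.Agent.R281.Eh2_461

noncomputable section

variable {P V : Type*} [NormedAddCommGroup P] [NormedSpace ℂ P] [CompleteSpace P]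
  [NormedAddCommGroup V] [InnerProductSpace ℂ V] [CompleteSpace V] [FiniteDimensional ℂ V]

/-- the hypotheses: `C` is conic, without the vertex, closed at `p0`, with local equations at
`p0` -/
structure Fam (C : Set (P × V)) (p0 : P) : Prop where
  conic : ∀ (p : P) (u : V) (l : ℂ), l ≠ 0 → (p, u) ∈ C → (p, l • u) ∈ C
  ne : ∀ (p : P) (u : V), (p, u) ∈ C → u ≠ 0
  closed : ∀ u : V, u ≠ 0 → (p0, u) ∉ C → ∀ᶠ q in 𝓝 (p0, u), q ∉ C
  loc : ∀ u : V, (p0, u) ∈ C → LocEq C p0 u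

/-- `n` is an `ε`-small normal displacement from `u` into `C_p` -/
def Rel (C : Set (P × V)) (p0 : P) (ε : ℝ) (p : P) (u n : V) : Prop :=
  n ∈ Nor C p0 u ∧ ‖n‖ ≤ ε * ‖u‖ ∧ (p, u + n) ∈ C

/-- the unit sphere of the cone over `p0` -/
def Sph (C : Set (P × V)) (p0 : P) : Set V := {u | ‖u‖ = 1 ∧ (p0, u) ∈ C}

variable {C : Set (P × V)} {p0 : P}

theorem smul_mem_tan (hF : Fam C p0) {u k : V} {l : ℂ} (hl : l ≠ 0) (hk : k ∈ Tan C p0 u) :
    l • k ∈ Tan C p0 (l • u) := by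
  obtain ⟨γ, h0, h1, h2⟩ := hk
  refine ⟨fun t => l • γ t, by simp [h0], ?_, ?_⟩
  · have h3 : HasDerivAt (fun t => ((l • ContinuousLinearMap.id ℂ V).restrictScalars ℝ) (γ t))
        (((l • ContinuousLinearMap.id ℂ V).restrictScalars ℝ) k) 0 :=
      ((l • ContinuousLinearMap.id ℂ V).restrictScalars ℝ).hasFDerivAt.comp_hasDerivAt (0 : ℝ) h1
    exact h3
  · filter_upwards [h2] with t ht
    exact hF.conic _ _ _ hl ht

theorem smul_mem_nor (hF : Fam C p0) {u n : V} {l : ℂ} (hl : l ≠ 0) (hn : n ∈ Nor C p0 u) :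
    l • n ∈ Nor C p0 (l • u) := by
  intro k hk
  have h1 : l⁻¹ • k ∈ Tan C p0 u := by
    have := smul_mem_tan hF (inv_ne_zero hl) hk
    rwa [smul_smul, inv_mul_cancel₀ hl, one_smul] at this
  have h2 := hn _ h1
  rw [inner_smul_left] at h2
  have h3 : (starRingEnd ℂ) l⁻¹ ≠ 0 := by simpa using hl
  have h4 : ⟪k, n⟫_ℂ = 0 := (mul_eq_zero.1 h2).resolve_left h3
  rw [inner_smul_right, h4, mul_zero]

theorem Rel.smul (hF : Fam C p0) {ε : ℝ} {p : P} {u n : V} {l : ℂ} (hl : l ≠ 0)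
    (h : Rel C p0 ε p u n) : Rel C p0 ε p (l • u) (l • n) := by
  refine ⟨smul_mem_nor hF hl h.1, ?_, ?_⟩
  · rw [norm_smul, norm_smul]
    have := mul_le_mul_of_nonneg_left h.2.1 (norm_nonneg l)
    linarith
  · rw [← smul_add]
    exact hF.conic _ _ _ hl h.2.2

theorem isCompact_sph (hF : Fam C p0) : IsCompact (Sph C p0) := by
  have : ProperSpace V := FiniteDimensional.proper_rclike ℂ V
  refine (isCompact_sphere (0 : V) 1).of_isClosed_subset ?_ ?_
  · rw [← isOpen_compl_iff, isOpen_iff_mem_nhds]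
    intro u hu
    by_cases h1 : ‖u‖ = 1
    · have h2 : (p0, u) ∉ C := fun h => hu ⟨h1, h⟩
      have h3 : u ≠ 0 := by
        rintro rfl
        simp at h1
      have h4 : Tendsto (fun v : V => (p0, v)) (𝓝 u) (𝓝 (p0, u)) :=
        tendsto_const_nhds.prodMk_nhds tendsto_id
      filter_upwards [h4 (hF.closed u h3 h2)] with v hv hv'
      exact hv hv'.2
    · have h2 : ∀ᶠ v in 𝓝 u, ‖v‖ ≠ 1 := continuous_norm.continuousAt.eventually_ne h1
      filter_upwards [h2] with v hv hv'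
      exact hv hv'.1
  · intro u hu
    simpa using hu.1

/-- uniqueness and injectivity -/
theorem eventually_inj (hF : Fam C p0) : ∀ᶠ x in 𝓝 ((0 : ℝ), p0), ∀ u ∈ Sph C p0,
    ∀ u' n n', (p0, u') ∈ C → Rel C p0 x.1 x.2 u n → Rel C p0 x.1 x.2 u' n' →
      u + n = u' + n' → u = u' := by
  refine IsCompact.eventually_forall_of_forall_eventually (isCompact_sph hF)
    (P := fun (x : ℝ × P) (u : V) => u ∈ Sph C p0 → ∀ u' n n', (p0, u') ∈ C →
      Rel C p0 x.1 x.2 u n → Rel C p0 x.1 x.2 u' n' → u + n = u' + n' → u = u') ?_ |>.mono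
    fun x hx u hu => hx u hu hu
  intro u0 hu0
  obtain ⟨G, G', hG, hG', hGu, hG'0, hE, hU⟩ := local_package (hF.loc u0 hu0.2)
  obtain ⟨δ1, hδ1, h1⟩ := Metric.eventually_nhds_iff.1 hE
  obtain ⟨δ2, hδ2, h2⟩ := Metric.eventually_nhds_iff.1 hU
  set δ := min (min δ1 δ2) 1 with hδ
  have hδ0 : 0 < δ := by positivity
  have e1 : δ ≤ δ1 := (min_le_left _ _).trans (min_le_left _ _)
  have e2 : δ ≤ δ2 := (min_le_left _ _).trans (min_le_right _ _)
  have e3 : δ ≤ 1 := min_le_right _ _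
  rw [Metric.eventually_nhds_iff]
  refine ⟨δ / 8, by positivity, ?_⟩
  rintro ⟨⟨ε, p⟩, u⟩ hz hu u' n n' hu' hn hn' he
  simp only [Prod.dist_eq, max_lt_iff] at hz
  obtain ⟨⟨hε, hp⟩, hd⟩ := hz
  rw [Real.dist_eq, sub_zero] at hε
  have hε' : ε < δ / 8 := (le_abs_self ε).trans_lt hε
  have a1 : ‖n‖ ≤ ε := by simpa [hu.1] using hn.2.1
  have a2 : ‖n'‖ ≤ ε * ‖u'‖ := hn'.2.1
  have a0 : 0 ≤ ε := (norm_nonneg n).trans a1
  have a3 : u' = u + n - n' := by rw [he]; abel
  have a4 : ‖u'‖ ≤ 1 + ε + ε * ‖u'‖ := by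
    calc ‖u'‖ = ‖u + n - n'‖ := by rw [← a3]
      _ ≤ ‖u‖ + ‖n‖ + ‖n'‖ := (norm_sub_le _ _).trans (by gcongr; exact norm_add_le _ _)
      _ ≤ 1 + ε + ε * ‖u'‖ := by rw [hu.1]; gcongr
  have a5 : ‖u'‖ ≤ 2 := by nlinarith [norm_nonneg u']
  have a6 : ‖n'‖ ≤ 2 * ε := by nlinarith
  have a7 : dist u' u ≤ 3 * ε := by
    rw [dist_eq_norm, a3]
    calc ‖u + n - n' - u‖ = ‖n - n'‖ := by congr 1; abel
      _ ≤ ‖n‖ + ‖n'‖ := norm_sub_le _ _
      _ ≤ 3 * ε := by linarith
  have a8 : dist u' u0 < δ := by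
    have := dist_triangle u' u u0
    linarith
  have b1 : u + n = G (p, u) := by
    refine h2 (y := ((p, u), n)) ?_ hu.2 hn.1 hn.2.2
    simp only [Prod.dist_eq, max_lt_iff, dist_zero_right]
    exact ⟨⟨by linarith, by linarith⟩, by linarith⟩
  have b2 : u' + n' = G (p, u') := by
    refine h2 (y := ((p, u'), n')) ?_ hu' hn'.1 hn'.2.2
    simp only [Prod.dist_eq, max_lt_iff, dist_zero_right]
    exact ⟨⟨by linarith, by linarith⟩, by linarith⟩
  have b3 : G' (p, G (p, u)) = u := by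
    refine (h1 (y := (p, u)) ?_).2.1
    simp only [Prod.dist_eq, max_lt_iff]
    exact ⟨by linarith, by linarith⟩
  have b4 : G' (p, G (p, u')) = u' := by
    refine (h1 (y := (p, u')) ?_).2.1
    simp only [Prod.dist_eq, max_lt_iff]
    exact ⟨by linarith, by linarith⟩
  rw [← b3, ← b4, ← b1, ← b2, he]

theorem eventually_uniq (hF : Fam C p0) : ∀ᶠ x in 𝓝 ((0 : ℝ), p0), ∀ u ∈ Sph C p0,
    ∀ n n', Rel C p0 x.1 x.2 u n → Rel C p0 x.1 x.2 u n' → n = n' := by
  refine IsCompact.eventually_forall_of_forall_eventually (isCompact_sph hF)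
    (P := fun (x : ℝ × P) (u : V) => u ∈ Sph C p0 → ∀ n n',
      Rel C p0 x.1 x.2 u n → Rel C p0 x.1 x.2 u n' → n = n') ?_ |>.mono
    fun x hx u hu => hx u hu hu
  intro u0 hu0
  obtain ⟨G, G', hG, hG', hGu, hG'0, hE, hU⟩ := local_package (hF.loc u0 hu0.2)
  obtain ⟨δ, hδ, h2⟩ := Metric.eventually_nhds_iff.1 hU
  rw [Metric.eventually_nhds_iff]
  refine ⟨δ / 2, by positivity, ?_⟩
  rintro ⟨⟨ε, p⟩, u⟩ hz hu n n' hn hn'
  simp only [Prod.dist_eq, max_lt_iff] at hz
  obtain ⟨⟨hε, hp⟩, hd⟩ := hz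
  rw [Real.dist_eq, sub_zero] at hε
  have hε' : ε < δ / 2 := (le_abs_self ε).trans_lt hε
  have key : ∀ n, Rel C p0 ε p u n → u + n = G (p, u) := by
    intro n hn
    have a1 : ‖n‖ ≤ ε := by simpa [hu.1] using hn.2.1
    refine h2 (y := ((p, u), n)) ?_ hu.2 hn.1 hn.2.2
    simp only [Prod.dist_eq, max_lt_iff, dist_zero_right]
    exact ⟨⟨by linarith, by linarith⟩, by linarith⟩
  exact add_left_cancel ((key n hn).trans (key n' hn').symm)

/-- local smooth extensions at the points of the fibre over `p0` -/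
def Ext (C : Set (P × V)) (p0 : P) (p : P) (u v : V) : Prop :=
  ∃ F F' : P × V → V, F (p, u) = v ∧ F' (p, v) = u ∧ ContDiffAt ℝ ω F (p, u) ∧
    ContDiffAt ℝ ω F' (p, v) ∧
    (∀ᶠ q in 𝓝 (p, u), DifferentiableAt ℂ (fun p' => F (p', q.2)) q.1 ∧
      ((p0, q.2) ∈ C → (q.1, F q) ∈ C ∧ F q - q.2 ∈ Nor C p0 q.2)) ∧
    (∀ᶠ q in 𝓝 (p, v), q ∈ C → (p0, F' q) ∈ C ∧ F (q.1, F' q) = q.2)

theorem eventually_ext (hF : Fam C p0) {ε : ℝ} (hε : 0 < ε) : ∀ᶠ p in 𝓝 p0, ∀ u ∈ Sph C p0,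
    ∃ v, Ext C p0 p u v ∧ ‖v - u‖ < ε := by
  refine IsCompact.eventually_forall_of_forall_eventually (isCompact_sph hF) ?_
  intro u0 hu0
  obtain ⟨G, G', hG, hG', hGu, hG'0, hE, hU⟩ := local_package (hF.loc u0 hu0.2)
  have hG0 : G (p0, u0) = u0 := hGu.self_of_nhds
  have hGt : Tendsto (fun q : P × V => (q.1, G q)) (𝓝 (p0, u0)) (𝓝 (p0, u0)) := by
    have h1 : Tendsto G (𝓝 (p0, u0)) (𝓝 u0) := by
      have := hG.continuousAt.tendsto
      rwa [hG0] at this
    have ht1 : Tendsto (fun q : P × V => q.1) (𝓝 (p0, u0)) (𝓝 p0) := continuousAt_fst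
    exact ht1.prodMk_nhds h1
  have h3 : ∀ᶠ q in 𝓝 (p0, u0), ‖G q - q.2‖ < ε := by
    have h4 : ContinuousAt (fun q : P × V => ‖G q - q.2‖) (p0, u0) :=
      (hG.continuousAt.sub continuousAt_snd).norm
    have h5 : (fun q : P × V => ‖G q - q.2‖) (p0, u0) < ε := by simpa [hG0] using hε
    exact h4.eventually_lt continuousAt_const h5
  filter_upwards [h3, hG.eventually (by simp), hGt (hG'.eventually (by simp)),
    hE, hE.eventually_nhds, hGt hE.eventually_nhds] with q g1 g2 g3 g4 g5 g6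
  refine ⟨G q, ⟨G, G', rfl, g4.2.1, g2, g3, ?_, ?_⟩, g1⟩
  · filter_upwards [g5] with q' hq'
    exact ⟨hq'.1, hq'.2.2.2.1⟩
  · filter_upwards [g6] with q' hq' hC
    exact ⟨hq'.2.2.2.2 hC, hq'.2.2.1⟩

/-- surjectivity -/
theorem eventually_surj (hF : Fam C p0) {ε : ℝ} (hε : 0 < ε) : ∀ᶠ p in 𝓝 p0, ∀ v ∈ sphere (0 : V) 1,
    (p, v) ∈ C → ∃ u n, (p0, u) ∈ C ∧ Rel C p0 ε p u n ∧ u + n = v := by
  have : ProperSpace V := FiniteDimensional.proper_rclike ℂ V
  refine IsCompact.eventually_forall_of_forall_eventually (isCompact_sphere (0 : V) 1) ?_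
  intro v0 hv0
  have hv0' : v0 ≠ 0 := by
    rintro rfl
    simp at hv0
  by_cases hC : (p0, v0) ∈ C
  · obtain ⟨G, G', hG, hG', hGu, hG'0, hE, hU⟩ := local_package (hF.loc v0 hC)
    have hG't : Tendsto (fun q : P × V => (q.1, G' q)) (𝓝 (p0, v0)) (𝓝 (p0, v0)) := by
      have h1 : Tendsto G' (𝓝 (p0, v0)) (𝓝 v0) := by
        have := hG'.continuousAt.tendsto
        rwa [hG'0] at this
      have ht1 : Tendsto (fun q : P × V => q.1) (𝓝 (p0, v0)) (𝓝 p0) := continuousAt_fst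
      exact ht1.prodMk_nhds h1
    have h3 : ∀ᶠ q in 𝓝 (p0, v0), ‖q.2 - G' q‖ < ε * ‖G' q‖ := by
      have h4 : ContinuousAt (fun q : P × V => ‖q.2 - G' q‖) (p0, v0) :=
        (continuousAt_snd.sub hG'.continuousAt).norm
      have h5 : ContinuousAt (fun q : P × V => ε * ‖G' q‖) (p0, v0) :=
        continuousAt_const.mul hG'.continuousAt.norm
      have h6 : (fun q : P × V => ‖q.2 - G' q‖) (p0, v0) <
          (fun q : P × V => ε * ‖G' q‖) (p0, v0) := by
        simp only [hG'0, sub_self, norm_zero]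
        exact mul_pos hε (norm_pos_iff.2 hv0')
      exact h4.eventually_lt h5 h6
    filter_upwards [hE, hG't hE, h3] with q h1 h2 h4 hq
    have h5 : G (q.1, G' q) = q.2 := h1.2.2.1
    have h6 : (p0, G' q) ∈ C := h1.2.2.2.2 hq
    obtain ⟨h7, h8⟩ := h2.2.2.2.1 h6
    refine ⟨G' q, q.2 - G' q, h6, ⟨?_, h4.le, ?_⟩, by abel⟩
    · have : G (q.1, G' q) - G' q ∈ Nor C p0 (G' q) := h8
      rwa [h5] at this
    · have : G' q + (q.2 - G' q) = q.2 := by abel
      rw [this]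
      exact hq
  · filter_upwards [hF.closed v0 hv0' hC] with q hq hq'
    exact absurd hq' hq

/-- **local triviality data** of the family `C` over the ball of radius `r` about `p0` -/
structure Triv (C : Set (P × V)) (p0 : P) (r ε : ℝ) (Φ Ψ : P → V → V) : Prop where
  rpos : 0 < r
  εpos : 0 < ε
  εlt : ε < 1
  base : ∀ u, (p0, u) ∈ C → Φ p0 u = u
  hom : ∀ p ∈ ball p0 r, ∀ u, (p0, u) ∈ C → ∀ l : ℂ, l ≠ 0 → Φ p (l • u) = l • Φ p u
  maps : ∀ p ∈ ball p0 r, ∀ u, (p0, u) ∈ C → (p, Φ p u) ∈ C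
  hom' : ∀ p ∈ ball p0 r, ∀ v, (p, v) ∈ C → ∀ l : ℂ, l ≠ 0 → Ψ p (l • v) = l • Ψ p v
  maps' : ∀ p ∈ ball p0 r, ∀ v, (p, v) ∈ C → (p0, Ψ p v) ∈ C
  left : ∀ p ∈ ball p0 r, ∀ u, (p0, u) ∈ C → Ψ p (Φ p u) = u
  right : ∀ p ∈ ball p0 r, ∀ v, (p, v) ∈ C → Φ p (Ψ p v) = v
  nor : ∀ p ∈ ball p0 r, ∀ u, (p0, u) ∈ C → Φ p u - u ∈ Nor C p0 u
  small : ∀ p ∈ ball p0 r, ∀ u, (p0, u) ∈ C → ‖Φ p u - u‖ ≤ ε * ‖u‖
  uniq : ∀ p ∈ ball p0 r, ∀ u, (p0, u) ∈ C → ∀ n ∈ Nor C p0 u, ‖n‖ ≤ ε * ‖u‖ →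
    (p, u + n) ∈ C → u + n = Φ p u
  ext : ∀ p ∈ ball p0 r, ∀ u, (p0, u) ∈ C → ∃ F : P × V → V, ContDiffAt ℝ ω F (p, u) ∧
    (∀ᶠ q in 𝓝 (p, u), DifferentiableAt ℂ (fun p' => F (p', q.2)) q.1) ∧
    ∀ᶠ q in 𝓝 (p, u), (p0, q.2) ∈ C → Φ q.1 q.2 = F q
  ext' : ∀ p ∈ ball p0 r, ∀ v, (p, v) ∈ C → ∃ F' : P × V → V, ContDiffAt ℝ ω F' (p, v) ∧
    ∀ᶠ q in 𝓝 (p, v), q ∈ C → Ψ q.1 q.2 = F' q

/-- scaling of local extensions -/
theorem Ext.smul (hF : Fam C p0) {p : P} {u v : V} (h : Ext C p0 p u v) {l : ℂ} (hl : l ≠ 0) :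
    Ext C p0 p (l • u) (l • v) := by
  obtain ⟨F, F', h1, h2, h3, h4, h5, h6⟩ := h
  have hc : ∀ z : V, ContDiffAt ℝ ω (fun w : V => l⁻¹ • w) z := fun z =>
    ((l⁻¹ • ContinuousLinearMap.id ℂ V).contDiff.restrict_scalars ℝ).contDiffAt
  have hc' : ∀ z : V, ContDiffAt ℝ ω (fun w : V => l • w) z := fun z =>
    ((l • ContinuousLinearMap.id ℂ V).contDiff.restrict_scalars ℝ).contDiffAt
  have hS : ∀ z : V, l⁻¹ • l • z = z := fun z => by
    rw [smul_smul, inv_mul_cancel₀ hl, one_smul]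
  have hS' : ∀ z : V, l • l⁻¹ • z = z := fun z => by
    rw [smul_smul, mul_inv_cancel₀ hl, one_smul]
  have hq : ∀ z : V, ContDiffAt ℝ ω (fun q : P × V => (q.1, l⁻¹ • q.2)) (p, z) := fun z =>
    contDiffAt_fst.prodMk
      (ContDiffAt.comp (g := fun w : V => l⁻¹ • w) (f := fun q : P × V => q.2) (p, z) (hc z)
        contDiffAt_snd)
  have ht : ∀ z : V, Tendsto (fun q : P × V => (q.1, l⁻¹ • q.2)) (𝓝 (p, l • z)) (𝓝 (p, z)) := by
    intro z
    have := (hq (l • z)).continuousAt.tendsto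
    simpa only [hS] using this
  refine ⟨fun q => l • F (q.1, l⁻¹ • q.2), fun q => l • F' (q.1, l⁻¹ • q.2), ?_, ?_, ?_, ?_, ?_, ?_⟩
  · show l • F (p, l⁻¹ • l • u) = l • v
    rw [hS, h1]
  · show l • F' (p, l⁻¹ • l • v) = l • u
    rw [hS, h2]
  · refine ContDiffAt.comp (g := fun w : V => l • w) (p, l • u) (hc' _) ?_
    refine ContDiffAt.comp (g := F) (f := fun q : P × V => (q.1, l⁻¹ • q.2)) (p, l • u) ?_ (hq _)
    simpa only [hS] using h3
  · refine ContDiffAt.comp (g := fun w : V => l • w) (p, l • v) (hc' _) ?_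
    refine ContDiffAt.comp (g := F') (f := fun q : P × V => (q.1, l⁻¹ • q.2)) (p, l • v) ?_ (hq _)
    simpa only [hS] using h4
  · filter_upwards [ht u h5] with q hq
    obtain ⟨g1, g2⟩ := hq
    refine ⟨?_, fun hC => ?_⟩
    · exact DifferentiableAt.const_smul g1 l
    · have h7 := g2 (hF.conic _ _ _ (inv_ne_zero hl) hC)
      refine ⟨hF.conic _ _ _ hl h7.1, ?_⟩
      have h8 := smul_mem_nor hF hl h7.2
      simp only [smul_sub, hS'] at h8
      exact h8
  · filter_upwards [ht v h6] with q hq hC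
    obtain ⟨g1, g2⟩ := hq (hF.conic _ _ _ (inv_ne_zero hl) hC)
    refine ⟨hF.conic _ _ _ hl g1, ?_⟩
    show l • F (q.1, l⁻¹ • l • F' (q.1, l⁻¹ • q.2)) = q.2
    rw [hS]
    have g3 : F (q.1, F' (q.1, l⁻¹ • q.2)) = l⁻¹ • q.2 := g2
    rw [g3, hS']

theorem exists_triv (hF : Fam C p0) : ∃ (r ε : ℝ) (Φ Ψ : P → V → V), Triv C p0 r ε Φ Ψ := by
  classical
  obtain ⟨η1, hη1, hinj⟩ := Metric.eventually_nhds_iff.1 (eventually_inj hF)
  obtain ⟨η2, hη2, huniq⟩ := Metric.eventually_nhds_iff.1 (eventually_uniq hF)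
  set ε : ℝ := min (min η1 η2) 1 / 2 with hε
  have hε0 : 0 < ε := by positivity
  have m1 : min (min η1 η2) 1 ≤ η1 := (min_le_left _ _).trans (min_le_left _ _)
  have m2 : min (min η1 η2) 1 ≤ η2 := (min_le_left _ _).trans (min_le_right _ _)
  have m3 : min (min η1 η2) 1 ≤ 1 := min_le_right _ _
  have m0 : 0 < min (min η1 η2) 1 := by positivity
  have hε1 : ε < η1 := by rw [hε]; linarith
  have hε2 : ε < η2 := by rw [hε]; linarith
  have hε3 : ε < 1 := by rw [hε]; linarith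
  obtain ⟨r3, hr3, hext⟩ := Metric.eventually_nhds_iff.1 (eventually_ext hF (half_pos hε0))
  obtain ⟨r4, hr4, hsurj⟩ := Metric.eventually_nhds_iff.1 (eventually_surj hF hε0)
  set r : ℝ := min (min η1 η2) (min r3 r4) with hr
  have hr0 : 0 < r := by positivity
  have n1 : r ≤ η1 := (min_le_left _ _).trans (min_le_left _ _)
  have n2 : r ≤ η2 := (min_le_left _ _).trans (min_le_right _ _)
  have n3 : r ≤ r3 := (min_le_right _ _).trans (min_le_left _ _)
  have n4 : r ≤ r4 := (min_le_right _ _).trans (min_le_right _ _)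
  -- normalisation
  have hnrm : ∀ (p : P) (u : V), (p, u) ∈ C → ((‖u‖ : ℂ)⁻¹ ≠ 0) ∧ ‖(‖u‖ : ℂ)⁻¹ • u‖ = 1 ∧
      (p, (‖u‖ : ℂ)⁻¹ • u) ∈ C ∧ (‖u‖ : ℂ) • (‖u‖ : ℂ)⁻¹ • u = u ∧ (‖u‖ : ℂ) ≠ 0 := by
    intro p u hu
    have h0 : ‖u‖ ≠ 0 := norm_ne_zero_iff.2 (hF.ne p u hu)
    have h1 : (‖u‖ : ℂ) ≠ 0 := by exact_mod_cast h0
    refine ⟨inv_ne_zero h1, ?_, hF.conic _ _ _ (inv_ne_zero h1) hu, ?_, h1⟩
    · rw [norm_smul, norm_inv, Complex.norm_real, norm_norm, inv_mul_cancel₀ h0]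
    · rw [smul_smul, mul_inv_cancel₀ h1, one_smul]
  have hU : ∀ p ∈ ball p0 r, ∀ u, (p0, u) ∈ C → ∀ n n', Rel C p0 ε p u n → Rel C p0 ε p u n' →
      n = n' := by
    intro p hp u hu n n' hn hn'
    obtain ⟨k1, k2, k3, k4, k5⟩ := hnrm p0 u hu
    have h1 := huniq (y := (ε, p)) (by
      simp only [Prod.dist_eq, max_lt_iff, Real.dist_eq, sub_zero, abs_of_pos hε0]
      exact ⟨hε2, lt_of_lt_of_le hp n2⟩) _ ⟨k2, k3⟩ _ _ (hn.smul hF k1) (hn'.smul hF k1)
    exact smul_right_injective V k1 h1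
  have hI : ∀ p ∈ ball p0 r, ∀ u u', (p0, u) ∈ C → (p0, u') ∈ C → ∀ n n', Rel C p0 ε p u n →
      Rel C p0 ε p u' n' → u + n = u' + n' → u = u' := by
    intro p hp u u' hu hu' n n' hn hn' he
    obtain ⟨k1, k2, k3, k4, k5⟩ := hnrm p0 u hu
    have h1 := hinj (y := (ε, p)) (by
      simp only [Prod.dist_eq, max_lt_iff, Real.dist_eq, sub_zero, abs_of_pos hε0]
      exact ⟨hε1, lt_of_lt_of_le hp n1⟩) _ ⟨k2, k3⟩ ((‖u‖ : ℂ)⁻¹ • u') _ _
      (hF.conic _ _ _ k1 hu') (hn.smul hF k1) (hn'.smul hF k1)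
      (by rw [← smul_add, ← smul_add, he])
    exact smul_right_injective V k1 h1
  have hX : ∀ p ∈ ball p0 r, ∀ u, (p0, u) ∈ C → ∃ n, Ext C p0 p u (u + n) ∧
      n ∈ Nor C p0 u ∧ ‖n‖ < ε * ‖u‖ ∧ (p, u + n) ∈ C := by
    intro p hp u hu
    obtain ⟨k1, k2, k3, k4, k5⟩ := hnrm p0 u hu
    obtain ⟨v, hv1, hv2⟩ := hext (y := p) (lt_of_lt_of_le hp n3) _ ⟨k2, k3⟩
    have h1 := hv1.smul hF k5
    rw [k4] at h1
    obtain ⟨F, F', f1, f2, f3, f4, f5, f6⟩ := h1
    have h2 := (f5.self_of_nhds).2 hu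
    have h3 : u + ((‖u‖ : ℂ) • v - u) = (‖u‖ : ℂ) • v := by abel
    refine ⟨(‖u‖ : ℂ) • v - u, ⟨F, F', by rw [h3]; exact f1, by rw [h3]; exact f2, f3,
      by rw [h3]; exact f4, f5, by rw [h3]; exact f6⟩, ?_, ?_, ?_⟩
    · have := h2.2
      simp only [f1] at this
      exact this
    · have h4 : (‖u‖ : ℂ) • v - u = (‖u‖ : ℂ) • (v - (‖u‖ : ℂ)⁻¹ • u) := by
        rw [smul_sub, k4]
      have h5 : 0 < ‖u‖ := norm_pos_iff.2 (hF.ne _ _ hu)
      rw [h4, norm_smul, Complex.norm_real, norm_norm, mul_comm ε]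
      exact mul_lt_mul_of_pos_left (by linarith) h5
    · rw [h3]
      have := h2.1
      simp only [f1] at this
      exact this
  -- the maps
  let Φ : P → V → V := fun p u => if h : ∃ n, Rel C p0 ε p u n then u + h.choose else u
  have hΦ : ∀ p ∈ ball p0 r, ∀ u, (p0, u) ∈ C → ∀ n, Rel C p0 ε p u n → Φ p u = u + n := by
    intro p hp u hu n hn
    have h1 : ∃ n, Rel C p0 ε p u n := ⟨n, hn⟩
    simp only [Φ, dif_pos h1]
    rw [hU p hp u hu _ _ h1.choose_spec hn]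
  have hΦR : ∀ p ∈ ball p0 r, ∀ u, (p0, u) ∈ C → Rel C p0 ε p u (Φ p u - u) := by
    intro p hp u hu
    obtain ⟨n, h1, h2, h3, h4⟩ := hX p hp u hu
    have h5 : Rel C p0 ε p u n := ⟨h2, h3.le, h4⟩
    rw [hΦ p hp u hu n h5]
    simpa using h5
  have hΦi : ∀ p ∈ ball p0 r, ∀ u u', (p0, u) ∈ C → (p0, u') ∈ C → Φ p u = Φ p u' → u = u' := by
    intro p hp u u' hu hu' he
    exact hI p hp u u' hu hu' _ _ (hΦR p hp u hu) (hΦR p hp u' hu') (by
      rw [add_sub_cancel, add_sub_cancel, he])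
  have hS : ∀ p ∈ ball p0 r, ∀ v, (p, v) ∈ C → ∃ u, (p0, u) ∈ C ∧ Φ p u = v := by
    intro p hp v hv
    obtain ⟨k1, k2, k3, k4, k5⟩ := hnrm p v hv
    obtain ⟨u, n, h1, h2, h3⟩ := hsurj (y := p) (lt_of_lt_of_le hp n4) ((‖v‖ : ℂ)⁻¹ • v)
      (by simpa using k2) k3
    refine ⟨(‖v‖ : ℂ) • u, hF.conic _ _ _ k5 h1, ?_⟩
    rw [hΦ p hp _ (hF.conic _ _ _ k5 h1) _ (h2.smul hF k5), ← smul_add, h3, k4]
  let Ψ : P → V → V := fun p v => if h : ∃ u, (p0, u) ∈ C ∧ Φ p u = v then h.choose else v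
  have hΨ : ∀ p ∈ ball p0 r, ∀ v, (p, v) ∈ C → (p0, Ψ p v) ∈ C ∧ Φ p (Ψ p v) = v := by
    intro p hp v hv
    have h1 := hS p hp v hv
    simp only [Ψ, dif_pos h1]
    exact h1.choose_spec
  have hmaps : ∀ p ∈ ball p0 r, ∀ u, (p0, u) ∈ C → (p, Φ p u) ∈ C := by
    intro p hp u hu
    have := (hΦR p hp u hu).2.2
    rwa [add_sub_cancel] at this
  have hhom : ∀ p ∈ ball p0 r, ∀ u, (p0, u) ∈ C → ∀ l : ℂ, l ≠ 0 → Φ p (l • u) = l • Φ p u := by
    intro p hp u hu l hl
    rw [hΦ p hp _ (hF.conic _ _ _ hl hu) _ ((hΦR p hp u hu).smul hF hl), ← smul_add,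
      add_sub_cancel]
  have hleft : ∀ p ∈ ball p0 r, ∀ u, (p0, u) ∈ C → Ψ p (Φ p u) = u := by
    intro p hp u hu
    obtain ⟨h1, h2⟩ := hΨ p hp _ (hmaps p hp u hu)
    exact hΦi p hp _ _ h1 hu h2
  have hbn : ∀ p ∈ ball p0 r, ball p0 r ∈ 𝓝 p := fun p hp => isOpen_ball.mem_nhds hp
  have key : ∀ p ∈ ball p0 r, ∀ u, (p0, u) ∈ C → ∃ F F' : P × V → V, F (p, u) = Φ p u ∧
      ContDiffAt ℝ ω F (p, u) ∧ ContDiffAt ℝ ω F' (p, Φ p u) ∧
      (∀ᶠ q in 𝓝 (p, u), DifferentiableAt ℂ (fun p' => F (p', q.2)) q.1) ∧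
      (∀ᶠ q in 𝓝 (p, u), (p0, q.2) ∈ C → Φ q.1 q.2 = F q) ∧
      (∀ᶠ q in 𝓝 (p, Φ p u), q ∈ C → Ψ q.1 q.2 = F' q) := by
    intro p hp u hu
    obtain ⟨n, ⟨F, F', f1, f2, f3, f4, f5, f6⟩, g2, g3, g4⟩ := hX p hp u hu
    have g5 : Φ p u = u + n := hΦ p hp u hu n ⟨g2, g3.le, g4⟩
    have a1 : ∀ᶠ q in 𝓝 (p, u), q.1 ∈ ball p0 r :=
      (continuousAt_fst (p := (p, u))).eventually (hbn p hp)
    have a2 : ∀ᶠ q in 𝓝 (p, u), ‖F q - q.2‖ < ε * ‖q.2‖ := by
      have h4 : ContinuousAt (fun q : P × V => ‖F q - q.2‖) (p, u) :=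
        (f3.continuousAt.sub continuousAt_snd).norm
      have h5 : ContinuousAt (fun q : P × V => ε * ‖q.2‖) (p, u) :=
        continuousAt_const.mul continuousAt_snd.norm
      refine h4.eventually_lt h5 ?_
      simp only [f1, add_sub_cancel_left]
      exact g3
    have a3 : ∀ᶠ q in 𝓝 (p, u), (p0, q.2) ∈ C → Φ q.1 q.2 = F q := by
      filter_upwards [a1, a2, f5] with q b1 b2 b3 b4
      obtain ⟨c1, c2⟩ := b3.2 b4
      have c3 : Rel C p0 ε q.1 q.2 (F q - q.2) := ⟨c2, b2.le, by rwa [add_sub_cancel]⟩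
      rw [hΦ q.1 b1 q.2 b4 _ c3, add_sub_cancel]
    refine ⟨F, F', by rw [g5, f1], f3, by rw [g5]; exact f4, f5.mono fun q hq => hq.1, a3, ?_⟩
    rw [g5]
    have a4 : ∀ᶠ q in 𝓝 (p, u + n), q.1 ∈ ball p0 r :=
      (continuousAt_fst (p := (p, u + n))).eventually (hbn p hp)
    have a5 : Tendsto (fun q : P × V => (q.1, F' q)) (𝓝 (p, u + n)) (𝓝 (p, u)) := by
      have h1 : Tendsto F' (𝓝 (p, u + n)) (𝓝 u) := by
        have := f4.continuousAt.tendsto
        rwa [f2] at this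
      have h2 : Tendsto (fun q : P × V => q.1) (𝓝 (p, u + n)) (𝓝 p) := continuousAt_fst
      exact h2.prodMk_nhds h1
    filter_upwards [a4, f6, a5 a3] with q b1 b2 b3 b4
    obtain ⟨c1, c2⟩ := b2 b4
    have c3 : Φ q.1 (F' q) = F (q.1, F' q) := b3 c1
    rw [c2] at c3
    obtain ⟨d1, d2⟩ := hΨ q.1 b1 q.2 b4
    exact hΦi q.1 b1 _ _ d1 c1 (d2.trans c3.symm)
  refine ⟨r, ε, Φ, Ψ, ?_⟩
  refine
    { rpos := hr0
      εpos := hε0
      εlt := hε3
      base := fun u hu => ?_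
      hom := hhom
      maps := hmaps
      hom' := fun p hp v hv l hl => ?_
      maps' := fun p hp v hv => (hΨ p hp v hv).1
      left := hleft
      right := fun p hp v hv => (hΨ p hp v hv).2
      nor := fun p hp u hu => (hΦR p hp u hu).1
      small := fun p hp u hu => (hΦR p hp u hu).2.1
      uniq := fun p hp u hu n hn hn2 hn3 => (hΦ p hp u hu n ⟨hn, hn2, hn3⟩).symm
      ext := fun p hp u hu => ?_
      ext' := fun p hp v hv => ?_ }
  · have h1 : Rel C p0 ε p0 u 0 := ⟨Nor.zero_mem C p0 u, by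
      rw [norm_zero]; positivity, by rwa [add_zero]⟩
    rw [hΦ p0 (mem_ball_self hr0) u hu 0 h1, add_zero]
  · obtain ⟨d1, d2⟩ := hΨ p hp v hv
    obtain ⟨e1, e2⟩ := hΨ p hp (l • v) (hF.conic _ _ _ hl hv)
    refine hΦi p hp _ _ e1 (hF.conic _ _ _ hl d1) ?_
    rw [e2, hhom p hp _ d1 l hl, d2]
  · obtain ⟨F, F', f1, f2, f3, f4, f5, f6⟩ := key p hp u hu
    exact ⟨F, f2, f4, f5⟩
  · obtain ⟨d1, d2⟩ := hΨ p hp v hv
    obtain ⟨F, F', f1, f2, f3, f4, f5, f6⟩ := key p hp _ d1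
    rw [d2] at f3 f6
    exact ⟨F', f3, f6⟩

end

end Crest.Agent.R281.Eh3_461
end

-- ▼ part R281/Eh4_461
section

/-!
# R281 (S0424), EHR-LOC, part 4 (helper461): the interface `ConeMap` of helper268
-/

set_option autoImplicit false

open Set Filter Topology
open scoped ContDiff

namespace Crest.Agent.R281.Eh4_461

open Crest.Agent.R281.Eh1_461 Crest.Agent.R281.Eh2_461 Crest.Agent.R281.Eh3_461

variable {E : Type} [NormedAddCommGroup E] [NormedSpace ℂ E] [CompleteSpace E]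
variable {H : Type} [NormedAddCommGroup H] [InnerProductSpace ℂ H] [CompleteSpace H]
  [FiniteDimensional ℂ H]

theorem coneMap_of_triv {S : Set (E × H)} {c0 : E} (hF : Fam S c0) {r ε : ℝ} {Φ Ψ : E → H → H}
    (h : Triv S c0 r ε Φ Ψ) : Ehr2_268.ConeMap S c0 r Φ Ψ where
  hr := h.rpos
  ne := fun q hq => hF.ne q.1 q.2 hq
  cone := fun q hq a ha => hF.conic q.1 q.2 a ha hq
  id0 := h.base
  hom := h.hom
  maps := h.maps
  maps' := h.maps'
  left := h.left
  right := h.right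
  ext := fun c hc w hw => by
    obtain ⟨F, h1, h2, h3⟩ := h.ext c hc w hw
    exact ⟨F, h1, h3.mono fun q hq hq' => (hq hq').symm, h2⟩
  ext' := fun c hc w hw => by
    obtain ⟨F, h1, h2⟩ := h.ext' c hc w hw
    exact ⟨F, h1, h2.mono fun q hq hq' => (hq hq').symm⟩

theorem exists_coneMap {S : Set (E × H)} {c0 : E} (hF : Fam S c0) :
    ∃ (r : ℝ) (Φ Ψ : E → H → H), Ehr2_268.ConeMap S c0 r Φ Ψ := by
  obtain ⟨r, ε, Φ, Ψ, h⟩ := exists_triv hF
  exact ⟨r, Φ, Ψ, coneMap_of_triv hF h⟩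


end Crest.Agent.R281.Eh4_461
end

-- ▼ part R281/KrB3_871
section

/-!
# R281, KRON (helper871): the derivative of `H` on `ker lam`

At a zero of `H` with `dG ≠ 0` (any point with `dG ≠ 0`, in fact) the derivative of `H` maps `ker lam`
bijectively onto itself.
-/

set_option autoImplicit false

open MvPolynomial Polynomial Set Filter Topology

namespace Crest.Agent.R281.KrB3_871

open Crest.Agent.R281.Kr_488 Crest.Agent.R281.KrB1_871 Crest.Agent.R281.KrB2_871

noncomputable section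

variable {n N : ℕ}

/-- the linear map with matrix `lam` -/
def TT (lam : Fin (n + 1) → Fin (N + 1) → ℂ) : EuclideanSpace ℂ (Fin (N + 1)) →L[ℂ] (Fin (n + 1) → ℂ) :=
  ContinuousLinearMap.pi fun j => ∑ k, lam j k • (EuclideanSpace.proj k : _ →L[ℂ] ℂ)

theorem TT_apply (lam : Fin (n + 1) → Fin (N + 1) → ℂ) (v : EuclideanSpace ℂ (Fin (N + 1)))
    (j : Fin (n + 1)) : TT lam v j = lv (lam j) (fun k => v k) := by
  simp [TT, lv]

/-- the linear form with coefficients `w` -/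
def WW (w : Fin (N + 1) → ℂ) : EuclideanSpace ℂ (Fin (N + 1)) →L[ℂ] ℂ :=
  ∑ k, w k • (EuclideanSpace.proj k : _ →L[ℂ] ℂ)

theorem WW_apply (w : Fin (N + 1) → ℂ) (v : EuclideanSpace ℂ (Fin (N + 1))) :
    WW w v = lv w (fun k => v k) := by
  simp [WW, lv]

/-- the map `H` -/
def Hv (κ : KDat n N ℂ) (v : EuclideanSpace ℂ (Fin (N + 1))) : EuclideanSpace ℂ (Fin (N + 1)) :=
  WithLp.toLp 2 fun k => MvPolynomial.eval (fun i => v i) (Hp κ k)

theorem Hv_apply (κ : KDat n N ℂ) (v : EuclideanSpace ℂ (Fin (N + 1))) (k : Fin (N + 1)) :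
    Hv κ v k = MvPolynomial.eval (fun i => v i) (Hp κ k) := rfl

theorem analyticAt_eval (F : MvPolynomial (Fin (N + 1)) ℂ) (u : EuclideanSpace ℂ (Fin (N + 1))) :
    AnalyticAt ℂ (fun v : EuclideanSpace ℂ (Fin (N + 1)) => MvPolynomial.eval (fun i => v i) F) u := by
  induction F using MvPolynomial.induction_on with
  | C a => simpa using analyticAt_const
  | add p q hp hq =>
    simp only [map_add]
    exact hp.add hq
  | mul_X p i hp =>
    have h1 : AnalyticAt ℂ (fun v : EuclideanSpace ℂ (Fin (N + 1)) => v i) u :=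
      (EuclideanSpace.proj i : EuclideanSpace ℂ (Fin (N + 1)) →L[ℂ] ℂ).analyticAt u
    simp only [map_mul, MvPolynomial.eval_X]
    exact hp.mul h1

theorem analyticAt_toLp {P : Type*} [NormedAddCommGroup P] [NormedSpace ℂ P] {m : ℕ}
    {f : P → Fin m → ℂ} {p : P} (h : ∀ i, AnalyticAt ℂ (fun x => f x i) p) :
    AnalyticAt ℂ (fun x => (WithLp.toLp 2 (f x) : EuclideanSpace ℂ (Fin m))) p := by
  have h1 : AnalyticAt ℂ f p := AnalyticAt.pi h
  exact ((PiLp.continuousLinearEquiv 2 ℂ (fun _ : Fin m => ℂ)).symm.toContinuousLinearMap.analyticAt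
    (f p)).comp h1

theorem analyticAt_Hv (κ : KDat n N ℂ) (u : EuclideanSpace ℂ (Fin (N + 1))) :
    AnalyticAt ℂ (Hv κ) u :=
  analyticAt_toLp fun k => analyticAt_eval (Hp κ k) u

variable {κ : KDat n N ℂ} {E : Set (MvPolynomial (Fin (N + 1)) ℂ)}

theorem TT_Hv (h : κ.Good E) (v : EuclideanSpace ℂ (Fin (N + 1))) : TT κ.lam (Hv κ v) = 0 := by
  funext j
  rw [TT_apply]
  have h1 := congrArg (MvPolynomial.eval fun i => v i) (lam_Hp h j)
  simpa [lv, Hv_apply] using h1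

theorem WW_Hv (h : κ.Good E) (v : EuclideanSpace ℂ (Fin (N + 1))) :
    WW κ.w (Hv κ v) = κ.D * MvPolynomial.eval (fun i => v i) (κ.sub κ.G) := by
  rw [WW_apply]
  have h1 := congrArg (MvPolynomial.eval fun i => v i) (w_Hp h)
  simpa [lv, Hv_apply] using h1

/-- on a line in the direction of `ker lam` the values are polynomials in `W` -/
theorem eval_line (p : Polynomial (MvPolynomial (Fin (n + 1)) ℂ))
    {u x : EuclideanSpace ℂ (Fin (N + 1))} (hx : TT κ.lam x = 0) (t : ℂ) :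
    MvPolynomial.eval (fun i => (u + t • x) i) (κ.sub p) =
      (p.map (MvPolynomial.eval (κ.lamv fun i => u i))).eval (WW κ.w u + t * WW κ.w x) := by
  rw [κ.eval_sub]
  have h1 : (κ.lamv fun i => (u + t • x) i) = κ.lamv fun i => u i := by
    funext j
    have h2 : TT κ.lam (u + t • x) j = TT κ.lam u j := by
      rw [map_add, map_smul, hx, smul_zero, add_zero]
    rw [TT_apply, TT_apply] at h2
    exact h2
  have h3 : lv κ.w (fun i => (u + t • x) i) = WW κ.w u + t * WW κ.w x := by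
    rw [← WW_apply, map_add, map_smul, smul_eq_mul]
  rw [h1, h3, KDat.ev, Polynomial.coe_eval₂RingHom, Polynomial.eval_map]

theorem hasDerivAt_line (p : Polynomial (MvPolynomial (Fin (n + 1)) ℂ))
    {u x : EuclideanSpace ℂ (Fin (N + 1))} (hx : TT κ.lam x = 0) :
    HasDerivAt (fun t : ℂ => MvPolynomial.eval (fun i => (u + t • x) i) (κ.sub p))
      (MvPolynomial.eval (fun i => u i) (κ.sub (Polynomial.derivative p)) * WW κ.w x) 0 := by
  have h1 : (fun t : ℂ => MvPolynomial.eval (fun i => (u + t • x) i) (κ.sub p)) =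
      fun t => (p.map (MvPolynomial.eval (κ.lamv fun i => u i))).eval (WW κ.w u + t * WW κ.w x) := by
    funext t
    rw [eval_line (κ := κ) p (u := u) hx t]
  have h2 : MvPolynomial.eval (fun i => u i) (κ.sub (Polynomial.derivative p)) =
      (Polynomial.derivative (p.map (MvPolynomial.eval (κ.lamv fun i => u i)))).eval
        (WW κ.w u + 0 * WW κ.w x) := by
    have := eval_line (κ := κ) (Polynomial.derivative p) (u := u) hx 0
    rw [zero_smul, add_zero] at this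
    rw [this, Polynomial.derivative_map]
  rw [h1, h2]
  have h3 : HasDerivAt (fun t : ℂ => WW κ.w u + t * WW κ.w x) (WW κ.w x) 0 := by
    simpa using ((hasDerivAt_id (0 : ℂ)).mul_const (WW κ.w x)).const_add (WW κ.w u)
  generalize p.map (MvPolynomial.eval (κ.lamv fun i => u i)) = Q
  have h4 := Q.hasDerivAt (WW κ.w u + 0 * WW κ.w x)
  have h5 := HasDerivAt.comp (0 : ℂ) (h := fun t : ℂ => WW κ.w u + t * WW κ.w x) h4 h3
  exact h5

/-- derivative along a line -/
theorem hasDerivAt_Hv (u x : EuclideanSpace ℂ (Fin (N + 1))) :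
    HasDerivAt (fun t : ℂ => Hv κ (u + t • x)) (fderiv ℂ (Hv κ) u x) 0 := by
  have h1 : HasFDerivAt (Hv κ) (fderiv ℂ (Hv κ) u) (u + (0 : ℂ) • x) := by
    rw [zero_smul, add_zero]
    exact (analyticAt_Hv κ u).differentiableAt.hasFDerivAt
  have h2 : HasDerivAt (fun t : ℂ => u + t • x) x 0 := by
    simpa using ((hasDerivAt_id (0 : ℂ)).smul_const x).const_add u
  exact h1.comp_hasDerivAt (0 : ℂ) h2

theorem TT_D (h : κ.Good E) (u x : EuclideanSpace ℂ (Fin (N + 1))) :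
    TT κ.lam (fderiv ℂ (Hv κ) u x) = 0 := by
  have h1 := ((TT κ.lam).hasFDerivAt (x := Hv κ (u + (0 : ℂ) • x))).comp_hasDerivAt (0 : ℂ)
    (hasDerivAt_Hv (κ := κ) u x)
  have h2 : (⇑(TT κ.lam) ∘ fun t : ℂ => Hv κ (u + t • x)) = fun _ => 0 := by
    funext t
    exact TT_Hv h _
  rw [h2] at h1
  exact h1.unique (hasDerivAt_const (0 : ℂ) 0)

theorem WW_D (h : κ.Good E) {u x : EuclideanSpace ℂ (Fin (N + 1))} (hx : TT κ.lam x = 0) :
    WW κ.w (fderiv ℂ (Hv κ) u x) = κ.D * (MvPolynomial.eval (fun i => u i) κ.dG * WW κ.w x) := by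
  have h1 := ((WW κ.w).hasFDerivAt (x := Hv κ (u + (0 : ℂ) • x))).comp_hasDerivAt (0 : ℂ)
    (hasDerivAt_Hv (κ := κ) u x)
  have h2 : (⇑(WW κ.w) ∘ fun t : ℂ => Hv κ (u + t • x)) = fun t =>
      (κ.D : ℂ) * MvPolynomial.eval (fun i => (u + t • x) i) (κ.sub κ.G) := by
    funext t
    exact WW_Hv h _
  rw [h2] at h1
  exact h1.unique ((hasDerivAt_line κ.G hx).const_mul (κ.D : ℂ))

theorem D_eq {u x : EuclideanSpace ℂ (Fin (N + 1))} (hx : TT κ.lam x = 0)
    (hw : WW κ.w x = 0) : fderiv ℂ (Hv κ) u x = MvPolynomial.eval (fun i => u i) κ.dG • x := by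
  have h1 := hasDerivAt_Hv (κ := κ) u x
  have h0 : ∀ (p : Polynomial (MvPolynomial (Fin (n + 1)) ℂ)) (t : ℂ),
      MvPolynomial.eval (fun i => (u + t • x) i) (κ.sub p) =
        MvPolynomial.eval (fun i => u i) (κ.sub p) := by
    intro p t
    have h2 := eval_line (κ := κ) p (u := u) hx t
    have h3 := eval_line (κ := κ) p (u := u) hx 0
    rw [hw, mul_zero] at h2 h3
    rw [zero_smul, add_zero] at h3
    rw [h2, h3]
  have h2 : (fun t : ℂ => Hv κ (u + t • x)) = fun t =>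
      Hv κ u + t • (MvPolynomial.eval (fun i => u i) κ.dG • x) := by
    funext t
    ext k
    rw [PiLp.add_apply, PiLp.smul_apply, PiLp.smul_apply, Hv_apply, Hv_apply, Hp, map_sub, map_mul,
      map_sub, map_mul, h0, KDat.dG, h0, MvPolynomial.eval_X, MvPolynomial.eval_X, PiLp.add_apply,
      PiLp.smul_apply]
    simp only [smul_eq_mul]
    ring
  rw [h2] at h1
  have h3 : HasDerivAt (fun t : ℂ => Hv κ u + t • (MvPolynomial.eval (fun i => u i) κ.dG • x))
      (MvPolynomial.eval (fun i => u i) κ.dG • x) 0 := by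
    simpa using ((hasDerivAt_id (0 : ℂ)).smul_const
      (MvPolynomial.eval (fun i => u i) κ.dG • x)).const_add (Hv κ u)
  exact h1.unique h3

/-- **the derivative of `H` is bijective on `ker lam`** -/
theorem D_surj (h : κ.Good E) {u : EuclideanSpace ℂ (Fin (N + 1))}
    (hd : MvPolynomial.eval (fun i => u i) κ.dG ≠ 0) {y : EuclideanSpace ℂ (Fin (N + 1))}
    (hy : TT κ.lam y = 0) : ∃ x, TT κ.lam x = 0 ∧ fderiv ℂ (Hv κ) u x = y := by
  set K0 : Submodule ℂ (EuclideanSpace ℂ (Fin (N + 1))) := LinearMap.ker (TT κ.lam).toLinearMap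
    with hK0
  have hmem : ∀ x, x ∈ K0 ↔ TT κ.lam x = 0 := fun x => LinearMap.mem_ker
  set A : K0 →ₗ[ℂ] K0 := ((fderiv ℂ (Hv κ) u).toLinearMap.comp K0.subtype).codRestrict K0
    (fun x => (hmem _).mpr (TT_D h u x)) with hA
  have hinj : Function.Injective A := by
    rw [← LinearMap.ker_eq_bot, LinearMap.ker_eq_bot']
    intro x hx
    have h1 : fderiv ℂ (Hv κ) u (x : EuclideanSpace ℂ (Fin (N + 1))) = 0 := by
      have := congrArg Subtype.val hx
      simpa [hA] using this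
    have hx0 := (hmem _).mp x.2
    have h2 := WW_D h (u := u) hx0
    rw [h1, map_zero] at h2
    have h3 : WW κ.w (x : EuclideanSpace ℂ (Fin (N + 1))) = 0 := by
      rcases mul_eq_zero.mp h2.symm with h4 | h4
      · exact absurd h4 (Nat.cast_ne_zero.mpr h.D_pos.ne')
      · exact (mul_eq_zero.mp h4).resolve_left hd
    have h4 := D_eq (κ := κ) (u := u) hx0 h3
    rw [h1] at h4
    have h5 := (smul_eq_zero.mp h4.symm).resolve_left hd
    exact Subtype.ext h5
  obtain ⟨x, hx⟩ := (LinearMap.injective_iff_surjective.mp hinj) ⟨y, (hmem _).mpr hy⟩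
  refine ⟨x, (hmem _).mp x.2, ?_⟩
  have := congrArg Subtype.val hx
  simpa [hA] using this

end

end Crest.Agent.R281.KrB3_871
end

-- ▼ part R281/KrB4_871

/-!
# R281, KRON (helper871): `kron_loc` — the family of cones cut out by specialised Kronecker data

`KC ev E = {(p, v) | v ≠ 0, F^(ev p) (v) = 0 for all F in E}`.  Output: `Eh2_461.LocEq`, `Ehr2_268.LocEq`
(of codimension `dim ker lam_p0`) at every point where `dG ≠ 0`, and `Eh3_461.Fam`.
-/

set_option autoImplicit false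

open MvPolynomial Polynomial Set Filter Topology

namespace Crest.Agent.R281.KrB4_871

open Crest.Agent.R281.Kr_488 Crest.Agent.R281.KrB1_871 Crest.Agent.R281.KrB2_871
  Crest.Agent.R281.KrB3_871

noncomputable section

variable {P : Type*} {n N : ℕ} {R : Type*} [CommRing R]

/-- the value of the specialised polynomial -/
def val (ev : P → (R →+* ℂ)) (F : MvPolynomial (Fin (N + 1)) R)
    (q : P × EuclideanSpace ℂ (Fin (N + 1))) : ℂ :=
  MvPolynomial.eval (fun i => q.2 i) (MvPolynomial.map (ev q.1) F)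

/-- the family of punctured cones -/
def KC (ev : P → (R →+* ℂ)) (E : Set (MvPolynomial (Fin (N + 1)) R)) :
    Set (P × EuclideanSpace ℂ (Fin (N + 1))) :=
  {q | q.2 ≠ 0 ∧ ∀ F ∈ E, val ev F q = 0}

variable [NormedAddCommGroup P] [NormedSpace ℂ P] {ev : P → (R →+* ℂ)} {p0 : P}

theorem analyticAt_val (han : ∀ r, AnalyticAt ℂ (fun p => ev p r) p0)
    (F : MvPolynomial (Fin (N + 1)) R) (u : EuclideanSpace ℂ (Fin (N + 1))) :
    AnalyticAt ℂ (val ev F) (p0, u) := by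
  induction F using MvPolynomial.induction_on with
  | C a =>
    have h1 : val (N := N) ev (MvPolynomial.C a) = fun q => ev q.1 a := by
      funext q
      simp [val]
    rw [h1]
    exact AnalyticAt.comp (g := fun p => ev p a) (f := fun q : P × EuclideanSpace ℂ (Fin (N + 1)) => q.1)
      (han a) analyticAt_fst
  | add p q hp hq =>
    have h1 : val ev (p + q) = fun x => val ev p x + val ev q x := by
      funext x
      simp [val]
    rw [h1]
    exact hp.add hq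
  | mul_X p i hp =>
    have h2 : AnalyticAt ℂ (fun q : P × EuclideanSpace ℂ (Fin (N + 1)) => q.2 i) (p0, u) :=
      AnalyticAt.comp (g := fun v : EuclideanSpace ℂ (Fin (N + 1)) => v i)
        (f := fun q : P × EuclideanSpace ℂ (Fin (N + 1)) => q.2)
        ((EuclideanSpace.proj i : EuclideanSpace ℂ (Fin (N + 1)) →L[ℂ] ℂ).analyticAt u) analyticAt_snd
    have h1 : val ev (p * MvPolynomial.X i) = fun x => val ev p x * x.2 i := by
      funext x
      simp [val]
    rw [h1]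
    exact hp.mul h2

theorem continuousAt_val (han : ∀ r, AnalyticAt ℂ (fun p => ev p r) p0)
    (F : MvPolynomial (Fin (N + 1)) R) (u : EuclideanSpace ℂ (Fin (N + 1))) :
    ContinuousAt (val ev F) (p0, u) := (analyticAt_val han F u).continuousAt

/-- the vector of the values of the `Hp κ k` -/
def HV (ev : P → (R →+* ℂ)) (κ : KDat n N R) (q : P × EuclideanSpace ℂ (Fin (N + 1))) :
    EuclideanSpace ℂ (Fin (N + 1)) :=
  WithLp.toLp 2 fun k => val ev (Hp κ k) q

omit [NormedAddCommGroup P] [NormedSpace ℂ P] in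
theorem HV_eq (κ : KDat n N R) (q : P × EuclideanSpace ℂ (Fin (N + 1))) :
    HV ev κ q = Hv (mapK κ (ev q.1)) q.2 := by
  ext k
  rw [Hv_apply, Hp_map]
  rfl

theorem analyticAt_HV (han : ∀ r, AnalyticAt ℂ (fun p => ev p r) p0) (κ : KDat n N R)
    (u : EuclideanSpace ℂ (Fin (N + 1))) : AnalyticAt ℂ (HV ev κ) (p0, u) :=
  analyticAt_toLp fun k => analyticAt_val han (Hp κ k) u

/-- `ker lam` at the base point -/
def K0 (κ : KDat n N R) (φ : R →+* ℂ) : Submodule ℂ (EuclideanSpace ℂ (Fin (N + 1))) :=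
  LinearMap.ker (TT (mapK κ φ).lam).toLinearMap

theorem mem_K0 {κ : KDat n N R} {φ : R →+* ℂ} {x : EuclideanSpace ℂ (Fin (N + 1))} :
    x ∈ K0 κ φ ↔ TT (mapK κ φ).lam x = 0 := LinearMap.mem_ker

/-- codimension -/
def cod (κ : KDat n N R) (φ : R →+* ℂ) : ℕ := Module.finrank ℂ (K0 κ φ)

/-- orthogonal projection onto `ker lam_p0`, in coordinates -/
def PiL (κ : KDat n N R) (φ : R →+* ℂ) :
    EuclideanSpace ℂ (Fin (N + 1)) →L[ℂ] EuclideanSpace ℂ (Fin (cod κ φ)) :=
  ((stdOrthonormalBasis ℂ (K0 κ φ)).repr.toContinuousLinearEquiv.toContinuousLinearMap).comp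
    (K0 κ φ).orthogonalProjectionOnto

theorem PiL_inj (κ : KDat n N R) (φ : R →+* ℂ) {x : EuclideanSpace ℂ (Fin (N + 1))}
    (hx : x ∈ K0 κ φ) (h : PiL κ φ x = 0) : x = 0 := by
  have h1 : (stdOrthonormalBasis ℂ (K0 κ φ)).repr ((K0 κ φ).orthogonalProjectionOnto x) = 0 := h
  rw [map_eq_zero_iff _ (stdOrthonormalBasis ℂ (K0 κ φ)).repr.injective] at h1
  have h2 := Submodule.orthogonalProjectionOnto_mem_subspace_eq_self (⟨x, hx⟩ : K0 κ φ)
  rw [h1] at h2
  exact (congrArg Subtype.val h2).symm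

theorem PiL_surj (κ : KDat n N R) (φ : R →+* ℂ) (y : EuclideanSpace ℂ (Fin (cod κ φ))) :
    ∃ x ∈ K0 κ φ, PiL κ φ x = y := by
  obtain ⟨x, hx⟩ := (stdOrthonormalBasis ℂ (K0 κ φ)).repr.surjective y
  refine ⟨x, x.2, ?_⟩
  have h2 := Submodule.orthogonalProjectionOnto_mem_subspace_eq_self x
  show (stdOrthonormalBasis ℂ (K0 κ φ)).repr ((K0 κ φ).orthogonalProjectionOnto (x : EuclideanSpace ℂ (Fin (N + 1)))) = y
  rw [h2, hx]

/-- transversality persists -/
theorem eventually_inj (han : ∀ r, AnalyticAt ℂ (fun p => ev p r) p0) (κ : KDat n N R) :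
    ∀ᶠ p in 𝓝 p0, ∀ x, TT (mapK κ (ev p)).lam x = 0 → PiL κ (ev p0) x = 0 → x = 0 := by
  set M : P → (EuclideanSpace ℂ (Fin (N + 1)) →L[ℂ] (Fin (n + 1) → ℂ) ×
    EuclideanSpace ℂ (Fin (cod κ (ev p0)))) := fun p => (TT (mapK κ (ev p)).lam).prod (PiL κ (ev p0))
    with hM
  have hc : ContinuousAt M p0 := by
    rw [continuousAt_clm_apply]
    intro x
    refine ContinuousAt.prodMk ?_ continuousAt_const
    refine continuousAt_pi.mpr fun j => ?_
    have h1 : (fun p => TT (mapK κ (ev p)).lam x j) = fun p => ∑ k, ev p (κ.lam j k) * x k := by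
      funext p
      rw [TT_apply]
      rfl
    show ContinuousAt (fun p => TT (mapK κ (ev p)).lam x j) p0
    rw [h1]
    refine tendsto_finsetSum _ fun k _ => ?_
    exact (han (κ.lam j k)).continuousAt.tendsto.mul_const _
  have h0 : Function.Injective (M p0) := by
    rw [injective_iff_map_eq_zero]
    intro x hx
    have h1 := congrArg Prod.fst hx
    have h2 := congrArg Prod.snd hx
    exact PiL_inj κ (ev p0) (mem_K0.mpr h1) h2
  have h3 := hc.preimage_mem_nhds (ContinuousLinearMap.isOpen_injective.mem_nhds h0)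
  filter_upwards [h3] with p hp x hx1 hx2
  have h4 : M p x = 0 := Prod.ext hx1 hx2
  exact (injective_iff_map_eq_zero (M p)).mp hp x h4

/-- **local equations** -/
theorem exists_loc {κ : KDat n N R} {E : Set (MvPolynomial (Fin (N + 1)) R)} (h : κ.Good E)
    (hE : ∀ F ∈ E, ∃ m, F.IsHomogeneous m) (han : ∀ r, AnalyticAt ℂ (fun p => ev p r) p0)
    {u : EuclideanSpace ℂ (Fin (N + 1))} (hu : u ≠ 0) (hd : val ev κ.dG (p0, u) ≠ 0) :
    ∃ g : P × EuclideanSpace ℂ (Fin (N + 1)) → EuclideanSpace ℂ (Fin (cod κ (ev p0))),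
      AnalyticAt ℂ g (p0, u) ∧ Function.Surjective (fderiv ℂ (fun v => g (p0, v)) u) ∧
      ∀ᶠ q in 𝓝 (p0, u), q ∈ KC ev E ↔ g q = 0 := by
  refine ⟨fun q => PiL κ (ev p0) (HV ev κ q), ?_, ?_, ?_⟩
  · exact ((PiL κ (ev p0)).analyticAt _).comp (analyticAt_HV han κ u)
  · have hG0 := KrB1_871.Good.map h (ev p0)
    have hd0 : MvPolynomial.eval (fun i => u i) (mapK κ (ev p0)).dG ≠ 0 := by
      rw [dG_map]
      exact hd
    have h1 : (fun v => PiL κ (ev p0) (HV ev κ (p0, v))) =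
        fun v => PiL κ (ev p0) (Hv (mapK κ (ev p0)) v) := by
      funext v
      rw [HV_eq]
    have h2 : HasFDerivAt (fun v => PiL κ (ev p0) (Hv (mapK κ (ev p0)) v))
        ((PiL κ (ev p0)).comp (fderiv ℂ (Hv (mapK κ (ev p0))) u)) u :=
      (PiL κ (ev p0)).hasFDerivAt.comp u
        (analyticAt_Hv (mapK κ (ev p0)) u).differentiableAt.hasFDerivAt
    rw [h1, h2.fderiv]
    intro y
    obtain ⟨x, hx, hxy⟩ := PiL_surj κ (ev p0) y
    obtain ⟨z, _, hz⟩ := D_surj hG0 hd0 (mem_K0.mp hx)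
    exact ⟨z, by rw [ContinuousLinearMap.comp_apply, hz, hxy]⟩
  · have e1 : ∀ᶠ q in 𝓝 (p0, u), val ev κ.dG q ≠ 0 :=
      (continuousAt_val han κ.dG u).eventually_ne hd
    have e2 : ∀ᶠ q : P × EuclideanSpace ℂ (Fin (N + 1)) in 𝓝 (p0, u), q.2 ≠ 0 :=
      (show ContinuousAt (fun q : P × EuclideanSpace ℂ (Fin (N + 1)) => q.2) (p0, u) from
        continuousAt_snd).eventually_ne hu
    have e3 : ∀ᶠ q : P × EuclideanSpace ℂ (Fin (N + 1)) in 𝓝 (p0, u),
        ∀ x, TT (mapK κ (ev q.1)).lam x = 0 → PiL κ (ev p0) x = 0 → x = 0 :=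
      (show ContinuousAt (fun q : P × EuclideanSpace ℂ (Fin (N + 1)) => q.1) (p0, u) from
        continuousAt_fst).eventually (eventually_inj han κ)
    filter_upwards [e1, e2, e3] with q h1 h2 h3
    have hGq := KrB1_871.Good.map h (ev q.1)
    have hdq : MvPolynomial.eval (fun i => q.2 i) (mapK κ (ev q.1)).dG ≠ 0 := by
      rw [dG_map]
      exact h1
    have hEq : ∀ F ∈ MvPolynomial.map (ev q.1) '' E, ∃ m, F.IsHomogeneous m := by
      rintro _ ⟨F, hF, rfl⟩
      obtain ⟨m, hm⟩ := hE F hF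
      exact ⟨m, hm.map _⟩
    have key := mem_iff hGq hEq hdq
    constructor
    · intro hq
      have h4 : ∀ k, MvPolynomial.eval (fun i => q.2 i) (Hp (mapK κ (ev q.1)) k) = 0 := by
        refine key.mp ?_
        rintro _ ⟨F, hF, rfl⟩
        exact hq.2 F hF
      have h5 : HV ev κ q = 0 := by
        rw [HV_eq]
        ext k
        rw [Hv_apply]
        exact h4 k
      show PiL κ (ev p0) (HV ev κ q) = 0
      rw [h5, map_zero]
    · intro hq
      have h5 : HV ev κ q = 0 := by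
        refine h3 _ ?_ hq
        rw [HV_eq]
        exact TT_Hv hGq q.2
      refine ⟨h2, fun F hF => ?_⟩
      have h4 : ∀ k, MvPolynomial.eval (fun i => q.2 i) (Hp (mapK κ (ev q.1)) k) = 0 := by
        intro k
        have h6 : HV ev κ q k = 0 := by
          rw [h5]
          rfl
        rw [HV_eq, Hv_apply] at h6
        exact h6
      exact key.mpr h4 _ ⟨F, hF, rfl⟩

/-- 461's `LocEq` -/
theorem locEq {κ : KDat n N R} {E : Set (MvPolynomial (Fin (N + 1)) R)} (h : κ.Good E)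
    (hE : ∀ F ∈ E, ∃ m, F.IsHomogeneous m) (han : ∀ r, AnalyticAt ℂ (fun p => ev p r) p0)
    {u : EuclideanSpace ℂ (Fin (N + 1))} (hu : u ≠ 0) (hd : val ev κ.dG (p0, u) ≠ 0) :
    Eh2_461.LocEq (KC ev E) p0 u := by
  obtain ⟨g, h1, h2, h3⟩ := exists_loc h hE han hu hd
  exact ⟨_, g, h1, h2, h3⟩


/-- **461's `Fam`** -/
theorem fam {E : Set (MvPolynomial (Fin (N + 1)) R)} (hE : ∀ F ∈ E, ∃ m, F.IsHomogeneous m)
    (han : ∀ r, AnalyticAt ℂ (fun p => ev p r) p0)
    (hcov : ∀ u : EuclideanSpace ℂ (Fin (N + 1)), (p0, u) ∈ KC ev E →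
      ∃ κ : KDat n N R, κ.Good E ∧ val ev κ.dG (p0, u) ≠ 0) : Eh3_461.Fam (KC ev E) p0 where
  conic := by
    rintro p u l hl ⟨h1, h2⟩
    refine ⟨smul_ne_zero hl h1, fun F hF => ?_⟩
    obtain ⟨m, hm⟩ := hE F hF
    have h3 := eval_smul_homog (hm.map (ev p)) l (fun i => u i)
    have h4 : (fun i => (l • u) i) = l • fun i => u i := rfl
    show MvPolynomial.eval (fun i => (l • u) i) (MvPolynomial.map (ev p) F) = 0
    rw [h4, h3]
    have h5 : MvPolynomial.eval (fun i => u i) (MvPolynomial.map (ev p) F) = 0 := h2 F hF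
    rw [h5, mul_zero]
  ne := fun p u h => h.1
  closed := by
    intro u hu hnot
    have h1 : ∃ F ∈ E, val ev F (p0, u) ≠ 0 := by
      by_contra hcon
      push Not at hcon
      exact hnot ⟨hu, hcon⟩
    obtain ⟨F, hF, h2⟩ := h1
    filter_upwards [(continuousAt_val han F u).eventually_ne h2] with q hq hqC
    exact hq (hqC.2 F hF)
  loc := fun u hu => by
    obtain ⟨κ, hκ, hd⟩ := hcov u hu
    exact locEq hκ hE han hu.1 hd

end

end Crest.Agent.R281.KrB4_871
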