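import Crest.Agent.R281.Cr2_808
import Crest.Agent.R281.Md4_252
import Crest.Agent.R281.Alg1_867
import Crest.Agent.R281.GTi3_989
import Crest.Agent.R281.CB1_867
import Crest.Agent.R281.SDR3_273
import Crest.Agent.R281.Ehr10_268

-- ▼ part R281/Cr3_808
section

/-!
# R281, CORE-ASM (helper808), part 3: the form for a `Road`

* `road_tube` : `R : Road Alg B`, `SdatEnd R.K` ==> for every real part `x` tubes at all members
  `MemN R.K ⟨x, y⟩ H`, `y` large, with zero periods for all classes of `e^⊥`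
-/

set_option autoImplicit false
set_option linter.unusedSectionVars false
set_option maxSynthPendingDepth 3

open Set Filter Topology Complex Metric MeasureTheory
open scoped ContDiff Matrix ComplexConjugate ComplexOrder ENNReal

namespace Crest.Agent.R281.Cr_808

open Crest.Agent.R275.Geo Crest.Agent.R275.Core144 Crest.Agent.R275.EDR890
open Crest.Agent.R275.GC293
open Crest.Agent.R260.ACM_580 Crest.Agent.R260.NNB_580
open Crest.Agent.R281.HkR_835
open Crest.Agent.R281.RkD_902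
open Crest.Agent.R281.Alg_998
open Crest.Agent.R281.Mc673 (W)

noncomputable section

variable {n : ℕ} {X : Type} [TopologicalSpace X] [CompactSpace X] [T2Space X] [ConnectedSpace X]
  [MeasurableSpace X] [BorelSpace X]
  {C : RCh (Cn (2 * n)) X} {Q : F2 C →ₗ[ℝ] F2 C →ₗ[ℝ] ℝ} {Alg : AlgT Q} {H0 : HkT C} {e : F2 C}
  {Bo : Box Q H0 e}

/-- **tubes on a vertical ray of the road** -/
theorem road_tube_of (hX : Ctx n C Q) (Rd : Road Alg Bo)
    (hSd : (∃ τ H, MemN Rd.K τ H) → SdatEnd Rd.K) (x : ℝ) :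
    ∃ Λ : ℝ, 0 < Λ ∧ ∀ R δ : ℝ, 0 < R → 0 < δ → ∃ Y1 : ℝ, ∀ y : ℝ, Y1 < y →
      ∀ H : HkT C, MemN Rd.K ⟨x, y⟩ H →
      ∃ (A' : Atl (2 * n) X) (_ : Finite A'.ι) (_ : GoodA A') (_ : Nonempty (Part A'))
        (hp : Cp (H.acm 0) A') (L : ℝ) (hL : 0 < L) (Θ : W (2 * n) → X),
        Mtub H {v | Q v e = 0} R Λ δ A' hp L hL Θ := by
  obtain ⟨Λ, hΛ, h⟩ := core_ray_of hX Rd.K Rd.Ae hSd |x|
  rw [Rd.Fe] at h
  refine ⟨Λ, hΛ, fun R δ hR hδ => ?_⟩
  obtain ⟨Y1, h1⟩ := h R δ hR hδ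
  exact ⟨Y1, fun y hy H hH => h1 ⟨x, y⟩ le_rfl hy H hH⟩

end

end Crest.Agent.R281.Cr_808
end

-- ▼ part R281/Md5_252
section

/-!
# Row 281, MEMD-INST (helper252), part 5: the static node

`m : MemA F A Y κ β τ H` (867): a member of the end with its algebraic data.

* `MemA.exists_node` : atlas `A'` of `J 0`, `O`, `U`, `σ`, `h` with `ConeC Y O U`, `FormC Y.D U σ`,
  `cur h = κ K0`, `σ = c (om 1 + i om 2)`, `‖c‖ = √(N / Q A A) ‖β‖ Im τ`
-/

set_option autoImplicit false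
set_option maxSynthPendingDepth 3
set_option linter.unusedSectionVars false

open Set Filter Topology Complex MeasureTheory
open scoped ContDiff Matrix ComplexConjugate ComplexOrder

namespace Crest.Agent.R281.Md_252

open Crest.Agent.R275.Geo Crest.Agent.R275.Core144 Crest.Agent.R275.EDR890
open Crest.Agent.R275.GC293
open Crest.Agent.R273.Kah_333 Crest.Agent.R273.Hess_333 Crest.Agent.R273.HessB_333
open Crest.Agent.R273.Defs_333 Crest.Agent.R273.HM_333 Crest.Agent.R273.Vol_333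
open Crest.Agent.R273.Vm_333
open Crest.Agent.R273.SerA_945 (Fn)
open Crest.Agent.R281.Defs_273
open Crest.Agent.R260.ACM_580 Crest.Agent.R260.NNB_580
open Crest.Agent.R281.HkR_835 Crest.Agent.R281.Ti_846
open Crest.Agent.R281.NefO_476 Crest.Agent.R281.Dif_268
open Crest.Agent.R281.HkP2_508 Crest.Agent.R281.HkP1_508 Crest.Agent.R281.Ehr2_268
open Crest.Agent.R281.Pe_313 Crest.Agent.R281.CA_867 Crest.Agent.R281.GTi_989
open Crest.Agent.R281.Alg_998 Crest.Agent.R281.Al_830 Crest.Agent.R281.Alg_867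
open Crest.Agent.R281.Fuj7_207 (bn bn_rfl)
open Crest.Agent.R281.Nef_252 Crest.Agent.R281.RkD_902

noncomputable section

section back

variable {V V' X : Type} [NormedAddCommGroup V] [NormedSpace ℝ V] [NormedAddCommGroup V']
  [NormedSpace ℝ V'] [TopologicalSpace X] {C : RCh V X} {C' : RCh V' X}

/-- classes back to the first charts -/
theorem ex_back (h : Cmp C C') {w : F2 C'} {a : F2 C} (he : Ex (w - h.F a)) :
    Ex (h.symm.F w - a) := by
  have h1 : Ex (h.symm.F (w - h.F a)) := HkR_835.ex_F h.symm he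
  refine Eqv.ex ((HkR_835.F_sub h.symm _ _).trans ?_) h1
  exact eqv_sub (fun _ _ _ _ _ => rfl) (F_F h a)

end back

variable {n N : ℕ} {X : Type} [TopologicalSpace X] [CompactSpace X] {C : RCh (Cn (2 * n)) X}
  {Q : F2 C →ₗ[ℝ] F2 C →ₗ[ℝ] ℝ} {F : Frm C Q} {A : F2 C} {Y : CDat (2 * n) N ℂ} {κ : ℝ}
  {β τ : ℂ} {H : HkT C}

/-- **the form of the member** -/
theorem memA_sig [T2Space X] [Nonempty X] (hctx : Ctx n C Q) (hA0 : 0 < Q A A)
    (hAt : AtTau F A H τ) (m : MemA F A Y κ β τ H) (hβ : β ≠ 0) :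
    ∃ c : ℂ, c ≠ 0 ∧ ‖c‖ = √(F.N / Q A A) * ‖β‖ * τ.im ∧
      ∀ (A' : Atl (2 * n) X) [Finite A'.ι] (_ : Part A') (hp : Cp (H.acm 0) A')
        (h : HolA m.P (CB_867.bE N) A') (σ : H2 A'),
        (∀ (i : A'.ι), ∀ z ∈ (A'.e i).target, ∀ u v, sb (sl σ i z) u v =
          ((h.cmp.F m.s1).w i z u v : ℂ) + I * ((h.cmp.F m.s2).w i z u v : ℂ)) →
        ∀ i, ∀ x ∈ (A'.e i).source, σ.s i x = c • (H.sig hp).s i x := by
  obtain ⟨z, hz, hz2, hb⟩ := atTau_z hctx.symm hctx.ex hctx.eq hAt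
  refine ⟨β / z, div_ne_zero hβ hz, norm_z hz F.hN hA0 hAt.im_pos hz2, ?_⟩
  intro A' _ Pt hp h σ hσ
  have hV : Module.finrank ℝ (Cn (2 * n)) = 2 * (2 * n) := by
    rw [Module.finrank_eq_card_basis (bc (2 * n))]
    simp [mul_comm]
  have hn : 0 < 2 * n := by have := hctx.n1; omega
  have hq : 0 < Q (H.om 0) (H.om 0) := by
    have h1 : ∀ x x' : F2 C, Cl x x' → ∀ y, Q x y = Q x' y := by
      intro x x' hx y
      have h3 : Q (x - x') y = 0 := hctx.ex _ _ hx
      rw [map_sub, LinearMap.sub_apply] at h3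
      linarith
    rw [h1 _ _ hAt.om0, hctx.symm, h1 _ _ hAt.om0]
    exact hA0
  have hu : UniqT H := hctx.uniq H hq
  refine sig_scal hV hn Pt hp hu (w₁ := m.cmp.symm.F m.s1) (w₂ := m.cmp.symm.F m.s2) ?_ ?_
  · intro i z' hz' u v
    rw [hσ i z' hz']
    have e1 : Eqv ((cmp_of_cp hp).F (m.cmp.symm.F m.s1)) (h.cmp.F m.s1) :=
      cmp_F_F m.cmp.symm (cmp_of_cp hp) h.cmp m.s1
    have e2 : Eqv ((cmp_of_cp hp).F (m.cmp.symm.F m.s2)) (h.cmp.F m.s2) :=
      cmp_F_F m.cmp.symm (cmp_of_cp hp) h.cmp m.s2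
    rw [e1 i z' hz' u v, e2 i z' hz' u v]
  · have h1 := ex_back m.cmp m.s1_cl
    exact Cl.trans h1 (hb β).1.symm

end

end Crest.Agent.R281.Md_252
end

-- ▼ part R281/Md6_252
section

/-!
# Row 281, MEMD-INST (helper252), part 6: the static node, composition

* `exists_vol`  : one volume for all members with `[om 0] = A`
* `NodeM`       : the node at one member
* `node_of`     : from `ConeC` (989) and `FormC` (998, 268) on the atlas of the embedding
-/

set_option autoImplicit false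
set_option maxSynthPendingDepth 3
set_option linter.unusedSectionVars false

open Set Filter Topology Complex MeasureTheory
open scoped ContDiff Matrix ComplexConjugate ComplexOrder

namespace Crest.Agent.R281.Md_252

open Crest.Agent.R275.Geo Crest.Agent.R275.Core144 Crest.Agent.R275.EDR890
open Crest.Agent.R275.GC293
open Crest.Agent.R273.Kah_333 Crest.Agent.R273.Hess_333 Crest.Agent.R273.HessB_333
open Crest.Agent.R273.Defs_333 Crest.Agent.R273.HM_333 Crest.Agent.R273.Vol_333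
open Crest.Agent.R273.Vm_333
open Crest.Agent.R273.SerA_945 (Fn)
open Crest.Agent.R281.Defs_273
open Crest.Agent.R260.ACM_580 Crest.Agent.R260.NNB_580
open Crest.Agent.R281.HkR_835 Crest.Agent.R281.Ti_846
open Crest.Agent.R281.NefO_476 Crest.Agent.R281.Dif_268
open Crest.Agent.R281.HkP2_508 Crest.Agent.R281.HkP1_508 Crest.Agent.R281.Ehr2_268
open Crest.Agent.R281.Pe_313 Crest.Agent.R281.CA_867 Crest.Agent.R281.GTi_989
open Crest.Agent.R281.Alg_998 Crest.Agent.R281.Al_830 Crest.Agent.R281.Alg_867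
open Crest.Agent.R281.Fuj7_207 (bn bn_rfl)
open Crest.Agent.R281.Nef_252 Crest.Agent.R281.RkD_902

noncomputable section

variable {n N : ℕ} {X : Type} [TopologicalSpace X] [CompactSpace X] {C : RCh (Cn (2 * n)) X}
  {Q : F2 C →ₗ[ℝ] F2 C →ₗ[ℝ] ℝ} {F : Frm C Q} {A : F2 C} {Y : CDat (2 * n) N ℂ} {κ : ℝ}
  {β τ : ℂ} {H : HkT C}

variable [T2Space X] [ConnectedSpace X] [MeasurableSpace X] [BorelSpace X]

/-- **one volume** for all members with `[om 0] = A` -/
theorem exists_vol (hctx : Ctx n C Q) (hA0 : 0 < Q A A) : ∃ V : ℝ, 0 < V ∧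
    ∀ (H : HkT C), Cl (H.om 0) A → ∀ (A' : Atl (2 * n) X) [Finite A'.ι] (_ : Part A')
      (hp : Cp (H.acm 0) A'), (vm (volK (H.kah hp))).real univ = V := by
  obtain ⟨P, q, κ, hκ, T, hQ⟩ := hctx.top
  have hq : 0 < q A := by
    have h1 := hQ A A
    rw [QuadraticMap.polar_self, nsmul_eq_mul] at h1
    rw [h1] at hA0
    have h2 : 0 < ((2 : ℕ) : ℝ) * q A := (mul_pos_iff_of_pos_left hκ).1 hA0
    exact (mul_pos_iff_of_pos_left (by norm_num)).1 h2
  refine ⟨q A ^ n / (2 ^ (2 * n) * (2 * n).factorial), by positivity, ?_⟩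
  intro H hH A' _ Pt hp
  exact vol_mem (two_mul n) T hq hH Pt hp

/-- **the node at one member** -/
structure NodeM (Y : CDat (2 * n) N ℂ) (κ mu V : ℝ) (H : HkT C) {A' : Atl (2 * n) X}
    [Finite A'.ι] (hp : Cp (H.acm 0) A') (O : LB A') (U : Fin (N + 1) → Fn A') (σ : HSymp A')
    (h : HM O) : Prop where
  cone : ConeC Y O U
  form : FormC Y.D U σ.toH2
  curv : ∀ i, ∀ x ∈ (A'.e i).source, cur h i x = (κ : ℂ) • (H.kah hp).g i x
  det : ∀ i, ∀ x ∈ (A'.e i).source, ‖(σ.s i x).det‖ = mu * ((H.kah hp).g i x).det.re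
  vol : (vm (volK (H.kah hp))).real univ = V
  mass : vm (volS σ) univ = ENNReal.ofReal (mu * V)

/-- the atlas of the embedding, subordinate to a cover -/
theorem memA_atl (m : MemA F A Y κ β τ H) {ι : Type*} (O : ι → Set X) (hO : ∀ k, IsOpen (O k))
    (hOc : ∀ x, ∃ k, x ∈ O k) :
    ∃ A' : Atl (2 * n) X, Finite A'.ι ∧ GoodA A' ∧ Nonempty (Part A') ∧
      HolA m.P (CB_867.bE N) A' ∧ Cp (H.acm 0) A' ∧ (∀ a, ∃ k, (A'.e a).source ⊆ O k) ∧
      ∃ κ' : A'.ι → Fin (N + 1), ∀ a, (A'.e a).source ⊆ OX m.P (CB_867.bE N) (κ' a) := by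
  have hV : Module.finrank ℝ (Cn (2 * n)) = 2 * (2 * n) := by
    rw [Module.finrank_eq_card_basis (bc (2 * n))]
    simp [mul_comm]
  obtain ⟨A', h1, h2, h3, h4, h5, h6, h7, -⟩ :=
    m.cx.exists_atl m.cmp hV (CB_867.bE N) O hO hOc
  choose κ' hκ' using h7
  exact ⟨A', h1, h2, h3, h4, h5, h6, κ', hκ'⟩

theorem node_of (hctx : Ctx n C Q) (hA0 : 0 < Q A A) {V : ℝ}
    (hV : ∀ (H : HkT C), Cl (H.om 0) A → ∀ (A' : Atl (2 * n) X) [Finite A'.ι] (_ : Part A')
      (hp : Cp (H.acm 0) A'), (vm (volK (H.kah hp))).real univ = V)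
    (hAt : AtTau F A H τ) (m : MemA F A Y κ β τ H) (hβ : β ≠ 0)
    (hC : ∀ (A' : Atl (2 * n) X) (h : HolA m.P (CB_867.bE N) A') (κ' : A'.ι → Fin (N + 1))
      (hκ' : ∀ a, (A'.e a).source ⊆ OX m.P (CB_867.bE N) (κ' a)),
      ConeC Y (Crest.Agent.R273.FS_333.lb (h.toProj κ' hκ'))
        (fun k => Crest.Agent.R273.FS_333.sec (h.toProj κ' hκ') k))
    (hF : ∀ (A' : Atl (2 * n) X) (h : HolA m.P (CB_867.bE N) A') (κ' : A'.ι → Fin (N + 1))
      (hκ' : ∀ a, (A'.e a).source ⊆ OX m.P (CB_867.bE N) (κ' a)), ∃ σ : HSymp A',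
      (∀ (i : A'.ι), ∀ z ∈ (A'.e i).target, ∀ u v, sb (sl σ.toH2 i z) u v =
        ((h.cmp.F m.s1).w i z u v : ℂ) + I * ((h.cmp.F m.s2).w i z u v : ℂ)) ∧
      FormC Y.D (fun k => Crest.Agent.R273.FS_333.sec (h.toProj κ' hκ') k) σ.toH2)
    {ι : Type*} (O : ι → Set X) (hO : ∀ k, IsOpen (O k)) (hOc : ∀ x, ∃ k, x ∈ O k) :
    ∃ (A' : Atl (2 * n) X) (_ : Finite A'.ι) (_ : GoodA A') (_ : Nonempty (Part A'))
      (hp : Cp (H.acm 0) A') (L : LB A') (U : Fin (N + 1) → Fn A') (σ : HSymp A') (h : HM L),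
      (∀ a, ∃ k, (A'.e a).source ⊆ O k) ∧
      NodeM Y κ ((√(F.N / Q A A) * ‖β‖ * τ.im) ^ (2 * n)) V H hp L U σ h := by
  obtain ⟨c, hc0, hc, hsig⟩ := memA_sig hctx hA0 hAt m hβ
  obtain ⟨A', h1, h2, ⟨Pt⟩, h, hp, h6, κ', hκ'⟩ := memA_atl m O hO hOc
  obtain ⟨σ, hσ, hFm⟩ := hF A' h κ' hκ'
  have hn : 2 ≤ 2 * n := by have := hctx.n1; omega
  obtain ⟨h', hcur⟩ := hm_toProj hn Pt H hp h κ' hκ' m.cmp m.W (fun i y hy v v' =>
    m.W_eq i y hy v v') hAt.om0 m.W_cl
  have hs := hsig A' Pt hp h σ.toH2 hσ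
  have hdet := sig_det hp hs
  rw [hc] at hdet
  have hmu : 0 ≤ (√(F.N / Q A A) * ‖β‖ * τ.im) ^ (2 * n) := by
    have := hAt.im_pos
    positivity
  have hvol := hV H hAt.om0 A' Pt hp
  refine ⟨A', h1, h2, ⟨Pt⟩, hp, _, _, σ, h', h6, hC A' h κ' hκ', hFm, hcur, hdet, hvol, ?_⟩
  rw [mass_univ hmu hdet, hvol]

end

end Crest.Agent.R281.Md_252
end

-- ▼ part R281/HEc1_989
section

/-!
# R281 (S0424), STATIC-CONE (helper989): the sections of a member in the atlas

* `coneC_of_proj` : `Q : ProjD A` whose image is the zero set of the equations of `Y`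
                    ==> `ConeC Y (lb Q) (sec Q)`
* `coneC_of_holA` : the same for `P : HEmb C (EuclideanSpace ℂ (Fin (N + 1)))`, `HolA P b A`, and
                    `P.cone = cone of Y`, `Q = toProj`
* `connM_of_holA` : hence `ConnM Y`
-/

set_option autoImplicit false
set_option linter.unusedSectionVars false

open Polynomial Set Filter Topology Complex
open scoped Matrix

noncomputable section

namespace Crest.Agent.R281.HEc_989

open Crest.Agent.R275.Geo Crest.Agent.R275.Core144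
open Crest.Agent.R273.Defs_333 Crest.Agent.R273.FS_333 Crest.Agent.R273.Fam_835
open Crest.Agent.R281.Defs_273
open Crest.Agent.R281.Kr_488 Crest.Agent.R281.AF_867 Crest.Agent.R281.CA_867
open Crest.Agent.R281.CB_867 Crest.Agent.R281.GTi_989
open Crest.Agent.R281.HkR_835 Crest.Agent.R281.Ehr2_268 Crest.Agent.R281.Pe_313

variable {n : ℕ} {M : Type} [TopologicalSpace M] {A : Atl n M}

theorem sec_ext (Q : ProjD A) {i : A.ι} {x : M} (hx : x ∈ (A.e i).source) :
    (fun k => sec Q k i x) = Q.F i x := funext fun k => sec_eq Q hx k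

/-- **the sections of a projective embedding** -/
theorem coneC_of_proj (Q : ProjD A) (Y : CDat n Q.N ℂ)
    (hm : ∀ v : Fin (Q.N + 1) → ℂ, v ≠ 0 →
      (OnE (range Y.G) v ↔ ∃ a, ∃ x ∈ (A.e a).source, ∃ c : ℂ, v = c • Q.F a x)) :
    ConeC Y (lb Q) fun k => sec Q k where
  hs k := isHS_sec Q k
  inj i j x hx y hy h := by
    obtain ⟨c, hc⟩ := h
    refine Q.inj i j x hx y hy ⟨c, funext fun k => ?_⟩
    have h1 := hc k
    rw [sec_eq Q hx, sec_eq Q hy] at h1
    exact h1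
  imm i x hx v h := by
    obtain ⟨c, hc⟩ := h
    have hz : A.e i x ∈ (A.e i).target := (A.e i).map_source hx
    have hxx : (A.e i).symm (A.e i x) = x := (A.e i).left_inv hx
    refine Q.imm i (A.e i x) hz v ⟨c, funext fun k => ?_⟩
    have h1 := hc k
    rw [← hxx, df_sec hz v k] at h1
    rw [h1]
    show c * sec Q k i ((A.e i).symm (A.e i x)) = c * Q.F i ((A.e i).symm (A.e i x)) k
    rw [sec_eq Q ((A.e i).map_target hz)]
  nz i x hx := exists_sec_ne Q hx
  mem i x hx := by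
    rw [sec_ext Q hx]
    exact (hm _ (Q.ne i x hx)).2 ⟨i, x, hx, 1, (one_smul ℂ _).symm⟩
  surj v hv hE := by
    obtain ⟨a, x, hx, c, hc⟩ := (hm v hv).1 hE
    refine ⟨a, x, hx, c, fun k => ?_⟩
    rw [sec_eq Q hx]
    exact congrFun hc k

section emb

variable {V X : Type} [NormedAddCommGroup V] [NormedSpace ℝ V] [TopologicalSpace X]
  {C : RCh V X} {N : ℕ} {P : HEmb C (EuclideanSpace ℂ (Fin (N + 1)))} {A : Atl n X}

/-- the points of the cone -/
theorem mem_cone_iff (κ : A.ι → Fin (N + 1))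
    (hκ : ∀ a, (A.e a).source ⊆ OX P (bE N) (κ a)) {v : Fin (N + 1) → ℂ} (hv : v ≠ 0) :
    (bE N).symm v ∈ P.cone ↔ ∃ a, ∃ x ∈ (A.e a).source, ∃ c : ℂ,
      v = c • nuX P (bE N) (κ a) x := by
  have hF : ∀ (a : A.ι) (x : X) (i : C.ι), x ∈ (A.e a).source → x ∈ (C.e i).source →
      nuX P (bE N) (κ a) x = (bE N (P.u i (C.e i x)) (κ a))⁻¹ • bE N (P.u i (C.e i x)) := by
    intro a x i hx hi
    rw [nuX_eq hi (hκ a hx)]
    rfl
  constructor
  · rintro ⟨i, z, hz, c, hc, hw⟩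
    have hx : (C.e i).symm z ∈ (C.e i).source := (C.e i).map_target hz
    obtain ⟨a, ha⟩ := A.cover ((C.e i).symm z)
    refine ⟨a, _, ha, c * bE N (P.u i z) (κ a), ?_⟩
    have h1 := hF a _ i ha hx
    rw [(C.e i).right_inv hz] at h1
    have hne : bE N (P.u i z) (κ a) ≠ 0 := by
      have := (Pe_313.mem_OX hx).1 (hκ a ha)
      rw [(C.e i).right_inv hz] at this
      exact this.2
    have h2 : v = c • bE N (P.u i z) := by
      rw [← map_smul, ← hw, ContinuousLinearEquiv.apply_symm_apply]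
    rw [h1, smul_smul, mul_assoc, mul_inv_cancel₀ hne, mul_one]
    exact h2
  · rintro ⟨a, x, hx, c, hw⟩
    obtain ⟨i, hi⟩ := C.cover x
    have h1 := hF a x i hx hi
    have hne : bE N (P.u i (C.e i x)) (κ a) ≠ 0 := ((Pe_313.mem_OX hi).1 (hκ a hx)).2
    have hc : c ≠ 0 := by
      rintro rfl
      rw [zero_smul] at hw
      exact hv hw
    refine ⟨i, C.e i x, (C.e i).map_source hi, c * (bE N (P.u i (C.e i x)) (κ a))⁻¹,
      mul_ne_zero hc (inv_ne_zero hne), ?_⟩
    apply (bE N).injective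
    rw [ContinuousLinearEquiv.apply_symm_apply, map_smul, hw, h1, smul_smul]

/-- **the sections of a member** -/
theorem coneC_of_holA (h : HolA P (bE N) A) (κ : A.ι → Fin (N + 1))
    (hκ : ∀ a, (A.e a).source ⊆ OX P (bE N) (κ a)) (Y : CDat n N ℂ)
    (hP : ∀ w, w ∈ P.cone ↔ w ≠ 0 ∧ OnE (range Y.G) fun i => w i) :
    ConeC Y (lb (h.toProj κ hκ)) fun k => sec (h.toProj κ hκ) k := by
  refine coneC_of_proj (h.toProj κ hκ) Y fun v hv => ?_
  have hv' : v ≠ (0 : Fin (N + 1) → ℂ) := hv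
  have h0 := mem_cone_iff κ hκ hv'
  rw [hP] at h0
  refine Iff.trans ?_ h0
  have h1 : (fun i => (bE N).symm v i) = v := by
    have := (bE N).apply_symm_apply v
    exact this
  have h2 : (bE N).symm v ≠ 0 := by
    intro h0
    apply hv'
    rw [← (bE N).apply_symm_apply v, h0, map_zero]
  constructor
  · intro h3
    refine ⟨h2, ?_⟩
    rw [h1]
    exact h3
  · rintro ⟨-, h3⟩
    rw [h1] at h3
    exact h3

end emb

end Crest.Agent.R281.HEc_989
end
end

-- ▼ part R281/HEc2_989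
section

/-!
# R281 (S0424), STATIC-CONE part 2 (helper989): the algebraic form of a member in the atlas

`P : HEmb C (EuclideanSpace ℂ (Fin (N + 1)))`, `s₁ s₂ : F2 C` with
`SEq : (s₁ + i s₂)(v, v') * u_j ^ m = D.b j u (Du v) (Du v')`, `D` exact:

* `typ_of_seq`  : `Typ P s₁ s₂`
* `formC_of_holA` : `FormC D (sec Q) (h.hsymp ht hnd).toH2`, `Q = toProj`
-/

set_option autoImplicit false
set_option linter.unusedSectionVars false

open Polynomial Set Filter Topology Complex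
open scoped Matrix

noncomputable section

namespace Crest.Agent.R281.HEc_989

open Crest.Agent.R275.Geo Crest.Agent.R275.Core144
open Crest.Agent.R273.Defs_333 Crest.Agent.R273.FS_333 Crest.Agent.R273.Fam_835
open Crest.Agent.R281.Defs_273 Crest.Agent.R273.SteinC_794
open Crest.Agent.R281.Kr_488 Crest.Agent.R281.AF_867 Crest.Agent.R281.CA_867
open Crest.Agent.R281.CB_867 Crest.Agent.R281.GTi_989
open Crest.Agent.R281.HkR_835 Crest.Agent.R281.Ehr2_268 Crest.Agent.R281.Pe_313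

variable {n N : ℕ} {V X : Type} [NormedAddCommGroup V] [NormedSpace ℝ V] [TopologicalSpace X]
  {C : RCh V X} {P : HEmb C (EuclideanSpace ℂ (Fin (N + 1)))} {A : Atl n X}
  {D : FDat (Fin (N + 1)) ℂ} {s₁ s₂ : F2 C}

/-- `s₁ + i s₂` is the form of `D` on the cone over the image of `P` -/
def SEq (P : HEmb C (EuclideanSpace ℂ (Fin (N + 1)))) (D : FDat (Fin (N + 1)) ℂ)
    (s₁ s₂ : F2 C) : Prop :=
  ∀ i, ∀ z ∈ (C.e i).target, ∀ (j : Fin (N + 1)) (v v' : V),
    ((s₁.w i z v v' : ℂ) + (s₂.w i z v v' : ℂ) * I) * P.u i z j ^ D.m =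
      D.b j (fun k => P.u i z k) (fun k => fderiv ℝ (P.u i) z v k)
        (fun k => fderiv ℝ (P.u i) z v' k)

theorem exists_u_ne {i : C.ι} {z : V} (hz : z ∈ (C.e i).target) : ∃ j, P.u i z j ≠ 0 := by
  by_contra hcon
  push Not at hcon
  exact P.ne i z hz (by ext j; exact hcon j)

/-- **type** -/
theorem typ_of_seq (hD : D.Exact) (h : SEq P D s₁ s₂) : Typ P s₁ s₂ := by
  intro i z hz v v' u hv
  obtain ⟨c, hc⟩ := hv
  obtain ⟨j, hj⟩ := exists_u_ne (P := P) hz
  have h1 : (fun k => fderiv ℝ (P.u i) z v' k) =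
      I • (fun k => fderiv ℝ (P.u i) z v k) + (-c) • (fun k => P.u i z k) := by
    have h2 : fderiv ℝ (P.u i) z v' = I • fderiv ℝ (P.u i) z v - c • P.u i z := by
      rw [hc, add_sub_cancel_right]
    funext k
    rw [h2]
    simp only [PiLp.sub_apply, PiLp.smul_apply, Pi.add_apply, Pi.smul_apply, smul_eq_mul]
    ring
  have h3 := h i z hz j v' u
  rw [h1, FDat.b_add_left, FDat.b_smul_left, FDat.b_smul_left, FDat.b_self_left _ _ hD, mul_zero,
    add_zero, ← h i z hz j v u, ← mul_assoc] at h3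
  have h4 := mul_right_cancel₀ (pow_ne_zero _ hj) h3
  have h5 := congrArg Complex.re h4
  simpa using h5

theorem b_scale_full (hD : D.Exact) (j : Fin (N + 1)) (c a a' : ℂ) (x v w : Fin (N + 1) → ℂ) :
    D.b j (c • x) (c • v - a • x) (c • w - a' • x) = c ^ D.m * D.b j x v w := by
  have hm : D.m = D.m - 2 + 2 := by have := hD.two; omega
  have e1 : c • v - a • x = c • v + (-a) • x := by rw [neg_smul, sub_eq_add_neg]
  have e2 : c • w - a' • x = c • w + (-a') • x := by rw [neg_smul, sub_eq_add_neg]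
  rw [b_scale hD, e1, e2, FDat.b_add_left, FDat.b_add_right, FDat.b_add_right,
    FDat.b_smul_left, FDat.b_smul_left, FDat.b_smul_left, FDat.b_smul_left, FDat.b_smul_right,
    FDat.b_smul_right, FDat.b_smul_right, FDat.b_smul_right, FDat.b_self_left _ _ hD,
    FDat.b_self_right _ _ hD, FDat.b_self_left _ _ hD]
  rw [show c ^ D.m = c ^ (D.m - 2) * c ^ 2 by rw [← pow_add, ← hm]]
  ring

theorem entry_eq (U : Fin (N + 1) → Crest.Agent.R273.SerA_945.Fn A) (j : Fin (N + 1)) (i : A.ι)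
    (x : X) (a b : Fin n) :
    ((DF U i x)ᵀ * evM U (D.s j) i x * DF U i x) a b =
      D.b j (fun k => U k i x) (dcol U i x a) (dcol U i x b) := by
  rw [Matrix.mul_apply]
  unfold FDat.b
  rw [Finset.sum_comm]
  refine Finset.sum_congr rfl fun l _ => ?_
  rw [Matrix.mul_apply, Finset.sum_mul]
  refine Finset.sum_congr rfl fun k _ => ?_
  rw [Matrix.transpose_apply, evM_apply]
  show DF U i x k a * MvPolynomial.eval (fun k => U k i x) (D.s j k l) * DF U i x l b =
    MvPolynomial.eval (fun k => U k i x) (D.s j k l) * (DF U i x k a * DF U i x l b)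
  ring

/-- **the form of a member** -/
theorem formC_of_holA (h : HolA P (bE N) A) (κ : A.ι → Fin (N + 1))
    (hκ : ∀ a, (A.e a).source ⊆ OX P (bE N) (κ a)) (hD : D.Exact) (hs : SEq P D s₁ s₂)
    (ht : Typ P s₁ s₂) (hnd : Nd s₁) :
    FormC D (fun k => sec (h.toProj κ hκ) k) (h.hsymp ht hnd).toH2 := by
  intro j a x hx
  set Q : ProjD A := h.toProj κ hκ with hQ
  set z : Cn n := A.e a x with hzdef
  have hz : z ∈ (A.e a).target := (A.e a).map_source hx
  have hxz : (A.e a).symm z = x := (A.e a).left_inv hx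
  obtain ⟨i, hi⟩ := C.cover x
  have hm : z ∈ mov C (ofAtl A) i a := ⟨hz, by
    show (A.e a).symm z ∈ (C.e i).source
    rw [hxz]
    exact hi⟩
  set y : V := mt C (ofAtl A) i a z with hy
  have hyt : y ∈ (C.e i).target := (Cmp.mt_mem hm).1
  have hk : (A.e a).symm z ∈ OX P (bE N) (κ a) := by rw [hxz]; exact hκ a hx
  have hyd : y ∈ dm P (bE N) (κ a) i := by
    have h1 := (Pe_313.mem_OX (P := P) (b := bE N) (k := κ a) hm.2).1 hk
    exact h1
  set lam : ℂ := (bE N (P.u i y) (κ a))⁻¹ with hlam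
  -- the value and the derivatives of `Q.F`
  have hF : nuX P (bE N) (κ a) x = lam • fun k => P.u i y k := by
    have h1 : nuX P (bE N) (κ a) ((A.e a).symm z) = nu P (bE N) (κ a) i y := h.nuX_mt hm hk
    rw [hxz] at h1
    exact h1
  have hdF : ∀ v : Cn n, ∃ c : ℂ,
      (fun k => fderiv ℂ (fun w => nuX P (bE N) (κ a) ((A.e a).symm w)) z v k) =
      lam • (fun k => fderiv ℝ (P.u i) y (fderiv ℝ (mt C (ofAtl A) i a) z v) k) -
        c • fun k => P.u i y k := by
    intro v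
    have h1 := h.dnu hm hk v
    rw [fderiv_nu hyd] at h1
    exact ⟨_, h1.symm⟩
  -- the identity
  have hkey : ∀ u v : Cn n, sb ((h.hsymp ht hnd).s a x) u v * nuX P (bE N) (κ a) x j ^ D.m =
      D.b j (nuX P (bE N) (κ a) x)
        (fun k => fderiv ℂ (fun w => nuX P (bE N) (κ a) ((A.e a).symm w)) z u k)
        (fun k => fderiv ℂ (fun w => nuX P (bE N) (κ a) ((A.e a).symm w)) z v k) := by
    intro u v
    obtain ⟨c, hc⟩ := hdF u
    obtain ⟨c', hc'⟩ := hdF v
    have h1 := h.hsymp_w ht hnd hz u v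
    rw [hxz, Cmp.F_w h.cmp s₁ hm, Cmp.F_w h.cmp s₂ hm] at h1
    have h2 := hs i y hyt j (fderiv ℝ (mt C (ofAtl A) i a) z u)
      (fderiv ℝ (mt C (ofAtl A) i a) z v)
    have h3 := b_scale_full hD j lam c c' (fun k => P.u i y k)
      (fun k => fderiv ℝ (P.u i) y (fderiv ℝ (mt C (ofAtl A) i a) z u) k)
      (fun k => fderiv ℝ (P.u i) y (fderiv ℝ (mt C (ofAtl A) i a) z v) k)
    rw [hc, hc', hF]
    refine Eq.trans ?_ h3.symm
    rw [← h2, ← h1]
    show _ * (lam * P.u i y j) ^ D.m = _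
    rw [mul_pow]
    ring
  ext p q
  rw [entry_eq]
  have hcol : ∀ p : Fin n, dcol (fun k : Fin (N + 1) => sec Q k) a x p =
      fun k => fderiv ℂ (fun w => nuX P (bE N) (κ a) ((A.e a).symm w)) z
        (EuclideanSpace.single p 1) k := by
    intro p
    funext k
    have h1 := df_sec (P := Q) hz (EuclideanSpace.single p 1) k
    rw [hxz] at h1
    exact h1
  have h4 := hkey (EuclideanSpace.single p 1) (EuclideanSpace.single q 1)
  rw [hcol, hcol]
  have h5 : (fun k : Fin (N + 1) => sec Q k a x) = nuX P (bE N) (κ a) x := sec_ext Q hx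
  rw [h5, ← h4]
  have h6 : sec Q j a x = nuX P (bE N) (κ a) x j := congrFun h5 j
  show sec Q j a x ^ D.m * (h.hsymp ht hnd).s a x p q = _
  rw [show sec Q j a x ^ D.m = nuX P (bE N) (κ a) x j ^ D.m from congrArg (· ^ D.m) h6, mul_comm]
  congr 1
  simp [sb]

end Crest.Agent.R281.HEc_989
end
end

-- ▼ part R281/HEc3_989
section

/-!
# R281 (S0424), STATIC-CONE part 3 (helper989): members of an end (867's `MemA`)

* `exists_coneC` : a compact T2 `X`, `m : MemA F A Y κ β τ H` ==> atlas (finite, good, partition of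
                   unity), `Cp (H.acm 0) A'`, `HolA m.P b A'`, `κ'`, `ConeC`
* `connM_of_memA`
* `AlgE.endAlg`  : the algebraic data over the end as soon as members exist over a filter `l ≤ lEnd`
-/

set_option autoImplicit false
set_option linter.unusedSectionVars false

open Set Filter Topology Complex

noncomputable section

namespace Crest.Agent.R281.HEc_989

open Crest.Agent.R275.Geo Crest.Agent.R275.Core144 Crest.Agent.R275.GC293
open Crest.Agent.R273.Defs_333 Crest.Agent.R273.FS_333 Crest.Agent.R273.Fam_835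
open Crest.Agent.R281.HkR_835 Crest.Agent.R281.Ti_846
open Crest.Agent.R281.Defs_273
open Crest.Agent.R281.Ehr2_268 Crest.Agent.R281.Alg_998 Crest.Agent.R281.RkD_902
open Crest.Agent.R281.CA_867 Crest.Agent.R281.AF_867 Crest.Agent.R281.Kr_488
open Crest.Agent.R281.Pe_313 Crest.Agent.R281.CB_867 Crest.Agent.R281.GTi_989
open Crest.Agent.R281.Alg_867
open Crest.Agent.R281.Esc1_989 Crest.Agent.R281.Ends2_989 Crest.Agent.R281.Ends3_989
open Crest.Agent.R260.ACM_580 Crest.Agent.R260.NNB_580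

variable {n N : ℕ} {X : Type} [TopologicalSpace X] {C : RCh (Cn (2 * n)) X}
  {Q : F2 C →ₗ[ℝ] F2 C →ₗ[ℝ] ℝ} {F : Frm C Q} {A : F2 C} {Y : CDat (2 * n) N ℂ} {κ : ℝ}
  {β τ : ℂ} {H : HkT C}

theorem finrank_Cn2 (n : ℕ) : Module.finrank ℝ (Cn n) = 2 * n := by
  have h1 : Module.finrank ℝ (Cn n) = 2 * Module.finrank ℂ (Cn n) := by
    rw [← Module.finrank_mul_finrank ℝ ℂ (Cn n), Complex.finrank_real_complex]
  rw [h1, finrank_euclideanSpace, Fintype.card_fin]

theorem cx_of_memA (m : MemA F A Y κ β τ H) : m.P.Cx := m.cx.cx m.cmp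



theorem seq_of_memA (m : MemA F A Y κ β τ H) : SEq m.P Y.D m.s1 m.s2 := m.s_eq


end Crest.Agent.R281.HEc_989
end
end

-- ▼ part R281/SDR4_273
section

/-!
# R281 (S0424), SDAT-RAY (helper273), part 4: the static node plugged in

* `nd_of_memA` : the algebraic form of a member is nondegenerate
* `node`       : the static node (252, 989, 268)
* `sdat_end`   : **SDAT-RAY** : `Alg` ⟹ `SIn_14.SDat` for all members over `{y0 < Im τ}`
-/

set_option autoImplicit false
set_option linter.unusedSectionVars false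
set_option maxSynthPendingDepth 3

open Set Filter Topology Complex MeasureTheory
open scoped ContDiff Matrix ComplexConjugate ComplexOrder ENNReal

noncomputable section

namespace Crest.Agent.R281.SDR_273

open Crest.Agent.R275.Geo Crest.Agent.R275.Core144 Crest.Agent.R275.EDR890
open Crest.Agent.R275.GC293
open Crest.Agent.R273.Defs_333 Crest.Agent.R273.Kah_333 Crest.Agent.R273.HM_333
open Crest.Agent.R273.Vol_333 Crest.Agent.R273.Vm_333
open Crest.Agent.R273.SerA_945 (Fn)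
open Crest.Agent.R260.ACM_580 Crest.Agent.R260.NNB_580
open Crest.Agent.R281.HkR_835 Crest.Agent.R281.Ti_846 Crest.Agent.R281.HkP2_508
open Crest.Agent.R281.Defs_273 Crest.Agent.R281.Ehr2_268 Crest.Agent.R281.Pe_313
open Crest.Agent.R281.Alg_998 Crest.Agent.R281.RkD_902 Crest.Agent.R281.Alg_867
open Crest.Agent.R281.CA_867 Crest.Agent.R281.AF_867
open Crest.Agent.R281.GTi_989 (ConeC FormC)

variable {n N : ℕ} {X : Type} [TopologicalSpace X] {C : RCh (Cn (2 * n)) X}
  {Q : F2 C →ₗ[ℝ] F2 C →ₗ[ℝ] ℝ} {F : Frm C Q} {A : F2 C} {Y : CDat (2 * n) N ℂ} {κ : ℝ}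
  {β τ : ℂ} {H : HkT C}

/-- the pointwise certificate of a complex certificate -/
def certOf {d : ℕ} (Y : CDat d N ℂ) (h : Y.Ok) : QF_871.Cert d N ℂ where
  E := range Y.G
  hom := by
    rintro _ ⟨l, rfl⟩
    exact h.hom l
  ι := Fin Y.q
  κ := Y.κ
  good := h.good
  m := Y.m
  cov := h.cov

theorem fdat_map_id (D : FDat (Fin (N + 1)) ℂ) : D.map (RingHom.id ℂ) = D := by
  show (⟨_, _⟩ : FDat _ _) = D
  cases D with
  | mk m s =>
    congr 1
    funext j
    ext1 k l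
    exact MvPolynomial.map_id _

/-- **the algebraic form of a member is nondegenerate** -/
theorem nd_of_memA (hY : Y.Ok) (m : MemA F A Y κ β τ H) : Nd m.s1 := by
  intro i z hz v hv
  have hV : Module.finrank ℝ (Cn (2 * n)) = 2 * (2 * n) := HEc_989.finrank_Cn2 (2 * n)
  have ht : Typ m.P m.s1 m.s2 := HEc_989.typ_of_seq hY.exact (HEc_989.seq_of_memA m)
  have hcx := HEc_989.cx_of_memA m
  -- the imaginary part vanishes too
  have h2 : ∀ u, m.s2.w i z v u = 0 := by
    intro u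
    obtain ⟨u', a, hu⟩ := hcx i z hz u
    have h3 := ht i z hz u u' v ⟨a, hu⟩
    rw [m.s1.alt i z hz u' v, hv u', m.s2.alt i z hz u v] at h3
    linarith
  obtain ⟨j, hj⟩ := HEc_989.exists_u_ne (P := m.P) hz
  have hcone : ∀ w ∈ m.P.cone, w ∈ (certOf Y hY).cone (RingHom.id ℂ) := by
    intro w hw
    obtain ⟨h3, h4⟩ := (m.cone w).1 hw
    refine ⟨h3, ?_⟩
    intro p hp
    rw [MvPolynomial.map_id]
    exact h4 p hp
  refine Ehr10_268.nd_of_imp (certOf Y hY) (RingHom.id ℂ) hV hY.exact ?_ m.P hcone hz hj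
    fun w => ?_
  · rw [fdat_map_id]
    have h5 : MvPolynomial.map (RingHom.id ℂ) '' (certOf Y hY).E = range Y.G := by
      show MvPolynomial.map (RingHom.id ℂ) '' range Y.G = range Y.G
      ext p
      simp [MvPolynomial.map_id]
    rw [h5]
    exact hY.imp_id
  · rw [fdat_map_id, ← m.s_eq i z hz j v w, hv w, h2 w]
    simp

variable [CompactSpace X] [T2Space X] [ConnectedSpace X]

/-- **the static node** -/
theorem node [MeasurableSpace X] [BorelSpace X] (hX : Ctx n C Q) (hA0 : 0 < Q A A) (hY : Y.Ok)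
    (hAt : AtTau F A H τ) (hβ : β ≠ 0) (m : MemA F A Y κ β τ H) :
    Node Y κ ((√(F.N / Q A A) * ‖β‖ * τ.im) ^ (2 * n)) H := by
  obtain ⟨V, -, hV⟩ := Md_252.exists_vol hX hA0
  have ht : Typ m.P m.s1 m.s2 := HEc_989.typ_of_seq hY.exact (HEc_989.seq_of_memA m)
  have hnd := nd_of_memA hY m
  obtain ⟨A', h1, h2, h3, hp, L, U, σ, h, -, hN⟩ := Md_252.node_of hX hA0 hV hAt m hβ
    (fun A' h κ' hκ' => HEc_989.coneC_of_holA h κ' hκ' Y m.cone)
    (fun A' h κ' hκ' => ⟨h.hsymp ht hnd, fun i z hz u v => (h.hsymp_w ht hnd hz u v).symm,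
      HEc_989.formC_of_holA h κ' hκ' hY.exact (HEc_989.seq_of_memA m) ht hnd⟩)
    (fun _ : Unit => univ) (fun _ => isOpen_univ) fun x => ⟨(), mem_univ x⟩
  exact ⟨A', h1, h2, h3, hp, L, U, σ, h, hN.cone, hN.form, hN.curv, hN.det⟩

/-- `Q A A > 0` for the class of a cusp with members -/
theorem QAA_pos (hX : Ctx n C Q) (hAt : AtTau F A H τ) : 0 < Q A A := by
  obtain ⟨z, hz, h1, -⟩ := Md_252.atTau_z hX.symm hX.ex hX.eq hAt
  rw [← h1]
  have := norm_pos_iff.2 hz
  have := hAt.im_pos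
  have := F.hN
  positivity

/-- **SDAT-RAY** -/
theorem sdat_end [MeasurableSpace X] [BorelSpace X] (hX : Ctx n C Q) (K : Cusp F A)
    (a : AlgE F A K) {τ₁ : ℂ} {H₁ : HkT C} (h₁ : K.Mem τ₁ H₁) :
    ∃ (m v C0 c : ℝ) (d : ℕ) (y0 c0 C1 : ℝ) (Lf : ℂ → ℝ), 0 < m ∧ 0 < v ∧ 0 < C0 ∧ 0 < c ∧
      0 < c0 ∧ (∀ τ : ℂ, y0 < τ.im → 1 ≤ Lf τ ∧ c0 * τ.im ≤ Lf τ ∧ Lf τ ≤ C1 * τ.im) ∧
      ∀ τ : ℂ, y0 < τ.im → ∀ H, MemW K τ H → SD m v C0 c d (Lf τ) H :=
  sdat_end_of hX K a (fun _ hY _ _ _ _ hAt hβ m => node hX (QAA_pos hX hAt) hY hAt hβ m) h₁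


end Crest.Agent.R281.SDR_273
end
end

-- ▼ part R281/Cr4_808

/-!
# R281, CORE-ASM (helper808), part 4: **CORE without hypotheses**

* `sdatEnd`  : 273's `sdat_end` in the form `SdatEnd`
* `core_ray` : `Ctx n C Q`, `AlgE F A K`, `Q A e = 0` ==> tubes at all members `MemN K τ H`,
  `|re τ| ≤ B`, `im τ > Y1`
* `road_tube`: the same for a `Road` with the predicate `Alg` of record
-/

set_option autoImplicit false
set_option linter.unusedSectionVars false
set_option maxSynthPendingDepth 3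

open Set Filter Topology Complex Metric MeasureTheory
open scoped ContDiff Matrix ComplexConjugate ComplexOrder ENNReal

namespace Crest.Agent.R281.Cr_808

open Crest.Agent.R275.Geo Crest.Agent.R275.Core144 Crest.Agent.R275.EDR890
open Crest.Agent.R275.GC293
open Crest.Agent.R260.ACM_580 Crest.Agent.R260.NNB_580
open Crest.Agent.R281.HkR_835
open Crest.Agent.R281.RkD_902
open Crest.Agent.R281.Alg_998
open Crest.Agent.R281.Alg_867 (AlgE)
open Crest.Agent.R281.Mc673 (W)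

noncomputable section

section conn

variable {n : ℕ} {X : Type} [TopologicalSpace X] [CompactSpace X] [T2Space X] [ConnectedSpace X]
  {C : RCh (Cn (2 * n)) X} {Q : F2 C →ₗ[ℝ] F2 C →ₗ[ℝ] ℝ} {F : Frm C Q} {A : F2 C}

theorem sdatEnd [MeasurableSpace X] [BorelSpace X] (hX : Ctx n C Q) (K : Cusp F A)
    (a : AlgE F A K) (h : ∃ τ H, MemN K τ H) : SdatEnd K := by
  obtain ⟨τ, H, ⟨H', R, hR, hm, -⟩, -⟩ := h
  exact sdatEnd_of (SDR_273.sdat_end hX K a hm)


end conn

section road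

variable {n : ℕ} {X : Type} [TopologicalSpace X] [CompactSpace X] [T2Space X]
  [SimplyConnectedSpace X] {C : RCh (Cn (2 * n)) X} {Q : F2 C →ₗ[ℝ] F2 C →ₗ[ℝ] ℝ} {H0 : HkT C}
  {e : F2 C} {Bo : Box Q H0 e}

/-- **tubes on a vertical ray of the road** -/
theorem road_tube (hX : Ctx n C Q) (Rd : Road (Alg_867.Alg n X C Q) Bo) (x : ℝ) :
    ∃ Λ : ℝ, 0 < Λ ∧ ∀ R δ : ℝ, 0 < R → 0 < δ → ∃ Y1 : ℝ, ∀ y : ℝ, Y1 < y →
      ∀ H : HkT C, MemN Rd.K ⟨x, y⟩ H →
      ∃ (A' : Atl (2 * n) X) (_ : Finite A'.ι) (_ : GoodA A') (_ : Nonempty (Part A'))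
        (hp : Cp (H.acm 0) A') (L : ℝ) (hL : 0 < L) (Θ : W (2 * n) → X),
        Mtub H {v | Q v e = 0} R Λ δ A' hp L hL Θ := by
  borelize X
  obtain ⟨a⟩ := Rd.alg
  exact road_tube_of hX Rd (sdatEnd hX Rd.K a) x

end road

end

end Crest.Agent.R281.Cr_808
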