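import Mathlib

-- ▼ part R281/Di1_612
section

namespace Crest.Agent.R281.Di1_612

open MeasureTheory Measure Set Metric Module
open scoped ENNReal NNReal

variable {E : Type*} [NormedAddCommGroup E] [NormedSpace ℝ E] [FiniteDimensional ℝ E]
  [MeasurableSpace E] [BorelSpace E] {μ : Measure E} [μ.IsAddHaarMeasure]

/-- affine change of variables `x ↦ c • x + b` for non-negative functions -/
theorem lintegral_affine {f : E → ℝ≥0∞} (hf : Measurable f) {c : ℝ} (hc : 0 < c) (b : E) :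
    ∫⁻ x, f (c • x + b) ∂μ = ENNReal.ofReal ((c ^ finrank ℝ E)⁻¹) * ∫⁻ x, f x ∂μ := by
  have hfb : Measurable fun z : E => f (z + b) := hf.comp (measurable_id.add_const b)
  have h1 : ∫⁻ x, f (c • x + b) ∂μ = ∫⁻ z, f (z + b) ∂(Measure.map (fun x : E => c • x) μ) := by
    rw [lintegral_map hfb (measurable_const_smul c)]
  rw [h1, Measure.map_addHaar_smul μ hc.ne', lintegral_smul_measure,
    lintegral_add_right_eq_self (μ := μ) f b]
  have : 0 < (c ^ finrank ℝ E)⁻¹ := inv_pos.2 (pow_pos hc _)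
  rw [abs_of_pos this, smul_eq_mul]

/-- (D1), one slice: for `x, z ∈ K` convex, averaging `S` over `c • x + (1-c) • z` -/
theorem slice_le {K : Set E} (hK : Convex ℝ K) (hKm : MeasurableSet K) {S : E → ℝ≥0∞}
    (hS : Measurable S) {c : ℝ} (hc : 0 < c) (hc1 : c ≤ 1) {z : E} (hz : z ∈ K) :
    ∫⁻ x in K, S (c • x + (1 - c) • z) ∂μ ≤
      ENNReal.ofReal ((c ^ finrank ℝ E)⁻¹) * ∫⁻ x in K, S x ∂μ := by
  rw [← lintegral_indicator hKm S, ← lintegral_affine (hS.indicator hKm) hc ((1 - c) • z),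
    ← lintegral_indicator hKm]
  refine lintegral_mono fun x => ?_
  by_cases hx : x ∈ K
  · have : c • x + (1 - c) • z ∈ K := hK hx hz hc.le (by linarith) (by ring)
    simp [indicator, hx, this]
  · simp [indicator, hx]

/-- (D1) SEGMENTS: the average over pairs of points of a convex set of the integral of `S` over
the segment is at most `2^d` times the integral of `S`. -/
theorem segment_le {K : Set E} (hK : Convex ℝ K) (hKm : MeasurableSet K) {S : E → ℝ≥0∞}
    (hS : Measurable S) :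
    ∫⁻ x in K, ∫⁻ y in K, ∫⁻ t in Icc (0 : ℝ) 1, S (x + t • (y - x)) ∂volume ∂μ ∂μ ≤
      2 ^ finrank ℝ E * (μ K * ∫⁻ x in K, S x ∂μ) := by
  classical
  set d := finrank ℝ E
  set A : ℝ≥0∞ := 2 ^ d * (μ K * ∫⁻ x in K, S x ∂μ) with hA
  have hm3 : Measurable (fun p : (ℝ × E) × E => S (p.1.2 + p.1.1 • (p.2 - p.1.2))) := by
    refine hS.comp ?_
    fun_prop
  -- swap the `t` integral to the outside
  have e1 : ∀ x : E, ∫⁻ y in K, ∫⁻ t in Icc (0 : ℝ) 1, S (x + t • (y - x)) ∂volume ∂μ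
      = ∫⁻ t in Icc (0 : ℝ) 1, ∫⁻ y in K, S (x + t • (y - x)) ∂μ ∂volume := by
    intro x
    refine lintegral_lintegral_swap ?_
    refine Measurable.aemeasurable ?_
    refine hS.comp ?_
    fun_prop
  have e2 : ∫⁻ x in K, ∫⁻ t in Icc (0 : ℝ) 1, ∫⁻ y in K, S (x + t • (y - x)) ∂μ ∂volume ∂μ
      = ∫⁻ t in Icc (0 : ℝ) 1, ∫⁻ x in K, ∫⁻ y in K, S (x + t • (y - x)) ∂μ ∂μ ∂volume := by
    refine lintegral_lintegral_swap ?_
    refine Measurable.aemeasurable ?_
    have : Measurable (fun p : (E × ℝ) × E => S (p.1.1 + p.1.2 • (p.2 - p.1.1))) := by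
      refine hS.comp ?_
      fun_prop
    exact this.lintegral_prod_right'
  rw [lintegral_congr e1, e2]
  have key : ∀ t ∈ Icc (0 : ℝ) 1,
      ∫⁻ x in K, ∫⁻ y in K, S (x + t • (y - x)) ∂μ ∂μ ≤ A := by
    intro t ht
    have two : ∀ c : ℝ, 1 / 2 ≤ c → ENNReal.ofReal ((c ^ d)⁻¹) ≤ 2 ^ d := by
      intro c hc
      have h0 : (0 : ℝ) < c := by linarith
      have : (c ^ d)⁻¹ ≤ (2 : ℝ) ^ d := by
        rw [← inv_pow]
        refine pow_le_pow_left₀ (inv_nonneg.2 h0.le) ?_ _
        rw [inv_le_comm₀ h0 (by norm_num)]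
        linarith
      calc ENNReal.ofReal ((c ^ d)⁻¹) ≤ ENNReal.ofReal ((2 : ℝ) ^ d) := ENNReal.ofReal_le_ofReal this
        _ = 2 ^ d := by
          rw [ENNReal.ofReal_pow (by norm_num)]; norm_num
    rcases le_total t (1 / 2) with h | h
    · -- integrate in `x` first
      have e3 : ∫⁻ x in K, ∫⁻ y in K, S (x + t • (y - x)) ∂μ ∂μ
          = ∫⁻ y in K, ∫⁻ x in K, S (x + t • (y - x)) ∂μ ∂μ := by
        refine lintegral_lintegral_swap ?_
        refine Measurable.aemeasurable ?_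
        refine hS.comp ?_
        fun_prop
      rw [e3]
      calc ∫⁻ y in K, ∫⁻ x in K, S (x + t • (y - x)) ∂μ ∂μ
          ≤ ∫⁻ y in K, (2 ^ d * ∫⁻ x in K, S x ∂μ) ∂μ := by
            refine setLIntegral_mono measurable_const fun y hy => ?_
            have h2 := slice_le (μ := μ) hK hKm hS (c := 1 - t) (by linarith) (by linarith [ht.1]) hy
            refine le_trans (le_of_eq ?_) (h2.trans ?_)
            · refine lintegral_congr fun x => ?_
              congr 1
              module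
            · gcongr
              exact two _ (by linarith)
        _ = A := by
            rw [lintegral_const, Measure.restrict_apply_univ, hA]
            ring
    · calc ∫⁻ x in K, ∫⁻ y in K, S (x + t • (y - x)) ∂μ ∂μ
          ≤ ∫⁻ x in K, (2 ^ d * ∫⁻ x in K, S x ∂μ) ∂μ := by
            refine setLIntegral_mono measurable_const fun x hx => ?_
            have h2 := slice_le (μ := μ) hK hKm hS (c := t) (by linarith) ht.2 hx
            refine le_trans (le_of_eq ?_) (h2.trans ?_)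
            · refine lintegral_congr fun y => ?_
              congr 1
              module
            · gcongr
              exact two _ h
        _ = A := by
            rw [lintegral_const, Measure.restrict_apply_univ, hA]
            ring
  calc ∫⁻ t in Icc (0 : ℝ) 1, ∫⁻ x in K, ∫⁻ y in K, S (x + t • (y - x)) ∂μ ∂μ ∂volume
      ≤ ∫⁻ t in Icc (0 : ℝ) 1, A ∂volume := setLIntegral_mono measurable_const key
    _ = A := by
      rw [lintegral_const, Measure.restrict_apply_univ, Real.volume_Icc]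
      simp






end Crest.Agent.R281.Di1_612
end

-- ▼ part R281/Di2_612
section

namespace Crest.Agent.R281.Di2_612

open MeasureTheory Measure Set Metric Module
open scoped ENNReal NNReal
open Crest.Agent.R281.Di1_612

section seg

variable {E : Type*} [NormedAddCommGroup E] [NormedSpace ℝ E] [FiniteDimensional ℝ E]
  [MeasurableSpace E] [BorelSpace E] {μ : Measure E} [μ.IsAddHaarMeasure]
  {X : Type*} [PseudoEMetricSpace X]

/-- length of the straight segment from `a` to `b` for the conformal factor `g` -/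
noncomputable def len (g : E → ℝ≥0∞) (a b : E) : ℝ≥0∞ :=
  (∫⁻ t in Icc (0 : ℝ) 1, g (a + t • (b - a))) * ‖b - a‖ₑ

omit [FiniteDimensional ℝ E] in
theorem measurable_len [SecondCountableTopology E] {g : E → ℝ≥0∞} (hg : Measurable g) :
    Measurable (fun p : E × E => len g p.1 p.2) := by
  unfold len
  refine Measurable.mul ?_ ?_
  · have : Measurable (fun q : (E × E) × ℝ => g (q.1.1 + q.2 • (q.1.2 - q.1.1))) := by
      refine hg.comp ?_
      fun_prop
    exact this.lintegral_prod_right'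
  · fun_prop

/-- (D1), length version: the total length over pairs of points of a bounded convex set. -/
theorem len_le {K : Set E} (hK : Convex ℝ K) (hKm : MeasurableSet K) {g : E → ℝ≥0∞}
    (hg : Measurable g) :
    ∫⁻ a in K, ∫⁻ b in K, len g a b ∂μ ∂μ ≤
      ediam K * (2 ^ finrank ℝ E * (μ K * ∫⁻ x in K, g x ∂μ)) := by
  have h1 : ∫⁻ a in K, ∫⁻ b in K, len g a b ∂μ ∂μ ≤
      ∫⁻ a in K, ∫⁻ b in K, ediam K * (∫⁻ t in Icc (0 : ℝ) 1, g (a + t • (b - a)) ∂volume) ∂μ ∂μ := by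
    refine setLIntegral_mono' hKm fun a ha => ?_
    refine setLIntegral_mono' hKm fun b hb => ?_
    unfold len
    rw [mul_comm]
    gcongr
    rw [← edist_eq_enorm_sub]
    exact edist_le_ediam_of_mem hb ha
  refine h1.trans ?_
  have hm : Measurable (fun q : (E × E) × ℝ => g (q.1.1 + q.2 • (q.1.2 - q.1.1))) := by
    refine hg.comp ?_
    fun_prop
  have hm2 : Measurable (fun p : E × E => ∫⁻ t in Icc (0 : ℝ) 1, g (p.1 + t • (p.2 - p.1))) :=
    hm.lintegral_prod_right'
  have hm3 : Measurable (fun a : E => ∫⁻ b in K, ∫⁻ t in Icc (0 : ℝ) 1, g (a + t • (b - a)) ∂volume ∂μ) :=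
    hm2.lintegral_prod_right'
  calc ∫⁻ a in K, ∫⁻ b in K, ediam K * (∫⁻ t in Icc (0 : ℝ) 1, g (a + t • (b - a)) ∂volume) ∂μ ∂μ
      = ∫⁻ a in K, ediam K * (∫⁻ b in K, ∫⁻ t in Icc (0 : ℝ) 1, g (a + t • (b - a)) ∂volume ∂μ) ∂μ := by
        refine lintegral_congr fun a => ?_
        have hma : Measurable (fun b : E => ∫⁻ t in Icc (0 : ℝ) 1, g (a + t • (b - a))) :=
          hm2.comp (measurable_prodMk_left (x := a))
        exact lintegral_const_mul _ hma
    _ = ediam K * ∫⁻ a in K, ∫⁻ b in K, ∫⁻ t in Icc (0 : ℝ) 1, g (a + t • (b - a)) ∂volume ∂μ ∂μ := by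
        rw [lintegral_const_mul _ hm3]
    _ ≤ _ := by
        gcongr
        exact segment_le hK hKm hg




end seg

section diam

/-- (D4) distance bound from the annulus form of Bishop-Gromov (`Ric ≥ 0`) and one ball of
`ν`-mass at least `c ν(X)`. -/
theorem dist_le_of_annulus {X : Type*} [PseudoMetricSpace X] [MeasurableSpace X] {ν : Measure X}
    {n : ℕ} {p0 : X} {ρ c : ℝ} (hρ : 0 < ρ) (hc : 0 < c) (hfin : ν univ ≠ ∞)
    (hpos : ν univ ≠ 0)
    (hBG : ∀ q : X, ∀ r R : ℝ, 0 < r → r ≤ R →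
      ν (closedBall q R \ closedBall q r) ≤ ENNReal.ofReal ((R / r) ^ n - 1) * ν (closedBall q r))
    (hmass : ENNReal.ofReal c * ν univ ≤ ν (closedBall p0 ρ)) (q : X) :
    dist q p0 ≤ (1 + 2 / ((1 + c / 2) ^ ((1 : ℝ) / (n + 1)) - 1)) * ρ := by
  by_contra hcon
  push Not at hcon
  set a : ℝ := (1 + c / 2) ^ ((1 : ℝ) / (n + 1)) with ha
  have ha1 : 1 < a := by
    rw [ha]
    exact Real.one_lt_rpow (by linarith) (by positivity)
  have ha0 : 0 < a := by linarith
  set s := dist q p0 with hs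
  have hpos1 : 0 < 2 / (a - 1) := div_pos two_pos (by linarith)
  have hsρ : ρ < s := by nlinarith
  -- (s+ρ)/a < s-ρ
  have hratio : (s + ρ) / a < s - ρ := by
    rw [div_lt_iff₀ ha0]
    have h2 : 2 / (a - 1) * ρ < s - ρ := by linarith
    have h3 : 2 * ρ < (s - ρ) * (a - 1) := by
      have := (mul_lt_mul_iff_left₀ (show 0 < a - 1 by linarith)).2 h2
      have e : 2 / (a - 1) * ρ * (a - 1) = 2 * ρ := by
        field_simp [show a - 1 ≠ 0 by linarith]
      linarith
    linarith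
  set r := (s + ρ) / a with hr
  have hr0 : 0 < r := div_pos (by linarith) ha0
  have hR : r ≤ s + ρ := by linarith
  have hpow : ((s + ρ) / r) ^ n ≤ 1 + c / 2 := by
    have hsp : s + ρ ≠ 0 := by linarith
    have e : (s + ρ) / r = a := by
      rw [hr]
      field_simp
    rw [e]
    calc a ^ n ≤ a ^ (n + 1) := pow_le_pow_right₀ ha1.le (Nat.le_succ n)
      _ = 1 + c / 2 := by
        rw [ha, ← Real.rpow_natCast, ← Real.rpow_mul (by linarith)]
        have : (1 : ℝ) / (n + 1) * ((n + 1 : ℕ) : ℝ) = 1 := by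
          push_cast
          field_simp
        rw [this, Real.rpow_one]
  have hsub : closedBall p0 ρ ⊆ closedBall q (s + ρ) \ closedBall q r := by
    intro x hx
    rw [mem_closedBall] at hx
    refine ⟨?_, ?_⟩
    · rw [mem_closedBall]
      have := dist_triangle x p0 q
      rw [dist_comm p0 q] at this
      linarith
    · rw [mem_closedBall, not_le]
      have := dist_triangle q x p0
      rw [dist_comm q x] at this
      linarith
  have h1 := hBG q r (s + ρ) hr0 hR
  have h2 : ENNReal.ofReal c * ν univ ≤ ENNReal.ofReal (c / 2) * ν univ := by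
    calc ENNReal.ofReal c * ν univ ≤ ν (closedBall p0 ρ) := hmass
      _ ≤ ν (closedBall q (s + ρ) \ closedBall q r) := measure_mono hsub
      _ ≤ _ := h1
      _ ≤ ENNReal.ofReal (c / 2) * ν univ := by
        refine mul_le_mul' (ENNReal.ofReal_le_ofReal (by linarith)) (measure_mono (subset_univ _))
  have h3 : ENNReal.ofReal c ≤ ENNReal.ofReal (c / 2) :=
    (ENNReal.mul_le_mul_iff_left hpos hfin).1 h2
  rw [ENNReal.ofReal_le_ofReal_iff (by linarith)] at h3
  linarith

/-- the constant of the diameter bound -/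
noncomputable def diamC (n : ℕ) (c : ℝ) : ℝ :=
  2 * (1 + 2 / ((1 + c / 2) ^ ((1 : ℝ) / (n + 1)) - 1))

/-- (D4) DIAMETER. -/
theorem diam_le_of_annulus {X : Type*} [PseudoMetricSpace X] [MeasurableSpace X] {ν : Measure X}
    {n : ℕ} {p0 : X} {ρ c : ℝ} (hρ : 0 < ρ) (hc : 0 < c) (hfin : ν univ ≠ ∞)
    (hpos : ν univ ≠ 0)
    (hBG : ∀ q : X, ∀ r R : ℝ, 0 < r → r ≤ R →
      ν (closedBall q R \ closedBall q r) ≤ ENNReal.ofReal ((R / r) ^ n - 1) * ν (closedBall q r))
    (hmass : ENNReal.ofReal c * ν univ ≤ ν (closedBall p0 ρ)) (x y : X) :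
    dist x y ≤ diamC n c * ρ := by
  have h1 := dist_le_of_annulus hρ hc hfin hpos hBG hmass x
  have h2 := dist_le_of_annulus hρ hc hfin hpos hBG hmass y
  have h3 := dist_triangle x p0 y
  rw [dist_comm p0 y] at h3
  unfold diamC
  linarith


end diam

end Crest.Agent.R281.Di2_612
end

-- ▼ part R281/Df1_612
section

namespace Crest.Agent.R281.Df1_612

open MeasureTheory Measure Set Metric Module
open scoped ENNReal NNReal
open Crest.Agent.R281.Di1_612 Crest.Agent.R281.Di2_612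

section

variable {E : Type*} [NormedAddCommGroup E] [NormedSpace ℝ E] [FiniteDimensional ℝ E]
  [MeasurableSpace E] [BorelSpace E] {m : Measure E} [m.IsAddHaarMeasure]

/-- bad base points: `{a ∈ K | T m(K) < ∫_K len g a q dq}` has measure at most `m(K)/lam` if
`T = 2^k D C lam`. -/
theorem bad_base {K : Set E} (hK : Convex ℝ K) (hKm : MeasurableSet K) (h0 : m K ≠ 0)
    (h1 : m K ≠ ∞) {g : E → ℝ≥0∞} (hg : Measurable g) {C D lam : ℝ} (hC : 0 < C) (hD : 0 < D)
    (hlam : 0 < lam)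
    (hgC : ∫⁻ x in K, g x ∂m ≤ ENNReal.ofReal C * m K)
    (hDK : ediam K ≤ ENNReal.ofReal D) :
    MeasurableSet {a ∈ K | ENNReal.ofReal (2 ^ finrank ℝ E * D * C * lam) * m K <
        ∫⁻ q in K, len g a q ∂m} ∧
    m {a ∈ K | ENNReal.ofReal (2 ^ finrank ℝ E * D * C * lam) * m K <
        ∫⁻ q in K, len g a q ∂m} ≤ ENNReal.ofReal (1 / lam) * m K := by
  set k := finrank ℝ E
  set T : ℝ := 2 ^ k * D * C * lam with hT
  have hT0 : 0 < T := by positivity
  have hm := measurable_len (E := E) hg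
  have hm1 : Measurable (fun a : E => ∫⁻ q in K, len g a q ∂m) := hm.lintegral_prod_right'
  have hset : MeasurableSet {a ∈ K | ENNReal.ofReal T * m K < ∫⁻ q in K, len g a q ∂m} :=
    hKm.inter (measurableSet_lt measurable_const hm1)
  refine ⟨hset, ?_⟩
  have hX0 : ENNReal.ofReal T * m K ≠ 0 := mul_ne_zero (by simpa using hT0) h0
  have hX1 : ENNReal.ofReal T * m K ≠ ∞ := ENNReal.mul_ne_top ENNReal.ofReal_ne_top h1
  have h2 := mul_meas_ge_le_lintegral (μ := m.restrict K) hm1 (ENNReal.ofReal T * m K)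
  rw [Measure.restrict_apply (measurableSet_le measurable_const hm1)] at h2
  have h3 : ∫⁻ a in K, ∫⁻ q in K, len g a q ∂m ∂m ≤
      ENNReal.ofReal (2 ^ k * D * C) * m K * m K := by
    refine (len_le hK hKm hg).trans ?_
    calc ediam K * (2 ^ k * (m K * ∫⁻ x in K, g x ∂m))
        ≤ ENNReal.ofReal D * (2 ^ k * (m K * (ENNReal.ofReal C * m K))) := by gcongr
      _ = ENNReal.ofReal (2 ^ k * D * C) * m K * m K := by
          rw [ENNReal.ofReal_mul (by positivity : (0:ℝ) ≤ 2 ^ k * D),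
            ENNReal.ofReal_mul (by positivity : (0:ℝ) ≤ 2 ^ k), ENNReal.ofReal_pow (by norm_num)]
          norm_num
          ring
  have h4 : m {a ∈ K | ENNReal.ofReal T * m K < ∫⁻ q in K, len g a q ∂m} ≤
      m ({a | ENNReal.ofReal T * m K ≤ ∫⁻ q in K, len g a q ∂m} ∩ K) :=
    measure_mono fun a ha => ⟨ha.2.le, ha.1⟩
  refine h4.trans ?_
  have h5 : ENNReal.ofReal T * m K * m ({a | ENNReal.ofReal T * m K ≤ ∫⁻ q in K, len g a q ∂m} ∩ K)
      ≤ ENNReal.ofReal T * m K * (ENNReal.ofReal (1 / lam) * m K) := by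
    refine (h2.trans h3).trans (le_of_eq ?_)
    have e : (2 : ℝ) ^ k * D * C = T * (1 / lam) := by
      rw [hT]; field_simp
    rw [e, ENNReal.ofReal_mul hT0.le]
    ring
  exact (ENNReal.mul_le_mul_iff_right hX0 hX1).1 h5

omit [m.IsAddHaarMeasure] in
/-- For a good base point, the set of far targets is small. -/
theorem far_targets {K : Set E} {g : E → ℝ≥0∞} (hg : Measurable g)
    {a : E} {T : ℝ≥0∞} (ha : ∫⁻ q in K, len g a q ∂m ≤ T * m K) {ρ : ℝ≥0∞} (hρ : ρ ≠ 0)
    (hρ' : ρ ≠ ∞) :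
    (m.restrict K) {q | ρ < len g a q} ≤ T * m K / ρ := by
  have hm := measurable_len (E := E) hg
  have hma : Measurable (fun b : E => len g a b) := hm.comp measurable_prodMk_left
  have h3 := mul_meas_ge_le_lintegral (μ := m.restrict K) hma ρ
  rw [ENNReal.le_div_iff_mul_le (Or.inl hρ) (Or.inl hρ')]
  calc (m.restrict K) {b | ρ < len g a b} * ρ ≤ (m.restrict K) {x | ρ ≤ len g a x} * ρ := by
        gcongr
        exact fun h => le_of_lt h
    _ = ρ * (m.restrict K) {x | ρ ≤ len g a x} := mul_comm _ _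
    _ ≤ _ := h3
    _ ≤ _ := ha

omit [m.IsAddHaarMeasure] in
/-- PIGEONHOLE: among `d+1` good points two are within `2 ρ`. -/
theorem pigeon {X : Type*} [PseudoMetricSpace X] {K : Set E} (h0 : m K ≠ 0) (h1 : m K ≠ ∞)
    {g : E → ℝ≥0∞} (hg : Measurable g) {D : Set X} {ζ : X → E} {d : ℕ}
    (hd : ∀ᵐ q ∂(m.restrict K), {y ∈ D | ζ y = q}.encard ≤ d)
    {T ρ : ℝ} (hT : 0 < T) (hρ : 2 * (d + 1) * T ≤ ρ)
    {S : Finset X} (hS : d < S.card)
    (hlift : ∀ x ∈ S, ∀ᵐ q ∂(m.restrict K), ∃ y ∈ D, ζ y = q ∧ edist x y ≤ len g (ζ x) q)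
    (hgood : ∀ x ∈ S, ∫⁻ q in K, len g (ζ x) q ∂m ≤ ENNReal.ofReal T * m K) :
    ∃ x ∈ S, ∃ y ∈ S, x ≠ y ∧ dist x y ≤ 2 * ρ := by
  classical
  obtain ⟨S', hS', hcard⟩ := Finset.exists_subset_card_eq (s := S) (n := d + 1) (by omega)
  have hρ0 : 0 < ρ := lt_of_lt_of_le (by positivity) hρ
  -- the union of the bad sets is not everything
  have hbad : (m.restrict K) (⋃ x ∈ S', {q | ENNReal.ofReal ρ < len g (ζ x) q}) ≤ m K / 2 := by
    refine (measure_biUnion_finset_le _ _).trans ?_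
    calc ∑ x ∈ S', (m.restrict K) {q | ENNReal.ofReal ρ < len g (ζ x) q}
        ≤ ∑ x ∈ S', ENNReal.ofReal T * m K / ENNReal.ofReal ρ := by
          refine Finset.sum_le_sum fun x hx => ?_
          exact far_targets hg (hgood x (hS' hx)) (by simpa using hρ0) ENNReal.ofReal_ne_top
      _ = (d + 1 : ℕ) * (ENNReal.ofReal T * m K / ENNReal.ofReal ρ) := by
          rw [Finset.sum_const, hcard, nsmul_eq_mul]
      _ ≤ m K / 2 := by
          rw [← mul_div_assoc]
          refine ENNReal.div_le_of_le_mul ?_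
          have h2 : ((d + 1 : ℕ) : ℝ≥0∞) * (ENNReal.ofReal T * m K) =
              ENNReal.ofReal ((d + 1) * T) * m K := by
            rw [ENNReal.ofReal_mul (by positivity)]
            have : ENNReal.ofReal ((d : ℝ) + 1) = ((d + 1 : ℕ) : ℝ≥0∞) := by
              rw [← ENNReal.ofReal_natCast]; push_cast; rfl
            rw [this]; ring
          rw [h2]
          have h3 : ENNReal.ofReal ((d + 1) * T) ≤ 2⁻¹ * ENNReal.ofReal ρ := by
            have h4 : (2⁻¹ : ℝ≥0∞) = ENNReal.ofReal (2⁻¹) := by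
              rw [ENNReal.ofReal_inv_of_pos (by norm_num)]; norm_num
            rw [h4, ← ENNReal.ofReal_mul (by norm_num)]
            exact ENNReal.ofReal_le_ofReal (by nlinarith)
          calc ENNReal.ofReal ((d + 1) * T) * m K ≤ 2⁻¹ * ENNReal.ofReal ρ * m K := by gcongr
            _ = m K / 2 * ENNReal.ofReal ρ := by
              rw [ENNReal.div_eq_inv_mul]; ring
  have hlift' : ∀ᵐ q ∂(m.restrict K), ∀ x ∈ S', ∃ y ∈ D, ζ y = q ∧ edist x y ≤ len g (ζ x) q := by
    exact (Filter.eventually_all_finset S').2 fun x hx => hlift x (hS' hx)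
  have hpos : m K / 2 < m K := ENNReal.half_lt_self h0 h1
  have hex : ∃ q, (q ∉ ⋃ x ∈ S', {q | ENNReal.ofReal ρ < len g (ζ x) q}) ∧
      (∀ x ∈ S', ∃ y ∈ D, ζ y = q ∧ edist x y ≤ len g (ζ x) q) ∧
      {y ∈ D | ζ y = q}.encard ≤ d := by
    by_contra hcon
    push Not at hcon
    have h5 : ∀ᵐ q ∂(m.restrict K), q ∈ ⋃ x ∈ S', {q | ENNReal.ofReal ρ < len g (ζ x) q} := by
      filter_upwards [hlift', hd] with q hq1 hq2
      by_contra hq
      exact absurd hq2 (not_le.2 (hcon q hq hq1))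
    have h6 : (m.restrict K) univ ≤
        (m.restrict K) (⋃ x ∈ S', {q | ENNReal.ofReal ρ < len g (ζ x) q}) :=
      measure_mono_ae (by filter_upwards [h5] with q hq _ using hq)
    rw [Measure.restrict_apply_univ] at h6
    exact absurd (h6.trans hbad) (not_le.2 hpos)
  obtain ⟨q, hq1, hq2, hq3⟩ := hex
  choose! y hyD hyζ hydist using hq2
  have hfin : {y ∈ D | ζ y = q}.Finite := Set.finite_of_encard_le_coe hq3
  -- pigeonhole
  obtain ⟨a, ha, b, hb, hab, heq⟩ := Finset.exists_ne_map_eq_of_card_lt_of_maps_to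
    (s := S') (t := hfin.toFinset) (f := y) (by
      have : hfin.toFinset.card ≤ d := by
        have h7 := hq3
        rw [hfin.encard_eq_coe_toFinset_card] at h7
        exact_mod_cast h7
      omega) (fun x hx => by
        rw [Finset.mem_coe, Set.Finite.mem_toFinset]
        exact ⟨hyD x hx, hyζ x hx⟩)
  refine ⟨a, hS' ha, b, hS' hb, hab, ?_⟩
  have hlen : ∀ x ∈ S', dist x (y x) ≤ ρ := by
    intro x hx
    have h8 : ¬ ENNReal.ofReal ρ < len g (ζ x) q := by
      intro h
      exact hq1 (mem_iUnion₂.2 ⟨x, hx, h⟩)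
    have h9 := (hydist x hx).trans (not_lt.1 h8)
    rwa [edist_dist, ENNReal.ofReal_le_ofReal_iff hρ0.le] at h9
  have h10 := hlen a ha
  have h11 := hlen b hb
  rw [← heq] at h11
  have h12 := dist_triangle a (y a) b
  rw [dist_comm (y a) b] at h12
  linarith

/-- A set in which among any `d+1` points two are `r`-close is covered by `d` closed `r`-balls. -/
theorem exists_cover {X : Type*} [PseudoMetricSpace X] {G : Set X} {d : ℕ} {r : ℝ} (hr : 0 ≤ r)
    (h : ∀ S : Finset X, (↑S : Set X) ⊆ G → d < S.card → ∃ x ∈ S, ∃ y ∈ S, x ≠ y ∧ dist x y ≤ r) :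
    ∃ S : Finset X, S.card ≤ d ∧ G ⊆ ⋃ p ∈ S, closedBall p r := by
  classical
  let P : ℕ → Prop := fun k => ∃ S : Finset X, (↑S : Set X) ⊆ G ∧ S.card = k ∧
    ∀ x ∈ S, ∀ y ∈ S, x ≠ y → r < dist x y
  have hP0 : P 0 := ⟨∅, by simp, rfl, by simp⟩
  have hPd : ∀ k, P k → k ≤ d := by
    rintro k ⟨S, hSG, hk, hsep⟩
    by_contra hcon
    obtain ⟨x, hx, y, hy, hxy, hd⟩ := h S hSG (by omega)
    exact absurd hd (not_le.2 (hsep x hx y hy hxy))
  have hk := Nat.findGreatest_spec (P := P) (Nat.zero_le d) hP0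
  set k := Nat.findGreatest P d
  obtain ⟨S, hSG, hSk, hsep⟩ := hk
  refine ⟨S, by rw [hSk]; exact Nat.findGreatest_le d, fun x hx => ?_⟩
  by_contra hcon
  have hfar : ∀ p ∈ S, r < dist x p := by
    intro p hp
    by_contra hle
    exact hcon (mem_iUnion₂.2 ⟨p, hp, mem_closedBall.2 (not_lt.1 hle)⟩)
  have hxS : x ∉ S := by
    intro hxS
    have := hfar x hxS
    rw [dist_self] at this
    linarith
  have hPk : P (k + 1) := by
    refine ⟨insert x S, ?_, ?_, ?_⟩
    · rw [Finset.coe_insert]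
      exact insert_subset hx hSG
    · rw [Finset.card_insert_of_notMem hxS, hSk]
    · intro a ha b hb hab
      rw [Finset.mem_insert] at ha hb
      rcases ha with rfl | ha <;> rcases hb with rfl | hb
      · exact absurd rfl hab
      · exact hfar b hb
      · rw [dist_comm]; exact hfar a ha
      · exact hsep a ha b hb hab
  have h13 := Nat.le_findGreatest (hPd _ hPk) hPk
  omega

/-- (CF1) one ball of radius `C L` and definite mass. -/
theorem exists_ball {X : Type*} [PseudoMetricSpace X] [MeasurableSpace X]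
    {ν : Measure X} (hν0 : ν univ ≠ 0) (hν1 : ν univ ≠ ∞)
    {K : Set E} (hK : Convex ℝ K) (hKm : MeasurableSet K) (h0 : m K ≠ 0) (h1 : m K ≠ ∞)
    {g : E → ℝ≥0∞} (hg : Measurable g) {G D : Set X} {ζ : X → E} {d : ℕ}
    {B C Dm c : ℝ} (hB : 0 < B) (hC : 0 < C) (hDm : 0 < Dm) (hc : 0 < c)
    (hζ : ∀ x ∈ G, ζ x ∈ K)
    (hlift : ∀ x ∈ G, ∀ᵐ q ∂(m.restrict K), ∃ y ∈ D, ζ y = q ∧ edist x y ≤ len g (ζ x) q)
    (hd : ∀ᵐ q ∂(m.restrict K), {y ∈ D | ζ y = q}.encard ≤ d)
    (hpush : ∀ A : Set E, A ⊆ K → MeasurableSet A →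
      ν (G ∩ ζ ⁻¹' A) * m K ≤ ENNReal.ofReal B * m A * ν univ)
    (hgC : ∫⁻ x in K, g x ∂m ≤ ENNReal.ofReal C * m K)
    (hDK : ediam K ≤ ENNReal.ofReal Dm)
    (hG : ENNReal.ofReal c * ν univ ≤ ν G) :
    0 < d ∧ ∃ p : X, ENNReal.ofReal (c / (4 * d)) * ν univ ≤
      ν (closedBall p (2 * (2 * (d + 1) * (2 ^ finrank ℝ E * Dm * C * (2 * B / c))))) := by
  classical
  set lam : ℝ := 2 * B / c with hlam
  have hlam0 : 0 < lam := by positivity
  set T : ℝ := 2 ^ finrank ℝ E * Dm * C * lam with hT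
  have hT0 : 0 < T := by positivity
  set ρ : ℝ := 2 * (d + 1) * T with hρ
  have hρ0 : 0 < ρ := by positivity
  obtain ⟨hbm, hbad⟩ := bad_base (m := m) hK hKm h0 h1 hg hC hDm hlam0 hgC hDK
  set Bad : Set E := {a ∈ K | ENNReal.ofReal T * m K < ∫⁻ q in K, len g a q ∂m} with hBad
  have hνbad : ν (G ∩ ζ ⁻¹' Bad) ≤ ENNReal.ofReal (c / 2) * ν univ := by
    have h2 := hpush Bad (fun a ha => ha.1) hbm
    have h3 : ν (G ∩ ζ ⁻¹' Bad) * m K ≤ ENNReal.ofReal (c / 2) * ν univ * m K := by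
      refine h2.trans ?_
      calc ENNReal.ofReal B * m Bad * ν univ
          ≤ ENNReal.ofReal B * (ENNReal.ofReal (1 / lam) * m K) * ν univ := by gcongr
        _ = ENNReal.ofReal (c / 2) * ν univ * m K := by
            have e : c / 2 = B * (1 / lam) := by rw [hlam]; field_simp
            rw [e, ENNReal.ofReal_mul hB.le]
            ring
    exact (ENNReal.mul_le_mul_iff_left h0 h1).1 h3
  set G' : Set X := G \ ζ ⁻¹' Bad with hG'
  have hνG' : ENNReal.ofReal (c / 2) * ν univ ≤ ν G' := by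
    have h4 : ν G ≤ ν (G ∩ ζ ⁻¹' Bad) + ν G' := by
      have : G = (G ∩ ζ ⁻¹' Bad) ∪ G' := by
        rw [hG']; exact (inter_union_sdiff G _).symm
      calc ν G = ν ((G ∩ ζ ⁻¹' Bad) ∪ G') := by rw [← this]
        _ ≤ _ := measure_union_le _ _
    have h5 : ENNReal.ofReal (c / 2) * ν univ + ENNReal.ofReal (c / 2) * ν univ ≤
        ENNReal.ofReal (c / 2) * ν univ + ν G' := by
      calc ENNReal.ofReal (c / 2) * ν univ + ENNReal.ofReal (c / 2) * ν univ
          = ENNReal.ofReal c * ν univ := by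
            rw [← add_mul, ← ENNReal.ofReal_add (by positivity) (by positivity)]
            congr 2
            ring
        _ ≤ ν G := hG
        _ ≤ ν (G ∩ ζ ⁻¹' Bad) + ν G' := h4
        _ ≤ _ := by gcongr
    exact (ENNReal.add_le_add_iff_left (ENNReal.mul_ne_top ENNReal.ofReal_ne_top hν1)).1 h5
  obtain ⟨S, hScard, hScov⟩ := exists_cover (G := G') (d := d) (r := 2 * ρ) (by positivity)
    (fun S hSG hS => by
      refine pigeon h0 h1 hg hd hT0 le_rfl hS (fun x hx => hlift x (hSG hx).1) (fun x hx => ?_)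
      have h6 := (hSG hx).2
      have h7 := hζ x (hSG hx).1
      by_contra hcon
      exact h6 ⟨h7, not_le.1 hcon⟩)
  have hpos2 : 0 < ENNReal.ofReal (c / 2) * ν univ :=
    ENNReal.mul_pos (by simpa using hc) hν0
  have hSne : S.Nonempty := by
    by_contra hS
    rw [Finset.not_nonempty_iff_eq_empty] at hS
    rw [hS] at hScov
    simp only [Finset.notMem_empty, iUnion_of_empty, iUnion_empty, subset_empty_iff] at hScov
    rw [hScov, measure_empty] at hνG'
    exact absurd hνG' (not_le.2 hpos2)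
  have hd0 : 0 < d := lt_of_lt_of_le (Finset.card_pos.2 hSne) hScard
  refine ⟨hd0, ?_⟩
  by_contra hcon
  push Not at hcon
  have hd0' : (0 : ℝ) < d := by exact_mod_cast hd0
  have h8 : ν G' ≤ ENNReal.ofReal (c / 4) * ν univ := by
    calc ν G' ≤ ν (⋃ p ∈ S, closedBall p (2 * ρ)) := measure_mono hScov
      _ ≤ ∑ p ∈ S, ν (closedBall p (2 * ρ)) := measure_biUnion_finset_le _ _
      _ ≤ ∑ p ∈ S, ENNReal.ofReal (c / (4 * d)) * ν univ :=
          Finset.sum_le_sum fun p _ => (hcon p).le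
      _ = (S.card : ℝ≥0∞) * (ENNReal.ofReal (c / (4 * d)) * ν univ) := by
          rw [Finset.sum_const, nsmul_eq_mul]
      _ ≤ (d : ℝ≥0∞) * (ENNReal.ofReal (c / (4 * d)) * ν univ) := by
          gcongr
      _ = ENNReal.ofReal (c / 4) * ν univ := by
          rw [← mul_assoc, ← ENNReal.ofReal_natCast d, ← ENNReal.ofReal_mul hd0'.le]
          congr 2
          field_simp
  have h9 : ENNReal.ofReal (c / 2) * ν univ ≤ ENNReal.ofReal (c / 4) * ν univ := hνG'.trans h8
  have h10 := (ENNReal.mul_le_mul_iff_left hν0 hν1).1 h9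
  rw [ENNReal.ofReal_le_ofReal_iff (by linarith)] at h10
  linarith

/-- (CF1) CHART-FREE DIAMETER BOUND. -/
theorem diam_le_cf {X : Type*} [PseudoMetricSpace X] [MeasurableSpace X] {n : ℕ}
    {ν : Measure X} (hν0 : ν univ ≠ 0) (hν1 : ν univ ≠ ∞)
    (hBG : ∀ q : X, ∀ r R : ℝ, 0 < r → r ≤ R →
      ν (closedBall q R \ closedBall q r) ≤ ENNReal.ofReal ((R / r) ^ n - 1) * ν (closedBall q r))
    {K : Set E} (hK : Convex ℝ K) (hKm : MeasurableSet K) (h0 : m K ≠ 0) (h1 : m K ≠ ∞)
    {g : E → ℝ≥0∞} (hg : Measurable g) {G D : Set X} {ζ : X → E} {d : ℕ}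
    {B C Dm c : ℝ} (hB : 0 < B) (hC : 0 < C) (hDm : 0 < Dm) (hc : 0 < c)
    (hζ : ∀ x ∈ G, ζ x ∈ K)
    (hlift : ∀ x ∈ G, ∀ᵐ q ∂(m.restrict K), ∃ y ∈ D, ζ y = q ∧ edist x y ≤ len g (ζ x) q)
    (hd : ∀ᵐ q ∂(m.restrict K), {y ∈ D | ζ y = q}.encard ≤ d)
    (hpush : ∀ A : Set E, A ⊆ K → MeasurableSet A →
      ν (G ∩ ζ ⁻¹' A) * m K ≤ ENNReal.ofReal B * m A * ν univ)
    (hgC : ∫⁻ x in K, g x ∂m ≤ ENNReal.ofReal C * m K)
    (hDK : ediam K ≤ ENNReal.ofReal Dm)
    (hG : ENNReal.ofReal c * ν univ ≤ ν G) (x y : X) :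
    dist x y ≤ diamC n (c / (4 * d)) *
      (2 * (2 * (d + 1) * (2 ^ finrank ℝ E * Dm * C * (2 * B / c)))) := by
  obtain ⟨hd0, p, hp⟩ := exists_ball (m := m) hν0 hν1 hK hKm h0 h1 hg hB hC hDm hc hζ hlift hd
    hpush hgC hDK hG
  have hd0' : (0 : ℝ) < d := by exact_mod_cast hd0
  exact diam_le_of_annulus (by positivity) (by positivity) hν1 hν0 hBG hp x y

end

end Crest.Agent.R281.Df1_612
end

-- ▼ part R281/Df2_612

namespace Crest.Agent.R281.Df2_612

open MeasureTheory Measure Set Metric Module Complex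
open scoped ENNReal NNReal Real

variable {E : Type*} [NormedAddCommGroup E] [NormedSpace ℂ E] [FiniteDimensional ℂ E]
  [MeasurableSpace E] [BorelSpace E] {m : Measure E} [m.IsAddHaarMeasure]

/-- rotations preserve Haar measure -/
theorem measurePreserving_rot (θ : ℝ) :
    MeasurePreserving (fun v : E => Complex.exp (θ * I) • v) m m := by
  have : FiniteDimensional ℝ E := FiniteDimensional.complexToReal E
  set c : ℂ := Complex.exp (θ * I)
  have hc : ‖c‖ = 1 := Complex.norm_exp_ofReal_mul_I θ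
  have hc0 : c ≠ 0 := by
    intro h
    rw [h, norm_zero] at hc
    exact zero_ne_one hc
  let L : E →ₗ[ℝ] E :=
    { toFun := fun v => c • v
      map_add' := fun a b => smul_add c a b
      map_smul' := fun r a => by
        simp only [RingHom.id_apply]
        exact smul_comm c r a }
  have hLball : L ⁻¹' (ball (0 : E) 1) = ball (0 : E) 1 := by
    ext v
    simp only [mem_preimage, mem_ball_zero_iff]
    change ‖c • v‖ < 1 ↔ ‖v‖ < 1
    rw [norm_smul, hc, one_mul]
  have hdet : LinearMap.det L ≠ 0 := by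
    intro h
    have hinj : Function.Injective L := by
      intro a b hab
      exact smul_right_injective E hc0 hab
    have := LinearMap.isUnit_iff_ker_eq_bot L |>.2 (LinearMap.ker_eq_bot.2 hinj)
    exact (LinearMap.isUnit_det L this).ne_zero h
  have h1 := Measure.addHaar_preimage_linearMap m hdet (ball (0 : E) 1)
  rw [hLball] at h1
  have hb0 : m (ball (0 : E) 1) ≠ 0 := (measure_ball_pos m 0 one_pos).ne'
  have hb1 : m (ball (0 : E) 1) ≠ ∞ := measure_ball_lt_top.ne
  have h2 : ENNReal.ofReal |(LinearMap.det L)⁻¹| = 1 := by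
    have h3 : ENNReal.ofReal |(LinearMap.det L)⁻¹| * m (ball (0 : E) 1) = 1 * m (ball (0 : E) 1) := by
      rw [one_mul]; exact h1.symm
    exact (ENNReal.mul_left_inj hb0 hb1).1 h3
  refine ⟨?_, ?_⟩
  · fun_prop
  · have h4 : Measure.map L m = ENNReal.ofReal |(LinearMap.det L)⁻¹| • m :=
      Measure.map_linearMap_addHaar_eq_smul_addHaar m hdet
    rw [h2, one_smul] at h4
    exact h4

/-- zeros of a non-zero analytic function of one complex variable on real rays: the set of
directions `θ` for which the ray meets the zero set is countable. -/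
theorem countable_dirs {h : ℂ → ℂ} (hh : Differentiable ℂ h) (h0 : h 0 ≠ 0) :
    {θ : ℝ | ∃ t ∈ Icc (0 : ℝ) 1, h (t * Complex.exp (θ * I)) = 0}.Countable := by
  have hcount : (h ⁻¹' {0}).Countable := by
    have han : AnalyticOnNhd ℂ h univ := fun z _ => hh.analyticAt z
    have hd : (h ⁻¹' {0})ᶜ ∈ Filter.codiscrete ℂ := by
      have := han.preimage_zero_mem_codiscrete (x := 0) h0
      exact this
    have hdisc : IsDiscrete (h ⁻¹' {0}) := by
      have h3 := mem_codiscrete'.1 hd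
      have h4 := h3.2
      rw [compl_compl] at h4
      exact h4
    have : DiscreteTopology (h ⁻¹' {0} : Set ℂ) := hdisc.to_subtype
    have hc : Countable (h ⁻¹' {0} : Set ℂ) := countable_of_Lindelof_of_discrete
    exact hc.to_set
  have hsub : {θ : ℝ | ∃ t ∈ Icc (0 : ℝ) 1, h (t * Complex.exp (θ * I)) = 0} ⊆
      ⋃ τ ∈ h ⁻¹' {0}, {θ : ℝ | (‖τ‖ : ℂ) * Complex.exp (θ * I) = τ} := by
    rintro θ ⟨t, ht, hz⟩
    refine mem_iUnion₂.2 ⟨t * Complex.exp (θ * I), hz, ?_⟩
    have : ‖(t : ℂ) * Complex.exp (θ * I)‖ = t := by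
      rw [norm_mul, Complex.norm_exp_ofReal_mul_I, mul_one, Complex.norm_real, Real.norm_of_nonneg ht.1]
    simp only [mem_ofPred_eq, this]
  refine Countable.mono hsub (hcount.biUnion fun τ hτ => ?_)
  have hτ0 : τ ≠ 0 := by
    rintro rfl
    exact h0 hτ
  by_cases hne : ∃ θ0 : ℝ, (‖τ‖ : ℂ) * Complex.exp (θ0 * I) = τ
  · obtain ⟨θ0, hθ0⟩ := hne
    refine Countable.mono ?_ (countable_range fun n : ℤ => θ0 + n * (2 * π))
    intro θ hθ
    have h1 : Complex.exp (θ * I) = Complex.exp (θ0 * I) := by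
      have h2 : (‖τ‖ : ℂ) ≠ 0 := by
        simpa using hτ0
      exact mul_left_cancel₀ h2 (hθ.trans hθ0.symm)
    obtain ⟨n, hn⟩ := Complex.exp_eq_exp_iff_exists_int.1 h1
    refine ⟨n, ?_⟩
    have h3 : (θ : ℂ) * I = ((θ0 : ℂ) + n * (2 * π)) * I := by rw [hn]; ring
    have h4 : (θ : ℂ) = (θ0 : ℂ) + n * (2 * π) := mul_right_cancel₀ I_ne_zero h3
    have h5 : θ = θ0 + n * (2 * π) := by exact_mod_cast h4
    exact h5.symm
  · push Not at hne
    have : {θ : ℝ | (‖τ‖ : ℂ) * Complex.exp (θ * I) = τ} = ∅ := by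
      ext θ
      simpa using hne θ
    rw [this]
    exact countable_empty

/-- (CF2), centred: `F` entire, `F z0 ≠ 0`: almost every `v` has `F (z0 + t v) ≠ 0` on `[0,1]`. -/
theorem ae_ray_ne_zero {F : E → ℂ} (hF : Differentiable ℂ F) {z0 : E} (h0 : F z0 ≠ 0) :
    ∀ᵐ v ∂m, ∀ t ∈ Icc (0 : ℝ) 1, F (z0 + t • v) ≠ 0 := by
  have : FiniteDimensional ℝ E := FiniteDimensional.complexToReal E
  have : SecondCountableTopology E := by
    have : ProperSpace E := FiniteDimensional.proper ℝ E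
    infer_instance
  set Bad : Set E := {v | ∃ t ∈ Icc (0 : ℝ) 1, F (z0 + t • v) = 0} with hBad
  have hclosed : IsClosed Bad := by
    have h1 : IsClosed {p : E × Icc (0 : ℝ) 1 | F (z0 + (p.2 : ℝ) • p.1) = 0} := by
      refine isClosed_eq (hF.continuous.comp ?_) continuous_const
      fun_prop
    have h2 := isClosedMap_fst_of_compactSpace (X := E) (Y := Icc (0 : ℝ) 1) _ h1
    have h3 : Bad = Prod.fst '' {p : E × Icc (0 : ℝ) 1 | F (z0 + (p.2 : ℝ) • p.1) = 0} := by
      ext v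
      constructor
      · rintro ⟨t, ht, hz⟩
        exact ⟨(v, ⟨t, ht⟩), hz, rfl⟩
      · rintro ⟨⟨v', t⟩, hz, rfl⟩
        exact ⟨t, t.2, hz⟩
    rw [h3]
    exact h2
  have hmeas : MeasurableSet Bad := hclosed.measurableSet
  suffices hzero : m Bad = 0 by
    rw [ae_iff]
    refine measure_mono_null ?_ hzero
    intro v hv
    simp only [mem_ofPred_eq, not_forall, not_not] at hv
    obtain ⟨t, ht, hz⟩ := hv
    exact ⟨t, ht, hz⟩
  -- Fubini over the rotations
  have hrot : ∀ θ : ℝ, m ((fun v : E => Complex.exp (θ * I) • v) ⁻¹' Bad) = m Bad := fun θ =>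
    (measurePreserving_rot (m := m) θ).measure_preimage hmeas.nullMeasurableSet
  have hfib : ∀ v : E, (volume.restrict (Ioc (0 : ℝ) 1)) {θ : ℝ | Complex.exp (θ * I) • v ∈ Bad} = 0 := by
    intro v
    refine le_antisymm ((Measure.restrict_apply_le _ _).trans ?_) bot_le
    have hc : {θ : ℝ | Complex.exp (θ * I) • v ∈ Bad}.Countable := by
      have hd : Differentiable ℂ (fun τ : ℂ => F (z0 + τ • v)) := by
        refine hF.comp ?_
        fun_prop
      refine Countable.mono ?_ (countable_dirs hd (by simpa using h0))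
      rintro θ ⟨t, ht, hz⟩
      refine ⟨t, ht, ?_⟩
      rw [← hz]
      congr 2
      rw [mul_smul]
      exact (RCLike.real_smul_eq_coe_smul (K := ℂ) t _).symm
    exact (hc.measure_zero volume).le
  have hprod : MeasurableSet {p : E × ℝ | Complex.exp (p.2 * I) • p.1 ∈ Bad} := by
    refine hmeas.preimage ?_
    fun_prop
  have h5 : (m.prod (volume.restrict (Ioc (0 : ℝ) 1))) {p : E × ℝ | Complex.exp (p.2 * I) • p.1 ∈ Bad} = 0 := by
    rw [Measure.measure_prod_null hprod]
    exact Filter.Eventually.of_forall fun v => hfib v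
  have h6 : (m.prod (volume.restrict (Ioc (0 : ℝ) 1))) {p : E × ℝ | Complex.exp (p.2 * I) • p.1 ∈ Bad}
      = ∫⁻ θ in Ioc (0 : ℝ) 1, m Bad := by
    rw [Measure.prod_apply_symm hprod]
    refine lintegral_congr fun θ => ?_
    exact hrot θ
  rw [h5, setLIntegral_const, Real.volume_Ioc] at h6
  simpa using h6.symm

/-- (CF2) NULL SETS: `F` entire on `E`, `F z0 ≠ 0`: for almost every `q` the closed segment
`[z0, q]` misses the zero set of `F`. -/
theorem ae_segment_ne_zero {F : E → ℂ} (hF : Differentiable ℂ F) {z0 : E} (h0 : F z0 ≠ 0) :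
    ∀ᵐ q ∂m, ∀ t ∈ Icc (0 : ℝ) 1, F (z0 + t • (q - z0)) ≠ 0 := by
  have h1 := ae_ray_ne_zero (m := m) hF h0
  have h2 : MeasurePreserving (fun q : E => q - z0) m m := measurePreserving_sub_right m z0
  exact h2.quasiMeasurePreserving.ae h1

end Crest.Agent.R281.Df2_612
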