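/-
R281 / S-DIAM-INST (helper612), part 1: topology of finite coverings.
-/
import Mathlib

namespace Crest.Agent.R281.Dg1_612

open Set Filter Topology

section cover

variable {X B : Type*} [TopologicalSpace X] [T2Space X] [CompactSpace X] [TopologicalSpace B]
  [T2Space B] {f : X → B} {U : Set B}

/-- A local homeomorphism which is locally (over `U`) bounded away from the boundary of `f⁻¹U` is
a finite covering over `U`. -/
theorem covering_of_closure (hU : IsOpen U) (hZ : IsOpen (f ⁻¹' U))
    (hloc : IsLocalHomeomorphOn f (f ⁻¹' U))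
    (hprop : ∀ w ∈ U, ∃ V ∈ 𝓝 w, closure (f ⁻¹' V) ⊆ f ⁻¹' U) :
    IsCoveringMapOn f U ∧ ∀ w ∈ U, (f ⁻¹' {w}).Finite := by
  have hf : ContinuousOn f (f ⁻¹' U) := hloc.continuousOn
  have hfib : ∀ w ∈ U, (f ⁻¹' {w}).Finite := by
    intro w hw
    obtain ⟨V, hV, hVZ⟩ := hprop w hw
    have hsub : f ⁻¹' {w} ⊆ closure (f ⁻¹' V) := by
      refine Subset.trans ?_ subset_closure
      intro x hx
      rw [mem_preimage, mem_singleton_iff] at hx
      rw [mem_preimage, hx]
      exact mem_of_mem_nhds hV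
    have hcont : ContinuousOn f (closure (f ⁻¹' V)) := hf.mono hVZ
    have hcl : IsClosed (f ⁻¹' {w}) := by
      have := hcont.preimage_isClosed_of_isClosed isClosed_closure (isClosed_singleton (x := w))
      rwa [inter_eq_right.2 hsub] at this
    refine hcl.isCompact.finite ?_
    refine IsDiscrete.of_openPartialHomeomorph f (x := w) subset_rfl fun e he => ?_
    have he' : e ∈ f ⁻¹' U := by
      rw [mem_preimage, mem_singleton_iff] at he
      rw [mem_preimage, he]; exact hw
    obtain ⟨φ, hφ, h⟩ := hloc e he'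
    exact ⟨φ, hφ, h.symm⟩
  refine ⟨?_, hfib⟩
  refine IsCoveringMapOn.of_isCoveringMap_restrictPreimage U hU hZ ?_
  have hlh : IsLocalHomeomorph (U.restrictPreimage f) := by
    have h1 : IsLocalHomeomorph (Subtype.val ∘ U.restrictPreimage f : f ⁻¹' U → B) := by
      rw [isLocalHomeomorph_iff_isLocalHomeomorphOn_univ]
      have h2 : IsLocalHomeomorphOn (Subtype.val : f ⁻¹' U → X) univ :=
        (hZ.isOpenEmbedding_subtypeVal.isLocalHomeomorph).isLocalHomeomorphOn
      exact hloc.comp h2 (fun x _ => x.2)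
    exact IsLocalHomeomorph.of_comp h1 hU.isOpenEmbedding_subtypeVal.isLocalHomeomorph
      (Continuous.subtype_mk (hf.comp_continuous continuous_subtype_val fun x => x.2) _)
  have hclosed : IsClosedMap (U.restrictPreimage f) := by
    intro C hC
    obtain ⟨C', hC', rfl⟩ := isClosed_induced_iff.1 hC
    rw [← closure_subset_iff_isClosed]
    rintro ⟨w, hw⟩ hwcl
    obtain ⟨V, hV, hVZ⟩ := hprop w hw
    set F : Set X := closure (f ⁻¹' V) ∩ C' with hF
    have hFc : IsCompact F := (isClosed_closure.inter hC').isCompact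
    have hFi : IsCompact (f '' F) := hFc.image_of_continuousOn (hf.mono (inter_subset_left.trans hVZ))
    have h3 : w ∈ closure (f '' F) := by
      rw [mem_closure_iff_nhds]
      intro N hN
      have hN' : (Subtype.val ⁻¹' (N ∩ V) : Set U) ∈ 𝓝 (⟨w, hw⟩ : U) :=
        continuous_subtype_val.continuousAt (Filter.inter_mem hN hV)
      obtain ⟨w', hw'1, hw'2⟩ := mem_closure_iff_nhds.1 hwcl _ hN'
      obtain ⟨x, hx, rfl⟩ := hw'2
      refine ⟨f x, hw'1.1, x, ⟨subset_closure hw'1.2, hx⟩, rfl⟩
    rw [hFi.isClosed.closure_eq] at h3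
    obtain ⟨x, hx, hxw⟩ := h3
    refine ⟨⟨x, hVZ hx.1⟩, hx.2, Subtype.ext hxw⟩
  rw [isCoveringMap_iff_isCoveringMapOn_univ]
  refine hclosed.isCoveringMapOn_of_isLocalHomeomorphOn (fun w _ => ?_)
    (hlh.isLocalHomeomorphOn.mono (subset_univ _))
  refine Finite.of_finite_image (f := Subtype.val) ((hfib w w.2).subset ?_)
    (Subtype.val_injective.injOn)
  rintro _ ⟨x, hx, rfl⟩
  exact congrArg Subtype.val hx

end cover



end Crest.Agent.R281.Dg1_612
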