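import Crest.Agent.R281.Per6_368
import Crest.Agent.R273.Sg4_101
import Crest.Agent.R273.SteinD_794
import Crest.Agent.R273.HM_333
import Crest.Agent.R281.Dg1_612

-- ▼ part R281/Per6b_368
section

/-!
S-PER (task 1725), part 6b: volume of the image of the strip map.

* `image_lint` : `W` measurable, `W ⊆ Φ '' B` ==> `∫_W f dvm ≤ ∫_B det(Φ^*K) f(Φ ζ) dζ`
-/

set_option autoImplicit false
set_option linter.unusedSectionVars false
set_option maxSynthPendingDepth 3

open Set Filter Topology Complex MeasureTheory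
open scoped ContDiff Matrix ComplexConjugate ComplexOrder ENNReal

namespace Crest.Agent.R281.Per_368

open Crest.Agent.R275.Geo Crest.Agent.R275.Core144 Crest.Agent.R275.EDR890
open Crest.Agent.R273.Defs_333 Crest.Agent.R273.Hess_333 Crest.Agent.R273.HessB_333
open Crest.Agent.R273.HM_333 Crest.Agent.R273.Kah_333 Crest.Agent.R273.Vol_333
open Crest.Agent.R273.Vm_333 Crest.Agent.R273.FIb0_597
open Crest.Agent.R275.Pai323 Crest.Agent.R275.C1d194
open Crest.Agent.R273.SteinM_794 (kap kap_eq mp_kap rc_kap kap_rc me_kap)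
open Crest.Agent.R281.Tor_922 Crest.Agent.R281.SIn_14

noncomputable section

variable {N : ℕ} {M : Type} [TopologicalSpace M] {A : Atl N M}
variable [MeasurableSpace M] [BorelSpace M] [Countable A.ι]

theorem piece_meas {S : Set (Fin N → ℂ)} {Φ : (Fin N → ℂ) → M} (h : HolI A S Φ)
    {B : Set (Fin N → ℂ)} (hB : MeasurableSet B) (hBS : B ⊆ S) (i : A.ι) :
    MeasurableSet {y : RI N → ℝ | kap y ∈ B ∧ Φ (kap y) ∈ Dj A i} := by
  have hkc : Continuous (kap : (RI N → ℝ) → (Fin N → ℂ)) := by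
    unfold kap; fun_prop
  have hc : ContinuousOn (fun y : RI N → ℝ => Φ (kap y)) (kap ⁻¹' S) :=
    h.cont.comp hkc.continuousOn fun y hy => hy
  have h1 : Measurable ((kap ⁻¹' S : Set (RI N → ℝ)).domRestrict fun y => Φ (kap y)) :=
    (continuousOn_iff_continuous_domRestrict.1 hc).measurable
  have h2 := (h.op.preimage hkc).measurableSet.subtype_image (h1 (meas_Dj i))
  have h3 : {y : RI N → ℝ | kap y ∈ B ∧ Φ (kap y) ∈ Dj A i} =
      (kap ⁻¹' B) ∩ (Subtype.val '' ((kap ⁻¹' S :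
        Set (RI N → ℝ)).domRestrict (fun y => Φ (kap y)) ⁻¹' Dj A i)) := by
    ext y
    constructor
    · rintro ⟨hy1, hy2⟩
      exact ⟨hy1, ⟨⟨y, hBS hy1⟩, hy2, rfl⟩⟩
    · rintro ⟨hy1, ⟨⟨a, ha⟩, haE, rfl⟩⟩
      exact ⟨hy1, haE⟩
  rw [h3]
  exact ((mp_kap N).measurable hB).inter h2

/-- change of variables on one piece in one chart -/
theorem piece_eq {S : Set (Fin N → ℂ)} {Φ : (Fin N → ℂ) → M} (h : HolI A S Φ) (K : Kah A)
    {i : A.ι} {T : Set (RI N → ℝ)} (hT : MeasurableSet T)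
    (hmem : ∀ y ∈ T, kap y ∈ S ∧ Φ (kap y) ∈ (A.e i).source)
    (hinj : InjOn (fun y => Φ (kap y)) T) (f : M → ℝ≥0∞) :
    ∫⁻ y in T, ENNReal.ofReal (pbg K Φ (kap y)).det.re * f (Φ (kap y)) =
      ∫⁻ u in (fun y => rc (A.e i (Φ (kap y)))) '' T, dn (volK K) i u * f (sg A i u) := by
  have hL : ∀ y : RI N → ℝ, ∃ L : (RI N → ℝ) →L[ℝ] (RI N → ℝ), y ∈ T →
      (HasFDerivAt (fun y => rc (A.e i (Φ (kap y)))) L y ∧
        |L.det| = ‖(jac A Φ i (kap y)).det‖ ^ 2) := by
    intro y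
    by_cases hy : y ∈ T
    · obtain ⟨L, hL⟩ := h.hasFDerivAt_real (hmem y hy).1 (hmem y hy).2
      exact ⟨L, fun _ => hL⟩
    · exact ⟨0, fun h => absurd h hy⟩
  choose L hL using hL
  set G : (RI N → ℝ) → (RI N → ℝ) := fun y => rc (A.e i (Φ (kap y))) with hG
  have hsgG : ∀ y ∈ T, sg A i (G y) = Φ (kap y) := fun y hy => sg_rc (hmem y hy).2
  have hGinj : InjOn G T := by
    intro a ha b hb hab
    have h1 : Φ (kap a) = Φ (kap b) := by rw [← hsgG a ha, ← hsgG b hb, hab]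
    exact hinj ha hb h1
  rw [lintegral_image_eq_lintegral_abs_det_fderiv_mul volume hT
    (fun y hy => (hL y hy).1.hasFDerivWithinAt) hGinj
    (fun u => dn (volK K) i u * f (sg A i u))]
  refine setLIntegral_congr_fun hT fun y hy => ?_
  have hK : 0 ≤ ‖(jac A Φ i (kap y)).det‖ ^ 2 := by positivity
  show ENNReal.ofReal (pbg K Φ (kap y)).det.re * f (Φ (kap y)) =
    ENNReal.ofReal |(L y).det| * (ENNReal.ofReal ((K.g i (sg A i (G y))).det.re) *
      f (sg A i (G y)))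
  rw [hsgG y hy, (hL y hy).2, h.det_pbg K (hmem y hy).1 (hmem y hy).2,
    ENNReal.ofReal_mul hK, mul_assoc]

/-- **the image**: `B = ⋃ B k` disjoint measurable injective pieces -/
theorem image_lint_of {S : Set (Fin N → ℂ)} {Φ : (Fin N → ℂ) → M} (h : HolI A S Φ) (K : Kah A)
    {B : ℕ → Set (Fin N → ℂ)} (hB : ∀ k, MeasurableSet (B k)) (hBS : ∀ k, B k ⊆ S)
    (hdis : Pairwise (Function.onFun Disjoint B))
    (hinj : ∀ k, InjOn Φ (B k)) {f : M → ℝ≥0∞} (hf : Measurable f) {W : Set M}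
    (hW : MeasurableSet W) (hWB : W ⊆ Φ '' (⋃ k, B k)) :
    ∫⁻ x in W, f x ∂(vm (volK K)) ≤
      ∫⁻ ζ in ⋃ k, B k, ENNReal.ofReal (pbg K Φ ζ).det.re * f (Φ ζ) := by
  classical
  rw [Crest.Agent.R281.Qr_770.lintegral_vm (volK K) hW hf]
  set T : A.ι → ℕ → Set (RI N → ℝ) := fun i k =>
    {y | kap y ∈ B k ∧ Φ (kap y) ∈ Dj A i} with hT
  have hTm : ∀ i k, MeasurableSet (T i k) := fun i k => piece_meas h (hB k) (hBS k) i
  have h1 : ∀ i, ∫⁻ y in {y | y ∈ Ui A i ∧ sg A i y ∈ Dj A i ∩ W},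
      dn (volK K) i y * f (sg A i y) ≤
      ∑' k, ∫⁻ y in T i k, ENNReal.ofReal (pbg K Φ (kap y)).det.re * f (Φ (kap y)) := by
    intro i
    have hsub : {y | y ∈ Ui A i ∧ sg A i y ∈ Dj A i ∩ W} ⊆
        ⋃ k, (fun y => rc (A.e i (Φ (kap y)))) '' (T i k) := by
      rintro u ⟨hu1, hu2, hu3⟩
      obtain ⟨ζ, hζ, he⟩ := hWB hu3
      obtain ⟨k, hk⟩ := mem_iUnion.1 hζ
      refine mem_iUnion.2 ⟨k, rc (WithLp.toLp 2 ζ : Cn N), ⟨?_, ?_⟩, ?_⟩
      · rw [kap_rc]; exact hk
      · rw [kap_rc, he]; exact hu2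
      · show rc (A.e i (Φ (kap (rc (WithLp.toLp 2 ζ : Cn N))))) = u
        rw [kap_rc, he]
        show rc (A.e i ((A.e i).symm (cc u))) = u
        rw [(A.e i).right_inv hu1, rc_cc]
    calc ∫⁻ y in {y | y ∈ Ui A i ∧ sg A i y ∈ Dj A i ∩ W}, dn (volK K) i y * f (sg A i y)
        ≤ ∫⁻ y in ⋃ k, (fun y => rc (A.e i (Φ (kap y)))) '' (T i k),
            dn (volK K) i y * f (sg A i y) := lintegral_mono_set hsub
      _ ≤ ∑' k, ∫⁻ y in (fun y => rc (A.e i (Φ (kap y)))) '' (T i k),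
            dn (volK K) i y * f (sg A i y) := lintegral_iUnion_le _ _
      _ = _ := by
          refine tsum_congr fun k => ?_
          refine (piece_eq h K (hTm i k) (fun y hy => ⟨hBS k hy.1, hy.2.1⟩) ?_ f).symm
          intro a ha b hb hab
          have := hinj k ha.1 hb.1 hab
          rw [← rc_kap a, ← rc_kap b, this]
  refine (ENNReal.tsum_le_tsum h1).trans (le_of_eq ?_)
  have h0 : ∫⁻ ζ in ⋃ k, B k, ENNReal.ofReal (pbg K Φ ζ).det.re * f (Φ ζ) =
      ∫⁻ y in kap ⁻¹' (⋃ k, B k), ENNReal.ofReal (pbg K Φ (kap y)).det.re * f (Φ (kap y)) :=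
    ((mp_kap N).setLIntegral_comp_preimage_emb (me_kap N)
      (fun ζ => ENNReal.ofReal (pbg K Φ ζ).det.re * f (Φ ζ)) _).symm
  rw [h0]
  have hU : (kap ⁻¹' (⋃ k, B k) : Set (RI N → ℝ)) = ⋃ p : A.ι × ℕ, T p.1 p.2 := by
    ext y
    constructor
    · intro hy
      obtain ⟨i, hi⟩ := exists_Dj (A := A) (Φ (kap y))
      obtain ⟨k, hk⟩ := mem_iUnion.1 (show kap y ∈ ⋃ k, B k from hy)
      exact mem_iUnion.2 ⟨(i, k), hk, hi⟩
    · intro hy
      obtain ⟨p, hp⟩ := mem_iUnion.1 hy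
      exact mem_iUnion.2 ⟨p.2, hp.1⟩
  have hd2 : Pairwise (Function.onFun Disjoint fun p : A.ι × ℕ => T p.1 p.2) := by
    rintro ⟨i, k⟩ ⟨j, l⟩ hne
    rw [Function.onFun, Set.disjoint_left]
    intro y hy1 hy2
    by_cases hij : i = j
    · have hkl : k ≠ l := fun hkl => hne (by rw [hij, hkl])
      exact Set.disjoint_left.1 (hdis hkl) hy1.1 hy2.1
    · exact Set.disjoint_left.1 (Dj_disjoint hij) hy1.2 hy2.2
  rw [hU, lintegral_iUnion (s := fun p : A.ι × ℕ => T p.1 p.2) (fun p => hTm p.1 p.2) hd2]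
  exact (ENNReal.tsum_prod
    (f := fun (i : A.ι) (k : ℕ) => ∫⁻ y in T i k,
      ENNReal.ofReal (pbg K Φ (kap y)).det.re * f (Φ (kap y)))).symm



end

end Crest.Agent.R281.Per_368
end

-- ▼ part R281/Dg3_612
section

set_option autoImplicit false
set_option linter.unusedSectionVars false
set_option linter.ambiguousOpen false

namespace Crest.Agent.R281.Dg3_612

open Set Filter Complex
open scoped _root_.Topology
open Crest.Agent.R275.Geo Crest.Agent.R275.Core144
open Crest.Agent.R273.SteinC_794 Crest.Agent.R273.SteinD_794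

noncomputable section

/-! ### polynomials in one variable over polynomials -/

section poly

variable {n : ℕ}








end poly

/-! ### the ratio map -/

variable {n : ℕ} {M : Type} [TopologicalSpace M] {A : Atl n M} {L L' : LB A}

/-- `f = (s_1/s_0, .., s_n/s_0)` -/
def rf (s0 : A.ι → M → ℂ) (s : Fin n → A.ι → M → ℂ) (x : M) : Fin n → ℂ := fun j => qt (s j) s0 x

variable {s0 : A.ι → M → ℂ} {s : Fin n → A.ι → M → ℂ}


theorem qt_zero (hs0 : IsHS L univ s0) {u : A.ι → M → ℂ} (hu : IsHS L univ u) {x : M}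
    (hx : x ∉ nz s0) : qt u s0 x = 0 := by
  obtain ⟨i, hi⟩ := A.cover x
  rw [qt_eq hu hs0 hi]
  rw [mem_nz hs0 hi, not_not] at hx
  rw [hx, div_zero]

theorem qt_continuousOn (hs0 : IsHS L univ s0) {u : A.ι → M → ℂ} (hu : IsHS L univ u) :
    ContinuousOn (qt u s0) (nz s0) := by
  intro x hx
  obtain ⟨i, hi⟩ := A.cover x
  refine ContinuousAt.continuousWithinAt ?_
  exact continuousAt_of_holAt (isOpen_nz hs0) (qt_hol hu hs0 i) hi hx

theorem rf_continuousOn (hs0 : IsHS L univ s0) (hs : ∀ j, IsHS L univ (s j)) :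
    ContinuousOn (rf s0 s) (nz s0) :=
  continuousOn_pi.2 fun j => qt_continuousOn hs0 (hs j)


end

end Crest.Agent.R281.Dg3_612
end

-- ▼ part R281/Dg4_612
section

set_option autoImplicit false
set_option linter.unusedSectionVars false
set_option linter.ambiguousOpen false

namespace Crest.Agent.R281.Dg4_612

open Set Filter Complex
open scoped _root_.Topology
open Crest.Agent.R275.Geo Crest.Agent.R275.Core144
open Crest.Agent.R273.SteinC_794 Crest.Agent.R273.SteinD_794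
open Crest.Agent.R281.Dg3_612

noncomputable section

variable {n : ℕ} {M : Type} [TopologicalSpace M] {A : Atl n M} {L L' : LB A}

/-- `∂F/∂z_a` in the chart `i` -/
def dc (A : Atl n M) (i : A.ι) (a : Fin n) (F : M → ℂ) (x : M) : ℂ :=
  fderiv ℂ (fun z => F ((A.e i).symm z)) (A.e i x) (EuclideanSpace.single a 1)

theorem holAt_dc {i : A.ι} {U : Set M} (hU : IsOpen U) {F : M → ℂ} (hF : HolAt A i U F)
    (a : Fin n) : HolAt A i U (dc A i a F) := by
  have ho := isOpen_ti (A := A) (i := i) hU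
  have h1 : DifferentiableOn ℂ (fderiv ℂ (fun z => F ((A.e i).symm z)))
      ((A.e i).target ∩ (A.e i).symm ⁻¹' U) :=
    ((Crest.Agent.R266.SCV.analyticOnNhd_of_differentiableOn ho hF).fderiv).differentiableOn
  have h2 : DifferentiableOn ℂ (fun z => (fderiv ℂ (fun z => F ((A.e i).symm z)) z
      (EuclideanSpace.single a 1))) ((A.e i).target ∩ (A.e i).symm ⁻¹' U) :=
    h1.clm_apply (differentiableOn_const _)
  refine DifferentiableOn.congr h2 fun z hz => ?_
  simp only [dc, (A.e i).right_inv hz.1]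

theorem dc_congr {i : A.ι} {x : M} (hx : x ∈ (A.e i).source) {F G : M → ℂ} {a : Fin n}
    (h : F =ᶠ[𝓝 x] G) : dc A i a F x = dc A i a G x := by
  have hc : Tendsto (A.e i).symm (𝓝 (A.e i x)) (𝓝 x) := by
    have := (A.e i).continuousAt_symm ((A.e i).map_source hx)
    rwa [ContinuousAt, (A.e i).left_inv hx] at this
  have h1 : (fun z => F ((A.e i).symm z)) =ᶠ[𝓝 (A.e i x)] fun z => G ((A.e i).symm z) :=
    hc.eventually h
  unfold dc
  rw [h1.fderiv_eq]

theorem dc_mul {i : A.ι} {x : M} (hx : x ∈ (A.e i).source) {F G : M → ℂ} {a : Fin n}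
    (hF : DifferentiableAt ℂ (fun z => F ((A.e i).symm z)) (A.e i x))
    (hG : DifferentiableAt ℂ (fun z => G ((A.e i).symm z)) (A.e i x)) :
    dc A i a (fun y => F y * G y) x = F x * dc A i a G x + G x * dc A i a F x := by
  unfold dc
  rw [fderiv_fun_mul hF hG]
  simp only [ContinuousLinearMap.add_apply, ContinuousLinearMap.smul_apply, smul_eq_mul,
    (A.e i).left_inv hx]

theorem dc_chg {i j : A.ι} {x : M} (hx : x ∈ (A.e i).source ∩ (A.e j).source) {F : M → ℂ}
    (hF : DifferentiableAt ℂ (fun z => F ((A.e j).symm z)) (A.e j x)) (a : Fin n) :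
    dc A i a F x = ∑ b, dc A j b F x * A.J i j x b a := by
  have hij : DifferentiableAt ℂ (fun z => A.e j ((A.e i).symm z)) (A.e i x) :=
    (A.holo i j).differentiableAt ((isOpen_ov (A := A) i j).mem_nhds (mem_ov hx))
  have he : (fun z => F ((A.e i).symm z)) =ᶠ[𝓝 (A.e i x)]
      (fun z => F ((A.e j).symm z)) ∘ (fun z => A.e j ((A.e i).symm z)) := by
    filter_upwards [(isOpen_ov (A := A) i j).mem_nhds (mem_ov hx)] with z hz
    simp [(A.e j).left_inv hz.2]
  have hval : A.e j ((A.e i).symm (A.e i x)) = A.e j x := by rw [(A.e i).left_inv hx.1]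
  have hch : fderiv ℂ (fun z => F ((A.e i).symm z)) (A.e i x) =
      (fderiv ℂ (fun z => F ((A.e j).symm z)) (A.e j x)).comp
        (fderiv ℂ (fun z => A.e j ((A.e i).symm z)) (A.e i x)) := by
    rw [he.fderiv_eq, fderiv_comp _ (by rw [hval]; exact hF) hij, hval]
  unfold dc
  rw [hch]
  simp only [ContinuousLinearMap.coe_comp, Function.comp_apply, Atl.J]
  set v := (fderiv ℂ (fun z => A.e j ((A.e i).symm z)) (A.e i x)) (EuclideanSpace.single a 1)
  have hv : v = ∑ c, v c • (EuclideanSpace.single c (1 : ℂ) : Cn n) := by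
    ext d
    simp [Finset.sum_apply, Pi.single_apply]
  conv_lhs => rw [hv, map_sum]
  simp [mul_comm]

theorem hs_diffAt {u : A.ι → M → ℂ} (hu : IsHS L univ u) (i : A.ι) {j : A.ι} {x : M}
    (hx : x ∈ (A.e j).source) (hxi : x ∈ (A.e i).source) :
    DifferentiableAt ℂ (fun z => u i ((A.e j).symm z)) (A.e j x) := by
  have h1 := (hu.hol i).chg isOpen_univ j
  exact h1.diffAt (isOpen_univ.inter (A.e i).open_source) hx ⟨mem_univ _, hxi⟩

/-- `s₀ ∂_a u - u ∂_a s₀` -/
def wr (s0 u : A.ι → M → ℂ) (i : A.ι) (a : Fin n) (x : M) : ℂ :=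
  s0 i x * dc A i a (u i) x - u i x * dc A i a (s0 i) x

variable {s0 u : A.ι → M → ℂ} {s : Fin n → A.ι → M → ℂ}







/-- derivative of the ratio map -/
theorem dc_qt (hs0 : IsHS L univ s0) (hu : IsHS L univ u) {i : A.ι} {x : M}
    (hx : x ∈ (A.e i).source) (h0 : x ∈ nz s0) (a : Fin n) :
    dc A i a (qt u s0) x = wr s0 u i a x / s0 i x ^ 2 := by
  have hne : s0 i x ≠ 0 := (mem_nz hs0 hx).1 h0
  -- `u = qt * s0` near `x`
  have h1 : u i =ᶠ[𝓝 x] fun y => qt u s0 y * s0 i y := by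
    filter_upwards [(A.e i).open_source.mem_nhds hx, (isOpen_nz hs0).mem_nhds h0] with y hy hy0
    rw [qt_eq hu hs0 hy, div_mul_cancel₀ _ ((mem_nz hs0 hy).1 hy0)]
  have hq : DifferentiableAt ℂ (fun z => qt u s0 ((A.e i).symm z)) (A.e i x) :=
    (qt_hol hu hs0 i).diffAt (isOpen_nz hs0) hx h0
  have h2 := dc_congr (A := A) (a := a) hx h1
  rw [dc_mul hx hq (hs_diffAt hs0 i hx hx)] at h2
  unfold wr
  rw [h2, qt_eq hu hs0 hx]
  field_simp
  ring

/-- the Jacobian matrix of the ratio map in the chart `i` -/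
def Df (s0 : A.ι → M → ℂ) (s : Fin n → A.ι → M → ℂ) (i : A.ι) (x : M) :
    Matrix (Fin n) (Fin n) ℂ := Matrix.of fun j a => dc A i a (qt (s j) s0) x



end

end Crest.Agent.R281.Dg4_612
end

-- ▼ part R281/Dg5_612

set_option autoImplicit false
set_option linter.unusedSectionVars false
set_option linter.ambiguousOpen false

namespace Crest.Agent.R281.Dg5_612

open Set Filter Complex
open scoped _root_.Topology
open Crest.Agent.R275.Geo Crest.Agent.R275.Core144
open Crest.Agent.R273.SteinC_794 Crest.Agent.R273.SteinD_794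
open Crest.Agent.R281.Dg3_612 Crest.Agent.R281.Dg4_612

noncomputable section

variable {n : ℕ} {M : Type} [TopologicalSpace M] {A : Atl n M} {L L' : LB A}
variable {s0 u : A.ι → M → ℂ} {s : Fin n → A.ι → M → ℂ}

/-- the ratio map read in the chart `i` -/
def rc' (s0 : A.ι → M → ℂ) (s : Fin n → A.ι → M → ℂ) (i : A.ι) (z : Cn n) : Fin n → ℂ :=
  rf s0 s ((A.e i).symm z)

theorem rc'_diffOn (hs0 : IsHS L univ s0) (hs : ∀ j, IsHS L univ (s j)) (i : A.ι) :
    DifferentiableOn ℂ (rc' s0 s i) ((A.e i).target ∩ (A.e i).symm ⁻¹' (nz s0)) :=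
  differentiableOn_pi.2 fun j => qt_hol (hs j) hs0 i

/-- the matrix of the derivative -/
theorem fderiv_rc' (hs0 : IsHS L univ s0) (hs : ∀ j, IsHS L univ (s j)) {i : A.ι} {x : M}
    (hx : x ∈ (A.e i).source) (h0 : x ∈ nz s0) (v : Cn n) :
    fderiv ℂ (rc' s0 s i) (A.e i x) v = (Df s0 s i x).mulVec v := by
  have hd : DifferentiableAt ℂ (rc' s0 s i) (A.e i x) :=
    (rc'_diffOn hs0 hs i).differentiableAt ((isOpen_ti (isOpen_nz hs0)).mem_nhds
      ⟨(A.e i).map_source hx, by rw [mem_preimage, (A.e i).left_inv hx]; exact h0⟩)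
  have hv : v = ∑ c, v c • (EuclideanSpace.single c (1 : ℂ) : Cn n) := by
    ext d
    simp [Finset.sum_apply, Pi.single_apply]
  funext j
  have hj : fderiv ℂ (rc' s0 s i) (A.e i x) v j =
      fderiv ℂ (fun z => rc' s0 s i z j) (A.e i x) v := by
    rw [fderiv_apply hd]
    rfl
  rw [hj]
  conv_lhs => rw [hv, map_sum]
  simp only [map_smul, smul_eq_mul, Matrix.mulVec, dotProduct, Df, Matrix.of_apply]
  refine Finset.sum_congr rfl fun a _ => ?_
  rw [mul_comm]
  rfl

/-- local homeomorphism at the points where the Jacobian does not vanish -/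
theorem exists_chart (hs0 : IsHS L univ s0) (hs : ∀ j, IsHS L univ (s j)) {i : A.ι} {x : M}
    (hx : x ∈ (A.e i).source) (h0 : x ∈ nz s0) (hJ : (Df s0 s i x).det ≠ 0) :
    ∃ e : OpenPartialHomeomorph M (Fin n → ℂ), x ∈ e.source ∧ EqOn (rf s0 s) e e.source := by
  have ho := isOpen_ti (A := A) (i := i) (isOpen_nz hs0)
  have hz : A.e i x ∈ (A.e i).target ∩ (A.e i).symm ⁻¹' (nz s0) :=
    ⟨(A.e i).map_source hx, by rw [mem_preimage, (A.e i).left_inv hx]; exact h0⟩
  have han : AnalyticAt ℂ (rc' s0 s i) (A.e i x) :=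
    Crest.Agent.R266.SCV.analyticOnNhd_of_differentiableOn ho (rc'_diffOn hs0 hs i) _ hz
  have hinj : Function.Injective (fderiv ℂ (rc' s0 s i) (A.e i x)) := by
    rw [injective_iff_map_eq_zero]
    intro v hv
    rw [fderiv_rc' hs0 hs hx h0] at hv
    have h1 := Matrix.eq_zero_of_mulVec_eq_zero hJ hv
    ext a
    exact congrFun h1 a
  set D : Cn n ≃L[ℂ] (Fin n → ℂ) := (LinearEquiv.ofInjectiveOfFinrankEq
    (fderiv ℂ (rc' s0 s i) (A.e i x)).toLinearMap hinj (by simp)).toContinuousLinearEquiv with hD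
  have hDe : (D : Cn n →L[ℂ] (Fin n → ℂ)) = fderiv ℂ (rc' s0 s i) (A.e i x) := by
    ext v : 1
    rfl
  have hst : HasStrictFDerivAt (rc' s0 s i) (D : Cn n →L[ℂ] (Fin n → ℂ)) (A.e i x) := by
    rw [hDe]
    exact han.hasStrictFDerivAt
  refine ⟨(A.e i).trans (hst.toOpenPartialHomeomorph _), ?_, ?_⟩
  · rw [OpenPartialHomeomorph.trans_source]
    exact ⟨hx, hst.mem_toOpenPartialHomeomorph_source⟩
  · intro y hy
    rw [OpenPartialHomeomorph.trans_source] at hy
    rw [OpenPartialHomeomorph.coe_trans, Function.comp_apply,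
      HasStrictFDerivAt.toOpenPartialHomeomorph_coe]
    unfold rc'
    rw [(A.e i).left_inv hy.1]

theorem nz_of_rf (hn : 0 < n) (hs0 : IsHS L univ s0) (hs : ∀ j, IsHS L univ (s j)) {x : M}
    (hx : ∀ j, rf s0 s x j ≠ 0) : x ∈ nz s0 := by
  by_contra h
  exact hx ⟨0, hn⟩ (qt_zero hs0 (hs _) h)


end

end Crest.Agent.R281.Dg5_612
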