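import Crest.Agent.R281.DicA_273
import Crest.Agent.R281.Defs_273

-- ▼ part R281/DicB_273
section

/-!
# R281 (S0424), HK-DIC part B (helper273): forms in the charts of `A`

* `rp K α i x`     : the frozen form `α` at `g x`, read in the coordinates of the chart `i`;
  `rp_eq`, `rp_tr`, `rp_smooth`, `rp_hol`.
* `mat11 β`        : the Hermitian matrix of a real `(1,1)`-form, `β(v,w) = -(1/π) Im ∑ M_ab v_a conj w_b`;
  `mat11_comp`, `mat11_quad`.
* `mat20 β`        : the matrix `β(e_a,e_b)` of a `(2,0)`-form; `mat20_comp`.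
* `kahOf`          : the Kaehler metric of a frozen Kaehler form.
* `hsympOf`        : the holomorphic symplectic form of a frozen one.
-/

set_option autoImplicit false
set_option linter.unusedSectionVars false

open Set Filter Topology Complex
open scoped ContDiff Matrix ComplexConjugate Manifold ComplexOrder

namespace Crest.Agent.R281.DicB_273

open Crest.Agent.R275.Geo Crest.Agent.R275.Core144 Crest.Agent.R275.EDR890
open Crest.Agent.R273.Defs_333 Crest.Agent.R273.Kah_333 Crest.Agent.R273.HessB_333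
open Crest.Agent.R281.DicA_273 Crest.Agent.R281.Defs_273
open Crest.CxGeometry (Form chartRep transDeriv chartWindow)

noncomputable section

universe u

/-! ### linear algebra -/

section Algebra

variable {n : ℕ}

/-- the standard basis -/
abbrev bs (a : Fin n) : Cn n := EuclideanSpace.single a (1 : ℂ)

theorem sum_bs (v : Cn n) : v = ∑ c, v c • (bs c : Cn n) := by
  ext d
  simp [Finset.sum_apply, Pi.single_apply, bs]

/-- the matrix of a linear map, `mx T b a = (T e_a)_b` -/
def mx (T : Cn n →L[ℂ] Cn n) : Matrix (Fin n) (Fin n) ℂ := Matrix.of fun b a => (T (bs a)) b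

theorem apply_bs (T : Cn n →L[ℂ] Cn n) (a : Fin n) : T (bs a) = ∑ c, mx T c a • (bs c : Cn n) :=
  sum_bs _

/-- the sesquilinear form attached to a 2-form -/
def ses (β : (Cn n) [⋀^Fin 2]→L[ℝ] ℂ) (v w : Cn n) : ℂ :=
  (Real.pi : ℂ) * (β ![v, I • w] - I * β ![v, w])

/-- type `(1,1)` -/
def T11 (β : (Cn n) [⋀^Fin 2]→L[ℝ] ℂ) : Prop := ∀ v w : Cn n, β ![I • v, I • w] = β ![v, w]

/-- real -/
def RealF {k : ℕ} (β : (Cn n) [⋀^Fin k]→L[ℝ] ℂ) : Prop := ∀ v, (β v).im = 0

variable {β : (Cn n) [⋀^Fin 2]→L[ℝ] ℂ}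

theorem upd0 (v w u : Cn n) : Function.update (![v, w] : Fin 2 → Cn n) 0 u = ![u, w] := by
  funext i
  fin_cases i <;> simp

theorem f2_add_left (β : (Cn n) [⋀^Fin 2]→L[ℝ] ℂ) (v v' w : Cn n) :
    β ![v + v', w] = β ![v, w] + β ![v', w] := by
  have := β.map_update_add ![v, w] 0 v v'
  rwa [upd0, upd0, upd0] at this

theorem f2_smul_left (β : (Cn n) [⋀^Fin 2]→L[ℝ] ℂ) (c : ℝ) (v w : Cn n) :
    β ![c • v, w] = c • β ![v, w] := by
  have := β.map_update_smul ![v, w] 0 c v
  rwa [upd0, upd0] at this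

theorem f2_swap (β : (Cn n) [⋀^Fin 2]→L[ℝ] ℂ) (v w : Cn n) : β ![w, v] = - β ![v, w] := by
  have := β.toAlternatingMap.map_swap ![v, w] (i := 0) (j := 1) (by decide)
  have h2 : (![v, w] : Fin 2 → Cn n) ∘ Equiv.swap 0 1 = ![w, v] := by
    funext i
    fin_cases i <;> simp
  rw [h2] at this
  exact this

theorem f2_add_right (β : (Cn n) [⋀^Fin 2]→L[ℝ] ℂ) (v w w' : Cn n) :
    β ![v, w + w'] = β ![v, w] + β ![v, w'] := by
  rw [f2_swap, f2_add_left, f2_swap β v w, f2_swap β v w']
  ring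

theorem f2_smul_right (β : (Cn n) [⋀^Fin 2]→L[ℝ] ℂ) (c : ℝ) (v w : Cn n) :
    β ![v, c • w] = c • β ![v, w] := by
  rw [f2_swap, f2_smul_left, f2_swap β v w, smul_neg, neg_neg]


theorem f2_neg_right (β : (Cn n) [⋀^Fin 2]→L[ℝ] ℂ) (v w : Cn n) : β ![v, -w] = - β ![v, w] := by
  have := f2_smul_right β (-1) v w
  simpa using this

theorem II_smul (v : Cn n) : I • I • v = -v := by
  rw [smul_smul, I_mul_I, neg_smul, one_smul]

theorem T11.J_left (h : T11 β) (v w : Cn n) : β ![I • v, w] = - β ![v, I • w] := by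
  have h1 := h v (I • w)
  rw [II_smul, f2_neg_right] at h1
  rw [← h1, neg_neg]

theorem ses_add_left (v v' w : Cn n) : ses β (v + v') w = ses β v w + ses β v' w := by
  unfold ses
  rw [f2_add_left, f2_add_left]
  ring

theorem ses_add_right (v w w' : Cn n) : ses β v (w + w') = ses β v w + ses β v w' := by
  unfold ses
  rw [smul_add, f2_add_right, f2_add_right]
  ring

theorem cplx_smul_eq (c : ℂ) (v : Cn n) : c • v = (c.re : ℝ) • v + (c.im : ℝ) • (I • v) := by
  conv_lhs => rw [← Complex.re_add_im c, add_smul, mul_smul]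
  rfl

theorem ses_rsmul_left (c : ℝ) (v w : Cn n) : ses β (c • v) w = (c : ℂ) * ses β v w := by
  unfold ses
  rw [f2_smul_left, f2_smul_left, Complex.real_smul, Complex.real_smul]
  ring

theorem ses_rsmul_right (c : ℝ) (v w : Cn n) : ses β v (c • w) = (c : ℂ) * ses β v w := by
  unfold ses
  rw [smul_comm I c w, f2_smul_right, f2_smul_right, Complex.real_smul, Complex.real_smul]
  ring

theorem T11.ses_I_left (h : T11 β) (v w : Cn n) : ses β (I • v) w = I * ses β v w := by
  unfold ses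
  rw [h v w, h.J_left v w]
  linear_combination ((Real.pi : ℂ) * β ![v, w]) * I_sq

theorem ses_I_right (v w : Cn n) : ses β v (I • w) = - I * ses β v w := by
  unfold ses
  rw [II_smul, f2_neg_right]
  linear_combination (- (Real.pi : ℂ) * β ![v, w]) * I_sq

theorem T11.ses_smul_left (h : T11 β) (c : ℂ) (v w : Cn n) : ses β (c • v) w = c * ses β v w := by
  rw [cplx_smul_eq, ses_add_left, ses_rsmul_left, ses_rsmul_left, h.ses_I_left]
  conv_rhs => rw [← Complex.re_add_im c]
  ring

theorem ses_smul_right (c : ℂ) (v w : Cn n) :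
    ses β v (c • w) = conj c * ses β v w := by
  rw [cplx_smul_eq, ses_add_right, ses_rsmul_right, ses_rsmul_right, ses_I_right]
  have : conj c = (c.re : ℂ) - (c.im : ℂ) * I := by
    apply Complex.ext <;> simp
  rw [this]
  ring

theorem ses_zero_left (w : Cn n) : ses β 0 w = 0 := by
  have := ses_rsmul_left (β := β) 0 0 w
  simpa using this

theorem ses_zero_right (w : Cn n) : ses β w 0 = 0 := by
  have := ses_rsmul_right (β := β) 0 w 0
  simpa using this

theorem ses_sum_left {ι : Type*} (s : Finset ι) (f : ι → Cn n) (w : Cn n) :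
    ses β (∑ i ∈ s, f i) w = ∑ i ∈ s, ses β (f i) w := by
  classical
  induction s using Finset.induction_on with
  | empty => simp [ses_zero_left]
  | insert a s ha ih => rw [Finset.sum_insert ha, Finset.sum_insert ha, ses_add_left, ih]

theorem ses_sum_right {ι : Type*} (s : Finset ι) (f : ι → Cn n) (w : Cn n) :
    ses β w (∑ i ∈ s, f i) = ∑ i ∈ s, ses β w (f i) := by
  classical
  induction s using Finset.induction_on with
  | empty => simp [ses_zero_right]
  | insert a s ha ih => rw [Finset.sum_insert ha, Finset.sum_insert ha, ses_add_right, ih]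

/-- the matrix of a `(1,1)`-form -/
def mat11 (β : (Cn n) [⋀^Fin 2]→L[ℝ] ℂ) : Matrix (Fin n) (Fin n) ℂ :=
  Matrix.of fun a b => ses β (bs a) (bs b)

theorem mat11_apply (β : (Cn n) [⋀^Fin 2]→L[ℝ] ℂ) (a b : Fin n) :
    mat11 β a b = (Real.pi : ℂ) * (β ![bs a, I • bs b] - I * β ![bs a, bs b]) := rfl

theorem T11.ses_eq (h : T11 β) (v w : Cn n) :
    ses β v w = ∑ a, ∑ b, mat11 β a b * v a * conj (w b) := by
  conv_lhs => rw [sum_bs v, ses_sum_left]
  refine Finset.sum_congr rfl fun a _ => ?_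
  conv_lhs => rw [sum_bs w, ses_sum_right]
  refine Finset.sum_congr rfl fun b _ => ?_
  rw [h.ses_smul_left, ses_smul_right]
  change v a * (conj (w b) * ses β (bs a) (bs b)) = ses β (bs a) (bs b) * v a * conj (w b)
  ring

/-- pull back of forms under a complex linear map -/
def pb {k : ℕ} (T : Cn n →L[ℂ] Cn n) (β : (Cn n) [⋀^Fin k]→L[ℝ] ℂ) : (Cn n) [⋀^Fin k]→L[ℝ] ℂ :=
  β.compContinuousLinearMap (T.restrictScalars ℝ)

theorem pb_apply {k : ℕ} (T : Cn n →L[ℂ] Cn n) (β : (Cn n) [⋀^Fin k]→L[ℝ] ℂ) (v : Fin k → Cn n) :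
    pb T β v = β (fun s => T (v s)) := rfl

theorem pb_apply2 (T : Cn n →L[ℂ] Cn n) (β : (Cn n) [⋀^Fin 2]→L[ℝ] ℂ) (v w : Cn n) :
    pb T β ![v, w] = β ![T v, T w] := by
  rw [pb_apply]
  congr 1
  funext s
  fin_cases s <;> rfl

theorem pb_comp {k : ℕ} (T T' : Cn n →L[ℂ] Cn n) (β : (Cn n) [⋀^Fin k]→L[ℝ] ℂ) :
    pb T (pb T' β) = pb (T'.comp T) β := rfl

theorem T11.pb (h : T11 β) (T : Cn n →L[ℂ] Cn n) : T11 (pb T β) := by
  intro v w
  rw [pb_apply2, pb_apply2, map_smul, map_smul, h]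

theorem ses_pb (T : Cn n →L[ℂ] Cn n) (β : (Cn n) [⋀^Fin 2]→L[ℝ] ℂ) (v w : Cn n) :
    ses (pb T β) v w = ses β (T v) (T w) := by
  unfold ses
  rw [pb_apply2, pb_apply2, map_smul]

/-- transformation law of the matrix of a `(1,1)`-form -/
theorem T11.mat11_pb (h : T11 β) (T : Cn n →L[ℂ] Cn n) :
    mat11 (DicB_273.pb T β) = (mx T)ᵀ * mat11 β * (mx T).map conj := by
  ext a b
  change ses (DicB_273.pb T β) (bs a) (bs b) = _
  rw [ses_pb, h.ses_eq]
  simp only [Matrix.mul_apply, Matrix.transpose_apply, Matrix.map_apply, Finset.sum_mul]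
  rw [Finset.sum_comm]
  refine Finset.sum_congr rfl fun c _ => Finset.sum_congr rfl fun d _ => ?_
  change mat11 β d c * mx T d a * conj (mx T c b) = mx T d a * mat11 β d c * conj (mx T c b)
  ring

theorem RealF.conj_eq {k : ℕ} {β : (Cn n) [⋀^Fin k]→L[ℝ] ℂ} (h : RealF β) (v : Fin k → Cn n) :
    conj (β v) = β v := Complex.conj_eq_iff_im.2 (h v)

theorem mat11_herm (h : T11 β) (hr : RealF β) : (mat11 β).IsHermitian := by
  ext a b
  rw [Matrix.conjTranspose_apply, RCLike.star_def, mat11_apply, mat11_apply]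
  simp only [map_mul, map_sub, Complex.conj_ofReal, hr.conj_eq, Complex.conj_I]
  have h1 : β ![bs b, I • bs a] = β ![bs a, I • bs b] := by
    rw [f2_swap, h.J_left, neg_neg]
  rw [h1, f2_swap β (bs a) (bs b)]
  ring

theorem ses_self (v : Cn n) : ses β v v = (Real.pi : ℂ) * β ![v, I • v] := by
  unfold ses
  have h1 : β ![v, v] = 0 := by
    have := f2_swap β v v
    have h2 : (2 : ℂ) * β ![v, v] = 0 := by linear_combination this
    simpa using h2
  rw [h1]
  ring

/-- the quadratic form of the matrix, `x = conj v` -/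
theorem mat11_dot (h : T11 β) (x : Fin n → ℂ) :
    star x ⬝ᵥ (mat11 β *ᵥ x) = (Real.pi : ℂ) * β ![WithLp.toLp 2 (fun a => conj (x a)),
      I • WithLp.toLp 2 (fun a => conj (x a))] := by
  rw [← ses_self, h.ses_eq]
  simp only [dotProduct, Matrix.mulVec, Pi.star_apply, RCLike.star_def, Finset.mul_sum,
    Complex.conj_conj]
  refine Finset.sum_congr rfl fun a _ => Finset.sum_congr rfl fun b _ => ?_
  ring

theorem mat11_add (β β' : (Cn n) [⋀^Fin 2]→L[ℝ] ℂ) : mat11 (β + β') = mat11 β + mat11 β' := by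
  ext a b
  rw [Matrix.add_apply, mat11_apply, mat11_apply, mat11_apply]
  simp only [ContinuousAlternatingMap.add_apply]
  ring

theorem mat11_posDef (h : T11 β) (hr : RealF β) (hp : ∀ v : Cn n, v ≠ 0 → 0 < (β ![v, I • v]).re) :
    (mat11 β).PosDef := by
  refine Matrix.PosDef.of_dotProduct_mulVec_pos (mat11_herm h hr) fun x hx => ?_
  rw [mat11_dot h]
  set v : Cn n := WithLp.toLp 2 (fun a => conj (x a)) with hv
  have h0 : v ≠ 0 := by
    intro h1
    apply hx
    funext a
    have := congrArg (fun v : Cn n => v a) h1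
    simpa [hv] using this
  have h1 := hp v h0
  have h2 : β ![v, I • v] = (((β ![v, I • v]).re : ℝ) : ℂ) := by
    apply Complex.ext
    · simp
    · simpa using hr _
  rw [h2]
  exact_mod_cast mul_pos Real.pi_pos h1

theorem mat11_posSemidef (h : T11 β) (hr : RealF β) (hp : ∀ v : Cn n, 0 ≤ (β ![v, I • v]).re) :
    (mat11 β).PosSemidef := by
  refine Matrix.PosSemidef.of_dotProduct_mulVec_nonneg (mat11_herm h hr) fun x => ?_
  rw [mat11_dot h]
  set v : Cn n := WithLp.toLp 2 (fun a => conj (x a)) with hv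
  have h1 := hp v
  have h2 : β ![v, I • v] = (((β ![v, I • v]).re : ℝ) : ℂ) := by
    apply Complex.ext
    · simp
    · simpa using hr _
  rw [h2]
  exact_mod_cast mul_nonneg Real.pi_pos.le h1

/-! ### (2,0)-forms -/

/-- the matrix of a 2-form on the complex basis -/
def mat20 (β : (Cn n) [⋀^Fin 2]→L[ℝ] ℂ) : Matrix (Fin n) (Fin n) ℂ :=
  Matrix.of fun a b => β ![bs a, bs b]

/-- complex bilinear -/
def T20 (β : (Cn n) [⋀^Fin 2]→L[ℝ] ℂ) : Prop :=
  ∀ (c : ℂ) (v w : Cn n), β ![c • v, w] = c * β ![v, w]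

theorem T20.right (h : T20 β) (c : ℂ) (v w : Cn n) : β ![v, c • w] = c * β ![v, w] := by
  rw [f2_swap, h, f2_swap β v w, mul_neg, neg_neg]

theorem f2_sum_left (β : (Cn n) [⋀^Fin 2]→L[ℝ] ℂ) {ι : Type*} (s : Finset ι) (f : ι → Cn n)
    (w : Cn n) : β ![∑ i ∈ s, f i, w] = ∑ i ∈ s, β ![f i, w] := by
  classical
  induction s using Finset.induction_on with
  | empty =>
    have := f2_smul_left β 0 0 w
    simpa using this
  | insert a s ha ih => rw [Finset.sum_insert ha, Finset.sum_insert ha, f2_add_left, ih]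

theorem f2_sum_right (β : (Cn n) [⋀^Fin 2]→L[ℝ] ℂ) {ι : Type*} (s : Finset ι) (f : ι → Cn n)
    (w : Cn n) : β ![w, ∑ i ∈ s, f i] = ∑ i ∈ s, β ![w, f i] := by
  rw [f2_swap, f2_sum_left, ← Finset.sum_neg_distrib]
  exact Finset.sum_congr rfl fun i _ => (f2_swap β (f i) w).symm

theorem T20.eq (h : T20 β) (v w : Cn n) : β ![v, w] = ∑ a, ∑ b, mat20 β a b * v a * w b := by
  conv_lhs => rw [sum_bs v, f2_sum_left]
  refine Finset.sum_congr rfl fun a _ => ?_
  conv_lhs => rw [sum_bs w, f2_sum_right]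
  refine Finset.sum_congr rfl fun b _ => ?_
  rw [h, h.right]
  change v a * (w b * β ![bs a, bs b]) = β ![bs a, bs b] * v a * w b
  ring

theorem T20.pb (h : T20 β) (T : Cn n →L[ℂ] Cn n) : T20 (pb T β) := by
  intro c v w
  rw [pb_apply2, pb_apply2, map_smul, h]

theorem T20.mat20_pb (h : T20 β) (T : Cn n →L[ℂ] Cn n) :
    mat20 (DicB_273.pb T β) = (mx T)ᵀ * mat20 β * mx T := by
  ext a b
  change DicB_273.pb T β ![bs a, bs b] = _
  rw [pb_apply2, h.eq]
  simp only [Matrix.mul_apply, Matrix.transpose_apply, Finset.sum_mul]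
  rw [Finset.sum_comm]
  refine Finset.sum_congr rfl fun c _ => Finset.sum_congr rfl fun d _ => ?_
  change mat20 β d c * mx T d a * mx T c b = mx T d a * mat20 β d c * mx T c b
  ring

theorem mat20_alt (β : (Cn n) [⋀^Fin 2]→L[ℝ] ℂ) : (mat20 β)ᵀ = - mat20 β := by
  ext a b
  exact f2_swap β (bs a) (bs b)

/-- `dz_a ∧ dz_b` as an alternating form -/
def dzz (a b : Fin n) : (Cn n) [⋀^Fin 2]→L[ℝ] ℂ :=
  Crest.CxGeometry.ofBilin
    ((((EuclideanSpace.proj a : Cn n →L[ℂ] ℂ).restrictScalars ℝ).smulRight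
      ((EuclideanSpace.proj b : Cn n →L[ℂ] ℂ).restrictScalars ℝ : Cn n →L[ℝ] ℂ)))

end Algebra

end

end Crest.Agent.R281.DicB_273
end

-- ▼ part R281/DicC_273
section

/-!
# R281 (S0424), HK-DIC part C (helper273): forms in the charts of `A`

* `rp K α i x`     : the frozen form `α` at `g x`, read in the coordinates of the chart `i`;
  `rp_read`, `rp_tr`, `rp_smooth`, `rp_hol`, `rp_closed`.
* `kahOf`          : the Kaehler metric of a frozen Kaehler form.
* `hsympOf`        : the holomorphic symplectic form of a frozen one.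
-/

set_option autoImplicit false
set_option linter.unusedSectionVars false

open Set Filter Topology Complex
open scoped ContDiff Matrix ComplexConjugate Manifold ComplexOrder

namespace Crest.Agent.R281.DicC_273

open Crest.Agent.R275.Geo Crest.Agent.R275.Core144 Crest.Agent.R275.EDR890
open Crest.Agent.R273.Defs_333 Crest.Agent.R273.Kah_333 Crest.Agent.R273.HessB_333
open Crest.Agent.R281.DicA_273 Crest.Agent.R281.Defs_273 Crest.Agent.R281.DicB_273
open Crest.CxGeometry (Form chartRep transDeriv chartWindow)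

noncomputable section

universe u

variable {n k : ℕ} {X : Type u} [TopologicalSpace X] [ChartedSpace (Cn n) X]
  {M : Type} [TopologicalSpace M] {A : Atl n M}

/-! ### invertibility of `tD` -/

section Inv

variable (K : Lk A X)

/-- derivative of the change from the preferred coordinates at `g x` to the chart `i` -/
def tE (i : A.ι) (x : M) : Cn n →L[ℂ] Cn n :=
  fderiv ℂ (fun w => A.e i (K.g.symm ((chartAt (Cn n) (K.g x)).symm w)))
    (chartAt (Cn n) (K.g x) (K.g x))

variable [IsManifold 𝓘(ℂ, Cn n) ω X]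

/-- the domain of the change of coordinates from the preferred chart at `y` to the chart `i` -/
def Wd (y : X) (i : A.ι) : Set (Cn n) :=
  (chartAt (Cn n) y).target ∩ (chartAt (Cn n) y).symm ⁻¹' (K.g.symm ⁻¹' (A.e i).source)

theorem isOpen_Wd (y : X) (i : A.ι) : IsOpen (Wd K y i) :=
  (chartAt (Cn n) y).isOpen_inter_preimage_symm
    ((A.e i).open_source.preimage K.g.symm.continuous)

/-- the change of coordinates from the preferred chart at `y` to the chart `i` -/
def Fc (y : X) (i : A.ι) (w : Cn n) : Cn n := A.e i (K.g.symm ((chartAt (Cn n) y).symm w))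

theorem Fc_mem {y : X} {i : A.ι} {w : Cn n} (hw : w ∈ Wd K y i) : Fc K y i w ∈ (A.e i).target :=
  (A.e i).map_source hw.2

theorem Fc_symm {y : X} {i : A.ι} {w : Cn n} (hw : w ∈ Wd K y i) :
    (A.e i).symm (Fc K y i w) = K.g.symm ((chartAt (Cn n) y).symm w) := (A.e i).left_inv hw.2

theorem Fc_diff (y : X) (i : A.ι) : DifferentiableOn ℂ (Fc K y i) (Wd K y i) := by
  intro w hw
  apply DifferentiableAt.differentiableWithinAt
  have hs : (chartAt (Cn n) y).symm w ∈ (chartAt (Cn n) (K.y i)).source := by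
    have := K.src i _ hw.2
    rwa [K.g.apply_symm_apply] at this
  have h1 : Fc K y i =ᶠ[𝓝 w] fun v => K.qs i ((fun v => chartAt (Cn n) (K.y i)
      ((chartAt (Cn n) y).symm v)) v) := by
    filter_upwards [(isOpen_Wd K y i).mem_nhds hw] with v hv
    have := K.e_eq hv.2
    rw [K.g.apply_symm_apply] at this
    exact this
  refine DifferentiableAt.congr_of_eventuallyEq ?_ h1
  exact (K.differentiable_qs i).differentiableAt.comp w (diffAt_trans' hw.1 hs)

theorem tE_eq_fderiv (i : A.ι) (x : M) :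
    tE K i x = fderiv ℂ (Fc K (K.g x) i) (chartAt (Cn n) (K.g x) (K.g x)) := rfl

theorem mem_Wd {i : A.ι} {x : M} (hx : x ∈ (A.e i).source) {y : X}
    (hy : K.g x ∈ (chartAt (Cn n) y).source) : chartAt (Cn n) y (K.g x) ∈ Wd K y i := by
  refine ⟨(chartAt (Cn n) y).map_source hy, ?_⟩
  rw [mem_preimage, (chartAt (Cn n) y).left_inv hy, mem_preimage, K.g.symm_apply_apply]
  exact hx

/-- chain rule: coordinates `i` → preferred at `y` → coordinates `i` -/
theorem Fc_comp {i : A.ι} {x : M} (hx : x ∈ (A.e i).source) {y : X}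
    (hy : K.g x ∈ (chartAt (Cn n) y).source) :
    (fderiv ℂ (Fc K y i) (chartAt (Cn n) y (K.g x))).comp
      (fderiv ℂ (fun z => chartAt (Cn n) y (K.g ((A.e i).symm z))) (A.e i x)) =
      ContinuousLinearMap.id ℂ (Cn n) := by
  have h1 := (K.hasFDerivAt_chg hx hy)
  have h1' : HasFDerivAt (fun z => chartAt (Cn n) y (K.g ((A.e i).symm z)))
      (fderiv ℂ (fun z => chartAt (Cn n) y (K.g ((A.e i).symm z))) (A.e i x)) (A.e i x) := by
    rw [h1.fderiv]; exact h1
  have h2 : HasFDerivAt (Fc K y i) (fderiv ℂ (Fc K y i) (chartAt (Cn n) y (K.g x)))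
      (chartAt (Cn n) y (K.g ((A.e i).symm (A.e i x)))) := by
    rw [(A.e i).left_inv hx]
    exact ((Fc_diff K y i).differentiableAt ((isOpen_Wd K y i).mem_nhds
      (mem_Wd K hx hy))).hasFDerivAt
  have h3 := h2.comp (A.e i x) h1'
  have h4 : (Fc K y i ∘ fun z => chartAt (Cn n) y (K.g ((A.e i).symm z))) =ᶠ[𝓝 (A.e i x)] id := by
    have h5 : ∀ᶠ z in 𝓝 (A.e i x), K.g ((A.e i).symm z) ∈ (chartAt (Cn n) y).source := by
      have hc : ContinuousAt (fun z => K.g ((A.e i).symm z)) (A.e i x) :=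
        K.g.continuous.continuousAt.comp ((A.e i).continuousAt_symm ((A.e i).map_source hx))
      refine hc.eventually ((chartAt (Cn n) y).open_source.mem_nhds ?_)
      show K.g ((A.e i).symm (A.e i x)) ∈ _
      rw [(A.e i).left_inv hx]; exact hy
    filter_upwards [h5, (A.e i).open_target.mem_nhds ((A.e i).map_source hx)] with z hz hz'
    change A.e i (K.g.symm ((chartAt (Cn n) y).symm (chartAt (Cn n) y (K.g ((A.e i).symm z))))) = z
    rw [(chartAt (Cn n) y).left_inv hz, K.g.symm_apply_apply, (A.e i).right_inv hz']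
  exact h3.unique ((hasFDerivAt_id _).congr_of_eventuallyEq h4)

theorem comp_Fc {i : A.ι} {x : M} (hx : x ∈ (A.e i).source) {y : X}
    (hy : K.g x ∈ (chartAt (Cn n) y).source) :
    (fderiv ℂ (fun z => chartAt (Cn n) y (K.g ((A.e i).symm z))) (A.e i x)).comp
      (fderiv ℂ (Fc K y i) (chartAt (Cn n) y (K.g x))) =
      ContinuousLinearMap.id ℂ (Cn n) := by
  have h1 := Fc_comp K hx hy
  set S := fderiv ℂ (Fc K y i) (chartAt (Cn n) y (K.g x))
  set T := fderiv ℂ (fun z => chartAt (Cn n) y (K.g ((A.e i).symm z))) (A.e i x)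
  have h2 : (S : Cn n →ₗ[ℂ] Cn n) * (T : Cn n →ₗ[ℂ] Cn n) = 1 := by
    ext v
    have := congrArg (fun L : Cn n →L[ℂ] Cn n => L v) h1
    simpa using congrArg (fun u : Cn n => u _) this
  have h3 : (T : Cn n →ₗ[ℂ] Cn n) * (S : Cn n →ₗ[ℂ] Cn n) = 1 :=
    mul_eq_one_comm.1 h2
  ext1 v
  exact congrArg (fun L : Cn n →ₗ[ℂ] Cn n => L v) h3

theorem tE_tD {i : A.ι} {x : M} (hx : x ∈ (A.e i).source) :
    (tE K i x).comp (K.tD i x) = ContinuousLinearMap.id ℂ (Cn n) :=
  Fc_comp K hx (mem_chart_source (Cn n) (K.g x))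

theorem tD_tE {i : A.ι} {x : M} (hx : x ∈ (A.e i).source) :
    (K.tD i x).comp (tE K i x) = ContinuousLinearMap.id ℂ (Cn n) :=
  comp_Fc K hx (mem_chart_source (Cn n) (K.g x))

theorem tD_inj {i : A.ι} {x : M} (hx : x ∈ (A.e i).source) {v : Cn n} (h : K.tD i x v = 0) :
    v = 0 := by
  have := congrArg (fun L : Cn n →L[ℂ] Cn n => L v) (tE_tD K hx)
  simp only [ContinuousLinearMap.comp_apply, h, map_zero, ContinuousLinearMap.id_apply] at this
  exact this.symm

end Inv

/-! ### representatives -/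

section Rep

variable (K : Lk A X)

/-- the form `α` at `g x` in the coordinates of the chart `i` -/
def rp (α : Form n X k) (i : A.ι) (x : M) : (Cn n) [⋀^Fin k]→L[ℝ] ℂ := pb (K.tD i x) (α (K.g x))

variable [IsManifold 𝓘(ℂ, Cn n) ω X]

/-- scaling -/
abbrev rs (K : Lk A X) : Cn n →L[ℂ] Cn n := (K.ρ : ℂ) • ContinuousLinearMap.id ℂ (Cn n)

theorem rp_read' (α : Form n X k) (i : A.ι) {z : Cn n} (hz : z ∈ (A.e i).target) :
    rp K α i ((A.e i).symm z) = pb (rs K) (chartRep α (K.y i) (K.ps i z)) := by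
  ext v
  have hx := (A.e i).map_target hz
  have h1 : K.c i (K.g ((A.e i).symm z)) = K.ps i z := K.c_symm hz
  have h2 : (chartAt (Cn n) (K.y i)).symm (K.ps i z) = K.g ((A.e i).symm z) := (K.g_symm hz).symm
  rw [rp, pb_apply, pb_apply]
  unfold Crest.CxGeometry.chartRep
  rw [ContinuousAlternatingMap.compContinuousLinearMap_apply, h2]
  congr 1
  funext s
  rw [K.tD_transDeriv hx, h1]
  rfl

theorem rp_tr (α : Form n X k) {i j : A.ι} {x : M} (hx : x ∈ (A.e i).source ∩ (A.e j).source) :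
    rp K α i x = pb (fderiv ℂ (fun z => A.e j ((A.e i).symm z)) (A.e i x)) (rp K α j x) := by
  unfold rp
  rw [pb_comp, ← K.tD_tr hx]

theorem mx_tr (i j : A.ι) (x : M) :
    mx (fderiv ℂ (fun z => A.e j ((A.e i).symm z)) (A.e i x)) = Jm A i j x := rfl

/-- evaluation, complex linear in the form -/
def evC (v : Fin k → Cn n) : ((Cn n) [⋀^Fin k]→L[ℝ] ℂ) →L[ℂ] ℂ where
  toFun β := β v
  map_add' _ _ := rfl
  map_smul' _ _ := rfl
  cont := (ContinuousAlternatingMap.apply ℝ (Cn n) ℂ v).continuous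


theorem win_mem {S : Set X} {i : A.ι} (hi : ∀ x ∈ (A.e i).source, K.g x ∈ S) {z : Cn n}
    (hz : z ∈ (A.e i).target) : K.ps i z ∈ chartWindow (K.y i) S := by
  refine ⟨K.ps_mem hz, ?_⟩
  rw [mem_preimage]
  have h2 : (chartAt (Cn n) (K.y i)).symm (K.ps i z) = K.g ((A.e i).symm z) := (K.g_symm hz).symm
  rw [h2]
  exact hi _ ((A.e i).map_target hz)

theorem rp_smooth {α : Form n X k} {S : Set X} (hα : Crest.CxGeometry.IsSmoothOn α S) {i : A.ι}
    (hi : ∀ x ∈ (A.e i).source, K.g x ∈ S) (v : Fin k → Cn n) :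
    A.SmAt i (fun x => rp K α i x v) := by
  have h1 : ContDiffOn ℝ ∞ (fun z => evC (fun s => rs K (v s)) (chartRep α (K.y i) (K.ps i z)))
      (A.e i).target :=
    (((evC (fun s => rs K (v s))).restrictScalars ℝ).contDiff).comp_contDiffOn
      ((hα (K.y i)).comp (K.contDiff_ps i).contDiffOn fun z hz => win_mem K hi hz)
  refine ContDiffOn.congr h1 fun z hz => ?_
  show rp K α i ((A.e i).symm z) v = _
  rw [rp_read' K α i hz]
  rfl

theorem rp_hol {α : Form n X k} {S : Set X} (hα : Crest.CxGeometry.IsHolomorphicOn α S) {i : A.ι}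
    (hi : ∀ x ∈ (A.e i).source, K.g x ∈ S) (v : Fin k → Cn n) :
    HolAt A i univ (fun x => rp K α i x v) := by
  have h1 : DifferentiableOn ℂ (fun z => evC (fun s => rs K (v s))
      (chartRep α (K.y i) (K.ps i z))) (A.e i).target :=
    ((evC (fun s => rs K (v s))).differentiable).comp_differentiableOn
      ((hα.2 (K.y i)).comp (K.differentiable_ps i).differentiableOn fun z hz => win_mem K hi hz)
  refine (DifferentiableOn.congr h1 fun z hz => ?_).mono inter_subset_left
  show rp K α i ((A.e i).symm z) v = _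
  rw [rp_read' K α i hz]
  rfl

/-- closed forms are closed in the charts of `A` -/
theorem rp_closed {α : Form n X k} {S : Set X} (hα : Crest.CxGeometry.IsSmoothOn α S)
    (hc : Crest.CxGeometry.IsClosedOn α S) (hS : IsOpen S) {i : A.ι}
    (hi : ∀ x ∈ (A.e i).source, K.g x ∈ S) {z : Cn n} (hz : z ∈ (A.e i).target) :
    DifferentiableAt ℝ (fun w => rp K α i ((A.e i).symm w)) z ∧
      extDeriv (fun w => rp K α i ((A.e i).symm w)) z = 0 := by
  have h1 : (fun w => rp K α i ((A.e i).symm w)) =ᶠ[𝓝 z]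
      fun w => (chartRep α (K.y i) (K.ps i w)).compContinuousLinearMap
        (fderiv ℝ (K.ps i) w) := by
    filter_upwards [(A.e i).open_target.mem_nhds hz] with w hw
    rw [rp_read' K α i hw, ((K.hasFDerivAt_ps i w).restrictScalars ℝ).fderiv]
    rfl
  have ho : IsOpen (chartWindow (K.y i) S) :=
    (chartAt (Cn n) (K.y i)).isOpen_inter_preimage_symm hS
  have hd : DifferentiableAt ℝ (chartRep α (K.y i)) (K.ps i z) :=
    ((hα (K.y i)).contDiffAt (ho.mem_nhds (win_mem K hi hz))).differentiableAt (by simp)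
  constructor
  · have h2 : DifferentiableAt ℝ (fun w => ContinuousAlternatingMap.compContinuousLinearMapCLM
        ((rs K).restrictScalars ℝ) (chartRep α (K.y i) (K.ps i w))) z :=
      (ContinuousLinearMap.differentiableAt _).comp z
        (hd.comp z ((K.contDiff_ps i).differentiable (by simp)).differentiableAt)
    refine h2.congr_of_eventuallyEq ?_
    filter_upwards [(A.e i).open_target.mem_nhds hz] with w hw
    rw [rp_read' K α i hw]
    rfl
  · rw [h1.extDeriv_eq, extDeriv_pullback hd (r := ∞) (K.contDiff_ps i).contDiffAt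
      (by rw [minSmoothness_of_isRCLikeNormedField]; exact WithTop.coe_le_coe.2 le_top),
      hc _ _ (win_mem K hi hz)]
    rfl

end Rep

end

end Crest.Agent.R281.DicC_273
end

-- ▼ part R281/DicD_273

/-!
# R281 (S0424), HK-DIC part D (helper273): the Kaehler metric and the symplectic form

* `closed_wd`, `closed_wd'` : closedness of a `(1,1)`-form in Wirtinger derivatives;
* `kahOf K hα : Kah A`      : the Kaehler metric of a frozen Kaehler form, matrix `mat11 (rp K α i x)`;
* `hsympOf K hσ : HSymp A`  : matrix `mat20 (rp K σ i x)`;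
* `dzz`, `T20.eq_sum`       : a `(2,0)`-form is `1/2 ∑ M_ab dz_a ∧ dz_b`;
* `backF K τ : Form n X 2`  : the frozen holomorphic 2-form of `τ : H2 A`; `uniq_of`.
-/

set_option autoImplicit false
set_option linter.unusedSectionVars false

open Set Filter Topology Complex
open scoped ContDiff Matrix ComplexConjugate Manifold ComplexOrder

namespace Crest.Agent.R281.DicD_273

open Crest.Agent.R275.Geo Crest.Agent.R275.Core144 Crest.Agent.R275.EDR890
open Crest.Agent.R273.Defs_333 Crest.Agent.R273.Kah_333 Crest.Agent.R273.HessB_333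
open Crest.Agent.R281.DicA_273 Crest.Agent.R281.Defs_273 Crest.Agent.R281.DicB_273
open Crest.Agent.R281.DicC_273
open Crest.CxGeometry (Form chartRep transDeriv chartWindow)

noncomputable section

universe u

section Closed

variable {n : ℕ} {R : Cn n → (Cn n) [⋀^Fin 2]→L[ℝ] ℂ} {z : Cn n}

theorem three (hd : DifferentiableAt ℝ R z) (hc : extDeriv R z = 0) (p q r : Cn n) :
    fderiv ℝ (fun w => R w ![q, r]) z p - fderiv ℝ (fun w => R w ![p, r]) z q +
      fderiv ℝ (fun w => R w ![p, q]) z r = 0 := by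
  have h1 : extDeriv R z ![p, q, r] = 0 := by rw [hc]; rfl
  rw [extDeriv_apply hd, Fin.sum_univ_three] at h1
  have e0 : (0 : Fin 3).removeNth (![p, q, r] : Fin 3 → Cn n) = ![q, r] := by
    funext s; fin_cases s <;> rfl
  have e1 : (1 : Fin 3).removeNth (![p, q, r] : Fin 3 → Cn n) = ![p, r] := by
    funext s; fin_cases s <;> rfl
  have e2 : (2 : Fin 3).removeNth (![p, q, r] : Fin 3 → Cn n) = ![p, q] := by
    funext s; fin_cases s <;> rfl
  have h2 : (-1 : ℤ) ^ 0 • fderiv ℝ (fun w => R w ![q, r]) z p +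
      (-1 : ℤ) ^ 1 • fderiv ℝ (fun w => R w ![p, r]) z q +
      (-1 : ℤ) ^ 2 • fderiv ℝ (fun w => R w ![p, q]) z r = 0 := by
    rw [← e0, ← e1, ← e2]
    exact h1
  simpa [sub_eq_add_neg] using h2

theorem dev (hd : DifferentiableAt ℝ R z) (v : Fin 2 → Cn n) :
    DifferentiableAt ℝ (fun w => R w v) z :=
  ((ContinuousAlternatingMap.apply ℝ (Cn n) ℂ v).differentiableAt).comp z hd

/-- derivative of the matrix -/
theorem fderiv_mat11 (hd : DifferentiableAt ℝ R z) (a b : Fin n) (v : Cn n) :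
    fderiv ℝ (fun w => mat11 (R w) a b) z v = (Real.pi : ℂ) *
      (fderiv ℝ (fun w => R w ![bs a, I • bs b]) z v - I * fderiv ℝ (fun w => R w ![bs a, bs b]) z v) := by
  have h1 := (dev hd ![bs a, I • bs b]).hasFDerivAt
  have h2 := (dev hd ![bs a, bs b]).hasFDerivAt
  have h3 := (h1.sub (h2.const_smul I)).const_smul (Real.pi : ℂ)
  have h4 : HasFDerivAt (fun w => mat11 (R w) a b) _ z := h3
  rw [h4.fderiv]
  simp [smul_eq_mul]

theorem single_I (a : Fin n) : (EuclideanSpace.single a I : Cn n) = I • bs a := by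
  ext c
  by_cases h : c = a <;> simp [h, bs]

theorem closed_wd (hd : DifferentiableAt ℝ R z) (hc : extDeriv R z = 0)
    (h11 : ∀ w, T11 (R w)) (a b c : Fin n) :
    wd (false, c) (fun w => mat11 (R w) a b) z = wd (false, a) (fun w => mat11 (R w) c b) z := by
  unfold wd wdL
  rw [fderiv_mat11 hd, fderiv_mat11 hd, fderiv_mat11 hd, fderiv_mat11 hd]
  simp only [single_I, cI_false, smul_eq_mul]
  change (1 / 2 : ℂ) * ((Real.pi : ℂ) * (fderiv ℝ (fun w => R w ![bs a, I • bs b]) z (bs c) -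
      I * fderiv ℝ (fun w => R w ![bs a, bs b]) z (bs c)) + -I * ((Real.pi : ℂ) *
      (fderiv ℝ (fun w => R w ![bs a, I • bs b]) z (I • bs c) -
      I * fderiv ℝ (fun w => R w ![bs a, bs b]) z (I • bs c)))) =
    (1 / 2 : ℂ) * ((Real.pi : ℂ) * (fderiv ℝ (fun w => R w ![bs c, I • bs b]) z (bs a) -
      I * fderiv ℝ (fun w => R w ![bs c, bs b]) z (bs a)) + -I * ((Real.pi : ℂ) *
      (fderiv ℝ (fun w => R w ![bs c, I • bs b]) z (I • bs a) -
      I * fderiv ℝ (fun w => R w ![bs c, bs b]) z (I • bs a))))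
  set A0 : Cn n := bs a
  set B0 : Cn n := bs b
  set C0 : Cn n := bs c
  -- identities between functions
  have hJ : ∀ p q r : Cn n, fderiv ℝ (fun w => R w ![I • p, I • q]) z r =
      fderiv ℝ (fun w => R w ![p, q]) z r := fun p q r => by
    have : (fun w => R w ![I • p, I • q]) = fun w => R w ![p, q] := funext fun w => h11 w p q
    rw [this]
  have hJ1 : ∀ p q r : Cn n, fderiv ℝ (fun w => R w ![I • p, q]) z r =
      - fderiv ℝ (fun w => R w ![p, I • q]) z r := fun p q r => by
    have : (fun w => R w ![I • p, q]) = fun w => - R w ![p, I • q] :=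
      funext fun w => (h11 w).J_left p q
    rw [this, fderiv_fun_neg]
    rfl
  have c1 := three hd hc C0 A0 B0
  have c2 := three hd hc C0 A0 (I • B0)
  have c7 := three hd hc (I • C0) (I • A0) B0
  have c8 := three hd hc (I • C0) (I • A0) (I • B0)
  simp only [hJ, hJ1] at c1 c2 c7 c8
  linear_combination ((Real.pi : ℂ) / 2) * (c2 - c8 - I * (c1 - c7)) + ((Real.pi : ℂ) / 2) *
    (fderiv ℝ (fun w => R w ![A0, B0]) z (I • C0) -
      fderiv ℝ (fun w => R w ![C0, B0]) z (I • A0)) * I_sq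

theorem closed_wd' (hd : DifferentiableAt ℝ R z) (hc : extDeriv R z = 0)
    (h11 : ∀ w, T11 (R w)) (a b c : Fin n) :
    wd (true, c) (fun w => mat11 (R w) a b) z = wd (true, b) (fun w => mat11 (R w) a c) z := by
  unfold wd wdL
  rw [fderiv_mat11 hd, fderiv_mat11 hd, fderiv_mat11 hd, fderiv_mat11 hd]
  simp only [single_I, cI_true, smul_eq_mul]
  change (1 / 2 : ℂ) * ((Real.pi : ℂ) * (fderiv ℝ (fun w => R w ![bs a, I • bs b]) z (bs c) -
      I * fderiv ℝ (fun w => R w ![bs a, bs b]) z (bs c)) + I * ((Real.pi : ℂ) *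
      (fderiv ℝ (fun w => R w ![bs a, I • bs b]) z (I • bs c) -
      I * fderiv ℝ (fun w => R w ![bs a, bs b]) z (I • bs c)))) =
    (1 / 2 : ℂ) * ((Real.pi : ℂ) * (fderiv ℝ (fun w => R w ![bs a, I • bs c]) z (bs b) -
      I * fderiv ℝ (fun w => R w ![bs a, bs c]) z (bs b)) + I * ((Real.pi : ℂ) *
      (fderiv ℝ (fun w => R w ![bs a, I • bs c]) z (I • bs b) -
      I * fderiv ℝ (fun w => R w ![bs a, bs c]) z (I • bs b))))
  set A0 : Cn n := bs a
  set B0 : Cn n := bs b
  set C0 : Cn n := bs c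
  have hJ : ∀ p q r : Cn n, fderiv ℝ (fun w => R w ![I • p, I • q]) z r =
      fderiv ℝ (fun w => R w ![p, q]) z r := fun p q r => by
    have : (fun w => R w ![I • p, I • q]) = fun w => R w ![p, q] := funext fun w => h11 w p q
    rw [this]
  have hJ1 : ∀ p q r : Cn n, fderiv ℝ (fun w => R w ![I • p, q]) z r =
      - fderiv ℝ (fun w => R w ![p, I • q]) z r := fun p q r => by
    have : (fun w => R w ![I • p, q]) = fun w => - R w ![p, I • q] :=
      funext fun w => (h11 w).J_left p q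
    rw [this, fderiv_fun_neg]
    rfl
  have hS : ∀ p q r : Cn n, fderiv ℝ (fun w => R w ![q, p]) z r =
      - fderiv ℝ (fun w => R w ![p, q]) z r := fun p q r => by
    have : (fun w => R w ![q, p]) = fun w => - R w ![p, q] := funext fun w => f2_swap _ p q
    rw [this, fderiv_fun_neg]
    rfl
  have c1 := three hd hc C0 A0 B0
  have c2 := three hd hc C0 A0 (I • B0)
  have c5 := three hd hc (I • C0) A0 B0
  have c6 := three hd hc (I • C0) A0 (I • B0)
  have s1 : fderiv ℝ (fun w => R w ![A0, I • C0]) z B0 =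
      fderiv ℝ (fun w => R w ![C0, I • A0]) z B0 := by
    rw [hS (I • C0) A0, hJ1, neg_neg]
  have s2 := hS C0 A0 B0
  have s3 : fderiv ℝ (fun w => R w ![A0, I • C0]) z (I • B0) =
      fderiv ℝ (fun w => R w ![C0, I • A0]) z (I • B0) := by
    rw [hS (I • C0) A0, hJ1, neg_neg]
  have s4 := hS C0 A0 (I • B0)
  rw [s1, s2, s3, s4]
  simp only [hJ, hJ1] at c1 c2 c5 c6
  linear_combination ((Real.pi : ℂ) / 2) * (c2 + c5 - I * c1 + I * c6) - ((Real.pi : ℂ) / 2) *
    (fderiv ℝ (fun w => R w ![A0, B0]) z (I • C0) +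
      fderiv ℝ (fun w => R w ![C0, A0]) z (I • B0)) * I_sq

end Closed

variable {n k : ℕ} {X : Type u} [TopologicalSpace X] [ChartedSpace (Cn n) X]
  [IsManifold 𝓘(ℂ, Cn n) ω X] {M : Type} [TopologicalSpace M] {A : Atl n M} (K : Lk A X)

/-! ### the Kaehler metric -/

theorem t11_rp {α : Form n X 2} (h : Crest.CxGeometry.IsType11 α) (i : A.ι) (x : M) :
    T11 (rp K α i x) := T11.pb (fun v w => h (K.g x) v w) _

theorem real_rp {α : Form n X k} (h : Crest.CxGeometry.IsReal α) (i : A.ι) (x : M) :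
    RealF (rp K α i x) := fun _ => h (K.g x) _

theorem mat11_rp_tr {α : Form n X 2} (h : Crest.CxGeometry.IsType11 α) {i j : A.ι} {x : M}
    (hx : x ∈ (A.e i).source ∩ (A.e j).source) : mat11 (rp K α i x) =
      (Jm A i j x)ᵀ * mat11 (rp K α j x) * (Jm A i j x).map conj := by
  rw [rp_tr K α hx, (t11_rp K h j x).mat11_pb, mx_tr]

theorem mat11_rp_smooth {α : Form n X 2} {S : Set X} (hα : Crest.CxGeometry.IsSmoothOn α S)
    {i : A.ι} (hi : ∀ x ∈ (A.e i).source, K.g x ∈ S) (a b : Fin n) :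
    A.SmAt i (fun x => mat11 (rp K α i x) a b) := by
  have h1 : ContDiffOn ℝ ∞ (fun z => (rp K α i ((A.e i).symm z)) ![bs a, I • bs b])
    (A.e i).target := rp_smooth K hα hi _
  have h2 : ContDiffOn ℝ ∞ (fun z => (rp K α i ((A.e i).symm z)) ![bs a, bs b])
    (A.e i).target := rp_smooth K hα hi _
  have h3 : ContDiffOn ℝ ∞ (fun z => (Real.pi : ℂ) * ((rp K α i ((A.e i).symm z))
      ![bs a, I • bs b] - I * (rp K α i ((A.e i).symm z)) ![bs a, bs b])) (A.e i).target :=
    contDiffOn_const.mul (h1.sub (contDiffOn_const.mul h2))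
  exact h3

theorem mat11_rp_pos {α : Form n X 2} (h : Crest.CxGeometry.IsType11 α)
    (hr : Crest.CxGeometry.IsReal α) (hp : Crest.CxGeometry.IsPositive α) {i : A.ι} {x : M}
    (hx : x ∈ (A.e i).source) : (mat11 (rp K α i x)).PosDef := by
  refine mat11_posDef (t11_rp K h i x) (real_rp K hr i x) fun v hv => ?_
  have h1 : rp K α i x ![v, I • v] = α (K.g x) ![K.tD i x v, I • K.tD i x v] := by
    rw [rp, pb_apply2, map_smul]
  rw [h1]
  exact hp (K.g x) _ fun h0 => hv (tD_inj K hx h0)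

/-- **the Kaehler metric of a frozen Kaehler form** -/
def kahOf {α : Form n X 2} (hα : Crest.CxGeometry.IsKaehlerForm α) : Kah A where
  g i x := mat11 (rp K α i x)
  sm i a b := mat11_rp_smooth K hα.1.1 (fun _ _ => mem_univ _) a b
  pos i x hx := mat11_rp_pos K hα.1.2.2.1 hα.1.2.1 hα.1.2.2.2 hx
  tr i j x hx := mat11_rp_tr K hα.1.2.2.1 hx
  closed i z hz a b c := by
    obtain ⟨hd, hc⟩ := rp_closed K hα.1.1 hα.2 isOpen_univ (i := i) (fun _ _ => mem_univ _) hz
    exact closed_wd hd hc (fun w => t11_rp K hα.1.2.2.1 i _) a b c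
  closed' i z hz a b c := by
    obtain ⟨hd, hc⟩ := rp_closed K hα.1.1 hα.2 isOpen_univ (i := i) (fun _ _ => mem_univ _) hz
    exact closed_wd' hd hc (fun w => t11_rp K hα.1.2.2.1 i _) a b c

/-! ### holomorphic 2-forms -/

theorem t20_of {α : Form n X 2} {S : Set X} (h : Crest.CxGeometry.IsTypeK0On α S) {y : X}
    (hy : y ∈ S) : T20 (α y) := by
  intro c v w
  have := h y hy ![v, w] 0 c
  rw [upd0] at this
  exact this

theorem t20_rp {α : Form n X 2} (h : Crest.CxGeometry.IsTypeK0On α univ) (i : A.ι) (x : M) :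
    T20 (rp K α i x) := T20.pb (t20_of h (mem_univ _)) _

/-- the holomorphic 2-form of a frozen one -/
def h2Of {α : Form n X 2} (hα : Crest.CxGeometry.IsHolomorphicOn α univ) : H2 A where
  s i x := mat20 (rp K α i x)
  hol i a b := rp_hol K hα (fun _ _ => mem_univ _) _
  alt i x _ := mat20_alt _
  tr i j x hx := by rw [rp_tr K α hx, (t20_rp K hα.1 j x).mat20_pb, mx_tr]

/-- **the holomorphic symplectic form** -/
def hsympOf {α : Form n X 2} (hα : Crest.CxGeometry.IsHolSymplectic α) : HSymp A where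
  toH2 := h2Of K hα.1
  nd i x hx := by
    intro h0
    obtain ⟨v, hv, hv0⟩ := Matrix.exists_mulVec_eq_zero_iff.2 h0
    set u : Cn n := WithLp.toLp 2 v with hu
    have hu0 : u ≠ 0 := by
      intro h1
      apply hv
      funext a
      exact congrArg (fun w : Cn n => w a) h1
    have h20 := t20_rp K hα.1.1 i x
    have h2 : ∀ w : Cn n, rp K α i x ![w, u] = 0 := by
      intro w
      rw [h20.eq]
      refine Finset.sum_eq_zero fun a _ => ?_
      have h3 : ∑ b, mat20 (rp K α i x) a b * v b = 0 := congrFun hv0 a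
      calc ∑ b, mat20 (rp K α i x) a b * w a * u b
          = w a * ∑ b, mat20 (rp K α i x) a b * v b := by
            rw [Finset.mul_sum]
            refine Finset.sum_congr rfl fun b _ => ?_
            change mat20 (rp K α i x) a b * w a * v b = _
            ring
        _ = 0 := by rw [h3, mul_zero]
    obtain ⟨w, hw⟩ := hα.2 (K.g x) (K.tD i x u) fun h1 => hu0 (tD_inj K hx h1)
    apply hw
    have h4 := h2 (tE K i x w)
    have h5 : K.tD i x (tE K i x w) = w :=
      congrArg (fun L : Cn n →L[ℂ] Cn n => L w) (tD_tE K hx)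
    rw [rp, pb_apply2, h5] at h4
    rw [f2_swap, h4, neg_zero]

end

end Crest.Agent.R281.DicD_273
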