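import Crest.Agent.R281.DicJ_273
import Crest.Agent.R281.DicD_273
import Crest.Prelude.Def_CXLineBundle
import Crest.Prelude.Def_CXIntegral
import Crest.Agent.R281.DicA_273
import Crest.Agent.R273.Vm_333
import Crest.Agent.R273.StokesV_332

-- ▼ part R281/DicK_273
section

/-!
# R281 (S0424), HK-DIC part K (helper273): `F(σ^n σ̄^n) = c |det S|`

* `wronsk`   : `F(E S)² / det S` is constant for an affine family with infinitesimal action
* `D_sq`     : `D(S,S')² = K det S det S'`
* `stdS`     : standard symplectic matrix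
* `F_det`    : `D(S, conj S) = D(S₀,S₀) ‖det S‖`, `D(S₀,S₀) ≠ 0`
-/

set_option autoImplicit false
set_option linter.unusedSectionVars false

open Matrix Finset
open scoped ComplexConjugate

namespace Crest.Agent.R281.DicK_273

open Crest.Agent.R281.DicI_273 Crest.Agent.R281.DicJ_273

noncomputable section

variable {N : ℕ}

/-! ### complex lines of matrices -/

theorem hasDerivAt_det_line {S T : Sq N} {z : ℂ} (hd : IsUnit (S + z • T).det) :
    HasDerivAt (fun w : ℂ => (S + w • T).det)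
      ((S + z • T).det * ((S + z • T)⁻¹ * T).trace) z := by
  set R := (S + z • T)⁻¹ * T with hR
  have h1 : (fun w : ℂ => (S + w • T).det) = fun w => (S + z • T).det * (1 + (w - z) • R).det := by
    funext w
    rw [← Matrix.det_mul]
    congr 1
    rw [Matrix.mul_add, Matrix.mul_one, Matrix.mul_smul, hR, ← Matrix.mul_assoc,
      mul_nonsing_inv _ hd, Matrix.one_mul]
    module
  rw [h1]
  have h2 : HasDerivAt (fun w : ℂ => w - z) 1 z := (hasDerivAt_id z).sub_const z
  have h3 : HasDerivAt (fun x : ℂ => (1 + x • R).det) R.trace (z - z) := by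
    rw [sub_self]; exact hasDerivAt_det R
  have h4 := HasDerivAt.comp (h := fun w : ℂ => w - z) z h3 h2
  rw [mul_one] at h4
  exact h4.const_mul _

theorem det_line_poly (S T : Sq N) : ∃ P : Polynomial ℂ, ∀ z, P.eval z = (S + z • T).det := by
  refine ⟨(S.map Polynomial.C + (Polynomial.X : Polynomial ℂ) • T.map Polynomial.C).det,
    fun z => ?_⟩
  have h1 := RingHom.map_det (Polynomial.evalRingHom z)
    (S.map Polynomial.C + (Polynomial.X : Polynomial ℂ) • T.map Polynomial.C)
  rw [Polynomial.coe_evalRingHom] at h1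
  rw [h1]
  congr 1
  ext a b
  simp
  ring

/-- the complement of the zeros of `det` on a complex line is connected -/
theorem omega_conn (S T : Sq N) (h0 : S.det ≠ 0) :
    IsOpen {z : ℂ | (S + z • T).det ≠ 0} ∧ IsPreconnected {z : ℂ | (S + z • T).det ≠ 0} := by
  obtain ⟨P, hP⟩ := det_line_poly S T
  have hP0 : P ≠ 0 := by
    rintro rfl
    have := hP 0
    rw [Polynomial.eval_zero, zero_smul, add_zero] at this
    exact h0 this.symm
  have hfin : {z : ℂ | P.IsRoot z}.Finite := Polynomial.finite_setOfPred_isRoot hP0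
  have he : {z : ℂ | (S + z • T).det ≠ 0} = {z : ℂ | P.IsRoot z}ᶜ := by
    ext z
    simp only [Set.mem_ofPred_eq, Set.mem_compl_iff, Polynomial.IsRoot.def, hP]
  rw [he]
  refine ⟨hfin.isClosed.isOpen_compl, ?_⟩
  refine (hfin.countable.isConnected_compl_of_one_lt_rank ?_).isPreconnected
  rw [Complex.rank_real_complex]
  norm_num

/-- an affine family of tuples with the infinitesimal action -/
theorem wronsk (E E' : Sq N → Fin N → Mt (Fin N)) (Af : Sq N → Mt (Fin N))
    (hE : ∀ S T (w : ℂ) k, E (S + w • T) k = E S k + w • E' T k)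
    (hAf : ∀ X, (Af X).trace = X.trace)
    (hact : ∀ S T : Sq N, Sᵀ = -S → Tᵀ = -T → IsUnit S.det → ∀ k,
      act (Af ((1 / 2 : ℂ) • (S⁻¹ * T))) (E S k) = E' T k)
    {S₀ S₁ : Sq N} (h0 : S₀ᵀ = -S₀) (h1 : S₁ᵀ = -S₁) (hd0 : S₀.det ≠ 0) (hd1 : S₁.det ≠ 0) :
    F (E S₁) ^ 2 * S₀.det = F (E S₀) ^ 2 * S₁.det := by
  set T := S₁ - S₀ with hT
  have hTt : Tᵀ = -T := by rw [hT, transpose_sub, h0, h1]; abel
  have hSt : ∀ z : ℂ, (S₀ + z • T)ᵀ = -(S₀ + z • T) := by
    intro z
    rw [transpose_add, transpose_smul, h0, hTt]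
    module
  obtain ⟨hop, hcon⟩ := omega_conn S₀ T hd0
  set Ω : Set ℂ := {z : ℂ | (S₀ + z • T).det ≠ 0} with hΩ
  have hderF : ∀ z ∈ Ω, HasDerivAt (fun w => F (E (S₀ + w • T)))
      ((1 / 2 : ℂ) * ((S₀ + z • T)⁻¹ * T).trace * F (E (S₀ + z • T))) z := by
    intro z hz
    have h2 : HasDerivAt (fun w => F (E (S₀ + w • T)))
        (∑ k, F (Function.update (E (S₀ + z • T)) k (E' T k))) z := by
      refine hasDerivAt_F fun k p q => ?_
      have h3 : (fun w : ℂ => E (S₀ + w • T) k p q) = fun w => E S₀ k p q + w * E' T k p q := by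
        funext w
        rw [hE]
        simp
      rw [h3]
      simpa using ((hasDerivAt_id z).mul_const (E' T k p q)).const_add (E S₀ k p q)
    refine h2.congr_deriv ?_
    have h4 := inf_inv' (E (S₀ + z • T)) (Af ((1 / 2 : ℂ) • ((S₀ + z • T)⁻¹ * T)))
    rw [hAf, trace_smul, smul_eq_mul] at h4
    rw [← h4]
    refine sum_congr rfl fun k _ => ?_
    rw [hact _ _ (hSt z) hTt (isUnit_iff_ne_zero.2 hz)]
  have hderQ : ∀ z ∈ Ω, HasDerivAt (fun w => F (E (S₀ + w • T)) ^ 2 / (S₀ + w • T).det) 0 z := by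
    intro z hz
    have h2 := (hderF z hz).fun_pow 2
    have h3 := h2.fun_div (hasDerivAt_det_line (isUnit_iff_ne_zero.2 hz)) hz
    refine h3.congr_deriv ?_
    have hz' : (S₀ + z • T).det ≠ 0 := hz
    rw [div_eq_zero_iff]
    left
    push_cast
    ring
  have hconst := hop.is_const_of_deriv_eq_zero hcon
    (f := fun w => F (E (S₀ + w • T)) ^ 2 / (S₀ + w • T).det)
    (fun z hz => (hderQ z hz).differentiableAt.differentiableWithinAt)
    (fun z hz => (hderQ z hz).deriv) (x := 1) (y := 0)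
    (by show (S₀ + (1 : ℂ) • T).det ≠ 0
        rw [one_smul, hT, add_sub_cancel]; exact hd1)
    (by show (S₀ + (0 : ℂ) • T).det ≠ 0
        rw [zero_smul, add_zero]; exact hd0)
  simp only [one_smul, zero_smul, add_zero] at hconst
  rw [hT, add_sub_cancel, div_eq_div_iff hd1 hd0] at hconst
  exact hconst

/-- the density of `σ^n ∧ σ'^n` -/
def D (n : ℕ) (S S' : Sq N) : ℂ := F (fl n n (sg S) (sb S') 0)

theorem fl_full {n : ℕ} (hN : N = 2 * n) (X Y Z Z' : Mt (Fin N)) :
    fl n n X Y Z = fl n n X Y Z' := by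
  funext k
  unfold fl
  have := k.isLt
  by_cases h : k.val < n
  · rw [if_pos h, if_pos h]
  · rw [if_neg h, if_neg h, if_pos (by omega), if_pos (by omega)]

theorem sg_line (S T : Sq N) (w : ℂ) : sg (S + w • T) = sg S + w • sg T := by
  unfold sg
  rw [blk_smul, blk_add]
  simp

theorem sb_line (S T : Sq N) (w : ℂ) : sb (S + w • T) = sb S + w • sb T := by
  unfold sb
  rw [blk_smul, blk_add]
  simp

theorem D_first {n : ℕ} (S' : Sq N) {S₀ S₁ : Sq N} (h0 : S₀ᵀ = -S₀) (h1 : S₁ᵀ = -S₁)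
    (hd0 : S₀.det ≠ 0) (hd1 : S₁.det ≠ 0) :
    D n S₁ S' ^ 2 * S₀.det = D n S₀ S' ^ 2 * S₁.det := by
  refine wronsk (fun S => fl n n (sg S) (sb S') 0) (fun T => fl n n (sg T) 0 0)
    (fun X => blk X 0 0 0) ?_ ?_ ?_ h0 h1 hd0 hd1
  · intro S T w k
    unfold fl
    split_ifs
    · exact sg_line S T w
    · simp
    · simp
  · intro X
    rw [blk_trace, trace_zero, add_zero]
  · intro S T hS hT hd k
    unfold fl
    split_ifs
    · rw [act_c_sg, half_act hS hT hd]
    · exact act_c_sb _ _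
    · exact act_zero _

theorem D_second {n : ℕ} (S : Sq N) {S₀ S₁ : Sq N} (h0 : S₀ᵀ = -S₀) (h1 : S₁ᵀ = -S₁)
    (hd0 : S₀.det ≠ 0) (hd1 : S₁.det ≠ 0) :
    D n S S₁ ^ 2 * S₀.det = D n S S₀ ^ 2 * S₁.det := by
  refine wronsk (fun S' => fl n n (sg S) (sb S') 0) (fun T => fl n n 0 (sb T) 0)
    (fun X => blk 0 0 0 X) ?_ ?_ ?_ h0 h1 hd0 hd1
  · intro S' T w k
    unfold fl
    split_ifs
    · simp
    · exact sb_line S' T w
    · simp
  · intro X
    rw [blk_trace, trace_zero, zero_add]
  · intro S' T hS hT hd k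
    unfold fl
    split_ifs
    · exact act_d_sg _ _
    · rw [act_d_sb, half_act hS hT hd]
    · exact act_zero _

theorem D_sq {n : ℕ} {S₀ S S' : Sq N} (h0 : S₀ᵀ = -S₀) (hd0 : S₀.det ^ 2 = 1)
    (hS : Sᵀ = -S) (hS' : S'ᵀ = -S') (hd : S.det ≠ 0) (hd' : S'.det ≠ 0) :
    D n S S' ^ 2 = D n S₀ S₀ ^ 2 * (S.det * S'.det) := by
  have hne : S₀.det ≠ 0 := by
    intro h
    rw [h] at hd0
    norm_num at hd0
  have h1 := D_first (n := n) S' h0 hS hne hd
  have h2 := D_second (n := n) S₀ h0 hS' hne hd'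
  linear_combination S₀.det * h1 + S.det * h2 - D n S S' ^ 2 * hd0

/-! ### the standard symplectic matrix -/

/-- the standard symplectic matrix -/
def stdS (n : ℕ) : Sq (2 * n) :=
  (Matrix.J (Fin n) ℂ).submatrix (finSumFinEquiv.trans (finCongr (two_mul n).symm)).symm
    (finSumFinEquiv.trans (finCongr (two_mul n).symm)).symm

theorem stdS_alt (n : ℕ) : (stdS n)ᵀ = - stdS n := by
  unfold stdS
  rw [transpose_submatrix, Matrix.J_transpose]
  rfl

theorem stdS_sq (n : ℕ) : stdS n * stdS n = -1 := by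
  unfold stdS
  rw [submatrix_mul_equiv, Matrix.J_squared]
  rw [submatrix_neg, Pi.neg_apply, Pi.neg_apply, submatrix_one_equiv]

theorem stdS_conj (n : ℕ) : (stdS n).map conj = stdS n := by
  ext a b
  unfold stdS Matrix.J
  simp only [submatrix_apply, map_apply]
  set s := (finSumFinEquiv.trans (finCongr (two_mul n).symm)).symm a
  set t := (finSumFinEquiv.trans (finCongr (two_mul n).symm)).symm b
  rcases s with s | s <;> rcases t with t | t
  · simp
  · rw [fromBlocks_apply₁₂, Matrix.neg_apply, Matrix.one_apply]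
    split_ifs <;> simp
  · simp only [fromBlocks_apply₂₁, Matrix.one_apply]
    split_ifs <;> simp
  · simp

theorem stdS_det (n : ℕ) : (stdS n).det ^ 2 = 1 := by
  rw [pow_two, ← det_mul, stdS_sq, det_neg, det_one, Fintype.card_fin, mul_one, pow_mul]
  norm_num

theorem stdS_norm (n : ℕ) : ‖(stdS n).det‖ = 1 := by
  have h := congrArg norm (stdS_det n)
  rw [norm_pow, norm_one] at h
  have h2 := norm_nonneg (stdS n).det
  nlinarith

/-- the constant -/
def cD (n : ℕ) : ℂ := D n (stdS n) (stdS n)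

theorem cD_ne (n : ℕ) : cD n ≠ 0 := by
  unfold cD D
  rw [fl_full rfl _ _ 0 (al 1)]
  exact F_std_ne rfl (stdS_alt n) (stdS_sq n)

theorem continuous_F {Y : Type*} [TopologicalSpace Y] {B : Y → Fin N → Mt (Fin N)}
    (h : ∀ k p q, Continuous fun y => B y k p q) : Continuous fun y => F (B y) := by
  unfold F
  refine continuous_finsetSum _ fun π _ => continuous_const.mul ?_
  exact continuous_finsetProd _ fun k _ => h k _ _

/-- **the density of `(σ σ̄)^n`** -/
theorem F_det {n : ℕ} {S : Sq (2 * n)} (hS : Sᵀ = -S) (hd : S.det ≠ 0) :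
    D n S (S.map conj) = cD n * ((‖S.det‖ : ℝ) : ℂ) := by
  set S₀ := stdS n with hS₀
  have h0 : S₀ᵀ = -S₀ := stdS_alt n
  have hd0 : S₀.det ^ 2 = 1 := stdS_det n
  have hne : S₀.det ≠ 0 := by
    intro h
    rw [h] at hd0
    norm_num at hd0
  set T := S - S₀ with hT
  have hTt : Tᵀ = -T := by rw [hT, transpose_sub, h0, hS]; abel
  have hSt : ∀ z : ℂ, (S₀ + z • T)ᵀ = -(S₀ + z • T) := by
    intro z
    rw [transpose_add, transpose_smul, h0, hTt]
    module
  have hmc : ∀ R : Sq (2 * n), Rᵀ = -R → (R.map conj)ᵀ = -(R.map conj) := by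
    intro R hR
    rw [← Matrix.transpose_map, hR]
    ext a b
    simp
  have hdc : ∀ R : Sq (2 * n), (R.map conj).det = conj R.det := by
    intro R
    rw [← RingHom.mapMatrix_apply, ← RingHom.map_det]
  obtain ⟨hop, hcon⟩ := omega_conn S₀ T hne
  set Ω : Set ℂ := {z : ℂ | (S₀ + z • T).det ≠ 0} with hΩ
  set f : ℂ → ℂ := fun z => D n (S₀ + z • T) ((S₀ + z • T).map conj) /
    ((‖(S₀ + z • T).det‖ : ℝ) : ℂ) with hf
  have hcontS : ∀ a b, Continuous fun z : ℂ => (S₀ + z • T) a b := by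
    intro a b
    have : (fun z : ℂ => (S₀ + z • T) a b) = fun z => S₀ a b + z * T a b := by
      funext z; simp
    rw [this]
    fun_prop
  have hcontD : Continuous fun z : ℂ => D n (S₀ + z • T) ((S₀ + z • T).map conj) := by
    unfold D
    refine continuous_F fun k p q => ?_
    unfold fl
    split_ifs
    · unfold sg blk
      simp only [submatrix_apply]
      rcases eqv (2 * n) p with s | s <;> rcases eqv (2 * n) q with t | t
      · simpa using hcontS s t
      · simpa using continuous_const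
      · simpa using continuous_const
      · simpa using continuous_const
    · unfold sb blk
      simp only [submatrix_apply]
      rcases eqv (2 * n) p with s | s <;> rcases eqv (2 * n) q with t | t
      · simpa using continuous_const
      · simpa using continuous_const
      · simpa using continuous_const
      · exact Complex.continuous_conj.comp (hcontS s t)
    · exact continuous_const
  have hcontdet : Continuous fun z : ℂ => (S₀ + z • T).det :=
    Continuous.matrix_det (continuous_pi fun a => continuous_pi fun b => hcontS a b)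
  have hfc : ContinuousOn f Ω := by
    refine ContinuousOn.div hcontD.continuousOn ?_ ?_
    · exact (Complex.continuous_ofReal.comp hcontdet.norm).continuousOn
    · intro z hz
      exact_mod_cast (norm_pos_iff.2 hz).ne'
  have hsq : Set.EqOn (f ^ 2) ((fun _ => cD n) ^ 2) Ω := by
    intro z hz
    have hz' : (S₀ + z • T).det ≠ 0 := hz
    simp only [Pi.pow_apply, hf]
    rw [div_pow, D_sq h0 hd0 (hSt z) (hmc _ (hSt z)) hz' (by rw [hdc]; simpa using hz'), hdc,
      Complex.mul_conj, Complex.normSq_eq_norm_sq]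
    have hn : ((‖(S₀ + z • T).det‖ : ℝ) : ℂ) ≠ 0 := by exact_mod_cast (norm_pos_iff.2 hz').ne'
    push_cast
    rw [mul_div_assoc, div_self (pow_ne_zero _ hn), mul_one]
    rfl
  have hz0 : (0 : ℂ) ∈ Ω := by
    show (S₀ + (0 : ℂ) • T).det ≠ 0
    rw [zero_smul, add_zero]; exact hne
  have hz1 : (1 : ℂ) ∈ Ω := by
    show (S₀ + (1 : ℂ) • T).det ≠ 0
    rw [one_smul, hT, add_sub_cancel]; exact hd
  have hf0 : f 0 = cD n := by
    simp only [hf, zero_smul, add_zero]
    rw [hS₀, stdS_conj, stdS_norm]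
    simp [cD]
  have hfinal := hcon.eq_of_sq_eq hfc continuousOn_const hsq (fun {x} _ => cD_ne n) hz0 hf0
  have h2 := hfinal hz1
  simp only [hf, one_smul] at h2
  rw [hT, add_sub_cancel] at h2
  have hn : ((‖S.det‖ : ℝ) : ℂ) ≠ 0 := by exact_mod_cast (norm_pos_iff.2 hd).ne'
  rwa [div_eq_iff hn] at h2

end

end Crest.Agent.R281.DicK_273
end

-- ▼ part R281/DicE_273
section

/-!
# R281 (S0424), HK-DIC part E (helper273): holomorphic 2-forms back to `X`

* `alt2`           : alternatization in degree 2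
* `dzz a b`        : `dz_a ∧ dz_b`; `T20.eq_sum`
* `backF K τ`      : the frozen holomorphic 2-form of `τ : H2 A`
* `uniq_of`        : uniqueness of the symplectic form
-/

set_option autoImplicit false
set_option linter.unusedSectionVars false

open Set Filter Topology Complex
open scoped ContDiff Matrix ComplexConjugate Manifold ComplexOrder

namespace Crest.Agent.R281.DicE_273

open Crest.Agent.R275.Geo Crest.Agent.R275.Core144 Crest.Agent.R275.EDR890
open Crest.Agent.R273.Defs_333 Crest.Agent.R273.Kah_333 Crest.Agent.R273.HessB_333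
open Crest.Agent.R281.DicA_273 Crest.Agent.R281.Defs_273 Crest.Agent.R281.DicB_273
open Crest.Agent.R281.DicC_273 Crest.Agent.R281.DicD_273
open Crest.CxGeometry (Form chartRep transDeriv chartWindow)

noncomputable section

universe u

section Algebra

variable {n : ℕ}

theorem univ_perm2 : (Finset.univ : Finset (Equiv.Perm (Fin 2))) = {1, Equiv.swap 0 1} := by
  decide

theorem alt2 (f : ContinuousMultilinearMap ℝ (fun _ : Fin 2 => Cn n) ℂ) (v w : Cn n) :
    (ContinuousMultilinearMap.alternatization f) ![v, w] = f ![v, w] - f ![w, v] := by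
  rw [ContinuousMultilinearMap.alternatization_apply_apply, univ_perm2, Finset.sum_pair (by decide)]
  have h2 : (![v, w] : Fin 2 → Cn n) ∘ Equiv.swap 0 1 = ![w, v] := by
    funext i
    fin_cases i <;> simp
  rw [h2]
  simp [sub_eq_add_neg]

/-- `dz_a ∧ dz_b` -/
def dzz (a b : Fin n) : (Cn n) [⋀^Fin 2]→L[ℝ] ℂ :=
  Crest.CxGeometry.ofBilin
    (((EuclideanSpace.proj a : Cn n →L[ℂ] ℂ).restrictScalars ℝ).smulRight
      ((EuclideanSpace.proj b : Cn n →L[ℂ] ℂ).restrictScalars ℝ : Cn n →L[ℝ] ℂ))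

theorem dzz_apply (a b : Fin n) (v w : Cn n) : dzz a b ![v, w] = v a * w b - w a * v b := by
  unfold dzz Crest.CxGeometry.ofBilin
  rw [alt2]
  simp

theorem f2_ext {β β' : (Cn n) [⋀^Fin 2]→L[ℝ] ℂ} (h : ∀ v w : Cn n, β ![v, w] = β' ![v, w]) :
    β = β' := by
  ext v
  have : v = ![v 0, v 1] := by
    funext i
    fin_cases i <;> rfl
  rw [this]
  exact h _ _

/-- the `(2,0)`-form of a matrix -/
def frm (S : Matrix (Fin n) (Fin n) ℂ) : (Cn n) [⋀^Fin 2]→L[ℝ] ℂ :=
  ∑ a, ∑ b, ((1 / 2 : ℂ) * S a b) • dzz a b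

theorem frm_apply (S : Matrix (Fin n) (Fin n) ℂ) (v w : Cn n) :
    frm S ![v, w] = ∑ a, ∑ b, (1 / 2 : ℂ) * S a b * (v a * w b - w a * v b) := by
  unfold frm
  simp only [ContinuousAlternatingMap.sum_apply, ContinuousAlternatingMap.smul_apply, dzz_apply,
    smul_eq_mul]

theorem frm_apply' {S : Matrix (Fin n) (Fin n) ℂ} (hS : Sᵀ = -S) (v w : Cn n) :
    frm S ![v, w] = ∑ a, ∑ b, S a b * v a * w b := by
  rw [frm_apply]
  have h1 : ∑ a, ∑ b, (1 / 2 : ℂ) * S a b * (w a * v b) =
      - ∑ a, ∑ b, (1 / 2 : ℂ) * S a b * (v a * w b) := by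
    rw [Finset.sum_comm, ← Finset.sum_neg_distrib]
    refine Finset.sum_congr rfl fun b _ => ?_
    rw [← Finset.sum_neg_distrib]
    refine Finset.sum_congr rfl fun a _ => ?_
    have : S a b = - S b a := by
      have := congrFun (congrFun hS b) a
      simpa using this
    rw [this]
    ring
  calc ∑ a, ∑ b, (1 / 2 : ℂ) * S a b * (v a * w b - w a * v b)
      = ∑ a, ∑ b, (1 / 2 : ℂ) * S a b * (v a * w b) -
          ∑ a, ∑ b, (1 / 2 : ℂ) * S a b * (w a * v b) := by
        simp only [mul_sub, Finset.sum_sub_distrib]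
    _ = ∑ a, ∑ b, S a b * v a * w b := by
        rw [h1, sub_neg_eq_add, ← Finset.sum_add_distrib]
        refine Finset.sum_congr rfl fun a _ => ?_
        rw [← Finset.sum_add_distrib]
        refine Finset.sum_congr rfl fun b _ => ?_
        ring

theorem frm_t20 (S : Matrix (Fin n) (Fin n) ℂ) : T20 (frm S) := by
  intro c v w
  rw [frm_apply, frm_apply, Finset.mul_sum]
  refine Finset.sum_congr rfl fun a _ => ?_
  rw [Finset.mul_sum]
  refine Finset.sum_congr rfl fun b _ => ?_
  simp only [PiLp.smul_apply, smul_eq_mul]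
  ring

theorem eq_frm {β : (Cn n) [⋀^Fin 2]→L[ℝ] ℂ} (h : T20 β) : β = frm (mat20 β) :=
  f2_ext fun v w => by rw [frm_apply' (mat20_alt β), h.eq]

theorem mat20_frm {S : Matrix (Fin n) (Fin n) ℂ} (hS : Sᵀ = -S) : mat20 (frm S) = S := by
  ext a b
  change frm S ![bs a, bs b] = _
  rw [frm_apply' hS]
  simp [bs]

theorem mx_comp (S T : Cn n →L[ℂ] Cn n) : mx (S.comp T) = mx S * mx T := by
  ext b a
  change (S (T (bs a))) b = _
  rw [apply_bs T a, map_sum]
  simp only [map_smul, Matrix.mul_apply]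
  have h1 : (∑ c, mx T c a • S (bs c) : Cn n) b = ∑ c, mx T c a * (S (bs c)) b := by
    have := map_sum (EuclideanSpace.proj b : Cn n →L[ℂ] ℂ) (fun c => mx T c a • S (bs c))
      Finset.univ
    exact this
  rw [h1]
  refine Finset.sum_congr rfl fun c _ => ?_
  rw [mul_comm]
  rfl

theorem mx_id : mx (ContinuousLinearMap.id ℂ (Cn n)) = 1 := by
  ext b a
  change (bs a : Cn n) b = _
  rw [Matrix.one_apply]
  by_cases h : b = a
  · simp [h, bs]
  · simp [h, bs]

theorem alt_cong {S G : Matrix (Fin n) (Fin n) ℂ} (hS : Sᵀ = -S) : (Gᵀ * S * G)ᵀ = -(Gᵀ * S * G) := by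
  rw [Matrix.transpose_mul, Matrix.transpose_mul, Matrix.transpose_transpose, hS]
  simp [Matrix.mul_assoc]

end Algebra

variable {n k : ℕ} {X : Type u} [TopologicalSpace X] [ChartedSpace (Cn n) X]
  [IsManifold 𝓘(ℂ, Cn n) ω X] {M : Type} [TopologicalSpace M] {A : Atl n M} (K : Lk A X)

/-- a chart of `A` around a point of `X` -/
def ki (y : X) : A.ι := (A.cover (K.g.symm y)).choose

theorem ki_mem (y : X) : K.g.symm y ∈ (A.e (ki K y)).source :=
  (A.cover (K.g.symm y)).choose_spec

theorem tE_tr {i j : A.ι} {x : M} (hx : x ∈ (A.e i).source ∩ (A.e j).source) :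
    (fderiv ℂ (fun z => A.e j ((A.e i).symm z)) (A.e i x)).comp (tE K i x) = tE K j x := by
  have h1 := K.tD_tr hx
  have h2 : (tE K j x).comp ((K.tD i x).comp (tE K i x)) = tE K j x := by
    rw [tD_tE K hx.1, ContinuousLinearMap.comp_id]
  rw [h1, ContinuousLinearMap.comp_assoc, ← ContinuousLinearMap.comp_assoc (tE K j x),
    tE_tD K hx.2, ContinuousLinearMap.id_comp] at h2
  exact h2

/-- the matrix at `y` in the preferred coordinates, computed with the chart `i` -/
def Sb (τ : H2 A) (i : A.ι) (x : M) : Matrix (Fin n) (Fin n) ℂ :=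
  (mx (tE K i x))ᵀ * τ.s i x * mx (tE K i x)

theorem Sb_indep (τ : H2 A) {i j : A.ι} {x : M} (hx : x ∈ (A.e i).source ∩ (A.e j).source) :
    Sb K τ i x = Sb K τ j x := by
  unfold Sb
  rw [τ.tr i j x hx, ← tE_tr K hx, mx_comp, mx_tr, Matrix.transpose_mul]
  simp only [Matrix.mul_assoc]

/-- the frozen form -/
def backF (τ : H2 A) : Form n X 2 := fun y => frm (Sb K τ (ki K y) (K.g.symm y))

theorem backF_eq (τ : H2 A) {i : A.ι} {y : X} (hy : K.g.symm y ∈ (A.e i).source) :
    backF K τ y = frm (Sb K τ i (K.g.symm y)) := by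
  unfold backF
  rw [Sb_indep K τ ⟨ki_mem K y, hy⟩]

theorem mat20_rp_back (τ : H2 A) {i : A.ι} {x : M} (hx : x ∈ (A.e i).source) :
    mat20 (rp K (backF K τ) i x) = τ.s i x := by
  have hx' : K.g.symm (K.g x) ∈ (A.e i).source := by rwa [K.g.symm_apply_apply]
  unfold rp
  rw [backF_eq K τ hx', K.g.symm_apply_apply, (frm_t20 _).mat20_pb]
  unfold Sb
  rw [mat20_frm (alt_cong (τ.alt i x hx))]
  have h1 : mx (tE K i x) * mx (K.tD i x) = 1 := by rw [← mx_comp, tE_tD K hx, mx_id]
  have h2 : (mx (K.tD i x))ᵀ * (mx (tE K i x))ᵀ = 1 := by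
    rw [← Matrix.transpose_mul, h1, Matrix.transpose_one]
  calc (mx (K.tD i x))ᵀ * ((mx (tE K i x))ᵀ * τ.s i x * mx (tE K i x)) * mx (K.tD i x)
      = ((mx (K.tD i x))ᵀ * (mx (tE K i x))ᵀ) * τ.s i x * (mx (tE K i x) * mx (K.tD i x)) := by
        simp only [Matrix.mul_assoc]
    _ = τ.s i x := by rw [h1, h2, Matrix.one_mul, Matrix.mul_one]

/-- chain rule for the change of coordinates from a preferred chart -/
theorem Fc_chain (i : A.ι) (x₀ : X) {w : Cn n} (hw : w ∈ Wd K x₀ i) :
    (tE K i (K.g.symm ((chartAt (Cn n) x₀).symm w))).comp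
      (fderiv ℂ (fun v => chartAt (Cn n) ((chartAt (Cn n) x₀).symm w)
        ((chartAt (Cn n) x₀).symm v)) w) = fderiv ℂ (Fc K x₀ i) w := by
  set y := (chartAt (Cn n) x₀).symm w with hy
  set x := K.g.symm y with hx
  have hgx : K.g x = y := K.g.apply_symm_apply y
  have hxi : x ∈ (A.e i).source := hw.2
  have h1 : HasFDerivAt (fun v => chartAt (Cn n) y ((chartAt (Cn n) x₀).symm v))
      (fderiv ℂ (fun v => chartAt (Cn n) y ((chartAt (Cn n) x₀).symm v)) w) w :=
    (diffAt_trans' hw.1 (mem_chart_source (Cn n) y)).hasFDerivAt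
  have hm : chartAt (Cn n) (K.g x) (K.g x) ∈ Wd K (K.g x) i :=
    mem_Wd K hxi (mem_chart_source (Cn n) (K.g x))
  have h2 : HasFDerivAt (Fc K (K.g x) i) (tE K i x) (chartAt (Cn n) (K.g x) (K.g x)) := by
    rw [tE_eq_fderiv]
    exact ((Fc_diff K (K.g x) i).differentiableAt ((isOpen_Wd K (K.g x) i).mem_nhds hm)).hasFDerivAt
  rw [hgx] at h2
  have h3 := HasFDerivAt.comp w (f := fun v => chartAt (Cn n) y ((chartAt (Cn n) x₀).symm v)) h2 h1
  have h4 : Fc K x₀ i =ᶠ[𝓝 w]
      (Fc K y i ∘ fun v => chartAt (Cn n) y ((chartAt (Cn n) x₀).symm v)) := by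
    have hc : ContinuousAt (chartAt (Cn n) x₀).symm w := (chartAt (Cn n) x₀).continuousAt_symm hw.1
    filter_upwards [hc.eventually ((chartAt (Cn n) y).open_source.mem_nhds
      (mem_chart_source (Cn n) y))] with v hv
    unfold Fc
    rw [Function.comp_apply, (chartAt (Cn n) y).left_inv hv]
  exact ((h3.congr_of_eventuallyEq h4).fderiv).symm

/-- the representative of the frozen form -/
theorem chartRep_back (τ : H2 A) (i : A.ι) (x₀ : X) {w : Cn n} (hw : w ∈ Wd K x₀ i) :
    chartRep (backF K τ) x₀ w = frm ((mx (fderiv ℂ (Fc K x₀ i) w))ᵀ *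
      τ.s i ((A.e i).symm (Fc K x₀ i w)) * mx (fderiv ℂ (Fc K x₀ i) w)) := by
  have h1 : chartRep (backF K τ) x₀ w = pb (fderiv ℂ (fun v => chartAt (Cn n)
      ((chartAt (Cn n) x₀).symm w) ((chartAt (Cn n) x₀).symm v)) w)
        (backF K τ ((chartAt (Cn n) x₀).symm w)) := by
    unfold Crest.CxGeometry.chartRep
    rw [transDeriv_eq x₀ hw.1]
    rfl
  rw [h1, backF_eq K τ hw.2, eq_frm ((frm_t20 _).pb _), (frm_t20 _).mat20_pb]
  unfold Sb
  rw [mat20_frm (alt_cong (τ.alt i _ hw.2)), ← Fc_chain K i x₀ hw, mx_comp, Fc_symm K hw,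
    Matrix.transpose_mul]
  simp only [Matrix.mul_assoc]

theorem diff_frm {S : Cn n → Matrix (Fin n) (Fin n) ℂ} {w : Cn n}
    (h : ∀ a b, DifferentiableAt ℂ (fun v => S v a b) w) : DifferentiableAt ℂ (fun v => frm (S v)) w := by
  unfold frm
  refine DifferentiableAt.fun_sum fun a _ => DifferentiableAt.fun_sum fun b _ => ?_
  exact ((h a b).const_mul _).smul_const _

theorem Fc_mx_diff (i : A.ι) (x₀ : X) {w : Cn n} (hw : w ∈ Wd K x₀ i) (a b : Fin n) :
    DifferentiableAt ℂ (fun v => mx (fderiv ℂ (Fc K x₀ i) v) a b) w := by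
  have h1 : AnalyticOnNhd ℂ (fderiv ℂ (Fc K x₀ i)) (Wd K x₀ i) :=
    (Crest.Agent.R266.SCV.analyticOnNhd_of_differentiableOn (isOpen_Wd K x₀ i)
      (Fc_diff K x₀ i)).fderiv
  have h2 : DifferentiableAt ℂ (fderiv ℂ (Fc K x₀ i)) w := (h1 w hw).differentiableAt
  have h3 : DifferentiableAt ℂ (fun v => fderiv ℂ (Fc K x₀ i) v (bs b)) w :=
    h2.clm_apply (differentiableAt_const _)
  exact ((EuclideanSpace.proj a : Cn n →L[ℂ] ℂ).differentiableAt).comp w h3

theorem diff_mul {m : ℕ} {P Q : Cn n → Matrix (Fin m) (Fin m) ℂ} {w : Cn n}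
    (hP : ∀ a b, DifferentiableAt ℂ (fun v => P v a b) w)
    (hQ : ∀ a b, DifferentiableAt ℂ (fun v => Q v a b) w) (a b : Fin m) :
    DifferentiableAt ℂ (fun v => (P v * Q v) a b) w := by
  simp only [Matrix.mul_apply]
  exact DifferentiableAt.fun_sum fun c _ => (hP a c).fun_mul (hQ c b)

theorem backF_hol (τ : H2 A) : Crest.CxGeometry.IsHolomorphicOn (backF K τ) univ := by
  constructor
  · intro y _ v i c
    have h20 : T20 (backF K τ y) := frm_t20 _
    have hv : v = ![v 0, v 1] := by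
      funext i
      fin_cases i <;> rfl
    have h0 : Function.update v 0 (c • v 0) = ![c • v 0, v 1] := by
      funext i
      fin_cases i <;> simp
    have h1 : Function.update v 1 (c • v 1) = ![v 0, c • v 1] := by
      funext i
      fin_cases i <;> simp
    fin_cases i
    · change backF K τ y (Function.update v 0 (c • v 0)) = _
      rw [h0, h20]
      conv_rhs => rw [hv]
      rfl
    · change backF K τ y (Function.update v 1 (c • v 1)) = _
      rw [h1, h20.right]
      conv_rhs => rw [hv]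
      rfl
  · intro x₀ w hw
    apply DifferentiableAt.differentiableWithinAt
    set y := (chartAt (Cn n) x₀).symm w with hy
    set i := ki K y with hi
    have hwi : w ∈ Wd K x₀ i := ⟨hw.1, ki_mem K y⟩
    have h1 : chartRep (backF K τ) x₀ =ᶠ[𝓝 w] fun w => frm ((mx (fderiv ℂ (Fc K x₀ i) w))ᵀ *
      τ.s i ((A.e i).symm (Fc K x₀ i w)) * mx (fderiv ℂ (Fc K x₀ i) w)) := by
      filter_upwards [(isOpen_Wd K x₀ i).mem_nhds hwi] with v hv
      exact chartRep_back K τ i x₀ hv
    refine DifferentiableAt.congr_of_eventuallyEq ?_ h1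
    refine diff_frm fun a b => ?_
    refine diff_mul (fun a b => diff_mul (fun a b => ?_) (fun a b => ?_) a b)
      (fun a b => Fc_mx_diff K i x₀ hwi a b) a b
    · exact Fc_mx_diff K i x₀ hwi b a
    · have h2 : DifferentiableOn ℂ (fun z => τ.s i ((A.e i).symm z) a b) (A.e i).target := by
        have := τ.hol i a b
        unfold HolAt at this
        simpa using this
      have h3 : DifferentiableAt ℂ (fun z => τ.s i ((A.e i).symm z) a b) (Fc K x₀ i w) :=
        h2.differentiableAt ((A.e i).open_target.mem_nhds (Fc_mem K hwi))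
      exact DifferentiableAt.comp w h3 ((Fc_diff K x₀ i).differentiableAt
        ((isOpen_Wd K x₀ i).mem_nhds hwi))

/-- **uniqueness of the symplectic form** -/
theorem uniq_of {σ : Form n X 2} (hσ : Crest.CxGeometry.IsHolSymplectic σ)
    (hu : ∀ τ : Form n X 2, Crest.CxGeometry.IsHolomorphicOn τ univ → ∃ c : ℂ, τ = c • σ) :
    (hsympOf K hσ).Uniq := by
  intro τ
  obtain ⟨c, hc⟩ := hu (backF K τ) (backF_hol K τ)
  refine ⟨c, fun i x hx => ?_⟩
  rw [← mat20_rp_back K τ hx, hc]
  ext a b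
  rfl

end

end Crest.Agent.R281.DicE_273
end

-- ▼ part R281/DicF_273
section

/-!
# R281 (S0424), HK-DIC part F (helper273): line bundles and Hermitian metrics

* `Idx K L`        : for each chart of `A` a piece of the cover of `L` containing it
* `lbOf I : LB A`  : the cocycle in the charts of `A`
* `toHM I h`       : frozen metric → `HM (lbOf I)`
* `backHM I h`     : `HM (lbOf I)` → frozen metric; `toHM_back`
-/

set_option autoImplicit false
set_option linter.unusedSectionVars false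

open Set Filter Topology Complex
open scoped ContDiff Matrix ComplexConjugate Manifold ComplexOrder

namespace Crest.Agent.R281.DicF_273

open Crest.Agent.R275.Geo Crest.Agent.R275.Core144 Crest.Agent.R275.EDR890
open Crest.Agent.R273.Defs_333 Crest.Agent.R273.Kah_333 Crest.Agent.R273.HessB_333
open Crest.Agent.R281.DicA_273 Crest.Agent.R281.Defs_273 Crest.Agent.R281.DicB_273
open Crest.Agent.R281.DicC_273 Crest.Agent.R281.DicD_273 Crest.Agent.R281.DicE_273
open Crest.CxGeometry (Form chartRep transDeriv chartWindow HolLineBundle)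

noncomputable section

universe u

variable {n k : ℕ} {X : Type u} [TopologicalSpace X] [ChartedSpace (Cn n) X]
  [IsManifold 𝓘(ℂ, Cn n) ω X] {M : Type} [TopologicalSpace M] {A : Atl n M} (K : Lk A X)

/-! ### functions -/

theorem holAt_of {f : X → ℂ} {S : Set X} (hf : Crest.CxGeometry.IsHolFunOn (n := n) f S) (i : A.ι)
    {U : Set M} (hU : ∀ x ∈ (A.e i).source, x ∈ U → K.g x ∈ S) :
    HolAt A i U (fun x => f (K.g x)) := by
  have h1 : DifferentiableOn ℂ (fun z => (f ∘ (chartAt (Cn n) (K.y i)).symm) (K.ps i z))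
      ((A.e i).target ∩ (A.e i).symm ⁻¹' U) := by
    refine (hf (K.y i)).comp (K.differentiable_ps i).differentiableOn fun z hz => ?_
    refine ⟨K.ps_mem hz.1, ?_⟩
    have h2 : (chartAt (Cn n) (K.y i)).symm (K.ps i z) = K.g ((A.e i).symm z) :=
      (K.g_symm hz.1).symm
    rw [mem_preimage, h2]
    exact hU _ ((A.e i).map_target hz.1) hz.2
  refine DifferentiableOn.congr h1 fun z hz => ?_
  show f (K.g ((A.e i).symm z)) = _
  rw [K.g_symm hz.1]
  rfl

theorem smAt_of {u : X → ℝ} {S : Set X} (hu : Crest.CxGeometry.IsSmoothFunOn (n := n) u S)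
    {i : A.ι} (hi : ∀ x ∈ (A.e i).source, K.g x ∈ S) : A.SmAt i (fun x => u (K.g x)) := by
  have h1 : ContDiffOn ℝ ∞ (fun z => (u ∘ (chartAt (Cn n) (K.y i)).symm) (K.ps i z))
      (A.e i).target :=
    (hu (K.y i)).comp (K.contDiff_ps i).contDiffOn fun z hz => win_mem K hi hz
  refine ContDiffOn.congr h1 fun z hz => ?_
  show u (K.g ((A.e i).symm z)) = _
  rw [K.g_symm hz]
  rfl

/-- local criterion for holomorphy on `X` -/
theorem isHolFunOn_of {f : X → ℂ} {S : Set X} (h : ∀ y ∈ S, ∃ i, K.g.symm y ∈ (A.e i).source ∧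
    DifferentiableAt ℂ (fun z => f (K.g ((A.e i).symm z))) (A.e i (K.g.symm y))) :
    Crest.CxGeometry.IsHolFunOn (n := n) f S := by
  intro x₀ w hw
  apply DifferentiableAt.differentiableWithinAt
  obtain ⟨i, hi, hd⟩ := h _ hw.2
  have hwi : w ∈ Wd K x₀ i := ⟨hw.1, hi⟩
  have h1 : f ∘ (chartAt (Cn n) x₀).symm =ᶠ[𝓝 w]
      fun v => (fun z => f (K.g ((A.e i).symm z))) (Fc K x₀ i v) := by
    filter_upwards [(isOpen_Wd K x₀ i).mem_nhds hwi] with v hv
    show _ = f (K.g ((A.e i).symm (Fc K x₀ i v)))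
    rw [Fc_symm K hv, K.g.apply_symm_apply]
    rfl
  refine DifferentiableAt.congr_of_eventuallyEq ?_ h1
  exact DifferentiableAt.comp (g := fun z => f (K.g ((A.e i).symm z))) w hd
    ((Fc_diff K x₀ i).differentiableAt ((isOpen_Wd K x₀ i).mem_nhds hwi))

theorem Fc_contDiffAt (i : A.ι) (x₀ : X) {w : Cn n} (hw : w ∈ Wd K x₀ i) :
    ContDiffAt ℝ ∞ (Fc K x₀ i) w :=
  (((Crest.Agent.R266.SCV.contDiffOn_omega_of_differentiableOn (isOpen_Wd K x₀ i)
    (Fc_diff K x₀ i)).restrict_scalars ℝ).of_le le_top).contDiffAt ((isOpen_Wd K x₀ i).mem_nhds hw)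

/-- local criterion for smoothness on `X` -/
theorem isSmoothFunOn_of {f : X → ℝ} {S : Set X} (h : ∀ y ∈ S, ∃ i, K.g.symm y ∈ (A.e i).source ∧
    ContDiffAt ℝ ∞ (fun z => f (K.g ((A.e i).symm z))) (A.e i (K.g.symm y))) :
    Crest.CxGeometry.IsSmoothFunOn (n := n) f S := by
  intro x₀ w hw
  apply ContDiffAt.contDiffWithinAt
  obtain ⟨i, hi, hd⟩ := h _ hw.2
  have hwi : w ∈ Wd K x₀ i := ⟨hw.1, hi⟩
  have h1 : f ∘ (chartAt (Cn n) x₀).symm =ᶠ[𝓝 w]
      fun v => (fun z => f (K.g ((A.e i).symm z))) (Fc K x₀ i v) := by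
    filter_upwards [(isOpen_Wd K x₀ i).mem_nhds hwi] with v hv
    show _ = f (K.g ((A.e i).symm (Fc K x₀ i v)))
    rw [Fc_symm K hv, K.g.apply_symm_apply]
    rfl
  refine ContDiffAt.congr_of_eventuallyEq ?_ h1
  exact ContDiffAt.comp (g := fun z => f (K.g ((A.e i).symm z))) w hd (Fc_contDiffAt K i x₀ hwi)

/-! ### the bundle -/

/-- for each chart of `A` a piece of the cover of `L` containing it -/
structure Idx (L : HolLineBundle n X) where
  k : A.ι → L.ι
  sub : ∀ i, ∀ x ∈ (A.e i).source, K.g x ∈ L.U (k i)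

variable {K} {L : HolLineBundle n X} (J : Idx K L)

theorem L_self {L : HolLineBundle n X} {j : L.ι} {y : X} (hy : y ∈ L.U j) : L.g j j y = 1 := by
  have h1 := L.cocycle j j j y ⟨⟨hy, hy⟩, hy⟩
  have h2 := L.g_ne_zero j j y ⟨hy, hy⟩
  have h3 : L.g j j y * (L.g j j y - 1) = 0 := by linear_combination -h1
  rcases mul_eq_zero.1 h3 with h | h
  · exact absurd h h2
  · linear_combination h

open Classical in
/-- the cocycle in the charts of `A` -/
def lbOf : LB A where
  g i j x := if x ∈ (A.e i).source ∩ (A.e j).source then L.g (J.k i) (J.k j) (K.g x) else 1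
  hol i j := by
    have h1 : HolAt A i (A.e j).source (fun x => L.g (J.k i) (J.k j) (K.g x)) :=
      holAt_of K (L.g_hol (J.k i) (J.k j)) i fun x hx hx' => ⟨J.sub i x hx, J.sub j x hx'⟩
    refine h1.congr fun x hx hx' => ?_
    rw [if_pos ⟨hx, hx'⟩]
  off i j x hx := by rw [if_neg hx]
  self i x := by
    by_cases hx : x ∈ (A.e i).source
    · rw [if_pos ⟨hx, hx⟩, L_self (J.sub i x hx)]
    · rw [if_neg fun h => hx h.1]
  mul i j k x hx := by
    rw [if_pos ⟨hx.1.1, hx.1.2⟩, if_pos ⟨hx.1.2, hx.2⟩, if_pos ⟨hx.1.1, hx.2⟩]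
    exact (L.cocycle (J.k i) (J.k j) (J.k k) (K.g x)
      ⟨⟨J.sub i x hx.1.1, J.sub j x hx.1.2⟩, J.sub k x hx.2⟩).symm

theorem lbOf_g {i j : A.ι} {x : M} (hx : x ∈ (A.e i).source ∩ (A.e j).source) :
    (lbOf J).g i j x = L.g (J.k i) (J.k j) (K.g x) := if_pos hx

/-! ### metrics -/

/-- frozen metric → `HM` -/
def toHM (h : L.HermMetric) : HM (lbOf J) where
  w i x := h.h (J.k i) (K.g x)
  pos i x hx := h.h_pos _ _ (J.sub i x hx)
  sm i := smAt_of K (h.h_smooth (J.k i)) (J.sub i)
  tr i j x hx := by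
    rw [lbOf_g J hx]
    exact h.compat (J.k i) (J.k j) (K.g x) ⟨J.sub i x hx.1, J.sub j x hx.2⟩

/-- the value of the frozen metric computed with the chart `i` -/
def mv (h : HM (lbOf J)) (i : A.ι) (j : L.ι) (y : X) : ℝ :=
  ‖L.g (J.k i) j y‖ ^ 2 * h.w i (K.g.symm y)

theorem mem_kU {i : A.ι} {y : X} (hy : K.g.symm y ∈ (A.e i).source) : y ∈ L.U (J.k i) := by
  have := J.sub i _ hy
  rwa [K.g.apply_symm_apply] at this

theorem mv_indep (h : HM (lbOf J)) {i i' : A.ι} {j : L.ι} {y : X}
    (hi : K.g.symm y ∈ (A.e i).source) (hi' : K.g.symm y ∈ (A.e i').source) (hj : y ∈ L.U j) :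
    mv J h i j y = mv J h i' j y := by
  unfold mv
  have h1 := h.tr i i' _ ⟨hi, hi'⟩
  rw [lbOf_g J ⟨hi, hi'⟩, K.g.apply_symm_apply] at h1
  have h2 := L.cocycle (J.k i) (J.k i') j y ⟨⟨mem_kU J hi, mem_kU J hi'⟩, hj⟩
  rw [h1, h2, norm_mul]
  ring

/-- `HM` → frozen metric -/
def backHM (h : HM (lbOf J)) : L.HermMetric where
  h j y := mv J h (ki K y) j y
  h_pos j y hy := by
    have h1 := L.g_ne_zero (J.k (ki K y)) j y ⟨mem_kU J (ki_mem K y), hy⟩
    have h2 := h.pos _ _ (ki_mem K y)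
    have h3 : 0 < ‖L.g (J.k (ki K y)) j y‖ := norm_pos_iff.2 h1
    unfold mv
    positivity
  h_smooth j := by
    apply isSmoothFunOn_of K
    intro y hy
    refine ⟨ki K y, ki_mem K y, ?_⟩
    set i := ki K y with hi
    have hmem := ki_mem K y
    rw [← hi] at hmem
    set z := A.e i (K.g.symm y) with hz
    have hzt : z ∈ (A.e i).target := (A.e i).map_source hmem
    have hU : ∀ᶠ v in 𝓝 z, K.g ((A.e i).symm v) ∈ L.U j := by
      have hc : ContinuousAt (fun v => K.g ((A.e i).symm v)) z :=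
        K.g.continuous.continuousAt.comp ((A.e i).continuousAt_symm hzt)
      refine hc.eventually ((L.isOpen_U j).mem_nhds ?_)
      show K.g ((A.e i).symm z) ∈ L.U j
      rw [hz, (A.e i).left_inv hmem, K.g.apply_symm_apply]
      exact hy
    have h1 : (fun v => mv J h (ki K (K.g ((A.e i).symm v))) j (K.g ((A.e i).symm v))) =ᶠ[𝓝 z]
        fun v => ‖L.g (J.k i) j (K.g ((A.e i).symm v))‖ ^ 2 * h.w i ((A.e i).symm v) := by
      filter_upwards [hU, (A.e i).open_target.mem_nhds hzt] with v hv hvt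
      have h2 : K.g.symm (K.g ((A.e i).symm v)) ∈ (A.e i).source := by
        rw [K.g.symm_apply_apply]; exact (A.e i).map_target hvt
      rw [mv_indep J h (ki_mem K _) h2 hv]
      unfold mv
      rw [K.g.symm_apply_apply]
    refine ContDiffAt.congr_of_eventuallyEq ?_ h1
    refine ContDiffAt.mul ?_ ((h.sm i).contDiffAt ((A.e i).open_target.mem_nhds hzt))
    -- the transition function is holomorphic near `z`
    have h3 : HolAt A i (K.g ⁻¹' L.U j) (fun x => L.g (J.k i) j (K.g x)) :=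
      holAt_of K (L.g_hol (J.k i) j) i fun x hx hx' => ⟨J.sub i x hx, hx'⟩
    have ho : IsOpen (K.g ⁻¹' L.U j) := (L.isOpen_U j).preimage K.g.continuous
    have h4 : ContDiffAt ℝ ∞ (fun v => L.g (J.k i) j (K.g ((A.e i).symm v))) z := by
      refine (h3.contDiffOn ho).contDiffAt ((isOpen_ti ho).mem_nhds ⟨hzt, ?_⟩)
      show K.g ((A.e i).symm z) ∈ L.U j
      rw [hz, (A.e i).left_inv hmem, K.g.apply_symm_apply]
      exact hy
    exact h4.norm_sq ℝ
  compat j j' y hy := by
    have h1 := L.cocycle (J.k (ki K y)) j j' y ⟨⟨mem_kU J (ki_mem K y), hy.1⟩, hy.2⟩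
    unfold mv
    rw [h1, norm_mul]
    ring


theorem toHM_back (h : HM (lbOf J)) {i : A.ι} {x : M} (hx : x ∈ (A.e i).source) :
    (toHM J (backHM J h)).w i x = h.w i x := by
  have hx' : K.g.symm (K.g x) ∈ (A.e i).source := by rwa [K.g.symm_apply_apply]
  change mv J h (ki K (K.g x)) (J.k i) (K.g x) = _
  rw [mv_indep J h (ki_mem K _) hx' (J.sub i x hx)]
  unfold mv
  rw [L_self (J.sub i x hx), K.g.symm_apply_apply]
  simp

theorem cur_congr {L L' : LB A} {h : HM L} {h' : HM L'} (i : A.ι)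
    (H : ∀ x ∈ (A.e i).source, h.w i x = h'.w i x) {x : M} (hx : x ∈ (A.e i).source) :
    cur h i x = cur h' i x := by
  unfold cur
  apply hess_congr
  filter_upwards [(A.e i).open_target.mem_nhds ((A.e i).map_source hx)] with z hz
  unfold HM.wt
  rw [H _ ((A.e i).map_target hz)]

theorem cur_toHM_back (h : HM (lbOf J)) {i : A.ι} {x : M} (hx : x ∈ (A.e i).source) :
    cur (toHM J (backHM J h)) i x = cur h i x :=
  cur_congr i (fun _ hx => toHM_back J h hx) hx

end

end Crest.Agent.R281.DicF_273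
end

-- ▼ part R281/DicG_273
section

/-!
# R281 (S0424), HK-DIC part G (helper273): the Chern form

* `cf H`          : `(v,w) ↦ (H(Jv,w) - H(v,Jw))/(4π)` for a symmetric bilinear form `H`
* `mat11_cf`      : `mat11 (cf (D²u)) = hess u`
* `mat11_chern`   : the matrix of the frozen Chern form in the chart `i` is `cur (toHM J h) i x`
* `nonFlat_of`    : `ChernClassNeZero → NonFlat`
-/

set_option autoImplicit false
set_option linter.unusedSectionVars false

open Set Filter Topology Complex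
open scoped ContDiff Matrix ComplexConjugate Manifold ComplexOrder

namespace Crest.Agent.R281.DicG_273

open Crest.Agent.R275.Geo Crest.Agent.R275.Core144 Crest.Agent.R275.EDR890
open Crest.Agent.R273.Defs_333 Crest.Agent.R273.Kah_333 Crest.Agent.R273.HessB_333
open Crest.Agent.R273.Hess_333
open Crest.Agent.R281.DicA_273 Crest.Agent.R281.Defs_273 Crest.Agent.R281.DicB_273
open Crest.Agent.R281.DicC_273 Crest.Agent.R281.DicD_273 Crest.Agent.R281.DicE_273
open Crest.Agent.R281.DicF_273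
open Crest.CxGeometry (Form chartRep transDeriv chartWindow HolLineBundle Jl)

noncomputable section

universe u

section Algebra

variable {n : ℕ}

/-- real bilinear forms -/
abbrev Bil (n : ℕ) : Type := ContinuousMultilinearMap ℝ (fun _ : Fin 2 => Cn n) ℝ

/-- the real `(1,1)`-form attached to a symmetric bilinear form -/
def cf (H : Bil n) : (Cn n) [⋀^Fin 2]→L[ℝ] ℂ :=
  ContinuousMultilinearMap.alternatization
    (Complex.ofRealCLM.compContinuousMultilinearMap
      ((1 / (8 * Real.pi)) •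
        (H.compContinuousLinearMap ![Jl n, ContinuousLinearMap.id ℝ (Cn n)] -
          H.compContinuousLinearMap ![ContinuousLinearMap.id ℝ (Cn n), Jl n])))


theorem cf_apply (H : Bil n) (v w : Cn n) : cf H ![v, w] =
    ((1 / (8 * Real.pi) * (H ![I • v, w] - H ![v, I • w] - (H ![I • w, v] - H ![w, I • v])) : ℝ) : ℂ) := by
  unfold cf
  rw [alt2]
  have h1 : ∀ p q : Cn n, (Complex.ofRealCLM.compContinuousMultilinearMap
      ((1 / (8 * Real.pi)) •
        (H.compContinuousLinearMap ![Jl n, ContinuousLinearMap.id ℝ (Cn n)] -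
          H.compContinuousLinearMap ![ContinuousLinearMap.id ℝ (Cn n), Jl n]))) ![p, q] =
      ((1 / (8 * Real.pi) * (H ![I • p, q] - H ![p, I • q]) : ℝ) : ℂ) := by
    intro p q
    have e1 : (fun i => (![Jl n, ContinuousLinearMap.id ℝ (Cn n)] : Fin 2 → Cn n →L[ℝ] Cn n) i
        ((![p, q] : Fin 2 → Cn n) i)) = ![I • p, q] := by
      funext s; fin_cases s <;> rfl
    have e2 : (fun i => (![ContinuousLinearMap.id ℝ (Cn n), Jl n] : Fin 2 → Cn n →L[ℝ] Cn n) i
        ((![p, q] : Fin 2 → Cn n) i)) = ![p, I • q] := by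
      funext s; fin_cases s <;> rfl
    change ((((1 / (8 * Real.pi)) * (H (fun i => (![Jl n, ContinuousLinearMap.id ℝ (Cn n)] :
      Fin 2 → Cn n →L[ℝ] Cn n) i ((![p, q] : Fin 2 → Cn n) i)) - H (fun i =>
      (![ContinuousLinearMap.id ℝ (Cn n), Jl n] : Fin 2 → Cn n →L[ℝ] Cn n) i
        ((![p, q] : Fin 2 → Cn n) i)))) : ℝ) : ℂ) = _
    rw [e1, e2]
  rw [h1, h1]
  push_cast
  ring

theorem bil_neg_left (H : Bil n) (v w : Cn n) : H ![-v, w] = - H ![v, w] := by
  have := H.map_update_smul ![v, w] 0 (-1) v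
  rw [upd0, upd0] at this
  simpa using this

theorem upd1 (v w u : Cn n) : Function.update (![v, w] : Fin 2 → Cn n) 1 u = ![v, u] := by
  funext i
  fin_cases i <;> simp

theorem bil_neg_right (H : Bil n) (v w : Cn n) : H ![v, -w] = - H ![v, w] := by
  have := H.map_update_smul ![v, w] 1 (-1) w
  rw [upd1, upd1] at this
  simpa using this

theorem cf_t11 (H : Bil n) : T11 (cf H) := by
  intro v w
  rw [cf_apply, cf_apply, II_smul, II_smul, bil_neg_left, bil_neg_left, bil_neg_right,
    bil_neg_right]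
  congr 1
  ring

theorem cf_real (H : Bil n) : RealF (cf H) := by
  intro v
  have : v = ![v 0, v 1] := by
    funext i
    fin_cases i <;> rfl
  rw [this, cf_apply]
  exact Complex.ofReal_im _

theorem mat11_cf_apply (H : Bil n) (hH : ∀ v w : Cn n, H ![v, w] = H ![w, v]) (a b : Fin n) :
    mat11 (cf H) a b = (1 / 4 : ℂ) * ((H ![bs a, bs b] : ℝ) + (H ![I • bs a, I • bs b] : ℝ) -
      I * ((H ![I • bs a, bs b] : ℝ) - (H ![bs a, I • bs b] : ℝ))) := by
  rw [mat11_apply, cf_apply, cf_apply, II_smul, bil_neg_right, bil_neg_left,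
    hH (I • bs b) (bs a), hH (bs b) (I • bs a), hH (I • bs b) (I • bs a), hH (bs b) (bs a)]
  have hpi : (Real.pi : ℂ) ≠ 0 := by exact_mod_cast Real.pi_ne_zero
  push_cast
  field_simp
  ring

/-- the complex Hessian from the real one -/
theorem hess_eq_real {u : Cn n → ℝ} {z : Cn n} (hu : ContDiffAt ℝ ∞ u z) (a b : Fin n) :
    hess u z a b = (1 / 4 : ℂ) * ((fderiv ℝ (fderiv ℝ u) z (bs a) (bs b) : ℝ) +
      (fderiv ℝ (fderiv ℝ u) z (I • bs a) (I • bs b) : ℝ) -
      I * ((fderiv ℝ (fderiv ℝ u) z (I • bs a) (bs b) : ℝ) -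
        (fderiv ℝ (fderiv ℝ u) z (bs a) (I • bs b) : ℝ))) := by
  have hw : ∀ (s : WI n) (G : Cn n →L[ℝ] ℂ), wdLc s G = wdL s G := fun s G => rfl
  rw [hess_apply, wd, fderiv_wd (contDiffAt_cu hu)]
  unfold wdL
  simp only [ContinuousLinearMap.comp_apply, hw, wdL, fderiv2_cu hu, single_I, cI_true, cI_false,
    smul_eq_mul]
  linear_combination (-(1 / 4 : ℂ) * (fderiv ℝ (fderiv ℝ u) z (I • bs a) (I • bs b) : ℝ)) * I_sq

/-- the real Hessian -/
theorem mat11_cf {u : Cn n → ℝ} {z : Cn n} (hu : ContDiffAt ℝ ∞ u z) :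
    mat11 (cf (iteratedFDeriv ℝ 2 u z)) = hess u z := by
  ext a b
  have hs : IsSymmSndFDerivAt ℝ u z := by
    refine hu.isSymmSndFDerivAt ?_
    rw [minSmoothness_of_isRCLikeNormedField]
    exact WithTop.coe_le_coe.2 le_top
  have h1 : ∀ v w : Cn n, iteratedFDeriv ℝ 2 u z ![v, w] = fderiv ℝ (fderiv ℝ u) z v w := by
    intro v w
    rw [iteratedFDeriv_two_apply]
    rfl
  rw [mat11_cf_apply _ (fun v w => by rw [h1, h1]; exact hs v w), hess_eq_real hu]
  simp only [h1]

end Algebra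

variable {n k : ℕ} {X : Type u} [TopologicalSpace X] [ChartedSpace (Cn n) X]
  [IsManifold 𝓘(ℂ, Cn n) ω X] {M : Type} [TopologicalSpace M] {A : Atl n M} {K : Lk A X}
  {L : HolLineBundle n X} (J : Idx K L)

theorem chernFormOn_eq (h : L.HermMetric) (j : L.ι) (y : X) :
    h.chernFormOn j y = cf (h.weightHessian j y) := rfl

/-- smoothness of the weight in the preferred chart -/
theorem weight_smooth (h : L.HermMetric) {j : L.ι} {y : X} (hy : y ∈ L.U j) :
    ContDiffAt ℝ ∞ ((fun y => -Real.log (h.h j y)) ∘ (chartAt (Cn n) y).symm)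
      (chartAt (Cn n) y y) := by
  have ho : IsOpen (chartWindow y (L.U j)) :=
    (chartAt (Cn n) y).isOpen_inter_preimage_symm (L.isOpen_U j)
  have hm : chartAt (Cn n) y y ∈ chartWindow y (L.U j) := by
    refine ⟨mem_chart_target (Cn n) y, ?_⟩
    rw [mem_preimage, (chartAt (Cn n) y).left_inv (mem_chart_source (Cn n) y)]
    exact hy
  have h1 : ContDiffAt ℝ ∞ (h.h j ∘ (chartAt (Cn n) y).symm) (chartAt (Cn n) y y) :=
    (h.h_smooth j y).contDiffAt (ho.mem_nhds hm)
  have h2 : (h.h j ∘ (chartAt (Cn n) y).symm) (chartAt (Cn n) y y) ≠ 0 := by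
    rw [Function.comp_apply, (chartAt (Cn n) y).left_inv (mem_chart_source (Cn n) y)]
    exact (h.h_pos j y hy).ne'
  exact (h1.log h2).neg

/-- the matrix of the Chern form in the chart `i` -/
theorem mat11_chern0 (h : L.HermMetric) {j : L.ι} {i : A.ι} {x : M} (hx : x ∈ (A.e i).source)
    (hy : K.g x ∈ L.U j) : mat11 (rp K (h.chernFormOn j) i x) =
      hess (fun z => -Real.log (h.h j (K.g ((A.e i).symm z)))) (A.e i x) := by
  unfold rp
  rw [chernFormOn_eq, (cf_t11 _).mat11_pb]
  unfold Crest.CxGeometry.HolLineBundle.HermMetric.weightHessian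
  have hs := weight_smooth h hy
  rw [mat11_cf hs]
  set u : Cn n → ℝ := (fun y => -Real.log (h.h j y)) ∘ (chartAt (Cn n) (K.g x)).symm with hu
  set T : Cn n → Cn n := fun z => chartAt (Cn n) (K.g x) (K.g ((A.e i).symm z)) with hT
  have hTx : T (A.e i x) = chartAt (Cn n) (K.g x) (K.g x) := by
    rw [hT]; simp only [(A.e i).left_inv hx]
  -- the domain where everything is defined
  have hev : ∀ᶠ z in 𝓝 (A.e i x), z ∈ (A.e i).target ∧
      K.g ((A.e i).symm z) ∈ (chartAt (Cn n) (K.g x)).source := by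
    have hc : ContinuousAt (fun z => K.g ((A.e i).symm z)) (A.e i x) :=
      K.g.continuous.continuousAt.comp ((A.e i).continuousAt_symm ((A.e i).map_source hx))
    have h0 : (fun z => K.g ((A.e i).symm z)) (A.e i x) ∈ (chartAt (Cn n) (K.g x)).source := by
      show K.g ((A.e i).symm (A.e i x)) ∈ (chartAt (Cn n) (K.g x)).source
      rw [(A.e i).left_inv hx]
      exact mem_chart_source _ _
    filter_upwards [(A.e i).open_target.mem_nhds ((A.e i).map_source hx),
      hc.eventually ((chartAt (Cn n) (K.g x)).open_source.mem_nhds h0)] with z hz hz'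
    exact ⟨hz, hz'⟩
  have hTd : ∀ᶠ z in 𝓝 (A.e i x), DifferentiableAt ℂ T z := by
    filter_upwards [hev] with z hz
    have h1 := K.hasFDerivAt_chg ((A.e i).map_target hz.1) hz.2
    rw [(A.e i).right_inv hz.1] at h1
    exact h1.differentiableAt
  have hcomp : (fun z => -Real.log (h.h j (K.g ((A.e i).symm z)))) =ᶠ[𝓝 (A.e i x)]
      fun z => u (T z) := by
    filter_upwards [hev] with z hz
    simp only [hu, hT, Function.comp_apply, (chartAt (Cn n) (K.g x)).left_inv hz.2]
  rw [hess_congr hcomp]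
  ext a b
  rw [hess_comp (u := u) (T := T) (by rwa [hTx]) hTd, hTx]
  simp only [Matrix.mul_apply, Matrix.transpose_apply, Matrix.map_apply, Finset.sum_mul]
  rw [Finset.sum_comm]
  rfl

/-- **the frozen Chern form is `cur`** -/
theorem mat11_chern (h : L.HermMetric) {j : L.ι} {i : A.ι} {x : M} (hx : x ∈ (A.e i).source)
    (hy : K.g x ∈ L.U j) : mat11 (rp K (h.chernFormOn j) i x) = cur (toHM J h) i x := by
  rw [mat11_chern0 h hx hy]
  unfold cur
  set z := A.e i x with hz
  have hzt : z ∈ (A.e i).target := (A.e i).map_source hx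
  have hzx : (A.e i).symm z = x := (A.e i).left_inv hx
  have ho : IsOpen (K.g ⁻¹' L.U j) := (L.isOpen_U j).preimage K.g.continuous
  have hw : IsOpen ((A.e i).target ∩ (A.e i).symm ⁻¹' (K.g ⁻¹' L.U j)) := isOpen_ti ho
  have hzw : z ∈ (A.e i).target ∩ (A.e i).symm ⁻¹' (K.g ⁻¹' L.U j) := by
    refine ⟨hzt, ?_⟩
    show K.g ((A.e i).symm z) ∈ L.U j
    rw [hzx]; exact hy
  set f : Cn n → ℂ := fun z => L.g j (J.k i) (K.g ((A.e i).symm z)) with hf
  have h3 : HolAt A i (K.g ⁻¹' L.U j) (fun x => L.g j (J.k i) (K.g x)) :=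
    holAt_of K (L.g_hol j (J.k i)) i fun x hx hx' => ⟨hx', J.sub i x hx⟩
  have hfd : ∀ᶠ w in 𝓝 z, DifferentiableAt ℂ f w := by
    filter_upwards [hw.mem_nhds hzw] with w hw'
    exact DifferentiableOn.differentiableAt h3 (hw.mem_nhds hw')
  have hf0 : f z ≠ 0 := by
    simp only [hf, hzx]
    exact L.g_ne_zero _ _ _ ⟨hy, J.sub i x hx⟩
  have hev : (fun z => -Real.log (h.h j (K.g ((A.e i).symm z)))) =ᶠ[𝓝 z]
      fun w => (toHM J h).wt i w + Real.log (‖f w‖ ^ 2) := by
    filter_upwards [hw.mem_nhds hzw] with w hw'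
    have hU : K.g ((A.e i).symm w) ∈ L.U j ∩ L.U (J.k i) :=
      ⟨hw'.2, J.sub i _ ((A.e i).map_target hw'.1)⟩
    have h4 := h.compat j (J.k i) _ hU
    unfold HM.wt
    change -Real.log (h.h j (K.g ((A.e i).symm w))) =
      -Real.log (h.h (J.k i) (K.g ((A.e i).symm w))) + Real.log (‖f w‖ ^ 2)
    have h5 : 0 < h.h j (K.g ((A.e i).symm w)) := h.h_pos _ _ hU.1
    have h6 : ‖L.g j (J.k i) (K.g ((A.e i).symm w))‖ ^ 2 ≠ 0 := by
      have := L.g_ne_zero _ _ _ hU
      have := norm_pos_iff.2 this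
      positivity
    rw [h4, Real.log_mul h6 h5.ne']
    simp only [hf]
    ring
  have hsm1 : ContDiffAt ℝ ∞ ((toHM J h).wt i) z := wt_contDiffAt _ i hzt
  have hsm2 : ContDiffAt ℝ ∞ (fun w => Real.log (‖f w‖ ^ 2)) z := by
    obtain ⟨U, hU, hUo, hUz⟩ := eventually_nhds_iff.1 hfd
    have h1 : DifferentiableOn ℂ f U := fun w hw => (hU w hw).differentiableWithinAt
    have hfc : ContDiffAt ℝ ∞ f z :=
      (((Crest.Agent.R266.SCV.contDiffOn_omega_of_differentiableOn hUo h1).restrict_scalars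
        ℝ).of_le le_top).contDiffAt (hUo.mem_nhds hUz)
    refine (hfc.norm_sq ℝ).log ?_
    have := norm_pos_iff.2 hf0
    positivity
  rw [hess_congr hev, hess_add hsm1 hsm2, hess_log_norm hfd hf0, add_zero]

/-- `(1,1)`-forms are determined by their matrix -/
theorem t11_ext {β β' : (Cn n) [⋀^Fin 2]→L[ℝ] ℂ} (h : T11 β) (h' : T11 β') (hr : RealF β)
    (hr' : RealF β') (H : mat11 β = mat11 β') : β = β' := by
  refine f2_ext fun v w => ?_
  have h1 : ses β v w = ses β' v w := by rw [h.ses_eq, h'.ses_eq, H]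
  unfold ses at h1
  have hpi : (Real.pi : ℂ) ≠ 0 := by exact_mod_cast Real.pi_ne_zero
  have h2 := mul_left_cancel₀ hpi h1
  have h3 := congrArg Complex.im h2
  simp only [Complex.sub_im, Complex.mul_im, Complex.I_re, Complex.I_im, zero_mul, one_mul,
    zero_add, hr _, hr' _, zero_sub, neg_inj] at h3
  apply Complex.ext
  · exact h3
  · rw [hr, hr']

theorem zap {k : ℕ} (v : Fin k → Cn n) : (0 : (Cn n) [⋀^Fin k]→L[ℝ] ℂ) v = 0 := rfl

theorem zero_t11 : T11 (0 : (Cn n) [⋀^Fin 2]→L[ℝ] ℂ) := by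
  intro v w
  rw [zap, zap]

theorem zero_real : RealF (0 : (Cn n) [⋀^Fin 2]→L[ℝ] ℂ) := by
  intro v
  rw [zap, Complex.zero_im]

theorem mat11_zero : mat11 (0 : (Cn n) [⋀^Fin 2]→L[ℝ] ℂ) = 0 := by
  ext a b
  rw [mat11_apply, zap, zap,
    Matrix.zero_apply]
  ring

/-- a form vanishing in the chart vanishes -/
theorem eq_zero_of_rp {α : Form n X 2} {i : A.ι} {x : M} (hx : x ∈ (A.e i).source)
    (h : rp K α i x = 0) : α (K.g x) = 0 := by
  refine f2_ext fun v w => ?_
  have h1 : ∀ v, K.tD i x (tE K i x v) = v := fun v =>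
    congrArg (fun L : Cn n →L[ℂ] Cn n => L v) (tD_tE K hx)
  have h2 : rp K α i x ![tE K i x v, tE K i x w] = 0 := by
    rw [h, zap]
  rw [rp, pb_apply2, h1, h1] at h2
  rw [h2, zap]

theorem realF_pb {k : ℕ} {β : (Cn n) [⋀^Fin k]→L[ℝ] ℂ} (h : RealF β) (T : Cn n →L[ℂ] Cn n) :
    RealF (pb T β) := fun v => by
  rw [pb_apply]
  exact h _

theorem chern_t11 (h : L.HermMetric) (j : L.ι) (i : A.ι) (x : M) :
    T11 (rp K (h.chernFormOn j) i x) := by
  unfold rp
  rw [chernFormOn_eq]
  exact T11.pb (cf_t11 _) _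

theorem chern_real (h : L.HermMetric) (j : L.ι) (i : A.ι) (x : M) :
    RealF (rp K (h.chernFormOn j) i x) := by
  unfold rp
  rw [chernFormOn_eq]
  exact realF_pb (cf_real _) _

theorem chern_zero {h : L.HermMetric} {j : L.ι} {y : X} (hy : y ∈ L.U j)
    (H : ∀ i, ∀ x ∈ (A.e i).source, cur (toHM J h) i x = 0) : h.chernFormOn j y = 0 := by
  obtain ⟨i, hi⟩ := A.cover (K.g.symm y)
  have hgy : K.g (K.g.symm y) = y := K.g.apply_symm_apply y
  have h1 := mat11_chern J h (j := j) hi (by rw [hgy]; exact hy)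
  rw [H i _ hi] at h1
  have h2 : rp K (h.chernFormOn j) i (K.g.symm y) = 0 := by
    refine t11_ext ?_ zero_t11 ?_ zero_real ?_
    · exact chern_t11 h j i _
    · exact chern_real h j i _
    · rw [h1, mat11_zero]
  have h3 := eq_zero_of_rp hi h2
  rwa [hgy] at h3

/-- **no flat metric** -/
theorem nonFlat_of (hc : L.ChernClassNeZero) : NonFlat (lbOf J) := by
  intro h
  by_contra hcon
  push Not at hcon
  apply hc (backHM J h)
  refine ⟨0, fun x v => rfl, fun j => ⟨fun x₀ => ?_, fun x₀ w hw => ?_⟩⟩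
  · have : chartRep (0 : Form n X 1) x₀ = fun _ => 0 := by
      funext w
      rfl
    rw [this]
    exact contDiffOn_const
  · have h1 : chartRep (0 : Form n X 1) x₀ = fun _ => 0 := by
      funext w
      rfl
    have h2 : (backHM J h).chernFormOn j ((chartAt (Cn n) x₀).symm w) = 0 :=
      chern_zero J hw.2 fun i x hx => by rw [cur_toHM_back J h hx]; exact hcon i x hx
    have h3 : chartRep ((backHM J h).chernFormOn j) x₀ w = 0 := by
      unfold Crest.CxGeometry.chartRep
      rw [h2]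
      rfl
    rw [h1, h3]
    ext v
    rw [extDeriv_apply (differentiableAt_const _)]
    simp

end

end Crest.Agent.R281.DicG_273
end

-- ▼ part R281/DicH_273
section

/-!
# R281 (S0424), HK-DIC part H (helper273): nefness and sections

* `cmp_compact`, `cmp_global` : comparison of Hermitian forms with a Kaehler metric
* `nefW_of`    : `IsNef → NefW`
* `backS`      : sections of `(lbOf J)^m` → `sectionSpace m`
* `semiample_of` : `SemiAmple (lbOf J) → L.IsSemiample`
-/

set_option autoImplicit false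
set_option linter.unusedSectionVars false

open Set Filter Topology Complex
open scoped ContDiff Matrix ComplexConjugate Manifold ComplexOrder

namespace Crest.Agent.R281.DicH_273

open Crest.Agent.R275.Geo Crest.Agent.R275.Core144 Crest.Agent.R275.EDR890
open Crest.Agent.R273.Defs_333 Crest.Agent.R273.Kah_333 Crest.Agent.R273.HessB_333
open Crest.Agent.R273.Hess_333 Crest.Agent.R273.HM_333
open Crest.Agent.R281.DicA_273 Crest.Agent.R281.Defs_273 Crest.Agent.R281.DicB_273
open Crest.Agent.R281.DicC_273 Crest.Agent.R281.DicD_273 Crest.Agent.R281.DicE_273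
open Crest.Agent.R281.DicF_273 Crest.Agent.R281.DicG_273
open Crest.CxGeometry (Form chartRep transDeriv chartWindow HolLineBundle Jl)

noncomputable section

universe u

/-! ### comparison of Hermitian matrices over compact sets -/

section Cmp

variable {n : ℕ}

/-- the quadratic form -/
def qf (G : Matrix (Fin n) (Fin n) ℂ) (v : Fin n → ℂ) : ℝ := (star v ⬝ᵥ (G *ᵥ v)).re

theorem qf_smul (G : Matrix (Fin n) (Fin n) ℂ) (c : ℝ) (v : Fin n → ℂ) :
    qf G ((c : ℂ) • v) = c ^ 2 * qf G v := by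
  unfold qf
  rw [Matrix.mulVec_smul, dotProduct_smul, star_smul, smul_dotProduct]
  simp only [smul_eq_mul, RCLike.star_def, Complex.conj_ofReal]
  rw [← mul_assoc, ← ofReal_mul, Complex.re_ofReal_mul]
  ring

theorem qf_cont {Y : Type*} [TopologicalSpace Y] {C : Set Y} {G : Y → Matrix (Fin n) (Fin n) ℂ}
    (hG : ContinuousOn G C) (S : Set (Fin n → ℂ)) :
    ContinuousOn (fun q : Y × (Fin n → ℂ) => qf (G q.1) q.2) (C ×ˢ S) := by
  have h1 : ContinuousOn (fun q : Y × (Fin n → ℂ) => G q.1) (C ×ˢ S) :=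
    hG.comp continuousOn_fst fun q hq => hq.1
  have h2 : ∀ i j, ContinuousOn (fun q : Y × (Fin n → ℂ) => G q.1 i j) (C ×ˢ S) := fun i j =>
    (continuousOn_pi.1 ((continuousOn_pi.1 h1) i)) j
  refine Complex.continuous_re.comp_continuousOn ?_
  show ContinuousOn (fun q : Y × (Fin n → ℂ) => ∑ i, star (q.2 i) * ∑ j, G q.1 i j * q.2 j) _
  refine continuousOn_finsetSum _ fun i _ => ContinuousOn.mul ?_ ?_
  · exact (continuous_star.comp ((continuous_apply i).comp continuous_snd)).continuousOn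
  · refine continuousOn_finsetSum _ fun j _ => (h2 i j).mul ?_
    exact ((continuous_apply j).comp continuous_snd).continuousOn

theorem psd_of_qf {G : Matrix (Fin n) (Fin n) ℂ} (hG : G.IsHermitian) (h : ∀ v, 0 ≤ qf G v) :
    G.PosSemidef := by
  refine Matrix.PosSemidef.of_dotProduct_mulVec_nonneg hG fun v => ?_
  rw [Complex.le_def]
  exact ⟨h v, (hG.im_star_dotProduct_mulVec_self v).symm⟩

theorem qf_sub (G H : Matrix (Fin n) (Fin n) ℂ) (v : Fin n → ℂ) :
    qf (G - H) v = qf G v - qf H v := by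
  unfold qf
  rw [Matrix.sub_mulVec, dotProduct_sub, Complex.sub_re]

theorem qf_rsmul (T : ℝ) (G : Matrix (Fin n) (Fin n) ℂ) (v : Fin n → ℂ) :
    qf ((T : ℂ) • G) v = T * qf G v := by
  unfold qf
  rw [Matrix.smul_mulVec, dotProduct_smul, smul_eq_mul, Complex.re_ofReal_mul]

theorem herm_rsmul {G : Matrix (Fin n) (Fin n) ℂ} (hG : G.IsHermitian) (T : ℝ) :
    ((T : ℂ) • G).IsHermitian := by
  unfold Matrix.IsHermitian
  rw [Matrix.conjTranspose_smul, hG.eq]
  congr 1
  exact Complex.conj_ofReal T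

/-- a continuous family of Hermitian matrices is bounded by a multiple of a positive one -/
theorem cmp_compact {Y : Type*} [TopologicalSpace Y] {C : Set Y} (hC : IsCompact C)
    {G H : Y → Matrix (Fin n) (Fin n) ℂ} (hG : ContinuousOn G C) (hH : ContinuousOn H C)
    (hp : ∀ x ∈ C, (G x).PosDef) (hh : ∀ x ∈ C, (H x).IsHermitian) :
    ∃ T : ℝ, 0 < T ∧ ∀ x ∈ C, ((T : ℂ) • G x - H x).PosSemidef := by
  set Sp : Set (Fin n → ℂ) := Metric.sphere 0 1 with hSp
  have hSpc : IsCompact Sp := isCompact_sphere 0 1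
  have hpos : ∀ q ∈ C ×ˢ Sp, 0 < qf (G q.1) q.2 := by
    rintro ⟨x, v⟩ ⟨hx, hv⟩
    have hv0 : v ≠ 0 := by
      rintro rfl
      simp [hSp] at hv
    exact (Complex.lt_def.1 ((hp x hx).dotProduct_mulVec_pos hv0)).1
  have hf : ContinuousOn (fun q : Y × (Fin n → ℂ) => qf (H q.1) q.2 / qf (G q.1) q.2) (C ×ˢ Sp) :=
    (qf_cont hH Sp).div (qf_cont hG Sp) fun q hq => (hpos q hq).ne'
  obtain ⟨T0, hT0⟩ := (hC.prod hSpc).exists_bound_of_continuousOn hf
  refine ⟨max T0 1, lt_of_lt_of_le one_pos (le_max_right _ _), fun x hx => ?_⟩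
  refine psd_of_qf ((herm_rsmul (hp x hx).1 _).sub (hh x hx)) fun v => ?_
  rw [qf_sub, qf_rsmul]
  rcases eq_or_ne v 0 with rfl | hv
  · simp [qf]
  · set c : ℝ := ‖v‖ with hc
    have hc0 : 0 < c := norm_pos_iff.2 hv
    set w : Fin n → ℂ := ((c⁻¹ : ℝ) : ℂ) • v with hw
    have hwS : w ∈ Sp := by
      rw [hSp, mem_sphere_zero_iff_norm, hw, norm_smul, Complex.norm_real, norm_inv, norm_norm,
        inv_mul_cancel₀ hc0.ne']
    have hvw : v = (c : ℂ) • w := by
      rw [hw, smul_smul, ← ofReal_mul, mul_inv_cancel₀ hc0.ne', ofReal_one, one_smul]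
    have e1 : qf (G x) v = c ^ 2 * qf (G x) w := by rw [← qf_smul, ← hvw]
    have e2 : qf (H x) v = c ^ 2 * qf (H x) w := by rw [← qf_smul, ← hvw]
    rw [e1, e2]
    have h1 := hpos (x, w) ⟨hx, hwS⟩
    have h2 := hT0 (x, w) ⟨hx, hwS⟩
    simp only at h1 h2
    have h3 : qf (H x) w / qf (G x) w ≤ max T0 1 :=
      (le_abs_self _).trans (h2.trans (le_max_left _ _))
    rw [div_le_iff₀ h1] at h3
    have h4 : 0 ≤ c ^ 2 * (max T0 1 * qf (G x) w - qf (H x) w) :=
      mul_nonneg (by positivity) (by linarith)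
    linarith

end Cmp

section Global

variable {n : ℕ} {M : Type} [TopologicalSpace M] {A : Atl n M}

theorem contOn_of_smAt {i : A.ι} {f : M → ℂ} (h : A.SmAt i f) : ContinuousOn f (A.e i).source := by
  have h1 : ContinuousOn (fun x => (fun z => f ((A.e i).symm z)) (A.e i x)) (A.e i).source :=
    ContinuousOn.comp (g := fun z => f ((A.e i).symm z)) h.continuousOn (A.e i).continuousOn
      fun x hx => (A.e i).map_source hx
  refine h1.congr fun x hx => ?_
  simp only [(A.e i).left_inv hx]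

theorem cover_chi (P : Part A) (x : M) : ∃ i, x ∈ tsupport (P.χ i) := by
  by_contra hcon
  push Not at hcon
  have h1 : ∀ i, P.ψ i x = 0 := by
    intro i
    by_contra hne
    have h2 : x ∈ tsupport (P.ψ i) := subset_tsupport _ hne
    have h3 := (P.χ_one i x h2).self_of_nhds
    exact hcon i (subset_tsupport _ (by simp [Function.mem_support, h3]))
  have h2 := P.sum_one x
  rw [finsum_eq_zero_of_forall_eq_zero h1] at h2
  exact zero_ne_one h2

/-- psd is preserved under the change of charts -/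
theorem psd_tr {B J : Matrix (Fin n) (Fin n) ℂ} (h : B.PosSemidef) :
    (Jᵀ * B * J.map conj).PosSemidef := by
  have h1 := h.conjTranspose_mul_mul_same (J.map conj)
  have h2 : (J.map conj)ᴴ = Jᵀ := by
    ext a b
    simp [Matrix.conjTranspose_apply]
  rwa [h2] at h1

theorem cmp_global [Finite A.ι] (P : Part A) (K : Kah A) (a : A.ι → M → Matrix (Fin n) (Fin n) ℂ)
    (hsm : ∀ i p q, A.SmAt i (fun x => a i x p q))
    (hh : ∀ i, ∀ x ∈ (A.e i).source, (a i x).IsHermitian)
    (htr : ∀ i j, ∀ x ∈ (A.e i).source ∩ (A.e j).source,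
      a i x = (Jm A i j x)ᵀ * a j x * (Jm A i j x).map conj) :
    ∃ T : ℝ, 0 < T ∧ ∀ i, ∀ x ∈ (A.e i).source, ((T : ℂ) • K.g i x - a i x).PosSemidef := by
  have h1 : ∀ i, ∃ T : ℝ, 0 < T ∧ ∀ x ∈ tsupport (P.χ i),
      ((T : ℂ) • K.g i x - a i x).PosSemidef := by
    intro i
    have hc : ∀ {F : M → Matrix (Fin n) (Fin n) ℂ}, (∀ p q, A.SmAt i (fun x => F x p q)) →
        ContinuousOn F (tsupport (P.χ i)) := by
      intro F hF
      refine continuousOn_pi.2 fun p => continuousOn_pi.2 fun q => ?_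
      exact (contOn_of_smAt (hF p q)).mono (P.χ_sub i)
    exact cmp_compact (P.χ_cpt i) (hc (K.sm i)) (hc (hsm i))
      (fun x hx => K.pos i x (P.χ_sub i hx)) (fun x hx => hh i x (P.χ_sub i hx))
  choose T hT0 hT using h1
  obtain ⟨B, hB⟩ := (Set.finite_range T).bddAbove
  have hB' : ∀ i, T i ≤ max B 1 := fun i => (hB ⟨i, rfl⟩).trans (le_max_left _ _)
  refine ⟨max B 1, lt_of_lt_of_le one_pos (le_max_right _ _), fun j x hx => ?_⟩
  obtain ⟨i, hi⟩ := cover_chi P x
  have hxi : x ∈ (A.e i).source := P.χ_sub i hi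
  have h2 : (((max B 1 : ℝ) : ℂ) • K.g i x - a i x).PosSemidef := by
    have h3 := (hT i x hi).add ((K.pos i x hxi).posSemidef.smul
      (show (0 : ℂ) ≤ ((max B 1 - T i : ℝ) : ℂ) by exact_mod_cast sub_nonneg.2 (hB' i)))
    have h4 : (T i : ℂ) • K.g i x - a i x + ((max B 1 - T i : ℝ) : ℂ) • K.g i x =
        ((max B 1 : ℝ) : ℂ) • K.g i x - a i x := by
      push_cast
      module
    rwa [h4] at h3
  have h5 := psd_tr (J := Jm A j i x) h2
  rw [Matrix.mul_sub, Matrix.sub_mul, Matrix.mul_smul, Matrix.smul_mul, ← K.tr j i x ⟨hx, hxi⟩,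
    ← htr j i x ⟨hx, hxi⟩] at h5
  exact h5

end Global

variable {n k : ℕ} {X : Type u} [TopologicalSpace X] [ChartedSpace (Cn n) X]
  [IsManifold 𝓘(ℂ, Cn n) ω X] {M : Type} [TopologicalSpace M] {A : Atl n M} {K : Lk A X}
  {L : HolLineBundle n X} (J : Idx K L)

theorem mat11_rsmul (c : ℝ) (β : (Cn n) [⋀^Fin 2]→L[ℝ] ℂ) : mat11 (c • β) = (c : ℂ) • mat11 β := by
  ext a b
  rw [Matrix.smul_apply, mat11_apply, mat11_apply]
  simp only [ContinuousAlternatingMap.smul_apply, Complex.real_smul, smul_eq_mul]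
  ring

/-- **nefness** -/
theorem nefW_of [Finite A.ι] (P : Part A) (K' : Kah A) (hnef : L.IsNef) : NefW K' (lbOf J) := by
  obtain ⟨α, hα, hn⟩ := hnef
  obtain ⟨T, hT0, hT⟩ := cmp_global P K' (fun i x => mat11 (rp K α i x))
    (fun i p q => mat11_rp_smooth K hα.1 (fun _ _ => mem_univ _) p q)
    (fun i x hx => mat11_herm (t11_rp K hα.2.2.1 i x) (real_rp K hα.2.1 i x))
    (fun i j x hx => mat11_rp_tr K hα.2.2.1 hx)
  intro ε hε
  obtain ⟨h, hh⟩ := hn (ε / T) (div_pos hε hT0)
  refine ⟨toHM J h, fun i x hx => ?_⟩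
  have h1 : (mat11 (rp K (h.chernFormOn (J.k i)) i x + (ε / T) • rp K α i x)).PosSemidef := by
    refine mat11_posSemidef ?_ ?_ fun v => ?_
    · intro v w
      have e1 := chern_t11 (K := K) h (J.k i) i x v w
      have e2 := t11_rp K hα.2.2.1 i x v w
      simp only [ContinuousAlternatingMap.add_apply, ContinuousAlternatingMap.smul_apply] at e1 e2 ⊢
      rw [e1, e2]
    · intro v
      have e1 := chern_real (K := K) h (J.k i) i x v
      have e2 := real_rp K hα.2.1 i x v
      simp only [ContinuousAlternatingMap.add_apply, ContinuousAlternatingMap.smul_apply,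
        Complex.real_smul, Complex.add_im, Complex.im_ofReal_mul, e1, e2, mul_zero, add_zero]
    · have e3 := hh (J.k i) (K.g x) (J.sub i x hx) (K.tD i x v)
      simp only [ContinuousAlternatingMap.add_apply, ContinuousAlternatingMap.smul_apply,
        Complex.real_smul, Complex.add_re, Complex.re_ofReal_mul]
      have e4 : ∀ β : Form n X 2, rp K β i x ![v, I • v] =
          β (K.g x) ![K.tD i x v, Crest.CxGeometry.J (K.tD i x v)] := by
        intro β
        rw [rp, pb_apply2, map_smul]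
        rfl
      rw [e4, e4]
      linarith
  rw [mat11_add, mat11_rsmul, mat11_chern J h hx (J.sub i x hx)] at h1
  have h2 := (hT i x hx).smul (show (0 : ℂ) ≤ ((ε / T : ℝ) : ℂ) by
    exact_mod_cast (div_pos hε hT0).le)
  have h3 := h1.add h2
  have h4 : cur (toHM J h) i x + ((ε / T : ℝ) : ℂ) • mat11 (rp K α i x) +
      ((ε / T : ℝ) : ℂ) • ((T : ℂ) • K'.g i x - mat11 (rp K α i x)) =
      cur (toHM J h) i x + (ε : ℂ) • K'.g i x := by
    have h5 : ((ε / T : ℝ) : ℂ) * (T : ℂ) = (ε : ℂ) := by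
      rw [← ofReal_mul, div_mul_cancel₀ _ hT0.ne']
    rw [smul_sub, smul_smul, h5]
    abel
  rwa [h4] at h3

/-! ### sections -/

variable {m : ℕ} {s : A.ι → M → ℂ}

/-- the value in the piece `j` computed with the chart `i` -/
def sv (m : ℕ) (s : A.ι → M → ℂ) (i : A.ι) (j : L.ι) (y : X) : ℂ :=
  L.g j (J.k i) y ^ m * s i (K.g.symm y)

theorem sv_indep (hs : IsHS (lbOf J ^ m) univ s) {i i' : A.ι} {j : L.ι} {y : X}
    (hi : K.g.symm y ∈ (A.e i).source) (hi' : K.g.symm y ∈ (A.e i').source) (hj : y ∈ L.U j) :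
    sv J m s i j y = sv J m s i' j y := by
  unfold sv
  have h1 := hs.tr i i' _ ⟨hi, hi'⟩ (mem_univ _)
  rw [LB_pow_g, lbOf_g J ⟨hi, hi'⟩, K.g.apply_symm_apply] at h1
  have h2 := L.cocycle j (J.k i) (J.k i') y ⟨⟨hj, mem_kU J hi⟩, mem_kU J hi'⟩
  rw [h1, h2]
  ring

open Classical in
/-- the frozen section -/
def backS (m : ℕ) (s : A.ι → M → ℂ) (j : L.ι) (y : X) : ℂ :=
  if y ∈ L.U j then sv J m s (ki K y) j y else 0

theorem backS_eq (hs : IsHS (lbOf J ^ m) univ s) {i : A.ι} {j : L.ι} {y : X}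
    (hi : K.g.symm y ∈ (A.e i).source) (hj : y ∈ L.U j) : backS J m s j y = sv J m s i j y := by
  unfold backS
  rw [if_pos hj, sv_indep J hs (ki_mem K y) hi hj]

theorem backS_mem (hs : IsHS (lbOf J ^ m) univ s) : backS J m s ∈ L.sectionSpace (m : ℤ) := by
  refine ⟨fun j => ?_, fun j y hy => if_neg hy, fun j j' y hy => ?_⟩
  · apply isHolFunOn_of K
    intro y hy
    refine ⟨ki K y, ki_mem K y, ?_⟩
    set i := ki K y with hi
    have hmem := ki_mem K y
    rw [← hi] at hmem
    set z := A.e i (K.g.symm y) with hz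
    have hzt : z ∈ (A.e i).target := (A.e i).map_source hmem
    have hzU : K.g ((A.e i).symm z) ∈ L.U j := by
      rw [hz, (A.e i).left_inv hmem, K.g.apply_symm_apply]
      exact hy
    have ho : IsOpen (K.g ⁻¹' L.U j) := (L.isOpen_U j).preimage K.g.continuous
    have hw : IsOpen ((A.e i).target ∩ (A.e i).symm ⁻¹' (K.g ⁻¹' L.U j)) := isOpen_ti ho
    have h1 : (fun v => backS J m s j (K.g ((A.e i).symm v))) =ᶠ[𝓝 z]
        fun v => L.g j (J.k i) (K.g ((A.e i).symm v)) ^ m * s i ((A.e i).symm v) := by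
      filter_upwards [hw.mem_nhds ⟨hzt, hzU⟩] with v hv
      have h2 : K.g.symm (K.g ((A.e i).symm v)) ∈ (A.e i).source := by
        rw [K.g.symm_apply_apply]; exact (A.e i).map_target hv.1
      rw [backS_eq J hs h2 hv.2]
      unfold sv
      rw [K.g.symm_apply_apply]
    refine DifferentiableAt.congr_of_eventuallyEq ?_ h1
    have h3 : HolAt A i (K.g ⁻¹' L.U j) (fun x => L.g j (J.k i) (K.g x)) :=
      holAt_of K (L.g_hol j (J.k i)) i fun x hx hx' => ⟨hx', J.sub i x hx⟩
    have h4 : DifferentiableAt ℂ (fun v => L.g j (J.k i) (K.g ((A.e i).symm v))) z :=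
      DifferentiableOn.differentiableAt h3 (hw.mem_nhds ⟨hzt, hzU⟩)
    have h5 : DifferentiableOn ℂ (fun z => s i ((A.e i).symm z)) (A.e i).target := by
      have := hs.hol i
      unfold HolAt at this
      simpa using this
    exact (h4.fun_pow m).fun_mul (h5.differentiableAt ((A.e i).open_target.mem_nhds hzt))
  · rw [backS_eq J hs (ki_mem K y) hy.1, backS_eq J hs (ki_mem K y) hy.2, zpow_natCast]
    unfold sv
    rw [L.cocycle j j' (J.k (ki K y)) y ⟨hy, mem_kU J (ki_mem K y)⟩]
    ring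

/-- **semiampleness** -/
theorem semiample_of (h : SemiAmple (lbOf J)) : L.IsSemiample := by
  obtain ⟨m, hm, H⟩ := h
  refine ⟨m, hm, fun y => ?_⟩
  obtain ⟨s, hs, i, hi, hne⟩ := H (K.g.symm y)
  refine ⟨backS J m s, backS_mem J hs, J.k i, mem_kU J hi, ?_⟩
  rw [backS_eq J hs hi (mem_kU J hi)]
  unfold sv
  rw [L_self (mem_kU J hi), one_pow, one_mul]
  exact hne

end

end Crest.Agent.R281.DicH_273
end

-- ▼ part R281/DicL_273
section

/-!
# R281 (S0424), HK-DIC part L (helper273): `wedgeTopEval` and mixed Pfaffians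

* `Zm`          : the matrix of `(dz, dz̄)` on the real basis, `det Zm = (-2i)^N`
* `tabM β`      : the matrix of a 2-form on the real basis; `tab20`, `tab02`, `tab11`
* `wedge_nn`, `wedge_two`, `wedge_type` : the densities of `(σ σ̄)^n`, `(σ σ̄)^{n-1} α²`, and 0
-/

set_option autoImplicit false
set_option linter.unusedSectionVars false

open Set Filter Topology Complex
open scoped ContDiff Matrix ComplexConjugate Manifold ComplexOrder

namespace Crest.Agent.R281.DicL_273

open Crest.Agent.R275.Geo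
open Crest.Agent.R281.DicB_273 Crest.Agent.R281.DicI_273 Crest.Agent.R281.DicJ_273
open Crest.Agent.R281.DicK_273 Crest.Agent.R281.Defs_273
open Crest.CxGeometry (wedgeTopEval stdRealBasis)

noncomputable section

variable {N : ℕ}

/-- the matrix of a 2-form on the real basis -/
def tabM (β : (Cn N) [⋀^Fin 2]→L[ℝ] ℂ) : Mt (Fin N) :=
  Matrix.of fun p q => β ![stdRealBasis N p, stdRealBasis N q]

theorem wedge_eq_F (β : Fin N → (Cn N) [⋀^Fin 2]→L[ℝ] ℂ) :
    wedgeTopEval β = (1 / (2 : ℂ) ^ N) * F (fun k => tabM (β k)) := rfl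

/-- the 2x2 block -/
def w2 : Matrix (Fin 2) (Fin 2) ℂ := !![1, I; 1, -I]

/-- the matrix of `(dz, dz̄)` on the real basis -/
def Zm (N : ℕ) : Mt (Fin N) := Matrix.kroneckerMap (· * ·) (1 : Matrix (Fin N) (Fin N) ℂ) w2

theorem Zm_apply (c a : Fin N) (s j : Fin 2) : Zm N (c, s) (a, j) = if c = a then w2 s j else 0 := by
  unfold Zm
  rw [Matrix.kroneckerMap_apply, Matrix.one_apply]
  split_ifs <;> simp

theorem det_Zm : (Zm N).det = (-(2 * I)) ^ N := by
  unfold Zm
  have h := Matrix.det_kronecker (1 : Matrix (Fin N) (Fin N) ℂ) w2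
  rw [Matrix.det_one, one_pow, one_mul, Fintype.card_fin] at h
  have h2 : w2.det = -(2 * I) := by
    rw [w2, Matrix.det_fin_two_of]
    ring
  rw [← h2]
  exact h

/-- congruence by `Zm` -/
theorem Zm_cong (B : Mt (Fin N)) (a b : Fin N) (j j' : Fin 2) :
    ((Zm N)ᵀ * B * Zm N) (a, j) (b, j') =
      ∑ s, ∑ t, w2 s j * B (a, s) (b, t) * w2 t j' := by
  rw [Matrix.mul_apply, Fintype.sum_prod_type, Finset.sum_eq_single b]
  · have h1 : ∀ t, ((Zm N)ᵀ * B) (a, j) (b, t) = ∑ s, w2 s j * B (a, s) (b, t) := by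
      intro t
      rw [Matrix.mul_apply, Fintype.sum_prod_type, Finset.sum_eq_single a]
      · refine Finset.sum_congr rfl fun s _ => ?_
        rw [Matrix.transpose_apply, Zm_apply, if_pos rfl]
      · intro c _ hc
        refine Finset.sum_eq_zero fun s _ => ?_
        rw [Matrix.transpose_apply, Zm_apply, if_neg hc, zero_mul]
      · intro h
        exact absurd (Finset.mem_univ a) h
    rw [Finset.sum_comm]
    refine Finset.sum_congr rfl fun t _ => ?_
    rw [h1, Zm_apply, if_pos rfl, Finset.sum_mul]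
  · intro c _ hc
    refine Finset.sum_eq_zero fun s _ => ?_
    rw [Zm_apply, if_neg hc, mul_zero]
  · intro h
    exact absurd (Finset.mem_univ b) h

theorem blk_00 (P Q R T : Sq N) (a b : Fin N) : blk P Q R T (a, 0) (b, 0) = P a b := rfl
theorem blk_01 (P Q R T : Sq N) (a b : Fin N) : blk P Q R T (a, 0) (b, 1) = Q a b := rfl
theorem blk_10 (P Q R T : Sq N) (a b : Fin N) : blk P Q R T (a, 1) (b, 0) = R a b := rfl
theorem blk_11 (P Q R T : Sq N) (a b : Fin N) : blk P Q R T (a, 1) (b, 1) = T a b := rfl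

theorem w2_00 : w2 0 0 = 1 := rfl
theorem w2_01 : w2 0 1 = I := rfl
theorem w2_10 : w2 1 0 = 1 := rfl
theorem w2_11 : w2 1 1 = -I := rfl

theorem Zm_blk (P Q R T : Sq N) (a b : Fin N) (j j' : Fin 2) :
    ((Zm N)ᵀ * blk P Q R T * Zm N) (a, j) (b, j') =
      w2 0 j * P a b * w2 0 j' + w2 0 j * Q a b * w2 1 j' +
        (w2 1 j * R a b * w2 0 j' + w2 1 j * T a b * w2 1 j') := by
  rw [Zm_cong, Fin.sum_univ_two, Fin.sum_univ_two, Fin.sum_univ_two, blk_00, blk_01, blk_10, blk_11]

theorem srb_zero (a : Fin N) : stdRealBasis N (a, 0) = bs a := rfl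

theorem srb_one (a : Fin N) : stdRealBasis N (a, 1) = I • bs a := by
  have : stdRealBasis N (a, 1) = EuclideanSpace.single a I := rfl
  rw [this, Crest.Agent.R281.DicD_273.single_I]

theorem tabM_apply (β : (Cn N) [⋀^Fin 2]→L[ℝ] ℂ) (p q : Fin N × Fin 2) :
    tabM β p q = β ![stdRealBasis N p, stdRealBasis N q] := rfl

theorem tab20 {β : (Cn N) [⋀^Fin 2]→L[ℝ] ℂ} (h : T20 β) :
    tabM β = (Zm N)ᵀ * sg (mat20 β) * Zm N := by
  ext ⟨a, j⟩ ⟨b, j'⟩
  rw [Zm_blk, tabM_apply]
  have hm : mat20 β a b = β ![bs a, bs b] := rfl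
  fin_cases j <;> fin_cases j'
  · simp only [Fin.zero_eta, srb_zero, w2_00, w2_10, hm, Matrix.zero_apply]
    ring
  · simp only [Fin.zero_eta, Fin.mk_one, srb_zero, srb_one, w2_00, w2_10, w2_01, w2_11, hm,
      Matrix.zero_apply, h.right]
    ring
  · simp only [Fin.zero_eta, Fin.mk_one, srb_zero, srb_one, w2_00, w2_10, w2_01, w2_11, hm,
      Matrix.zero_apply, h _ _ _]
    ring
  · simp only [Fin.mk_one, srb_one, w2_01, w2_11, hm, Matrix.zero_apply, h.right, h _ _ _]
    ring

/-- conjugate of a form -/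
def cj2 (β : (Cn N) [⋀^Fin 2]→L[ℝ] ℂ) : (Cn N) [⋀^Fin 2]→L[ℝ] ℂ :=
  (Complex.conjCLE : ℂ ≃L[ℝ] ℂ).toContinuousLinearMap.compContinuousAlternatingMap β

theorem cj2_apply (β : (Cn N) [⋀^Fin 2]→L[ℝ] ℂ) (v : Fin 2 → Cn N) : cj2 β v = conj (β v) := rfl

theorem tab02 {β : (Cn N) [⋀^Fin 2]→L[ℝ] ℂ} (h : T20 β) :
    tabM (cj2 β) = (Zm N)ᵀ * sb ((mat20 β).map conj) * Zm N := by
  ext ⟨a, j⟩ ⟨b, j'⟩
  rw [Zm_blk, tabM_apply, cj2_apply]
  have hm : ((mat20 β).map conj) a b = conj (β ![bs a, bs b]) := rfl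
  fin_cases j <;> fin_cases j'
  · simp only [Fin.zero_eta, srb_zero, w2_00, w2_10, hm, Matrix.zero_apply]
    ring
  · simp only [Fin.zero_eta, Fin.mk_one, srb_zero, srb_one, w2_00, w2_10, w2_01, w2_11, hm,
      Matrix.zero_apply, h.right, map_mul, Complex.conj_I]
    ring
  · simp only [Fin.zero_eta, Fin.mk_one, srb_zero, srb_one, w2_00, w2_10, w2_01, w2_11, hm,
      Matrix.zero_apply, h _ _ _, map_mul, Complex.conj_I]
    ring
  · simp only [Fin.mk_one, srb_one, w2_01, w2_11, hm, Matrix.zero_apply, h.right, h _ _ _, map_mul,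
      Complex.conj_I]
    ring

theorem tab11 {β : (Cn N) [⋀^Fin 2]→L[ℝ] ℂ} (h : T11 β) :
    tabM β = (Zm N)ᵀ * al ((I / (2 * Real.pi)) • mat11 β) * Zm N := by
  ext ⟨a, j⟩ ⟨b, j'⟩
  rw [Zm_blk, tabM_apply]
  have hpi : (Real.pi : ℂ) ≠ 0 := by exact_mod_cast Real.pi_ne_zero
  have hab : ((I / (2 * Real.pi) : ℂ) • mat11 β) a b =
      (I / 2) * (β ![bs a, I • bs b] - I * β ![bs a, bs b]) := by
    rw [Matrix.smul_apply, mat11_apply, smul_eq_mul]
    field_simp
  have hba : (-((I / (2 * Real.pi) : ℂ) • mat11 β)ᵀ) a b =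
      -(I / 2) * (β ![bs a, I • bs b] + I * β ![bs a, bs b]) := by
    rw [Matrix.neg_apply, Matrix.transpose_apply, Matrix.smul_apply, mat11_apply, smul_eq_mul]
    have h1 : β ![bs b, I • bs a] = β ![bs a, I • bs b] := by
      rw [f2_swap, h.J_left, neg_neg]
    rw [h1, f2_swap β (bs a) (bs b)]
    field_simp
    ring
  rw [hab, hba]
  simp only [Matrix.zero_apply]
  fin_cases j <;> fin_cases j'
  · simp only [Fin.zero_eta, srb_zero, w2_00, w2_10]
    linear_combination (β ![bs a, bs b]) * I_sq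
  · simp only [Fin.zero_eta, Fin.mk_one, srb_zero, srb_one, w2_00, w2_10, w2_01, w2_11]
    linear_combination (β ![bs a, I • bs b]) * I_sq
  · simp only [Fin.zero_eta, Fin.mk_one, srb_zero, srb_one, w2_00, w2_10, w2_01, w2_11,
      h.J_left]
    linear_combination (-β ![bs a, I • bs b]) * I_sq
  · simp only [Fin.mk_one, srb_one, w2_01, w2_11, h _ _]
    linear_combination (β ![bs a, bs b] * (1 - I ^ 2)) * I_sq

/-! ### factor lists of forms -/

/-- the factor list of forms -/
def ff (a b : ℕ) (σ τ α : (Cn N) [⋀^Fin 2]→L[ℝ] ℂ) : Fin N → (Cn N) [⋀^Fin 2]→L[ℝ] ℂ := fun k =>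
  if k.val < a then σ else if k.val < a + b then τ else α

theorem wedge_ff {σ α : (Cn N) [⋀^Fin 2]→L[ℝ] ℂ} (hσ : T20 σ) (hα : T11 α) (a b : ℕ) :
    wedgeTopEval (ff a b σ (cj2 σ) α) = (-I) ^ N *
      F (fl a b (sg (mat20 σ)) (sb ((mat20 σ).map conj)) (al ((I / (2 * Real.pi)) • mat11 α))) := by
  rw [wedge_eq_F]
  have h1 : (fun k => tabM (ff a b σ (cj2 σ) α k)) = fun k => (Zm N)ᵀ *
      (fl a b (sg (mat20 σ)) (sb ((mat20 σ).map conj)) (al ((I / (2 * Real.pi)) • mat11 α))) k *
        Zm N := by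
    funext k
    unfold ff fl
    split_ifs
    · exact tab20 hσ
    · exact tab02 hσ
    · exact tab11 hα
  rw [h1, F_cong, det_Zm, ← mul_assoc]
  congr 1
  rw [one_div, ← inv_pow, ← mul_pow]
  congr 1
  ring

/-- the constant of the density of `(σ σ̄)^n` -/
def kap (n : ℕ) : ℂ := (-I) ^ (2 * n) * cD n

theorem kap_ne (n : ℕ) : kap n ≠ 0 :=
  mul_ne_zero (pow_ne_zero _ (neg_ne_zero.2 I_ne_zero)) (cD_ne n)

variable {n : ℕ}

theorem wedge_nn {σ α : (Cn (2 * n)) [⋀^Fin 2]→L[ℝ] ℂ} (hσ : T20 σ) (hα : T11 α)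
    (hd : (mat20 σ).det ≠ 0) :
    wedgeTopEval (ff n n σ (cj2 σ) α) = kap n * ((‖(mat20 σ).det‖ : ℝ) : ℂ) := by
  rw [wedge_ff hσ hα, fl_full rfl _ _ _ 0]
  have := F_det (mat20_alt σ) hd
  unfold D at this
  rw [this, kap, mul_assoc]

theorem wedge_two (hn : 1 ≤ n) {σ α : (Cn (2 * n)) [⋀^Fin 2]→L[ℝ] ℂ} (hσ : T20 σ) (hα : T11 α)
    (hd : (mat20 σ).det ≠ 0) :
    wedgeTopEval (ff (n - 1) (n - 1) σ (cj2 σ) α) =
      kap n / (4 * Real.pi ^ 2 * (n : ℂ) ^ 2) * qm (mat20 σ) (mat11 α) (mat11 α) := by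
  set S := mat20 σ with hS
  set M := mat11 α with hM
  have hSt : Sᵀ = -S := mat20_alt σ
  have hSc : (S.map conj)ᵀ = -(S.map conj) := by
    rw [← Matrix.transpose_map, hSt]
    ext a b
    simp
  have hdc : (S.map conj).det ≠ 0 := by
    rw [← RingHom.mapMatrix_apply, ← RingHom.map_det]
    simpa using hd
  have h1 := F_two hn rfl hSt hSc (isUnit_iff_ne_zero.2 hd) (isUnit_iff_ne_zero.2 hdc) 0
    (H := (I / (2 * Real.pi)) • M)
  have h2 := F_det hSt hd
  unfold D at h2
  rw [h2] at h1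
  rw [wedge_ff hσ hα, ← hS, ← hM]
  have hpi : (Real.pi : ℂ) ≠ 0 := by exact_mod_cast Real.pi_ne_zero
  have hnc : (n : ℂ) ≠ 0 := by exact_mod_cast (by omega : n ≠ 0)
  have h3 : ((S.map conj)⁻¹ * ((I / (2 * Real.pi) : ℂ) • M)ᵀ * S⁻¹ *
      ((I / (2 * Real.pi) : ℂ) • M)).trace =
      -(1 / (4 * Real.pi ^ 2)) * (S⁻¹ * M * (S.map conj)⁻¹ * Mᵀ).trace := by
    rw [Matrix.transpose_smul]
    simp only [Matrix.mul_smul, Matrix.smul_mul, Matrix.trace_smul, smul_smul, smul_eq_mul]
    have h4 : ((S.map conj)⁻¹ * Mᵀ * S⁻¹ * M).trace = (S⁻¹ * M * (S.map conj)⁻¹ * Mᵀ).trace := by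
      rw [Matrix.mul_assoc ((S.map conj)⁻¹ * Mᵀ), Matrix.trace_mul_comm, ← Matrix.mul_assoc]
    rw [h4]
    field_simp
    rw [I_sq]
    ring
  rw [h3] at h1
  unfold qm kap
  have h5 : F (fl (n - 1) (n - 1) (sg S) (sb (S.map conj)) (al ((I / (2 * Real.pi)) • M))) =
      -(1 / (4 * Real.pi ^ 2)) * (S⁻¹ * M * (S.map conj)⁻¹ * Mᵀ).trace *
        (cD n * ((‖S.det‖ : ℝ) : ℂ)) / (n : ℂ) ^ 2 := by
    rw [eq_div_iff (pow_ne_zero _ hnc), mul_comm]
    exact h1
  rw [h5]
  field_simp

theorem wedge_type {σ α : (Cn N) [⋀^Fin 2]→L[ℝ] ℂ} (hσ : T20 σ) (hα : T11 α) {a b : ℕ}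
    (h : a + b ≤ N) (hab : a ≠ b) : wedgeTopEval (ff a b σ (cj2 σ) α) = 0 := by
  rw [wedge_ff hσ hα, F_type h hab, mul_zero]

end

end Crest.Agent.R281.DicL_273
end

-- ▼ part R281/Dci1_699
section

/-!
# R281 (S0424), HK-DIC-INT part 1 (helper699): naturality of `wedgeTopEval`, Lebesgue measure

* `sbasis N`        : `stdRealBasis N` as a real basis of `ℂᴺ`;
* `wet_comp`        : `wedgeTopEval (β ∘ T) = det T • wedgeTopEval β` for real linear `T`;
* `wet_compC`       : the same for complex linear `T`, with `|det_ℂ T|²`;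
* `rcE`, `mp_rc`    : real coordinates `ℂᴺ → (Fin N × Fin 2 → ℝ)` preserve Lebesgue measure.
-/

set_option autoImplicit false

open Set Filter Topology MeasureTheory
open scoped ContDiff

namespace Crest.Agent.R281.Dci1_699

open Crest.CxGeometry

noncomputable section

variable {N : ℕ}

/-! ### alternating maps with values in `ℂ` -/

theorem alt_eq {ι V : Type*} [Fintype ι] [DecidableEq ι] [AddCommGroup V] [Module ℝ V]
    (e : Module.Basis ι ℝ V) (f : V [⋀^ι]→ₗ[ℝ] ℂ) (v : ι → V) : f v = (e.det v) • f e := by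
  have h : f = ((LinearMap.toSpanSingleton ℝ ℂ (f e)).compAlternatingMap e.det) := by
    refine Module.Basis.ext_alternating e fun i h => ?_
    let σ : Equiv.Perm ι := Equiv.ofBijective i (Finite.injective_iff_bijective.1 h)
    change f (e ∘ σ) = ((LinearMap.toSpanSingleton ℝ ℂ (f e)).compAlternatingMap e.det) (e ∘ σ)
    rw [AlternatingMap.map_perm, AlternatingMap.map_perm]
    congr 1
    simp [Module.Basis.det_self]
  conv_lhs => rw [h]
  simp

/-- the product `∏ β_k (v (k,0), v (k,1))` as a multilinear map -/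
def prodM (β : Fin N → (Cn N) [⋀^Fin 2]→L[ℝ] ℂ) :
    MultilinearMap ℝ (fun _ : Fin N × Fin 2 => Cn N) ℂ where
  toFun v := ∏ k : Fin N, β k ![v (k, 0), v (k, 1)]
  map_update_add' := by
    intro _ v p x y
    obtain ⟨k, a⟩ := p
    rw [← Finset.mul_prod_erase _ _ (Finset.mem_univ k),
      ← Finset.mul_prod_erase _ _ (Finset.mem_univ k),
      ← Finset.mul_prod_erase _ _ (Finset.mem_univ k)]
    have h0 : ∀ z, ∏ l ∈ Finset.univ.erase k, β l ![Function.update v (k, a) z (l, 0),
        Function.update v (k, a) z (l, 1)] = ∏ l ∈ Finset.univ.erase k, β l ![v (l, 0), v (l, 1)] := by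
      intro z
      refine Finset.prod_congr rfl fun l hl => ?_
      have hl' : l ≠ k := (Finset.mem_erase.1 hl).1
      rw [Function.update_of_ne (by simp [hl']), Function.update_of_ne (by simp [hl'])]
    rw [h0, h0, h0, ← add_mul]
    congr 1
    have h1 : ∀ z, (![Function.update v (k, a) z (k, 0), Function.update v (k, a) z (k, 1)] :
        Fin 2 → Cn N) = Function.update ![v (k, 0), v (k, 1)] a z := by
      intro z
      ext b
      fin_cases a <;> fin_cases b <;> simp [Function.update]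
    rw [h1, h1, h1]
    exact (β k).map_update_add _ a x y
  map_update_smul' := by
    intro _ v p c x
    obtain ⟨k, a⟩ := p
    rw [← Finset.mul_prod_erase _ _ (Finset.mem_univ k),
      ← Finset.mul_prod_erase _ _ (Finset.mem_univ k)]
    have h0 : ∀ z, ∏ l ∈ Finset.univ.erase k, β l ![Function.update v (k, a) z (l, 0),
        Function.update v (k, a) z (l, 1)] = ∏ l ∈ Finset.univ.erase k, β l ![v (l, 0), v (l, 1)] := by
      intro z
      refine Finset.prod_congr rfl fun l hl => ?_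
      have hl' : l ≠ k := (Finset.mem_erase.1 hl).1
      rw [Function.update_of_ne (by simp [hl']), Function.update_of_ne (by simp [hl'])]
    rw [h0, h0, ← smul_mul_assoc]
    congr 1
    have h1 : ∀ z, (![Function.update v (k, a) z (k, 0), Function.update v (k, a) z (k, 1)] :
        Fin 2 → Cn N) = Function.update ![v (k, 0), v (k, 1)] a z := by
      intro z
      ext b
      fin_cases a <;> fin_cases b <;> simp [Function.update]
    rw [h1, h1]
    exact (β k).map_update_smul _ a c x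

theorem prodM_apply (β : Fin N → (Cn N) [⋀^Fin 2]→L[ℝ] ℂ) (v : Fin N × Fin 2 → Cn N) :
    prodM β v = ∏ k : Fin N, β k ![v (k, 0), v (k, 1)] := rfl

/-- the top form `β₀ ∧ ⋯ ∧ β_{N-1}` (times `2ᴺ`) as an alternating map -/
def topM (β : Fin N → (Cn N) [⋀^Fin 2]→L[ℝ] ℂ) : (Cn N) [⋀^Fin N × Fin 2]→ₗ[ℝ] ℂ :=
  MultilinearMap.alternatization (prodM β)

theorem topM_apply (β : Fin N → (Cn N) [⋀^Fin 2]→L[ℝ] ℂ) (v : Fin N × Fin 2 → Cn N) :
    topM β v = ∑ π : Equiv.Perm (Fin N × Fin 2), ((Equiv.Perm.sign π : ℤ) : ℂ) *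
      ∏ k : Fin N, β k ![v (π (k, 0)), v (π (k, 1))] := by
  unfold topM
  rw [MultilinearMap.alternatization_apply]
  refine Finset.sum_congr rfl fun π _ => ?_
  rw [Units.smul_def, zsmul_eq_mul, MultilinearMap.domDomCongr_apply, prodM_apply]

theorem wet_eq (β : Fin N → (Cn N) [⋀^Fin 2]→L[ℝ] ℂ) :
    wedgeTopEval β = (1 / (2 : ℂ) ^ N) * topM β (stdRealBasis N) := by
  rw [topM_apply]
  rfl

/-! ### the standard real basis -/

theorem sb0 (k : Fin N) : stdRealBasis N (k, 0) = EuclideanSpace.single k (1 : ℂ) := by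
  simp [stdRealBasis]

theorem sb1 (k : Fin N) : stdRealBasis N (k, 1) = EuclideanSpace.single k Complex.I := by
  simp [stdRealBasis]

theorem orthonormal_sb (N : ℕ) : Orthonormal ℝ (stdRealBasis N) := by
  classical
  rw [orthonormal_iff_ite]
  rintro ⟨k, a⟩ ⟨l, b⟩
  have h : inner ℝ (stdRealBasis N (k, a)) (stdRealBasis N (l, b)) =
      ∑ j, inner ℝ (stdRealBasis N (k, a) j) (stdRealBasis N (l, b) j) := PiLp.inner_apply _ _
  rw [h]
  fin_cases a <;> fin_cases b <;>
    simp [sb0, sb1, PiLp.single_apply, Complex.inner]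
  · simp only [apply_ite Complex.re, Complex.one_re, Complex.zero_re]
    rw [Finset.sum_ite_eq' Finset.univ k (fun x => if x = l then (1 : ℝ) else 0)]
    simp
  · simp [apply_ite Complex.re]
  · simp [apply_ite Complex.re, apply_ite (starRingEnd ℂ)]
  · simp only [apply_ite (starRingEnd ℂ), mul_ite, apply_ite Complex.re, Complex.conj_I, map_zero,
      mul_zero, mul_neg, Complex.I_mul_I, neg_neg, Complex.one_re, Complex.zero_re]
    rw [Finset.sum_ite_eq' Finset.univ l (fun x => if x = k then (1 : ℝ) else 0)]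
    simp [eq_comm]

/-- the orthonormal basis `stdRealBasis` -/
def onb (N : ℕ) : OrthonormalBasis (Fin N × Fin 2) ℝ (Cn N) :=
  OrthonormalBasis.mk (orthonormal_sb N) (by
    rw [top_le_iff]
    refine (orthonormal_sb N).linearIndependent.span_eq_top_of_card_eq_finrank' ?_
    rw [Fintype.card_prod, Fintype.card_fin, Fintype.card_fin, finrank_real_of_complex,
      finrank_euclideanSpace, Fintype.card_fin, mul_comm])

theorem onb_coe (N : ℕ) : ⇑(onb N) = stdRealBasis N := OrthonormalBasis.coe_mk _ _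

theorem onb_toBasis (N : ℕ) : ⇑((onb N).toBasis) = stdRealBasis N := by
  rw [OrthonormalBasis.coe_toBasis, onb_coe]

/-! ### naturality -/

theorem topM_comp (β : Fin N → (Cn N) [⋀^Fin 2]→L[ℝ] ℂ) (T : Cn N →L[ℝ] Cn N)
    (v : Fin N × Fin 2 → Cn N) :
    topM (fun k => (β k).compContinuousLinearMap T) v = topM β (fun p => T (v p)) := by
  rw [topM_apply, topM_apply]
  refine Finset.sum_congr rfl fun π _ => ?_
  congr 1
  refine Finset.prod_congr rfl fun k _ => ?_
  rw [ContinuousAlternatingMap.compContinuousLinearMap_apply]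
  congr 1
  ext a : 1
  fin_cases a <;> rfl

/-- naturality of `wedgeTopEval` under real linear maps -/
theorem wet_comp (β : Fin N → (Cn N) [⋀^Fin 2]→L[ℝ] ℂ) (T : Cn N →L[ℝ] Cn N) :
    wedgeTopEval (fun k => (β k).compContinuousLinearMap T) =
      ((LinearMap.det (T : Cn N →ₗ[ℝ] Cn N) : ℝ) : ℂ) * wedgeTopEval β := by
  rw [wet_eq, wet_eq, topM_comp, alt_eq (onb N).toBasis (topM β), onb_toBasis]
  have h : (onb N).toBasis.det (fun p => T (stdRealBasis N p)) =
      LinearMap.det (T : Cn N →ₗ[ℝ] Cn N) := by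
    have := (onb N).toBasis.det_comp (T : Cn N →ₗ[ℝ] Cn N) (onb N).toBasis
    rw [Module.Basis.det_self, mul_one] at this
    rw [← this]
    congr 1
    funext p
    simp [onb_coe]
  rw [h, Complex.real_smul]
  ring

theorem det_restrict (T : Cn N →L[ℂ] Cn N) :
    LinearMap.det ((T.restrictScalars ℝ : Cn N →L[ℝ] Cn N) : Cn N →ₗ[ℝ] Cn N) =
      ‖LinearMap.det (T : Cn N →ₗ[ℂ] Cn N)‖ ^ 2 := by
  have h : ((T.restrictScalars ℝ : Cn N →L[ℝ] Cn N) : Cn N →ₗ[ℝ] Cn N) =
      (T : Cn N →ₗ[ℂ] Cn N).restrictScalars ℝ := rfl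
  rw [h, LinearMap.det_restrictScalars, Algebra.norm_complex_apply, Complex.normSq_eq_norm_sq]

/-- naturality under complex linear maps -/
theorem wet_compC (β : Fin N → (Cn N) [⋀^Fin 2]→L[ℝ] ℂ) (T : Cn N →L[ℂ] Cn N) :
    wedgeTopEval (fun k => (β k).compContinuousLinearMap (T.restrictScalars ℝ)) =
      ((‖LinearMap.det (T : Cn N →ₗ[ℂ] Cn N)‖ ^ 2 : ℝ) : ℂ) * wedgeTopEval β := by
  rw [wet_comp, det_restrict]

/-! ### Lebesgue measure -/

/-- real coordinates -/
def rcE (z : Cn N) : Fin N × Fin 2 → ℝ := fun p => if p.2 = 0 then (z p.1).re else (z p.1).im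

theorem rcE_eq (z : Cn N) : rcE z = ((onb N).repr z).ofLp := by
  funext p
  obtain ⟨k, a⟩ := p
  rw [OrthonormalBasis.repr_apply_apply, onb_coe]
  have h : inner ℝ (stdRealBasis N (k, a)) z = ∑ j, inner ℝ (stdRealBasis N (k, a) j) (z j) :=
    PiLp.inner_apply _ _
  rw [h]
  fin_cases a
  · simp [rcE, sb0, PiLp.single_apply, Complex.inner, apply_ite (starRingEnd ℂ),
      apply_ite Complex.re]
  · simp [rcE, sb1, PiLp.single_apply, Complex.inner, apply_ite (starRingEnd ℂ),
      apply_ite Complex.re]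

theorem mp_rc (N : ℕ) : MeasurePreserving (rcE (N := N)) := by
  have h1 := (onb N).measurePreserving_measurableEquiv
  have h2 := EuclideanSpace.volume_preserving_symm_measurableEquiv_toLp (Fin N × Fin 2)
  have e : rcE (N := N) = ⇑(MeasurableEquiv.toLp 2 (Fin N × Fin 2 → ℝ)).symm ∘
      ⇑(onb N).measurableEquiv := by
    funext z
    exact rcE_eq z
  rw [e]
  exact h2.comp h1

theorem me_rc (N : ℕ) : MeasurableEmbedding (rcE (N := N)) := by
  have e : rcE (N := N) = ⇑(MeasurableEquiv.toLp 2 (Fin N × Fin 2 → ℝ)).symm ∘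
      ⇑(onb N).measurableEquiv := by
    funext z
    exact rcE_eq z
  rw [e]
  exact (MeasurableEquiv.measurableEmbedding _).comp (MeasurableEquiv.measurableEmbedding _)

theorem integral_rc {E : Type*} [NormedAddCommGroup E] [NormedSpace ℝ E]
    (f : (Fin N × Fin 2 → ℝ) → E) : ∫ z : Cn N, f (rcE z) = ∫ x, f x :=
  (mp_rc N).integral_comp (me_rc N) f

end

end Crest.Agent.R281.Dci1_699
end

-- ▼ part R281/Dci2_699
section

/-!
# R281 (S0424), HK-DIC-INT part 2 (helper699): frozen forms in the charts of `A`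

`K : Lk A X` is helper273's link. For a frozen form `β`:

* `rp K β i x`  : `β` at `g x` in the coordinates of the chart `i`;
* `rp_chg`      : `rp K β i x = (chartRep β c w) ∘ D(change of charts)`, `w = chartAt c (g x)`;
* `rp_ps`       : in the chart `i`, `rp` is `chartRep β (y i)` composed with the affine map;
* `wd K β`      : the density `wedgeTopEval` of `N` two-forms in the charts; `wd_den : Den A`.
-/

set_option autoImplicit false
set_option linter.unusedSectionVars false

open Set Filter Topology MeasureTheory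
open scoped ContDiff Manifold

namespace Crest.Agent.R281.Dci2_699

open Crest.CxGeometry (Form chartRep transDeriv chartWindow wedgeTopEval IsSmoothOn)
open Crest.Agent.R275.Geo Crest.Agent.R275.Core144
open Crest.Agent.R275.SerG398 (lint dens)
open Crest.Agent.R273.StokesV_332 (Den intD)
open Crest.Agent.R281.DicA_273 Crest.Agent.R281.Dci1_699

noncomputable section

universe u

variable {n : ℕ} {X : Type u} [TopologicalSpace X] [ChartedSpace (Cn n) X]
  {M : Type} [TopologicalSpace M] {A : Atl n M} (K : Lk A X)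

/-- the frozen form `β` at `g x`, in the coordinates of the chart `i` of `A` -/
def rp {k : ℕ} (β : Form n X k) (i : A.ι) (x : M) : (Cn n) [⋀^Fin k]→L[ℝ] ℂ :=
  (β (K.g x)).compContinuousLinearMap ((K.tD i x).restrictScalars ℝ)

/-- the change of coordinates from the chart `i` of `A` to the preferred chart at `c` -/
def chg (i : A.ι) (c : X) (z : Cn n) : Cn n := chartAt (Cn n) c (K.g ((A.e i).symm z))

/-- its derivative -/
def dchg (i : A.ι) (c : X) (x : M) : Cn n →L[ℂ] Cn n := fderiv ℂ (chg K i c) (A.e i x)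

variable [IsManifold 𝓘(ℂ, Cn n) ω X]

theorem hasFDerivAt_chg {i : A.ι} {x : M} (hx : x ∈ (A.e i).source) {c : X}
    (hc : K.g x ∈ (chartAt (Cn n) c).source) :
    HasFDerivAt (chg K i c) (dchg K i c x) (A.e i x) :=
  (K.hasFDerivAt_chg hx hc).differentiableAt.hasFDerivAt

theorem tD_chg {i : A.ι} {x : M} (hx : x ∈ (A.e i).source) {c : X}
    (hc : K.g x ∈ (chartAt (Cn n) c).source) :
    (K.tD i x).restrictScalars ℝ = (transDeriv c (chartAt (Cn n) c (K.g x))).comp
      ((dchg K i c x).restrictScalars ℝ) := by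
  rw [transDeriv_eq c ((chartAt (Cn n) c).map_source hc), (chartAt (Cn n) c).left_inv hc]
  have h1 : HasFDerivAt (fun v => chartAt (Cn n) (K.g x) ((chartAt (Cn n) c).symm v))
      (fderiv ℂ (fun v => chartAt (Cn n) (K.g x) ((chartAt (Cn n) c).symm v))
        (chartAt (Cn n) c (K.g x))) (chg K i c (A.e i x)) := by
    have : chg K i c (A.e i x) = chartAt (Cn n) c (K.g x) := by
      unfold chg
      rw [(A.e i).left_inv hx]
    rw [this]
    exact (diffAt_trans hc (mem_chart_source (Cn n) (K.g x))).hasFDerivAt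
  have h2 := h1.comp (A.e i x) (hasFDerivAt_chg K hx hc)
  have h3 : (fun z => chartAt (Cn n) (K.g x) (K.g ((A.e i).symm z))) =ᶠ[𝓝 (A.e i x)]
      (fun v => chartAt (Cn n) (K.g x) ((chartAt (Cn n) c).symm v)) ∘ chg K i c := by
    have h4 : ContinuousAt (fun z => K.g ((A.e i).symm z)) (A.e i x) :=
      K.g.continuous.continuousAt.comp ((A.e i).continuousAt_symm ((A.e i).map_source hx))
    have h5 : K.g ((A.e i).symm (A.e i x)) ∈ (chartAt (Cn n) c).source := by
      rw [(A.e i).left_inv hx]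
      exact hc
    filter_upwards [h4.preimage_mem_nhds ((chartAt (Cn n) c).open_source.mem_nhds h5)] with z hz
    show _ = chartAt (Cn n) (K.g x) ((chartAt (Cn n) c).symm (chartAt (Cn n) c _))
    rw [(chartAt (Cn n) c).left_inv hz]
  have h6 : K.tD i x = _ := (h2.congr_of_eventuallyEq h3).fderiv
  rw [h6]
  rfl

theorem rp_chg {k : ℕ} (β : Form n X k) {i : A.ι} {x : M} (hx : x ∈ (A.e i).source) {c : X}
    (hc : K.g x ∈ (chartAt (Cn n) c).source) :
    rp K β i x = (chartRep β c (chartAt (Cn n) c (K.g x))).compContinuousLinearMap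
      ((dchg K i c x).restrictScalars ℝ) := by
  unfold rp chartRep
  rw [tD_chg K hx hc, (chartAt (Cn n) c).left_inv hc]
  rfl

/-- the change of charts to the preferred chart of the index is affine -/
theorem dchg_y {i : A.ι} {x : M} (hx : x ∈ (A.e i).source) :
    dchg K i (K.y i) x = (K.ρ : ℂ) • ContinuousLinearMap.id ℂ (Cn n) := by
  have h1 : chg K i (K.y i) =ᶠ[𝓝 (A.e i x)] K.ps i := by
    filter_upwards [(A.e i).open_target.mem_nhds ((A.e i).map_source hx)] with z hz
    exact K.c_symm hz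
  exact ((K.hasFDerivAt_ps i (A.e i x)).congr_of_eventuallyEq h1).fderiv

theorem rp_ps {k : ℕ} (β : Form n X k) {i : A.ι} {z : Cn n} (hz : z ∈ (A.e i).target) :
    rp K β i ((A.e i).symm z) = (chartRep β (K.y i) (K.ps i z)).compContinuousLinearMap
      (((K.ρ : ℂ) • ContinuousLinearMap.id ℂ (Cn n)).restrictScalars ℝ) := by
  have hx := (A.e i).map_target hz
  rw [rp_chg K β hx (K.src i _ hx), dchg_y K hx]
  congr 2
  exact K.c_symm hz

/-- transformation law of `rp` -/
theorem rp_tr {k : ℕ} (β : Form n X k) {i j : A.ι} {x : M}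
    (hx : x ∈ (A.e i).source ∩ (A.e j).source) :
    rp K β i x = (rp K β j x).compContinuousLinearMap
      ((fderiv ℂ (fun z => A.e j ((A.e i).symm z)) (A.e i x)).restrictScalars ℝ) := by
  unfold rp
  rw [K.tD_tr hx]
  rfl

/-- the density of `β₀ ∧ ⋯ ∧ β_{n-1}` in the charts of `A` -/
def wd (β : Fin n → Form n X 2) (i : A.ι) (x : M) : ℂ := wedgeTopEval fun k => rp K (β k) i x

theorem wd_chg (β : Fin n → Form n X 2) {i : A.ι} {x : M} (hx : x ∈ (A.e i).source) {c : X}
    (hc : K.g x ∈ (chartAt (Cn n) c).source) :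
    wd K β i x = ((‖LinearMap.det (dchg K i c x : Cn n →ₗ[ℂ] Cn n)‖ ^ 2 : ℝ) : ℂ) *
      wedgeTopEval fun k => chartRep (β k) c (chartAt (Cn n) c (K.g x)) := by
  unfold wd
  rw [← wet_compC]
  congr 1
  funext k
  exact rp_chg K (β k) hx hc

theorem det_J (i j : A.ι) (x : M) :
    (Matrix.of (A.J i j x)).det =
      LinearMap.det (fderiv ℂ (fun z => A.e j ((A.e i).symm z)) (A.e i x) : Cn n →ₗ[ℂ] Cn n) := by
  rw [← LinearMap.det_toMatrix (EuclideanSpace.basisFun (Fin n) ℂ).toBasis]
  congr 1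

theorem wd_tr (β : Fin n → Form n X 2) {i j : A.ι} {x : M}
    (hx : x ∈ (A.e i).source ∩ (A.e j).source) :
    wd K β i x = dens A i j x * wd K β j x := by
  unfold wd dens
  rw [det_J, ← wet_compC]
  congr 1
  funext k
  exact rp_tr K (β k) hx

/-! ### smoothness -/

theorem contDiffOn_wet {E : Type*} [NormedAddCommGroup E] [NormedSpace ℝ E] {s : Set E}
    {r : WithTop ℕ∞} {b : Fin n → E → (Cn n) [⋀^Fin 2]→L[ℝ] ℂ}
    (hb : ∀ k, ContDiffOn ℝ r (b k) s) : ContDiffOn ℝ r (fun z => wedgeTopEval fun k => b k z) s := by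
  unfold wedgeTopEval
  refine contDiffOn_const.mul (ContDiffOn.sum fun π _ => contDiffOn_const.mul ?_)
  refine contDiffOn_prod fun k _ => ?_
  have h : (fun z => b k z ![Crest.CxGeometry.stdRealBasis n (π (k, 0)),
      Crest.CxGeometry.stdRealBasis n (π (k, 1))]) = fun z =>
        (ContinuousAlternatingMap.apply ℝ (Cn n) ℂ ![Crest.CxGeometry.stdRealBasis n (π (k, 0)),
      Crest.CxGeometry.stdRealBasis n (π (k, 1))]) (b k z) := rfl
  rw [h]
  exact (ContinuousLinearMap.contDiff _).comp_contDiffOn (hb k)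

theorem window_univ (c : X) : chartWindow c (univ : Set X) = (chartAt (Cn n) c).target := by
  unfold Crest.CxGeometry.chartWindow
  simp

theorem contDiffOn_rep {k : ℕ} {β : Form n X k} (hβ : IsSmoothOn β univ) (c : X) :
    ContDiffOn ℝ ∞ (chartRep β c) (chartAt (Cn n) c).target := by
  have := hβ c
  rwa [window_univ] at this

theorem wd_ps (β : Fin n → Form n X 2) {i : A.ι} {z : Cn n} (hz : z ∈ (A.e i).target) :
    wd K β i ((A.e i).symm z) =
      ((‖LinearMap.det (((K.ρ : ℂ) • ContinuousLinearMap.id ℂ (Cn n) : Cn n →L[ℂ] Cn n) :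
        Cn n →ₗ[ℂ] Cn n)‖ ^ 2 : ℝ) : ℂ) *
      wedgeTopEval fun k => chartRep (β k) (K.y i) (K.ps i z) := by
  unfold wd
  rw [← wet_compC]
  congr 1
  funext k
  exact rp_ps K (β k) hz

theorem wd_sm {β : Fin n → Form n X 2} (hβ : ∀ k, IsSmoothOn (β k) univ) (i : A.ι) :
    A.SmAt i (wd K β i) := by
  refine ContDiffOn.congr ?_ fun z hz => wd_ps K β hz
  refine contDiffOn_const.mul ?_
  refine (contDiffOn_wet fun k => contDiffOn_rep (hβ k) (K.y i)).comp
    (K.contDiff_ps i).contDiffOn fun z hz => ?_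
  exact K.ps_mem hz

theorem wd_den {β : Fin n → Form n X 2} (hβ : ∀ k, IsSmoothOn (β k) univ) : Den A (wd K β) where
  sm i := wd_sm K hβ i
  tr _ _ _ hx := wd_tr K β hx

end

end Crest.Agent.R281.Dci2_699
end

-- ▼ part R281/Dci3_699
section

/-!
# R281 (S0424), HK-DIC-INT part 3 (helper699): `integralTop = intD`

* `int_chg`        : change of variables between a preferred chart of `X` and a chart of `A`;
* `lint_eq`        : `lint A i F = ∫_{target} F`;
* `integralTop_eq` : for EVERY frozen chart partition `P` and every `Q : Part A`,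
  `integralTop P β = intD Q (wd K β)`.
-/

set_option autoImplicit false
set_option linter.unusedSectionVars false

open Set Filter Topology MeasureTheory
open scoped ContDiff Manifold

namespace Crest.Agent.R281.Dci3_699

open Crest.CxGeometry (Form chartRep transDeriv chartWindow wedgeTopEval IsSmoothOn
  ChartPartition integralTop)
open Crest.Agent.R275.Geo Crest.Agent.R275.Core144
open Crest.Agent.R275.SerG398 (lint dens)
open Crest.Agent.R273.StokesV_332 (Den intD intD_fintype)
open Crest.Agent.R281.DicA_273 Crest.Agent.R281.Dci1_699 Crest.Agent.R281.Dci2_699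

noncomputable section

universe u

variable {n : ℕ} {X : Type u} [TopologicalSpace X] [ChartedSpace (Cn n) X]
  {M : Type} [TopologicalSpace M] {A : Atl n M} (K : Lk A X)

/-- the overlap in the coordinates of the chart `i` -/
def Sd (i : A.ι) (c : X) : Set (Cn n) :=
  {z | z ∈ (A.e i).target ∧ K.g ((A.e i).symm z) ∈ (chartAt (Cn n) c).source}

theorem isOpen_Sd (i : A.ι) (c : X) : IsOpen (Sd K i c) := by
  have h1 : ContinuousOn (fun z => K.g ((A.e i).symm z)) (A.e i).target :=
    K.g.continuous.comp_continuousOn (A.e i).continuousOn_symm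
  exact h1.isOpen_inter_preimage (A.e i).open_target (chartAt (Cn n) c).open_source

theorem injOn_chg (i : A.ι) (c : X) : InjOn (chg K i c) (Sd K i c) := by
  intro z hz w hw h
  unfold chg at h
  have h1 := (chartAt (Cn n) c).injOn hz.2 hw.2 h
  have h2 := K.g.injective h1
  exact (A.e i).symm.injOn (by simpa using hz.1) (by simpa using hw.1) h2

theorem image_Sd (i : A.ι) (c : X) : chg K i c '' Sd K i c =
    {w | w ∈ (chartAt (Cn n) c).target ∧ K.g.symm ((chartAt (Cn n) c).symm w) ∈ (A.e i).source} := by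
  ext w
  constructor
  · rintro ⟨z, hz, rfl⟩
    refine ⟨(chartAt (Cn n) c).map_source hz.2, ?_⟩
    unfold chg
    rw [(chartAt (Cn n) c).left_inv hz.2, K.g.symm_apply_apply]
    exact (A.e i).map_target hz.1
  · rintro ⟨h1, h2⟩
    refine ⟨A.e i (K.g.symm ((chartAt (Cn n) c).symm w)), ⟨(A.e i).map_source h2, ?_⟩, ?_⟩
    · rw [(A.e i).left_inv h2, K.g.apply_symm_apply]
      exact (chartAt (Cn n) c).map_target h1
    · unfold chg
      rw [(A.e i).left_inv h2, K.g.apply_symm_apply, (chartAt (Cn n) c).right_inv h1]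

variable [IsManifold 𝓘(ℂ, Cn n) ω X]

theorem int_chg (β : Fin n → Form n X 2) {i : A.ι} {c : X} {a : M → ℂ}
    (h0 : ∀ x, x ∉ (A.e i).source → a x = 0)
    (h1 : ∀ x, K.g x ∉ (chartAt (Cn n) c).source → a x = 0) :
    ∫ w in (chartAt (Cn n) c).target, a (K.g.symm ((chartAt (Cn n) c).symm w)) *
        wedgeTopEval (fun k => chartRep (β k) c w) =
      ∫ z in (A.e i).target, a ((A.e i).symm z) * wd K β i ((A.e i).symm z) := by
  have e1 : ∫ w in (chartAt (Cn n) c).target, a (K.g.symm ((chartAt (Cn n) c).symm w)) *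
        wedgeTopEval (fun k => chartRep (β k) c w) =
      ∫ w in chg K i c '' Sd K i c, a (K.g.symm ((chartAt (Cn n) c).symm w)) *
        wedgeTopEval (fun k => chartRep (β k) c w) := by
    refine setIntegral_eq_of_subset_of_forall_sdiff_eq_zero
      (chartAt (Cn n) c).open_target.measurableSet ?_ ?_
    · rw [image_Sd]
      exact fun w hw => hw.1
    · rintro w ⟨hw, hw'⟩
      rw [image_Sd] at hw'
      rw [h0 _ fun h => hw' ⟨hw, h⟩, zero_mul]
  have e2 : ∫ z in (A.e i).target, a ((A.e i).symm z) * wd K β i ((A.e i).symm z) =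
      ∫ z in Sd K i c, a ((A.e i).symm z) * wd K β i ((A.e i).symm z) := by
    refine setIntegral_eq_of_subset_of_forall_sdiff_eq_zero (A.e i).open_target.measurableSet
      (fun z hz => hz.1) ?_
    rintro z ⟨hz, hz'⟩
    rw [h1 _ fun h => hz' ⟨hz, h⟩, zero_mul]
  rw [e1, e2]
  have hd : ∀ z ∈ Sd K i c, HasFDerivWithinAt (chg K i c)
      ((dchg K i c ((A.e i).symm z)).restrictScalars ℝ) (Sd K i c) z := by
    intro z hz
    have h2 := hasFDerivAt_chg K ((A.e i).map_target hz.1) hz.2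
    rw [(A.e i).right_inv hz.1] at h2
    exact (h2.restrictScalars ℝ).hasFDerivWithinAt
  rw [integral_image_eq_integral_abs_det_fderiv_smul volume (isOpen_Sd K i c).measurableSet hd
    (injOn_chg K i c)]
  refine setIntegral_congr_fun (isOpen_Sd K i c).measurableSet fun z hz => ?_
  have hx := (A.e i).map_target hz.1
  have h3 : (chartAt (Cn n) c).symm (chg K i c z) = K.g ((A.e i).symm z) :=
    (chartAt (Cn n) c).left_inv hz.2
  have h4 : ContinuousLinearMap.det ((dchg K i c ((A.e i).symm z)).restrictScalars ℝ) =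
      ‖LinearMap.det (dchg K i c ((A.e i).symm z) : Cn n →ₗ[ℂ] Cn n)‖ ^ 2 := det_restrict _
  show |ContinuousLinearMap.det ((dchg K i c ((A.e i).symm z)).restrictScalars ℝ)| •
    (a (K.g.symm ((chartAt (Cn n) c).symm (chg K i c z))) *
        wedgeTopEval (fun k => chartRep (β k) c (chg K i c z))) =
    a ((A.e i).symm z) * wd K β i ((A.e i).symm z)
  rw [h3, K.g.symm_apply_apply, h4, abs_of_nonneg (by positivity), wd_chg K β hx hz.2,
    Complex.real_smul]
  unfold chg
  ring

/-! ### `lint` -/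

theorem lint_eq (i : A.ι) (F : M → ℂ) :
    lint A i F = ∫ z in (A.e i).target, F ((A.e i).symm z) := by
  classical
  rw [← integral_indicator (A.e i).open_target.measurableSet]
  show ∫ x : RI n → ℝ, rd A i F x = _
  rw [← integral_rc]
  congr 1
  funext z
  have h : cc (rcE z) = z := cc_rc z
  unfold rd
  rw [h, Set.indicator_apply]

/-! ### integrability -/

theorem intOn {Y : Type*} [TopologicalSpace Y] (E : OpenPartialHomeomorph Y (Cn n)) {T : Set Y}
    (hT : IsCompact T) (hs : T ⊆ E.source) {F : Cn n → ℂ} (hF : ContinuousOn F E.target)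
    (h0 : ∀ w ∈ E.target, E.symm w ∉ T → F w = 0) : IntegrableOn F E.target := by
  have h1 : IsCompact (E '' T) := hT.image_of_continuousOn (E.continuousOn.mono hs)
  have h2 : E '' T ⊆ E.target := by
    rintro _ ⟨y, hy, rfl⟩
    exact E.map_source (hs hy)
  have h3 : IntegrableOn F (E '' T) := (hF.mono h2).integrableOn_compact h1
  refine h3.of_forall_sdiff_eq_zero E.open_target.measurableSet ?_
  rintro w ⟨hw, hw'⟩
  refine h0 w hw fun h => hw' ⟨E.symm w, h, E.right_inv hw⟩

theorem cont_of_sm {f : M → ℝ} (h : A.Sm f) : Continuous f := by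
  rw [continuous_iff_continuousAt]
  intro x
  obtain ⟨i, hi⟩ := A.cover x
  have h1 : ContinuousAt (fun z => f ((A.e i).symm z)) (A.e i x) :=
    (h i).continuousOn.continuousAt ((A.e i).open_target.mem_nhds ((A.e i).map_source hi))
  have h2 := h1.comp ((A.e i).continuousAt hi)
  refine h2.congr ?_
  filter_upwards [(A.e i).open_source.mem_nhds hi] with y hy
  show f ((A.e i).symm (A.e i y)) = f y
  rw [(A.e i).left_inv hy]

/-! ### the main statement -/

theorem continuousOn_rep {β : Fin n → Form n X 2} (hβ : ∀ k, IsSmoothOn (β k) univ) (c : X) :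
    ContinuousOn (fun w => wedgeTopEval (fun k => chartRep (β k) c w)) (chartAt (Cn n) c).target :=
  (contDiffOn_wet fun k => contDiffOn_rep (hβ k) c).continuousOn

theorem integralTop_eq [T2Space M] [CompactSpace M] [Finite A.ι] {β : Fin n → Form n X 2}
    (hβ : ∀ k, IsSmoothOn (β k) univ) (P : ChartPartition n X) (Q : Part A) :
    integralTop P β = intD Q (wd K β) := by
  classical
  cases nonempty_fintype A.ι
  have : CompactSpace X := K.g.compactSpace
  have : T2Space X := K.g.t2Space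
  -- the finite set of indices
  have hfin : {c : X | (Function.support (P.ρ c)).Nonempty}.Finite :=
    P.ρ.locallyFinite.finite_nonempty_of_compact
  set F : Finset X := hfin.toFinset with hF
  have hF0 : ∀ c, c ∉ F → ∀ y, P.ρ c y = 0 := by
    intro c hc y
    by_contra h
    exact hc (by rw [hF, Set.Finite.mem_toFinset]; exact ⟨y, h⟩)
  have hsumc : ∀ y, ∑ c ∈ F, P.ρ c y = 1 := by
    intro y
    rw [← P.ρ.sum_eq_one (mem_univ y)]
    symm
    refine finsum_eq_sum_of_support_subset _ fun c hc => ?_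
    by_contra h
    exact hc (hF0 c h y)
  have hsumi : ∀ x, ∑ i, Q.ψ i x = 1 := fun x => by
    rw [← Q.sum_one x, finsum_eq_sum_of_fintype]
  -- continuity
  have hψc : ∀ i, Continuous (Q.ψ i) := fun i =>
    cont_of_sm (Q.ψ_sm i)
  have hρc : ∀ c, Continuous fun y => ((P.ρ c y : ℝ) : ℂ) := fun c =>
    Complex.continuous_ofReal.comp (P.ρ c).continuous
  have hψ0 : ∀ i x, x ∉ (A.e i).source → Q.ψ i x = 0 := fun i x hx =>
    Crest.Agent.R273.StokesV_332.psi_zero_off Q i fun h => hx (Q.χ_sub i h)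
  have hρ0 : ∀ c y, y ∉ (chartAt (Cn n) c).source → P.ρ c y = 0 := fun c y hy =>
    image_eq_zero_of_notMem_tsupport fun h => hy (P.subordinate c h)
  -- one chart
  have step : ∀ c, ∫ w in (chartAt (Cn n) c).target,
      ((P.ρ c ((chartAt (Cn n) c).symm w) : ℝ) : ℂ) *
        wedgeTopEval (fun k => chartRep (β k) c w) =
      ∑ i, ∫ z in (A.e i).target, (((P.ρ c (K.g ((A.e i).symm z)) : ℝ) : ℂ) *
        ((Q.ψ i ((A.e i).symm z) : ℝ) : ℂ)) * wd K β i ((A.e i).symm z) := by
    intro c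
    have h1 : ∀ i, ∫ z in (A.e i).target, (((P.ρ c (K.g ((A.e i).symm z)) : ℝ) : ℂ) *
        ((Q.ψ i ((A.e i).symm z) : ℝ) : ℂ)) * wd K β i ((A.e i).symm z) =
        ∫ w in (chartAt (Cn n) c).target,
          (((P.ρ c ((chartAt (Cn n) c).symm w) : ℝ) : ℂ) *
            ((Q.ψ i (K.g.symm ((chartAt (Cn n) c).symm w)) : ℝ) : ℂ)) *
          wedgeTopEval (fun k => chartRep (β k) c w) := by
      intro i
      have h2 := int_chg K β (i := i) (c := c)
        (a := fun x => ((P.ρ c (K.g x) : ℝ) : ℂ) * ((Q.ψ i x : ℝ) : ℂ))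
        (fun x hx => by simp only [hψ0 i x hx, Complex.ofReal_zero, mul_zero])
        (fun x hx => by simp only [hρ0 c _ hx, Complex.ofReal_zero, zero_mul])
      rw [← h2]
      refine setIntegral_congr_fun (chartAt (Cn n) c).open_target.measurableSet fun w _ => ?_
      simp only [K.g.apply_symm_apply]
    rw [Finset.sum_congr rfl fun i _ => h1 i, ← integral_finsetSum]
    · refine setIntegral_congr_fun (chartAt (Cn n) c).open_target.measurableSet fun w _ => ?_
      rw [← Finset.sum_mul, ← Finset.mul_sum, ← Complex.ofReal_sum, hsumi, Complex.ofReal_one,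
        mul_one]
    · intro i _
      refine intOn (chartAt (Cn n) c) (T := tsupport (P.ρ c)) (isClosed_tsupport _).isCompact
        (P.subordinate c) ?_ ?_
      · refine ContinuousOn.mul (ContinuousOn.mul ?_ ?_) (continuousOn_rep hβ c)
        · exact (hρc c).comp_continuousOn (chartAt (Cn n) c).continuousOn_symm
        · exact (Complex.continuous_ofReal.comp ((hψc i).comp
            K.g.symm.continuous)).comp_continuousOn (chartAt (Cn n) c).continuousOn_symm
      · intro w _ hw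
        rw [image_eq_zero_of_notMem_tsupport hw, Complex.ofReal_zero, zero_mul, zero_mul]
  -- the sum over `c`
  have e1 : integralTop P β = ∑ c ∈ F, ∫ w in (chartAt (Cn n) c).target,
      ((P.ρ c ((chartAt (Cn n) c).symm w) : ℝ) : ℂ) *
        wedgeTopEval (fun k => chartRep (β k) c w) := by
    refine finsum_eq_sum_of_support_subset _ fun c hc => ?_
    by_contra h
    refine hc ?_
    simp only [hF0 c h, Complex.ofReal_zero, zero_mul, integral_zero]
  rw [e1, Finset.sum_congr rfl fun c _ => step c, Finset.sum_comm, intD_fintype]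
  refine Finset.sum_congr rfl fun i _ => ?_
  rw [lint_eq, ← integral_finsetSum]
  · refine setIntegral_congr_fun (A.e i).open_target.measurableSet fun z _ => ?_
    rw [← Finset.sum_mul, ← Finset.sum_mul, ← Complex.ofReal_sum, hsumc, Complex.ofReal_one,
      one_mul]
  · intro c _
    refine intOn (A.e i) (T := tsupport (Q.χ i)) (Q.χ_cpt i) (Q.χ_sub i) ?_ ?_
    · refine ContinuousOn.mul (ContinuousOn.mul ?_ ?_) (wd_sm K hβ i).continuousOn
      · exact ((hρc c).comp K.g.continuous).comp_continuousOn (A.e i).continuousOn_symm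
      · exact (Complex.continuous_ofReal.comp (hψc i)).comp_continuousOn
          (A.e i).continuousOn_symm
    · intro z _ hz
      rw [Crest.Agent.R273.StokesV_332.psi_zero_off Q i hz, Complex.ofReal_zero, mul_zero,
        zero_mul]

end

end Crest.Agent.R281.Dci3_699
end

-- ▼ part R281/DicM_273
section

/-!
# R281 (S0424), HK-DIC part M (helper273): smoothness of the Chern form, isotropy

* `th a b`, `frm11`  : `β = frm11 (mat11 β)` for `β` of type `(1,1)`
* `chern_smooth`     : the frozen Chern form is smooth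
* `iso_of`           : the frozen isotropy gives `Isotropic`
-/

set_option autoImplicit false
set_option linter.unusedSectionVars false

open Set Filter Topology Complex
open scoped ContDiff Matrix ComplexConjugate Manifold ComplexOrder

namespace Crest.Agent.R281.DicM_273

open Crest.Agent.R275.Geo Crest.Agent.R275.Core144 Crest.Agent.R275.EDR890
open Crest.Agent.R273.Defs_333 Crest.Agent.R273.Kah_333 Crest.Agent.R273.HessB_333
open Crest.Agent.R273.StokesV_332 (Den intD intD_congr intD_smul NonnegD eq_zero_of_intD offK_univ)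
open Crest.Agent.R281.DicA_273 Crest.Agent.R281.Defs_273 Crest.Agent.R281.DicB_273
open Crest.Agent.R281.DicC_273 Crest.Agent.R281.DicD_273 Crest.Agent.R281.DicE_273
open Crest.Agent.R281.DicF_273 Crest.Agent.R281.DicG_273 Crest.Agent.R281.DicH_273
open Crest.Agent.R281.DicL_273
open Crest.CxGeometry (Form chartRep transDeriv chartWindow HolLineBundle)

noncomputable section

universe u

section Algebra

variable {n : ℕ}

/-- `(v,w) ↦ (i/2π)(v_a conj w_b - w_a conj v_b)` -/
def th (a b : Fin n) : (Cn n) [⋀^Fin 2]→L[ℝ] ℂ :=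
  (I / (2 * Real.pi)) • Crest.CxGeometry.ofBilin
    (((EuclideanSpace.proj a : Cn n →L[ℂ] ℂ).restrictScalars ℝ).smulRight
      ((Complex.conjCLE : ℂ ≃L[ℝ] ℂ).toContinuousLinearMap.comp
        ((EuclideanSpace.proj b : Cn n →L[ℂ] ℂ).restrictScalars ℝ) : Cn n →L[ℝ] ℂ))

theorem th_apply (a b : Fin n) (v w : Cn n) :
    th a b ![v, w] = (I / (2 * Real.pi)) * (v a * conj (w b) - w a * conj (v b)) := by
  unfold th Crest.CxGeometry.ofBilin
  rw [ContinuousAlternatingMap.smul_apply, alt2]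
  simp

/-- the `(1,1)`-form of a matrix -/
def frm11 (S : Matrix (Fin n) (Fin n) ℂ) : (Cn n) [⋀^Fin 2]→L[ℝ] ℂ :=
  ∑ a, ∑ b, S a b • th a b

theorem frm11_apply (S : Matrix (Fin n) (Fin n) ℂ) (v w : Cn n) :
    frm11 S ![v, w] = (I / (2 * Real.pi)) *
      (∑ a, ∑ b, S a b * v a * conj (w b) - ∑ a, ∑ b, S a b * w a * conj (v b)) := by
  unfold frm11
  simp only [ContinuousAlternatingMap.sum_apply, ContinuousAlternatingMap.smul_apply, th_apply,
    smul_eq_mul]
  rw [← Finset.sum_sub_distrib, Finset.mul_sum]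
  refine Finset.sum_congr rfl fun a _ => ?_
  rw [← Finset.sum_sub_distrib, Finset.mul_sum]
  refine Finset.sum_congr rfl fun b _ => ?_
  ring

theorem eq_frm11 {β : (Cn n) [⋀^Fin 2]→L[ℝ] ℂ} (h : T11 β) : β = frm11 (mat11 β) := by
  refine f2_ext fun v w => ?_
  rw [frm11_apply, ← h.ses_eq, ← h.ses_eq]
  unfold ses
  have h1 : β ![w, I • v] = β ![v, I • w] := by
    rw [f2_swap, h.J_left, neg_neg]
  rw [h1, f2_swap β v w]
  have hpi : (Real.pi : ℂ) ≠ 0 := by exact_mod_cast Real.pi_ne_zero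
  field_simp
  linear_combination (2 * β ![v, w]) * I_sq

theorem cd_frm11 {r : WithTop ℕ∞} {S : Cn n → Matrix (Fin n) (Fin n) ℂ} {w : Cn n}
    (h : ∀ a b, ContDiffAt ℝ r (fun v => S v a b) w) :
    ContDiffAt ℝ r (fun v => frm11 (S v)) w := by
  unfold frm11
  exact ContDiffAt.sum fun a _ => ContDiffAt.sum fun b _ => (h a b).smul contDiffAt_const

theorem cd_mul {r : WithTop ℕ∞} {P Q : Cn n → Matrix (Fin n) (Fin n) ℂ} {w : Cn n}
    (hP : ∀ a b, ContDiffAt ℝ r (fun v => P v a b) w)
    (hQ : ∀ a b, ContDiffAt ℝ r (fun v => Q v a b) w) (a b : Fin n) :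
    ContDiffAt ℝ r (fun v => (P v * Q v) a b) w := by
  simp only [Matrix.mul_apply]
  exact ContDiffAt.sum fun c _ => (hP a c).mul (hQ c b)

end Algebra

variable {n k : ℕ} {X : Type u} [TopologicalSpace X] [ChartedSpace (Cn n) X]
  [IsManifold 𝓘(ℂ, Cn n) ω X] {M : Type} [TopologicalSpace M] {A : Atl n M} {K : Lk A X}
  {L : HolLineBundle n X} (J : Idx K L)

/-- the representative in a preferred chart from the one in a chart of `A` -/
theorem chartRep_rp (K : Lk A X) (α : Form n X k) (i : A.ι) (x₀ : X) {w : Cn n}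
    (hw : w ∈ Wd K x₀ i) : chartRep α x₀ w =
      pb (fderiv ℂ (Fc K x₀ i) w) (rp K α i (K.g.symm ((chartAt (Cn n) x₀).symm w))) := by
  have h1 : chartRep α x₀ w = pb (fderiv ℂ (fun v => chartAt (Cn n)
      ((chartAt (Cn n) x₀).symm w) ((chartAt (Cn n) x₀).symm v)) w)
        (α ((chartAt (Cn n) x₀).symm w)) := by
    unfold Crest.CxGeometry.chartRep
    rw [transDeriv_eq x₀ hw.1]
    rfl
  rw [h1, ← Fc_chain K i x₀ hw]
  unfold rp
  rw [pb_comp, ← ContinuousLinearMap.comp_assoc, tD_tE K hw.2, ContinuousLinearMap.id_comp,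
    K.g.apply_symm_apply]

theorem hol_cd {f : Cn n → ℂ} {S : Set (Cn n)} (hS : IsOpen S)
    (hf : ∀ w ∈ S, DifferentiableAt ℂ f w) {w : Cn n} (hw : w ∈ S) : ContDiffAt ℝ ∞ f w :=
  (((Crest.Agent.R266.SCV.contDiffOn_omega_of_differentiableOn hS
    fun w hw => (hf w hw).differentiableWithinAt).restrict_scalars ℝ).of_le le_top).contDiffAt
      (hS.mem_nhds hw)

theorem cd_conj {r : WithTop ℕ∞} {f : Cn n → ℂ} {w : Cn n} (h : ContDiffAt ℝ r f w) :
    ContDiffAt ℝ r (fun v => conj (f v)) w :=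
  (Complex.conjCLE.contDiff.contDiffAt).comp w h

/-! ### the glued Chern form -/

theorem idx_mem (y : X) : y ∈ L.U (L.idx y) := Classical.choose_spec (L.covers y)

theorem chernForm_apply (h : L.HermMetric) (y : X) :
    h.chernForm y = h.chernFormOn (L.idx y) y := rfl

theorem rp_chern (h : L.HermMetric) (i : A.ι) (x : M) :
    rp K h.chernForm i x = rp K (h.chernFormOn (L.idx (K.g x))) i x := by
  unfold rp
  rw [chernForm_apply]

theorem cf11 (h : L.HermMetric) (i : A.ι) (x : M) : T11 (rp K h.chernForm i x) := by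
  rw [rp_chern]
  exact chern_t11 h (L.idx (K.g x)) i x

theorem mat11_chernForm (h : L.HermMetric) {i : A.ι} {x : M} (hx : x ∈ (A.e i).source) :
    mat11 (rp K h.chernForm i x) = cur (toHM J h) i x := by
  rw [rp_chern]
  exact mat11_chern J h (j := L.idx (K.g x)) hx (idx_mem _)

include J in
theorem chern_smooth (h : L.HermMetric) : Crest.CxGeometry.IsSmoothOn h.chernForm univ := by
  intro x₀ w hw
  apply ContDiffAt.contDiffWithinAt
  set i := ki K ((chartAt (Cn n) x₀).symm w) with hi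
  have hwi : w ∈ Wd K x₀ i := ⟨hw.1, ki_mem K _⟩
  have h1 : chartRep h.chernForm x₀ =ᶠ[𝓝 w] fun w => frm11 ((mx (fderiv ℂ (Fc K x₀ i) w))ᵀ *
      cur (toHM J h) i ((A.e i).symm (Fc K x₀ i w)) *
        (mx (fderiv ℂ (Fc K x₀ i) w)).map conj) := by
    filter_upwards [(isOpen_Wd K x₀ i).mem_nhds hwi] with v hv
    rw [chartRep_rp K _ i x₀ hv, eq_frm11 (T11.pb (cf11 h i _) _), T11.mat11_pb (cf11 h i _),
      mat11_chernForm J h hv.2, Fc_symm K hv]
  refine ContDiffAt.congr_of_eventuallyEq ?_ h1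
  have hG : ∀ a b, ContDiffAt ℝ ∞ (fun v => mx (fderiv ℂ (Fc K x₀ i) v) a b) w := fun a b =>
    hol_cd (isOpen_Wd K x₀ i) (fun v hv => Fc_mx_diff K i x₀ hv a b) hwi
  refine cd_frm11 fun a b => cd_mul (fun a b => cd_mul (fun a b => hG b a) (fun a b => ?_) a b)
    (fun a b => cd_conj (hG a b)) a b
  have h2 : ContDiffAt ℝ ∞ (fun z => cur (toHM J h) i ((A.e i).symm z) a b) (Fc K x₀ i w) :=
    (cur_smooth (toHM J h) i a b).contDiffAt ((A.e i).open_target.mem_nhds (Fc_mem K hwi))
  exact ContDiffAt.comp (g := fun z => cur (toHM J h) i ((A.e i).symm z) a b) w h2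
    (Fc_contDiffAt K i x₀ hwi)

/-! ### the symplectic form and its conjugate -/

theorem smooth_of_hol {α : Form n X k} (hα : Crest.CxGeometry.IsHolomorphicOn α univ) :
    Crest.CxGeometry.IsSmoothOn α univ := fun x₀ => by
  have ho : IsOpen (chartWindow x₀ (univ : Set X)) :=
    (chartAt (Cn n) x₀).isOpen_inter_preimage_symm isOpen_univ
  exact ((Crest.Agent.R266.SCV.contDiffOn_omega_of_differentiableOn ho
    (hα.2 x₀)).restrict_scalars ℝ).of_le le_top

theorem smooth_conj {α : Form n X k} (hα : Crest.CxGeometry.IsSmoothOn α univ) :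
    Crest.CxGeometry.IsSmoothOn (Crest.CxGeometry.conjForm α) univ := fun x₀ => by
  have h1 : chartRep (Crest.CxGeometry.conjForm α) x₀ = fun w =>
      ContinuousLinearMap.compContinuousAlternatingMapCLM ℝ (Cn n) ℂ ℂ (Fin k)
        (Complex.conjCLE : ℂ ≃L[ℝ] ℂ).toContinuousLinearMap (chartRep α x₀ w) := by
    funext w
    ext v
    rfl
  rw [h1]
  exact (ContinuousLinearMap.contDiff _).comp_contDiffOn (hα x₀)


end

end Crest.Agent.R281.DicM_273
end

-- ▼ part R281/DicN_273
section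

/-!
# R281 (S0424), HK-DIC part N (helper273): isotropy

* `iso_of` : the frozen isotropy (`bbfQuadratic = 0` for all metrics) gives `Isotropic`
* `exists_cp` : chart partitions exist on compact Hausdorff manifolds
-/

set_option autoImplicit false
set_option linter.unusedSectionVars false

open Set Filter Topology Complex
open scoped ContDiff Matrix ComplexConjugate Manifold ComplexOrder

namespace Crest.Agent.R281.DicN_273

open Crest.Agent.R275.Geo Crest.Agent.R275.Core144 Crest.Agent.R275.EDR890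
open Crest.Agent.R273.Defs_333 Crest.Agent.R273.Kah_333 Crest.Agent.R273.HessB_333
open Crest.Agent.R273.StokesV_332 (Den intD intD_congr intD_smul NonnegD eq_zero_of_intD offK_univ
  intD_zero)
open Crest.Agent.R281.DicA_273 Crest.Agent.R281.Defs_273 Crest.Agent.R281.DicB_273
open Crest.Agent.R281.DicC_273 Crest.Agent.R281.DicD_273 Crest.Agent.R281.DicE_273
open Crest.Agent.R281.DicF_273 Crest.Agent.R281.DicG_273 Crest.Agent.R281.DicH_273
open Crest.Agent.R281.DicL_273 Crest.Agent.R281.DicM_273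
open Crest.CxGeometry (Form chartRep transDeriv chartWindow HolLineBundle wedgeTopEval
  ChartPartition integralTop factorList conjForm bbfQuadratic IsSmoothOn IsHolSymplectic)

noncomputable section

universe u

section CP

variable {n : ℕ} {X : Type u} [TopologicalSpace X] [ChartedSpace (Cn n) X]
  [IsManifold 𝓘(ℂ, Cn n) ω X]

variable (n X) in
theorem exists_cp [CompactSpace X] [T2Space X] : Nonempty (ChartPartition n X) := by
  obtain ⟨f, hf⟩ := PartitionOfUnity.exists_isSubordinate (isClosed_univ (X := X))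
    (fun c : X => (chartAt (Cn n) c).source) (fun c => (chartAt (Cn n) c).open_source)
    (fun x _ => mem_iUnion.2 ⟨x, mem_chart_source (Cn n) x⟩)
  exact ⟨⟨f, hf⟩⟩

end CP

section Factor

variable {n : ℕ} {X : Type u} [TopologicalSpace X] [ChartedSpace (Cn n) X]
  [IsManifold 𝓘(ℂ, Cn n) ω X] {M : Type} [TopologicalSpace M] {A : Atl n M} (K : Lk A X)

theorem wd_factor (σ α : Form n X 2) (a b : ℕ) (i : A.ι) (x : M) :
    Dci2_699.wd K (factorList a b σ (conjForm σ) α) i x =
      wedgeTopEval (ff a b (rp K σ i x) (cj2 (rp K σ i x)) (rp K α i x)) := by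
  unfold Dci2_699.wd
  congr 1
  funext k
  unfold factorList ff
  split_ifs <;> rfl

theorem smooth_factor {σ α : Form n X 2} (hσ : IsSmoothOn σ univ) (hα : IsSmoothOn α univ)
    (a b : ℕ) (k : Fin n) : IsSmoothOn (factorList a b σ (conjForm σ) α k) univ := by
  unfold factorList
  split_ifs
  · exact hσ
  · exact smooth_conj hσ
  · exact hα

end Factor

variable {n : ℕ} {X : Type u} [TopologicalSpace X] [ChartedSpace (Cn (2 * n)) X]
  [IsManifold 𝓘(ℂ, Cn (2 * n)) ω X] {M : Type} [TopologicalSpace M] {A : Atl (2 * n) M}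
  {K : Lk A X} {L : HolLineBundle (2 * n) X} (J : Idx K L)

variable [T2Space M] [CompactSpace M] [Finite A.ι]

/-- **isotropy** -/
theorem iso_of [Nonempty M] (hn : 1 ≤ n) (Q : Part A) {σ : Form (2 * n) X 2}
    (hσ : IsHolSymplectic σ) (P : ChartPartition (2 * n) X)
    (hiso : ∀ h : L.HermMetric, bbfQuadratic P σ h.chernForm = 0) :
    Isotropic Q (hsympOf K hσ) (lbOf J) := by
  intro h'
  set h := backHM J h' with hh
  have hb := hiso h
  have hsm : IsSmoothOn h.chernForm univ := chern_smooth J h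
  have hs0 : IsSmoothOn σ univ := smooth_of_hol hσ.1
  have h20 : ∀ i x, T20 (rp K σ i x) := fun i x => t20_rp K hσ.1.1 i x
  have h11 : ∀ i x, T11 (rp K h.chernForm i x) := fun i x => cf11 h i x
  have hnd : ∀ i, ∀ x ∈ (A.e i).source, (mat20 (rp K σ i x)).det ≠ 0 := (hsympOf K hσ).nd
  have hI : ∀ a b, integralTop P (factorList a b σ (conjForm σ) h.chernForm) =
      intD Q (Dci2_699.wd K (factorList a b σ (conjForm σ) h.chernForm)) := fun a b =>
    Dci3_699.integralTop_eq K (smooth_factor hs0 hsm a b) P Q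
  -- the three integrals
  have e1 : Den A (Dci2_699.wd K (factorList n n σ (conjForm σ) h.chernForm)) :=
    Dci2_699.wd_den K (smooth_factor hs0 hsm n n)
  have n1 : integralTop P (factorList n n σ (conjForm σ) h.chernForm) ≠ 0 := by
    rw [hI]
    intro h0
    have hv : ∀ i, ∀ x ∈ (A.e i).source, (kap n)⁻¹ *
        Dci2_699.wd K (factorList n n σ (conjForm σ) h.chernForm) i x =
        ((‖(mat20 (rp K σ i x)).det‖ : ℝ) : ℂ) := by
      intro i x hx
      rw [wd_factor, wedge_nn (h20 i x) (h11 i x) (hnd i x hx), ← mul_assoc,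
        inv_mul_cancel₀ (kap_ne n), one_mul]
    have h1 := eq_zero_of_intD Q (e1.smul (kap n)⁻¹) (fun i x hx => by
      rw [hv i x hx]
      exact ⟨by rw [Complex.ofReal_re]; exact norm_nonneg _, Complex.ofReal_im _⟩)
      isCompact_univ (offK_univ _) (by
        rw [intD_smul Q _ isCompact_univ (offK_univ _), h0, mul_zero]
        rfl)
    obtain ⟨x⟩ := ‹Nonempty M›
    obtain ⟨i, hi⟩ := A.cover x
    have h2 := h1 i x hi
    rw [hv i x hi] at h2
    have h3 : ‖(mat20 (rp K σ i x)).det‖ = 0 := by exact_mod_cast h2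
    exact hnd i x hi (norm_eq_zero.1 h3)
  have e2 : integralTop P (factorList (n - 1) (n - 1) σ (conjForm σ) h.chernForm) =
      kap n / (4 * Real.pi ^ 2 * (n : ℂ) ^ 2) *
        intD Q (qd (hsympOf K hσ) (cur h') (cur h')) := by
    rw [hI, ← intD_smul Q _ isCompact_univ (offK_univ _)]
    refine intD_congr Q fun i x hx => ?_
    rw [wd_factor, wedge_two hn (h20 i x) (h11 i x) (hnd i x hx), mat11_chernForm J h hx,
      hh, cur_toHM_back J h' hx]
    rfl
  have e3 : integralTop P (factorList (n - 1) n σ (conjForm σ) h.chernForm) = 0 := by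
    rw [hI, ← intD_zero Q]
    refine intD_congr Q fun i x hx => ?_
    rw [wd_factor, wedge_type (h20 i x) (h11 i x) (by omega) (by omega)]
  unfold bbfQuadratic at hb
  rw [Nat.mul_div_cancel_left n two_pos, e3, e2, mul_zero, zero_mul, add_zero] at hb
  have hnc : (n : ℂ) ≠ 0 := by exact_mod_cast (by omega : n ≠ 0)
  have hpi : (Real.pi : ℂ) ≠ 0 := by exact_mod_cast Real.pi_ne_zero
  have h5 : kap n / (4 * Real.pi ^ 2 * (n : ℂ) ^ 2) ≠ 0 :=
    div_ne_zero (kap_ne n) (mul_ne_zero (mul_ne_zero four_ne_zero (pow_ne_zero _ hpi))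
      (pow_ne_zero _ hnc))
  rcases mul_eq_zero.1 hb with h6 | h6
  · rcases mul_eq_zero.1 h6 with h7 | h7
    · exact absurd h7 (div_ne_zero hnc two_ne_zero)
    · exact absurd h7 n1
  · rcases mul_eq_zero.1 h6 with h7 | h7
    · exact absurd h7 h5
    · exact h7

end

end Crest.Agent.R281.DicN_273
end

-- ▼ part R281/DicO_273

/-!
# R281 (S0424), HK-DIC part O (helper273): `Main281 → S0424`

`of_main : Main281 → ` the frozen statement.
-/

set_option autoImplicit false
set_option linter.unusedSectionVars false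

open Set Filter Topology Complex
open scoped ContDiff Manifold

namespace Crest.Agent.R281.DicO_273

open Crest.Agent.R275.Geo Crest.Agent.R275.GC293
open Crest.Agent.R281.DicA_273 Crest.Agent.R281.Defs_273 Crest.Agent.R281.DicD_273
open Crest.Agent.R281.DicE_273 Crest.Agent.R281.DicF_273 Crest.Agent.R281.DicG_273
open Crest.Agent.R281.DicH_273 Crest.Agent.R281.DicN_273
open Crest.CxGeometry (Form HolLineBundle ChartPartition bbfQuadratic IsHolSymplectic
  IsIrreducibleHolSymplectic)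

universe u

set_option maxHeartbeats 1000000 in
/-- **the frozen statement from the atlas form** -/
theorem of_main (hM : Main281)
    {n : ℕ} {X : Type u} [TopologicalSpace X] [ChartedSpace (Cn (2 * n)) X]
    [IsManifold 𝓘(ℂ, Cn (2 * n)) ω X] [CompactSpace X] [T2Space X]
    (hn : 1 ≤ n) (hX : IsIrreducibleHolSymplectic (2 * n) X)
    (L : HolLineBundle (2 * n) X) (hnef : L.IsNef) (hc1 : L.ChernClassNeZero)
    (hiso : ∀ σ : Form (2 * n) X 2, IsHolSymplectic σ →
      ∀ (h : L.HermMetric) (P : ChartPartition (2 * n) X), bbfQuadratic P σ h.chernForm = 0) :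
    L.IsSemiample := by
  obtain ⟨-, -, -, ⟨α, hα⟩, hsc, σ, hσ, hu⟩ := hX
  obtain ⟨M, tM, ⟨g⟩⟩ := exists_model (2 * n) X
  have hcM : CompactSpace M := g.symm.compactSpace
  have htM : T2Space M := g.symm.t2Space
  have hsM : SimplyConnectedSpace M :=
    ContinuousMap.HomotopyEquiv.simplyConnectedSpace (hY := hsc) g.toHomotopyEquiv
  obtain ⟨A, hfin, hG, ⟨Q⟩, K, hKg, hs⟩ := exists_lk (n := 2 * n) g L.U L.isOpen_U L.covers
  choose k hk using hs
  let J : Idx K L := ⟨k, fun i x hx => hk i hx⟩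
  obtain ⟨P⟩ := exists_cp (2 * n) X
  refine semiample_of J (hM n M A hn hG Q (kahOf K hα) (hsympOf K hσ) (uniq_of K hσ hu) (lbOf J)
    (nefW_of J Q _ hnef) (nonFlat_of J hc1) ?_)
  exact iso_of J hn Q hσ P fun h => hiso σ hσ h P

end Crest.Agent.R281.DicO_273
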