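import Mathlib

-- ▼ part R281/Ends1_989
section

/-!
# Row 281, B4-ENDS (part 1): the explicit curve `f(u,w) = 0`, covering of the complement of a
finite set, root bound, local holomorphic sections.
-/

open Polynomial Set Filter Topology
open scoped Polynomial.Bivariate

namespace Crest.Agent.R281.Ends1_989

noncomputable section

/-- The plane curve `f(u,w) = 0` (all points). -/
def Zf (f : ℂ[X][Y]) : Set (ℂ × ℂ) := {q | f.evalEval q.1 q.2 = 0}

/-- The smooth part `f(u,w) = 0`, `δ(u) ≠ 0`. -/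
def Qs (f : ℂ[X][Y]) (δ : ℂ[X]) : Set (ℂ × ℂ) := {q | f.evalEval q.1 q.2 = 0 ∧ δ.eval q.1 ≠ 0}

/-- Hypothesis: `f(u,·)` is squarefree as soon as `δ(u) ≠ 0`. -/
def Sep (f : ℂ[X][Y]) (δ : ℂ[X]) : Prop :=
  ∀ u : ℂ, δ.eval u ≠ 0 → (f.map (evalRingHom u)).Separable

theorem evalEval_monomial (u w : ℂ) (n : ℕ) (a : ℂ[X]) :
    (monomial n a : ℂ[X][Y]).evalEval u w = a.eval u * w ^ n := by
  simp [evalEval, eval_monomial]

theorem contDiff_evalEval (f : ℂ[X][Y]) (n : WithTop ℕ∞) :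
    ContDiff ℂ n (fun q : ℂ × ℂ => f.evalEval q.1 q.2) := by
  induction f using Polynomial.induction_on' with
  | add p q hp hq => simpa only [evalEval_add] using hp.add hq
  | monomial k a =>
    simp only [evalEval_monomial]
    have h1 : ContDiff ℂ n (fun u : ℂ => a.eval u) := by simpa [Polynomial.coe_aeval_eq_eval] using a.contDiff_aeval (𝕜 := ℂ) n
    exact (h1.comp contDiff_fst).mul (contDiff_snd.pow k)

theorem continuous_evalEval (f : ℂ[X][Y]) :
    Continuous (fun q : ℂ × ℂ => f.evalEval q.1 q.2) := (contDiff_evalEval f 0).continuous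

theorem isClosed_Zf (f : ℂ[X][Y]) : IsClosed (Zf f) :=
  isClosed_eq (continuous_evalEval f) continuous_const

/-- The continuous root bound. -/
def bd (f : ℂ[X][Y]) (u : ℂ) : ℝ := 1 + ∑ i ∈ Finset.range f.natDegree, ‖(f.coeff i).eval u‖

theorem continuous_bd (f : ℂ[X][Y]) : Continuous (bd f) := by
  unfold bd
  refine continuous_const.add (continuous_finsetSum _ fun i _ => ?_)
  exact (f.coeff i).continuous.norm

theorem evalEval_eq_sum (f : ℂ[X][Y]) (u w : ℂ) :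
    f.evalEval u w = ∑ i ∈ Finset.range (f.natDegree + 1), (f.coeff i).eval u * w ^ i := by
  conv_lhs => rw [f.as_sum_range]
  rw [evalEval_finsetSum]
  exact Finset.sum_congr rfl fun i _ => evalEval_monomial u w i _

theorem norm_le_bd {f : ℂ[X][Y]} (hf : f.Monic) {u w : ℂ} (h : f.evalEval u w = 0) :
    ‖w‖ ≤ bd f u := by
  have hs0 : 0 ≤ ∑ i ∈ Finset.range f.natDegree, ‖(f.coeff i).eval u‖ :=
    Finset.sum_nonneg fun i _ => norm_nonneg _
  by_cases h1 : ‖w‖ ≤ 1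
  · unfold bd; linarith
  push Not at h1
  rw [evalEval_eq_sum, Finset.sum_range_succ] at h
  have hc : (f.coeff f.natDegree).eval u = 1 := by
    rw [show f.coeff f.natDegree = 1 from hf]; simp
  rw [hc, one_mul] at h
  rcases Nat.eq_zero_or_pos f.natDegree with h0 | hpos
  · rw [h0] at h; simp at h
  have h2 : w ^ f.natDegree = -∑ i ∈ Finset.range f.natDegree, (f.coeff i).eval u * w ^ i := by
    linear_combination h
  have h3 : ‖w‖ ^ f.natDegree ≤
      (∑ i ∈ Finset.range f.natDegree, ‖(f.coeff i).eval u‖) * ‖w‖ ^ (f.natDegree - 1) := by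
    calc ‖w‖ ^ f.natDegree = ‖w ^ f.natDegree‖ := (norm_pow _ _).symm
      _ = ‖∑ i ∈ Finset.range f.natDegree, (f.coeff i).eval u * w ^ i‖ := by rw [h2, norm_neg]
      _ ≤ ∑ i ∈ Finset.range f.natDegree, ‖(f.coeff i).eval u * w ^ i‖ := norm_sum_le _ _
      _ ≤ ∑ i ∈ Finset.range f.natDegree, ‖(f.coeff i).eval u‖ * ‖w‖ ^ (f.natDegree - 1) := by
          refine Finset.sum_le_sum fun i hi => ?_
          rw [norm_mul, norm_pow]
          refine mul_le_mul_of_nonneg_left ?_ (norm_nonneg _)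
          exact pow_le_pow_right₀ h1.le (by have := Finset.mem_range.1 hi; omega)
      _ = _ := by rw [Finset.sum_mul]
  have h4 : 0 < ‖w‖ ^ (f.natDegree - 1) := pow_pos (by linarith) _
  have h5 : ‖w‖ ^ f.natDegree = ‖w‖ * ‖w‖ ^ (f.natDegree - 1) := by
    rw [← pow_succ']; congr 1; omega
  rw [h5] at h3
  have h6 := le_of_mul_le_mul_right h3 h4
  unfold bd; linarith

theorem evalEval_eq_eval_map (f : ℂ[X][Y]) (u w : ℂ) :
    f.evalEval u w = (f.map (evalRingHom u)).eval w := (map_evalRingHom_eval u w f).symm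

theorem derivative_ne_zero {f : ℂ[X][Y]} {δ : ℂ[X]} (hs : Sep f δ) {u w : ℂ}
    (h : f.evalEval u w = 0) (hu : δ.eval u ≠ 0) : (derivative f).evalEval u w ≠ 0 := by
  have h1 := hs u hu
  rw [evalEval_eq_eval_map, ← Polynomial.derivative_map]
  intro h2
  rw [evalEval_eq_eval_map] at h
  have := h1.eval₂_derivative_ne_zero (RingHom.id ℂ) (x := w) (by simpa using h)
  exact this (by simpa using h2)

/-- derivative in `w` -/
theorem hasDerivAt_w (f : ℂ[X][Y]) (u w : ℂ) :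
    HasDerivAt (fun w => f.evalEval u w) ((derivative f).evalEval u w) w := by
  have h := (f.map (evalRingHom u)).hasDerivAt w
  rw [evalEval_eq_eval_map, ← Polynomial.derivative_map]
  refine h.congr_of_eventuallyEq (Eventually.of_forall fun w' => ?_)
  exact evalEval_eq_eval_map f u w'

/-- The chart `(u,w) ↦ (u, f(u,w))`. -/
def Psi (f : ℂ[X][Y]) (q : ℂ × ℂ) : ℂ × ℂ := (q.1, f.evalEval q.1 q.2)

/-- invertible shear -/
def shear (a b : ℂ) (hb : b ≠ 0) : (ℂ × ℂ) ≃L[ℂ] (ℂ × ℂ) :=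
  ContinuousLinearEquiv.equivOfInverse
    ((ContinuousLinearMap.fst ℂ ℂ ℂ).prod
      (a • ContinuousLinearMap.fst ℂ ℂ ℂ + b • ContinuousLinearMap.snd ℂ ℂ ℂ))
    ((ContinuousLinearMap.fst ℂ ℂ ℂ).prod
      (b⁻¹ • (ContinuousLinearMap.snd ℂ ℂ ℂ - a • ContinuousLinearMap.fst ℂ ℂ ℂ)))
    (fun x => by
      ext <;> simp
      field_simp)
    (fun x => by
      ext <;> simp
      field_simp
      ring)

theorem exists_hasStrictFDerivAt {f : ℂ[X][Y]} {q : ℂ × ℂ}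
    (hd : (derivative f).evalEval q.1 q.2 ≠ 0) :
    ∃ L : (ℂ × ℂ) ≃L[ℂ] (ℂ × ℂ), HasStrictFDerivAt (Psi f) (L : (ℂ × ℂ) →L[ℂ] (ℂ × ℂ)) q := by
  have h1 : HasStrictFDerivAt (fun q : ℂ × ℂ => f.evalEval q.1 q.2)
      (fderiv ℂ (fun q : ℂ × ℂ => f.evalEval q.1 q.2) q) q :=
    (contDiff_evalEval f 1).contDiffAt.hasStrictFDerivAt one_ne_zero
  set D := fderiv ℂ (fun q : ℂ × ℂ => f.evalEval q.1 q.2) q with hD
  have hb : D (0, 1) = (derivative f).evalEval q.1 q.2 := by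
    have h2 : HasDerivAt (fun w => f.evalEval q.1 w) (D (0, 1)) q.2 := by
      have h3 : HasFDerivAt (fun q : ℂ × ℂ => f.evalEval q.1 q.2) D (q.1, q.2) := h1.hasFDerivAt
      have h4 : HasDerivAt (fun w : ℂ => (q.1, w)) ((0 : ℂ), (1 : ℂ)) q.2 :=
        (hasDerivAt_const _ _).prodMk (hasDerivAt_id _)
      exact h3.comp_hasDerivAt q.2 h4
    exact h2.unique (hasDerivAt_w f q.1 q.2)
  refine ⟨shear (D (1, 0)) (D (0, 1)) (by rw [hb]; exact hd), ?_⟩
  have h5 : HasStrictFDerivAt (Psi f) ((ContinuousLinearMap.fst ℂ ℂ ℂ).prod D) q :=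
    (hasStrictFDerivAt_fst).prodMk h1
  convert h5 using 1
  ext
  · simp [shear]
  · simp [shear]
  · simp [shear]
  · simp [shear]

end

end Crest.Agent.R281.Ends1_989
end

-- ▼ part R281/Ends2_989
section

/-!
# Row 281, B4-ENDS (part 2): `π : {f = 0} → ℂ` is a finite covering over `{δ ≠ 0}`; lifting of
maps from the upper half plane, holomorphy of lifts.
-/

open Polynomial Set Filter Topology
open scoped Polynomial.Bivariate

namespace Crest.Agent.R281.Ends2_989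

open Ends1_989

noncomputable section

variable {f : ℂ[X][Y]} {δ : ℂ[X]}

/-- projection to `u` -/
def pr (f : ℂ[X][Y]) (x : Zf f) : ℂ := x.1.1

theorem continuous_pr (f : ℂ[X][Y]) : Continuous (pr f) := by
  unfold pr; fun_prop

/-- local homeomorphism with holomorphic inverse -/
theorem exists_chart (hd : ∀ q : ℂ × ℂ, f.evalEval q.1 q.2 = 0 → δ.eval q.1 ≠ 0 →
      (derivative f).evalEval q.1 q.2 ≠ 0) {q : ℂ × ℂ} (h0 : f.evalEval q.1 q.2 = 0)
    (hδ : δ.eval q.1 ≠ 0) :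
    ∃ e : OpenPartialHomeomorph (ℂ × ℂ) (ℂ × ℂ), q ∈ e.source ∧ (e : ℂ × ℂ → ℂ × ℂ) = Psi f ∧
      DifferentiableAt ℂ e.symm (q.1, 0) := by
  obtain ⟨L, hL⟩ := exists_hasStrictFDerivAt (hd q h0 hδ)
  refine ⟨hL.toOpenPartialHomeomorph (Psi f), hL.mem_toOpenPartialHomeomorph_source, rfl, ?_⟩
  have h := hL.to_localInverse
  have h2 : Psi f q = (q.1, 0) := by simp [Psi, h0]
  rw [h2] at h
  exact h.hasFDerivAt.differentiableAt

theorem isLocalHomeomorphOn_pr (hs : Sep f δ) :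
    IsLocalHomeomorphOn (pr f) (pr f ⁻¹' {u | δ.eval u ≠ 0}) := by
  intro x hx
  obtain ⟨e, hxe, he, -⟩ := exists_chart (f := f) (δ := δ)
    (fun q h1 h2 => derivative_ne_zero hs h1 h2) (q := x.1) x.2 hx
  have hsrc : ∀ y : Zf f, y.1 ∈ e.source → e y.1 = (y.1.1, 0) := fun y _ => by
    rw [he]; simp only [Psi]; rw [show f.evalEval y.1.1 y.1.2 = 0 from y.2]
  have hmem : ∀ u : ℂ, (u, (0 : ℂ)) ∈ e.target → (e.symm (u, 0)) ∈ Zf f := fun u hu => by
    have h1 := e.right_inv hu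
    rw [he] at h1
    simp only [Psi, Prod.mk.injEq] at h1
    exact h1.2
  have hfst : ∀ u : ℂ, (u, (0 : ℂ)) ∈ e.target → (e.symm (u, 0)).1 = u := fun u hu => by
    have h1 := e.right_inv hu
    rw [he] at h1
    simp only [Psi, Prod.mk.injEq] at h1
    exact h1.1
  classical
  let φ : OpenPartialHomeomorph (Zf f) ℂ :=
    { toFun := pr f
      invFun := fun u => if hu : (u, (0 : ℂ)) ∈ e.target then ⟨e.symm (u, 0), hmem u hu⟩ else x
      source := {y | y.1 ∈ e.source}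
      target := {u | (u, (0 : ℂ)) ∈ e.target}
      map_source' := fun y hy => by
        have := e.map_source hy
        rw [hsrc y hy] at this
        exact this
      map_target' := fun u hu => by
        have hu' : (u, (0 : ℂ)) ∈ e.target := hu
        simp only [mem_ofPred_eq, dif_pos hu']
        exact e.map_target hu'
      left_inv' := fun y hy => by
        have h1 := e.map_source hy
        rw [hsrc y hy] at h1
        have h2 : (pr f y, (0 : ℂ)) ∈ e.target := h1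
        simp only [dif_pos h2]
        ext1
        have h3 := e.left_inv hy
        rw [hsrc y hy] at h3
        exact h3
      right_inv' := fun u hu => by
        have hu' : (u, (0 : ℂ)) ∈ e.target := hu
        simp only [dif_pos hu', pr]
        exact hfst u hu'
      open_source := e.open_source.preimage continuous_subtype_val
      open_target := e.open_target.preimage (by fun_prop)
      continuousOn_toFun := (continuous_pr f).continuousOn
      continuousOn_invFun := by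
        rw [continuousOn_iff_continuous_domRestrict, continuous_induced_rng]
        have h1 : Continuous fun u : {u : ℂ | (u, (0 : ℂ)) ∈ e.target} => e.symm (u.1, 0) := by
          have h2 := e.continuousOn_symm
          rw [continuousOn_iff_continuous_domRestrict] at h2
          exact h2.comp (f := fun u : {u : ℂ | (u, (0 : ℂ)) ∈ e.target} =>
            (⟨(u.1, 0), u.2⟩ : e.target)) (by fun_prop)
        refine h1.congr fun u => ?_
        have hu' : (u.1, (0 : ℂ)) ∈ e.target := u.2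
        simp [hu'] }
  exact ⟨φ, hxe, rfl⟩

theorem isProperMap_pr (hf : f.Monic) : IsProperMap (pr f) := by
  rw [isProperMap_iff_isCompact_preimage]
  refine ⟨continuous_pr f, fun K hK => ?_⟩
  obtain ⟨M, hM⟩ := hK.exists_bound_of_continuousOn (continuous_bd f).continuousOn
  have h1 : IsCompact (Zf f ∩ K ×ˢ Metric.closedBall (0 : ℂ) M) :=
    (hK.prod (isCompact_closedBall _ _)).inter_left (isClosed_Zf f)
  have h2 : (Subtype.val : Zf f → ℂ × ℂ) '' (pr f ⁻¹' K) = Zf f ∩ K ×ˢ Metric.closedBall (0 : ℂ) M := by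
    ext q
    constructor
    · rintro ⟨y, hy, rfl⟩
      refine ⟨y.2, hy, ?_⟩
      rw [mem_closedBall_zero_iff]
      exact (norm_le_bd hf y.2).trans ((le_abs_self _).trans (hM _ hy))
    · rintro ⟨h3, h4, -⟩
      exact ⟨⟨q, h3⟩, h4, rfl⟩
  rw [← h2] at h1
  exact Topology.IsInducing.subtypeVal.isCompact_iff.2 h1

theorem map_ne_zero (hf : f.Monic) (u : ℂ) : f.map (evalRingHom u) ≠ 0 :=
  (hf.map _).ne_zero

theorem finite_fiber (hf : f.Monic) (u : ℂ) : {w : ℂ | f.evalEval u w = 0}.Finite := by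
  refine ((f.map (evalRingHom u)).roots.toFinset.finite_toSet).subset fun w hw => ?_
  have hw' : f.evalEval u w = 0 := hw
  rw [evalEval_eq_eval_map] at hw'
  simp only [Multiset.mem_toFinset, Finset.mem_coe]
  exact (mem_roots (map_ne_zero hf u)).2 hw'

theorem isCoveringMapOn_pr (hf : f.Monic) (hs : Sep f δ) :
    IsCoveringMapOn (pr f) {u | δ.eval u ≠ 0} := by
  refine (isProperMap_pr hf).isClosedMap.isCoveringMapOn_of_isLocalHomeomorphOn (fun u _ => ?_)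
    (isLocalHomeomorphOn_pr hs)
  have h := finite_fiber hf u
  refine Set.Finite.of_finite_image (f := fun x : Zf f => x.1.2) (h.subset ?_) ?_
  · rintro w ⟨x, hx, rfl⟩
    have hx' : x.1.1 = u := hx
    have h2 : f.evalEval x.1.1 x.1.2 = 0 := x.2
    rw [hx'] at h2
    exact h2
  · intro x hx y hy hxy
    have hx' : x.1.1 = u := hx
    have hy' : y.1.1 = u := hy
    exact Subtype.ext (Prod.ext (hx'.trans hy'.symm) hxy)

/-- the open upper half plane as a subset of `ℂ` -/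
def Hp : Set ℂ := {z | 0 < z.im}

theorem isOpen_Hp : IsOpen Hp := isOpen_lt continuous_const Complex.continuous_im

theorem convex_Hp : Convex ℝ Hp := convex_halfSpace_im_gt 0

theorem I_mem : Complex.I ∈ Hp := by simp [Hp]

instance : Nonempty Hp := ⟨⟨Complex.I, I_mem⟩⟩

instance : SimplyConnectedSpace Hp := by
  have : ContractibleSpace Hp := convex_Hp.contractibleSpace ⟨Complex.I, I_mem⟩
  infer_instance

instance : LocallyPathConnectedSpace Hp := convex_Hp.locallyPathConnectedSpace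

/-- continuous lifts to the half plane -/
def Lf (f : ℂ[X][Y]) (φ : ℂ → ℂ) : Type := {W : C(Hp, ℂ) // ∀ z : Hp, f.evalEval (φ z) (W z) = 0}

theorem exists_lift (hf : f.Monic) (hs : Sep f δ) {φ : ℂ → ℂ} (hφ : ContinuousOn φ Hp)
    (hδ : ∀ z ∈ Hp, δ.eval (φ z) ≠ 0) {z₀ : ℂ} (hz₀ : z₀ ∈ Hp) {w₀ : ℂ}
    (h0 : f.evalEval (φ z₀) w₀ = 0) : ∃ W : Lf f φ, W.1 ⟨z₀, hz₀⟩ = w₀ := by
  have hφ' : Continuous (fun z : Hp => φ z.1) := by
    rw [continuousOn_iff_continuous_domRestrict] at hφ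
    exact hφ
  obtain ⟨F, ⟨hF0, hF⟩, -⟩ := (isCoveringMapOn_pr hf hs).existsUnique_continuousMap_lifts
    (A := Hp) ⟨fun z : Hp => φ z.1, hφ'⟩ (a₀ := ⟨z₀, hz₀⟩) (e₀ := ⟨(φ z₀, w₀), h0⟩) rfl
    (fun z => hδ z.1 z.2)
  refine ⟨⟨⟨fun z => (F z).1.2, by fun_prop⟩, fun z => ?_⟩, ?_⟩
  · have h1 : (F z).1.1 = φ z.1 := congrFun hF z
    have h2 : f.evalEval (F z).1.1 (F z).1.2 = 0 := (F z).2
    rw [h1] at h2
    exact h2
  · simp [hF0]

theorem lift_unique (hf : f.Monic) (hs : Sep f δ) {φ : ℂ → ℂ} (hφ : ContinuousOn φ Hp)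
    (hδ : ∀ z ∈ Hp, δ.eval (φ z) ≠ 0) (W W' : Lf f φ) (z₀ : Hp) (h : W.1 z₀ = W'.1 z₀) :
    W = W' := by
  have hφ' : Continuous (fun z : Hp => φ z.1) := by
    rw [continuousOn_iff_continuous_domRestrict] at hφ
    exact hφ
  have h0 : f.evalEval (φ z₀) (W.1 z₀) = 0 := W.2 z₀
  obtain ⟨F, -, hu⟩ := (isCoveringMapOn_pr hf hs).existsUnique_continuousMap_lifts
    (A := Hp) ⟨fun z : Hp => φ z.1, hφ'⟩ (a₀ := z₀) (e₀ := ⟨(φ z₀, W.1 z₀), h0⟩) rfl
    (fun z => hδ z.1 z.2)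
  let G : ∀ V : Lf f φ, C(Hp, Zf f) := fun V =>
    ⟨fun z => ⟨(φ z.1, V.1 z), V.2 z⟩, by
      refine Continuous.subtype_mk ?_ _
      exact hφ'.prodMk V.1.continuous⟩
  have h1 := hu (G W) ⟨rfl, rfl⟩
  have h2 := hu (G W') ⟨Subtype.ext (Prod.ext rfl h.symm), rfl⟩
  have h3 : G W = G W' := h1.trans h2.symm
  apply Subtype.ext
  ext z
  have h4 := congrArg (fun K : C(Hp, Zf f) => (K z).1.2) h3
  exact h4

/-- extension of a lift by zero to all of `ℂ` -/
def ext (W : C(Hp, ℂ)) (z : ℂ) : ℂ := by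
  classical exact if h : z ∈ Hp then W ⟨z, h⟩ else 0

theorem ext_of_mem (W : C(Hp, ℂ)) {z : ℂ} (h : z ∈ Hp) : ext W z = W ⟨z, h⟩ := by
  simp [ext, h]

theorem continuousOn_ext (W : C(Hp, ℂ)) : ContinuousOn (ext W) Hp := by
  rw [continuousOn_iff_continuous_domRestrict]
  refine W.continuous.congr fun z => ?_
  simp [Set.domRestrict, ext_of_mem W z.2]

/-- lifts of holomorphic maps are holomorphic -/
theorem differentiableOn_of_lift (hs : Sep f δ) {φ W : ℂ → ℂ} {U : Set ℂ} (hU : IsOpen U)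
    (hφ : DifferentiableOn ℂ φ U) (hδ : ∀ z ∈ U, δ.eval (φ z) ≠ 0) (hW : ContinuousOn W U)
    (h : ∀ z ∈ U, f.evalEval (φ z) (W z) = 0) : DifferentiableOn ℂ W U := by
  intro z₀ hz₀
  obtain ⟨e, hxe, he, hdiff⟩ := exists_chart (f := f) (δ := δ)
    (fun q h1 h2 => derivative_ne_zero hs h1 h2) (q := (φ z₀, W z₀)) (h z₀ hz₀) (hδ z₀ hz₀)
  have hφ₀ : DifferentiableAt ℂ φ z₀ := (hφ z₀ hz₀).differentiableAt (hU.mem_nhds hz₀)
  have hW₀ : ContinuousAt W z₀ := (hW z₀ hz₀).continuousAt (hU.mem_nhds hz₀)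
  have hev : ∀ᶠ z in 𝓝 z₀, W z = (e.symm (φ z, 0)).2 := by
    have h1 : ContinuousAt (fun z => (φ z, W z)) z₀ := hφ₀.continuousAt.prodMk hW₀
    have h2 : ∀ᶠ z in 𝓝 z₀, (φ z, W z) ∈ e.source := h1 (e.open_source.mem_nhds hxe)
    filter_upwards [h2, hU.mem_nhds hz₀] with z hz hzU
    have h3 := e.left_inv hz
    have h4 : e (φ z, W z) = (φ z, 0) := by
      rw [he]; simp only [Psi]; rw [h z hzU]
    rw [h4] at h3
    rw [h3]
  have h5 : DifferentiableAt ℂ (fun z => (e.symm (φ z, 0)).2) z₀ := by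
    have h6 : DifferentiableAt ℂ (fun z => (φ z, (0 : ℂ))) z₀ := hφ₀.prodMk (by fun_prop)
    have h7 : DifferentiableAt ℂ (fun z => e.symm (φ z, 0)) z₀ :=
      DifferentiableAt.comp (f := fun z => (φ z, (0 : ℂ))) z₀ hdiff h6
    exact h7.snd
  exact (h5.congr_of_eventuallyEq hev).differentiableWithinAt

end

end Crest.Agent.R281.Ends2_989
end

-- ▼ part R281/Ends3_989
section

/-!
# Row 281, B4-ENDS (part 3): one puncture.  For a 1-periodic holomorphic `φ` on the upper half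
plane with `δ(φ z) ≠ 0` the roots of `f(φ(N z), ·)` are 1-periodic holomorphic functions of `z`,
meromorphic in `q = exp(2πiz)` at `q = 0`.
-/

open Polynomial Set Filter Topology
open scoped Polynomial.Bivariate

namespace Crest.Agent.R281.Ends3_989

open Ends1_989 Ends2_989

noncomputable section

/-- the parameter `q = exp (2πiz)` -/
abbrev qq (z : ℂ) : ℂ := Function.Periodic.qParam 1 z

theorem qq_ne (z : ℂ) : qq z ≠ 0 := Function.Periodic.qParam_ne_zero z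

theorem norm_qq_lt {z : ℂ} (hz : z ∈ Hp) : ‖qq z‖ < 1 :=
  Function.Periodic.norm_qParam_lt_one one_pos hz

theorem qq_add_one (z : ℂ) : qq (z + 1) = qq z := by
  unfold qq Function.Periodic.qParam
  rw [show 2 * (Real.pi : ℂ) * Complex.I * (z + 1) / ((1 : ℝ) : ℂ) =
    2 * (Real.pi : ℂ) * Complex.I * z / ((1 : ℝ) : ℂ) + 2 * Real.pi * Complex.I by
      push_cast; ring]
  exact Complex.exp_periodic _

theorem exists_qq {t : ℂ} (h0 : t ≠ 0) (h1 : ‖t‖ < 1) : ∃ z ∈ Hp, qq z = t := by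
  refine ⟨Function.Periodic.invQParam 1 t, ?_, Function.Periodic.qParam_right_inv one_ne_zero h0⟩
  show 0 < (Function.Periodic.invQParam 1 t).im
  rw [Function.Periodic.im_invQParam]
  have := Real.log_neg (norm_pos_iff.2 h0) h1
  have h2 : (-1 / (2 * Real.pi)) < 0 := by
    have := Real.pi_pos
    exact div_neg_of_neg_of_pos (by norm_num) (by positivity)
  exact mul_pos_of_neg_of_neg h2 this

variable {f : ℂ[X][Y]} {δ : ℂ[X]} {φ : ℂ → ℂ}

theorem add_mem {z : ℂ} (hz : z ∈ Hp) (x : ℝ) : z + x ∈ Hp := by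
  simpa [Hp] using hz

/-- translation by a real number -/
def tr (x : ℝ) : C(Hp, Hp) :=
  ⟨fun z => ⟨z.1 + x, add_mem z.2 x⟩, by fun_prop⟩

/-- The shift as a permutation of the lifts. -/
def sh (hp : ∀ z, φ (z + 1) = φ z) : Equiv.Perm (Lf f φ) where
  toFun W := ⟨W.1.comp (tr 1), fun z => by
    have h := W.2 (tr 1 z)
    have h2 : φ (tr 1 z).1 = φ z.1 := by
      have := hp z.1
      simpa [tr] using this
    rw [h2] at h
    exact h⟩
  invFun W := ⟨W.1.comp (tr (-1)), fun z => by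
    have h := W.2 (tr (-1) z)
    have h2 : φ (tr (-1) z).1 = φ z.1 := by
      have := hp (z.1 + (-1 : ℝ))
      simpa [tr] using this.symm
    rw [h2] at h
    exact h⟩
  left_inv W := by
    apply Subtype.ext
    ext z
    simp [tr]
  right_inv W := by
    apply Subtype.ext
    ext z
    simp [tr]

theorem sh_pow_apply (hp : ∀ z, φ (z + 1) = φ z) (n : ℕ) (W : Lf f φ) (z : Hp) :
    (((sh hp) ^ n) W).1 z = W.1 (tr n z) := by
  induction n generalizing z with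
  | zero => simp [tr]
  | succ n ih =>
    rw [pow_succ', Equiv.Perm.mul_apply]
    show (((sh hp) ^ n) W).1 (tr 1 z) = _
    rw [ih]
    congr 1
    apply Subtype.ext
    simp [tr]
    ring

theorem finite_Lf (hf : f.Monic) (hs : Sep f δ) (hφ : ContinuousOn φ Hp)
    (hδ : ∀ z ∈ Hp, δ.eval (φ z) ≠ 0) : Finite (Lf f φ) := by
  have h := (finite_fiber hf (φ Complex.I)).to_subtype
  refine Finite.of_injective
    (fun W : Lf f φ => (⟨W.1 ⟨Complex.I, I_mem⟩, W.2 ⟨Complex.I, I_mem⟩⟩ :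
      {w : ℂ | f.evalEval (φ Complex.I) w = 0})) fun W W' h => ?_
  exact lift_unique hf hs hφ hδ W W' ⟨Complex.I, I_mem⟩ (congrArg Subtype.val h)

theorem exists_period (hf : f.Monic) (hs : Sep f δ) (hφ : ContinuousOn φ Hp)
    (hδ : ∀ z ∈ Hp, δ.eval (φ z) ≠ 0) (hp : ∀ z, φ (z + 1) = φ z) :
    ∃ N : ℕ, 0 < N ∧ ∀ (W : Lf f φ) (z : Hp), W.1 (tr N z) = W.1 z := by
  have := finite_Lf hf hs hφ hδ
  refine ⟨Nat.card (Equiv.Perm (Lf f φ)), Nat.card_pos, fun W z => ?_⟩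
  rw [← sh_pow_apply hp, pow_card_eq_one']
  rfl

theorem mul_mem {N : ℕ} (hN : 0 < N) {z : ℂ} : (N : ℂ) * z ∈ Hp ↔ z ∈ Hp := by
  have h : ((N : ℂ) * z).im = N * z.im := by simp
  have hN' : (0 : ℝ) < N := by exact_mod_cast hN
  simp only [Hp, mem_ofPred_eq, h]
  exact mul_pos_iff_of_pos_left hN'

/-- The end function attached to a lift: `z ↦ W (N z)`. -/
def Vf (N : ℕ) (W : Lf f φ) (z : ℂ) : ℂ := ext W.1 (N * z)

theorem Vf_periodic {N : ℕ} (hN : 0 < N)
    (h : ∀ (W : Lf f φ) (z : Hp), W.1 (tr N z) = W.1 z) (W : Lf f φ) :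
    Function.Periodic (Vf N W) ((1 : ℝ) : ℂ) := by
  intro z
  unfold Vf
  by_cases hz : z ∈ Hp
  · have h1 : (N : ℂ) * z ∈ Hp := (mul_mem hN).2 hz
    have h2 : (N : ℂ) * (z + ((1 : ℝ) : ℂ)) ∈ Hp := (mul_mem hN).2 (add_mem hz 1)
    rw [ext_of_mem _ h1, ext_of_mem _ h2, ← h W ⟨_, h1⟩]
    congr 1
    apply Subtype.ext
    simp [tr]
    ring
  · have h1 : (N : ℂ) * z ∉ Hp := fun hh => hz ((mul_mem hN).1 hh)
    have h2 : (N : ℂ) * (z + ((1 : ℝ) : ℂ)) ∉ Hp := fun hh => by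
      have h3 := (mul_mem hN).1 hh
      apply hz
      simpa [Hp] using h3
    show Ends2_989.ext W.1 _ = Ends2_989.ext W.1 _
    simp only [Ends2_989.ext, dif_neg h1, dif_neg h2]

theorem Vf_zero {N : ℕ} (hN : 0 < N) (W : Lf f φ) {z : ℂ}
    (hz : z ∈ Hp) : f.evalEval (φ (N * z)) (Vf N W z) = 0 := by
  have h1 : (N : ℂ) * z ∈ Hp := (mul_mem hN).2 hz
  unfold Vf
  rw [ext_of_mem _ h1]
  exact W.2 ⟨_, h1⟩

theorem differentiableOn_Vf {N : ℕ} (hN : 0 < N) (hs : Sep f δ) (hφ : DifferentiableOn ℂ φ Hp)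
    (hδ : ∀ z ∈ Hp, δ.eval (φ z) ≠ 0) (W : Lf f φ) : DifferentiableOn ℂ (Vf N W) Hp := by
  have h1 : DifferentiableOn ℂ (ext W.1) Hp :=
    differentiableOn_of_lift hs isOpen_Hp hφ hδ (continuousOn_ext W.1) fun z hz => by
      rw [ext_of_mem _ hz]; exact W.2 ⟨z, hz⟩
  exact h1.comp (f := fun z : ℂ => (N : ℂ) * z) (by fun_prop) fun z hz => (mul_mem hN).2 hz

/-- polynomial growth of the root bound -/
theorem bd_le (f : ℂ[X][Y]) : ∃ (C : ℝ) (k : ℕ), 0 ≤ C ∧ ∀ u : ℂ, bd f u ≤ C * (1 + ‖u‖) ^ k := by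
  have hpoly : ∀ a : ℂ[X], ∃ (C : ℝ) (k : ℕ), 0 ≤ C ∧ ∀ u : ℂ, ‖a.eval u‖ ≤ C * (1 + ‖u‖) ^ k := by
    intro a
    refine ⟨∑ i ∈ Finset.range (a.natDegree + 1), ‖a.coeff i‖, a.natDegree,
      Finset.sum_nonneg fun i _ => norm_nonneg _, fun u => ?_⟩
    rw [eval_eq_sum_range, Finset.sum_mul]
    refine (norm_sum_le _ _).trans (Finset.sum_le_sum fun i hi => ?_)
    rw [norm_mul, norm_pow]
    refine mul_le_mul_of_nonneg_left ?_ (norm_nonneg _)
    calc ‖u‖ ^ i ≤ (1 + ‖u‖) ^ i := by gcongr; linarith [norm_nonneg u]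
      _ ≤ (1 + ‖u‖) ^ a.natDegree :=
        pow_le_pow_right₀ (by linarith [norm_nonneg u]) (by have := Finset.mem_range.1 hi; omega)
  choose C k hC hk using hpoly
  refine ⟨1 + ∑ i ∈ Finset.range f.natDegree, C (f.coeff i),
    ∑ i ∈ Finset.range f.natDegree, k (f.coeff i), ?_, fun u => ?_⟩
  · have : 0 ≤ ∑ i ∈ Finset.range f.natDegree, C (f.coeff i) :=
      Finset.sum_nonneg fun i _ => hC _
    linarith
  · have h1 : (1 : ℝ) ≤ 1 + ‖u‖ := by linarith [norm_nonneg u]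
    unfold bd
    rw [add_mul, one_mul, Finset.sum_mul]
    refine add_le_add (one_le_pow₀ h1) (Finset.sum_le_sum fun i hi => (hk _ u).trans ?_)
    refine mul_le_mul_of_nonneg_left ?_ (hC _)
    exact pow_le_pow_right₀ h1 (Finset.single_le_sum (f := fun i => k (f.coeff i))
      (fun _ _ => Nat.zero_le _) hi)

theorem norm_qq_natMul (N : ℕ) (z : ℂ) : ‖qq (N * z)‖ = ‖qq z‖ ^ N := by
  unfold qq
  rw [Function.Periodic.norm_qParam, Function.Periodic.norm_qParam, ← Real.exp_nat_mul]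
  congr 1
  simp
  ring

/-- **Meromorphy at the puncture.** -/
theorem exists_mero {N : ℕ} (hN : 0 < N) (hf : f.Monic) (hs : Sep f δ)
    (hφ : DifferentiableOn ℂ φ Hp) (hδ : ∀ z ∈ Hp, δ.eval (φ z) ≠ 0)
    (h : ∀ (W : Lf f φ) (z : Hp), W.1 (tr N z) = W.1 z)
    {B : ℝ} (hB : ∀ z ∈ Hp, ‖φ z‖ ≤ B * ‖qq z‖⁻¹) (W : Lf f φ) :
    ∃ (k : ℕ) (H : ℂ → ℂ), DifferentiableOn ℂ H (Metric.ball 0 1) ∧
      ∀ z ∈ Hp, qq z ^ k * Vf N W z = H (qq z) := by
  obtain ⟨C, k, hC, hk⟩ := bd_le f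
  set G : ℂ → ℂ := fun z => qq z ^ (N * k) * Vf N W z with hG
  have hper : Function.Periodic G ((1 : ℝ) : ℂ) := by
    intro z
    have h1 := Vf_periodic hN h W z
    have h2 : qq (z + ((1 : ℝ) : ℂ)) = qq z := by simpa using qq_add_one z
    simp only [hG, h2, h1]
  have hqd : Differentiable ℂ qq := Function.Periodic.differentiable_qParam
  have hdiff : DifferentiableOn ℂ G Hp :=
    (hqd.differentiableOn.pow _).mul (differentiableOn_Vf hN hs hφ hδ W)
  have hB0 : 0 ≤ B := by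
    have h1 := hB Complex.I I_mem
    by_contra hneg
    push Not at hneg
    have h2 : B * ‖qq Complex.I‖⁻¹ < 0 :=
      mul_neg_of_neg_of_pos hneg (inv_pos.2 (norm_pos_iff.2 (qq_ne _)))
    linarith [norm_nonneg (φ Complex.I)]
  have hbd : ∀ z ∈ Hp, ‖G z‖ ≤ C * (1 + B) ^ k := by
    intro z hz
    have h1 : (N : ℂ) * z ∈ Hp := (mul_mem hN).2 hz
    have h2 : ‖Vf N W z‖ ≤ C * (1 + ‖φ (N * z)‖) ^ k :=
      (norm_le_bd hf (Vf_zero hN W hz)).trans (hk _)
    have h3 := hB _ h1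
    rw [norm_qq_natMul] at h3
    have hq0 : 0 < ‖qq z‖ := norm_pos_iff.2 (qq_ne z)
    have hq1 : ‖qq z‖ ^ N ≤ 1 := pow_le_one₀ hq0.le (norm_qq_lt hz).le
    have hqN : 0 < ‖qq z‖ ^ N := pow_pos hq0 _
    have h4 : (1 + ‖φ (N * z)‖) * ‖qq z‖ ^ N ≤ 1 + B := by
      have h5 : ‖φ (N * z)‖ * ‖qq z‖ ^ N ≤ B := by
        calc ‖φ (N * z)‖ * ‖qq z‖ ^ N ≤ (B * (‖qq z‖ ^ N)⁻¹) * ‖qq z‖ ^ N := by gcongr
          _ = B := by field_simp
      nlinarith
    calc ‖G z‖ = ‖qq z‖ ^ (N * k) * ‖Vf N W z‖ := by simp [hG, norm_pow]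
      _ ≤ ‖qq z‖ ^ (N * k) * (C * (1 + ‖φ (N * z)‖) ^ k) := by gcongr
      _ = C * ((1 + ‖φ (N * z)‖) * ‖qq z‖ ^ N) ^ k := by rw [mul_pow, pow_mul]; ring
      _ ≤ C * (1 + B) ^ k := by
          refine mul_le_mul_of_nonneg_left (pow_le_pow_left₀ (by positivity) h4 k) hC
  have hev : ∀ᶠ z in comap Complex.im atTop, z ∈ Hp := by
    have : Tendsto Complex.im (comap Complex.im atTop) atTop := tendsto_comap
    exact this.eventually_gt_atTop 0
  refine ⟨N * k, Function.Periodic.cuspFunction 1 G, ?_, fun z hz => ?_⟩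
  · intro t ht
    apply DifferentiableAt.differentiableWithinAt
    by_cases ht0 : t = 0
    · subst ht0
      refine Function.Periodic.differentiableAt_cuspFunction_zero one_pos hper ?_ ?_
      · filter_upwards [hev] with z hz using (hdiff z hz).differentiableAt (isOpen_Hp.mem_nhds hz)
      · refine Asymptotics.IsBigO.of_bound (C * (1 + B) ^ k) ?_
        filter_upwards [hev] with z hz
        simpa using hbd z hz
    · obtain ⟨z, hz, rfl⟩ := exists_qq ht0 (by simpa using ht)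
      exact Function.Periodic.differentiableAt_cuspFunction one_ne_zero hper
        ((hdiff z hz).differentiableAt (isOpen_Hp.mem_nhds hz))
  · exact (Function.Periodic.eq_cuspFunction one_ne_zero hper z).symm

end

end Crest.Agent.R281.Ends3_989
end

-- ▼ part R281/Ends4_989
section

/-!
# Row 281, B4-ENDS (part 4): the curve `Q = {f(u,w) = 0, δ(u) ≠ 0}` is a compact core together with
finitely many punctured-disc ends; regular functions are meromorphic at the ends.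
-/

open Polynomial Set Filter Topology
open scoped Polynomial.Bivariate

namespace Crest.Agent.R281.Ends4_989

open Ends1_989 Ends2_989 Ends3_989

noncomputable section

/-- 1-periodic holomorphic functions on the half plane of moderate growth at `i∞`. -/
def Mg (g : ℂ → ℂ) : Prop :=
  DifferentiableOn ℂ g Hp ∧ (∀ z, g (z + 1) = g z) ∧
    ∃ (C : ℝ) (m : ℕ), ∀ z ∈ Hp, ‖g z‖ * ‖qq z‖ ^ m ≤ C

theorem pow_qq_le_one {z : ℂ} (hz : z ∈ Hp) (m : ℕ) : ‖qq z‖ ^ m ≤ 1 :=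
  pow_le_one₀ (norm_nonneg _) (norm_qq_lt hz).le

theorem Mg.const (c : ℂ) : Mg (fun _ => c) :=
  ⟨differentiableOn_const _, fun _ => rfl, ‖c‖, 0, fun z _ => by simp⟩

theorem Mg.add {g h : ℂ → ℂ} (hg : Mg g) (hh : Mg h) : Mg (fun z => g z + h z) := by
  obtain ⟨dg, pg, Cg, mg, bg⟩ := hg
  obtain ⟨dh, ph, Ch, mh, bh⟩ := hh
  refine ⟨dg.add dh, fun z => by simp only [pg, ph], Cg + Ch, mg + mh, fun z hz => ?_⟩
  have h1 := bg z hz
  have h2 := bh z hz
  have h3 := pow_qq_le_one hz mg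
  have h4 := pow_qq_le_one hz mh
  have h5 : 0 ≤ ‖qq z‖ ^ mg := by positivity
  have h6 : 0 ≤ ‖qq z‖ ^ mh := by positivity
  calc ‖g z + h z‖ * ‖qq z‖ ^ (mg + mh)
      ≤ (‖g z‖ + ‖h z‖) * ‖qq z‖ ^ (mg + mh) := by gcongr; exact norm_add_le _ _
    _ = (‖g z‖ * ‖qq z‖ ^ mg) * ‖qq z‖ ^ mh + (‖h z‖ * ‖qq z‖ ^ mh) * ‖qq z‖ ^ mg := by ring
    _ ≤ (‖g z‖ * ‖qq z‖ ^ mg) * 1 + (‖h z‖ * ‖qq z‖ ^ mh) * 1 := by gcongr
    _ ≤ Cg + Ch := by linarith

theorem Mg.mul {g h : ℂ → ℂ} (hg : Mg g) (hh : Mg h) : Mg (fun z => g z * h z) := by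
  obtain ⟨dg, pg, Cg, mg, bg⟩ := hg
  obtain ⟨dh, ph, Ch, mh, bh⟩ := hh
  refine ⟨dg.mul dh, fun z => by simp only [pg, ph], Cg * Ch, mg + mh, fun z hz => ?_⟩
  have h1 := bg z hz
  have h2 := bh z hz
  calc ‖g z * h z‖ * ‖qq z‖ ^ (mg + mh) = (‖g z‖ * ‖qq z‖ ^ mg) * (‖h z‖ * ‖qq z‖ ^ mh) := by
        rw [norm_mul]; ring
    _ ≤ Cg * Ch := mul_le_mul h1 h2 (by positivity) (le_trans (by positivity) h1)

theorem Mg.pow {g : ℂ → ℂ} (hg : Mg g) (n : ℕ) : Mg (fun z => g z ^ n) := by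
  induction n with
  | zero => simpa using Mg.const 1
  | succ n ih => simpa only [pow_succ] using ih.mul hg

theorem Mg.eval {g : ℂ → ℂ} (hg : Mg g) (a : ℂ[X]) : Mg (fun z => a.eval (g z)) := by
  induction a using Polynomial.induction_on' with
  | add p q hp hq => simpa only [eval_add] using hp.add hq
  | monomial n c => simpa only [eval_monomial] using (Mg.const c).mul (hg.pow n)

theorem Mg.evalEval {u v : ℂ → ℂ} (hu : Mg u) (hv : Mg v) (g : ℂ[X][Y]) :
    Mg (fun z => g.evalEval (u z) (v z)) := by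
  induction g using Polynomial.induction_on' with
  | add p q hp hq => simpa only [evalEval_add] using hp.add hq
  | monomial n a => simpa only [evalEval_monomial] using (hu.eval a).mul (hv.pow n)

theorem Mg.exists_mero {g : ℂ → ℂ} (hg : Mg g) : ∃ (m : ℕ) (H : ℂ → ℂ),
    DifferentiableOn ℂ H (Metric.ball 0 1) ∧ ∀ z ∈ Hp, g z = (qq z ^ m)⁻¹ * H (qq z) := by
  obtain ⟨dg, pg, C, m, bg⟩ := hg
  set G : ℂ → ℂ := fun z => qq z ^ m * g z with hG
  have hper : Function.Periodic G ((1 : ℝ) : ℂ) := by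
    intro z
    have h2 : qq (z + ((1 : ℝ) : ℂ)) = qq z := by simpa using qq_add_one z
    have h1 : g (z + ((1 : ℝ) : ℂ)) = g z := by simpa using pg z
    simp only [hG, h2, h1]
  have hqd : Differentiable ℂ qq := Function.Periodic.differentiable_qParam
  have hdiff : DifferentiableOn ℂ G Hp := (hqd.differentiableOn.pow _).mul dg
  have hev : ∀ᶠ z in comap Complex.im atTop, z ∈ Hp := by
    have : Tendsto Complex.im (comap Complex.im atTop) atTop := tendsto_comap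
    exact this.eventually_gt_atTop 0
  refine ⟨m, Function.Periodic.cuspFunction 1 G, ?_, fun z hz => ?_⟩
  · intro t ht
    apply DifferentiableAt.differentiableWithinAt
    by_cases ht0 : t = 0
    · subst ht0
      refine Function.Periodic.differentiableAt_cuspFunction_zero one_pos hper ?_ ?_
      · filter_upwards [hev] with z hz using (hdiff z hz).differentiableAt (isOpen_Hp.mem_nhds hz)
      · refine Asymptotics.IsBigO.of_bound C ?_
        filter_upwards [hev] with z hz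
        have := bg z hz
        simp only [hG, norm_mul, norm_pow, Pi.one_apply, norm_one, mul_one]
        rwa [mul_comm] at this
    · obtain ⟨z, hz, rfl⟩ := exists_qq ht0 (by simpa using ht)
      exact Function.Periodic.differentiableAt_cuspFunction one_ne_zero hper
        ((hdiff z hz).differentiableAt (isOpen_Hp.mem_nhds hz))
  · have h1 := Function.Periodic.eq_cuspFunction one_ne_zero hper z
    rw [h1]
    have h2 : qq z ^ m ≠ 0 := pow_ne_zero _ (qq_ne z)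
    simp only [hG]
    field_simp

variable {f : ℂ[X][Y]} {δ : ℂ[X]} {φ : ℂ → ℂ}

theorem Mg_Vf {N : ℕ} (hN : 0 < N) (hf : f.Monic) (hs : Sep f δ)
    (hφ : DifferentiableOn ℂ φ Hp) (hδ : ∀ z ∈ Hp, δ.eval (φ z) ≠ 0)
    (h : ∀ (W : Lf f φ) (z : Hp), W.1 (tr N z) = W.1 z)
    {B : ℝ} (hB : ∀ z ∈ Hp, ‖φ z‖ ≤ B * ‖qq z‖⁻¹) (W : Lf f φ) : Mg (Vf N W) := by
  obtain ⟨C, k, hC, hk⟩ := bd_le f
  have hB0 : 0 ≤ B := by
    have h1 := hB Complex.I I_mem
    by_contra hneg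
    push Not at hneg
    have h2 : B * ‖qq Complex.I‖⁻¹ < 0 :=
      mul_neg_of_neg_of_pos hneg (inv_pos.2 (norm_pos_iff.2 (qq_ne _)))
    linarith [norm_nonneg (φ Complex.I)]
  refine ⟨differentiableOn_Vf hN hs hφ hδ W, fun z => by simpa using Vf_periodic hN h W z,
    C * (1 + B) ^ k, N * k, fun z hz => ?_⟩
  have h1 : (N : ℂ) * z ∈ Hp := (mul_mem hN).2 hz
  have h2 : ‖Vf N W z‖ ≤ C * (1 + ‖φ (N * z)‖) ^ k :=
    (norm_le_bd hf (Vf_zero hN W hz)).trans (hk _)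
  have h3 := hB _ h1
  rw [norm_qq_natMul] at h3
  have hq0 : 0 < ‖qq z‖ := norm_pos_iff.2 (qq_ne z)
  have hq1 : ‖qq z‖ ^ N ≤ 1 := pow_le_one₀ hq0.le (norm_qq_lt hz).le
  have hqN : 0 < ‖qq z‖ ^ N := pow_pos hq0 _
  have h4 : (1 + ‖φ (N * z)‖) * ‖qq z‖ ^ N ≤ 1 + B := by
    have h5 : ‖φ (N * z)‖ * ‖qq z‖ ^ N ≤ B := by
      calc ‖φ (N * z)‖ * ‖qq z‖ ^ N ≤ (B * (‖qq z‖ ^ N)⁻¹) * ‖qq z‖ ^ N := by gcongr
        _ = B := by field_simp
    nlinarith
  calc ‖Vf N W z‖ * ‖qq z‖ ^ (N * k)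
      ≤ (C * (1 + ‖φ (N * z)‖) ^ k) * ‖qq z‖ ^ (N * k) := by gcongr
    _ = C * ((1 + ‖φ (N * z)‖) * ‖qq z‖ ^ N) ^ k := by rw [mul_pow, pow_mul]; ring
    _ ≤ C * (1 + B) ^ k := by
        refine mul_le_mul_of_nonneg_left (pow_le_pow_left₀ (by positivity) h4 k) hC

/-- lower bound of a polynomial away from its zeros -/
theorem le_norm_eval (hδ0 : δ ≠ 0) {u : ℂ} {η : ℝ} (hη : 0 ≤ η)
    (h : ∀ a, δ.eval a = 0 → η ≤ ‖u - a‖) :
    ‖δ.leadingCoeff‖ * η ^ δ.natDegree ≤ ‖δ.eval u‖ := by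
  have hsp : δ.Splits := IsAlgClosed.splits δ
  have h1 := hsp.eval_eq_prod_roots u
  rw [h1, norm_mul]
  refine mul_le_mul_of_nonneg_left ?_ (norm_nonneg _)
  have h2 : δ.natDegree = Multiset.card δ.roots := hsp.natDegree_eq_card_roots
  rw [h2]
  have h3 : ∀ s : Multiset ℂ, (∀ a ∈ s, η ≤ ‖u - a‖) →
      η ^ Multiset.card s ≤ ‖(s.map (fun a => u - a)).prod‖ := by
    intro s
    induction s using Multiset.induction_on with
    | empty => intro _; simp
    | cons a s ih =>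
      intro hs
      rw [Multiset.card_cons, Multiset.map_cons, Multiset.prod_cons, norm_mul, pow_succ']
      exact mul_le_mul (hs a (Multiset.mem_cons_self a s))
        (ih fun b hb => hs b (Multiset.mem_cons_of_mem hb)) (by positivity) (norm_nonneg _)
  exact h3 _ fun a ha => h a ((mem_roots hδ0).1 ha)

/-- One punctured-disc end of the curve `Q = {f = 0, δ ≠ 0}`: the half plane coordinate `z` with
`q = exp(2πiz)`. -/
structure EndC (f : ℂ[X][Y]) (δ : ℂ[X]) where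
  /-- `u`-coordinate -/
  U : ℂ → ℂ
  /-- `w`-coordinate -/
  V : ℂ → ℂ
  /-- ramification index -/
  N : ℕ
  N_pos : 0 < N
  mgU : Mg U
  mgV : Mg V
  mg_inv : Mg (fun z => (δ.eval (U z))⁻¹)
  mem : ∀ z ∈ Hp, (U z, V z) ∈ Qs f δ
  shape : (∃ (p : ℂ) (r : ℝ), 0 < r ∧ δ.eval p = 0 ∧ ∀ z, U z = p + r * qq z ^ N) ∨
    (∃ R : ℝ, 0 < R ∧ ∀ z, U z = R * (qq z ^ N)⁻¹)

namespace EndC

variable (E : EndC f δ)

theorem diffU : DifferentiableOn ℂ E.U Hp := E.mgU.1
theorem diffV : DifferentiableOn ℂ E.V Hp := E.mgV.1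
theorem perU (z : ℂ) : E.U (z + 1) = E.U z := E.mgU.2.1 z
theorem perV (z : ℂ) : E.V (z + 1) = E.V z := E.mgV.2.1 z

/-- regular functions `g/δ^k` have moderate growth -/
theorem mg (g : ℂ[X][Y]) (k : ℕ) :
    Mg (fun z => g.evalEval (E.U z) (E.V z) / δ.eval (E.U z) ^ k) := by
  have h := (E.mgU.evalEval E.mgV g).mul (E.mg_inv.pow k)
  simpa only [div_eq_mul_inv, inv_pow] using h


end EndC

theorem norm_qq (z : ℂ) : ‖qq z‖ = Real.exp (-(2 * Real.pi * z.im)) := by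
  unfold qq
  rw [Function.Periodic.norm_qParam]
  congr 1; ring

theorem qq_natMul (N : ℕ) (z : ℂ) : qq (N * z) = qq z ^ N := by
  unfold qq Function.Periodic.qParam
  rw [← Complex.exp_nat_mul]
  congr 1
  push_cast
  ring

/-- **One puncture, assembled.**  `φ` is the parametrisation of a punctured neighbourhood. -/
theorem exists_ends_at (hf : f.Monic) (hδ0 : δ ≠ 0) (hs : Sep f δ)
    (hφ : Differentiable ℂ φ) (hp : ∀ z, φ (z + 1) = φ z)
    {B : ℝ} (hB : ∀ z ∈ Hp, ‖φ z‖ ≤ B * ‖qq z‖⁻¹) {η : ℝ} (hη : 0 < η)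
    (hlow : ∀ z ∈ Hp, ∀ a, δ.eval a = 0 → η * ‖qq z‖ ≤ ‖φ z - a‖)
    (hshape : (∃ (p : ℂ) (r : ℝ), 0 < r ∧ δ.eval p = 0 ∧ ∀ z, φ z = p + r * qq z) ∨
      (∃ R : ℝ, 0 < R ∧ ∀ z, φ z = R * (qq z)⁻¹)) :
    ∃ (n : ℕ) (E : Fin n → EndC f δ) (N : ℕ), 0 < N ∧
      ∀ z : ℂ, (N : ℝ) ≤ z.im → ∀ w, f.evalEval (φ z) w = 0 →
        ∃ (i : Fin n) (z' : ℂ), 1 ≤ z'.im ∧ (E i).U z' = φ z ∧ (E i).V z' = w := by
  have hδ : ∀ z ∈ Hp, δ.eval (φ z) ≠ 0 := by
    intro z hz h0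
    have h1 := hlow z hz (φ z) h0
    rw [sub_self, norm_zero] at h1
    have : 0 < η * ‖qq z‖ := mul_pos hη (norm_pos_iff.2 (qq_ne z))
    linarith
  obtain ⟨N, hN, hNW⟩ := exists_period (f := f) hf hs hφ.continuous.continuousOn hδ hp
  have hfin := finite_Lf (f := f) hf hs hφ.continuous.continuousOn hδ
  obtain ⟨n, ⟨eq⟩⟩ := Finite.exists_equiv_fin (Lf f φ)
  have hqd : Differentiable ℂ qq := Function.Periodic.differentiable_qParam
  have hU : Mg (fun z => φ (N * z)) := by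
    refine ⟨?_, fun z => ?_, B, N, fun z hz => ?_⟩
    · exact (hφ.comp (f := fun z : ℂ => (N : ℂ) * z) (by fun_prop)).differentiableOn
    · have h1 : ∀ m : ℕ, ∀ z, φ (z + m) = φ z := by
        intro m
        induction m with
        | zero => intro z; simp
        | succ m ih =>
          intro z
          have := hp (z + m)
          rw [ih] at this
          rw [← this]; congr 1; push_cast; ring
      have h2 := h1 N (N * z)
      show φ (N * (z + 1)) = φ (N * z)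
      rw [← h2]; congr 1; ring
    · have h1 := hB _ ((mul_mem hN).2 hz)
      rw [norm_qq_natMul] at h1
      have hqN : 0 < ‖qq z‖ ^ N := pow_pos (norm_pos_iff.2 (qq_ne z)) _
      calc ‖φ (N * z)‖ * ‖qq z‖ ^ N ≤ (B * (‖qq z‖ ^ N)⁻¹) * ‖qq z‖ ^ N := by gcongr
        _ = B := by field_simp
  have hinv : Mg (fun z => (δ.eval (φ (N * z)))⁻¹) := by
    refine ⟨?_, fun z => ?_, (‖δ.leadingCoeff‖ * η ^ δ.natDegree)⁻¹, N * δ.natDegree,
      fun z hz => ?_⟩
    · refine ((Mg.eval hU δ).1).inv fun z hz => ?_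
      exact hδ _ ((mul_mem hN).2 hz)
    · have := hU.2.1 z
      simp only at this ⊢
      rw [this]
    · have h1 : (N : ℂ) * z ∈ Hp := (mul_mem hN).2 hz
      have h2 := le_norm_eval (δ := δ) hδ0 (u := φ (N * z)) (η := η * ‖qq (N * z)‖)
        (by positivity) (fun a ha => hlow _ h1 a ha)
      rw [norm_qq_natMul, mul_pow, ← pow_mul] at h2
      have hlc : 0 < ‖δ.leadingCoeff‖ := norm_pos_iff.2 (leadingCoeff_ne_zero.2 hδ0)
      have hq0 : 0 < ‖qq z‖ ^ (N * δ.natDegree) := pow_pos (norm_pos_iff.2 (qq_ne z)) _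
      have he : 0 < ‖δ.eval (φ (N * z))‖ := norm_pos_iff.2 (hδ _ h1)
      rw [norm_inv, inv_mul_le_iff₀ he, ← div_eq_mul_inv, le_div_iff₀ (by positivity)]
      linarith
  have hVm := Mg_Vf hN hf hs hφ.differentiableOn hδ hNW hB
  refine ⟨n, fun i =>
    { U := fun z => φ (N * z)
      V := Vf N (eq.symm i)
      N := N
      N_pos := hN
      mgU := hU
      mgV := hVm _
      mg_inv := hinv
      mem := fun z hz => ⟨Vf_zero hN _ hz, hδ _ ((mul_mem hN).2 hz)⟩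
      shape := ?_ }, N, hN, fun z hz w hw => ?_⟩
  · rcases hshape with ⟨p, r, hr, hpz, h⟩ | ⟨R, hR, h⟩
    · exact Or.inl ⟨p, r, hr, hpz, fun z => by rw [h, qq_natMul]⟩
    · exact Or.inr ⟨R, hR, fun z => by rw [h, qq_natMul]⟩
  · have hN' : (0 : ℝ) < N := by exact_mod_cast hN
    have hNC : (N : ℂ) ≠ 0 := by exact_mod_cast hN.ne'
    have hzH : z ∈ Hp := lt_of_lt_of_le hN' hz
    obtain ⟨W, hW⟩ := exists_lift hf hs hφ.continuous.continuousOn hδ hzH hw
    have hmul : (N : ℂ) * (z / N) = z := by field_simp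
    refine ⟨eq W, z / N, ?_, ?_, ?_⟩
    · have : (z / (N : ℂ)).im = z.im / N := by
        rw [Complex.div_natCast_im]
      rw [this, le_div_iff₀ hN']
      linarith
    · simp only [hmul]
    · simp only [Equiv.symm_apply_apply]
      unfold Vf
      rw [hmul, ext_of_mem _ hzH]
      exact hW

end

end Crest.Agent.R281.Ends4_989
end

-- ▼ part R281/Ends5_989

/-!
# Row 281, B4-ENDS (part 5): the main statement.
-/

open Polynomial Set Filter Topology
open scoped Polynomial.Bivariate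

namespace Crest.Agent.R281.Ends5_989

open Ends1_989 Ends2_989 Ends3_989 Ends4_989

noncomputable section

variable {f : ℂ[X][Y]} {δ : ℂ[X]}

theorem differentiable_qq : Differentiable ℂ qq := Function.Periodic.differentiable_qParam

/-- data around a finite puncture -/
theorem ends_finite (hf : f.Monic) (hδ0 : δ ≠ 0) (hs : Sep f δ) {p : ℂ} (hp : δ.eval p = 0)
    {r : ℝ} (hr : 0 < r) (hgap : ∀ a, δ.eval a = 0 → a ≠ p → 2 * r ≤ ‖p - a‖) :
    ∃ (n : ℕ) (E : Fin n → EndC f δ) (ρ : ℝ), 0 < ρ ∧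
      ∀ u w : ℂ, u ≠ p → ‖u - p‖ ≤ ρ → f.evalEval u w = 0 →
        ∃ (i : Fin n) (z : ℂ), 1 ≤ z.im ∧ (E i).U z = u ∧ (E i).V z = w := by
  have hBB : ∀ z ∈ Hp, ‖p + r * qq z‖ ≤ (‖p‖ + r) * ‖qq z‖⁻¹ := by
    intro z hz
    have h1 : 1 ≤ ‖qq z‖⁻¹ := (one_le_inv₀ (norm_pos_iff.2 (qq_ne z))).2 (norm_qq_lt hz).le
    calc ‖p + r * qq z‖ ≤ ‖p‖ + r * ‖qq z‖ := by
          refine (norm_add_le _ _).trans ?_
          rw [norm_mul, Complex.norm_real, Real.norm_eq_abs, abs_of_pos hr]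
      _ ≤ (‖p‖ + r) * 1 := by nlinarith [norm_qq_lt hz]
      _ ≤ (‖p‖ + r) * ‖qq z‖⁻¹ := by gcongr
  have hll : ∀ z ∈ Hp, ∀ a, δ.eval a = 0 → r * ‖qq z‖ ≤ ‖p + r * qq z - a‖ := by
    intro z hz a ha
    have hq1 := norm_qq_lt hz
    have hq0 : 0 < ‖qq z‖ := norm_pos_iff.2 (qq_ne z)
    have hn : ‖(r : ℂ) * qq z‖ = r * ‖qq z‖ := by
      rw [norm_mul, Complex.norm_real, Real.norm_eq_abs, abs_of_pos hr]
    by_cases hap : a = p
    · subst hap
      rw [add_sub_cancel_left, hn]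
    · have h1 := hgap a ha hap
      have h2 : ‖p - a‖ ≤ ‖p + r * qq z - a‖ + ‖(r : ℂ) * qq z‖ := by
        have h3 : p - a = (p + r * qq z - a) - r * qq z := by ring
        calc ‖p - a‖ = ‖(p + r * qq z - a) - r * qq z‖ := by rw [← h3]
          _ ≤ _ := norm_sub_le _ _
      rw [hn] at h2
      nlinarith
  obtain ⟨n, E, N, hN, h⟩ := exists_ends_at (f := f) (δ := δ) (φ := fun z => p + r * qq z) hf hδ0 hs
    (by have := differentiable_qq; fun_prop) (fun z => by simp only [qq_add_one])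
    (B := ‖p‖ + r) hBB (η := r) hr hll (Or.inl ⟨p, r, hr, hp, fun z => rfl⟩)
  refine ⟨n, E, r * Real.exp (-(2 * Real.pi * N)), by positivity, fun u w hu hur hw => ?_⟩
  have ht0 : (u - p) / r ≠ 0 := div_ne_zero (sub_ne_zero.2 hu) (by exact_mod_cast hr.ne')
  have hnorm : ‖(u - p) / r‖ = ‖u - p‖ / r := by
    rw [norm_div, Complex.norm_real, Real.norm_eq_abs, abs_of_pos hr]
  have hNpos : (0 : ℝ) < N := by exact_mod_cast hN
  have ht : ‖(u - p) / r‖ ≤ Real.exp (-(2 * Real.pi * N)) := by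
    rw [hnorm, div_le_iff₀ hr]; linarith
  have hlt : Real.exp (-(2 * Real.pi * N)) < 1 := by
    rw [Real.exp_lt_one_iff]
    nlinarith [mul_pos Real.pi_pos hNpos]
  obtain ⟨z, hz, hqz⟩ := exists_qq ht0 (ht.trans_lt hlt)
  have hφ : p + r * qq z = u := by
    have hr' : (r : ℂ) ≠ 0 := by exact_mod_cast hr.ne'
    rw [hqz]
    field_simp
    ring
  have him : (N : ℝ) ≤ z.im := by
    rw [← hqz, norm_qq, Real.exp_le_exp] at ht
    have := Real.pi_pos
    nlinarith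
  obtain ⟨i, z', h1, h2, h3⟩ := h z him w (by simp only [hφ]; exact hw)
  exact ⟨i, z', h1, h2.trans hφ, h3⟩

/-- data around infinity -/
theorem ends_infty (hf : f.Monic) (hδ0 : δ ≠ 0) (hs : Sep f δ)
    {R : ℝ} (hR : 0 < R) (hgap : ∀ a, δ.eval a = 0 → 2 * ‖a‖ ≤ R) :
    ∃ (n : ℕ) (E : Fin n → EndC f δ) (ρ : ℝ), 0 < ρ ∧
      ∀ u w : ℂ, ρ ≤ ‖u‖ → f.evalEval u w = 0 →
        ∃ (i : Fin n) (z : ℂ), 1 ≤ z.im ∧ (E i).U z = u ∧ (E i).V z = w := by
  have hinv : Differentiable ℂ (fun z => (R : ℂ) * (qq z)⁻¹) :=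
    ((differentiable_qq).inv (fun z => qq_ne z)).const_mul _
  have hBB : ∀ z ∈ Hp, ‖(R : ℂ) * (qq z)⁻¹‖ ≤ R * ‖qq z‖⁻¹ := by
    intro z _
    rw [norm_mul, norm_inv, Complex.norm_real, Real.norm_eq_abs, abs_of_pos hR]
  have hll : ∀ z ∈ Hp, ∀ a, δ.eval a = 0 → R / 2 * ‖qq z‖ ≤ ‖(R : ℂ) * (qq z)⁻¹ - a‖ := by
    intro z hz a ha
    have hq1 := norm_qq_lt hz
    have hq0 : 0 < ‖qq z‖ := norm_pos_iff.2 (qq_ne z)
    have hn : ‖(R : ℂ) * (qq z)⁻¹‖ = R * ‖qq z‖⁻¹ := by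
      rw [norm_mul, norm_inv, Complex.norm_real, Real.norm_eq_abs, abs_of_pos hR]
    have h1 : 1 ≤ ‖qq z‖⁻¹ := (one_le_inv₀ hq0).2 hq1.le
    have h2 := hgap a ha
    have h3 : ‖(R : ℂ) * (qq z)⁻¹‖ ≤ ‖(R : ℂ) * (qq z)⁻¹ - a‖ + ‖a‖ := by
      calc ‖(R : ℂ) * (qq z)⁻¹‖ = ‖((R : ℂ) * (qq z)⁻¹ - a) + a‖ := by rw [sub_add_cancel]
        _ ≤ _ := norm_add_le _ _
    rw [hn] at h3
    nlinarith
  obtain ⟨n, E, N, hN, h⟩ := exists_ends_at (f := f) (δ := δ) (φ := fun z => R * (qq z)⁻¹) hf hδ0 hs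
    hinv (fun z => by simp only [qq_add_one])
    (B := R) hBB (η := R / 2) (by positivity) hll (Or.inr ⟨R, hR, fun z => rfl⟩)
  refine ⟨n, E, R * Real.exp (2 * Real.pi * N), by positivity, fun u w hur hw => ?_⟩
  have hNpos : (0 : ℝ) < N := by exact_mod_cast hN
  have hu0 : 0 < ‖u‖ := lt_of_lt_of_le (by positivity) hur
  have hu : u ≠ 0 := norm_pos_iff.1 hu0
  have hR' : (R : ℂ) ≠ 0 := by exact_mod_cast hR.ne'
  have ht0 : (R : ℂ) / u ≠ 0 := div_ne_zero hR' hu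
  have hnorm : ‖(R : ℂ) / u‖ = R / ‖u‖ := by
    rw [norm_div, Complex.norm_real, Real.norm_eq_abs, abs_of_pos hR]
  have ht : ‖(R : ℂ) / u‖ ≤ Real.exp (-(2 * Real.pi * N)) := by
    rw [hnorm, div_le_iff₀ hu0, Real.exp_neg]
    have he := Real.exp_pos (2 * Real.pi * N)
    calc R = (Real.exp (2 * Real.pi * N))⁻¹ * (R * Real.exp (2 * Real.pi * N)) := by
          field_simp
      _ ≤ (Real.exp (2 * Real.pi * N))⁻¹ * ‖u‖ := by gcongr
  have hlt : Real.exp (-(2 * Real.pi * N)) < 1 := by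
    rw [Real.exp_lt_one_iff]
    nlinarith [mul_pos Real.pi_pos hNpos]
  obtain ⟨z, hz, hqz⟩ := exists_qq ht0 (ht.trans_lt hlt)
  have hφ : (R : ℂ) * (qq z)⁻¹ = u := by
    rw [hqz]
    field_simp
  have him : (N : ℝ) ≤ z.im := by
    rw [← hqz, norm_qq, Real.exp_le_exp] at ht
    have := Real.pi_pos
    nlinarith
  obtain ⟨i, z', h1, h2, h3⟩ := h z him w (by simp only [hφ]; exact hw)
  exact ⟨i, z', h1, h2.trans hφ, h3⟩

/-- a positive gap between the zeros of `δ` -/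
theorem exists_gap (hδ0 : δ ≠ 0) : ∃ r : ℝ, 0 < r ∧
    ∀ p a, δ.eval p = 0 → δ.eval a = 0 → a ≠ p → 2 * r ≤ ‖p - a‖ := by
  set S : Finset ℂ := δ.roots.toFinset with hS
  have hmem : ∀ a, δ.eval a = 0 → a ∈ S := fun a ha => by
    rw [hS, Multiset.mem_toFinset]; exact (mem_roots hδ0).2 ha
  set T : Finset (ℂ × ℂ) := (S ×ˢ S).filter (fun x => x.2 ≠ x.1) with hT
  rcases T.eq_empty_or_nonempty with he | hne
  · refine ⟨1, one_pos, fun p a hp ha hap => ?_⟩
    have : (p, a) ∈ T := by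
      rw [hT, Finset.mem_filter, Finset.mem_product]; exact ⟨⟨hmem p hp, hmem a ha⟩, hap⟩
    rw [he] at this
    exact absurd this (Finset.notMem_empty _)
  · obtain ⟨x, hx, hmin⟩ := T.exists_min_image (fun x => ‖x.1 - x.2‖) hne
    have hx' : x.2 ≠ x.1 := by
      rw [hT, Finset.mem_filter] at hx; exact hx.2
    have hpos : 0 < ‖x.1 - x.2‖ := norm_pos_iff.2 (sub_ne_zero.2 hx'.symm)
    refine ⟨‖x.1 - x.2‖ / 2, by positivity, fun p a hp ha hap => ?_⟩
    have : (p, a) ∈ T := by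
      rw [hT, Finset.mem_filter, Finset.mem_product]; exact ⟨⟨hmem p hp, hmem a ha⟩, hap⟩
    have := hmin _ this
    simp only at this
    linarith

theorem exists_radius (hδ0 : δ ≠ 0) : ∃ R : ℝ, 0 < R ∧ ∀ a, δ.eval a = 0 → 2 * ‖a‖ ≤ R := by
  set S : Finset ℂ := δ.roots.toFinset with hS
  refine ⟨1 + ∑ a ∈ S, 2 * ‖a‖, ?_, fun a ha => ?_⟩
  · have : 0 ≤ ∑ a ∈ S, 2 * ‖a‖ := Finset.sum_nonneg fun i _ => by positivity
    linarith
  · have ha' : a ∈ S := by
      rw [hS, Multiset.mem_toFinset]; exact (mem_roots hδ0).2 ha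
    have h1 : 2 * ‖a‖ ≤ ∑ a ∈ S, 2 * ‖a‖ :=
      Finset.single_le_sum (f := fun a => 2 * ‖a‖) (fun i _ => by positivity) ha'
    linarith

/-- **(Q2)+(Q3)**: `Q` = compact core ∪ finitely many punctured-disc ends. -/
theorem exists_ends (hf : f.Monic) (hδ0 : δ ≠ 0) (hs : Sep f δ) :
    ∃ (n : ℕ) (E : Fin n → EndC f δ) (K : Set (ℂ × ℂ)), IsCompact K ∧ K ⊆ Qs f δ ∧
      ∀ q ∈ Qs f δ, q ∈ K ∨ ∃ (i : Fin n) (z : ℂ), 1 ≤ z.im ∧ ((E i).U z, (E i).V z) = q := by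
  obtain ⟨r, hr, hgap⟩ := exists_gap hδ0
  obtain ⟨R, hR, hR2⟩ := exists_radius hδ0
  have h1 : ∀ p : {p : ℂ // p ∈ δ.roots.toFinset}, ∃ (n : ℕ) (E : Fin n → EndC f δ) (ρ : ℝ), 0 < ρ ∧
      ∀ u w : ℂ, u ≠ p → ‖u - p‖ ≤ ρ → f.evalEval u w = 0 →
        ∃ (i : Fin n) (z : ℂ), 1 ≤ z.im ∧ (E i).U z = u ∧ (E i).V z = w := fun p => by
    have hp : δ.eval p.1 = 0 := (mem_roots hδ0).1 (Multiset.mem_toFinset.1 p.2)
    exact ends_finite hf hδ0 hs hp hr fun a ha hap => hgap p.1 a hp ha hap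
  choose n E ρ hρ hE using h1
  obtain ⟨n', E', ρ', hρ', hE'⟩ := ends_infty hf hδ0 hs hR hR2
  obtain ⟨m, ⟨eq⟩⟩ := Finite.exists_equiv_fin ((Σ p : {p : ℂ // p ∈ δ.roots.toFinset}, Fin (n p)) ⊕ Fin n')
  let EE : ((Σ p : {p : ℂ // p ∈ δ.roots.toFinset}, Fin (n p)) ⊕ Fin n') → EndC f δ :=
    Sum.elim (fun x => E x.1 x.2) E'
  set K : Set (ℂ × ℂ) := {q | f.evalEval q.1 q.2 = 0 ∧ ‖q.1‖ ≤ ρ' ∧
    ∀ p : {p : ℂ // p ∈ δ.roots.toFinset}, ρ p ≤ ‖q.1 - p‖} with hK
  refine ⟨m, fun i => EE (eq.symm i), K, ?_, ?_, ?_⟩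
  · have hc : IsClosed K := by
      have e : K = Zf f ∩ ({q : ℂ × ℂ | ‖q.1‖ ≤ ρ'} ∩
          ⋂ p : {p : ℂ // p ∈ δ.roots.toFinset}, {q : ℂ × ℂ | ρ p ≤ ‖q.1 - p‖}) := by
        ext q
        simp [hK, Zf]
      rw [e]
      refine (isClosed_Zf f).inter ((isClosed_le (by fun_prop) (by fun_prop)).inter
        (isClosed_iInter fun p => isClosed_le (by fun_prop) (by fun_prop)))
    obtain ⟨M, hM⟩ := (isCompact_closedBall (0 : ℂ) ρ').exists_bound_of_continuousOn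
      (continuous_bd f).continuousOn
    refine ((isCompact_closedBall (0 : ℂ) ρ').prod (isCompact_closedBall (0 : ℂ) M)).of_isClosed_subset
      hc fun q hq => ?_
    have h2 : q.1 ∈ Metric.closedBall (0 : ℂ) ρ' := by simpa using hq.2.1
    refine ⟨h2, ?_⟩
    rw [mem_closedBall_zero_iff]
    exact (norm_le_bd hf hq.1).trans ((le_abs_self _).trans (hM _ h2))
  · intro q hq
    refine ⟨hq.1, fun h0 => ?_⟩
    have hp : q.1 ∈ δ.roots.toFinset := by
      rw [Multiset.mem_toFinset]; exact (mem_roots hδ0).2 h0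
    have h3 := hq.2.2 ⟨q.1, hp⟩
    have h4 := hρ ⟨q.1, hp⟩
    simp only [sub_self, norm_zero] at h3
    linarith
  · intro q hq
    by_cases hqK : q ∈ K
    · exact Or.inl hqK
    right
    by_cases hbig : ρ' ≤ ‖q.1‖
    · obtain ⟨i, z, hz, hu, hv⟩ := hE' q.1 q.2 hbig hq.1
      exact ⟨eq (Sum.inr i), z, hz, by simp [EE, hu, hv]⟩
    · push Not at hbig
      have h5 : ∃ p : {p : ℂ // p ∈ δ.roots.toFinset}, ‖q.1 - p‖ < ρ p := by
        by_contra hno
        push Not at hno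
        exact hqK ⟨hq.1, hbig.le, hno⟩
      obtain ⟨p, hp⟩ := h5
      have hpz : δ.eval p.1 = 0 := (mem_roots hδ0).1 (Multiset.mem_toFinset.1 p.2)
      have hne : q.1 ≠ p := fun h => hq.2 (by rw [h]; exact hpz)
      obtain ⟨i, z, hz, hu, hv⟩ := hE p q.1 q.2 hne hp.le hq.1
      exact ⟨eq (Sum.inl ⟨p, i⟩), z, hz, by simp [EE, hu, hv]⟩



end

end Crest.Agent.R281.Ends5_989
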