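import Crest.Agent.R281.TrU1_249

-- ▼ part R281/TrU2_249
section

/-!
# Row 281, TROP-UWT (helper249), part 2: statements, base case
-/

namespace Crest.Agent.R281.TrU_249

open MeasureTheory Filter Topology
open scoped ENNReal

open Crest.Agent.R281.TrPL_726

theorem PL.homog {V : Type*} [Fintype V] {F : (V → ℝ) → ℝ} (hF : PL F) {c : ℝ} (hc : 0 ≤ c)
    (ξ : V → ℝ) : F (fun v => ξ v * c) = F ξ * c := by
  induction hF with
  | lin a => simp only [lf, Finset.sum_mul, mul_assoc]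
  | max _ _ h1 h2 => simp only [h1, h2, max_mul_of_nonneg _ _ hc]
  | min _ _ h1 h2 => simp only [h1, h2, min_mul_of_nonneg _ _ hc]

section defs

variable {T R : Type*} [CommRing R]

/-- integrability is open, with polynomially controlled mass -/
def WStmt (l : Filter T) (ev : T → R →+* ℂ) (L : T → ℝ) {n : ℕ}
    (G : (MvPolynomial (Fin n) R →+* ℂ) → ℝ) : Prop :=
  ∀ (k : ℕ) (w : Fin k → MvPolynomial (Fin n) R), (∀ i, w i ≠ 0) →
    ∃ κ C : ℝ, 0 < κ ∧ 0 < C ∧ ∀ᶠ t in l,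
      ∫⁻ y : Fin n → ℂ, ENNReal.ofReal (G (pt (ev t) y) *
        Real.exp (κ * ∑ i, |Real.log ‖pt (ev t) y (w i)‖|)) ≤ ENNReal.ofReal (Real.exp (C * L t))

/-- the bad set -/
def Bad (φ : R →+* ℂ) (lam : ℝ) {n : ℕ} (G : (MvPolynomial (Fin n) R →+* ℂ) → ℝ)
    (f : Fin n → MvPolynomial (Fin n) R) (a C : ℝ) : Set (Fin n → ℂ) :=
  {y | C * Real.exp (a * lam) *
      ∏ i, ‖pt φ y (MvPolynomial.pderiv i (f i)) / pt φ y (f i)‖ ^ 2 < G (pt φ y) ∨
    ∃ i, C * lam < |Real.log ‖pt φ y (f i)‖|}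

/-- two-sided mass bound and the triangular tuple -/
def TStmt (l : Filter T) (ev : T → R →+* ℂ) (L : T → ℝ) {n : ℕ}
    (G : (MvPolynomial (Fin n) R →+* ℂ) → ℝ) : Prop :=
  ∃ (a C : ℝ) (f : Fin n → MvPolynomial (Fin n) R), 0 < C ∧
    (∀ i, f i ≠ 0 ∧ ∀ j ∈ (f i).vars, i ≤ j) ∧
    ∀ᶠ t in l, ENNReal.ofReal (Real.exp (a * L t) / C) ≤
        ∫⁻ y : Fin n → ℂ, ENNReal.ofReal (G (pt (ev t) y)) ∧
      ∫⁻ y : Fin n → ℂ, ENNReal.ofReal (G (pt (ev t) y)) ≤
        ENNReal.ofReal (C * Real.exp (a * L t) * L t ^ n) ∧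
      ∫⁻ y in Bad (ev t) (L t) G f a C, ENNReal.ofReal (G (pt (ev t) y)) ≤
        ENNReal.ofReal (C * Real.exp (a * L t) * L t ^ n / L t)

theorem measurableSet_Bad (φ : R →+* ℂ) (lam : ℝ) {n : ℕ}
    {G : (MvPolynomial (Fin n) R →+* ℂ) → ℝ} (hG : Tr (MvPolynomial (Fin n) R) G)
    (f : Fin n → MvPolynomial (Fin n) R) (a C : ℝ) : MeasurableSet (Bad φ lam G f a C) := by
  unfold Bad
  have e : {y : Fin n → ℂ | C * Real.exp (a * lam) *
      ∏ i, ‖pt φ y (MvPolynomial.pderiv i (f i)) / pt φ y (f i)‖ ^ 2 < G (pt φ y) ∨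
    ∃ i, C * lam < |Real.log ‖pt φ y (f i)‖|} =
    {y | C * Real.exp (a * lam) *
      ∏ i, ‖pt φ y (MvPolynomial.pderiv i (f i)) / pt φ y (f i)‖ ^ 2 < G (pt φ y)} ∪
    ⋃ i, {y | C * lam < |Real.log ‖pt φ y (f i)‖|} := by
    ext y; simp
  rw [e]
  refine MeasurableSet.union (measurableSet_lt ?_ (measurable_Tr hG φ))
    (MeasurableSet.iUnion fun i => measurableSet_lt measurable_const ?_)
  · refine measurable_const.mul (Finset.measurable_fun_prod _ fun i _ => ?_)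
    exact (((continuous_pt φ _).measurable.div (continuous_pt φ _).measurable).norm).pow_const 2
  · exact (measurable_log_pt φ (f i)).abs

end defs

section base

variable {T R : Type*} [CommRing R] {l : Filter T} {ev : T → R →+* ℂ} {L : T → ℝ}

theorem lintegral_zero_dim (g : (Fin 0 → ℂ) → ℝ≥0∞) : ∫⁻ y, g y = g default := by
  rw [Measure.volume_pi_eq_dirac (default : Fin 0 → ℂ), lintegral_dirac]

theorem base_form {G : (MvPolynomial (Fin 0) R →+* ℂ) → ℝ} (h : Scale l ev L)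
    (hG : Tr (MvPolynomial (Fin 0) R) G) :
    ∃ a C : ℝ, 0 < C ∧ ∀ᶠ t in l, ∀ y : Fin 0 → ℂ,
      Real.exp (a * L t) / C ≤ G (pt (ev t) y) ∧ G (pt (ev t) y) ≤ C * Real.exp (a * L t) := by
  obtain ⟨m, q, F, hq, hF, hG⟩ := hG
  have hr : ∀ v, ∃ r : R, q v = MvPolynomial.C r ∧ r ≠ 0 := by
    intro v
    obtain ⟨r, hr⟩ := MvPolynomial.C_surjective (Fin 0) (q v)
    refine ⟨r, hr.symm, ?_⟩
    rintro rfl
    exact hq v (by rw [← hr]; simp)
  choose r hr hr0 using hr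
  choose k C hk using fun v => h.ord (r v) (hr0 v)
  obtain ⟨S, hS, hlip⟩ := hF.lip
  have hall : ∀ᶠ t in l, ∀ v, ev t (r v) ≠ 0 ∧ |Real.log ‖ev t (r v)‖ - k v * L t| ≤ C v :=
    eventually_all.2 hk
  refine ⟨F k, Real.exp (S * ∑ v, |C v|), Real.exp_pos _, ?_⟩
  filter_upwards [hall, h.tendsto.eventually_ge_atTop 0] with t ht hL y
  have hval : G (pt (ev t) y) = Real.exp (F (fun v => Real.log ‖ev t (r v)‖)) := by
    rw [hG]
    congr 2
    funext v
    rw [hr, pt_C]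
  have hd := hlip (fun v => Real.log ‖ev t (r v)‖) (fun v => k v * L t) (∑ v, |C v|) (fun v => by
    refine (ht v).2.trans ((le_abs_self _).trans ?_)
    exact Finset.single_le_sum (f := fun v => |C v|) (fun _ _ => abs_nonneg _) (Finset.mem_univ v))
  rw [PL.homog hF hL] at hd
  have hd' := abs_le.1 hd
  rw [hval]
  constructor
  · rw [← Real.exp_sub]
    exact Real.exp_le_exp.2 (by linarith [hd'.1])
  · rw [← Real.exp_add]
    exact Real.exp_le_exp.2 (by linarith [hd'.2])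

theorem base_W {G : (MvPolynomial (Fin 0) R →+* ℂ) → ℝ} (h : Scale l ev L)
    (hG : Tr (MvPolynomial (Fin 0) R) G) : WStmt l ev L G := by
  intro k w hw
  obtain ⟨a, C, hC, hb⟩ := base_form h hG
  have h1 : ∀ i, ∃ a C : ℝ, 0 < C ∧ ∀ᶠ t in l, ∀ y : Fin 0 → ℂ,
      Real.exp (a * L t) / C ≤ Real.exp (|Real.log ‖pt (ev t) y (w i)‖|) ∧
      Real.exp (|Real.log ‖pt (ev t) y (w i)‖|) ≤ C * Real.exp (a * L t) := by
    intro i
    refine base_form h (G := fun φ => Real.exp (|Real.log ‖φ (w i)‖|)) ?_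
    exact Tr.mk' (V := Unit) (fun _ => w i) (fun _ => hw i) (PL.coord ()).abs
  choose ai Ci hCi hbi using h1
  have hcomb : ∀ᶠ t in l, ∀ y : Fin 0 → ℂ, G (pt (ev t) y) *
      Real.exp (1 * ∑ i, |Real.log ‖pt (ev t) y (w i)‖|) ≤
        (C * ∏ i, Ci i) * Real.exp ((a + ∑ i, ai i) * L t) := by
    filter_upwards [hb, eventually_all.2 hbi] with t ht hti y
    rw [one_mul, Real.exp_sum]
    calc _ ≤ (C * Real.exp (a * L t)) * ∏ i, (Ci i * Real.exp (ai i * L t)) := by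
          refine mul_le_mul (ht y).2 (Finset.prod_le_prod (fun _ _ => (Real.exp_pos _).le)
            fun i _ => (hti i y).2) (Finset.prod_nonneg fun _ _ => (Real.exp_pos _).le) (by positivity)
      _ = _ := by
          rw [Finset.prod_mul_distrib, ← Real.exp_sum, add_mul, Real.exp_add, Finset.sum_mul]
          ring
  refine ⟨1, |a + ∑ i, ai i| + 1, one_pos, by positivity, ?_⟩
  have hK : ∀ᶠ t in l, C * ∏ i, Ci i ≤ Real.exp (L t) :=
    (Real.tendsto_exp_atTop.comp h.tendsto).eventually_ge_atTop _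
  filter_upwards [hcomb, hK, h.tendsto.eventually_ge_atTop 0] with t ht hKt hL
  rw [lintegral_zero_dim]
  refine ENNReal.ofReal_le_ofReal ((ht _).trans ?_)
  calc _ ≤ Real.exp (L t) * Real.exp ((a + ∑ i, ai i) * L t) :=
        mul_le_mul_of_nonneg_right hKt (Real.exp_pos _).le
    _ = Real.exp (L t + (a + ∑ i, ai i) * L t) := (Real.exp_add _ _).symm
    _ ≤ _ := by
        refine Real.exp_le_exp.2 ?_
        nlinarith [le_abs_self (a + ∑ i, ai i)]

theorem base_T {G : (MvPolynomial (Fin 0) R →+* ℂ) → ℝ} (h : Scale l ev L)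
    (hG : Tr (MvPolynomial (Fin 0) R) G) : TStmt l ev L G := by
  obtain ⟨a, C, hC, hb⟩ := base_form h hG
  refine ⟨a, C, fun i => i.elim0, hC, fun i => i.elim0, ?_⟩
  filter_upwards [hb] with t ht
  refine ⟨?_, ?_, ?_⟩
  · rw [lintegral_zero_dim]
    exact ENNReal.ofReal_le_ofReal (ht _).1
  · rw [lintegral_zero_dim]
    exact ENNReal.ofReal_le_ofReal (by simpa using (ht _).2)
  · have : Bad (ev t) (L t) G (fun i : Fin 0 => (i.elim0 : MvPolynomial (Fin 0) R)) a C = ∅ := by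
      ext y
      simp only [Bad, Finset.univ_eq_empty, Finset.prod_empty, mul_one, IsEmpty.exists_iff, or_false,
        Set.mem_ofPred_eq, Set.mem_empty_iff_false, iff_false, not_lt]
      exact (ht y).2
    rw [this]
    simp

end base

end Crest.Agent.R281.TrU_249
end

-- ▼ part R281/TrU3_249
section

/-!
# Row 281, TROP-UWT (helper249), part 3: the inductive step
-/

namespace Crest.Agent.R281.TrU_249

open MeasureTheory Filter Topology
open scoped ENNReal

open Crest.Agent.R281.TrPL_726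

theorem meas_cons2 {n : ℕ} {g : (Fin (n + 1) → ℂ) → ℝ≥0∞} (hg : Measurable g) :
    Measurable (fun y : Fin n → ℂ => ∫⁻ x : ℂ, g (Fin.cons x y)) := by
  have : Measurable (fun q : (Fin n → ℂ) × ℂ => g (Fin.cons q.2 q.1)) :=
    hg.comp (measurable_cons.comp measurable_swap)
  exact this.lintegral_prod_right'

theorem lint_const_mul {α : Type*} [MeasurableSpace α] (μ : Measure α) {c : ℝ} (hc : 0 ≤ c)
    (g : α → ℝ) : ∫⁻ y, ENNReal.ofReal (c * g y) ∂μ = ENNReal.ofReal c * ∫⁻ y, ENNReal.ofReal (g y) ∂μ := by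
  simp only [ENNReal.ofReal_mul hc]
  exact lintegral_const_mul' _ _ ENNReal.ofReal_ne_top

section ineq

theorem one_add_le {κ S : ℝ} (hκ : 0 < κ) :
    1 + S ≤ 2 / κ * Real.exp (κ / 2 * (1 + S)) := by
  have h := Real.add_one_le_exp (κ / 2 * (1 + S))
  have h2 : κ / 2 * (1 + S) ≤ Real.exp (κ / 2 * (1 + S)) := by linarith
  calc 1 + S = 2 / κ * (κ / 2 * (1 + S)) := by field_simp
    _ ≤ _ := mul_le_mul_of_nonneg_left h2 (by positivity)

theorem ineq1 {κ₁ C κ S M : ℝ} (hκ₁ : 0 < κ₁) (hC : 0 < C) (hκ : C * κ ≤ κ₁ / 2) (hS : 0 ≤ S)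
    (hM : 0 ≤ M) : C * M * (1 + S) * Real.exp (C * κ * (1 + S)) ≤
      (C * (2 / κ₁) * Real.exp κ₁) * (M * Real.exp (κ₁ * S)) := by
  have h1 := one_add_le (S := S) hκ₁
  have h2 : Real.exp (C * κ * (1 + S)) ≤ Real.exp (κ₁ / 2 * (1 + S)) :=
    Real.exp_le_exp.2 (mul_le_mul_of_nonneg_right hκ (by linarith))
  have h3 : (1 + S) * Real.exp (C * κ * (1 + S)) ≤
      2 / κ₁ * Real.exp (κ₁ / 2 * (1 + S)) * Real.exp (κ₁ / 2 * (1 + S)) :=
    mul_le_mul h1 h2 (Real.exp_pos _).le (by positivity)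
  have h4 : Real.exp (κ₁ / 2 * (1 + S)) * Real.exp (κ₁ / 2 * (1 + S)) =
      Real.exp κ₁ * Real.exp (κ₁ * S) := by
    rw [← Real.exp_add, ← Real.exp_add]; congr 1; ring
  calc C * M * (1 + S) * Real.exp (C * κ * (1 + S))
      = C * M * ((1 + S) * Real.exp (C * κ * (1 + S))) := by ring
    _ ≤ C * M * (2 / κ₁ * Real.exp (κ₁ / 2 * (1 + S)) * Real.exp (κ₁ / 2 * (1 + S))) :=
        mul_le_mul_of_nonneg_left h3 (by positivity)
    _ = C * M * (2 / κ₁) * (Real.exp (κ₁ / 2 * (1 + S)) * Real.exp (κ₁ / 2 * (1 + S))) := by ring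
    _ = _ := by rw [h4]; ring

theorem ineq2 {κ₁ K lam S : ℝ} (hκ₁ : 0 < κ₁) (hK : 0 ≤ K) (hlam : 0 ≤ lam) (hS : 0 ≤ S) :
    1 + S ≤ (1 + K * lam) +
      (2 / κ₁ * Real.exp (κ₁ / 2)) * Real.exp (κ₁ * S) * Real.exp (-(κ₁ * K * lam / 2)) := by
  rcases le_or_gt S (K * lam) with h | h
  · have : 0 ≤ (2 / κ₁ * Real.exp (κ₁ / 2)) * Real.exp (κ₁ * S) * Real.exp (-(κ₁ * K * lam / 2)) := by
      positivity
    linarith
  · have h1 := one_add_le (S := S) hκ₁
    have h2 : Real.exp (κ₁ / 2 * (1 + S)) ≤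
        Real.exp (κ₁ / 2) * Real.exp (κ₁ * S) * Real.exp (-(κ₁ * K * lam / 2)) := by
      rw [← Real.exp_add, ← Real.exp_add]
      refine Real.exp_le_exp.2 ?_
      nlinarith
    have h3 : 2 / κ₁ * Real.exp (κ₁ / 2 * (1 + S)) ≤
        2 / κ₁ * (Real.exp (κ₁ / 2) * Real.exp (κ₁ * S) * Real.exp (-(κ₁ * K * lam / 2))) :=
      mul_le_mul_of_nonneg_left h2 (by positivity)
    have h4 : 0 ≤ K * lam := mul_nonneg hK hlam
    calc 1 + S ≤ _ := h1
      _ ≤ _ := h3
      _ ≤ _ := by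
        have : 2 / κ₁ * (Real.exp (κ₁ / 2) * Real.exp (κ₁ * S) * Real.exp (-(κ₁ * K * lam / 2))) =
          (2 / κ₁ * Real.exp (κ₁ / 2)) * Real.exp (κ₁ * S) * Real.exp (-(κ₁ * K * lam / 2)) := by ring
        rw [this]; linarith

end ineq

section step

variable {T R : Type*} [CommRing R] {l : Filter T} {ev : T → R →+* ℂ} {L : T → ℝ}

/-- the projection step on `Fin (n+1) → ℂ` -/
theorem pkg (h : Scale l ev L) {n : ℕ} (hP : Proj (MvPolynomial (Fin n) R))
    {G : (MvPolynomial (Fin (n + 1)) R →+* ℂ) → ℝ} (hG : Tr (MvPolynomial (Fin (n + 1)) R) G)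
    (hfin : ∀ᶠ t in l, ∫⁻ z : Fin (n + 1) → ℂ, ENNReal.ofReal (G (pt (ev t) z)) ≠ ∞)
    (k : ℕ) (w : Fin k → MvPolynomial (Fin (n + 1)) R) (hw : ∀ i, w i ≠ 0) :
    ∃ (M : (MvPolynomial (Fin n) R →+* ℂ) → ℝ) (P : MvPolynomial (Fin (n + 1)) R) (j : ℕ)
      (Q : Fin j → MvPolynomial (Fin n) R) (κ₀ C : ℝ),
      Tr (MvPolynomial (Fin n) R) M ∧ P ≠ 0 ∧ (∀ i, Q i ≠ 0) ∧ 0 < κ₀ ∧ 0 < C ∧
      (∀ᶠ t in l, ∫⁻ y : Fin n → ℂ, ENNReal.ofReal (M (pt (ev t) y)) ≠ ∞) ∧
      ∀ᶠ t in l, ∀ᵐ y : Fin n → ℂ,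
        (ENNReal.ofReal (M (pt (ev t) y)) ≤
          ENNReal.ofReal C * ∫⁻ x : ℂ, ENNReal.ofReal (G (pt (ev t) (Fin.cons x y)))) ∧
        (∀ κ : ℝ, 0 ≤ κ → κ ≤ κ₀ →
          ∫⁻ x : ℂ, ENNReal.ofReal (G (pt (ev t) (Fin.cons x y)) *
            Real.exp (κ * (∑ i, |Real.log ‖pt (ev t) (Fin.cons x y) (w i)‖| +
              |Real.log ‖pt (ev t) (Fin.cons x y) P‖|))) ≤
          ENNReal.ofReal (C * M (pt (ev t) y) * (1 + ∑ i, |Real.log ‖pt (ev t) y (Q i)‖|) *
            Real.exp (C * κ * (1 + ∑ i, |Real.log ‖pt (ev t) y (Q i)‖|)))) ∧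
        ∫⁻ x : ℂ in {x : ℂ | C * M (pt (ev t) y) *
            ‖pt (ev t) (Fin.cons x y) (MvPolynomial.pderiv 0 P) / pt (ev t) (Fin.cons x y) P‖ ^ 2 <
              G (pt (ev t) (Fin.cons x y))},
          ENNReal.ofReal (G (pt (ev t) (Fin.cons x y))) ≤ ENNReal.ofReal (C * M (pt (ev t) y)) := by
  have hG2 := Tr.transfer (MvPolynomial.finSuccEquiv R n).toRingEquiv hG
  obtain ⟨M, q1, P', j, Q, κ₀, C, hM, hq1, hP', hQ, hκ₀, hC, hmain⟩ := hP _ hG2 k
    (fun i => MvPolynomial.finSuccEquiv R n (w i)) (fun i => by simpa using hw i)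
  set P := (MvPolynomial.finSuccEquiv R n).symm P' with hPdef
  have hP0 : P ≠ 0 := by rw [hPdef]; simpa using hP'
  have eG : ∀ (φ : R →+* ℂ) (x : ℂ) (y : Fin n → ℂ),
      G ((ptX (pt φ y) x).comp
        ((MvPolynomial.finSuccEquiv R n).toRingEquiv : MvPolynomial (Fin (n + 1)) R →+* _)) =
      G (pt φ (Fin.cons x y)) := by
    intro φ x y
    rw [pt_cons_comp]; rfl
  have ew : ∀ (φ : R →+* ℂ) (x : ℂ) (y : Fin n → ℂ) (q : MvPolynomial (Fin (n + 1)) R),
      ptX (pt φ y) x (MvPolynomial.finSuccEquiv R n q) = pt φ (Fin.cons x y) q :=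
    fun φ x y q => (pt_cons φ x y q).symm
  have eP : ∀ (φ : R →+* ℂ) (x : ℂ) (y : Fin n → ℂ), ptX (pt φ y) x P' = pt φ (Fin.cons x y) P := by
    intro φ x y
    rw [pt_cons, hPdef, AlgEquiv.apply_symm_apply]
  have edP : ∀ (φ : R →+* ℂ) (x : ℂ) (y : Fin n → ℂ),
      ptX (pt φ y) x (Polynomial.derivative P') = pt φ (Fin.cons x y) (MvPolynomial.pderiv 0 P) := by
    intro φ x y
    rw [hPdef, pt_cons_pderiv_zero]
  have hmain := fun (t : T) (y : Fin n → ℂ) => hmain (pt (ev t) y)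
  simp only [eG, ew, eP, edP] at hmain
  have hmeasG : ∀ t, Measurable (fun z : Fin (n + 1) → ℂ => ENNReal.ofReal (G (pt (ev t) z))) :=
    fun t => (measurable_Tr hG (ev t)).ennreal_ofReal
  have key : ∀ᶠ t in l, (∫⁻ z : Fin (n + 1) → ℂ, ENNReal.ofReal (G (pt (ev t) z)) ≠ ∞) ∧
      ∀ᵐ y : Fin n → ℂ, pt (ev t) y q1 ≠ 0 ∧
        ∫⁻ x : ℂ, ENNReal.ofReal (G (pt (ev t) (Fin.cons x y))) ≠ ∞ := by
    filter_upwards [hfin, h.ae_ne_zero hq1] with t ht hq
    refine ⟨ht, ?_⟩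
    rw [lintegral_cons _ (hmeasG t)] at ht
    have h2 := ae_lt_top (meas_cons2 (hmeasG t)) ht
    filter_upwards [hq, h2] with y h1 h2
    exact ⟨h1, h2.ne⟩
  refine ⟨M, P, j, Q, κ₀, C, hM, hP0, hQ, hκ₀, hC, ?_, ?_⟩
  · filter_upwards [key] with t ht
    have hb : ∫⁻ y : Fin n → ℂ, ENNReal.ofReal (M (pt (ev t) y)) ≤
        ENNReal.ofReal C * ∫⁻ z : Fin (n + 1) → ℂ, ENNReal.ofReal (G (pt (ev t) z)) := by
      rw [lintegral_cons _ (hmeasG t), ← lintegral_const_mul' _ _ ENNReal.ofReal_ne_top]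
      refine lintegral_mono_ae ?_
      filter_upwards [ht.2] with y hy
      exact (hmain _ _ hy.1 hy.2).1
    exact ne_top_of_le_ne_top (ENNReal.mul_ne_top ENNReal.ofReal_ne_top ht.1) hb
  · filter_upwards [key] with t ht
    filter_upwards [ht.2] with y hy
    exact hmain _ _ hy.1 hy.2

/-- weighted mass of the fibration, from the weighted mass of `M` -/
theorem WP_step (h : Scale l ev L) {n : ℕ}
    {G : (MvPolynomial (Fin (n + 1)) R →+* ℂ) → ℝ} (hG : Tr (MvPolynomial (Fin (n + 1)) R) G)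
    {k : ℕ} {w : Fin k → MvPolynomial (Fin (n + 1)) R}
    {M : (MvPolynomial (Fin n) R →+* ℂ) → ℝ} {P : MvPolynomial (Fin (n + 1)) R} {j : ℕ}
    {Q : Fin j → MvPolynomial (Fin n) R} {κ₀ C : ℝ}
    (hM : Tr (MvPolynomial (Fin n) R) M) (hQ : ∀ i, Q i ≠ 0) (hκ₀ : 0 < κ₀) (hC : 0 < C)
    (hW : WStmt l ev L M)
    (hpk : ∀ᶠ t in l, ∀ᵐ y : Fin n → ℂ, ∀ κ : ℝ, 0 ≤ κ → κ ≤ κ₀ →
          ∫⁻ x : ℂ, ENNReal.ofReal (G (pt (ev t) (Fin.cons x y)) *
            Real.exp (κ * (∑ i, |Real.log ‖pt (ev t) (Fin.cons x y) (w i)‖| +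
              |Real.log ‖pt (ev t) (Fin.cons x y) P‖|))) ≤
          ENNReal.ofReal (C * M (pt (ev t) y) * (1 + ∑ i, |Real.log ‖pt (ev t) y (Q i)‖|) *
            Real.exp (C * κ * (1 + ∑ i, |Real.log ‖pt (ev t) y (Q i)‖|)))) :
    ∃ κ C₂ : ℝ, 0 < κ ∧ 0 < C₂ ∧ ∀ᶠ t in l,
      ∫⁻ z : Fin (n + 1) → ℂ, ENNReal.ofReal (G (pt (ev t) z) *
        Real.exp (κ * (∑ i, |Real.log ‖pt (ev t) z (w i)‖| + |Real.log ‖pt (ev t) z P‖|))) ≤
        ENNReal.ofReal (Real.exp (C₂ * L t)) := by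
  obtain ⟨κ₁, C₁, hκ₁, hC₁, hw1⟩ := hW j Q hQ
  set κ := min κ₀ (κ₁ / (2 * C)) with hκdef
  have hκ : 0 < κ := lt_min hκ₀ (by positivity)
  have hκ2 : C * κ ≤ κ₁ / 2 := by
    have : κ ≤ κ₁ / (2 * C) := min_le_right _ _
    calc C * κ ≤ C * (κ₁ / (2 * C)) := mul_le_mul_of_nonneg_left this hC.le
      _ = κ₁ / 2 := by field_simp
  refine ⟨κ, C₁ + 1, hκ, by linarith, ?_⟩
  have hK : ∀ᶠ t in l, C * (2 / κ₁) * Real.exp κ₁ ≤ Real.exp (L t) :=
    (Real.tendsto_exp_atTop.comp h.tendsto).eventually_ge_atTop _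
  filter_upwards [hpk, hw1, hK] with t ht hwt hKt
  have hmeas : Measurable (fun z : Fin (n + 1) → ℂ => ENNReal.ofReal (G (pt (ev t) z) *
        Real.exp (κ * (∑ i, |Real.log ‖pt (ev t) z (w i)‖| + |Real.log ‖pt (ev t) z P‖|)))) := by
    refine ((measurable_Tr hG (ev t)).mul (Real.measurable_exp.comp (measurable_const.mul
      (Measurable.add (Finset.measurable_fun_sum _ fun i _ => ?_) ?_)))).ennreal_ofReal
    · exact (measurable_log_pt (ev t) (w i)).abs
    · exact (measurable_log_pt (ev t) P).abs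
  rw [lintegral_cons _ hmeas]
  calc _ ≤ ∫⁻ y : Fin n → ℂ, ENNReal.ofReal ((C * (2 / κ₁) * Real.exp κ₁) *
            (M (pt (ev t) y) * Real.exp (κ₁ * ∑ i, |Real.log ‖pt (ev t) y (Q i)‖|))) := by
        refine lintegral_mono_ae ?_
        filter_upwards [ht] with y hy
        refine (hy κ hκ.le (min_le_left _ _)).trans (ENNReal.ofReal_le_ofReal ?_)
        exact ineq1 hκ₁ hC hκ2 (Finset.sum_nonneg fun _ _ => abs_nonneg _) (hM.pos _).le
    _ = ENNReal.ofReal (C * (2 / κ₁) * Real.exp κ₁) * ∫⁻ y : Fin n → ℂ, ENNReal.ofReal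
            (M (pt (ev t) y) * Real.exp (κ₁ * ∑ i, |Real.log ‖pt (ev t) y (Q i)‖|)) :=
        lint_const_mul _ (by positivity) _
    _ ≤ ENNReal.ofReal (Real.exp (L t)) * ENNReal.ofReal (Real.exp (C₁ * L t)) :=
        mul_le_mul' (ENNReal.ofReal_le_ofReal hKt) hwt
    _ = _ := by
        rw [← ENNReal.ofReal_mul (Real.exp_pos _).le, ← Real.exp_add]
        congr 2; ring

end step

end Crest.Agent.R281.TrU_249
end

-- ▼ part R281/TrU4_249

/-!
# Row 281, TROP-UWT (helper249), part 4: the step for `TStmt` and the final theorem `trop`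
-/

namespace Crest.Agent.R281.TrU_249

open MeasureTheory Filter Topology
open scoped ENNReal

open Crest.Agent.R281.TrPL_726

section step

variable {T R : Type*} [CommRing R] {l : Filter T} {ev : T → R →+* ℂ} {L : T → ℝ}

theorem keyY (h : Scale l ev L) {n : ℕ}
    {G : (MvPolynomial (Fin (n + 1)) R →+* ℂ) → ℝ}
    {M : (MvPolynomial (Fin n) R →+* ℂ) → ℝ} (hM : Tr (MvPolynomial (Fin n) R) M)
    {j : ℕ} {Q : Fin j → MvPolynomial (Fin n) R} {C κ₁ C₁ : ℝ} (hC : 0 < C) (hκ₁ : 0 < κ₁)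
    (hC₁ : 0 < C₁) (a : ℝ)
    (hW : ∀ᶠ t in l, ∫⁻ y : Fin n → ℂ, ENNReal.ofReal (M (pt (ev t) y) *
        Real.exp (κ₁ * ∑ i, |Real.log ‖pt (ev t) y (Q i)‖|)) ≤ ENNReal.ofReal (Real.exp (C₁ * L t)))
    (h2 : ∀ᶠ t in l, ∀ᵐ y : Fin n → ℂ,
      ∫⁻ x : ℂ, ENNReal.ofReal (G (pt (ev t) (Fin.cons x y))) ≤
        ENNReal.ofReal (C * M (pt (ev t) y) * (1 + ∑ i, |Real.log ‖pt (ev t) y (Q i)‖|))) :
    ∀ᶠ t in l, ∀ Y : Set (Fin n → ℂ), ∫⁻ y in Y, ∫⁻ x : ℂ, ENNReal.ofReal (G (pt (ev t) (Fin.cons x y))) ≤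
      ENNReal.ofReal (C * (1 + 2 * (C₁ + |a|) / κ₁ * L t)) *
        (∫⁻ y in Y, ENNReal.ofReal (M (pt (ev t) y))) +
        ENNReal.ofReal (C * (2 / κ₁ * Real.exp (κ₁ / 2)) * Real.exp (a * L t)) := by
  filter_upwards [hW, h2, h.tendsto.eventually_ge_atTop 0] with t hwt h2t hL Y
  set K := 2 * (C₁ + |a|) / κ₁ with hK
  have hK0 : 0 ≤ K := by positivity
  set c := 2 / κ₁ * Real.exp (κ₁ / 2) with hc
  have hc0 : 0 < c := by positivity
  set E := Real.exp (-(κ₁ * K * L t / 2)) with hE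
  set S : (Fin n → ℂ) → ℝ := fun y => ∑ i, |Real.log ‖pt (ev t) y (Q i)‖| with hS
  have hS0 : ∀ y, 0 ≤ S y := fun y => Finset.sum_nonneg fun _ _ => abs_nonneg _
  have hpt : ∀ y, ENNReal.ofReal (C * M (pt (ev t) y) * (1 + S y)) ≤
      ENNReal.ofReal (C * (1 + K * L t)) * ENNReal.ofReal (M (pt (ev t) y)) +
      ENNReal.ofReal (C * c * E) * ENNReal.ofReal (M (pt (ev t) y) * Real.exp (κ₁ * S y)) := by
    intro y
    have hMp := (hM.pos (pt (ev t) y)).le
    rw [← ENNReal.ofReal_mul (by positivity), ← ENNReal.ofReal_mul (by positivity),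
      ← ENNReal.ofReal_add (by positivity) (by positivity)]
    refine ENNReal.ofReal_le_ofReal ?_
    have := mul_le_mul_of_nonneg_left (ineq2 (S := S y) hκ₁ hK0 hL (hS0 y))
      (mul_nonneg hC.le hMp)
    calc _ ≤ _ := this
      _ = _ := by rw [← hc, ← hE]; ring
  have hmM : Measurable (fun y : Fin n → ℂ => ENNReal.ofReal (C * (1 + K * L t)) *
      ENNReal.ofReal (M (pt (ev t) y))) :=
    (measurable_Tr hM (ev t)).ennreal_ofReal.const_mul _
  have hE2 : E * Real.exp (C₁ * L t) ≤ Real.exp (a * L t) := by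
    rw [hE, ← Real.exp_add]
    refine Real.exp_le_exp.2 ?_
    have : κ₁ * K = 2 * (C₁ + |a|) := by rw [hK]; field_simp
    rw [this]
    have h3 := neg_abs_le a
    nlinarith
  calc _ ≤ ∫⁻ y in Y, (ENNReal.ofReal (C * (1 + K * L t)) * ENNReal.ofReal (M (pt (ev t) y)) +
      ENNReal.ofReal (C * c * E) * ENNReal.ofReal (M (pt (ev t) y) * Real.exp (κ₁ * S y))) := by
        refine lintegral_mono_ae (ae_restrict_of_ae ?_)
        filter_upwards [h2t] with y hy
        exact hy.trans (hpt y)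
    _ = ENNReal.ofReal (C * (1 + K * L t)) * (∫⁻ y in Y, ENNReal.ofReal (M (pt (ev t) y))) +
      ENNReal.ofReal (C * c * E) *
        (∫⁻ y in Y, ENNReal.ofReal (M (pt (ev t) y) * Real.exp (κ₁ * S y))) := by
        rw [lintegral_add_left hmM, lintegral_const_mul' _ _ ENNReal.ofReal_ne_top,
          lintegral_const_mul' _ _ ENNReal.ofReal_ne_top]
    _ ≤ _ := by
        refine add_le_add le_rfl ?_
        calc _ ≤ ENNReal.ofReal (C * c * E) * ENNReal.ofReal (Real.exp (C₁ * L t)) :=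
              mul_le_mul' le_rfl ((setLIntegral_le_lintegral _ _).trans hwt)
          _ = ENNReal.ofReal (C * c * (E * Real.exp (C₁ * L t))) := by
              rw [← ENNReal.ofReal_mul (by positivity)]; congr 1; ring
          _ ≤ _ := ENNReal.ofReal_le_ofReal (mul_le_mul_of_nonneg_left hE2 (by positivity))

/-- real inequality for the upper bound -/
theorem real_up {C K C' c e lam : ℝ} {n : ℕ} (hC : 0 < C) (hK : 0 ≤ K) (hC' : 0 < C') (hc : 0 < c)
    (he : 0 < e) (hlam : 1 ≤ lam) :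
    C * (1 + K * lam) * (C' * e * lam ^ n) + C * c * e ≤
      (C * (1 + K) * C' + C * c) * e * lam ^ (n + 1) := by
  have h1 : 1 + K * lam ≤ (1 + K) * lam := by nlinarith
  have h2 : 1 ≤ lam ^ (n + 1) := one_le_pow₀ hlam
  have h3 : 0 < lam := by linarith
  have h4 : C * (1 + K * lam) * (C' * e * lam ^ n) ≤ C * ((1 + K) * lam) * (C' * e * lam ^ n) := by
    gcongr
  have h5 : C * c * e * 1 ≤ C * c * e * lam ^ (n + 1) := mul_le_mul_of_nonneg_left h2 (by positivity)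
  calc _ ≤ C * ((1 + K) * lam) * (C' * e * lam ^ n) + C * c * e * lam ^ (n + 1) := by linarith
    _ = _ := by ring

/-- real inequality for the bad mass -/
theorem real_bad {C K C' c e lam : ℝ} {n : ℕ} (hC : 0 < C) (hK : 0 ≤ K) (hC' : 0 < C') (hc : 0 < c)
    (he : 0 < e) (hlam : 1 ≤ lam) :
    (C * (1 + K * lam) * (C' * e * lam ^ n / lam) + C * c * e) + C * (C' * e * lam ^ n) + e ≤
      (C * (1 + K) * C' + C * c + C * C' + 1) * e * lam ^ (n + 1) / lam := by
  have h3 : 0 < lam := by linarith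
  have h1 : 1 + K * lam ≤ (1 + K) * lam := by nlinarith
  have h2 : 1 ≤ lam ^ n := one_le_pow₀ hlam
  have h4 : C * (1 + K * lam) * (C' * e * lam ^ n / lam) ≤ C * (1 + K) * C' * e * lam ^ n := by
    calc _ ≤ C * ((1 + K) * lam) * (C' * e * lam ^ n / lam) := by gcongr
      _ = _ := by field_simp
  have h5 : C * c * e * 1 ≤ C * c * e * lam ^ n := mul_le_mul_of_nonneg_left h2 (by positivity)
  have h6 : e * 1 ≤ e * lam ^ n := mul_le_mul_of_nonneg_left h2 (by positivity)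
  have h7 : (C * (1 + K) * C' + C * c + C * C' + 1) * e * lam ^ (n + 1) / lam =
      (C * (1 + K) * C' + C * c + C * C' + 1) * e * lam ^ n := by
    rw [pow_succ]; field_simp
  rw [h7]
  linarith

theorem bad_incl (φ : R →+* ℂ) {lam : ℝ} {n : ℕ}
    {G : (MvPolynomial (Fin (n + 1)) R →+* ℂ) → ℝ} {M : (MvPolynomial (Fin n) R →+* ℂ) → ℝ}
    {P : MvPolynomial (Fin (n + 1)) R} {f' : Fin n → MvPolynomial (Fin n) R} {a C C' Cn : ℝ}
    (hC : 0 < C) (hCn1 : C * C' ≤ Cn) (hCn2 : C' ≤ Cn) (hlam : 0 ≤ lam) (x : ℂ) (y : Fin n → ℂ)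
    (hxy : (Fin.cons x y : Fin (n + 1) → ℂ) ∈
      Bad φ lam G (Fin.cons P (fun i => MvPolynomial.rename Fin.succ (f' i))) a Cn) :
    y ∈ Bad φ lam M f' a C' ∨ (C * M (pt φ y) *
      ‖pt φ (Fin.cons x y) (MvPolynomial.pderiv 0 P) / pt φ (Fin.cons x y) P‖ ^ 2 <
        G (pt φ (Fin.cons x y))) ∨ Cn * lam < |Real.log ‖pt φ (Fin.cons x y) P‖| := by
  by_contra hcon
  rw [not_or, not_or, not_lt, not_lt] at hcon
  obtain ⟨n1, n2, n3⟩ := hcon
  simp only [Bad, Set.mem_ofPred_eq, not_or, not_lt, not_exists] at n1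
  obtain ⟨m1, m2⟩ := n1
  rcases hxy with hxy | ⟨i, hi⟩
  · rw [Fin.prod_univ_succ] at hxy
    simp only [Fin.cons_zero, Fin.cons_succ, pt_cons_pderiv_succ, pt_cons_rename] at hxy
    refine absurd hxy (not_lt.2 ?_)
    generalize ‖pt φ (Fin.cons x y) (MvPolynomial.pderiv 0 P) / pt φ (Fin.cons x y) P‖ = d0 at n2 ⊢
    have hD1' : 0 ≤ ∏ i, ‖pt φ y (MvPolynomial.pderiv i (f' i)) / pt φ y (f' i)‖ ^ 2 :=
      Finset.prod_nonneg fun _ _ => by positivity
    generalize ∏ i, ‖pt φ y (MvPolynomial.pderiv i (f' i)) / pt φ y (f' i)‖ ^ 2 = D1 at m1 hD1' ⊢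
    generalize G (pt φ (Fin.cons x y)) = g at n2 ⊢
    generalize M (pt φ y) = m at n2 m1
    have he : 0 < Real.exp (a * lam) := Real.exp_pos _
    generalize Real.exp (a * lam) = e at m1 he ⊢
    have h1 : C * m * d0 ^ 2 ≤ C * (C' * e * D1) * d0 ^ 2 :=
      mul_le_mul_of_nonneg_right (mul_le_mul_of_nonneg_left m1 hC.le) (sq_nonneg _)
    have h2 : (C * C') * (e * (d0 ^ 2 * D1)) ≤ Cn * (e * (d0 ^ 2 * D1)) :=
      mul_le_mul_of_nonneg_right hCn1 (by positivity)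
    calc g ≤ _ := n2
      _ ≤ _ := h1
      _ = (C * C') * (e * (d0 ^ 2 * D1)) := by ring
      _ ≤ _ := h2
      _ = _ := by ring
  · revert hi
    refine Fin.cases ?_ (fun i => ?_) i
    · intro hi
      rw [Fin.cons_zero] at hi
      exact absurd hi (not_lt.2 n3)
    · intro hi
      rw [Fin.cons_succ, pt_cons_rename] at hi
      have h5 := m2 i
      have h6 : C' * lam ≤ Cn * lam := mul_le_mul_of_nonneg_right hCn2 hlam
      exact absurd hi (not_lt.2 (h5.trans h6))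

theorem T_step (h : Scale l ev L) {n : ℕ}
    {G : (MvPolynomial (Fin (n + 1)) R →+* ℂ) → ℝ} (hG : Tr (MvPolynomial (Fin (n + 1)) R) G)
    {M : (MvPolynomial (Fin n) R →+* ℂ) → ℝ} (hM : Tr (MvPolynomial (Fin n) R) M)
    {P : MvPolynomial (Fin (n + 1)) R} (hP0 : P ≠ 0) {C κ₁ C₁ κ₂ C₂ : ℝ}
    {j : ℕ} {Q : Fin j → MvPolynomial (Fin n) R} (hC : 0 < C) (hκ₁ : 0 < κ₁)
    (hC₁ : 0 < C₁) (hκ₂ : 0 < κ₂) (hC₂ : 0 < C₂)
    (hW : ∀ᶠ t in l, ∫⁻ y : Fin n → ℂ, ENNReal.ofReal (M (pt (ev t) y) *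
        Real.exp (κ₁ * ∑ i, |Real.log ‖pt (ev t) y (Q i)‖|)) ≤ ENNReal.ofReal (Real.exp (C₁ * L t)))
    (hT : TStmt l ev L M)
    (hWP : ∀ᶠ t in l, ∫⁻ z : Fin (n + 1) → ℂ, ENNReal.ofReal (G (pt (ev t) z) *
        Real.exp (κ₂ * |Real.log ‖pt (ev t) z P‖|)) ≤ ENNReal.ofReal (Real.exp (C₂ * L t)))
    (h1 : ∀ᶠ t in l, ∀ᵐ y : Fin n → ℂ, ENNReal.ofReal (M (pt (ev t) y)) ≤
          ENNReal.ofReal C * ∫⁻ x : ℂ, ENNReal.ofReal (G (pt (ev t) (Fin.cons x y))))
    (h2 : ∀ᶠ t in l, ∀ᵐ y : Fin n → ℂ,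
      ∫⁻ x : ℂ, ENNReal.ofReal (G (pt (ev t) (Fin.cons x y))) ≤
        ENNReal.ofReal (C * M (pt (ev t) y) * (1 + ∑ i, |Real.log ‖pt (ev t) y (Q i)‖|)))
    (h3 : ∀ᶠ t in l, ∀ᵐ y : Fin n → ℂ, ∫⁻ x : ℂ in {x : ℂ | C * M (pt (ev t) y) *
            ‖pt (ev t) (Fin.cons x y) (MvPolynomial.pderiv 0 P) / pt (ev t) (Fin.cons x y) P‖ ^ 2 <
              G (pt (ev t) (Fin.cons x y))},
          ENNReal.ofReal (G (pt (ev t) (Fin.cons x y))) ≤ ENNReal.ofReal (C * M (pt (ev t) y))) :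
    TStmt l ev L G := by
  obtain ⟨a, C', f', hC', hf', hT⟩ := hT
  have hY := keyY h hM hC hκ₁ hC₁ a hW h2
  set K := 2 * (C₁ + |a|) / κ₁ with hK
  have hK0 : 0 ≤ K := by positivity
  set c := 2 / κ₁ * Real.exp (κ₁ / 2) with hc
  have hc0 : 0 < c := by positivity
  set Cn := (C * (1 + K) * C' + C * c + C * C' + 1) + C' + (C₂ + |a|) / κ₂ with hCn
  have hq0 : 0 ≤ (C₂ + |a|) / κ₂ := by positivity
  have hU0 : 0 ≤ C * (1 + K) * C' := by positivity
  have hCc0 : 0 < C * c := by positivity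
  have hCC0 : 0 < C * C' := by positivity
  have hCn0 : 0 < Cn := by linarith
  have hCn1 : C * C' ≤ Cn := by linarith
  have hCn2 : C' ≤ Cn := by linarith
  have hCn3 : (C₂ + |a|) / κ₂ ≤ Cn := by linarith
  have hCn4 : C * (1 + K) * C' + C * c + C * C' + 1 ≤ Cn := by linarith
  have hCn5 : C * (1 + K) * C' + C * c ≤ Cn := by linarith
  let f : Fin (n + 1) → MvPolynomial (Fin (n + 1)) R :=
    Fin.cons P (fun i => MvPolynomial.rename Fin.succ (f' i))
  have hf0 : f 0 = P := rfl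
  have hfs : ∀ i : Fin n, f i.succ = MvPolynomial.rename Fin.succ (f' i) := fun i => rfl
  refine ⟨a, Cn, f, hCn0, ?_, ?_⟩
  · classical
    intro i
    refine Fin.cases ?_ (fun i => ?_) i
    · exact ⟨hP0, fun j _ => Fin.zero_le j⟩
    · rw [hfs]
      refine ⟨?_, fun j hj => ?_⟩
      · intro h0
        apply (hf' i).1
        apply MvPolynomial.rename_injective _ (Fin.succ_injective n)
        rw [h0, map_zero]
      · have := MvPolynomial.vars_rename Fin.succ (f' i) hj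
        obtain ⟨j', hj', rfl⟩ := Finset.mem_image.1 this
        exact Fin.succ_le_succ_iff.2 ((hf' i).2 j' hj')
  · filter_upwards [hT, hY, h1, h3, hWP, h.tendsto.eventually_ge_atTop 1] with t hTt hYt h1t h3t hwp hL
    obtain ⟨hlow, hup, hbad⟩ := hTt
    have hL0 : 0 < L t := by linarith
    set e := Real.exp (a * L t) with he
    have he0 : 0 < e := Real.exp_pos _
    have hmeasG : Measurable (fun z : Fin (n + 1) → ℂ => ENNReal.ofReal (G (pt (ev t) z))) :=
      (measurable_Tr hG (ev t)).ennreal_ofReal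
    refine ⟨?_, ?_, ?_⟩
    · have hb : ∫⁻ y : Fin n → ℂ, ENNReal.ofReal (M (pt (ev t) y)) ≤
          ENNReal.ofReal C * ∫⁻ z : Fin (n + 1) → ℂ, ENNReal.ofReal (G (pt (ev t) z)) := by
        rw [lintegral_cons _ hmeasG, ← lintegral_const_mul' _ _ ENNReal.ofReal_ne_top]
        exact lintegral_mono_ae h1t
      have hb2 : ENNReal.ofReal C * ENNReal.ofReal (e / (C * C')) ≤
          ENNReal.ofReal C * ∫⁻ z : Fin (n + 1) → ℂ, ENNReal.ofReal (G (pt (ev t) z)) := by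
        refine le_trans (le_of_eq ?_) (hlow.trans hb)
        rw [← ENNReal.ofReal_mul hC.le]
        congr 1; field_simp
      have hb3 := (ENNReal.mul_le_mul_iff_right (by simpa using hC) ENNReal.ofReal_ne_top).1 hb2
      refine le_trans (ENNReal.ofReal_le_ofReal ?_) hb3
      exact div_le_div_of_nonneg_left he0.le hCC0 hCn1
    · rw [lintegral_cons _ hmeasG]
      have h4 := hYt Set.univ
      rw [Measure.restrict_univ] at h4
      refine h4.trans ?_
      refine (add_le_add (mul_le_mul' le_rfl hup) le_rfl).trans ?_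
      rw [← ENNReal.ofReal_mul (by positivity), ← ENNReal.ofReal_add (by positivity) (by positivity)]
      refine ENNReal.ofReal_le_ofReal ?_
      refine (real_up hC hK0 hC' hc0 he0 hL).trans ?_
      have : 0 ≤ e * L t ^ (n + 1) := by positivity
      have h9 := mul_le_mul_of_nonneg_right hCn5 this
      linarith
    · set B := Bad (ev t) (L t) G f a Cn with hB
      set B' := Bad (ev t) (L t) M f' a C' with hB'
      have hBm : MeasurableSet B := measurableSet_Bad _ _ hG _ _ _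
      have hB'm : MeasurableSet B' := measurableSet_Bad _ _ hM _ _ _
      set V : Set (Fin (n + 1) → ℂ) := {z | Cn * L t < |Real.log ‖pt (ev t) z P‖|} with hV
      have hVm : MeasurableSet V :=
        measurableSet_lt measurable_const (measurable_log_pt (ev t) P).abs
      set g : (Fin (n + 1) → ℂ) → ℝ≥0∞ := fun z => ENNReal.ofReal (G (pt (ev t) z)) with hg
      set Z : (Fin n → ℂ) → Set ℂ := fun y => {x : ℂ | C * M (pt (ev t) y) *
            ‖pt (ev t) (Fin.cons x y) (MvPolynomial.pderiv 0 P) / pt (ev t) (Fin.cons x y) P‖ ^ 2 <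
              G (pt (ev t) (Fin.cons x y))} with hZ
      have hconsm : ∀ y : Fin n → ℂ, Measurable (fun x : ℂ => (Fin.cons x y : Fin (n + 1) → ℂ)) :=
        fun y => measurable_cons.comp (measurable_id.prodMk measurable_const)
      have hZm : ∀ y, MeasurableSet (Z y) := by
        intro y
        refine measurableSet_lt (measurable_const.mul ?_) ((measurable_Tr hG (ev t)).comp (hconsm y))
        exact ((((continuous_pt (ev t) _).measurable.comp (hconsm y)).div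
          ((continuous_pt (ev t) _).measurable.comp (hconsm y))).norm).pow_const 2
      have hincl : ∀ (x : ℂ) (y : Fin n → ℂ), (Fin.cons x y : Fin (n + 1) → ℂ) ∈ B →
          y ∈ B' ∨ x ∈ Z y ∨ (Fin.cons x y : Fin (n + 1) → ℂ) ∈ V := by
        intro x y hxy
        exact bad_incl (ev t) hC hCn1 hCn2 hL0.le x y hxy
      have hpoint : ∀ᵐ y : Fin n → ℂ, ∫⁻ x : ℂ, B.indicator g (Fin.cons x y) ≤
          (B'.indicator (fun y : Fin n → ℂ => ∫⁻ x : ℂ, g (Fin.cons x y)) y +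
            ENNReal.ofReal (C * M (pt (ev t) y))) + ∫⁻ x : ℂ, V.indicator g (Fin.cons x y) := by
        filter_upwards [h3t] with y hy
        by_cases hyB : y ∈ B'
        · refine le_trans ?_ (le_trans le_self_add le_self_add)
          rw [Set.indicator_of_mem hyB]
          exact lintegral_mono fun x => Set.indicator_le_self _ _ _
        · have hle : ∀ x : ℂ, B.indicator g (Fin.cons x y) ≤
              (Z y).indicator (fun x : ℂ => g (Fin.cons x y)) x + V.indicator g (Fin.cons x y) := by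
            intro x
            by_cases hx : (Fin.cons x y : Fin (n + 1) → ℂ) ∈ B
            · rw [Set.indicator_of_mem hx]
              rcases hincl x y hx with h5 | h5 | h5
              · exact absurd h5 hyB
              · rw [Set.indicator_of_mem h5]; exact le_self_add
              · rw [Set.indicator_of_mem h5]; exact le_add_self
            · rw [Set.indicator_of_notMem hx]; exact zero_le
          refine (lintegral_mono hle).trans ?_
          have hmZ : Measurable ((Z y).indicator (fun x : ℂ => g (Fin.cons x y))) :=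
            (hmeasG.comp (hconsm y)).indicator (hZm y)
          rw [lintegral_add_left hmZ, lintegral_indicator (hZm y)]
          refine add_le_add (le_trans hy ?_) le_rfl
          exact le_add_self
      have hmB : Measurable (B.indicator g) := hmeasG.indicator hBm
      have hmV : Measurable (V.indicator g) := hmeasG.indicator hVm
      have hA : ∫⁻ y : Fin n → ℂ, B'.indicator (fun y : Fin n → ℂ => ∫⁻ x : ℂ, g (Fin.cons x y)) y ≤
          ENNReal.ofReal (C * (1 + K * L t)) * ENNReal.ofReal (C' * e * L t ^ n / L t) +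
          ENNReal.ofReal (C * c * e) := by
        rw [lintegral_indicator hB'm]
        exact (hYt B').trans (add_le_add (mul_le_mul' le_rfl hbad) le_rfl)
      have hBB : ∫⁻ y : Fin n → ℂ, ENNReal.ofReal (C * M (pt (ev t) y)) ≤
          ENNReal.ofReal C * ENNReal.ofReal (C' * e * L t ^ n) := by
        rw [lint_const_mul _ hC.le]
        exact mul_le_mul' le_rfl hup
      have hD : ∫⁻ y : Fin n → ℂ, ∫⁻ x : ℂ, V.indicator g (Fin.cons x y) ≤ ENNReal.ofReal e := by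
        rw [← lintegral_cons _ hmV]
        have hle : ∀ z, V.indicator g z ≤ ENNReal.ofReal (Real.exp (-(κ₂ * (Cn * L t))) *
            (G (pt (ev t) z) * Real.exp (κ₂ * |Real.log ‖pt (ev t) z P‖|))) := by
          intro z
          by_cases hz : z ∈ V
          · rw [Set.indicator_of_mem hz]
            refine ENNReal.ofReal_le_ofReal ?_
            have hz' : Cn * L t < |Real.log ‖pt (ev t) z P‖| := hz
            have hGp := hG.pos (pt (ev t) z)
            have h6 : 1 ≤ Real.exp (-(κ₂ * (Cn * L t))) * Real.exp (κ₂ * |Real.log ‖pt (ev t) z P‖|) := by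
              rw [← Real.exp_add]
              refine Real.one_le_exp ?_
              nlinarith
            calc G (pt (ev t) z) = G (pt (ev t) z) * 1 := (mul_one _).symm
              _ ≤ G (pt (ev t) z) * (Real.exp (-(κ₂ * (Cn * L t))) *
                    Real.exp (κ₂ * |Real.log ‖pt (ev t) z P‖|)) :=
                  mul_le_mul_of_nonneg_left h6 hGp.le
              _ = _ := by ring
          · rw [Set.indicator_of_notMem hz]; exact zero_le
        refine (lintegral_mono hle).trans ?_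
        rw [lint_const_mul _ (Real.exp_pos _).le]
        refine (mul_le_mul' le_rfl hwp).trans ?_
        rw [← ENNReal.ofReal_mul (Real.exp_pos _).le, ← Real.exp_add]
        refine ENNReal.ofReal_le_ofReal (Real.exp_le_exp.2 ?_)
        have h7 : C₂ + |a| ≤ κ₂ * Cn := by
          have := mul_le_mul_of_nonneg_left hCn3 hκ₂.le
          rwa [mul_div_cancel₀ _ hκ₂.ne'] at this
        have h8 := neg_abs_le a
        nlinarith
      rw [← lintegral_indicator hBm, lintegral_cons _ hmB]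
      refine (lintegral_mono_ae hpoint).trans ?_
      have m1 : Measurable (B'.indicator (fun y : Fin n → ℂ => ∫⁻ x : ℂ, g (Fin.cons x y))) :=
        (meas_cons2 hmeasG).indicator hB'm
      have m2 : Measurable (fun y : Fin n → ℂ => ENNReal.ofReal (C * M (pt (ev t) y))) :=
        ((measurable_Tr hM (ev t)).const_mul C).ennreal_ofReal
      have m12 : Measurable (fun y : Fin n → ℂ =>
          B'.indicator (fun y : Fin n → ℂ => ∫⁻ x : ℂ, g (Fin.cons x y)) y +
            ENNReal.ofReal (C * M (pt (ev t) y))) := m1.add m2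
      rw [lintegral_add_left m12, lintegral_add_left m1]
      refine (add_le_add (add_le_add hA hBB) hD).trans ?_
      rw [← ENNReal.ofReal_mul (by positivity), ← ENNReal.ofReal_mul hC.le,
        ← ENNReal.ofReal_add (by positivity) (by positivity),
        ← ENNReal.ofReal_add (by positivity) (by positivity),
        ← ENNReal.ofReal_add (by positivity) (by positivity)]
      refine ENNReal.ofReal_le_ofReal ((real_bad hC hK0 hC' hc0 he0 hL).trans ?_)
      have h9 : 0 ≤ e * L t ^ (n + 1) / L t := by positivity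
      calc _ = (C * (1 + K) * C' + C * c + C * C' + 1) * (e * L t ^ (n + 1) / L t) := by ring
        _ ≤ Cn * (e * L t ^ (n + 1) / L t) := mul_le_mul_of_nonneg_right hCn4 h9
        _ = _ := by ring

end step

section main

variable {T R : Type*} [CommRing R] {l : Filter T} {ev : T → R →+* ℂ} {L : T → ℝ}

theorem trop_WT (h : Scale l ev L) (hP : ∀ n, Proj (MvPolynomial (Fin n) R)) (n : ℕ) :
    ∀ G : (MvPolynomial (Fin n) R →+* ℂ) → ℝ, Tr (MvPolynomial (Fin n) R) G →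
      (∀ᶠ t in l, ∫⁻ y : Fin n → ℂ, ENNReal.ofReal (G (pt (ev t) y)) ≠ ∞) →
      WStmt l ev L G ∧ TStmt l ev L G := by
  induction n with
  | zero => exact fun G hG _ => ⟨base_W h hG, base_T h hG⟩
  | succ n ih =>
    intro G hG hfin
    constructor
    · intro k w hw
      obtain ⟨M, P, j, Q, κ₀, C, hM, hP0, hQ, hκ₀, hC, hfM, hpk⟩ := pkg h (hP n) hG hfin k w hw
      obtain ⟨κ, C₂, hκ, hC₂, hb⟩ := WP_step (w := w) (P := P) h hG hM hQ hκ₀ hC (ih M hM hfM).1
        (hpk.mono fun t ht => ht.mono fun y hy => hy.2.1)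
      refine ⟨κ, C₂, hκ, hC₂, ?_⟩
      filter_upwards [hb] with t ht
      refine le_trans (lintegral_mono fun z => ENNReal.ofReal_le_ofReal ?_) ht
      refine mul_le_mul_of_nonneg_left (Real.exp_le_exp.2 ?_) (hG.pos _).le
      exact mul_le_mul_of_nonneg_left (le_add_of_nonneg_right (abs_nonneg _)) hκ.le
    · obtain ⟨M, P, j, Q, κ₀, C, hM, hP0, hQ, hκ₀, hC, hfM, hpk⟩ :=
        pkg h (hP n) hG hfin 0 (fun i => i.elim0) (fun i => i.elim0)
      obtain ⟨hWM, hTM⟩ := ih M hM hfM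
      obtain ⟨κ₁, C₁, hκ₁, hC₁, hW1⟩ := hWM j Q hQ
      obtain ⟨κ₂, C₂, hκ₂, hC₂, hb⟩ := WP_step (w := fun i : Fin 0 => i.elim0) (P := P) h hG hM hQ
        hκ₀ hC hWM (hpk.mono fun t ht => ht.mono fun y hy => hy.2.1)
      refine T_step h hG hM hP0 hC hκ₁ hC₁ hκ₂ hC₂ hW1 hTM ?_
        (hpk.mono fun t ht => ht.mono fun y hy => hy.1) ?_
        (hpk.mono fun t ht => ht.mono fun y hy => hy.2.2)
      · simpa using hb
      · refine hpk.mono fun t ht => ht.mono fun y hy => ?_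
        simpa using hy.2.1 0 le_rfl hκ₀.le

/-- **TROP**: see #6045 (6). -/
theorem trop (h : Scale l ev L) (hP : ∀ n, Proj (MvPolynomial (Fin n) R)) {n : ℕ}
    {G : (MvPolynomial (Fin n) R →+* ℂ) → ℝ} (hG : Tr (MvPolynomial (Fin n) R) G)
    (hfin : ∀ᶠ t in l, ∫⁻ y : Fin n → ℂ, ENNReal.ofReal (G (pt (ev t) y)) ≠ ∞) :
    TStmt l ev L G := (trop_WT h hP n G hG hfin).2

end main

end Crest.Agent.R281.TrU_249
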