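import Crest.Agent.R281.TrC3_282
import Mathlib
import Crest.Agent.R281.TrPL_726
import Crest.Agent.R281.TrU4_249

-- ▼ part R281/TrC4_282
section

/-!
# R281 / TROP-C, part 4: (CONJ): max over the group of a max-min expression in conjugates is representable.
-/

set_option autoImplicit false

open Polynomial

namespace Crest.Agent.R281.TrC_282

open Crest.Agent.R281.TrPL_726

/-- common denominator of a finite set of rational vectors, with an upper bound of the numerators -/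
theorem exists_denom {V : Type*} [Fintype V] (S : Finset (V → ℚ)) :
    ∃ D : ℕ, 0 < D ∧ ∃ K : ℕ, ∃ n : (V → ℚ) → V → ℕ, ∀ a ∈ S, ∀ v, (D : ℚ) * a v = (K : ℚ) - n a v := by
  classical
  set D : ℕ := ∏ a ∈ S, ∏ v, (a v).den with hD
  have hDpos : 0 < D := Finset.prod_pos fun a _ => Finset.prod_pos fun v _ => (a v).den_pos
  have hint : ∀ a ∈ S, ∀ v, ∃ z : ℤ, (D : ℚ) * a v = z := by
    intro a ha v
    have h1 : (a v).den ∣ D :=
      (Finset.dvd_prod_of_mem _ (Finset.mem_univ v)).trans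
        (Finset.dvd_prod_of_mem (fun a : V → ℚ => ∏ v, (a v).den) ha)
    obtain ⟨k, hk⟩ := h1
    refine ⟨k * (a v).num, ?_⟩
    rw [hk]
    push_cast
    have h2 : ((a v).den : ℚ) * a v = (a v).num := Rat.den_mul_eq_num _
    calc ((a v).den : ℚ) * k * a v = k * (((a v).den : ℚ) * a v) := by ring
      _ = _ := by rw [h2]
  choose! z hz using hint
  -- upper bound
  set K : ℕ := ∑ a ∈ S, ∑ v, (z a v).natAbs with hK
  have hle : ∀ a ∈ S, ∀ v, z a v ≤ K := by
    intro a ha v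
    have h1 : (z a v).natAbs ≤ ∑ v, (z a v).natAbs :=
      Finset.single_le_sum (f := fun v => (z a v).natAbs) (fun _ _ => Nat.zero_le _) (Finset.mem_univ v)
    have h2 : ∑ v, (z a v).natAbs ≤ K :=
      Finset.single_le_sum (f := fun a => ∑ v, (z a v).natAbs) (fun _ _ => Nat.zero_le _) ha
    have h3 : z a v ≤ (z a v).natAbs := Int.le_natAbs
    have : ((z a v).natAbs : ℤ) ≤ K := by exact_mod_cast h1.trans h2
    omega
  refine ⟨D, hDpos, K, fun a v => (K - z a v).toNat, fun a ha v => ?_⟩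
  rw [hz a ha v]
  have h4 : ((K - z a v).toNat : ℤ) = K - z a v := Int.toNat_of_nonneg (by have := hle a ha v; omega)
  have h5 : (((K - z a v).toNat : ℕ) : ℚ) = (K : ℚ) - (z a v : ℚ) := by exact_mod_cast h4
  rw [h5]
  ring

section Conj

set_option linter.unusedSectionVars false

variable {A C : Type*} [CommRing A] [IsDomain A] [CommRing C] [IsDomain C] [CharZero C] [Algebra A C]
  {G : Type*} [Group G] [Fintype G] [MulSemiringAction G C]

open Classical in
/-- all but few `γ` give a nonzero element -/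
theorem exists_good_gammas {p : ℕ} (hp : 0 < p) (M : Fin p → C) (hM : ∀ b, M b ≠ 0) (N : ℕ) :
    N - p < ((Finset.range N).filter (fun γ : ℕ => (∑ b : Fin p, (γ : C) ^ (b : ℕ) * M b) ≠ 0)).card ∨ N < p := by
  classical
  by_cases hNp : N < p
  · exact Or.inr hNp
  left
  push Not at hNp
  set f : C[X] := ∑ b : Fin p, Polynomial.C (M b) * X ^ (b : ℕ) with hf
  have hcoeff : ∀ b : Fin p, f.coeff b = M b := by
    intro b
    rw [hf, finsetSum_coeff]
    rw [Finset.sum_eq_single b]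
    · simp
    · intro c _ hc
      rw [coeff_C_mul, coeff_X_pow, if_neg, mul_zero]
      intro h
      exact hc (Fin.ext h.symm)
    · intro h; exact absurd (Finset.mem_univ b) h
  have hf0 : f ≠ 0 := by
    intro h
    have := hcoeff ⟨0, hp⟩
    rw [h, coeff_zero] at this
    exact hM _ this.symm
  have hdeg : f.natDegree < p := by
    rw [natDegree_lt_iff_degree_lt hf0, degree_lt_iff_coeff_zero]
    intro k hk
    rw [hf, finsetSum_coeff]
    apply Finset.sum_eq_zero
    intro b _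
    rw [coeff_C_mul, coeff_X_pow, if_neg, mul_zero]
    intro h
    have := b.2
    omega
  set B := (Finset.range N).filter (fun γ : ℕ => ¬ (∑ b : Fin p, (γ : C) ^ (b : ℕ) * M b) ≠ 0) with hB
  have hBcard : B.card < p := by
    refine lt_of_le_of_lt ?_ hdeg
    have hinj : Set.InjOn (fun γ : ℕ => (γ : C)) B := fun a _ b _ h => Nat.cast_injective (R := C) h
    have h1 : (B.image (fun γ : ℕ => (γ : C))).card = B.card := Finset.card_image_of_injOn hinj
    rw [← h1]
    have h2 : (B.image (fun γ : ℕ => (γ : C))).val ≤ f.roots := by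
      rw [Finset.val_le_iff_val_subset]
      intro w hw
      rw [Finset.mem_val, Finset.mem_image] at hw
      obtain ⟨γ, hγ, rfl⟩ := hw
      rw [hB, Finset.mem_filter, not_not] at hγ
      rw [mem_roots hf0, IsRoot.def, hf, eval_finsetSum]
      rw [← hγ.2]
      refine Finset.sum_congr rfl fun b _ => ?_
      rw [eval_mul, eval_C, eval_pow, eval_X, mul_comm]
    exact (Multiset.card_le_card h2).trans (card_roots' f)
  have hsum : ((Finset.range N).filter (fun γ : ℕ => (∑ b : Fin p, (γ : C) ^ (b : ℕ) * M b) ≠ 0)).card + B.card = N := by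
    rw [hB, Finset.card_filter_add_card_filter_not, Finset.card_range]
  omega

/-- one min-expression -/
theorem Rep.conj_min (hI : InvFrac A C G) {V : Type*} [Fintype V] {u : V → C} (hu : ∀ v, u v ≠ 0)
    (S : Finset (V → ℚ)) (hS : S.Nonempty) (T : (G → V → ℝ) → ℝ)
    (hT1 : ∀ ξ : G → V → ℝ, ∀ g : G, ∃ a ∈ S, lf a (ξ g) ≤ T ξ)
    (hT2 : ∀ ξ : G → V → ℝ, ∃ g : G, ∀ a ∈ S, T ξ ≤ lf a (ξ g)) :
    Rep A (fun ψ : C →+* ℂ => T (fun g v => Real.log ‖ψ (g • u v)‖)) := by
  classical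
  obtain ⟨D, hD, K, n, hn⟩ := exists_denom S
  set p := S.card with hp
  have hppos : 0 < p := Finset.card_pos.mpr hS
  set e : Fin p ≃ S := (Finset.equivFin S).symm with he
  set M : Fin p → C := fun b => ∏ v, u v ^ n (e b) v with hM
  set Dn : C := ∏ v, u v ^ K with hDn
  have hM0 : ∀ b, M b ≠ 0 := fun b => Finset.prod_ne_zero_iff.mpr fun v _ => pow_ne_zero _ (hu v)
  have hDn0 : Dn ≠ 0 := Finset.prod_ne_zero_iff.mpr fun v _ => pow_ne_zero _ (hu v)
  set N : ℕ := Fintype.card G * p + p with hN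
  set W : ℕ → C := fun γ => ∑ b : Fin p, (γ : C) ^ (b : ℕ) * M b with hW
  set Γ := (Finset.range N).filter (fun γ : ℕ => W γ ≠ 0) with hΓ
  have hΓcard : Fintype.card G * p < Γ.card := by
    rcases exists_good_gammas hppos M hM0 N with h | h
    · have : N - p = Fintype.card G * p := by omega
      rw [this] at h
      exact h
    · omega
  have hΓne : Γ.Nonempty := Finset.card_pos.mp (by omega)
  have hW0 : ∀ γ ∈ Γ, W γ ≠ 0 := fun γ hγ => (Finset.mem_filter.mp hγ).2
  set Nm : ℕ → C := fun γ => ∏ g : G, g • W γ with hNm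
  set Y : ℕ → C := fun γ => Dn * ∏ g ∈ Finset.univ.erase (1:G), g • W γ with hY
  have hYW : ∀ γ, Y γ * W γ = Dn * Nm γ := by
    intro γ
    have : Nm γ = (∏ g ∈ Finset.univ.erase (1:G), g • W γ) * W γ := by
      rw [hNm]
      show (∏ g : G, g • W γ) = _
      rw [← Finset.prod_erase_mul Finset.univ _ (Finset.mem_univ (1:G)), one_smul]
    rw [this, hY]
    ring
  have hsm0 : ∀ x : C, x ≠ 0 → ∀ g : G, g • x ≠ 0 := by
    intro x hx g h
    apply hx
    have := congrArg (fun y => g⁻¹ • y) h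
    simpa using this
  have hNm0 : ∀ γ ∈ Γ, Nm γ ≠ 0 := fun γ hγ =>
    Finset.prod_ne_zero_iff.mpr fun g _ => hsm0 _ (hW0 γ hγ) g
  have hY0 : ∀ γ ∈ Γ, Y γ ≠ 0 := fun γ hγ =>
    mul_ne_zero hDn0 (Finset.prod_ne_zero_iff.mpr fun g _ => hsm0 _ (hW0 γ hγ) g)
  have hNinv : ∀ γ, ∀ g : G, g • Nm γ = Nm γ := fun γ g => Finset.smul_prod_perm (W γ) g
  -- representability of `H γ`
  have hRep : ∀ γ ∈ Γ, Rep A (fun ψ : C →+* ℂ =>
      ((1 / (D:ℚ) : ℚ) : ℝ) * (mx G (fun g => Real.log ‖ψ (g • Y γ)‖) - Real.log ‖ψ (Nm γ)‖)) :=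
    fun γ hγ => ((Rep.conj_one hI (hY0 γ hγ)).sub (Rep.inv hI (hNm0 γ hγ) (hNinv γ))).smul _
  -- nonvanishing hypersurface
  obtain ⟨q₁, hq₁, hv₁⟩ := exists_nonvan_fin hI hu
  have hex : ∀ γ ∈ Γ, ∃ q : A, q ≠ 0 ∧ ∀ ψ : C →+* ℂ, ψ (algebraMap A C q) ≠ 0 → ∀ g : G,
      ψ (g • W γ) ≠ 0 := fun γ hγ => exists_nonvan hI (hW0 γ hγ)
  choose! q₂ hq₂ hv₂ using hex
  set q₀ : A := q₁ * ∏ γ ∈ Γ, q₂ γ with hq₀
  have hq₀0 : q₀ ≠ 0 := mul_ne_zero hq₁ (Finset.prod_ne_zero_iff.mpr hq₂)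
  have hsplit : ∀ ψ : C →+* ℂ, ψ (algebraMap A C q₀) ≠ 0 →
      (∀ v, ∀ g : G, ψ (g • u v) ≠ 0) ∧ ∀ γ ∈ Γ, ∀ g : G, ψ (g • W γ) ≠ 0 := by
    intro ψ hψ
    rw [hq₀, map_mul, map_mul, map_prod, map_prod] at hψ
    refine ⟨hv₁ ψ (left_ne_zero_of_mul hψ), fun γ hγ => hv₂ γ hγ ψ ?_⟩
    exact Finset.prod_ne_zero_iff.mp (right_ne_zero_of_mul hψ) γ hγ
  -- logs of the monomials
  have hlogM : ∀ ψ : C →+* ℂ, (∀ v, ∀ g : G, ψ (g • u v) ≠ 0) → ∀ (m : V → ℕ) (g : G),
      ψ (g • ∏ v, u v ^ m v) ≠ 0 ∧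
      Real.log ‖ψ (g • ∏ v, u v ^ m v)‖ = ∑ v, (m v : ℝ) * Real.log ‖ψ (g • u v)‖ := by
    intro ψ hψ m g
    have h1 : ψ (g • ∏ v, u v ^ m v) = ∏ v, ψ (g • u v) ^ m v := by
      rw [Finset.smul_prod', map_prod]
      refine Finset.prod_congr rfl fun v _ => ?_
      rw [smul_pow', map_pow]
    refine ⟨?_, ?_⟩
    · rw [h1]
      exact Finset.prod_ne_zero_iff.mpr fun v _ => pow_ne_zero _ (hψ v g)
    · rw [h1, norm_prod, Real.log_prod]
      · refine Finset.sum_congr rfl fun v _ => ?_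
        rw [norm_pow, Real.log_pow]
      · intro v _
        exact norm_ne_zero_iff.mpr (pow_ne_zero _ (hψ v g))
  have hdiff : ∀ ψ : C →+* ℂ, (∀ v, ∀ g : G, ψ (g • u v) ≠ 0) → ∀ (b : Fin p) (g : G),
      Real.log ‖ψ (g • Dn)‖ - Real.log ‖ψ (g • M b)‖
        = (D : ℝ) * lf (e b : V → ℚ) (fun v => Real.log ‖ψ (g • u v)‖) := by
    intro ψ hψ b g
    have h1 := (hlogM ψ hψ (fun _ => K) g).2
    have h2 := (hlogM ψ hψ (n (e b)) g).2
    have h1' : Real.log ‖ψ (g • Dn)‖ = ∑ v, (K : ℝ) * Real.log ‖ψ (g • u v)‖ := h1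
    have h2' : Real.log ‖ψ (g • M b)‖ = ∑ v, (n (e b) v : ℝ) * Real.log ‖ψ (g • u v)‖ := h2
    rw [h1', h2', lf, Finset.mul_sum, ← Finset.sum_sub_distrib]
    refine Finset.sum_congr rfl fun v _ => ?_
    have h3 : (D : ℚ) * (e b : V → ℚ) v = (K : ℚ) - n (e b) v := hn _ (e b).2 v
    have h4 : (D : ℝ) * ((e b : V → ℚ) v : ℝ) = (K : ℝ) - n (e b) v := by exact_mod_cast h3
    rw [← mul_assoc, h4]
    ring
  have hkey : ∀ ψ : C →+* ℂ, (∀ v, ∀ g : G, ψ (g • u v) ≠ 0) → ∀ γ ∈ Γ, (∀ g : G, ψ (g • W γ) ≠ 0) →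
      ∀ g : G, Real.log ‖ψ (g • Y γ)‖ - Real.log ‖ψ (Nm γ)‖
        = Real.log ‖ψ (g • Dn)‖ - Real.log ‖ψ (g • W γ)‖ := by
    intro ψ hψ γ hγ hw g
    have h1 : ψ (g • Y γ) * ψ (g • W γ) = ψ (g • Dn) * ψ (Nm γ) := by
      rw [← map_mul, ← smul_mul', hYW γ, smul_mul', hNinv, map_mul]
    have hD0 : ψ (g • Dn) ≠ 0 := (hlogM ψ hψ (fun _ => K) g).1
    have hN0 : ψ (Nm γ) ≠ 0 := by
      rw [hNm]
      simp only [map_prod]
      exact Finset.prod_ne_zero_iff.mpr fun g _ => hw g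
    have hYne : ψ (g • Y γ) ≠ 0 := by
      intro h0
      rw [h0, zero_mul] at h1
      exact mul_ne_zero hD0 hN0 h1.symm
    have h2 : Real.log ‖ψ (g • Y γ)‖ + Real.log ‖ψ (g • W γ)‖
        = Real.log ‖ψ (g • Dn)‖ + Real.log ‖ψ (Nm γ)‖ := by
      rw [← Real.log_mul (norm_ne_zero_iff.mpr hYne) (norm_ne_zero_iff.mpr (hw g)), ← norm_mul, h1,
        norm_mul, Real.log_mul (norm_ne_zero_iff.mpr hD0) (norm_ne_zero_iff.mpr hN0)]
    linarith
  have hWψ : ∀ (ψ : C →+* ℂ) (γ : ℕ) (g : G), ψ (g • W γ) = ∑ b : Fin p, (γ : ℂ) ^ (b : ℕ) * ψ (g • M b) := by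
    intro ψ γ g
    rw [hW]
    simp only
    rw [Finset.smul_sum, map_sum]
    refine Finset.sum_congr rfl fun b _ => ?_
    rw [smul_mul', map_mul, smul_pow', map_pow]
    have : g • (γ : C) = (γ : C) := map_natCast (MulSemiringAction.toRingHom G C g) γ
    rw [this, map_natCast]
  obtain ⟨Cv, hCv1, hCv⟩ := vm_family (G := G) (Finset.range N) hppos
  -- the crude constant
  set c₀ : ℝ := ∑ γ ∈ Finset.range N, ∑ b : Fin p, (γ : ℝ) ^ (b : ℕ) + 1 with hc₀
  have hc₀1 : 1 ≤ c₀ := by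
    have : 0 ≤ ∑ γ ∈ Finset.range N, ∑ b : Fin p, (γ : ℝ) ^ (b : ℕ) :=
      Finset.sum_nonneg fun γ _ => Finset.sum_nonneg fun b _ => by positivity
    linarith
  have hDR : (0:ℝ) < D := by exact_mod_cast hD
  set Kc : ℝ := (1 / (D:ℝ)) * (Real.log c₀ + Real.log Cv) with hKc
  have hlc₀ : 0 ≤ Real.log c₀ := Real.log_nonneg hc₀1
  have hlCv : 0 ≤ Real.log Cv := Real.log_nonneg hCv1
  refine Rep.of_inf Γ hΓne hRep hq₀0 (K := Kc) ?_ ?_
  · -- `T ≤ H γ + K`
    intro ψ hψ γ hγ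
    obtain ⟨hu', hw'⟩ := hsplit ψ hψ
    obtain ⟨g, hg⟩ := hT2 (fun g v => Real.log ‖ψ (g • u v)‖)
    have hb : ∃ b : Fin p, ∀ b', ‖ψ (g • M b')‖ ≤ ‖ψ (g • M b)‖ := by
      have : Nonempty (Fin p) := ⟨⟨0, hppos⟩⟩
      exact Finite.exists_max _
    obtain ⟨b, hb⟩ := hb
    have hMb : ψ (g • M b) ≠ 0 := (hlogM ψ hu' (n (e b)) g).1
    have hWle : ‖ψ (g • W γ)‖ ≤ c₀ * ‖ψ (g • M b)‖ := by
      rw [hWψ]
      refine (norm_sum_le _ _).trans ?_
      calc ∑ b' : Fin p, ‖(γ : ℂ) ^ (b' : ℕ) * ψ (g • M b')‖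
          ≤ ∑ b' : Fin p, (γ : ℝ) ^ (b' : ℕ) * ‖ψ (g • M b)‖ := by
            refine Finset.sum_le_sum fun b' _ => ?_
            rw [norm_mul, norm_pow, Complex.norm_natCast]
            gcongr
            exact hb b'
        _ = (∑ b' : Fin p, (γ : ℝ) ^ (b' : ℕ)) * ‖ψ (g • M b)‖ := by rw [Finset.sum_mul]
        _ ≤ c₀ * ‖ψ (g • M b)‖ := by
            gcongr
            have : ∑ b' : Fin p, (γ : ℝ) ^ (b' : ℕ) ≤ ∑ γ ∈ Finset.range N, ∑ b : Fin p, (γ : ℝ) ^ (b : ℕ) :=
              Finset.single_le_sum (f := fun γ : ℕ => ∑ b : Fin p, (γ : ℝ) ^ (b : ℕ))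
                (fun γ _ => Finset.sum_nonneg fun b _ => by positivity) (Finset.mem_filter.mp hγ).1
            linarith
    have hlogW : Real.log ‖ψ (g • W γ)‖ ≤ Real.log c₀ + Real.log ‖ψ (g • M b)‖ := by
      rw [← Real.log_mul (by linarith) (norm_ne_zero_iff.mpr hMb)]
      exact Real.log_le_log (norm_pos_iff.mpr (hw' γ hγ g)) hWle
    have h1 := hkey ψ hu' γ hγ (hw' γ hγ) g
    have h2 := hdiff ψ hu' b g
    have h3 := le_mx (fun g : G => Real.log ‖ψ (g • Y γ)‖) g
    have h4 : T (fun g v => Real.log ‖ψ (g • u v)‖) ≤ lf (e b : V → ℚ) (fun v => Real.log ‖ψ (g • u v)‖) :=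
      hg _ (e b).2
    have h5 : (D : ℝ) * T (fun g v => Real.log ‖ψ (g • u v)‖)
        ≤ (D:ℝ) * lf (e b : V → ℚ) (fun v => Real.log ‖ψ (g • u v)‖) :=
      mul_le_mul_of_nonneg_left h4 hDR.le
    push_cast
    rw [hKc, ← mul_add, one_div, le_inv_mul_iff₀ hDR]
    linarith
  · intro ψ hψ
    obtain ⟨hu', hw'⟩ := hsplit ψ hψ
    obtain ⟨γ, hγ, hgood⟩ := hCv Γ (Finset.filter_subset _ _) hΓcard (fun g b => ψ (g • M b))
    refine ⟨γ, hγ, ?_⟩
    obtain ⟨g, hg⟩ := exists_mx (fun g : G => Real.log ‖ψ (g • Y γ)‖)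
    obtain ⟨a, ha, hTa⟩ := hT1 (fun g v => Real.log ‖ψ (g • u v)‖) g
    set b : Fin p := e.symm ⟨a, ha⟩ with hbdef
    have hab : (e b : V → ℚ) = a := by rw [hbdef, Equiv.apply_symm_apply]
    have h2 := hdiff ψ hu' b g
    rw [hab] at h2
    have h1 := hkey ψ hu' γ hγ (hw' γ hγ) g
    have hMb : ψ (g • M b) ≠ 0 := (hlogM ψ hu' (n (e b)) g).1
    have hle : ‖ψ (g • M b)‖ ≤ Cv * ‖ψ (g • W γ)‖ := by
      rw [hWψ]
      exact hgood g b
    have hlog : Real.log ‖ψ (g • M b)‖ ≤ Real.log Cv + Real.log ‖ψ (g • W γ)‖ := by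
      rw [← Real.log_mul (by linarith) (norm_ne_zero_iff.mpr (hw' γ hγ g))]
      exact Real.log_le_log (norm_pos_iff.mpr hMb) hle
    have h5 : (D : ℝ) * lf a (fun v => Real.log ‖ψ (g • u v)‖)
        ≤ (D : ℝ) * T (fun g v => Real.log ‖ψ (g • u v)‖) :=
      mul_le_mul_of_nonneg_left hTa hDR.le
    push_cast
    rw [hg, one_div, inv_mul_le_iff₀ hDR, hKc]
    have h6 : (D:ℝ) * (1 / (D:ℝ) * (Real.log c₀ + Real.log Cv)) = Real.log c₀ + Real.log Cv := by
      field_simp
    rw [mul_add, h6]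
    linarith

/-- **(CONJ)** -/
theorem Rep.conj (hI : InvFrac A C G) {V : Type*} [Fintype V] {u : V → C} (hu : ∀ v, u v ≠ 0)
    {F : (V → ℝ) → ℝ} (hF : PL F) :
    Rep A (fun ψ : C →+* ℂ => mx G (fun g => F (fun v => Real.log ‖ψ (g • u v)‖))) := by
  classical
  obtain ⟨s, hs, hsne, hnf⟩ := hF.nf
  -- for `S ∈ s` the function `T S ξ = max_g min_{a ∈ S} lf a (ξ g)`
  set mn : (S : Finset (V → ℚ)) → (V → ℝ) → ℝ := fun S ξ =>
    if h : S.Nonempty then S.inf' h (fun a => lf a ξ) else 0 with hmn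
  have hmn1 : ∀ S : Finset (V → ℚ), S.Nonempty → ∀ ξ, ∃ a ∈ S, mn S ξ = lf a ξ := by
    intro S hS ξ
    rw [hmn]
    simp only [hS, dif_pos]
    obtain ⟨a, ha, h⟩ := Finset.exists_mem_eq_inf' hS (fun a => lf a ξ)
    exact ⟨a, ha, h⟩
  have hmn2 : ∀ S : Finset (V → ℚ), S.Nonempty → ∀ ξ, ∀ a ∈ S, mn S ξ ≤ lf a ξ := by
    intro S hS ξ a ha
    rw [hmn]
    simp only [hS, dif_pos]
    exact Finset.inf'_le _ ha
  set T : Finset (V → ℚ) → (G → V → ℝ) → ℝ := fun S ξ => mx G (fun g => mn S (ξ g)) with hT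
  have hRep : ∀ S ∈ s, Rep A (fun ψ : C →+* ℂ => T S (fun g v => Real.log ‖ψ (g • u v)‖)) := by
    intro S hS
    refine Rep.conj_min hI hu S (hsne S hS) (T S) ?_ ?_
    · intro ξ g
      obtain ⟨a, ha, h⟩ := hmn1 S (hsne S hS) (ξ g)
      refine ⟨a, ha, ?_⟩
      rw [← h]
      exact le_mx (fun g => mn S (ξ g)) g
    · intro ξ
      obtain ⟨g, hg⟩ := exists_mx (fun g => mn S (ξ g))
      refine ⟨g, fun a ha => ?_⟩
      rw [hT]
      simp only
      rw [hg]
      exact hmn2 S (hsne S hS) _ a ha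
  refine Rep.of_sup s hs hRep one_ne_zero (K := 0) ?_ ?_
  · intro ψ _ S hS
    rw [add_zero]
    refine mx_le fun g => ?_
    refine le_trans ?_ (le_mx _ g)
    rw [hnf]
    exact ⟨S, hS, fun a ha => hmn2 S (hsne S hS) _ a ha⟩
  · intro ψ _
    obtain ⟨g, hg⟩ := exists_mx (fun g : G => F (fun v => Real.log ‖ψ (g • u v)‖))
    obtain ⟨S, hS, h⟩ := (hnf (fun v => Real.log ‖ψ (g • u v)‖) _).mp le_rfl
    refine ⟨S, hS, ?_⟩
    rw [add_zero, hg]
    obtain ⟨a, ha, he⟩ := hmn1 S (hsne S hS) (fun v => Real.log ‖ψ (g • u v)‖)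
    calc F (fun v => Real.log ‖ψ (g • u v)‖) ≤ lf a _ := h a ha
      _ = mn S _ := he.symm
      _ ≤ T S (fun g v => Real.log ‖ψ (g • u v)‖) :=
          le_mx (fun g => mn S (fun v => Real.log ‖ψ (g • u v)‖)) g

end Conj

end Crest.Agent.R281.TrC_282
end

-- ▼ part R281/TrC5_282
section

/-!
# R281 / TROP-C, part 5: extension of points, Galois set-up, and the root form.
-/

set_option autoImplicit false

open Polynomial

namespace Crest.Agent.R281.TrC_282

open Crest.Agent.R281.TrPL_726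

/-! ## extension of points -/

theorem exists_extension {A C : Type*} [CommRing A] [CommRing C] [Algebra A C]
    [Algebra.IsIntegral A C] (hinj : Function.Injective (algebraMap A C)) (φ : A →+* ℂ) :
    ∃ ψ : C →+* ℂ, ψ.comp (algebraMap A C) = φ := by
  classical
  set P : Ideal A := RingHom.ker φ with hP
  have hPp : P.IsPrime := RingHom.ker_isPrime φ
  obtain ⟨Q, _, hQp, hQ⟩ := Ideal.exists_ideal_over_prime_of_isIntegral P (⊥ : Ideal C) (by
    rw [← RingHom.ker_eq_comap_bot, (RingHom.injective_iff_ker_eq_bot _).mp hinj]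
    exact bot_le)
  let : Algebra (A ⧸ P) (C ⧸ Q) := Ideal.quotientMap Q (algebraMap A C) (le_of_eq hQ.symm) |>.toAlgebra
  let : Algebra (A ⧸ P) ℂ := (Ideal.Quotient.lift P φ (fun a ha => ha)).toAlgebra
  have hmk : ∀ a : A, algebraMap (A ⧸ P) (C ⧸ Q) (Ideal.Quotient.mk P a)
      = Ideal.Quotient.mk Q (algebraMap A C a) := fun a => Ideal.quotientMap_mk
  have hmk2 : ∀ a : A, algebraMap (A ⧸ P) ℂ (Ideal.Quotient.mk P a) = φ a := fun a =>
    Ideal.Quotient.lift_mk _ _ _
  have hi1 : Function.Injective (algebraMap (A ⧸ P) (C ⧸ Q)) := by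
    rw [injective_iff_map_eq_zero]
    intro x hx
    obtain ⟨a, rfl⟩ := Ideal.Quotient.mk_surjective x
    rw [hmk, Ideal.Quotient.eq_zero_iff_mem] at hx
    rw [Ideal.Quotient.eq_zero_iff_mem, ← hQ]
    exact hx
  have hi2 : Function.Injective (algebraMap (A ⧸ P) ℂ) := by
    rw [injective_iff_map_eq_zero]
    intro x hx
    obtain ⟨a, rfl⟩ := Ideal.Quotient.mk_surjective x
    rw [hmk2] at hx
    rw [Ideal.Quotient.eq_zero_iff_mem]
    exact hx
  have : FaithfulSMul (A ⧸ P) (C ⧸ Q) := (faithfulSMul_iff_algebraMap_injective _ _).mpr hi1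
  have : FaithfulSMul (A ⧸ P) ℂ := (faithfulSMul_iff_algebraMap_injective _ _).mpr hi2
  have : IsDomain (C ⧸ Q) := Ideal.Quotient.isDomain Q
  have : IsDomain (A ⧸ P) := Ideal.Quotient.isDomain P
  have : Algebra.IsIntegral (A ⧸ P) (C ⧸ Q) := by
    constructor
    intro y
    obtain ⟨c, rfl⟩ := Ideal.Quotient.mk_surjective y
    obtain ⟨f, hf, hfc⟩ := Algebra.IsIntegral.isIntegral (R := A) c
    refine ⟨f.map (Ideal.Quotient.mk P), hf.map _, ?_⟩
    rw [eval₂_map]
    have : (algebraMap (A ⧸ P) (C ⧸ Q)).comp (Ideal.Quotient.mk P)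
        = (Ideal.Quotient.mk Q).comp (algebraMap A C) := RingHom.ext hmk
    rw [this, ← hom_eval₂, hfc, map_zero]
  have : Algebra.IsAlgebraic (A ⧸ P) (C ⧸ Q) := inferInstance
  have : Module.IsTorsionFree (A ⧸ P) (C ⧸ Q) := Module.IsTorsionFree.trans_faithfulSMul _ (C ⧸ Q) _
  have : Module.IsTorsionFree (A ⧸ P) ℂ := Module.IsTorsionFree.trans_faithfulSMul _ ℂ _
  let L : (C ⧸ Q) →ₐ[A ⧸ P] ℂ := IsAlgClosed.lift
  refine ⟨(L : (C ⧸ Q) →+* ℂ).comp (Ideal.Quotient.mk Q), ?_⟩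
  ext a
  have h1 : L (algebraMap (A ⧸ P) (C ⧸ Q) (Ideal.Quotient.mk P a)) = algebraMap (A ⧸ P) ℂ (Ideal.Quotient.mk P a) :=
    L.commutes _
  rw [hmk, hmk2] at h1
  simpa using h1

/-! ## Galois set-up -/

section Gal

variable (A K E : Type*) [CommRing A] [IsDomain A] [Field K] [Field E] [Algebra A K] [IsFractionRing A K]
  [Algebra K E] [Algebra A E] [IsScalarTower A K E]

instance smulComm_gal : SMulCommClass (E ≃ₐ[K] E) A E where
  smul_comm g a x := by
    rw [Algebra.smul_def, Algebra.smul_def, smul_mul']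
    congr 1
    rw [IsScalarTower.algebraMap_apply A K E]
    exact g.commutes _

theorem invFrac_gal [FiniteDimensional K E] [IsGalois K E] :
    InvFrac A (integralClosure A E) (E ≃ₐ[K] E) := by
  constructor
  · intro a b hab
    have h := congrArg (fun x : integralClosure A E => (x : E)) hab
    have h' : algebraMap A E a = algebraMap A E b := h
    rw [IsScalarTower.algebraMap_apply A K E, IsScalarTower.algebraMap_apply A K E] at h'
    exact IsFractionRing.injective A K ((algebraMap K E).injective h')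
  · intro c hc
    have hfix : (c : E) ∈ IntermediateField.fixedField (⊤ : Subgroup (E ≃ₐ[K] E)) := by
      rintro ⟨g, _⟩
      have := congrArg (fun x : integralClosure A E => (x : E)) (hc g)
      exact this
    rw [IsGalois.fixedField_top, IntermediateField.mem_bot] at hfix
    obtain ⟨k, hk⟩ := hfix
    obtain ⟨a, b, hb, hab⟩ := IsFractionRing.div_surjective (A := A) k
    refine ⟨a, b, nonZeroDivisors.ne_zero hb, ?_⟩
    apply Subtype.ext
    show algebraMap A E b * (c : E) = algebraMap A E a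
    rw [← hk, ← hab, IsScalarTower.algebraMap_apply A K E, IsScalarTower.algebraMap_apply A K E,
      ← map_mul]
    congr 1
    have hb0 : algebraMap A K b ≠ 0 := by
      rw [Ne, IsFractionRing.to_map_eq_zero_iff]
      exact nonZeroDivisors.ne_zero hb
    field_simp

end Gal

end Crest.Agent.R281.TrC_282
end

-- ▼ part R281/TrC6_282
section

/-!
# R281 / TROP-C, part 6: the root form `RootData`.
-/

set_option autoImplicit false

open Polynomial

namespace Crest.Agent.R281.TrC_282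

open Crest.Agent.R281.TrPL_726

/-- the vector of logarithms: elements of `A` and differences of the marked roots (`0` on the diagonal). -/
noncomputable def dat {A V : Type*} [CommRing A] {B : ℕ} (φ : A →+* ℂ) (a : V → A) (b : Fin B → ℂ) :
    V ⊕ (Fin B × Fin B) → ℝ :=
  Sum.elim (fun v => Real.log ‖φ (a v)‖) (fun p => Real.log ‖b p.1 - b p.2‖)

/-- Markings of the roots of finitely many nonzero polynomials over `A` at the points `φ : A →+* ℂ`. -/
structure RootData {A : Type*} [CommRing A] {n : ℕ} (q : Fin n → A[X]) where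
  B : ℕ
  e : Fin n → Fin B → ℕ
  Mk : (A →+* ℂ) → Set (Fin B → ℂ)
  q0 : A
  hq0 : q0 ≠ 0
  hpos : ∀ k, ∃ v, 0 < e v k
  ne : ∀ φ : A →+* ℂ, φ q0 ≠ 0 → (Mk φ).Nonempty
  inj : ∀ φ : A →+* ℂ, φ q0 ≠ 0 → ∀ b ∈ Mk φ, Function.Injective b
  lc : ∀ φ : A →+* ℂ, φ q0 ≠ 0 → ∀ v, φ (q v).leadingCoeff ≠ 0
  fac : ∀ φ : A →+* ℂ, φ q0 ≠ 0 → ∀ b ∈ Mk φ, ∀ v x,
    (q v).eval₂ φ x = φ (q v).leadingCoeff * ∏ k, (x - b k) ^ e v k
  rep : ∀ {V : Type} [Fintype V] (a : V → A), (∀ v, a v ≠ 0) →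
    ∀ F : (V ⊕ (Fin B × Fin B) → ℝ) → ℝ, PL F →
      ∃ m, TrL A m ∧ ∃ q1 : A, q1 ≠ 0 ∧ ∃ K : ℝ, ∀ φ : A →+* ℂ, φ q1 ≠ 0 →
        (∀ b ∈ Mk φ, F (dat φ a b) ≤ m φ + K) ∧ ∃ b ∈ Mk φ, m φ ≤ F (dat φ a b) + K

section Root

variable {A : Type*} (K E : Type*) [CommRing A] [IsDomain A] [Field K] [Field E] [CharZero E]
  [Algebra A K] [IsFractionRing A K] [Algebra K E] [Algebra A E] [IsScalarTower A K E]
  [FiniteDimensional K E] [IsGalois K E]

include K in
theorem rootData_aux {n : ℕ} (q : Fin n → A[X]) (hq : ∀ v, q v ≠ 0)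
    (hs : ∀ v, ((q v).map (algebraMap A E)).Splits) : Nonempty (RootData q) := by
  classical
  have hAE : Function.Injective (algebraMap A E) := by
    rw [IsScalarTower.algebraMap_eq A K E]
    exact (algebraMap K E).injective.comp (IsFractionRing.injective A K)
  have hI : InvFrac A (integralClosure A E) (E ≃ₐ[K] E) := invFrac_gal A K E
  have : CharZero (integralClosure A E) := by
    refine ⟨fun a b h => ?_⟩
    have := congrArg (fun x : integralClosure A E => (x : E)) h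
    exact_mod_cast this
  set R : Finset E := Finset.univ.biUnion (fun v => ((q v).map (algebraMap A E)).roots.toFinset) with hR
  set B := R.card with hB
  set θ : Fin B → E := fun k => (R.equivFin.symm k : E) with hθ
  have hθR : ∀ k, θ k ∈ R := fun k => (R.equivFin.symm k).2
  have hθinj : Function.Injective θ := fun k l h => R.equivFin.symm.injective (Subtype.ext h)
  set e : Fin n → Fin B → ℕ := fun v k => ((q v).map (algebraMap A E)).roots.count (θ k) with he
  have hmap0 : ∀ v, (q v).map (algebraMap A E) ≠ 0 := fun v => by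
    rw [Ne, Polynomial.map_eq_zero_iff hAE]; exact hq v
  have hθroot : ∀ k, ∃ v, θ k ∈ ((q v).map (algebraMap A E)).roots := by
    intro k
    have := hθR k
    rw [hR, Finset.mem_biUnion] at this
    obtain ⟨v, _, hv⟩ := this
    exact ⟨v, Multiset.mem_toFinset.mp hv⟩
  -- factorisation over `E`
  have hfacE : ∀ v, (q v).map (algebraMap A E)
      = C (algebraMap A E (q v).leadingCoeff) * ∏ k, (X - C (θ k)) ^ e v k := by
    intro v
    have h1 := (hs v).eq_prod_roots
    rw [leadingCoeff_map_of_injective hAE] at h1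
    conv_lhs => rw [h1]
    congr 1
    rw [Finset.prod_multiset_map_count]
    have h2 : ∏ m ∈ ((q v).map (algebraMap A E)).roots.toFinset,
        (X - C m) ^ Multiset.count m ((q v).map (algebraMap A E)).roots
        = ∏ m ∈ R, (X - C m) ^ Multiset.count m ((q v).map (algebraMap A E)).roots := by
      apply Finset.prod_subset
      · intro x hx
        rw [hR, Finset.mem_biUnion]
        exact ⟨v, Finset.mem_univ v, hx⟩
      · intro x _ hx
        rw [Multiset.mem_toFinset] at hx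
        rw [Multiset.count_eq_zero_of_notMem hx, pow_zero]
    rw [h2, ← Finset.prod_coe_sort R]
    exact (Equiv.prod_comp R.equivFin.symm
      (fun m : R => (X - C (m : E)) ^ Multiset.count (m : E) ((q v).map (algebraMap A E)).roots)).symm
  -- the common leading coefficient
  set a₀ : A := ∏ v, (q v).leadingCoeff with ha₀
  have ha₀0 : a₀ ≠ 0 := Finset.prod_ne_zero_iff.mpr fun v _ => leadingCoeff_ne_zero.mpr (hq v)
  have hint : ∀ k, IsIntegral A (algebraMap A E a₀ * θ k) := by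
    intro k
    obtain ⟨v, hv⟩ := hθroot k
    have h1 : aeval (θ k) (q v) = 0 := by
      have := (mem_roots'.mp hv).2
      rw [IsRoot.def, eval_map] at this
      exact this
    have h2 := isIntegral_leadingCoeff_smul (q v) (θ k) h1
    have h3 : algebraMap A E a₀ * θ k
        = algebraMap A E (∏ w ∈ Finset.univ.erase v, (q w).leadingCoeff) * ((q v).leadingCoeff • θ k) := by
      rw [ha₀, ← Finset.prod_erase_mul Finset.univ _ (Finset.mem_univ v), map_mul, Algebra.smul_def]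
      ring
    rw [h3]
    exact isIntegral_algebraMap.mul h2
  set θ' : Fin B → integralClosure A E := fun k => ⟨algebraMap A E a₀ * θ k, hint k⟩ with hθ'
  -- specialised factorisation
  have hcoe : ∀ a : A, ((algebraMap A (integralClosure A E) a : integralClosure A E) : E) = algebraMap A E a :=
    fun a => rfl
  have hfac : ∀ (ψ : integralClosure A E →+* ℂ), ψ (algebraMap A _ a₀) ≠ 0 → ∀ v x,
      (q v).eval₂ (ψ.comp (algebraMap A (integralClosure A E))) x
        = ψ (algebraMap A _ (q v).leadingCoeff) * ∏ k, (x - ψ (θ' k) / ψ (algebraMap A _ a₀)) ^ e v k := by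
    intro ψ hψ v x
    set N := ∑ k, e v k with hN
    have hpoly : C (algebraMap A (integralClosure A E) a₀) ^ N * (q v).map (algebraMap A (integralClosure A E))
        = C (algebraMap A (integralClosure A E) (q v).leadingCoeff)
          * ∏ k, (C (algebraMap A (integralClosure A E) a₀) * X - C (θ' k)) ^ e v k := by
      have hinjE : Function.Injective (algebraMap (integralClosure A E) E) := Subtype.val_injective
      apply Polynomial.map_injective (algebraMap (integralClosure A E) E) hinjE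
      rw [Polynomial.map_mul, Polynomial.map_mul, Polynomial.map_pow, Polynomial.map_C, Polynomial.map_map,
        Polynomial.map_C, Polynomial.map_prod]
      have hcomp : (algebraMap (integralClosure A E) E).comp (algebraMap A (integralClosure A E))
          = algebraMap A E := rfl
      rw [hcomp, hfacE v]
      have h4 : ∀ a : A, algebraMap (integralClosure A E) E (algebraMap A (integralClosure A E) a)
          = algebraMap A E a := fun a => rfl
      rw [h4, h4]
      have h5 : ∀ k, Polynomial.map (algebraMap (integralClosure A E) E)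
          ((C (algebraMap A (integralClosure A E) a₀) * X - C (θ' k)) ^ e v k)
          = C (algebraMap A E a₀) ^ e v k * (X - C (θ k)) ^ e v k := by
        intro k
        rw [Polynomial.map_pow, Polynomial.map_sub, Polynomial.map_mul, Polynomial.map_C, Polynomial.map_X,
          Polynomial.map_C, h4, ← mul_pow]
        have h6 : algebraMap (integralClosure A E) E (θ' k) = algebraMap A E a₀ * θ k := rfl
        rw [h6, C_mul]
        ring
      rw [Finset.prod_congr rfl (fun k _ => h5 k), Finset.prod_mul_distrib, Finset.prod_pow_eq_pow_sum]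
      ring
    have h7 := congrArg (fun f : (integralClosure A E)[X] => f.eval₂ ψ x) hpoly
    simp only [eval₂_mul, eval₂_pow, eval₂_C, eval₂_map, eval₂_finsetProd, eval₂_sub, eval₂_X] at h7
    have h8 : ∀ k, (ψ (algebraMap A (integralClosure A E) a₀) * x - ψ (θ' k)) ^ e v k
        = ψ (algebraMap A (integralClosure A E) a₀) ^ e v k
          * (x - ψ (θ' k) / ψ (algebraMap A _ a₀)) ^ e v k := by
      intro k
      rw [← mul_pow]
      congr 1
      field_simp
    rw [Finset.prod_congr rfl (fun k _ => h8 k), Finset.prod_mul_distrib, Finset.prod_pow_eq_pow_sum,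
      ← hN] at h7
    have h9 : ψ (algebraMap A (integralClosure A E) a₀) ^ N ≠ 0 := pow_ne_zero _ hψ
    apply mul_left_cancel₀ h9
    rw [h7]
    ring
  -- differences
  set du : Fin B × Fin B → integralClosure A E := fun p => if p.1 = p.2 then 1 else θ' p.1 - θ' p.2 with hdu
  have hdu0 : ∀ p, du p ≠ 0 := by
    intro p
    rw [hdu]
    simp only
    split_ifs with h
    · exact one_ne_zero
    · intro h0
      have h1 : algebraMap A E a₀ * θ p.1 - algebraMap A E a₀ * θ p.2 = 0 := by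
        have := congrArg (fun x : integralClosure A E => (x : E)) h0
        exact this
      rw [← mul_sub, mul_eq_zero] at h1
      rcases h1 with h1 | h1
      · exact ha₀0 (hAE (by rw [h1, map_zero]))
      · exact h (hθinj (sub_eq_zero.mp h1))
  obtain ⟨qd, hqd, hqd'⟩ := exists_nonvan_fin (G := E ≃ₐ[K] E) hI hdu0
  set Mk : (A →+* ℂ) → Set (Fin B → ℂ) := fun φ => {b | ∃ ψ : integralClosure A E →+* ℂ,
    ψ.comp (algebraMap A (integralClosure A E)) = φ ∧ ∀ k, b k = ψ (θ' k) / φ a₀} with hMk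
  have : Algebra.IsIntegral A (integralClosure A E) := integralClosure.AlgebraIsIntegral
  have hne : ∀ φ : A →+* ℂ, (Mk φ).Nonempty := by
    intro φ
    obtain ⟨ψ, hψ⟩ := exists_extension hI.1 φ
    exact ⟨fun k => ψ (θ' k) / φ a₀, ψ, hψ, fun k => rfl⟩
  refine ⟨{ B := B, e := e, Mk := Mk, q0 := a₀ * qd, hq0 := mul_ne_zero ha₀0 hqd, hpos := ?_, ne := ?_,
            inj := ?_, lc := ?_, fac := ?_, rep := ?_ }⟩
  · intro k
    obtain ⟨v, hv⟩ := hθroot k
    exact ⟨v, Multiset.count_pos.mpr hv⟩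
  · exact fun φ _ => hne φ
  · rintro φ hφ b ⟨ψ, hψ, hb⟩ k l hkl
    by_contra hne'
    rw [map_mul] at hφ
    have h1 : ψ (algebraMap A _ qd) ≠ 0 := by
      have : ψ (algebraMap A _ qd) = φ qd := by rw [← hψ]; rfl
      rw [this]
      exact right_ne_zero_of_mul hφ
    have h2 := hqd' ψ h1 (k, l) 1
    rw [one_smul, hdu] at h2
    simp only [hne', if_false] at h2
    apply h2
    rw [map_sub]
    rw [hb k, hb l] at hkl
    have h3 := left_ne_zero_of_mul hφ
    field_simp at hkl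
    rw [hkl, sub_self]
  · intro φ hφ v
    rw [map_mul] at hφ
    have h1 := left_ne_zero_of_mul hφ
    rw [ha₀, map_prod, Finset.prod_ne_zero_iff] at h1
    exact h1 v (Finset.mem_univ v)
  · rintro φ hφ b ⟨ψ, hψ, hb⟩ v x
    rw [map_mul] at hφ
    have h1 : ψ (algebraMap A _ a₀) = φ a₀ := by rw [← hψ]; rfl
    have h2 : ψ (algebraMap A _ (q v).leadingCoeff) = φ (q v).leadingCoeff := by rw [← hψ]; rfl
    have h3 := hfac ψ (by rw [h1]; exact left_ne_zero_of_mul hφ) v x
    rw [hψ, h1, h2] at h3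
    rw [h3]
    congr 1
    refine Finset.prod_congr rfl fun k _ => ?_
    rw [hb k]
  · intro V _ a ha F hF
    set u : (V ⊕ (Fin B × Fin B)) ⊕ Unit → integralClosure A E :=
      Sum.elim (Sum.elim (fun v => algebraMap A _ (a v)) du) (fun _ => algebraMap A _ a₀) with hu
    have hu0 : ∀ w, u w ≠ 0 := by
      rintro ((v | p) | _)
      · intro h
        exact ha v (hI.1 (by rw [map_zero]; exact h))
      · exact hdu0 p
      · intro h
        exact ha₀0 (hI.1 (by rw [map_zero]; exact h))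
    set F' : ((V ⊕ (Fin B × Fin B)) ⊕ Unit → ℝ) → ℝ := fun ξ => F (fun w => Sum.casesOn w
      (fun v => ξ (Sum.inl (Sum.inl v)))
      (fun p => if p.1 = p.2 then 0 else ξ (Sum.inl (Sum.inr p)) - ξ (Sum.inr ()))) with hF'
    have hPL : PL F' := by
      refine hF.comp (H := fun w ξ => Sum.casesOn w
        (fun v => ξ (Sum.inl (Sum.inl v)))
        (fun p => if p.1 = p.2 then 0 else ξ (Sum.inl (Sum.inr p)) - ξ (Sum.inr ()))) ?_
      rintro (v | p)
      · exact PL.coord _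
      · by_cases h : p.1 = p.2
        · simp only [h, if_true]
          exact PL.zero
        · simp only [h, if_false]
          exact (PL.coord _).sub (PL.coord _)
    obtain ⟨m, hm, q1, hq1, Kc, hK⟩ := Rep.conj hI hu0 hPL
    -- evaluation of `F'` at a marking
    have hev : ∀ (φ : A →+* ℂ) (ψ : integralClosure A E →+* ℂ), ψ.comp (algebraMap A _) = φ →
        φ (a₀ * qd) ≠ 0 →
        F' (fun w => Real.log ‖ψ (u w)‖) = F (dat φ a (fun k => ψ (θ' k) / φ a₀)) := by
      intro φ ψ hψ hφ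
      rw [map_mul] at hφ
      have ha0 := left_ne_zero_of_mul hφ
      rw [hF']
      simp only
      congr 1
      ext w
      rcases w with v | p
      · show Real.log ‖ψ (algebraMap A _ (a v))‖ = Real.log ‖φ (a v)‖
        rw [← hψ]; rfl
      · show (if p.1 = p.2 then 0 else Real.log ‖ψ (du p)‖ - Real.log ‖ψ (algebraMap A _ a₀)‖)
          = Real.log ‖ψ (θ' p.1) / φ a₀ - ψ (θ' p.2) / φ a₀‖
        have h1 : ψ (algebraMap A _ a₀) = φ a₀ := by rw [← hψ]; rfl
        have h1' : ψ (algebraMap A _ qd) = φ qd := by rw [← hψ]; rfl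
        split_ifs with h
        · rw [h, sub_self, norm_zero, Real.log_zero]
        · have h2 := hqd' ψ (by rw [h1']; exact right_ne_zero_of_mul hφ) p 1
          rw [one_smul] at h2
          have h3 : du p = θ' p.1 - θ' p.2 := by rw [hdu]; simp only [h, if_false]
          rw [h1, ← sub_div, norm_div, Real.log_div _ (norm_ne_zero_iff.mpr ha0), ← map_sub, ← h3]
          rw [← map_sub, ← h3]
          exact norm_ne_zero_iff.mpr h2
    refine ⟨m, hm, a₀ * qd * q1, mul_ne_zero (mul_ne_zero ha₀0 hqd) hq1, Kc, fun φ hφ => ?_⟩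
    rw [map_mul] at hφ
    have hφ0 := left_ne_zero_of_mul hφ
    have hφ1 := right_ne_zero_of_mul hφ
    have hKψ : ∀ ψ : integralClosure A E →+* ℂ, ψ.comp (algebraMap A _) = φ →
        |mx (E ≃ₐ[K] E) (fun g => F' (fun w => Real.log ‖ψ (g • u w)‖)) - m φ| ≤ Kc := by
      intro ψ hψ
      have := hK ψ (by
        have : ψ (algebraMap A _ q1) = φ q1 := by rw [← hψ]; rfl
        rw [this]; exact hφ1)
      rw [hψ] at this
      exact this
    constructor
    · rintro b ⟨ψ, hψ, hb⟩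
      have hbe : b = fun k => ψ (θ' k) / φ a₀ := funext hb
      rw [hbe, ← hev φ ψ hψ hφ0]
      have h1 := hKψ ψ hψ
      have h2 := le_mx (fun g : E ≃ₐ[K] E => F' (fun w => Real.log ‖ψ (g • u w)‖)) 1
      simp only [one_smul] at h2
      rw [abs_le] at h1
      linarith [h1.1, h1.2]
    · obtain ⟨ψ, hψ⟩ := exists_extension hI.1 φ
      obtain ⟨g, hg⟩ := exists_mx (fun g : E ≃ₐ[K] E => F' (fun w => Real.log ‖ψ (g • u w)‖))
      set ψ' : integralClosure A E →+* ℂ :=
        ψ.comp (MulSemiringAction.toRingHom (E ≃ₐ[K] E) (integralClosure A E) g) with hψ'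
      have hψ'φ : ψ'.comp (algebraMap A _) = φ := by
        rw [← hψ]
        ext a
        show ψ (g • algebraMap A (integralClosure A E) a) = ψ (algebraMap A (integralClosure A E) a)
        congr 1
        rw [smul_algebraMap]
      refine ⟨fun k => ψ' (θ' k) / φ a₀, ⟨ψ', hψ'φ, fun k => rfl⟩, ?_⟩
      rw [← hev φ ψ' hψ'φ hφ0]
      have h1 := hKψ ψ hψ
      rw [hg] at h1
      rw [abs_le] at h1
      have h2 : F' (fun w => Real.log ‖ψ' (u w)‖) = F' (fun w => Real.log ‖ψ (g • u w)‖) := rfl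
      rw [h2]
      linarith [h1.1, h1.2]

end Root

/-- **(ROOT)** -/
theorem exists_rootData {A : Type*} [CommRing A] [IsDomain A] [CharZero A] {n : ℕ} (q : Fin n → A[X])
    (hq : ∀ v, q v ≠ 0) : Nonempty (RootData q) := by
  classical
  set K := FractionRing A with hK
  set P : K[X] := ∏ v, (q v).map (algebraMap A K) with hP
  have hinj : Function.Injective (algebraMap A K) := IsFractionRing.injective A K
  have : CharZero K := charZero_of_injective_algebraMap hinj
  have hP0 : P ≠ 0 := Finset.prod_ne_zero_iff.mpr fun v _ => by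
    rw [Ne, Polynomial.map_eq_zero_iff hinj]; exact hq v
  have : IsGalois K P.SplittingField :=
    { to_isSeparable := inferInstance, to_normal := Normal.of_isSplittingField P }
  have : CharZero P.SplittingField := charZero_of_injective_algebraMap (algebraMap K P.SplittingField).injective
  refine rootData_aux K P.SplittingField q hq fun v => ?_
  have h1 : (P.map (algebraMap K P.SplittingField)).Splits := SplittingField.splits P
  have h2 : (q v).map (algebraMap A P.SplittingField)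
      = ((q v).map (algebraMap A K)).map (algebraMap K P.SplittingField) := by
    rw [Polynomial.map_map, ← IsScalarTower.algebraMap_eq]
  rw [h2]
  refine Splits.of_dvd h1 ?_ ?_
  · rw [Ne, Polynomial.map_eq_zero_iff (algebraMap K P.SplittingField).injective]; exact hP0
  · exact Polynomial.map_dvd _ (Finset.dvd_prod_of_mem _ (Finset.mem_univ v))

end Crest.Agent.R281.TrC_282
end

-- ▼ part R281/TrC7_282
section

/-!
# R281 / TROP-C, part 7: height bounds.
-/

set_option autoImplicit false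

open Polynomial

namespace Crest.Agent.R281.TrC_282

open Crest.Agent.R281.TrPL_726

theorem TrL.bdd {A : Type*} [CommRing A] {m : (A →+* ℂ) → ℝ} (h : TrL A m) :
    ∃ (j : ℕ) (Q : Fin j → A), (∀ i, Q i ≠ 0) ∧ ∃ S : ℝ, 0 ≤ S ∧
      ∀ φ : A →+* ℂ, |m φ| ≤ S * ∑ i, |Real.log ‖φ (Q i)‖| := by
  obtain ⟨n, q, F, hq, hF, h⟩ := h
  obtain ⟨S, hS, hb⟩ := hF.bdd
  exact ⟨n, q, hq, S, hS, fun φ => by rw [h]; exact hb _⟩

/-- **(c)** all differences of the marked roots are controlled by finitely many nonzero elements of `A` -/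
theorem RootData.height {A : Type*} [CommRing A] {n : ℕ} {q : Fin n → A[X]} (D : RootData q) :
    ∃ (j : ℕ) (Q : Fin j → A), (∀ i, Q i ≠ 0) ∧ ∃ q1 : A, q1 ≠ 0 ∧ ∃ K : ℝ, 0 < K ∧
      ∀ φ : A →+* ℂ, φ q1 ≠ 0 → ∀ b ∈ D.Mk φ,
        ∑ p : Fin D.B × Fin D.B, |Real.log ‖b p.1 - b p.2‖| ≤ K * (1 + ∑ i, |Real.log ‖φ (Q i)‖|) := by
  classical
  set F : (Empty ⊕ (Fin D.B × Fin D.B) → ℝ) → ℝ := fun ξ => ∑ p : Fin D.B × Fin D.B, |ξ (Sum.inr p)| with hF
  have hPL : PL F := PL.sum _ fun p _ => (PL.coord (Sum.inr p)).abs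
  obtain ⟨m, hm, q1, hq1, K, hK⟩ := D.rep (V := Empty) (fun v => v.elim) (fun v => v.elim) F hPL
  obtain ⟨j, Q, hQ, S, hS, hb⟩ := hm.bdd
  refine ⟨j, Q, hQ, q1, hq1, S + |K| + 1, by positivity, fun φ hφ b hbM => ?_⟩
  have h1 := (hK φ hφ).1 b hbM
  have h2 := hb φ
  have h3 : F (dat φ (fun v : Empty => v.elim) b) = ∑ p : Fin D.B × Fin D.B, |Real.log ‖b p.1 - b p.2‖| := rfl
  rw [h3] at h1
  have h4 : 0 ≤ ∑ i, |Real.log ‖φ (Q i)‖| := Finset.sum_nonneg fun _ _ => abs_nonneg _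
  have h5 := le_abs_self (m φ)
  have h6 := le_abs_self K
  nlinarith [abs_nonneg K]

end Crest.Agent.R281.TrC_282
end

-- ▼ part R281/TrOV1_726
section

/-!
# Row 281, TROP-OV part 1 (helper726)
Continuous functions of one real variable selecting from finitely many affine functions with slopes in
`(1/D) ℤ`, tending to `-∞` at both ends: bounded by the value at the crossings, linear decay outside.
-/

namespace Crest.Agent.R281.TrOV1_726

open Filter Topology Set

variable {L : Finset (ℝ × ℝ)} {f : ℝ → ℝ}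

/-- away from the crossings `f` is locally one of the affine functions -/
theorem loc_affine (hf : Continuous f) (hsel : ∀ ρ, ∃ p ∈ L, f ρ = p.1 + p.2 * ρ) {ρ₀ : ℝ}
    (hρ : ∀ p ∈ L, ∀ q ∈ L, p.2 ≠ q.2 → ρ₀ ≠ (p.1 - q.1) / (q.2 - p.2)) :
    ∃ p ∈ L, f ρ₀ = p.1 + p.2 * ρ₀ ∧ ∀ᶠ ρ in 𝓝 ρ₀, f ρ = p.1 + p.2 * ρ := by
  obtain ⟨p, hp, he⟩ := hsel ρ₀
  refine ⟨p, hp, he, ?_⟩
  have h1 : ∀ q ∈ L, q ≠ p → ∀ᶠ ρ in 𝓝 ρ₀, f ρ ≠ q.1 + q.2 * ρ := by
    intro q hq hqp
    have hne : f ρ₀ - (q.1 + q.2 * ρ₀) ≠ 0 := by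
      rw [he]
      intro h0
      by_cases hs : p.2 = q.2
      · apply hqp
        have : p.1 = q.1 := by rw [hs] at h0; linarith
        exact Prod.ext this.symm hs.symm
      · refine hρ p hp q hq hs ?_
        have : q.2 - p.2 ≠ 0 := fun h => hs (by linarith)
        field_simp
        linarith
    have hc : ContinuousAt (fun ρ => f ρ - (q.1 + q.2 * ρ)) ρ₀ := by fun_prop
    filter_upwards [hc.eventually_ne hne] with ρ h h'
    exact h (by rw [h']; ring)
  have h2 : ∀ᶠ ρ in 𝓝 ρ₀, ∀ q ∈ L, q ≠ p → f ρ ≠ q.1 + q.2 * ρ := by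
    rw [Filter.eventually_all_finset]
    intro q hq
    by_cases hqp : q = p
    · exact Filter.Eventually.of_forall (fun _ h => absurd hqp h)
    · filter_upwards [h1 q hq hqp] with ρ h _ using h
  filter_upwards [h2] with ρ h
  obtain ⟨q, hq, hqe⟩ := hsel ρ
  by_cases hqp : q = p
  · rw [← hqp]; exact hqe
  · exact absurd hqe (h q hq hqp)

/-- beyond all crossings `f` is affine with slope `≤ -1/D` -/
theorem right_affine {D : ℕ} (hD : 0 < D) (hslope : ∀ p ∈ L, ∃ z : ℤ, p.2 * D = z)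
    (hf : Continuous f) (hsel : ∀ ρ, ∃ p ∈ L, f ρ = p.1 + p.2 * ρ)
    (htop : Tendsto (fun j : ℕ => f (j : ℝ)) atTop atBot) {R : ℝ} (hR0 : 0 ≤ R)
    (hX : ∀ p ∈ L, ∀ q ∈ L, p.2 ≠ q.2 → |(p.1 - q.1) / (q.2 - p.2)| ≤ R) :
    ∃ s : ℝ, s ≤ -1 / D ∧ ∀ ρ, R ≤ ρ → f ρ = f R + s * (ρ - R) := by
  obtain ⟨p, hp, he⟩ := hsel (R + 1)
  have hmain : Ioi R ⊆ {ρ | ∀ q ∈ L, q ≠ p → f ρ ≠ q.1 + q.2 * ρ} := by
    refine IsPreconnected.subset_left_of_subset_union (v := {ρ | f ρ ≠ p.1 + p.2 * ρ}) ?_ ?_ ?_ ?_ ?_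
      isPreconnected_Ioi
    · have : {ρ | ∀ q ∈ L, q ≠ p → f ρ ≠ q.1 + q.2 * ρ} =
          ⋂ q ∈ L.filter (fun q => q ≠ p), {ρ | f ρ ≠ q.1 + q.2 * ρ} := by
        ext ρ; simp
      rw [this]
      refine isOpen_biInter_finset fun q _ => ?_
      exact isOpen_ne_fun hf (by fun_prop)
    · exact isOpen_ne_fun hf (by fun_prop)
    · rw [Set.disjoint_left]
      intro ρ h1 h2
      obtain ⟨q, hq, hqe⟩ := hsel ρ
      by_cases hqp : q = p
      · exact h2 (by rw [← hqp]; exact hqe)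
      · exact h1 q hq hqp hqe
    · intro ρ hρ
      by_cases h : f ρ = p.1 + p.2 * ρ
      · left
        intro q hq hqp h'
        by_cases hs : p.2 = q.2
        · apply hqp
          have : p.1 = q.1 := by rw [h, hs] at h'; linarith
          exact Prod.ext this.symm hs.symm
        · have h0 : q.2 - p.2 ≠ 0 := fun h => hs (by linarith)
          have : ρ = (p.1 - q.1) / (q.2 - p.2) := by
            field_simp
            linarith
          have h3 := hX p hp q hq hs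
          rw [← this] at h3
          have : R < ρ := hρ
          linarith [le_abs_self ρ]
      · right; exact h
    · refine ⟨R + 1, by simp, ?_⟩
      intro q hq hqp h'
      by_cases hs : p.2 = q.2
      · apply hqp
        have : p.1 = q.1 := by rw [he, hs] at h'; linarith
        exact Prod.ext this.symm hs.symm
      · have h0 : q.2 - p.2 ≠ 0 := fun h => hs (by linarith)
        have : R + 1 = (p.1 - q.1) / (q.2 - p.2) := by
          field_simp
          linarith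
        have h3 := hX p hp q hq hs
        rw [← this] at h3
        linarith [le_abs_self (R + 1)]
  have h1 : ∀ ρ ∈ Ioi R, f ρ = p.1 + p.2 * ρ := by
    intro ρ hρ
    obtain ⟨q, hq, hqe⟩ := hsel ρ
    by_cases hqp : q = p
    · rw [← hqp]; exact hqe
    · exact absurd hqe (hmain hρ q hq hqp)
  have h2 : ∀ ρ, R ≤ ρ → f ρ = p.1 + p.2 * ρ := by
    have hcl : IsClosed {ρ | f ρ = p.1 + p.2 * ρ} := isClosed_eq hf (by fun_prop)
    have : closure (Ioi R) ⊆ {ρ | f ρ = p.1 + p.2 * ρ} := hcl.closure_subset_iff.2 h1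
    rw [closure_Ioi] at this
    exact fun ρ hρ => this hρ
  have hs : p.2 < 0 := by
    by_contra hcon
    push Not at hcon
    have h3 : ∀ᶠ j : ℕ in atTop, f (j : ℝ) < p.1 := htop.eventually_lt_atBot p.1
    obtain ⟨j, hj1, hj2⟩ := (h3.and (Filter.eventually_ge_atTop ⌈R⌉₊)).exists
    have h4 : R ≤ (j : ℝ) := (Nat.le_ceil R).trans (by exact_mod_cast hj2)
    rw [h2 _ h4] at hj1
    have : 0 ≤ p.2 * (j : ℝ) := mul_nonneg hcon (by positivity)
    linarith
  refine ⟨p.2, ?_, fun ρ hρ => ?_⟩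
  · obtain ⟨z, hz⟩ := hslope p hp
    have hD' : (0 : ℝ) < D := by exact_mod_cast hD
    have : (z : ℝ) < 0 := by rw [← hz]; exact mul_neg_of_neg_of_pos hs hD'
    have hz' : z < 0 := by exact_mod_cast this
    have hz1 : z ≤ -1 := by omega
    have : (z : ℝ) ≤ -1 := by exact_mod_cast hz1
    rw [le_div_iff₀ hD', hz]
    exact this
  · rw [h2 ρ hρ, h2 R le_rfl]; ring

theorem tendsto_right {D : ℕ} (hD : 0 < D) {R s : ℝ} (hs : s ≤ -1 / D)
    (h : ∀ ρ, R ≤ ρ → f ρ = f R + s * (ρ - R)) : Tendsto f atTop atBot := by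
  have hD' : (0 : ℝ) < D := by exact_mod_cast hD
  have hs0 : s < 0 := lt_of_le_of_lt hs (by rw [div_lt_iff₀ hD']; simp)
  have h1 : Tendsto (fun ρ : ℝ => f R + s * (ρ - R)) atTop atBot := by
    refine tendsto_atBot_add_const_left _ _ ?_
    exact (tendsto_atTop_add_const_right _ (-R) tendsto_id).const_mul_atTop_of_neg hs0
  refine h1.congr' ?_
  filter_upwards [Filter.eventually_ge_atTop R] with ρ hρ using (h ρ hρ).symm

/-- the 1D lemma -/
theorem pl1 {D : ℕ} (hD : 0 < D) (hslope : ∀ p ∈ L, ∃ z : ℤ, p.2 * D = z)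
    (hf : Continuous f) (hsel : ∀ ρ, ∃ p ∈ L, f ρ = p.1 + p.2 * ρ)
    (htop : Tendsto (fun j : ℕ => f (j : ℝ)) atTop atBot)
    (hbot : Tendsto (fun j : ℕ => f (-(j : ℝ))) atTop atBot) {N R : ℝ} (hR0 : 0 ≤ R)
    (hX : ∀ p ∈ L, ∀ q ∈ L, p.2 ≠ q.2 →
      |(p.1 - q.1) / (q.2 - p.2)| ≤ R ∧ f ((p.1 - q.1) / (q.2 - p.2)) ≤ N) :
    ∀ ρ, f ρ ≤ N - max (|ρ| - R) 0 / D := by
  have hD' : (0 : ℝ) < D := by exact_mod_cast hD
  obtain ⟨s, hs, hs'⟩ := right_affine hD hslope hf hsel htop hR0 (fun p hp q hq h => (hX p hp q hq h).1)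
  -- the left side
  have hleft : ∃ s : ℝ, s ≤ -1 / D ∧ ∀ ρ, R ≤ ρ → f (-ρ) = f (-R) + s * (ρ - R) := by
    have := right_affine (L := L.image (fun p => (p.1, -p.2))) (f := fun ρ => f (-ρ)) hD ?_ ?_ ?_ hbot
      hR0 ?_
    · exact this
    · intro p hp
      obtain ⟨q, hq, rfl⟩ := Finset.mem_image.1 hp
      obtain ⟨z, hz⟩ := hslope q hq
      exact ⟨-z, by push_cast; rw [← hz]; ring⟩
    · exact hf.comp continuous_neg
    · intro ρ
      obtain ⟨p, hp, he⟩ := hsel (-ρ)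
      exact ⟨(p.1, -p.2), Finset.mem_image.2 ⟨p, hp, rfl⟩, by simp only [he]; ring⟩
    · intro p hp q hq hpq
      obtain ⟨p', hp', rfl⟩ := Finset.mem_image.1 hp
      obtain ⟨q', hq', rfl⟩ := Finset.mem_image.1 hq
      have h1 : p'.2 ≠ q'.2 := fun h => hpq (by simp [h])
      have h2 := (hX p' hp' q' hq' h1).1
      have h0 : q'.2 - p'.2 ≠ 0 := fun h => h1 (by linarith)
      have h0' : p'.2 - q'.2 ≠ 0 := fun h => h1 (by linarith)
      have h3 : (p'.1 - q'.1) / (-q'.2 - -p'.2) = -((p'.1 - q'.1) / (q'.2 - p'.2)) := by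
        have : -q'.2 - -p'.2 = -(q'.2 - p'.2) := by ring
        rw [this, div_neg]
      simp only
      rw [h3, abs_neg]
      exact h2
  obtain ⟨s', hs1, hs1'⟩ := hleft
  have ht1 : Tendsto f atTop atBot := tendsto_right hD hs hs'
  have ht2 : Tendsto f atBot atBot := by
    have h1 : Tendsto (fun ρ => f (-ρ)) atTop atBot := tendsto_right hD hs1 hs1'
    have h2 := h1.comp tendsto_neg_atBot_atTop
    refine h2.congr (fun x => ?_)
    simp
  -- the maximum
  have hcoc : Tendsto f (cocompact ℝ) atBot := by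
    rw [cocompact_eq_atBot_atTop]
    exact ht2.sup ht1
  obtain ⟨x₀, hx₀⟩ := hf.exists_forall_ge hcoc
  have hmax : f x₀ ≤ N := by
    set S : Set ℝ := {ρ | f ρ = f x₀} with hS
    have hSc : IsClosed S := isClosed_eq hf continuous_const
    have hSb : BddAbove S := by
      have : ∀ᶠ ρ in atTop, f ρ < f x₀ := ht1.eventually_lt_atBot _
      obtain ⟨K, hK⟩ := (Filter.eventually_atTop.1 this)
      refine ⟨K, fun ρ hρ => ?_⟩
      by_contra hcon
      push Not at hcon
      have h1 := hK ρ hcon.le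
      have h2 : f ρ = f x₀ := hρ
      linarith
    have hSn : S.Nonempty := ⟨x₀, rfl⟩
    have hmem : sSup S ∈ S := hSc.csSup_mem hSn hSb
    set y := sSup S with hy
    have hfy : f y = f x₀ := hmem
    by_cases hcr : ∀ p ∈ L, ∀ q ∈ L, p.2 ≠ q.2 → y ≠ (p.1 - q.1) / (q.2 - p.2)
    · exfalso
      obtain ⟨p, hp, he, hev⟩ := loc_affine hf hsel hcr
      obtain ⟨ε, hε, hball⟩ := Metric.eventually_nhds_iff.1 hev
      have e1 : f (y + ε / 2) = p.1 + p.2 * (y + ε / 2) := hball (by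
        rw [Real.dist_eq]; simp only [add_sub_cancel_left]; rw [abs_of_pos (by linarith)]; linarith)
      have e2 : f (y - ε / 2) = p.1 + p.2 * (y - ε / 2) := hball (by
        rw [Real.dist_eq]
        have : y - ε / 2 - y = -(ε / 2) := by ring
        rw [this, abs_neg, abs_of_pos (by linarith)]; linarith)
      have m1 : f (y + ε / 2) ≤ f x₀ := hx₀ _
      have m2 : f (y - ε / 2) ≤ f x₀ := hx₀ _
      have hp0 : p.2 * (ε / 2) ≤ 0 := by
        have : p.1 + p.2 * (y + ε / 2) ≤ p.1 + p.2 * y := by rw [← e1, ← he, hfy]; exact m1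
        nlinarith
      have hp1 : 0 ≤ p.2 * (ε / 2) := by
        have : p.1 + p.2 * (y - ε / 2) ≤ p.1 + p.2 * y := by rw [← e2, ← he, hfy]; exact m2
        nlinarith
      have hz : p.2 * (ε / 2) = 0 := le_antisymm hp0 hp1
      have e3 : f (y + ε / 2) = f x₀ := by
        rw [e1, ← hfy, he]; linarith
      have : y + ε / 2 ≤ y := le_csSup hSb e3
      linarith
    · push Not at hcr
      obtain ⟨p, hp, q, hq, hpq, hxy⟩ := hcr
      rw [← hfy, hxy]
      exact (hX p hp q hq hpq).2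
  intro ρ
  have hρ : f ρ ≤ f x₀ := hx₀ ρ
  rcases le_total |ρ| R with h | h
  · rw [max_eq_right (by linarith)]
    simp only [zero_div, sub_zero]
    linarith
  · rw [max_eq_left (by linarith)]
    have key : ∀ (σ : ℝ) (u : ℝ), σ ≤ -1 / D → u ≤ N → u + σ * (|ρ| - R) ≤ N - (|ρ| - R) / D := by
      intro σ u h1 h2
      have : σ * (|ρ| - R) ≤ -1 / D * (|ρ| - R) := mul_le_mul_of_nonneg_right h1 (by linarith)
      have e : -1 / (D : ℝ) * (|ρ| - R) = -((|ρ| - R) / D) := by ring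
      linarith
    rcases le_total 0 ρ with h0 | h0
    · rw [abs_of_nonneg h0] at h key ⊢
      rw [hs' ρ h]
      exact key s _ hs ((hx₀ R).trans hmax)
    · rw [abs_of_nonpos h0] at h key ⊢
      have := hs1' (-ρ) h
      rw [neg_neg] at this
      rw [this]
      exact key s' _ hs1 ((hx₀ (-R)).trans hmax)

end Crest.Agent.R281.TrOV1_726
end

-- ▼ part R281/TrOV2_726
section

/-!
# Row 281, TROP-OV part 2 (helper726)
Geometry of finitely many points in the plane: annuli, comparison of logarithms, volumes, a geometric sum.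
-/

namespace Crest.Agent.R281.TrOV2_726

open MeasureTheory Set Metric
open scoped ENNReal

variable {B : ℕ} (b : Fin B → ℂ)

/-- tropical position of the point at log-distance `ρ` of `b k` -/
noncomputable def xi (k : Fin B) (ρ : ℝ) (l : Fin B) : ℝ :=
  if l = k then ρ else max ρ (Real.log ‖b k - b l‖)

/-- annulus around `b k` staying away from the other points -/
def low (k : Fin B) (ρ : ℝ) : Set ℂ :=
  ball (b k) (Real.exp (ρ + 1)) \ (ball (b k) (Real.exp ρ) ∪ ⋃ l, ball (b l) (Real.exp ρ / (B + 1)))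

theorem measurableSet_low (k : Fin B) (ρ : ℝ) : MeasurableSet (low b k ρ) := by
  unfold low
  refine isOpen_ball.measurableSet.diff ?_
  exact isOpen_ball.measurableSet.union (MeasurableSet.iUnion fun l => isOpen_ball.measurableSet)

variable {b}

theorem mem_low {k : Fin B} {ρ : ℝ} {x : ℂ} (hx : x ∈ low b k ρ) :
    Real.exp ρ ≤ ‖x - b k‖ ∧ ‖x - b k‖ < Real.exp (ρ + 1) ∧
      ∀ l, Real.exp ρ / (B + 1) ≤ ‖x - b l‖ := by
  obtain ⟨h1, h2⟩ := hx
  simp only [mem_union, mem_iUnion, not_or, not_exists, mem_ball, not_lt, dist_eq_norm] at h1 h2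
  exact ⟨h2.1, h1, h2.2⟩

theorem upper_log {k l : Fin B} {ρ : ℝ} {x : ℂ} (h2 : ‖x - b k‖ < Real.exp (ρ + 1))
    (hkl : b k ≠ b l) (hx : 0 < ‖x - b l‖) :
    Real.log ‖x - b l‖ ≤ max ρ (Real.log ‖b k - b l‖) + 2 := by
  set lam := Real.log ‖b k - b l‖ with hlam
  have hpos : 0 < ‖b k - b l‖ := norm_pos_iff.2 (sub_ne_zero.2 hkl)
  have e1 : ‖b k - b l‖ = Real.exp lam := (Real.exp_log hpos).symm
  rw [Real.log_le_iff_le_exp hx]
  have h3 : ‖x - b l‖ ≤ ‖x - b k‖ + ‖b k - b l‖ := by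
    have : x - b l = (x - b k) + (b k - b l) := by ring
    rw [this]; exact norm_add_le _ _
  have h4 : Real.exp (ρ + 1) ≤ Real.exp (max ρ lam + 1) :=
    Real.exp_le_exp.2 (by linarith [le_max_left ρ lam])
  have h5 : Real.exp lam ≤ Real.exp (max ρ lam + 1) :=
    Real.exp_le_exp.2 (by linarith [le_max_right ρ lam])
  have h6 : (2 : ℝ) * Real.exp (max ρ lam + 1) ≤ Real.exp (max ρ lam + 2) := by
    have : Real.exp (max ρ lam + 2) = Real.exp 1 * Real.exp (max ρ lam + 1) := by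
      rw [← Real.exp_add]; ring_nf
    rw [this]
    have := Real.add_one_le_exp (1 : ℝ)
    exact mul_le_mul_of_nonneg_right (by linarith) (Real.exp_pos _).le
  rw [e1] at h3
  linarith

/-- comparison on `low` -/
theorem near_low {k : Fin B} {ρ : ℝ} {x : ℂ} (hb : Function.Injective b) (hx : x ∈ low b k ρ)
    (l : Fin B) : |Real.log ‖x - b l‖ - xi b k ρ l| ≤ 3 + Real.log (B + 1) := by
  obtain ⟨h1, h2, h3⟩ := mem_low hx
  have hB : (0 : ℝ) ≤ Real.log (B + 1) := Real.log_nonneg (by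
    have : (0 : ℝ) ≤ B := by positivity
    linarith)
  have hB1 : (0 : ℝ) < B + 1 := by positivity
  unfold xi
  split_ifs with hl
  · subst hl
    have hp : 0 < ‖x - b l‖ := lt_of_lt_of_le (Real.exp_pos _) h1
    have a1 : ρ ≤ Real.log ‖x - b l‖ := (Real.le_log_iff_exp_le hp).2 h1
    have a2 : Real.log ‖x - b l‖ ≤ ρ + 1 := (Real.log_le_iff_le_exp hp).2 h2.le
    rw [abs_le]; constructor <;> linarith
  · have hkl : b k ≠ b l := fun h => hl (hb h).symm
    have hp : 0 < ‖x - b l‖ := lt_of_lt_of_le (by positivity) (h3 l)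
    have hpos : 0 < ‖b k - b l‖ := norm_pos_iff.2 (sub_ne_zero.2 hkl)
    have u := upper_log h2 hkl hp
    set lam := Real.log ‖b k - b l‖ with hlam
    have e1 : ‖b k - b l‖ = Real.exp lam := (Real.exp_log hpos).symm
    have low1 : max ρ lam - (3 + Real.log (B + 1)) ≤ Real.log ‖x - b l‖ := by
      rcases le_total lam (ρ + 2) with h | h
      · have h4 : Real.log (Real.exp ρ / (B + 1)) ≤ Real.log ‖x - b l‖ :=
          Real.log_le_log (by positivity) (h3 l)
        rw [Real.log_div (Real.exp_pos _).ne' hB1.ne', Real.log_exp] at h4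
        have : max ρ lam ≤ ρ + 2 := max_le (by linarith) h
        linarith
      · have h4 : Real.exp lam ≤ ‖x - b k‖ + ‖x - b l‖ := by
          rw [← e1]
          have : b k - b l = -(x - b k) + (x - b l) := by ring
          rw [this]
          refine (norm_add_le _ _).trans ?_
          rw [norm_neg]
        have h5 : Real.exp (ρ + 1) ≤ Real.exp (lam - 1) := Real.exp_le_exp.2 (by linarith)
        have h6 : Real.exp lam = Real.exp 1 * Real.exp (lam - 1) := by
          rw [← Real.exp_add]; ring_nf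
        have h7 := Real.add_one_le_exp (1 : ℝ)
        have h8 : Real.exp (lam - 1) ≤ ‖x - b l‖ := by
          have : (2 : ℝ) * Real.exp (lam - 1) ≤ Real.exp lam := by
            rw [h6]; exact mul_le_mul_of_nonneg_right (by linarith) (Real.exp_pos _).le
          linarith
        have h9 : lam - 1 ≤ Real.log ‖x - b l‖ := (Real.le_log_iff_exp_le hp).2 h8
        have : max ρ lam ≤ lam := max_le (by linarith) le_rfl
        linarith
    rw [abs_le]; constructor <;> linarith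

/-- comparison when `b k` is nearest to `x` -/
theorem near_up {k : Fin B} {ρ : ℝ} {x : ℂ} (hb : Function.Injective b)
    (h1 : Real.exp ρ ≤ ‖x - b k‖) (h2 : ‖x - b k‖ < Real.exp (ρ + 1))
    (hk : ∀ l, ‖x - b k‖ ≤ ‖x - b l‖) (l : Fin B) :
    |Real.log ‖x - b l‖ - xi b k ρ l| ≤ 2 := by
  have hp0 : 0 < ‖x - b k‖ := lt_of_lt_of_le (Real.exp_pos _) h1
  unfold xi
  split_ifs with hl
  · subst hl
    have a1 : ρ ≤ Real.log ‖x - b l‖ := (Real.le_log_iff_exp_le hp0).2 h1
    have a2 : Real.log ‖x - b l‖ ≤ ρ + 1 := (Real.log_le_iff_le_exp hp0).2 h2.le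
    rw [abs_le]; constructor <;> linarith
  · have hkl : b k ≠ b l := fun h => hl (hb h).symm
    have hp : 0 < ‖x - b l‖ := lt_of_lt_of_le hp0 (hk l)
    have hpos : 0 < ‖b k - b l‖ := norm_pos_iff.2 (sub_ne_zero.2 hkl)
    have u := upper_log h2 hkl hp
    set lam := Real.log ‖b k - b l‖ with hlam
    have e1 : ‖b k - b l‖ = Real.exp lam := (Real.exp_log hpos).symm
    have l1 : ρ ≤ Real.log ‖x - b l‖ := (Real.le_log_iff_exp_le hp).2 (h1.trans (hk l))
    have l2 : lam - 2 ≤ Real.log ‖x - b l‖ := by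
      have h4 : Real.exp lam ≤ 2 * ‖x - b l‖ := by
        rw [← e1]
        have : b k - b l = -(x - b k) + (x - b l) := by ring
        rw [this]
        refine (norm_add_le _ _).trans ?_
        rw [norm_neg]; linarith [hk l]
      have h6 : Real.exp lam = Real.exp 1 * Real.exp (lam - 1) := by
        rw [← Real.exp_add]; ring_nf
      have h7 := Real.add_one_le_exp (1 : ℝ)
      have h8 : Real.exp (lam - 1) ≤ ‖x - b l‖ := by
        have : (2 : ℝ) * Real.exp (lam - 1) ≤ Real.exp lam := by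
          rw [h6]; exact mul_le_mul_of_nonneg_right (by linarith) (Real.exp_pos _).le
        linarith
      have h9 : lam - 1 ≤ Real.log ‖x - b l‖ := (Real.le_log_iff_exp_le hp).2 h8
      linarith
    rw [abs_le]
    constructor
    · have : max ρ lam ≤ Real.log ‖x - b l‖ + 2 := max_le (by linarith) (by linarith)
      linarith
    · linarith

/-- volume from below -/
theorem volume_low (k : Fin B) (ρ : ℝ) :
    ENNReal.ofReal (Real.exp (2 * ρ)) ≤ volume (low b k ρ) := by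
  have hB1 : (0 : ℝ) < B + 1 := by positivity
  have hpi := Real.pi_gt_three
  have v : ∀ (a : ℂ) (r : ℝ), 0 ≤ r → volume (ball a r) = ENNReal.ofReal (r ^ 2 * Real.pi) := by
    intro a r hr
    rw [Complex.volume_ball, ENNReal.ofReal_mul (by positivity), ENNReal.ofReal_pow hr]
    congr 1
    rw [← NNReal.coe_real_pi, ENNReal.ofReal_coe_nnreal]
  set s := ball (b k) (Real.exp ρ) ∪ ⋃ l, ball (b l) (Real.exp ρ / (B + 1)) with hs
  have h1 : volume s ≤ ENNReal.ofReal (2 * (Real.exp ρ ^ 2 * Real.pi)) := by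
    refine (measure_union_le _ _).trans ?_
    have h2 : volume (⋃ l : Fin B, ball (b l) (Real.exp ρ / (B + 1))) ≤
        ENNReal.ofReal (Real.exp ρ ^ 2 * Real.pi) := by
      refine (measure_iUnion_le _).trans ?_
      rw [tsum_fintype]
      calc ∑ l : Fin B, volume (ball (b l) (Real.exp ρ / (B + 1)))
          = ∑ _l : Fin B, ENNReal.ofReal ((Real.exp ρ / (B + 1)) ^ 2 * Real.pi) := by
            refine Finset.sum_congr rfl fun l _ => v _ _ (by positivity)
        _ = ENNReal.ofReal (∑ _l : Fin B, (Real.exp ρ / (B + 1)) ^ 2 * Real.pi) := by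
            rw [ENNReal.ofReal_sum_of_nonneg (fun _ _ => by positivity)]
        _ ≤ ENNReal.ofReal (Real.exp ρ ^ 2 * Real.pi) := by
            refine ENNReal.ofReal_le_ofReal ?_
            rw [Finset.sum_const, Finset.card_univ, Fintype.card_fin, nsmul_eq_mul, div_pow]
            have : (B : ℝ) * (Real.exp ρ ^ 2 / (B + 1) ^ 2 * Real.pi) =
                (B / (B + 1) ^ 2) * (Real.exp ρ ^ 2 * Real.pi) := by ring
            rw [this]
            have h3 : (B : ℝ) / (B + 1) ^ 2 ≤ 1 := by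
              rw [div_le_one (by positivity)]
              have : (0 : ℝ) ≤ B := by positivity
              nlinarith
            have h4 : 0 ≤ Real.exp ρ ^ 2 * Real.pi := by positivity
            nlinarith
    rw [v _ _ (Real.exp_pos _).le, two_mul, ENNReal.ofReal_add (by positivity) (by positivity)]
    gcongr
  have h5 : volume (ball (b k) (Real.exp (ρ + 1))) - volume s ≤ volume (low b k ρ) := by
    unfold low
    exact le_measure_sdiff
  refine le_trans ?_ h5
  refine le_trans ?_ (tsub_le_tsub_left h1 _)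
  rw [v _ _ (Real.exp_pos _).le, ← ENNReal.ofReal_sub _ (by positivity)]
  refine ENNReal.ofReal_le_ofReal ?_
  have e1 : Real.exp (2 * ρ) = Real.exp ρ ^ 2 := by rw [← Real.exp_nat_mul]; norm_num
  have e2 : Real.exp (ρ + 1) = Real.exp 1 * Real.exp ρ := by rw [← Real.exp_add]; ring_nf
  rw [e1, e2, mul_pow]
  have h7 := Real.exp_one_gt_d9
  have h8 : (6 : ℝ) ≤ Real.exp 1 ^ 2 := by nlinarith
  have h9 : 0 < Real.exp ρ ^ 2 := by positivity
  have h10 : 0 < Real.exp ρ ^ 2 * Real.pi := by positivity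
  nlinarith [mul_le_mul_of_nonneg_right h8 h10.le]

theorem volume_ball_exp (a : ℂ) (ρ : ℝ) :
    volume (ball a (Real.exp ρ)) = ENNReal.ofReal (Real.exp (2 * ρ) * Real.pi) := by
  rw [Complex.volume_ball, ENNReal.ofReal_mul (by positivity)]
  congr 1
  · rw [← ENNReal.ofReal_pow (Real.exp_pos _).le, ← Real.exp_nat_mul]; norm_num
  · rw [← NNReal.coe_real_pi, ENNReal.ofReal_coe_nnreal]

theorem disjoint_low (k : Fin B) {ρ ρ' : ℝ} (h : ρ + 1 ≤ ρ') :
    Disjoint (low b k ρ) (low b k ρ') := by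
  rw [Set.disjoint_left]
  intro x hx hx'
  have h1 := (mem_low hx).2.1
  have h2 := (mem_low hx').1
  have h3 : Real.exp (ρ + 1) ≤ Real.exp ρ' := Real.exp_le_exp.2 h
  linarith

/-- splitting a sum in `ℝ≥0∞` -/
theorem split_sum (g : ℕ → ℝ≥0∞) (m : ℕ) :
    ∑' n, g n = ∑ i ∈ Finset.range m, g i + ∑' i, g (i + m) :=
  (ENNReal.summable.sum_add_tsum_nat_add' (f := g) (k := m)).symm

/-- the geometric sum -/
theorem geom_sum {δ : ℝ} (hδ : 0 < δ) {R : ℝ} (hR : 0 ≤ R) :
    ∑' n : ℕ, ENNReal.ofReal (Real.exp (-(δ * max ((n : ℝ) - R) 0))) ≤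
      ENNReal.ofReal (R + 1 + 1 / (1 - Real.exp (-δ))) := by
  obtain ⟨m, hm1, hm2⟩ : ∃ m : ℕ, (m : ℝ) ≤ R + 1 ∧ R ≤ m :=
    ⟨⌈R⌉₊, (Nat.ceil_lt_add_one hR).le, Nat.le_ceil R⟩
  have hlt : Real.exp (-δ) < 1 := by rw [Real.exp_lt_one_iff]; linarith
  have h4 : 0 < 1 - Real.exp (-δ) := by linarith
  have h1 : ∑ i ∈ Finset.range m, ENNReal.ofReal (Real.exp (-(δ * max ((i : ℝ) - R) 0))) ≤
      ENNReal.ofReal (R + 1) := by
    calc ∑ i ∈ Finset.range m, ENNReal.ofReal (Real.exp (-(δ * max ((i : ℝ) - R) 0)))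
        ≤ ∑ _i ∈ Finset.range m, (1 : ℝ≥0∞) := by
          refine Finset.sum_le_sum fun i _ => ?_
          rw [← ENNReal.ofReal_one]
          refine ENNReal.ofReal_le_ofReal ?_
          rw [Real.exp_le_one_iff]
          have : 0 ≤ δ * max ((i : ℝ) - R) 0 := mul_nonneg hδ.le (le_max_right _ _)
          linarith
      _ = ENNReal.ofReal (m : ℝ) := by simp
      _ ≤ ENNReal.ofReal (R + 1) := ENNReal.ofReal_le_ofReal hm1
  have h2 : ∑' i : ℕ, ENNReal.ofReal (Real.exp (-(δ * max (((i + m : ℕ) : ℝ) - R) 0))) ≤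
      ENNReal.ofReal (1 / (1 - Real.exp (-δ))) := by
    have h3 : ∀ i : ℕ, ENNReal.ofReal (Real.exp (-(δ * max (((i + m : ℕ) : ℝ) - R) 0))) ≤
        ENNReal.ofReal (Real.exp (-δ) ^ i) := by
      intro i
      refine ENNReal.ofReal_le_ofReal ?_
      rw [← Real.exp_nat_mul, Real.exp_le_exp]
      have h5 : (i : ℝ) ≤ max (((i + m : ℕ) : ℝ) - R) 0 := by
        refine le_trans ?_ (le_max_left _ _)
        push_cast; linarith
      have h6 := mul_le_mul_of_nonneg_left h5 hδ.le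
      linarith
    refine (ENNReal.tsum_le_tsum h3).trans ?_
    rw [← ENNReal.ofReal_tsum_of_nonneg (fun n => by positivity)
      (summable_geometric_of_lt_one (Real.exp_pos _).le hlt),
      tsum_geometric_of_lt_one (Real.exp_pos _).le hlt, one_div]
  rw [split_sum _ m, ENNReal.ofReal_add (by linarith) (by positivity)]
  exact add_le_add h1 h2

end Crest.Agent.R281.TrOV2_726
end

-- ▼ part R281/TrOV3_726
section

/-!
# Row 281, TROP-OV part 3 (helper726)
The tropical one-variable function `fk`, its breakpoint supremum `M`, and the lower bound.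
-/

namespace Crest.Agent.R281.TrOV_726

open Crest.Agent.R281.TrPL_726 Crest.Agent.R281.TrOV1_726 Crest.Agent.R281.TrOV2_726
open MeasureTheory Set Metric Filter Topology
open scoped ENNReal

variable {V : Type*} [Fintype V] {B : ℕ}

/-- data vector -/
noncomputable def dat (c : V → ℝ) (b : Fin B → ℂ) : V ⊕ (Fin B × Fin B) → ℝ :=
  Sum.elim c (fun p => Real.log ‖b p.1 - b p.2‖)

/-- the function on `ℂ` -/
noncomputable def GG (F : (V ⊕ Fin B → ℝ) → ℝ) (c : V → ℝ) (b : Fin B → ℂ) (x : ℂ) : ℝ :=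
  Real.exp (F (Sum.elim c (fun k => Real.log ‖x - b k‖)))

/-- `2 ρ + F (c, max ρ λ_kl)` as a function of all variables -/
noncomputable def Phi (F : (V ⊕ Fin B → ℝ) → ℝ) (k : Fin B)
    (ζ : (V ⊕ (Fin B × Fin B)) ⊕ Unit → ℝ) : ℝ :=
  2 * ζ (Sum.inr ()) + F (fun w => Sum.elim (fun v => ζ (Sum.inl (Sum.inl v)))
    (fun l => if l = k then ζ (Sum.inr ()) else max (ζ (Sum.inr ())) (ζ (Sum.inl (Sum.inr (k, l))))) w)

theorem Phi_PL {F : (V ⊕ Fin B → ℝ) → ℝ} (hF : PL F) (k : Fin B) : PL (Phi F k) := by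
  unfold Phi
  have h1 : PL (fun ζ : (V ⊕ (Fin B × Fin B)) ⊕ Unit → ℝ => 2 * ζ (Sum.inr ())) := by
    have := (PL.coord (V := (V ⊕ (Fin B × Fin B)) ⊕ Unit) (Sum.inr ())).smul 2
    simpa using this
  refine h1.add (hF.comp ?_)
  intro w
  rcases w with v | l
  · exact PL.coord (V := (V ⊕ (Fin B × Fin B)) ⊕ Unit) (Sum.inl (Sum.inl v))
  · by_cases hl : l = k
    · simp only [Sum.elim_inr, hl, if_true]
      exact PL.coord (V := (V ⊕ (Fin B × Fin B)) ⊕ Unit) (Sum.inr ())
    · simp only [Sum.elim_inr, hl, if_false]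
      exact PL.max (PL.coord (V := (V ⊕ (Fin B × Fin B)) ⊕ Unit) (Sum.inr ()))
        (PL.coord (V := (V ⊕ (Fin B × Fin B)) ⊕ Unit) (Sum.inl (Sum.inr (k, l))))

/-- the function of one real variable -/
noncomputable def fk (F : (V ⊕ Fin B → ℝ) → ℝ) (c : V → ℝ) (b : Fin B → ℂ) (k : Fin B) (ρ : ℝ) : ℝ :=
  2 * ρ + F (Sum.elim c (xi b k ρ))

theorem Phi_dat (F : (V ⊕ Fin B → ℝ) → ℝ) (c : V → ℝ) (b : Fin B → ℂ) (k : Fin B) (ρ : ℝ) :
    Phi F k (Sum.elim (dat c b) (fun _ => ρ)) = fk F c b k ρ := by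
  rfl

theorem continuous_fk {F : (V ⊕ Fin B → ℝ) → ℝ} (hF : PL F) (c : V → ℝ) (b : Fin B → ℂ)
    (k : Fin B) : Continuous (fk F c b k) := by
  have h := (Phi_PL hF k).continuous
  have h2 : Continuous (fun ρ : ℝ => (Sum.elim (dat c b) (fun _ => ρ) :
      (V ⊕ (Fin B × Fin B)) ⊕ Unit → ℝ)) := by
    refine continuous_pi fun w => ?_
    rcases w with w | w
    · exact continuous_const
    · exact continuous_id
  exact h.comp h2

theorem lf_elim {W : Type*} [Fintype W] (a : W ⊕ Unit → ℚ) (d : W → ℝ) (ρ : ℝ) :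
    lf a (Sum.elim d (fun _ => ρ)) = lf (fun w => a (Sum.inl w)) d + (a (Sum.inr ()) : ℝ) * ρ := by
  simp [lf, Fintype.sum_sum_type]

/-- crossing of two rational affine functions of `ρ` -/
def cr {W : Type*} (a a' : W ⊕ Unit → ℚ) : W → ℚ :=
  ((a' (Sum.inr ()) - a (Sum.inr ()))⁻¹ : ℚ) • (fun w => a (Sum.inl w) - a' (Sum.inl w))

theorem lf_cr {W : Type*} [Fintype W] (a a' : W ⊕ Unit → ℚ) (d : W → ℝ) :
    lf (cr a a') d = (lf (fun w => a (Sum.inl w)) d - lf (fun w => a' (Sum.inl w)) d) /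
      ((a' (Sum.inr ()) : ℝ) - (a (Sum.inr ()) : ℝ)) := by
  unfold cr
  rw [lf_smul]
  have : lf (fun w => a (Sum.inl w) - a' (Sum.inl w)) d =
      lf (fun w => a (Sum.inl w)) d - lf (fun w => a' (Sum.inl w)) d := by
    simp [lf, sub_mul, Finset.sum_sub_distrib]
  rw [this]
  push_cast
  rw [div_eq_inv_mul]

theorem abs_lf_le {W : Type*} [Fintype W] (a : W → ℚ) (d : W → ℝ) :
    |lf a d| ≤ (∑ w, |(a w : ℝ)|) * ∑ w, |d w| := by
  unfold lf
  refine (Finset.abs_sum_le_sum_abs _ _).trans ?_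
  rw [Finset.sum_mul]
  refine Finset.sum_le_sum fun w _ => ?_
  rw [abs_mul]
  exact mul_le_mul_of_nonneg_left
    (Finset.single_le_sum (f := fun w => |d w|) (fun _ _ => abs_nonneg _) (Finset.mem_univ w))
    (abs_nonneg _)

/-- everything about the breakpoints: uniform data -/
theorem exists_M (hB : 0 < B) {F : (V ⊕ Fin B → ℝ) → ℝ} (hF : PL F) :
    ∃ (M : (V ⊕ (Fin B × Fin B) → ℝ) → ℝ) (D : ℕ) (CR : ℝ), PL M ∧ 0 < D ∧ 0 ≤ CR ∧
      ∀ (c : V → ℝ) (b : Fin B → ℂ),
        (∃ k ρ, M (dat c b) = fk F c b k ρ) ∧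
        ∀ k, Tendsto (fun j : ℕ => fk F c b k (j : ℝ)) atTop atBot →
          Tendsto (fun j : ℕ => fk F c b k (-(j : ℝ))) atTop atBot →
          ∀ ρ, fk F c b k ρ ≤ M (dat c b) - max (|ρ| - CR * ∑ w, |dat c b w|) 0 / D := by
  classical
  choose Λ hΛ using fun k => (Phi_PL hF k).sel
  set Lam : Finset ((V ⊕ (Fin B × Fin B)) ⊕ Unit → ℚ) := Finset.univ.biUnion Λ with hLam
  have hsel : ∀ k ζ, ∃ a ∈ Lam, Phi F k ζ = lf a ζ := by
    intro k ζ
    obtain ⟨a, ha, he⟩ := hΛ k ζ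
    exact ⟨a, Finset.mem_biUnion.2 ⟨k, Finset.mem_univ _, ha⟩, he⟩
  have hne : Lam.Nonempty := by
    obtain ⟨a, ha, _⟩ := hsel ⟨0, hB⟩ 0
    exact ⟨a, ha⟩
  let s : Finset (Fin B × (((V ⊕ (Fin B × Fin B)) ⊕ Unit → ℚ) × ((V ⊕ (Fin B × Fin B)) ⊕ Unit → ℚ))) :=
    Finset.univ ×ˢ (Lam ×ˢ Lam)
  have hs : s.Nonempty := by
    refine Finset.Nonempty.product ⟨⟨0, hB⟩, Finset.mem_univ _⟩ (hne.product hne)
  obtain ⟨M, hM, hM1, hM2⟩ := PL.exists_sup (V := V ⊕ (Fin B × Fin B)) s hs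
    (F := fun p d => Phi F p.1 (Sum.elim d (fun _ => lf (cr p.2.1 p.2.2) d))) (by
      intro p _
      have := (Phi_PL hF p.1).comp (W := V ⊕ (Fin B × Fin B))
        (H := fun w d => (Sum.elim d (fun _ => lf (cr p.2.1 p.2.2) d) :
          (V ⊕ (Fin B × Fin B)) ⊕ Unit → ℝ) w) (by
          intro w
          rcases w with w | w
          · exact PL.coord w
          · exact PL.lin _)
      exact this)
  let D : ℕ := ∏ a ∈ Lam, (a (Sum.inr ())).den
  have hD : 0 < D := Finset.prod_pos fun a _ => Rat.pos _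
  let CR : ℝ := ∑ a ∈ Lam, ∑ a' ∈ Lam, ∑ w, |((cr a a' w : ℚ) : ℝ)|
  have hCR : 0 ≤ CR := Finset.sum_nonneg fun _ _ => Finset.sum_nonneg fun _ _ =>
    Finset.sum_nonneg fun _ _ => abs_nonneg _
  refine ⟨M, D, CR, hM, hD, hCR, fun c b => ⟨?_, ?_⟩⟩
  · obtain ⟨p, _, he⟩ := hM2 (dat c b)
    exact ⟨p.1, lf (cr p.2.1 p.2.2) (dat c b), he.trans (Phi_dat F c b _ _)⟩
  · intro k ht1 ht2
    set d := dat c b with hd
    refine pl1 (L := Lam.image (fun a => (lf (fun w => a (Sum.inl w)) d, ((a (Sum.inr ()) : ℚ) : ℝ))))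
      hD ?_ (continuous_fk hF c b k) ?_ ht1 ht2
      (mul_nonneg hCR (Finset.sum_nonneg fun _ _ => abs_nonneg _)) ?_
    · intro p hp
      obtain ⟨a, ha, rfl⟩ := Finset.mem_image.1 hp
      obtain ⟨m, hm⟩ : (a (Sum.inr ())).den ∣ D := Finset.dvd_prod_of_mem _ ha
      refine ⟨(a (Sum.inr ())).num * m, ?_⟩
      rw [hm]
      have h1 : ((a (Sum.inr ()) : ℚ) : ℝ) * ((a (Sum.inr ())).den : ℝ) = ((a (Sum.inr ())).num : ℝ) := by
        have := Rat.mul_den_eq_num (a (Sum.inr ()))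
        exact_mod_cast this
      push_cast
      rw [← mul_assoc, h1]
    · intro ρ
      obtain ⟨a, ha, he⟩ := hsel k (Sum.elim d (fun _ => ρ))
      refine ⟨_, Finset.mem_image.2 ⟨a, ha, rfl⟩, ?_⟩
      rw [← Phi_dat, ← hd, he, lf_elim]
    · intro p hp q hq hpq
      obtain ⟨a, ha, rfl⟩ := Finset.mem_image.1 hp
      obtain ⟨a', ha', rfl⟩ := Finset.mem_image.1 hq
      simp only
      rw [← lf_cr]
      constructor
      · refine (abs_lf_le _ _).trans (mul_le_mul_of_nonneg_right ?_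
          (Finset.sum_nonneg fun _ _ => abs_nonneg _))
        refine le_trans ?_ (Finset.single_le_sum (f := fun a => ∑ a' ∈ Lam, ∑ w, |((cr a a' w : ℚ) : ℝ)|)
          (fun _ _ => Finset.sum_nonneg fun _ _ => Finset.sum_nonneg fun _ _ => abs_nonneg _) ha)
        exact Finset.single_le_sum (f := fun a' => ∑ w, |((cr a a' w : ℚ) : ℝ)|)
          (fun _ _ => Finset.sum_nonneg fun _ _ => abs_nonneg _) ha'
      · have := hM1 d (k, (a, a')) (Finset.mem_product.2 ⟨Finset.mem_univ _,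
          Finset.mem_product.2 ⟨ha, ha'⟩⟩)
        rw [← Phi_dat]
        exact this


/-- Lipschitz comparison -/
theorem GG_cmp {F : (V ⊕ Fin B → ℝ) → ℝ} {S : ℝ}
    (hS : ∀ ξ η : V ⊕ Fin B → ℝ, ∀ δ : ℝ, (∀ v, |ξ v - η v| ≤ δ) → |F ξ - F η| ≤ S * δ)
    (c : V → ℝ) (b : Fin B → ℂ) (k : Fin B) (ρ : ℝ) (x : ℂ) {δ : ℝ} (hδ : 0 ≤ δ)
    (h : ∀ l, |Real.log ‖x - b l‖ - xi b k ρ l| ≤ δ) :
    |F (Sum.elim c (fun l => Real.log ‖x - b l‖)) - F (Sum.elim c (xi b k ρ))| ≤ S * δ := by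
  refine hS _ _ δ fun w => ?_
  rcases w with v | l
  · simpa using hδ
  · exact h l

/-- the lower bound -/
theorem low_bound {F : (V ⊕ Fin B → ℝ) → ℝ} {S : ℝ}
    (hS : ∀ ξ η : V ⊕ Fin B → ℝ, ∀ δ : ℝ, (∀ v, |ξ v - η v| ≤ δ) → |F ξ - F η| ≤ S * δ)
    (c : V → ℝ) {b : Fin B → ℂ} (hb : Function.Injective b) (k : Fin B) (ρ : ℝ) :
    ENNReal.ofReal (Real.exp (fk F c b k ρ)) ≤
      ENNReal.ofReal (Real.exp (S * (3 + Real.log (B + 1)))) *
        ∫⁻ x in low b k ρ, ENNReal.ofReal (GG F c b x) := by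
  set C1 := 3 + Real.log (B + 1) with hC1
  have hC1' : 0 ≤ C1 := by
    have : (0 : ℝ) ≤ Real.log (B + 1) := Real.log_nonneg (by
      have : (0 : ℝ) ≤ B := by positivity
      linarith)
    linarith
  have h1 : ENNReal.ofReal (Real.exp (F (Sum.elim c (xi b k ρ)) - S * C1)) *
      volume (low b k ρ) ≤ ∫⁻ x in low b k ρ, ENNReal.ofReal (GG F c b x) := by
    rw [← setLIntegral_const]
    refine setLIntegral_mono' (measurableSet_low b k ρ) fun x hx => ?_
    refine ENNReal.ofReal_le_ofReal (Real.exp_le_exp.2 ?_)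
    have := GG_cmp hS c b k ρ x hC1' (near_low hb hx)
    have := (abs_le.1 this).1
    linarith
  have h2 := volume_low (b := b) k ρ
  calc ENNReal.ofReal (Real.exp (fk F c b k ρ))
      = ENNReal.ofReal (Real.exp (S * C1)) * (ENNReal.ofReal (Real.exp (F (Sum.elim c (xi b k ρ)) - S * C1)) *
          ENNReal.ofReal (Real.exp (2 * ρ))) := by
        rw [← ENNReal.ofReal_mul (Real.exp_pos _).le, ← ENNReal.ofReal_mul (Real.exp_pos _).le,
          ← Real.exp_add, ← Real.exp_add]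
        congr 2
        unfold fk; ring
    _ ≤ ENNReal.ofReal (Real.exp (S * C1)) * (ENNReal.ofReal (Real.exp (F (Sum.elim c (xi b k ρ)) - S * C1)) *
          volume (low b k ρ)) := by gcongr
    _ ≤ _ := by gcongr

theorem tendsto_of_disj {F : (V ⊕ Fin B → ℝ) → ℝ} {S : ℝ}
    (hS : ∀ ξ η : V ⊕ Fin B → ℝ, ∀ δ : ℝ, (∀ v, |ξ v - η v| ≤ δ) → |F ξ - F η| ≤ S * δ)
    (c : V → ℝ) {b : Fin B → ℂ} (hb : Function.Injective b) (k : Fin B) (r : ℕ → ℝ)
    (hr : Pairwise (Function.onFun Disjoint (fun n => low b k (r n))))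
    (hfin : ∫⁻ x, ENNReal.ofReal (GG F c b x) ≠ ∞) :
    Tendsto (fun j : ℕ => fk F c b k (r j)) atTop atBot := by
  have h1 : ∑' n, ENNReal.ofReal (Real.exp (fk F c b k (r n))) ≠ ∞ := by
    have h2 : ∑' n, ENNReal.ofReal (Real.exp (fk F c b k (r n))) ≤
        ENNReal.ofReal (Real.exp (S * (3 + Real.log (B + 1)))) *
          ∫⁻ x, ENNReal.ofReal (GG F c b x) := by
      refine (ENNReal.tsum_le_tsum fun n => low_bound hS c hb k (r n)).trans ?_
      rw [ENNReal.tsum_mul_left, ← lintegral_iUnion (fun n => measurableSet_low b k (r n)) hr]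
      gcongr
      exact Measure.restrict_le_self
    exact ne_top_of_le_ne_top (ENNReal.mul_ne_top ENNReal.ofReal_ne_top hfin) h2
  have h3 := ENNReal.tendsto_atTop_zero_of_tsum_ne_top h1
  have h4 : Tendsto (fun n => Real.exp (fk F c b k (r n))) atTop (𝓝 0) := by
    have h5 := (ENNReal.tendsto_toReal ENNReal.zero_ne_top).comp h3
    simp only [ENNReal.toReal_zero] at h5
    refine h5.congr fun n => ?_
    simp [ENNReal.toReal_ofReal (Real.exp_pos _).le]
  exact Real.tendsto_exp_comp_nhds_zero.1 h4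

theorem tendsto_both {F : (V ⊕ Fin B → ℝ) → ℝ} (hF : PL F)
    (c : V → ℝ) {b : Fin B → ℂ} (hb : Function.Injective b) (k : Fin B)
    (hfin : ∫⁻ x, ENNReal.ofReal (GG F c b x) ≠ ∞) :
    Tendsto (fun j : ℕ => fk F c b k (j : ℝ)) atTop atBot ∧
      Tendsto (fun j : ℕ => fk F c b k (-(j : ℝ))) atTop atBot := by
  obtain ⟨S, _, hS⟩ := hF.lip
  constructor
  · refine tendsto_of_disj hS c hb k (fun j => (j : ℝ)) ?_ hfin
    intro m n hmn
    rcases lt_or_gt_of_ne hmn with h | h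
    · have : (m : ℝ) + 1 ≤ n := by exact_mod_cast h
      exact disjoint_low k this
    · have : (n : ℝ) + 1 ≤ m := by exact_mod_cast h
      exact (disjoint_low k this).symm
  · refine tendsto_of_disj hS c hb k (fun j => -(j : ℝ)) ?_ hfin
    intro m n hmn
    rcases lt_or_gt_of_ne hmn with h | h
    · have : (m : ℝ) + 1 ≤ n := by exact_mod_cast h
      exact (disjoint_low k (by linarith : -(n : ℝ) + 1 ≤ -(m : ℝ))).symm
    · have : (n : ℝ) + 1 ≤ m := by exact_mod_cast h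
      exact disjoint_low k (by linarith : -(m : ℝ) + 1 ≤ -(n : ℝ))

end Crest.Agent.R281.TrOV_726
end

-- ▼ part R281/TrOV4_726
section

/-!
# Row 281, TROP-OV part 4 (helper726)
Upper bounds and the final theorem `ov`.
-/

namespace Crest.Agent.R281.TrOV_726

open Crest.Agent.R281.TrPL_726 Crest.Agent.R281.TrOV1_726 Crest.Agent.R281.TrOV2_726
open MeasureTheory Set Metric Filter Topology
open scoped ENNReal

variable {V : Type*} [Fintype V] {B : ℕ}

/-- the set where `b k` is nearest and the distance is about `exp ρ` -/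
def U (b : Fin B → ℂ) (k : Fin B) (ρ : ℝ) : Set ℂ :=
  {x | Real.exp ρ ≤ ‖x - b k‖ ∧ ‖x - b k‖ < Real.exp (ρ + 1) ∧ ∀ l, ‖x - b k‖ ≤ ‖x - b l‖}

theorem measurableSet_U (b : Fin B → ℂ) (k : Fin B) (ρ : ℝ) : MeasurableSet (U b k ρ) := by
  have : U b k ρ = {x | Real.exp ρ ≤ ‖x - b k‖} ∩ ({x | ‖x - b k‖ < Real.exp (ρ + 1)} ∩
      ⋂ l, {x | ‖x - b k‖ ≤ ‖x - b l‖}) := by
    ext x; simp [U]
  rw [this]
  refine (measurableSet_le measurable_const (by fun_prop)).inter
    ((measurableSet_lt (by fun_prop) measurable_const).inter (MeasurableSet.iInter fun l => ?_))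
  exact measurableSet_le (by fun_prop) (by fun_prop)

theorem exists_nearest (hB : 0 < B) (b : Fin B → ℂ) (x : ℂ) : ∃ k, ∀ l, ‖x - b k‖ ≤ ‖x - b l‖ := by
  have : Nonempty (Fin B) := ⟨⟨0, hB⟩⟩
  exact Finite.exists_min (fun l => ‖x - b l‖)

theorem cover_U (hB : 0 < B) (b : Fin B → ℂ) :
    (univ : Set ℂ) ⊆ range b ∪ ⋃ k, ((⋃ n : ℕ, U b k (n : ℝ)) ∪ (⋃ n : ℕ, U b k (-(n : ℝ)))) := by
  intro x _
  by_cases hx : x ∈ range b
  · exact Or.inl hx
  right
  obtain ⟨k, hk⟩ := exists_nearest hB b x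
  have hpos : 0 < ‖x - b k‖ := norm_pos_iff.2 (sub_ne_zero.2 fun h => hx ⟨k, h.symm⟩)
  refine mem_iUnion.2 ⟨k, ?_⟩
  have h1 : Real.exp ((⌊Real.log ‖x - b k‖⌋ : ℤ) : ℝ) ≤ ‖x - b k‖ := by
    rw [← Real.le_log_iff_exp_le hpos]; exact Int.floor_le _
  have h2 : ‖x - b k‖ < Real.exp (((⌊Real.log ‖x - b k‖⌋ : ℤ) : ℝ) + 1) := by
    rw [← Real.log_lt_iff_lt_exp hpos]; exact Int.lt_floor_add_one _
  generalize ⌊Real.log ‖x - b k‖⌋ = j at h1 h2
  rcases Int.eq_nat_or_neg j with ⟨n, rfl | rfl⟩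
  · left
    refine mem_iUnion.2 ⟨n, ?_⟩
    push_cast at h1 h2
    exact ⟨h1, h2, hk⟩
  · right
    refine mem_iUnion.2 ⟨n, ?_⟩
    push_cast at h1 h2
    exact ⟨h1, h2, hk⟩

/-- splitting the integral -/
theorem lintegral_le_sum (hB : 0 < B) (b : Fin B → ℂ) (W : ℂ → ℝ≥0∞) :
    ∫⁻ x, W x ≤ ∑ k : Fin B, ((∑' n : ℕ, ∫⁻ x in U b k (n : ℝ), W x) +
      (∑' n : ℕ, ∫⁻ x in U b k (-(n : ℝ)), W x)) := by
  have h0 : volume (range b) = 0 := (finite_range b).measure_zero _
  calc ∫⁻ x, W x = ∫⁻ x in univ, W x := by rw [setLIntegral_univ]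
    _ ≤ ∫⁻ x in (range b ∪ ⋃ k, ((⋃ n : ℕ, U b k (n : ℝ)) ∪ (⋃ n : ℕ, U b k (-(n : ℝ))))), W x :=
        lintegral_mono_set (cover_U hB b)
    _ ≤ (∫⁻ x in range b, W x) +
        (∫⁻ x in ⋃ k, ((⋃ n : ℕ, U b k (n : ℝ)) ∪ (⋃ n : ℕ, U b k (-(n : ℝ)))), W x) :=
        lintegral_union_le _ _ _
    _ = ∫⁻ x in ⋃ k, ((⋃ n : ℕ, U b k (n : ℝ)) ∪ (⋃ n : ℕ, U b k (-(n : ℝ)))), W x := by
        rw [setLIntegral_measure_zero _ _ h0, zero_add]
    _ ≤ ∑' k, ∫⁻ x in ((⋃ n : ℕ, U b k (n : ℝ)) ∪ (⋃ n : ℕ, U b k (-(n : ℝ)))), W x :=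
        lintegral_iUnion_le _ _
    _ = ∑ k, ∫⁻ x in ((⋃ n : ℕ, U b k (n : ℝ)) ∪ (⋃ n : ℕ, U b k (-(n : ℝ)))), W x :=
        tsum_fintype _
    _ ≤ _ := by
        refine Finset.sum_le_sum fun k _ => ?_
        refine (lintegral_union_le _ _ _).trans ?_
        exact add_le_add (lintegral_iUnion_le _ _) (lintegral_iUnion_le _ _)

theorem abs_xi_le (b : Fin B → ℂ) (k : Fin B) (ρ : ℝ) (l : Fin B) :
    |xi b k ρ l| ≤ |ρ| + |Real.log ‖b k - b l‖| := by
  unfold xi
  split_ifs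
  · linarith [abs_nonneg (Real.log ‖b k - b l‖)]
  · refine (abs_max_le_max_abs_abs).trans ?_
    exact max_le (by linarith [abs_nonneg (Real.log ‖b k - b l‖)]) (by linarith [abs_nonneg ρ])

/-- one term -/
theorem term_bound {F : (V ⊕ Fin B → ℝ) → ℝ} {S : ℝ}
    (hS : ∀ ξ η : V ⊕ Fin B → ℝ, ∀ δ : ℝ, (∀ v, |ξ v - η v| ≤ δ) → |F ξ - F η| ≤ S * δ)
    (c : V → ℝ) {b : Fin B → ℂ} (hb : Function.Injective b) (k : Fin B) (ρ : ℝ) {κ : ℝ}
    (hκ : 0 ≤ κ) :
    ∫⁻ x in U b k ρ, ENNReal.ofReal (GG F c b x *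
        Real.exp (κ * (∑ v, |c v| + ∑ l, |Real.log ‖x - b l‖|))) ≤
      ENNReal.ofReal (Real.exp (fk F c b k ρ + (2 * S + 2 + Real.log Real.pi) +
        κ * (∑ w, |dat c b w| + B * |ρ| + 2 * B))) := by
  have h1 : ∀ x ∈ U b k ρ, ENNReal.ofReal (GG F c b x *
        Real.exp (κ * (∑ v, |c v| + ∑ l, |Real.log ‖x - b l‖|))) ≤
      ENNReal.ofReal (Real.exp (F (Sum.elim c (xi b k ρ)) + 2 * S +
        κ * (∑ w, |dat c b w| + B * |ρ| + 2 * B))) := by
    intro x hx
    refine ENNReal.ofReal_le_ofReal ?_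
    unfold GG
    rw [← Real.exp_add, Real.exp_le_exp]
    have hn := near_up hb hx.1 hx.2.1 hx.2.2
    have h2 := (abs_le.1 (GG_cmp hS c b k ρ x (by norm_num : (0 : ℝ) ≤ 2) hn)).2
    have h3 : ∑ l, |Real.log ‖x - b l‖| ≤ B * |ρ| + 2 * B + ∑ l, |Real.log ‖b k - b l‖| := by
      calc ∑ l, |Real.log ‖x - b l‖| ≤ ∑ l : Fin B, (|ρ| + 2 + |Real.log ‖b k - b l‖|) := by
            refine Finset.sum_le_sum fun l _ => ?_
            have e1 := hn l
            have e2 := abs_xi_le b k ρ l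
            have e3 : |Real.log ‖x - b l‖| ≤ |Real.log ‖x - b l‖ - xi b k ρ l| + |xi b k ρ l| := by
              have := abs_add_le (Real.log ‖x - b l‖ - xi b k ρ l) (xi b k ρ l)
              simpa using this
            linarith
        _ = _ := by
            rw [Finset.sum_add_distrib]
            simp; ring
    have h4 : ∑ v, |c v| + ∑ l, |Real.log ‖b k - b l‖| ≤ ∑ w, |dat c b w| := by
      rw [Fintype.sum_sum_type]
      simp only [dat, Sum.elim_inl, Sum.elim_inr]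
      rw [Fintype.sum_prod_type]
      have := Finset.single_le_sum (f := fun k => ∑ l, |Real.log ‖b k - b l‖|)
        (fun _ _ => Finset.sum_nonneg fun _ _ => abs_nonneg _) (Finset.mem_univ k)
      linarith
    have h5 : κ * (∑ v, |c v| + ∑ l, |Real.log ‖x - b l‖|) ≤
        κ * (∑ w, |dat c b w| + B * |ρ| + 2 * B) :=
      mul_le_mul_of_nonneg_left (by linarith) hκ
    linarith
  calc ∫⁻ x in U b k ρ, ENNReal.ofReal (GG F c b x *
        Real.exp (κ * (∑ v, |c v| + ∑ l, |Real.log ‖x - b l‖|)))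
      ≤ ∫⁻ x in U b k ρ, ENNReal.ofReal (Real.exp (F (Sum.elim c (xi b k ρ)) + 2 * S +
        κ * (∑ w, |dat c b w| + B * |ρ| + 2 * B))) :=
        setLIntegral_mono' (measurableSet_U b k ρ) h1
    _ = ENNReal.ofReal (Real.exp (F (Sum.elim c (xi b k ρ)) + 2 * S +
        κ * (∑ w, |dat c b w| + B * |ρ| + 2 * B))) * volume (U b k ρ) := setLIntegral_const _ _
    _ ≤ ENNReal.ofReal (Real.exp (F (Sum.elim c (xi b k ρ)) + 2 * S +
        κ * (∑ w, |dat c b w| + B * |ρ| + 2 * B))) * volume (ball (b k) (Real.exp (ρ + 1))) := by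
        gcongr
        intro x hx
        rw [mem_ball, dist_eq_norm]; exact hx.2.1
    _ = _ := by
        rw [volume_ball_exp, ← ENNReal.ofReal_mul (Real.exp_pos _).le]
        congr 1
        have : Real.pi = Real.exp (Real.log Real.pi) := (Real.exp_log Real.pi_pos).symm
        rw [this, ← Real.exp_add, ← Real.exp_add, Real.log_exp]
        congr 1
        unfold fk
        ring

/-- the sum over one direction -/
theorem dir_bound {F : (V ⊕ Fin B → ℝ) → ℝ} {S : ℝ}
    (hS : ∀ ξ η : V ⊕ Fin B → ℝ, ∀ δ : ℝ, (∀ v, |ξ v - η v| ≤ δ) → |F ξ - F η| ≤ S * δ)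
    (c : V → ℝ) {b : Fin B → ℂ} (hb : Function.Injective b) (k : Fin B) {D : ℕ} (hD : 0 < D)
    {CR N : ℝ} (hCR : 0 ≤ CR)
    (hN : ∀ ρ, fk F c b k ρ ≤ N - max (|ρ| - CR * ∑ w, |dat c b w|) 0 / D)
    {κ : ℝ} (hκ : 0 ≤ κ) (hκ' : κ * B ≤ 1 / (2 * D)) (r : ℕ → ℝ) (hr : ∀ n, |r n| = n) :
    ∑' n : ℕ, ∫⁻ x in U b k (r n), ENNReal.ofReal (GG F c b x *
        Real.exp (κ * (∑ v, |c v| + ∑ l, |Real.log ‖x - b l‖|))) ≤
      ENNReal.ofReal (Real.exp (N + (2 * S + 2 + Real.log Real.pi) +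
        κ * ((1 + B * CR) * ∑ w, |dat c b w| + 2 * B)) *
        (CR * ∑ w, |dat c b w| + 1 + 1 / (1 - Real.exp (-(1 / (2 * D)))))) := by
  set H := ∑ w, |dat c b w| with hH
  have hH0 : 0 ≤ H := Finset.sum_nonneg fun _ _ => abs_nonneg _
  have hD' : (0 : ℝ) < D := by exact_mod_cast hD
  have h1 : ∀ n : ℕ, ∫⁻ x in U b k (r n), ENNReal.ofReal (GG F c b x *
        Real.exp (κ * (∑ v, |c v| + ∑ l, |Real.log ‖x - b l‖|))) ≤
      ENNReal.ofReal (Real.exp (N + (2 * S + 2 + Real.log Real.pi) +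
        κ * ((1 + B * CR) * H + 2 * B))) *
      ENNReal.ofReal (Real.exp (-((1 / (2 * D)) * max ((n : ℝ) - CR * H) 0))) := by
    intro n
    refine (term_bound hS c hb k (r n) hκ).trans ?_
    rw [← ENNReal.ofReal_mul (Real.exp_pos _).le, ← Real.exp_add]
    refine ENNReal.ofReal_le_ofReal (Real.exp_le_exp.2 ?_)
    have h2 := hN (r n)
    rw [hr n] at h2 ⊢
    set m := max ((n : ℝ) - CR * H) 0 with hm
    have hm0 : 0 ≤ m := le_max_right _ _
    have hm1 : (n : ℝ) ≤ CR * H + m := by linarith [le_max_left ((n : ℝ) - CR * H) 0]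
    have h3 : κ * (B * (n : ℝ)) ≤ κ * (B * (CR * H)) + 1 / (2 * D) * m := by
      have e1 : κ * (B * (n : ℝ)) ≤ κ * (B * (CR * H + m)) := by
        refine mul_le_mul_of_nonneg_left (mul_le_mul_of_nonneg_left hm1 (by positivity)) hκ
      have e2 : κ * B * m ≤ 1 / (2 * D) * m := mul_le_mul_of_nonneg_right hκ' hm0
      nlinarith
    have h4 : m / D = 1 / (2 * D) * m + 1 / (2 * D) * m := by
      field_simp; ring
    rw [h4] at h2
    have e3 : κ * (H + B * (n : ℝ) + 2 * B) = κ * H + κ * (B * (n : ℝ)) + κ * (2 * B) := by ring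
    have e4 : κ * ((1 + B * CR) * H + 2 * B) = κ * H + κ * (B * (CR * H)) + κ * (2 * B) := by ring
    rw [e3, e4]
    linarith
  refine (ENNReal.tsum_le_tsum h1).trans ?_
  rw [ENNReal.tsum_mul_left, ENNReal.ofReal_mul (Real.exp_pos _).le]
  gcongr
  exact geom_sum (by positivity) (mul_nonneg hCR hH0)

/-- TROP-OV -/
theorem ov (hB : 0 < B) {F : (V ⊕ Fin B → ℝ) → ℝ} (hF : PL F) {ε : ℝ} (hε : 0 < ε) :
    ∃ (M : (V ⊕ (Fin B × Fin B) → ℝ) → ℝ) (C κ₀ : ℝ), PL M ∧ 0 < C ∧ 0 < κ₀ ∧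
      ∀ (c : V → ℝ) (b : Fin B → ℂ), Function.Injective b →
        ∫⁻ x, ENNReal.ofReal (GG F c b x) ≠ ∞ →
        (ENNReal.ofReal (Real.exp (M (dat c b))) ≤
          ENNReal.ofReal C * ∫⁻ x, ENNReal.ofReal (GG F c b x)) ∧
        (∀ κ, 0 ≤ κ → κ ≤ κ₀ →
          ∫⁻ x, ENNReal.ofReal (GG F c b x *
            Real.exp (κ * (∑ v, |c v| + ∑ l, |Real.log ‖x - b l‖|))) ≤
          ENNReal.ofReal (C * Real.exp (M (dat c b)) * (1 + ∑ w, |dat c b w|) *
            Real.exp (C * κ * (1 + ∑ w, |dat c b w|)))) ∧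
        ∃ Z : Set ℂ, MeasurableSet Z ∧
          ∫⁻ x in Z, ENNReal.ofReal (GG F c b x) ≤ ENNReal.ofReal (C * Real.exp (M (dat c b))) ∧
          ∀ x, x ∉ Z → ∃ k, x ≠ b k ∧ GG F c b x * ‖x - b k‖ ^ 2 ≤ C * Real.exp (M (dat c b)) ∧
            ∀ l, ‖b k - b l‖ ≤ ε * ‖x - b k‖ ∨ ‖x - b k‖ ≤ ε * ‖b k - b l‖ := by
  obtain ⟨M, D, CR, hM, hD, hCR, hM'⟩ := exists_M hB hF
  obtain ⟨S, hS0, hS⟩ := hF.lip
  have hD' : (0 : ℝ) < D := by exact_mod_cast hD
  have hlt : Real.exp (-(1 / (2 * (D : ℝ)))) < 1 := by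
    rw [Real.exp_lt_one_iff]
    have : (0 : ℝ) < 1 / (2 * D) := by positivity
    linarith
  set g := 1 / (1 - Real.exp (-(1 / (2 * (D : ℝ))))) with hg
  have hg0 : 0 < g := by
    rw [hg]; exact one_div_pos.2 (by linarith)
  set A0 := 2 * S + 2 + Real.log Real.pi with hA0
  set C1 := Real.exp (S * (3 + Real.log (B + 1))) with hC1
  have hBpos : (0 : ℝ) < B := by exact_mod_cast hB
  set κ₀ : ℝ := 1 / (2 * D * B) with hκ₀
  set C2 := 2 * B * Real.exp A0 * Real.exp (κ₀ * (2 * B)) * (CR + 1 + g) with hC2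
  set K := max 0 (-Real.log ε) with hK
  set C3 := B * B * (Real.exp (2 * S) * Real.exp (4 * K + 2) * Real.pi) with hC3
  have hCR1 : 0 ≤ B * CR := by positivity
  have hC2pos : 0 < C2 := by positivity
  have hC3pos : 0 < C3 := by positivity
  have hC1pos : 0 < C1 := Real.exp_pos _
  refine ⟨M, C1 + C2 + (1 + B * CR) + C3 + Real.exp (2 * S), κ₀, hM, ?_, by positivity, ?_⟩
  · have := Real.exp_pos (2 * S)
    linarith
  intro c b hb hfin
  obtain ⟨⟨k₀, ρ₀, hk₀⟩, hbd⟩ := hM' c b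
  set N := M (dat c b) with hN
  set H := ∑ w, |dat c b w| with hH
  have hH0 : 0 ≤ H := Finset.sum_nonneg fun _ _ => abs_nonneg _
  have hES : 0 < Real.exp (2 * S) := Real.exp_pos _
  have hbd' : ∀ k ρ, fk F c b k ρ ≤ N - max (|ρ| - CR * H) 0 / D := fun k =>
    hbd k (tendsto_both hF c hb k hfin).1 (tendsto_both hF c hb k hfin).2
  have hbd0 : ∀ k ρ, fk F c b k ρ ≤ N := by
    intro k ρ
    have h1 := hbd' k ρ
    have h2 : 0 ≤ max (|ρ| - CR * H) 0 / D := div_nonneg (le_max_right _ _) hD'.le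
    linarith
  refine ⟨?_, ?_, ?_⟩
  · rw [hk₀]
    refine (low_bound hS c hb k₀ ρ₀).trans ?_
    refine mul_le_mul' (ENNReal.ofReal_le_ofReal ?_) ?_
    · rw [← hC1]; linarith
    · exact lintegral_mono_set (subset_univ _) |>.trans (by rw [setLIntegral_univ])
  · intro κ hκ hκ'
    have hκB : κ * B ≤ 1 / (2 * D) := by
      calc κ * B ≤ κ₀ * B := mul_le_mul_of_nonneg_right hκ' hBpos.le
        _ = 1 / (2 * D) := by rw [hκ₀]; field_simp
    refine (lintegral_le_sum hB b _).trans ?_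
    have hd1 : ∀ k, ∑' n : ℕ, ∫⁻ x in U b k (n : ℝ), ENNReal.ofReal (GG F c b x *
        Real.exp (κ * (∑ v, |c v| + ∑ l, |Real.log ‖x - b l‖|))) ≤ _ := fun k =>
      dir_bound hS c hb k hD hCR (hbd' k) hκ hκB (fun n => (n : ℝ)) (fun n => by simp)
    have hd2 : ∀ k, ∑' n : ℕ, ∫⁻ x in U b k (-(n : ℝ)), ENNReal.ofReal (GG F c b x *
        Real.exp (κ * (∑ v, |c v| + ∑ l, |Real.log ‖x - b l‖|))) ≤ _ := fun k =>
      dir_bound hS c hb k hD hCR (hbd' k) hκ hκB (fun n => -(n : ℝ)) (fun n => by simp)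
    refine (Finset.sum_le_sum fun k _ => add_le_add (hd1 k) (hd2 k)).trans ?_
    rw [Finset.sum_const, Finset.card_univ, Fintype.card_fin, nsmul_eq_mul, ← hH, ← hg, ← hA0]
    have hpos : 0 ≤ Real.exp (N + A0 + κ * ((1 + B * CR) * H + 2 * B)) * (CR * H + 1 + g) := by
      positivity
    rw [← ENNReal.ofReal_add hpos hpos, ← ENNReal.ofReal_natCast, ← ENNReal.ofReal_mul hBpos.le]
    refine ENNReal.ofReal_le_ofReal ?_
    have e1 : Real.exp (N + A0 + κ * ((1 + B * CR) * H + 2 * B)) =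
        Real.exp N * Real.exp A0 * (Real.exp (κ * ((1 + B * CR) * H)) * Real.exp (κ * (2 * B))) := by
      rw [← Real.exp_add, ← Real.exp_add, ← Real.exp_add]; ring_nf
    rw [e1]
    have e2 : Real.exp (κ * (2 * B)) ≤ Real.exp (κ₀ * (2 * B)) :=
      Real.exp_le_exp.2 (mul_le_mul_of_nonneg_right hκ' (by positivity))
    set CC := C1 + C2 + (1 + B * CR) + C3 + Real.exp (2 * S) with hCC
    have hCC1 : (1 + B * CR) ≤ CC := by rw [hCC]; linarith
    have hCC2 : C2 ≤ CC := by rw [hCC]; linarith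
    have e3 : Real.exp (κ * ((1 + B * CR) * H)) ≤ Real.exp (CC * κ * (1 + H)) := by
      refine Real.exp_le_exp.2 ?_
      have : (1 + B * CR) * H ≤ CC * (1 + H) := by
        calc (1 + B * CR) * H ≤ CC * H := mul_le_mul_of_nonneg_right hCC1 hH0
          _ ≤ CC * (1 + H) := mul_le_mul_of_nonneg_left (by linarith) (by linarith)
      calc κ * ((1 + B * CR) * H) ≤ κ * (CC * (1 + H)) := mul_le_mul_of_nonneg_left this hκ
        _ = CC * κ * (1 + H) := by ring
    have e4 : CR * H + 1 + g ≤ (CR + 1 + g) * (1 + H) := by nlinarith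
    calc (B : ℝ) * (Real.exp N * Real.exp A0 * (Real.exp (κ * ((1 + B * CR) * H)) *
            Real.exp (κ * (2 * B))) * (CR * H + 1 + g) + Real.exp N * Real.exp A0 *
            (Real.exp (κ * ((1 + B * CR) * H)) * Real.exp (κ * (2 * B))) * (CR * H + 1 + g))
        = 2 * B * Real.exp A0 * Real.exp N * (Real.exp (κ * (2 * B)) * (CR * H + 1 + g)) *
            Real.exp (κ * ((1 + B * CR) * H)) := by ring
      _ ≤ 2 * B * Real.exp A0 * Real.exp N * (Real.exp (κ₀ * (2 * B)) * ((CR + 1 + g) * (1 + H))) *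
            Real.exp (CC * κ * (1 + H)) := by
          gcongr
      _ = C2 * Real.exp N * (1 + H) * Real.exp (CC * κ * (1 + H)) := by rw [hC2]; ring
      _ ≤ CC * Real.exp N * (1 + H) * Real.exp (CC * κ * (1 + H)) := by gcongr
  · -- the set `Z`
    let Zkl : Fin B → Fin B → Set ℂ := fun k l =>
      {x | (∀ j, ‖x - b k‖ ≤ ‖x - b j‖) ∧ 0 < ‖x - b k‖ ∧ l ≠ k ∧
        |Real.log ‖x - b k‖ - Real.log ‖b k - b l‖| ≤ K}
    have hZm : ∀ k l, MeasurableSet (Zkl k l) := by
      intro k l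
      have : Zkl k l = (⋂ j, {x | ‖x - b k‖ ≤ ‖x - b j‖}) ∩ ({x | 0 < ‖x - b k‖} ∩
          ({x | l ≠ k} ∩ {x | |Real.log ‖x - b k‖ - Real.log ‖b k - b l‖| ≤ K})) := by
        ext x; simp [Zkl]
      rw [this]
      refine (MeasurableSet.iInter fun j => measurableSet_le (by fun_prop) (by fun_prop)).inter
        ((measurableSet_lt measurable_const (by fun_prop)).inter
          ((MeasurableSet.const _).inter (measurableSet_le ?_ measurable_const)))
      have : Measurable fun x : ℂ => Real.log ‖x - b k‖ := Real.measurable_log.comp (by fun_prop)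
      exact (this.sub_const _).abs
    -- pointwise bound
    have hpt : ∀ k x, (∀ j, ‖x - b k‖ ≤ ‖x - b j‖) → 0 < ‖x - b k‖ →
        GG F c b x * ‖x - b k‖ ^ 2 ≤ Real.exp (2 * S) * Real.exp N := by
      intro k x h1 h2
      have h3 : Real.exp (Real.log ‖x - b k‖) ≤ ‖x - b k‖ := (Real.exp_log h2).le
      have h4 : ‖x - b k‖ < Real.exp (Real.log ‖x - b k‖ + 1) := by
        rw [Real.exp_add, Real.exp_log h2]
        have := Real.add_one_le_exp (1 : ℝ)
        nlinarith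
      have h5 := (abs_le.1 (GG_cmp hS c b k _ x (by norm_num : (0 : ℝ) ≤ 2) (near_up hb h3 h4 h1))).2
      have h6 := hbd0 k (Real.log ‖x - b k‖)
      have h7 : ‖x - b k‖ ^ 2 = Real.exp (2 * Real.log ‖x - b k‖) := by
        have := Real.exp_nat_mul (Real.log ‖x - b k‖) 2
        rw [Real.exp_log h2] at this
        rw [← this]; norm_num
      unfold GG
      rw [h7, ← Real.exp_add, ← Real.exp_add, Real.exp_le_exp]
      unfold fk at h6
      linarith
    refine ⟨range b ∪ ⋃ k, ⋃ l, Zkl k l, ?_, ?_, ?_⟩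
    · exact (finite_range b).measurableSet.union
        (MeasurableSet.iUnion fun k => MeasurableSet.iUnion fun l => hZm k l)
    · have h0 : volume (range b) = 0 := (finite_range b).measure_zero _
      refine (lintegral_union_le _ _ _).trans ?_
      rw [setLIntegral_measure_zero _ _ h0, zero_add]
      refine (lintegral_iUnion_le _ _).trans ?_
      rw [tsum_fintype]
      have hkl : ∀ k l, ∫⁻ x in Zkl k l, ENNReal.ofReal (GG F c b x) ≤
          ENNReal.ofReal (Real.exp (2 * S) * Real.exp (4 * K + 2) * Real.pi * Real.exp N) := by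
        intro k l
        set lam := Real.log ‖b k - b l‖ with hlam
        have h1 : ∀ x ∈ Zkl k l, ENNReal.ofReal (GG F c b x) ≤
            ENNReal.ofReal (Real.exp (2 * S) * Real.exp N * Real.exp (-(2 * (lam - K)))) := by
          intro x hx
          obtain ⟨x1, x2, x3, x4⟩ := hx
          refine ENNReal.ofReal_le_ofReal ?_
          have h2 := hpt k x x1 x2
          have h3 : lam - K ≤ Real.log ‖x - b k‖ := by linarith [(abs_le.1 x4).1]
          have h4 : Real.exp (2 * (lam - K)) ≤ ‖x - b k‖ ^ 2 := by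
            have : Real.exp (lam - K) ≤ ‖x - b k‖ := (Real.le_log_iff_exp_le x2).1 h3
            calc Real.exp (2 * (lam - K)) = Real.exp (lam - K) ^ 2 := by
                  rw [← Real.exp_nat_mul]; norm_num
              _ ≤ ‖x - b k‖ ^ 2 := by gcongr
          have h5 : 0 < GG F c b x := Real.exp_pos _
          rw [Real.exp_neg, ← div_eq_mul_inv, le_div_iff₀ (Real.exp_pos _)]
          exact (mul_le_mul_of_nonneg_left h4 h5.le).trans h2
        calc ∫⁻ x in Zkl k l, ENNReal.ofReal (GG F c b x)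
            ≤ ∫⁻ x in Zkl k l, ENNReal.ofReal (Real.exp (2 * S) * Real.exp N *
                Real.exp (-(2 * (lam - K)))) := setLIntegral_mono' (hZm k l) h1
          _ = ENNReal.ofReal (Real.exp (2 * S) * Real.exp N * Real.exp (-(2 * (lam - K)))) *
                volume (Zkl k l) := setLIntegral_const _ _
          _ ≤ ENNReal.ofReal (Real.exp (2 * S) * Real.exp N * Real.exp (-(2 * (lam - K)))) *
                volume (ball (b k) (Real.exp (lam + K + 1))) := by
              gcongr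
              intro x hx
              obtain ⟨x1, x2, x3, x4⟩ := hx
              rw [mem_ball, dist_eq_norm]
              have h3 : Real.log ‖x - b k‖ < lam + K + 1 := by linarith [(abs_le.1 x4).2]
              exact (Real.log_lt_iff_lt_exp x2).1 h3
          _ = ENNReal.ofReal (Real.exp (2 * S) * Real.exp (4 * K + 2) * Real.pi * Real.exp N) := by
              rw [volume_ball_exp, ← ENNReal.ofReal_mul (by positivity)]
              congr 1
              have : Real.exp (4 * K + 2) =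
                  Real.exp (-(2 * (lam - K))) * Real.exp (2 * (lam + K + 1)) := by
                rw [← Real.exp_add]; ring_nf
              rw [this]; ring
      have hsum : ∀ k, ∫⁻ x in ⋃ l, Zkl k l, ENNReal.ofReal (GG F c b x) ≤
          ENNReal.ofReal (B * (Real.exp (2 * S) * Real.exp (4 * K + 2) * Real.pi * Real.exp N)) := by
        intro k
        refine (lintegral_iUnion_le _ _).trans ?_
        rw [tsum_fintype]
        refine (Finset.sum_le_sum fun l _ => hkl k l).trans ?_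
        rw [Finset.sum_const, Finset.card_univ, Fintype.card_fin, nsmul_eq_mul,
          ← ENNReal.ofReal_natCast, ← ENNReal.ofReal_mul hBpos.le]
      refine (Finset.sum_le_sum fun k _ => hsum k).trans ?_
      rw [Finset.sum_const, Finset.card_univ, Fintype.card_fin, nsmul_eq_mul,
        ← ENNReal.ofReal_natCast, ← ENNReal.ofReal_mul hBpos.le]
      refine ENNReal.ofReal_le_ofReal ?_
      have : (B : ℝ) * (B * (Real.exp (2 * S) * Real.exp (4 * K + 2) * Real.pi * Real.exp N)) =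
          C3 * Real.exp N := by rw [hC3]; ring
      rw [this]
      exact mul_le_mul_of_nonneg_right (by linarith) (Real.exp_pos _).le
    · intro x hx
      simp only [mem_union, mem_iUnion, not_or, not_exists] at hx
      obtain ⟨hx1, hx2⟩ := hx
      obtain ⟨k, hk⟩ := exists_nearest hB b x
      have hne : x ≠ b k := fun h => hx1 ⟨k, h.symm⟩
      have hpos : 0 < ‖x - b k‖ := norm_pos_iff.2 (sub_ne_zero.2 hne)
      refine ⟨k, hne, (hpt k x hk hpos).trans ?_, ?_⟩
      · exact mul_le_mul_of_nonneg_right (by linarith) (Real.exp_pos _).le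
      · intro l
        by_cases hl : l = k
        · left; subst hl; simp only [sub_self, norm_zero]; positivity
        · have h1 : ¬ |Real.log ‖x - b k‖ - Real.log ‖b k - b l‖| ≤ K :=
            fun h => hx2 k l ⟨hk, hpos, hl, h⟩
          push Not at h1
          have hkl : 0 < ‖b k - b l‖ := norm_pos_iff.2 (sub_ne_zero.2 fun h => hl (hb h).symm)
          have hKε : -Real.log ε ≤ K := le_max_right _ _
          rcases lt_abs.1 h1 with h2 | h2
          · left
            have h3 : Real.log ‖b k - b l‖ ≤ Real.log (ε * ‖x - b k‖) := by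
              rw [Real.log_mul hε.ne' hpos.ne']; linarith
            exact (Real.log_le_log_iff hkl (by positivity)).1 h3
          · right
            have h3 : Real.log ‖x - b k‖ ≤ Real.log (ε * ‖b k - b l‖) := by
              rw [Real.log_mul hε.ne' hkl.ne']; linarith
            exact (Real.log_le_log_iff hpos (by positivity)).1 h3

end Crest.Agent.R281.TrOV_726
end

-- ▼ part R281/TrPr1_726
section

/-!
# Row 281, TROP-PROJ part 1 (helper726)
Logarithmic derivative of a split polynomial under the separation condition.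
-/

namespace Crest.Agent.R281.TrPr_726

open Polynomial

/-- logarithmic derivative of `c ∏ (x - b k)^(e k)` -/
theorem logder {B : ℕ} (P : ℂ[X]) (c : ℂ) (hc : c ≠ 0) (b : Fin B → ℂ) (e : Fin B → ℕ)
    (hP : ∀ x, P.eval x = c * ∏ k, (x - b k) ^ e k) {x : ℂ} (hx : ∀ k, x ≠ b k) :
    (derivative P).eval x / P.eval x = ∑ k, (e k : ℂ) / (x - b k) := by
  have h1 : (derivative P).eval x = deriv (fun x => P.eval x) x := (Polynomial.deriv P).symm
  have h2 : (fun x => P.eval x) = fun x => c * ∏ k, (x - b k) ^ e k := funext hP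
  have h3 : (derivative P).eval x / P.eval x = logDeriv (fun x => c * ∏ k, (x - b k) ^ e k) x := by
    rw [logDeriv_apply, h1, h2, hP]
  rw [h3, logDeriv_const_mul _ _ hc]
  have h4 : (fun x : ℂ => ∏ k, (x - b k) ^ e k) = fun x => ∏ k, (fun k (x : ℂ) => (x - b k) ^ e k) k x := rfl
  rw [h4, logDeriv_prod]
  · refine Finset.sum_congr rfl fun k _ => ?_
    have : (fun x : ℂ => (x - b k) ^ e k) = fun x => (fun x : ℂ => x - b k) x ^ e k := rfl
    rw [this, logDeriv_fun_pow (by fun_prop)]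
    rw [logDeriv_apply]
    simp only [deriv_sub_const, deriv_id'']
    ring
  · intro k _
    exact pow_ne_zero _ (sub_ne_zero.2 (hx k))
  · intro k _
    fun_prop

/-- lower bound of the logarithmic derivative under separation -/
theorem logder_lower {B : ℕ} (b : Fin B → ℂ) (e : Fin B → ℕ) {k₀ : Fin B} (he : 0 < e k₀)
    {ε : ℝ} (hε : 0 < ε) (hε1 : 4 * ε * (1 + ∑ k, (e k : ℝ)) ≤ 1) {x : ℂ} (hx : ∀ k, x ≠ b k)
    (hsep : ∀ l, ‖b k₀ - b l‖ ≤ ε * ‖x - b k₀‖ ∨ ‖x - b k₀‖ ≤ ε * ‖b k₀ - b l‖) :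
    1 ≤ 2 * ‖x - b k₀‖ * ‖∑ k, (e k : ℂ) / (x - b k)‖ := by
  set r := ‖x - b k₀‖ with hr
  have hr0 : 0 < r := norm_pos_iff.2 (sub_ne_zero.2 (hx k₀))
  have hE : 0 ≤ ∑ k, (e k : ℝ) := Finset.sum_nonneg fun _ _ => Nat.cast_nonneg _
  have hε4 : ε ≤ 1 / 4 := by nlinarith
  have hterm : ∀ l, l ≠ k₀ → -(2 * ε) ≤ ((x - b k₀) / (x - b l)).re := by
    intro l _
    have hl0 : 0 < ‖x - b l‖ := norm_pos_iff.2 (sub_ne_zero.2 (hx l))
    have hl1 : x - b l ≠ 0 := sub_ne_zero.2 (hx l)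
    rcases hsep l with h | h
    · have h1 : r / 2 ≤ ‖x - b l‖ := by
        have : x - b k₀ = (x - b l) - (b k₀ - b l) := by ring
        have h2 : r ≤ ‖x - b l‖ + ‖b k₀ - b l‖ := by
          rw [hr, this]; exact norm_sub_le _ _
        nlinarith
      have h3 : (x - b k₀) / (x - b l) = 1 + -((b k₀ - b l) / (x - b l)) := by
        field_simp; ring
      have h4 : ‖(b k₀ - b l) / (x - b l)‖ ≤ 2 * ε := by
        rw [norm_div, div_le_iff₀ hl0]
        nlinarith
      rw [h3]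
      simp only [Complex.add_re, Complex.one_re, Complex.neg_re]
      have h5 := Complex.abs_re_le_norm ((b k₀ - b l) / (x - b l))
      have h6 := (abs_le.1 h5).2
      linarith
    · have h1 : r / (2 * ε) ≤ ‖x - b l‖ := by
        have h2 : ‖b k₀ - b l‖ ≤ r + ‖x - b l‖ := by
          have : b k₀ - b l = -(x - b k₀) + (x - b l) := by ring
          rw [this]
          refine (norm_add_le _ _).trans ?_
          rw [norm_neg]
        rw [div_le_iff₀ (by positivity)]
        nlinarith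
      have h4 : ‖(x - b k₀) / (x - b l)‖ ≤ 2 * ε := by
        rw [norm_div, div_le_iff₀ hl0, ← hr]
        rw [div_le_iff₀ (by positivity)] at h1
        linarith
      have h5 := Complex.abs_re_le_norm ((x - b k₀) / (x - b l))
      have h6 := (abs_le.1 h5).1
      linarith
  have hsum : (1 : ℝ) / 2 ≤ ((x - b k₀) * ∑ k, (e k : ℂ) / (x - b k)).re := by
    rw [Finset.mul_sum, Complex.re_sum]
    have h1 : ∀ k, ((x - b k₀) * ((e k : ℂ) / (x - b k))).re = (e k : ℝ) * ((x - b k₀) / (x - b k)).re := by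
      intro k
      have : (x - b k₀) * ((e k : ℂ) / (x - b k)) = ((e k : ℝ) : ℂ) * ((x - b k₀) / (x - b k)) := by
        push_cast; ring
      rw [this, Complex.re_ofReal_mul]
    simp_rw [h1]
    have h2 : ∀ k, (if k = k₀ then (1 : ℝ) else 0) - 2 * ε * (e k : ℝ) ≤
        (e k : ℝ) * ((x - b k₀) / (x - b k)).re := by
      intro k
      split_ifs with hk
      · subst hk
        have h0 : x - b k ≠ 0 := sub_ne_zero.2 (hx k)
        rw [div_self h0]
        simp only [Complex.one_re, mul_one]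
        have : (1 : ℝ) ≤ e k := by exact_mod_cast he
        nlinarith
      · have h3 := hterm k hk
        have h4 : (0 : ℝ) ≤ e k := Nat.cast_nonneg _
        nlinarith
    have h3 := Finset.sum_le_sum (fun k (_ : k ∈ Finset.univ) => h2 k)
    rw [Finset.sum_sub_distrib, Finset.sum_ite_eq' Finset.univ k₀, if_pos (Finset.mem_univ _),
      ← Finset.mul_sum] at h3
    nlinarith
  have h7 : ((x - b k₀) * ∑ k, (e k : ℂ) / (x - b k)).re ≤ ‖x - b k₀‖ * ‖∑ k, (e k : ℂ) / (x - b k)‖ := by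
    rw [← norm_mul]; exact (Complex.abs_re_le_norm _ |> (abs_le.1 · |>.2))
  linarith

end Crest.Agent.R281.TrPr_726
end

-- ▼ part R281/TrPr2_726
section

/-!
# Row 281, TROP-PROJ (helper726): one-variable projection, from TROP-OV (726) and TROP-C (282)
-/

namespace Crest.Agent.R281.TrPr_726

open Crest.Agent.R281.TrPL_726 Crest.Agent.R281.TrC_282 Crest.Agent.R281.TrOV_726
open MeasureTheory Set Filter Topology Polynomial
open scoped ENNReal

/-- the point `(φ, x)` -/
noncomputable def ptX {A : Type*} [CommRing A] (φ : A →+* ℂ) (x : ℂ) : A[X] →+* ℂ :=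
  Polynomial.eval₂RingHom φ x

/-- the set of statements about one `φ` -/
def Good {A : Type*} [CommRing A] (G : (A[X] →+* ℂ) → ℝ) {k : ℕ} (w : Fin k → A[X])
    (M : (A →+* ℂ) → ℝ) (P : A[X]) {j : ℕ} (Q : Fin j → A) (κ₀ C : ℝ) (φ : A →+* ℂ) : Prop :=
  ENNReal.ofReal (M φ) ≤ ENNReal.ofReal C * ∫⁻ x, ENNReal.ofReal (G (ptX φ x)) ∧
  (∀ κ, 0 ≤ κ → κ ≤ κ₀ →
    ∫⁻ x, ENNReal.ofReal (G (ptX φ x) * Real.exp (κ * (∑ i, |Real.log ‖ptX φ x (w i)‖| +
      |Real.log ‖ptX φ x P‖|))) ≤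
      ENNReal.ofReal (C * M φ * (1 + ∑ i, |Real.log ‖φ (Q i)‖|) *
        Real.exp (C * κ * (1 + ∑ i, |Real.log ‖φ (Q i)‖|)))) ∧
  ∫⁻ x in {x | C * M φ * ‖ptX φ x (derivative P) / ptX φ x P‖ ^ 2 < G (ptX φ x)},
    ENNReal.ofReal (G (ptX φ x)) ≤ ENNReal.ofReal (C * M φ)

section
variable {A : Type*} [CommRing A]

theorem log_fac {B : ℕ} {c : ℂ} (hc : c ≠ 0) {b : Fin B → ℂ} {e : Fin B → ℕ} {x : ℂ}
    (hx : ∀ k, x ≠ b k) :
    Real.log ‖c * ∏ k, (x - b k) ^ e k‖ = Real.log ‖c‖ + ∑ k, (e k : ℝ) * Real.log ‖x - b k‖ := by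
  have h1 : ∀ k, ‖x - b k‖ ≠ 0 := fun k => norm_ne_zero_iff.2 (sub_ne_zero.2 (hx k))
  rw [norm_mul, Real.log_mul (norm_ne_zero_iff.2 hc)]
  · congr 1
    rw [norm_prod, Real.log_prod]
    · refine Finset.sum_congr rfl fun k _ => ?_
      rw [norm_pow, Real.log_pow]
    · intro k _
      rw [norm_pow]; exact pow_ne_zero _ (h1 k)
  · rw [norm_prod]
    refine Finset.prod_ne_zero_iff.2 fun k _ => ?_
    rw [norm_pow]; exact pow_ne_zero _ (h1 k)

/-- the PL function of the presentation -/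
noncomputable def FF {n N B : ℕ} (F₀ : (Fin n → ℝ) → ℝ) (ι : Fin n → Fin N) (e : Fin N → Fin B → ℕ)
    (ξ : Fin N ⊕ Fin B → ℝ) : ℝ :=
  F₀ (fun i => ξ (Sum.inl (ι i)) + ∑ k, (e (ι i) k : ℝ) * ξ (Sum.inr k))

theorem FF_PL {n N B : ℕ} {F₀ : (Fin n → ℝ) → ℝ} (hF : PL F₀) (ι : Fin n → Fin N)
    (e : Fin N → Fin B → ℕ) : PL (FF F₀ ι e) := by
  unfold FF
  refine hF.comp fun i => ?_
  refine (PL.coord (V := Fin N ⊕ Fin B) (Sum.inl (ι i))).add (PL.sum _ fun k _ => ?_)
  have := (PL.coord (V := Fin N ⊕ Fin B) (Sum.inr k)).smul (e (ι i) k : ℚ)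
  simpa using this

theorem main [IsDomain A] [CharZero A] {G : (A[X] →+* ℂ) → ℝ} (hG : Tr A[X] G) {k : ℕ}
    (w : Fin k → A[X]) (hw : ∀ i, w i ≠ 0) :
    ∃ (M : (A →+* ℂ) → ℝ) (q1 : A) (P : A[X]) (j : ℕ) (Q : Fin j → A) (κ₀ C : ℝ),
      Tr A M ∧ q1 ≠ 0 ∧ P ≠ 0 ∧ (∀ i, Q i ≠ 0) ∧ 0 < κ₀ ∧ 0 < C ∧
      ∀ φ : A →+* ℂ, φ q1 ≠ 0 → ∫⁻ x, ENNReal.ofReal (G (ptX φ x)) ≠ ∞ → Good G w M P Q κ₀ C φ := by
  classical
  obtain ⟨n, q, F₀, hq, hF₀, hGe⟩ := hG
  let fam : Fin (n + (k + 1)) → A[X] := Fin.append q (Fin.snoc (α := fun _ => A[X]) w X)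
  have hfam : ∀ v, fam v ≠ 0 := by
    intro v
    refine Fin.addCases (fun i => ?_) (fun i => ?_) v
    · simpa [fam] using hq i
    · refine Fin.lastCases ?_ (fun i => ?_) i
      · show Fin.append q (Fin.snoc (α := fun _ => A[X]) w X) (Fin.natAdd n (Fin.last k)) ≠ 0
        rw [Fin.append_right, Fin.snoc_last]
        exact X_ne_zero
      · simpa [fam] using hw i
  obtain ⟨D⟩ := exists_rootData fam hfam
  by_cases hBz : D.B = 0
  · -- no good point at all
    refine ⟨fun _ => 1, D.q0, 1, 0, fun i => i.elim0, 1, 1, Tr.one, D.hq0, one_ne_zero,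
      fun i => i.elim0, one_pos, one_pos, fun φ hφ _ => ?_⟩
    exfalso
    obtain ⟨b, hb⟩ := D.ne φ hφ
    have hX := D.fac φ hφ b hb (Fin.natAdd n (Fin.last k))
    have hfX : fam (Fin.natAdd n (Fin.last k)) = X := by
      show Fin.append q (Fin.snoc (α := fun _ => A[X]) w X) (Fin.natAdd n (Fin.last k)) = X
      rw [Fin.append_right, Fin.snoc_last]
    have hprod : ∀ x : ℂ, ∏ k', (x - b k') ^ D.e (Fin.natAdd n (Fin.last k)) k' = 1 := by
      intro x
      have : IsEmpty (Fin D.B) := by rw [hBz]; infer_instance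
      exact Finset.prod_of_isEmpty _
    have h0 := hX 0
    have h1 := hX 1
    rw [hfX, hprod] at h0 h1
    simp at h0
  have hB : 0 < D.B := Nat.pos_of_ne_zero hBz
  set B := D.B with hBdef
  set a : Fin (n + (k + 1)) → A := fun v => (fam v).leadingCoeff with ha
  have ha0 : ∀ v, a v ≠ 0 := fun v => leadingCoeff_ne_zero.2 (hfam v)
  set E : Fin B → ℕ := fun l => ∑ v, D.e v l with hE
  have hEpos : ∀ l, 0 < E l := by
    intro l
    obtain ⟨v, hv⟩ := D.hpos l
    exact lt_of_lt_of_le hv (Finset.single_le_sum (f := fun v => D.e v l)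
      (fun _ _ => Nat.zero_le _) (Finset.mem_univ v))
  set Et : ℝ := ∑ l, (E l : ℝ) with hEt
  have hEt0 : 0 ≤ Et := Finset.sum_nonneg fun _ _ => Nat.cast_nonneg _
  set ε : ℝ := 1 / (4 * (1 + Et)) with hε
  have hε0 : 0 < ε := by positivity
  have hε1 : 4 * ε * (1 + ∑ l, (E l : ℝ)) ≤ 1 := by
    rw [← hEt, hε]
    have : (1 + Et) ≠ 0 := by positivity
    field_simp
    exact le_rfl
  set F : (Fin (n + (k + 1)) ⊕ Fin B → ℝ) → ℝ := FF F₀ (Fin.castAdd (k + 1)) D.e with hFdef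
  have hF : PL F := FF_PL hF₀ _ _
  obtain ⟨M0, C0, κ0, hM0, hC0, hκ0, hov⟩ := ov hB hF hε0
  obtain ⟨m, hm, q1, hq1, K, hK⟩ := D.rep a ha0 M0 hM0
  obtain ⟨j, Q, hQ, q2, hq2, K2, hK2, hh⟩ := D.height
  set P : A[X] := ∏ v, fam v with hP
  have hP0 : P ≠ 0 := Finset.prod_ne_zero_iff.2 fun v _ => hfam v
  set KW : ℝ := 2 * (1 + Et) with hKW
  have hKW0 : 0 < KW := by positivity
  set CC : ℝ := C0 * Real.exp K * (1 + K2) + C0 * KW * (1 + K2) + 4 * C0 * Real.exp K + C0 * Real.exp K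
    with hCC
  have hCCpos : 0 < CC := by positivity
  have hpos1 : 0 < C0 * Real.exp K * (1 + K2) := by positivity
  have hpos2 : 0 < C0 * KW * (1 + K2) := by positivity
  have hpos3 : 0 < C0 * Real.exp K := by positivity
  refine ⟨fun φ => Real.exp (m φ), D.q0 * q1 * q2, P, (n + (k + 1)) + j, Fin.append a Q, κ0 / KW, CC,
    hm.tr, mul_ne_zero (mul_ne_zero D.hq0 hq1) hq2, hP0, ?_, by positivity, hCCpos, ?_⟩
  · intro i
    refine Fin.addCases (fun i => ?_) (fun i => ?_) i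
    · simpa using ha0 i
    · simpa using hQ i
  intro φ hφ hfin
  rw [map_mul, map_mul] at hφ
  have hφ0 : φ D.q0 ≠ 0 := fun h => hφ (by rw [h]; ring)
  have hφ1 : φ q1 ≠ 0 := fun h => hφ (by rw [h]; ring)
  have hφ2 : φ q2 ≠ 0 := fun h => hφ (by rw [h]; ring)
  set c : Fin (n + (k + 1)) → ℝ := fun v => Real.log ‖φ (a v)‖ with hc
  -- facts for every marking
  have hlc : ∀ v, φ (a v) ≠ 0 := D.lc φ hφ0
  have hfx : ∀ b ∈ D.Mk φ, ∀ v x, ptX φ x (fam v) = φ (a v) * ∏ l, (x - b l) ^ D.e v l :=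
    fun b hb v x => D.fac φ hφ0 b hb v x
  have hlog : ∀ b ∈ D.Mk φ, ∀ v x, (∀ l, x ≠ b l) →
      Real.log ‖ptX φ x (fam v)‖ = c v + ∑ l, (D.e v l : ℝ) * Real.log ‖x - b l‖ := by
    intro b hb v x hx
    rw [hfx b hb v x, log_fac (hlc v) hx]
  have hGG : ∀ b ∈ D.Mk φ, ∀ x, (∀ l, x ≠ b l) → GG F c b x = G (ptX φ x) := by
    intro b hb x hx
    rw [hGe, GG, hFdef, FF]
    congr 2
    funext i
    simp only [Sum.elim_inl, Sum.elim_inr]
    rw [← hlog b hb _ x hx]
    simp [fam]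
  have hae : ∀ b : Fin B → ℂ, ∀ᵐ x : ℂ, ∀ l, x ≠ b l := by
    intro b
    rw [ae_all_iff]
    intro l
    exact (Set.countable_singleton (b l)).ae_notMem volume
  have hint : ∀ b ∈ D.Mk φ, ∫⁻ x, ENNReal.ofReal (GG F c b x) = ∫⁻ x, ENNReal.ofReal (G (ptX φ x)) := by
    intro b hb
    refine lintegral_congr_ae ?_
    filter_upwards [hae b] with x hx
    rw [hGG b hb x hx]
  have hinj := D.inj φ hφ0
  have hPx : ∀ b ∈ D.Mk φ, ∀ x, ptX φ x P = (∏ v, φ (a v)) * ∏ l, (x - b l) ^ E l := by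
    intro b hb x
    rw [hP, map_prod]
    simp_rw [hfx b hb]
    rw [Finset.prod_mul_distrib]
    congr 1
    rw [Finset.prod_comm]
    refine Finset.prod_congr rfl fun l _ => ?_
    rw [Finset.prod_pow_eq_pow_sum]
  refine ⟨?_, ?_, ?_⟩
  · -- (i)
    obtain ⟨b, hb, hle⟩ := (hK φ hφ1).2
    have h1 := (hov c b (hinj b hb) (by rw [hint b hb]; exact hfin)).1
    rw [hint b hb] at h1
    have h2 : Real.exp (m φ) ≤ Real.exp K * Real.exp (M0 (TrOV_726.dat c b)) := by
      rw [← Real.exp_add, Real.exp_le_exp]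
      have : m φ ≤ M0 (TrOV_726.dat c b) + K := hle
      linarith
    calc ENNReal.ofReal (Real.exp (m φ))
        ≤ ENNReal.ofReal (Real.exp K * Real.exp (M0 (TrOV_726.dat c b))) := ENNReal.ofReal_le_ofReal h2
      _ = ENNReal.ofReal (Real.exp K) * ENNReal.ofReal (Real.exp (M0 (TrOV_726.dat c b))) :=
          ENNReal.ofReal_mul (Real.exp_pos _).le
      _ ≤ ENNReal.ofReal (Real.exp K) * (ENNReal.ofReal C0 * ∫⁻ x, ENNReal.ofReal (G (ptX φ x))) := by
          gcongr
      _ = ENNReal.ofReal (C0 * Real.exp K) * ∫⁻ x, ENNReal.ofReal (G (ptX φ x)) := by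
          rw [← mul_assoc, ← ENNReal.ofReal_mul (Real.exp_pos _).le, mul_comm C0]
      _ ≤ ENNReal.ofReal CC * ∫⁻ x, ENNReal.ofReal (G (ptX φ x)) := by
          gcongr
          rw [hCC]; linarith
  · -- (ii)
    intro κ hκ hκ'
    obtain ⟨b, hb⟩ := D.ne φ hφ0
    have hMle : Real.exp (M0 (TrOV_726.dat c b)) ≤ Real.exp K * Real.exp (m φ) := by
      rw [← Real.exp_add, Real.exp_le_exp]
      have : M0 (TrOV_726.dat c b) ≤ m φ + K := (hK φ hφ1).1 b hb
      linarith
    have h1 := (hov c b (hinj b hb) (by rw [hint b hb]; exact hfin)).2.1 (KW * κ) (by positivity)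
      (by rw [le_div_iff₀ hKW0] at hκ'; linarith)
    set H := ∑ u, |TrOV_726.dat c b u| with hH
    set H' := ∑ i, |Real.log ‖φ (Fin.append a Q i)‖| with hH'
    have hHH : 1 + H ≤ (1 + K2) * (1 + H') := by
      have e1 : H = ∑ v, |c v| + ∑ p : Fin B × Fin B, |Real.log ‖b p.1 - b p.2‖| := by
        rw [hH, Fintype.sum_sum_type]; rfl
      have e2 : H' = ∑ v, |c v| + ∑ i, |Real.log ‖φ (Q i)‖| := by
        rw [hH', Fin.sum_univ_add]; simp [hc]
      have e3 := hh φ hφ2 b hb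
      have e4 : 0 ≤ ∑ v, |c v| := Finset.sum_nonneg fun _ _ => abs_nonneg _
      have e5 : 0 ≤ ∑ i, |Real.log ‖φ (Q i)‖| := Finset.sum_nonneg fun _ _ => abs_nonneg _
      rw [e1, e2]
      nlinarith
    have hH0 : 0 ≤ H := Finset.sum_nonneg fun _ _ => abs_nonneg _
    have hH'0 : 0 ≤ H' := Finset.sum_nonneg fun _ _ => abs_nonneg _
    have hwt : ∀ x, (∀ l, x ≠ b l) →
        ∑ i, |Real.log ‖ptX φ x (w i)‖| + |Real.log ‖ptX φ x P‖| ≤
          KW * (∑ v, |c v| + ∑ l, |Real.log ‖x - b l‖|) := by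
      intro x hx
      set s := ∑ l, |Real.log ‖x - b l‖| with hs
      have hs0 : 0 ≤ s := Finset.sum_nonneg fun _ _ => abs_nonneg _
      have f1 : ∀ v, |Real.log ‖ptX φ x (fam v)‖| ≤ |c v| + ∑ l, (D.e v l : ℝ) * |Real.log ‖x - b l‖| := by
        intro v
        rw [hlog b hb v x hx]
        refine (abs_add_le _ _).trans ?_
        gcongr
        refine (Finset.abs_sum_le_sum_abs _ _).trans (Finset.sum_le_sum fun l _ => ?_)
        rw [abs_mul, Nat.abs_cast]
      have f2 : ∑ v, |Real.log ‖ptX φ x (fam v)‖| ≤ ∑ v, |c v| + Et * s := by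
        refine (Finset.sum_le_sum fun v _ => f1 v).trans ?_
        rw [Finset.sum_add_distrib]
        gcongr
        rw [Finset.sum_comm]
        calc ∑ l, ∑ v, (D.e v l : ℝ) * |Real.log ‖x - b l‖|
            = ∑ l, (E l : ℝ) * |Real.log ‖x - b l‖| := by
              refine Finset.sum_congr rfl fun l _ => ?_
              rw [← Finset.sum_mul, hE]; push_cast; rfl
          _ ≤ ∑ l, (E l : ℝ) * s := by
              refine Finset.sum_le_sum fun l _ => ?_
              refine mul_le_mul_of_nonneg_left ?_ (Nat.cast_nonneg _)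
              exact Finset.single_le_sum (f := fun l => |Real.log ‖x - b l‖|)
                (fun _ _ => abs_nonneg _) (Finset.mem_univ l)
          _ = Et * s := by rw [← Finset.sum_mul]
      have f3 : ∑ i, |Real.log ‖ptX φ x (w i)‖| ≤ ∑ v, |Real.log ‖ptX φ x (fam v)‖| := by
        rw [Fin.sum_univ_add, Fin.sum_univ_castSucc (n := k)]
        have g1 : 0 ≤ ∑ i : Fin n, |Real.log ‖ptX φ x (fam (Fin.castAdd (k + 1) i))‖| :=
          Finset.sum_nonneg fun _ _ => abs_nonneg _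
        have g2 : ∀ i : Fin k, fam (Fin.natAdd n i.castSucc) = w i := by intro i; simp [fam]
        simp_rw [g2]
        have g3 := abs_nonneg (Real.log ‖ptX φ x (fam (Fin.natAdd n (Fin.last k)))‖)
        linarith
      have f4 : |Real.log ‖ptX φ x P‖| ≤ ∑ v, |Real.log ‖ptX φ x (fam v)‖| := by
        rw [hP, map_prod, norm_prod, Real.log_prod]
        · exact Finset.abs_sum_le_sum_abs _ _
        · intro v _
          rw [norm_ne_zero_iff, hfx b hb]
          exact mul_ne_zero (hlc v) (Finset.prod_ne_zero_iff.2 fun l _ =>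
            pow_ne_zero _ (sub_ne_zero.2 (hx l)))
      have f5 : 0 ≤ ∑ v, |c v| := Finset.sum_nonneg fun _ _ => abs_nonneg _
      rw [hKW]
      nlinarith
    have h2 : ∫⁻ x, ENNReal.ofReal (G (ptX φ x) * Real.exp (κ * (∑ i, |Real.log ‖ptX φ x (w i)‖| +
        |Real.log ‖ptX φ x P‖|))) ≤ ∫⁻ x, ENNReal.ofReal (GG F c b x * Real.exp (KW * κ *
          (∑ v, |c v| + ∑ l, |Real.log ‖x - b l‖|))) := by
      refine lintegral_mono_ae ?_
      filter_upwards [hae b] with x hx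
      refine ENNReal.ofReal_le_ofReal ?_
      rw [hGG b hb x hx]
      have g0 : 0 ≤ G (ptX φ x) := by rw [hGe]; exact (Real.exp_pos _).le
      refine mul_le_mul_of_nonneg_left (Real.exp_le_exp.2 ?_) g0
      calc κ * (∑ i, |Real.log ‖ptX φ x (w i)‖| + |Real.log ‖ptX φ x P‖|)
          ≤ κ * (KW * (∑ v, |c v| + ∑ l, |Real.log ‖x - b l‖|)) :=
            mul_le_mul_of_nonneg_left (hwt x hx) hκ
        _ = _ := by ring
    refine (h2.trans h1).trans (ENNReal.ofReal_le_ofReal ?_)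
    have e1 : C0 * (KW * κ) * (1 + H) ≤ CC * κ * (1 + H') := by
      calc C0 * (KW * κ) * (1 + H) ≤ C0 * (KW * κ) * ((1 + K2) * (1 + H')) := by gcongr
        _ = (C0 * KW * (1 + K2)) * κ * (1 + H') := by ring
        _ ≤ CC * κ * (1 + H') := by
            gcongr
            rw [hCC]; linarith
    calc C0 * Real.exp (M0 (TrOV_726.dat c b)) * (1 + H) * Real.exp (C0 * (KW * κ) * (1 + H))
        ≤ C0 * (Real.exp K * Real.exp (m φ)) * ((1 + K2) * (1 + H')) *
            Real.exp (CC * κ * (1 + H')) := by gcongr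
      _ = (C0 * Real.exp K * (1 + K2)) * Real.exp (m φ) * (1 + H') * Real.exp (CC * κ * (1 + H')) := by
          ring
      _ ≤ CC * Real.exp (m φ) * (1 + H') * Real.exp (CC * κ * (1 + H')) := by
          gcongr
          rw [hCC]; linarith
  · -- (iii)
    obtain ⟨b, hb⟩ := D.ne φ hφ0
    have hMle : Real.exp (M0 (TrOV_726.dat c b)) ≤ Real.exp K * Real.exp (m φ) := by
      rw [← Real.exp_add, Real.exp_le_exp]
      have : M0 (TrOV_726.dat c b) ≤ m φ + K := (hK φ hφ1).1 b hb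
      linarith
    obtain ⟨Z, hZm, hZ, hZ'⟩ := (hov c b (hinj b hb) (by rw [hint b hb]; exact hfin)).2.2
    have hsub : {x | CC * Real.exp (m φ) * ‖ptX φ x (derivative P) / ptX φ x P‖ ^ 2 < G (ptX φ x)} ⊆
        Z ∪ range b := by
      intro x hx
      by_contra hcon
      simp only [mem_union, mem_range, not_or, not_exists] at hcon
      obtain ⟨hxZ, hxb⟩ := hcon
      have hxb' : ∀ l, x ≠ b l := fun l h => hxb l h.symm
      obtain ⟨l₀, _, hG1, hsep⟩ := hZ' x hxZ
      have hr : 0 < ‖x - b l₀‖ := norm_pos_iff.2 (sub_ne_zero.2 (hxb' l₀))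
      have hld : ptX φ x (derivative P) / ptX φ x P = ∑ l, (E l : ℂ) / (x - b l) := by
        have h1 : ∀ y, (P.map φ).eval y = (∏ v, φ (a v)) * ∏ l, (y - b l) ^ E l := by
          intro y
          rw [← hPx b hb y, eval_map]; rfl
        have h2 := logder (P.map φ) (∏ v, φ (a v)) (Finset.prod_ne_zero_iff.2 fun v _ => hlc v) b E h1 hxb'
        rw [← h2, derivative_map, eval_map, eval_map]; rfl
      have hlow := logder_lower b E (hEpos l₀) hε0 hε1 hxb' hsep
      rw [← hld] at hlow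
      set t := ‖ptX φ x (derivative P) / ptX φ x P‖ with ht
      have ht0 : 0 ≤ t := norm_nonneg _
      rw [hGG b hb x hxb'] at hG1
      have h3 : 1 ≤ 4 * (‖x - b l₀‖ ^ 2 * t ^ 2) := by
        have : (1 : ℝ) ≤ (2 * ‖x - b l₀‖ * t) ^ 2 := one_le_pow₀ hlow
        nlinarith
      have hGpos : 0 < G (ptX φ x) := by rw [hGe]; exact Real.exp_pos _
      have h4 : G (ptX φ x) ≤ 4 * C0 * Real.exp K * Real.exp (m φ) * t ^ 2 := by
        calc G (ptX φ x) = G (ptX φ x) * 1 := (mul_one _).symm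
          _ ≤ G (ptX φ x) * (4 * (‖x - b l₀‖ ^ 2 * t ^ 2)) := by gcongr
          _ = 4 * (G (ptX φ x) * ‖x - b l₀‖ ^ 2) * t ^ 2 := by ring
          _ ≤ 4 * (C0 * (Real.exp K * Real.exp (m φ))) * t ^ 2 := by
              have h7 := hG1.trans (mul_le_mul_of_nonneg_left hMle hC0.le)
              exact mul_le_mul_of_nonneg_right (mul_le_mul_of_nonneg_left h7 (by norm_num))
                (by positivity)
          _ = _ := by ring
      have h5 : 4 * C0 * Real.exp K * Real.exp (m φ) * t ^ 2 ≤ CC * Real.exp (m φ) * t ^ 2 := by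
        gcongr
        rw [hCC]; linarith
      have h6 : CC * Real.exp (m φ) * t ^ 2 < G (ptX φ x) := hx
      linarith
    have h0 : volume (range b) = 0 := (finite_range b).measure_zero _
    calc ∫⁻ x in {x | CC * Real.exp (m φ) * ‖ptX φ x (derivative P) / ptX φ x P‖ ^ 2 < G (ptX φ x)},
          ENNReal.ofReal (G (ptX φ x))
        ≤ ∫⁻ x in Z ∪ range b, ENNReal.ofReal (G (ptX φ x)) := lintegral_mono_set hsub
      _ ≤ (∫⁻ x in Z, ENNReal.ofReal (G (ptX φ x))) + ∫⁻ x in range b, ENNReal.ofReal (G (ptX φ x)) :=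
          lintegral_union_le _ _ _
      _ = ∫⁻ x in Z, ENNReal.ofReal (G (ptX φ x)) := by
          rw [setLIntegral_measure_zero _ _ h0, add_zero]
      _ = ∫⁻ x in Z, ENNReal.ofReal (GG F c b x) := by
          refine lintegral_congr_ae (ae_restrict_of_ae ?_)
          filter_upwards [hae b] with x hx
          rw [hGG b hb x hx]
      _ ≤ ENNReal.ofReal (C0 * Real.exp (M0 (TrOV_726.dat c b))) := hZ
      _ ≤ ENNReal.ofReal (CC * Real.exp (m φ)) := by
          refine ENNReal.ofReal_le_ofReal ?_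
          calc C0 * Real.exp (M0 (TrOV_726.dat c b)) ≤ C0 * (Real.exp K * Real.exp (m φ)) := by gcongr
            _ = (C0 * Real.exp K) * Real.exp (m φ) := by ring
            _ ≤ CC * Real.exp (m φ) := by
                gcongr
                rw [hCC]; linarith

end

end Crest.Agent.R281.TrPr_726
end

-- ▼ part R281/TrU5_249

/-!
# Row 281, TROP (helper249, helper726, helper282), part 5: the unconditional theorem
-/

namespace Crest.Agent.R281.TrU_249

open MeasureTheory Filter Topology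
open scoped ENNReal

open Crest.Agent.R281.TrPL_726

/-- the projection step holds over every domain of characteristic zero -/
theorem proj (A : Type*) [CommRing A] [IsDomain A] [CharZero A] : Proj A :=
  fun _ hG _ w hw => TrPr_726.main hG w hw

variable {T R : Type*} [CommRing R] [IsDomain R] [CharZero R] {l : Filter T}
  {ev : T → R →+* ℂ} {L : T → ℝ}

/-- **TROP (T_n), unconditional.** -/
theorem trop_final (h : Scale l ev L) {n : ℕ}
    {G : (MvPolynomial (Fin n) R →+* ℂ) → ℝ} (hG : Tr (MvPolynomial (Fin n) R) G)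
    (hfin : ∀ᶠ t in l, ∫⁻ y : Fin n → ℂ, ENNReal.ofReal (G (pt (ev t) y)) ≠ ∞) :
    TStmt l ev L G := trop h (fun _ => proj _) hG hfin


/-- with maximal growth the bad fraction is `≤ C'/L` -/
theorem trop_frac (h : Scale l ev L) {n : ℕ}
    {G : (MvPolynomial (Fin n) R →+* ℂ) → ℝ} (hG : Tr (MvPolynomial (Fin n) R) G)
    (hfin : ∀ᶠ t in l, ∫⁻ y : Fin n → ℂ, ENNReal.ofReal (G (pt (ev t) y)) ≠ ∞)
    {c k : ℝ} (hc : 0 < c) (hlow : ∀ᶠ t in l, ENNReal.ofReal (c * Real.exp (k * L t) * L t ^ n) ≤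
      ∫⁻ y : Fin n → ℂ, ENNReal.ofReal (G (pt (ev t) y)))
    {C₁ : ℝ} (hup : ∀ᶠ t in l, ∫⁻ y : Fin n → ℂ, ENNReal.ofReal (G (pt (ev t) y)) ≤
      ENNReal.ofReal (C₁ * Real.exp (k * L t) * L t ^ n)) :
    ∃ (C : ℝ) (f : Fin n → MvPolynomial (Fin n) R), 0 < C ∧
      (∀ i, f i ≠ 0 ∧ ∀ j ∈ (f i).vars, i ≤ j) ∧
      ∀ᶠ t in l, ∫⁻ y in Bad (ev t) (L t) G f k C, ENNReal.ofReal (G (pt (ev t) y)) ≤
        ENNReal.ofReal (C / L t) * ∫⁻ y : Fin n → ℂ, ENNReal.ofReal (G (pt (ev t) y)) := by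
  rcases (l.eq_or_neBot) with hl | hl
  · exact ⟨1, fun _ => 1, one_pos, fun i => ⟨one_ne_zero, by simp⟩, by simp [hl]⟩
  obtain ⟨a, C, f, hC, hf, hT⟩ := trop_final h hG hfin
  -- exponents agree
  have hak : a = k := by
    have hL1 := h.tendsto.eventually_ge_atTop 1
    -- compare growth: both exp (a L) / C ≤ C₁ exp (k L) L^n and c exp (k L) L^n ≤ C exp (a L) L^n
    by_contra hne
    rcases lt_or_gt_of_ne hne with hlt | hgt
    · -- a < k : contradiction with c exp(kL) ≤ C exp(aL)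
      have hlim : Tendsto (fun t => Real.exp ((k - a) * L t)) l atTop :=
        Real.tendsto_exp_atTop.comp (h.tendsto.const_mul_atTop (by linarith))
      have hev := hlim.eventually_gt_atTop (C / c)
      obtain ⟨t, ht⟩ := (hT.and (hlow.and (hev.and hL1))).exists
      obtain ⟨⟨_, h2, _⟩, h3, h4, h5⟩ := ht
      have h6 := h3.trans h2
      rw [ENNReal.ofReal_le_ofReal_iff (by positivity)] at h6
      have hp : 0 < L t ^ n := by positivity
      have h7 : c * Real.exp (k * L t) ≤ C * Real.exp (a * L t) := le_of_mul_le_mul_right h6 hp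
      have h8 : Real.exp (k * L t) = Real.exp ((k - a) * L t) * Real.exp (a * L t) := by
        rw [← Real.exp_add]; congr 1; ring
      rw [h8, ← mul_assoc] at h7
      have h9 := le_of_mul_le_mul_right h7 (Real.exp_pos _)
      rw [div_lt_iff₀ hc] at h4
      linarith
    · have hlim : Tendsto (fun t => Real.exp ((a - k) * L t) / L t ^ n) l atTop := by
        have := (tendsto_exp_mul_div_rpow_atTop (n : ℝ) (a - k) (by linarith)).comp h.tendsto
        simpa [Function.comp_def, Real.rpow_natCast] using this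
      have hev := hlim.eventually_gt_atTop (C * |C₁|)
      obtain ⟨t, ht⟩ := (hT.and (hup.and (hev.and hL1))).exists
      obtain ⟨⟨h2, _, _⟩, h3, h4, h5⟩ := ht
      have h6 := h2.trans h3
      have hp : 0 < L t ^ n := by positivity
      have h6' : Real.exp (a * L t) / C ≤ |C₁| * Real.exp (k * L t) * L t ^ n := by
        have h7 : ENNReal.ofReal (C₁ * Real.exp (k * L t) * L t ^ n) ≤
            ENNReal.ofReal (|C₁| * Real.exp (k * L t) * L t ^ n) := by
          refine ENNReal.ofReal_le_ofReal ?_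
          have := le_abs_self C₁
          gcongr
        have h8 := h6.trans h7
        rwa [ENNReal.ofReal_le_ofReal_iff (by positivity)] at h8
      have h8 : Real.exp (a * L t) = Real.exp ((a - k) * L t) * Real.exp (k * L t) := by
        rw [← Real.exp_add]; congr 1; ring
      rw [lt_div_iff₀ hp] at h4
      rw [div_le_iff₀ hC, h8] at h6'
      have h9 : Real.exp ((a - k) * L t) * Real.exp (k * L t) ≤
          (C * |C₁| * L t ^ n) * Real.exp (k * L t) := by
        calc _ ≤ _ := h6'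
          _ = _ := by ring
      have h10 := le_of_mul_le_mul_right h9 (Real.exp_pos _)
      linarith
  subst hak
  refine ⟨C + C / c, f, by positivity, hf, ?_⟩
  filter_upwards [hT, hlow, h.tendsto.eventually_ge_atTop 1] with t ht h3 hL
  have hL0 : 0 < L t := by linarith
  have hsub : Bad (ev t) (L t) G f a (C + C / c) ⊆ Bad (ev t) (L t) G f a C := by
    have hCC : C ≤ C + C / c := by have : 0 ≤ C / c := by positivity
                                   linarith
    rintro y (hy | ⟨i, hi⟩)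
    · refine Or.inl (lt_of_le_of_lt ?_ hy)
      have hp : 0 ≤ ∏ i, ‖pt (ev t) y (MvPolynomial.pderiv i (f i)) / pt (ev t) y (f i)‖ ^ 2 :=
        Finset.prod_nonneg fun _ _ => by positivity
      have he : 0 ≤ Real.exp (a * L t) := (Real.exp_pos _).le
      exact mul_le_mul_of_nonneg_right (mul_le_mul_of_nonneg_right hCC he) hp
    · exact Or.inr ⟨i, lt_of_le_of_lt (mul_le_mul_of_nonneg_right hCC hL0.le) hi⟩
  calc _ ≤ ∫⁻ y in Bad (ev t) (L t) G f a C, ENNReal.ofReal (G (pt (ev t) y)) :=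
        lintegral_mono_set hsub
    _ ≤ _ := ht.2.2
    _ = ENNReal.ofReal (C / c / L t) * ENNReal.ofReal (c * Real.exp (a * L t) * L t ^ n) := by
        rw [← ENNReal.ofReal_mul (by positivity)]
        congr 1; field_simp
    _ ≤ _ := by
        refine mul_le_mul' (ENNReal.ofReal_le_ofReal ?_) h3
        exact div_le_div_of_nonneg_right (by linarith) hL0.le

end Crest.Agent.R281.TrU_249
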