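import Mathlib

-- ▼ part R281/GT1_639
section

/-!
Row 281, glue DIV 2 -> DIV 3 (helper639).  Part 1: the characteristic polynomial of an algebraic
function `g = P(z)/Q(z)`, `F(z) = 0`, over a ring `A`, by resultants, and the two-sided bound
`max_s |g^(s)| ~ max_j |A_j|^(1/j)` at every point `φ : A →+* ℂ`.
-/

set_option autoImplicit false

open Polynomial

noncomputable section

namespace Crest.Agent.R281.GT_639

section char

variable {A : Type*} [CommRing A]

/-- `H(T) = Res_X (F, T Q - P) ∈ A[T]`. -/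
def H (F P Q : A[X]) (n : ℕ) : A[X] :=
  resultant (F.map (C : A →+* A[X])) (C (X : A[X]) * Q.map (C : A →+* A[X]) -
    P.map (C : A →+* A[X])) F.natDegree n

theorem H_map (F P Q : A[X]) (hF : F.Monic) {n : ℕ} (hP : P.natDegree ≤ n) (hQ : Q.natDegree ≤ n)
    {K : Type*} [Field K] (φ : A →+* K) (hs : (F.map φ).Splits) :
    (H F P Q n).map φ =
      ((F.map φ).roots.map fun z => C ((Q.map φ).eval z) * X - C ((P.map φ).eval z)).prod := by
  classical
  have hm : (F.map φ).Monic := hF.map φ
  have h1 : (H F P Q n).map φ = resultant ((F.map φ).map (C : K →+* K[X]))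
      (C (X : K[X]) * (Q.map φ).map (C : K →+* K[X]) - (P.map φ).map (C : K →+* K[X]))
      F.natDegree n := by
    have h2 : (H F P Q n).map φ = (mapRingHom φ) (H F P Q n) := rfl
    rw [h2, H, ← resultant_map_map]
    congr 1
    · rw [Polynomial.map_map, Polynomial.map_map]
      congr 1
      ext x
      simp
    · rw [Polynomial.map_sub, Polynomial.map_mul, Polynomial.map_map, Polynomial.map_map,
        Polynomial.map_map, Polynomial.map_map, Polynomial.map_C]
      congr 2
      · congr 1
        simp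
      · congr 1
        ext x
        simp
      · ext x
        simp
  have hfd : ((F.map φ).map (C : K →+* K[X])).natDegree = F.natDegree := by
    rw [hm.natDegree_map, hF.natDegree_map]
  have hgd : (C (X : K[X]) * (Q.map φ).map (C : K →+* K[X]) -
      (P.map φ).map (C : K →+* K[X])).natDegree ≤ n := by
    refine (natDegree_sub_le _ _).trans (max_le ?_ ?_)
    · exact (natDegree_C_mul_le _ _).trans ((natDegree_map_le.trans natDegree_map_le).trans hQ)
    · exact (natDegree_map_le.trans natDegree_map_le).trans hP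
  have hs' : ((F.map φ).map (C : K →+* K[X])).Splits := hs.map _
  rw [h1, ← hfd, resultant_eq_prod_eval _ _ n hgd hs', (hm.map _).leadingCoeff, one_pow, one_mul]
  have hr : ((F.map φ).map (C : K →+* K[X])).roots = (F.map φ).roots.map (C : K →+* K[X]) := by
    symm
    apply roots_map_of_injective_of_card_eq_natDegree (C_injective)
    exact hs.natDegree_eq_card_roots.symm
  rw [hr, Multiset.map_map]
  congr 1
  apply Multiset.map_congr rfl
  intro z _
  simp only [Function.comp_apply, eval_sub, eval_mul, eval_C, eval_map_apply]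
  rw [mul_comm]

end char

section roots

/-- the coefficients of a monic polynomial are bounded by its roots -/
theorem coeff_le (s : Multiset ℂ) {G : ℝ} (hG : ∀ g ∈ s, ‖g‖ ≤ G) {j : ℕ}
    (hj : j ≤ Multiset.card s) :
    ‖(s.map fun g => X - C g).prod.coeff (Multiset.card s - j)‖ ≤
      2 ^ Multiset.card s * G ^ j := by
  classical
  have hm : (s.map fun g => X - C g).prod.Monic := monic_multiset_prod_of_monic _ _
    fun g _ => monic_X_sub_C g
  have hd : (s.map fun g => X - C g).prod.natDegree = Multiset.card s :=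
    natDegree_multiset_prod_X_sub_C_eq_card s
  have hs : ((s.map fun g => X - C g).prod.map (RingHom.id ℂ)).Splits :=
    IsAlgClosed.splits _
  have h := coeff_le_of_roots_le (f := RingHom.id ℂ) (B := G) (Multiset.card s - j) hm hs (by
    intro z hz
    rw [Polynomial.map_id, roots_multiset_prod_X_sub_C] at hz
    exact hG z hz)
  rw [Polynomial.map_id, hd, Nat.sub_sub_self hj] at h
  refine h.trans ?_
  have h0 : 0 ≤ G ^ j := by
    rcases Multiset.empty_or_exists_mem s with h1 | ⟨g, hg⟩
    · subst h1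
      simp only [Multiset.card_zero, nonpos_iff_eq_zero] at hj
      subst hj
      simp
    · exact pow_nonneg ((norm_nonneg g).trans (hG g hg)) _
  rw [mul_comm]
  refine mul_le_mul_of_nonneg_right ?_ h0
  exact_mod_cast Nat.choose_le_two_pow _ _

/-- every root is bounded by the coefficients -/
theorem exists_coeff_ge (s : Multiset ℂ) {g : ℂ} (hg : g ∈ s) :
    ∃ j, 1 ≤ j ∧ j ≤ Multiset.card s ∧
      (‖g‖ / 2) ^ j ≤ ‖(s.map fun g => X - C g).prod.coeff (Multiset.card s - j)‖ := by
  classical
  set p := (s.map fun g => X - C g).prod with hp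
  have hm : p.Monic := monic_multiset_prod_of_monic _ _ fun g _ => monic_X_sub_C g
  have hd : p.natDegree = Multiset.card s := natDegree_multiset_prod_X_sub_C_eq_card s
  have hc : 1 ≤ Multiset.card s := Multiset.card_pos_iff_exists_mem.2 ⟨g, hg⟩
  by_contra hcon
  push Not at hcon
  have hg0 : g ≠ 0 := by
    rintro rfl
    have := hcon 1 le_rfl hc
    simp only [norm_zero, zero_div, pow_one] at this
    exact absurd this (not_lt.2 (norm_nonneg _))
  have hgp : 0 < ‖g‖ := norm_pos_iff.2 hg0
  have h0 : p.eval g = 0 := by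
    rw [hp, eval_multiset_prod, Multiset.map_map]
    apply Multiset.prod_eq_zero
    rw [Multiset.mem_map]
    exact ⟨g, hg, by simp⟩
  set d := Multiset.card s with hdd
  rw [eval_eq_sum_range, hd, Finset.sum_range_succ] at h0
  have hlead : p.coeff d = 1 := by
    rw [← hd]
    exact hm.coeff_natDegree
  rw [hlead, one_mul] at h0
  have h1 : ‖g‖ ^ d ≤ ∑ i ∈ Finset.range d, ‖p.coeff i‖ * ‖g‖ ^ i := by
    have h2 : g ^ d = -∑ i ∈ Finset.range d, p.coeff i * g ^ i := by
      linear_combination h0
    rw [← norm_pow, h2, norm_neg]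
    refine (norm_sum_le _ _).trans (Finset.sum_le_sum fun i _ => ?_)
    rw [norm_mul, norm_pow]
  have h3 : ∑ i ∈ Finset.range d, ‖p.coeff i‖ * ‖g‖ ^ i <
      ∑ i ∈ Finset.range d, (1 / 2) ^ (d - i) * ‖g‖ ^ d := by
    apply Finset.sum_lt_sum_of_nonempty (Finset.nonempty_range_iff.2 (by omega))
    intro i hi
    rw [Finset.mem_range] at hi
    have h4 := hcon (d - i) (by omega) (by omega)
    rw [Nat.sub_sub_self hi.le] at h4
    calc ‖p.coeff i‖ * ‖g‖ ^ i < (‖g‖ / 2) ^ (d - i) * ‖g‖ ^ i :=
          mul_lt_mul_of_pos_right h4 (pow_pos hgp _)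
      _ = (1 / 2) ^ (d - i) * ‖g‖ ^ d := by
          rw [div_eq_mul_one_div, mul_pow]
          have : ‖g‖ ^ d = ‖g‖ ^ (d - i) * ‖g‖ ^ i := by
            rw [← pow_add, Nat.sub_add_cancel hi.le]
          rw [this]
          ring
  have h5 : ∑ i ∈ Finset.range d, ((1 : ℝ) / 2) ^ (d - i) * ‖g‖ ^ d ≤ ‖g‖ ^ d := by
    rw [← Finset.sum_mul]
    refine mul_le_of_le_one_left (pow_nonneg (norm_nonneg _) _) ?_
    have h6 : ∀ n : ℕ, ∑ i ∈ Finset.range n, ((1 : ℝ) / 2) ^ (n - i) = 1 - (1 / 2) ^ n := by
      intro n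
      induction n with
      | zero => simp
      | succ n ih =>
        rw [Finset.sum_range_succ]
        have h7 : ∑ i ∈ Finset.range n, ((1 : ℝ) / 2) ^ (n + 1 - i) =
            (1 / 2) * ∑ i ∈ Finset.range n, ((1 : ℝ) / 2) ^ (n - i) := by
          rw [Finset.mul_sum]
          apply Finset.sum_congr rfl
          intro i hi
          rw [Finset.mem_range] at hi
          rw [show n + 1 - i = (n - i) + 1 by omega, pow_succ]
          ring
        rw [h7, ih, show n + 1 - n = 1 by omega]
        ring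
    rw [h6]
    have : (0 : ℝ) ≤ (1 / 2) ^ d := by positivity
    linarith
  linarith

end roots

section bound

variable {A : Type*} [CommRing A]

/-- `∏ (q_s X - p_s) = (∏ q_s) ∏ (X - p_s / q_s)` -/
theorem prod_factor (s : Multiset ℂ) (p q : ℂ → ℂ) (hq : ∀ z ∈ s, q z ≠ 0) :
    (s.map fun z => C (q z) * X - C (p z)).prod =
      C (s.map q).prod * (s.map fun z => X - C (p z / q z)).prod := by
  classical
  induction s using Multiset.induction_on with
  | empty => simp
  | cons a s ih =>
    rw [Multiset.map_cons, Multiset.prod_cons, ih fun z hz => hq z (Multiset.mem_cons_of_mem hz),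
      Multiset.map_cons, Multiset.prod_cons, Multiset.map_cons, Multiset.prod_cons, C_mul]
    have ha := hq a (Multiset.mem_cons_self a s)
    have : (C (q a) * X - C (p a) : ℂ[X]) = C (q a) * (X - C (p a / q a)) := by
      rw [mul_sub, ← C_mul, mul_div_cancel₀ _ ha]
    rw [this]
    ring

/-- **two-sided bound.**  `F` monic, `g = P(z)/Q(z)` on the roots of `F`: with
`H = Res_X (F, T Q - P) = ∑ h_i T^i` (so `h_d = Res (F, Q)`), for every point `φ` with
`φ h_d ≠ 0`: `|h_(d-j)/h_d| ≤ 2^d G^j` if all `|g| ≤ G`, and every `|g|` satisfies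
`(|g|/2)^j ≤ |h_(d-j)/h_d|` for some `1 ≤ j ≤ d`. -/
theorem H_bound (F P Q : A[X]) (hF : F.Monic) {n : ℕ} (hP : P.natDegree ≤ n)
    (hQ : Q.natDegree ≤ n) (φ : A →+* ℂ) (hne : φ ((H F P Q n).coeff F.natDegree) ≠ 0) :
    (∀ z ∈ (F.map φ).roots, (Q.map φ).eval z ≠ 0) ∧
    (∀ G : ℝ, (∀ z ∈ (F.map φ).roots, ‖(P.map φ).eval z / (Q.map φ).eval z‖ ≤ G) →
      ∀ j ≤ F.natDegree, ‖φ ((H F P Q n).coeff (F.natDegree - j))‖ ≤
        2 ^ F.natDegree * G ^ j * ‖φ ((H F P Q n).coeff F.natDegree)‖) ∧
    ∀ z ∈ (F.map φ).roots, ∃ j, 1 ≤ j ∧ j ≤ F.natDegree ∧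
      (‖(P.map φ).eval z / (Q.map φ).eval z‖ / 2) ^ j *
        ‖φ ((H F P Q n).coeff F.natDegree)‖ ≤ ‖φ ((H F P Q n).coeff (F.natDegree - j))‖ := by
  classical
  have hs : (F.map φ).Splits := IsAlgClosed.splits _
  have hH := H_map F P Q hF hP hQ φ hs
  set R := (F.map φ).roots with hR
  have hcard : Multiset.card R = F.natDegree := by
    rw [hR, ← hs.natDegree_eq_card_roots, hF.natDegree_map]
  have hcoeff : ∀ i, φ ((H F P Q n).coeff i) =
      (R.map fun z => C ((Q.map φ).eval z) * X - C ((P.map φ).eval z)).prod.coeff i := by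
    intro i
    rw [← hH, coeff_map]
  -- leading coefficient
  have hlc : φ ((H F P Q n).coeff F.natDegree) = (R.map fun z => (Q.map φ).eval z).prod := by
    rw [hcoeff, ← hcard]
    clear hcoeff hH hcard hne
    clear_value R
    clear hR
    induction R using Multiset.induction_on with
    | empty => simp
    | cons a s ih =>
      rw [Multiset.map_cons, Multiset.prod_cons, Multiset.map_cons, Multiset.prod_cons,
        Multiset.card_cons, sub_mul, coeff_sub, mul_assoc, coeff_C_mul, coeff_X_mul, coeff_C_mul,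
        ih]
      have hdeg : (s.map fun z => C ((Q.map φ).eval z) * X - C ((P.map φ).eval z)).prod.natDegree
          < Multiset.card s + 1 := by
        refine lt_of_le_of_lt (natDegree_multiset_prod_le _) ?_
        rw [Multiset.map_map, Nat.lt_succ_iff]
        refine (Multiset.sum_map_le_sum_map (g := fun _ => 1) _ fun z _ => ?_).trans (by simp)
        simp only [Function.comp_apply]
        compute_degree
      rw [coeff_eq_zero_of_natDegree_lt hdeg, mul_zero, sub_zero]
  have hq : ∀ z ∈ R, (Q.map φ).eval z ≠ 0 := by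
    intro z hz h0
    apply hne
    rw [hlc]
    apply Multiset.prod_eq_zero
    rw [Multiset.mem_map]
    exact ⟨z, hz, h0⟩
  have hfac := prod_factor R (fun z => (P.map φ).eval z) (fun z => (Q.map φ).eval z) hq
  have hfac' : ∀ i, φ ((H F P Q n).coeff i) = φ ((H F P Q n).coeff F.natDegree) *
      ((R.map fun z => (P.map φ).eval z / (Q.map φ).eval z).map fun g => X - C g).prod.coeff i := by
    intro i
    rw [hcoeff i, hfac, coeff_C_mul, hlc, Multiset.map_map]
    rfl
  have hcard' : Multiset.card (R.map fun z => (P.map φ).eval z / (Q.map φ).eval z) =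
      F.natDegree := by rw [Multiset.card_map, hcard]
  refine ⟨hq, fun G hG j hj => ?_, fun z hz => ?_⟩
  · rw [hfac' (F.natDegree - j), norm_mul, mul_comm]
    refine mul_le_mul_of_nonneg_right ?_ (norm_nonneg _)
    have := coeff_le (R.map fun z => (P.map φ).eval z / (Q.map φ).eval z) (G := G) (by
      intro g hg
      rw [Multiset.mem_map] at hg
      obtain ⟨z, hz, rfl⟩ := hg
      exact hG z hz) (j := j) (by rw [hcard']; exact hj)
    rwa [hcard'] at this
  · obtain ⟨j, h1, h2, h3⟩ := exists_coeff_ge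
      (R.map fun z => (P.map φ).eval z / (Q.map φ).eval z)
      (g := (P.map φ).eval z / (Q.map φ).eval z) (Multiset.mem_map_of_mem _ hz)
    rw [hcard'] at h2 h3
    refine ⟨j, h1, h2, ?_⟩
    rw [hfac' (F.natDegree - j), norm_mul, mul_comm]
    exact mul_le_mul_of_nonneg_left h3 (norm_nonneg _)

end bound

end Crest.Agent.R281.GT_639
end
end

-- ▼ part R281/GT2_639
section

/-!
Row 281, glue DIV 2 -> DIV 3 (helper639).  Part 2: rational functions on the sheets of a prime monic
polynomial `F` over a domain `A`, as functions of a point `φ : A →+* ℂ` and a root `z` of `F_φ`.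
-/

set_option autoImplicit false

open Polynomial

noncomputable section

namespace Crest.Agent.R281.GT_639

variable {A : Type*} [CommRing A] [IsDomain A] {F : A[X]}

/-- a monic prime polynomial over a domain stays irreducible over the fraction field -/
theorem irr_of_prime (hm : F.Monic) (hp : Prime F) :
    Irreducible (F.map (algebraMap A (FractionRing A))) := by
  classical
  set K := FractionRing A
  have hinj : Function.Injective (algebraMap A K) := IsFractionRing.injective A K
  have hF0 : 0 < F.natDegree := by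
    rcases Nat.eq_zero_or_pos F.natDegree with h | h
    · exact absurd (by rw [hm.natDegree_eq_zero.1 h]; exact isUnit_one) hp.not_isUnit
    · exact h
  have hmK : (F.map (algebraMap A K)).Monic := hm.map _
  rw [hmK.irreducible_iff_natDegree']
  refine ⟨?_, ?_⟩
  · intro h
    have := congrArg natDegree h
    rw [hm.natDegree_map, natDegree_one] at this
    omega
  · intro G H hG hH hGH hmem
    rw [Finset.mem_Ioc, hm.natDegree_map] at hmem
    obtain ⟨b, hb0, hb⟩ := IsLocalization.integerNormalization_spec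
      (nonZeroDivisors A) G
    obtain ⟨c, hc0, hc⟩ := IsLocalization.integerNormalization_spec
      (nonZeroDivisors A) H
    set G' := IsLocalization.integerNormalization (nonZeroDivisors A) G
    set H' := IsLocalization.integerNormalization (nonZeroDivisors A) H
    have hb0' : b ≠ 0 := nonZeroDivisors.ne_zero hb0
    have hc0' : c ≠ 0 := nonZeroDivisors.ne_zero hc0
    have hb' : G'.map (algebraMap A K) = C (algebraMap A K b) * G := by
      rw [hb, ← smul_eq_C_mul, algebraMap_smul]
    have hc' : H'.map (algebraMap A K) = C (algebraMap A K c) * H := by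
      rw [hc, ← smul_eq_C_mul, algebraMap_smul]
    have h1 : G' * H' = C (b * c) * F := by
      apply map_injective (algebraMap A K) hinj
      rw [Polynomial.map_mul, hb', hc', Polynomial.map_mul, map_C, map_mul, C_mul]
      linear_combination (C (algebraMap A K b) * C (algebraMap A K c)) * hGH
    have hdG : G'.natDegree = G.natDegree := by
      rw [← natDegree_map_eq_of_injective hinj, hb', natDegree_C_mul]
      simpa using hb0'
    have hdH : H'.natDegree = H.natDegree := by
      rw [← natDegree_map_eq_of_injective hinj, hc', natDegree_C_mul]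
      simpa using hc0'
    have hsum : G.natDegree + H.natDegree = F.natDegree := by
      rw [← hm.natDegree_map (algebraMap A K), ← hGH, hG.natDegree_mul hH]
    have hd : F ∣ G' * H' := ⟨C (b * c), by rw [h1]; ring⟩
    have hG'0 : G' ≠ 0 := by
      intro h0
      have := congrArg (map (algebraMap A K)) h0
      rw [hb', Polynomial.map_zero, mul_eq_zero, C_eq_zero] at this
      rcases this with h | h
      · exact hb0' (by simpa using h)
      · exact hG.ne_zero h
    have hH'0 : H' ≠ 0 := by
      intro h0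
      have := congrArg (map (algebraMap A K)) h0
      rw [hc', Polynomial.map_zero, mul_eq_zero, C_eq_zero] at this
      rcases this with h | h
      · exact hc0' (by simpa using h)
      · exact hH.ne_zero h
    rcases hp.dvd_or_dvd hd with h | h
    · have := natDegree_le_of_dvd h hG'0
      omega
    · have := natDegree_le_of_dvd h hH'0
      omega

theorem dvd_of_resultant_eq_zero (hm : F.Monic) (hp : Prime F) {Q : A[X]}
    (h : resultant F Q = 0) : F ∣ Q := by
  classical
  set K := FractionRing A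
  have hinj : Function.Injective (algebraMap A K) := IsFractionRing.injective A K
  have h1 : resultant (F.map (algebraMap A K)) (Q.map (algebraMap A K)) = 0 := by
    rw [natDegree_map_eq_of_injective hinj, natDegree_map_eq_of_injective hinj,
      resultant_map_map, h, map_zero]
  rw [resultant_eq_zero_iff] at h1
  have h2 : F.map (algebraMap A K) ∣ Q.map (algebraMap A K) := by
    by_contra hcon
    exact h1.2 ((irr_of_prime hm hp).coprime_iff_not_dvd.2 hcon)
  exact (map_dvd_map _ hinj hm).1 h2

omit [IsDomain A] in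
theorem eval_ne_zero (hm : F.Monic) {Q : A[X]} (φ : A →+* ℂ) (h : φ (resultant F Q) ≠ 0) {z : ℂ}
    (hz : (F.map φ).eval z = 0) : (Q.map φ).eval z ≠ 0 := by
  intro h0
  apply h
  rw [← resultant_map_map, ← hm.natDegree_map φ,
    resultant_eq_prod_eval _ _ _ natDegree_map_le (IsAlgClosed.splits _)]
  rw [mul_eq_zero]
  right
  apply Multiset.prod_eq_zero
  rw [Multiset.mem_map]
  exact ⟨z, (mem_roots (hm.map φ).ne_zero).2 hz, h0⟩

/-- `g` is a rational function on the sheets of `F` (off one hypersurface of the base) -/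
def RS (F : A[X]) (g : (A →+* ℂ) → ℂ → ℂ) : Prop :=
  ∃ (P Q : A[X]) (q : A), ¬ F ∣ Q ∧ q ≠ 0 ∧ ∀ φ : A →+* ℂ, φ q ≠ 0 → ∀ z : ℂ,
    (F.map φ).eval z = 0 → (Q.map φ).eval z ≠ 0 ∧ g φ z = (P.map φ).eval z / (Q.map φ).eval z

namespace RS

variable {g h : (A →+* ℂ) → ℂ → ℂ}

theorem congr (hg : RS F g) {q : A} (hq : q ≠ 0) (hh : ∀ φ : A →+* ℂ, φ q ≠ 0 → ∀ z : ℂ,
    (F.map φ).eval z = 0 → h φ z = g φ z) : RS F h := by
  obtain ⟨P, Q, q', hQ, hq', H⟩ := hg
  refine ⟨P, Q, q' * q, hQ, mul_ne_zero hq' hq, fun φ hφ z hz => ?_⟩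
  rw [map_mul] at hφ
  obtain ⟨h1, h2⟩ := H φ (left_ne_zero_of_mul hφ) z hz
  exact ⟨h1, by rw [hh φ (right_ne_zero_of_mul hφ) z hz, h2]⟩

theorem poly (hp : Prime F) (P : A[X]) : RS F fun φ z => (P.map φ).eval z := by
  refine ⟨P, 1, 1, fun h => hp.not_isUnit (isUnit_of_dvd_one h), one_ne_zero, fun φ _ z _ => ?_⟩
  simp

theorem const (hp : Prime F) (a : A) : RS F fun φ _ => φ a := by
  refine (poly hp (C a)).congr (one_ne_zero) fun φ _ z _ => ?_
  simp


theorem mul (hp : Prime F) (hg : RS F g) (hh : RS F h) : RS F fun φ z => g φ z * h φ z := by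
  obtain ⟨P, Q, q, hQ, hq, H⟩ := hg
  obtain ⟨P', Q', q', hQ', hq', H'⟩ := hh
  refine ⟨P * P', Q * Q', q * q', fun hd => ?_, mul_ne_zero hq hq', fun φ hφ z hz => ?_⟩
  · rcases hp.dvd_or_dvd hd with h | h
    · exact hQ h
    · exact hQ' h
  · rw [map_mul] at hφ
    obtain ⟨h1, h2⟩ := H φ (left_ne_zero_of_mul hφ) z hz
    obtain ⟨h1', h2'⟩ := H' φ (right_ne_zero_of_mul hφ) z hz
    simp only [Polynomial.map_mul, eval_mul]
    exact ⟨mul_ne_zero h1 h1', by rw [h2, h2', div_mul_div_comm]⟩

theorem add (hp : Prime F) (hg : RS F g) (hh : RS F h) : RS F fun φ z => g φ z + h φ z := by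
  obtain ⟨P, Q, q, hQ, hq, H⟩ := hg
  obtain ⟨P', Q', q', hQ', hq', H'⟩ := hh
  refine ⟨P * Q' + P' * Q, Q * Q', q * q', fun hd => ?_, mul_ne_zero hq hq', fun φ hφ z hz => ?_⟩
  · rcases hp.dvd_or_dvd hd with h | h
    · exact hQ h
    · exact hQ' h
  · rw [map_mul] at hφ
    obtain ⟨h1, h2⟩ := H φ (left_ne_zero_of_mul hφ) z hz
    obtain ⟨h1', h2'⟩ := H' φ (right_ne_zero_of_mul hφ) z hz
    simp only [Polynomial.map_mul, Polynomial.map_add, eval_mul, eval_add]
    refine ⟨mul_ne_zero h1 h1', ?_⟩
    rw [h2, h2', div_add_div _ _ h1 h1']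
    congr 1
    ring

omit [IsDomain A] in
theorem neg (hg : RS F g) : RS F fun φ z => -g φ z := by
  obtain ⟨P, Q, q, hQ, hq, H⟩ := hg
  refine ⟨-P, Q, q, hQ, hq, fun φ hφ z hz => ?_⟩
  obtain ⟨h1, h2⟩ := H φ hφ z hz
  refine ⟨h1, ?_⟩
  show -g φ z = _
  rw [h2, Polynomial.map_neg, eval_neg, neg_div]

theorem sub (hp : Prime F) (hg : RS F g) (hh : RS F h) : RS F fun φ z => g φ z - h φ z := by
  simpa [sub_eq_add_neg] using hg.add hp hh.neg

theorem sum (hp : Prime F) {ι : Type*} (s : Finset ι) {g : ι → (A →+* ℂ) → ℂ → ℂ}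
    (hg : ∀ i ∈ s, RS F (g i)) : RS F fun φ z => ∑ i ∈ s, g i φ z := by
  classical
  induction s using Finset.induction_on with
  | empty => simpa using const hp (0 : A)
  | insert a s ha ih =>
    have := (hg a (Finset.mem_insert_self a s)).add hp
      (ih fun i hi => hg i (Finset.mem_insert_of_mem hi))
    refine this.congr one_ne_zero fun φ _ z _ => ?_
    rw [Finset.sum_insert ha]

theorem prod (hp : Prime F) {ι : Type*} (s : Finset ι) {g : ι → (A →+* ℂ) → ℂ → ℂ}
    (hg : ∀ i ∈ s, RS F (g i)) : RS F fun φ z => ∏ i ∈ s, g i φ z := by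
  classical
  induction s using Finset.induction_on with
  | empty => simpa using const hp (1 : A)
  | insert a s ha ih =>
    have := (hg a (Finset.mem_insert_self a s)).mul hp
      (ih fun i hi => hg i (Finset.mem_insert_of_mem hi))
    refine this.congr one_ne_zero fun φ _ z _ => ?_
    rw [Finset.prod_insert ha]

theorem pow (hp : Prime F) (hg : RS F g) (k : ℕ) : RS F fun φ z => g φ z ^ k := by
  simpa using prod hp (Finset.range k) (g := fun _ => g) fun _ _ => hg

theorem det (hp : Prime F) {ι : Type*} [Fintype ι] [DecidableEq ι]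
    {g : ι → ι → (A →+* ℂ) → ℂ → ℂ} (hg : ∀ i j, RS F (g i j)) :
    RS F fun φ z => (Matrix.of fun i j => g i j φ z).det := by
  have h1 := sum hp (Finset.univ : Finset (Equiv.Perm ι))
    (g := fun σ φ z => ((Equiv.Perm.sign σ : ℤ) : ℂ) * ∏ i, g (σ i) i φ z) fun σ _ => by
      have h2 := prod hp (Finset.univ : Finset ι) (g := fun i => g (σ i) i) fun i _ => hg _ _
      have h3 := (const hp (((Equiv.Perm.sign σ : ℤ) : A))).mul hp h2
      refine h3.congr one_ne_zero fun φ _ z _ => ?_
      simp
  refine h1.congr one_ne_zero fun φ _ z _ => ?_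
  rw [Matrix.det_apply']
  rfl

/-- evaluation of a polynomial with coefficients in `A` at rational functions -/
theorem mvpoly (hp : Prime F) {σ : Type*} (p : MvPolynomial σ A)
    {v : σ → (A →+* ℂ) → ℂ → ℂ} (hv : ∀ i, RS F (v i)) :
    RS F fun φ z => p.eval₂ φ fun i => v i φ z := by
  classical
  induction p using MvPolynomial.induction_on with
  | C a =>
    refine (const hp a).congr one_ne_zero fun φ _ z _ => ?_
    simp
  | add p q hp' hq' =>
    refine (hp'.add hp hq').congr one_ne_zero fun φ _ z _ => ?_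
    simp
  | mul_X p i hp' =>
    refine (hp'.mul hp (hv i)).congr one_ne_zero fun φ _ z _ => ?_
    simp

/-- inverses -/
theorem inv (hm : F.Monic) (hp : Prime F) (hg : RS F g)
    (hne : ∀ q : A, q ≠ 0 → ∃ φ : A →+* ℂ, φ q ≠ 0 ∧ ∃ z, (F.map φ).eval z = 0 ∧ g φ z ≠ 0) :
    RS F fun φ z => (g φ z)⁻¹ := by
  obtain ⟨P, Q, q, hQ, hq, H⟩ := hg
  have hP : ¬ F ∣ P := by
    intro hd
    obtain ⟨φ, hφ, z, hz, hgz⟩ := hne q hq
    obtain ⟨h1, h2⟩ := H φ hφ z hz
    apply hgz
    obtain ⟨S, rfl⟩ := hd
    rw [h2, Polynomial.map_mul, eval_mul, hz, zero_mul, zero_div]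
  have hP' : resultant F P ≠ 0 := fun h => hP (dvd_of_resultant_eq_zero hm hp h)
  refine ⟨Q, P, q * resultant F P, hP, mul_ne_zero hq hP', fun φ hφ z hz => ?_⟩
  rw [map_mul] at hφ
  obtain ⟨h1, h2⟩ := H φ (left_ne_zero_of_mul hφ) z hz
  refine ⟨eval_ne_zero hm φ (right_ne_zero_of_mul hφ) hz, ?_⟩
  show (g φ z)⁻¹ = _
  rw [h2, inv_div]

/-- inverse of a polynomial not divisible by `F` -/
theorem inv_poly (hm : F.Monic) (hp : Prime F) {Q : A[X]} (hQ : ¬ F ∣ Q) :
    RS F fun φ z => ((Q.map φ).eval z)⁻¹ := by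
  have hQ' : resultant F Q ≠ 0 := fun h => hQ (dvd_of_resultant_eq_zero hm hp h)
  refine ⟨1, Q, resultant F Q, hQ, hQ', fun φ hφ z hz => ?_⟩
  refine ⟨eval_ne_zero hm φ hφ hz, ?_⟩
  simp

end RS

end Crest.Agent.R281.GT_639
end
end

-- ▼ part R281/GT3_639

/-!
Row 281, glue DIV 2 -> DIV 3 (helper639).  Part 3: points of `MvPolynomial (Fin n) R`, derivatives of
functions on the sheets.
-/

set_option autoImplicit false

open Polynomial

noncomputable section

namespace Crest.Agent.R281.GT_639

variable {n : ℕ} {R : Type*} [CommRing R]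

/-- the linear form with coefficients `c` -/
def lf (c : Fin n → ℂ) : (Fin n → ℂ) →L[ℂ] ℂ :=
  ∑ i, c i • (ContinuousLinearMap.proj i : (Fin n → ℂ) →L[ℂ] ℂ)

@[simp] theorem lf_apply (c v : Fin n → ℂ) : lf c v = ∑ i, c i * v i := by
  simp [lf]



/-- the point of `R[y]` given by a point `e` of `R` and `y ∈ ℂⁿ` -/
def ph (e : R →+* ℂ) (y : Fin n → ℂ) : MvPolynomial (Fin n) R →+* ℂ :=
  MvPolynomial.eval₂Hom e y

@[simp] theorem ph_C (e : R →+* ℂ) (y : Fin n → ℂ) (r : R) : ph e y (MvPolynomial.C r) = e r := by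
  simp [ph]

@[simp] theorem ph_X (e : R →+* ℂ) (y : Fin n → ℂ) (i : Fin n) :
    ph e y (MvPolynomial.X i) = y i := by
  simp [ph]

theorem ph_hasFDerivAt (e : R →+* ℂ) (p : MvPolynomial (Fin n) R) (y : Fin n → ℂ) :
    HasFDerivAt (fun y => ph e y p)
      (lf fun i => ph e y (MvPolynomial.pderiv i p)) y := by
  classical
  induction p using MvPolynomial.induction_on with
  | C a =>
    have h1 : (fun y : Fin n → ℂ => ph e y (MvPolynomial.C a)) = fun _ => e a := by
      funext y
      simp
    rw [h1]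
    refine (hasFDerivAt_const (e a) y).congr_fderiv ?_
    ext v
    simp
  | add p q hp hq =>
    have h1 : (fun y : Fin n → ℂ => ph e y (p + q)) = fun y => ph e y p + ph e y q := by
      funext y
      simp
    rw [h1]
    refine (hp.fun_add hq).congr_fderiv ?_
    apply ContinuousLinearMap.ext
    intro v
    simp [add_mul, Finset.sum_add_distrib]
  | mul_X p j hp =>
    have h2 : HasFDerivAt (fun y : Fin n → ℂ => y j)
        (ContinuousLinearMap.proj j : (Fin n → ℂ) →L[ℂ] ℂ) y :=
      (ContinuousLinearMap.proj j : (Fin n → ℂ) →L[ℂ] ℂ).hasFDerivAt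
    have h1 : (fun y : Fin n → ℂ => ph e y (p * MvPolynomial.X j)) = fun y => ph e y p * y j := by
      funext y
      simp
    rw [h1]
    refine (hp.fun_mul h2).congr_fderiv ?_
    apply ContinuousLinearMap.ext
    intro v
    simp only [_root_.add_apply, _root_.smul_apply, lf_apply,
      ContinuousLinearMap.proj_apply, smul_eq_mul, MvPolynomial.pderiv_mul,
      MvPolynomial.pderiv_X, map_add, map_mul, ph_X]
    simp only [add_mul, Finset.sum_add_distrib]
    rw [add_comm]
    congr 1
    · rw [Finset.mul_sum]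
      apply Finset.sum_congr rfl
      intro i _
      ring
    · rw [Finset.sum_eq_single j]
      · simp
      · intro b _ hb
        rw [Pi.single_eq_of_ne (Ne.symm hb), map_zero, mul_zero, zero_mul]
      · simp

/-- the coefficientwise partial derivative -/
def Dc (i : Fin n) (P : (MvPolynomial (Fin n) R)[X]) : (MvPolynomial (Fin n) R)[X] :=
  ∑ k ∈ Finset.range (P.natDegree + 1), monomial k (MvPolynomial.pderiv i (P.coeff k))

theorem Dc_coeff (i : Fin n) (P : (MvPolynomial (Fin n) R)[X]) (k : ℕ) :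
    (Dc i P).coeff k = MvPolynomial.pderiv i (P.coeff k) := by
  classical
  rw [Dc, finsetSum_coeff]
  simp only [coeff_monomial]
  rw [Finset.sum_ite_eq']
  split_ifs with h
  · rfl
  · rw [Finset.mem_range, not_lt] at h
    rw [coeff_eq_zero_of_natDegree_lt (by omega), map_zero]

theorem eval_map_eq (e : R →+* ℂ) (P : (MvPolynomial (Fin n) R)[X]) {N : ℕ}
    (hN : P.natDegree < N) (y : Fin n → ℂ) (z : ℂ) :
    (P.map (ph e y)).eval z = ∑ k ∈ Finset.range N, ph e y (P.coeff k) * z ^ k := by
  rw [eval_eq_sum_range' (lt_of_le_of_lt natDegree_map_le hN)]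
  simp [coeff_map]


/-- the total derivative of `P(y,z)` along the sheet: value -/
def TD (F P : (MvPolynomial (Fin n) R)[X]) (i : Fin n) (φ : MvPolynomial (Fin n) R →+* ℂ)
    (z : ℂ) : ℂ :=
  ((Dc i P).map φ).eval z - (P.derivative.map φ).eval z * ((Dc i F).map φ).eval z *
    ((F.derivative.map φ).eval z)⁻¹

theorem TD_RS [IsDomain R] {F : (MvPolynomial (Fin n) R)[X]} (hm : F.Monic) (hp : Prime F)
    (hs : ¬ F ∣ F.derivative) (P : (MvPolynomial (Fin n) R)[X]) (i : Fin n) :
    RS F (TD F P i) :=
  (RS.poly hp (Dc i P)).sub hp (((RS.poly hp P.derivative).mul hp (RS.poly hp (Dc i F))).mul hp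
    (RS.inv_poly hm hp hs))


end Crest.Agent.R281.GT_639
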