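import Crest.Agent.R281.GT8_639
import Crest.Agent.R281.TrU1_249
import Crest.Agent.R281.SIn_14
import Crest.Agent.R281.GT3_639
import Crest.Agent.R281.TrPL_726

-- ▼ part R281/GT9_639
section

/-!
Row 281, glue DIV 2 -> DIV 3 (helper639).  Part 9: homogenisation, null sets, mass.
-/

set_option autoImplicit false
set_option linter.unusedSectionVars false

open Polynomial Set Filter Topology Complex MeasureTheory
open scoped ContDiff Matrix ComplexConjugate Manifold ENNReal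

noncomputable section

namespace Crest.Agent.R281.GT_639

open Crest.Agent.R275 Crest.Agent.R275.Geo Crest.Agent.R275.Core144 Crest.Agent.R275.EDR890
open Crest.Agent.R273.Defs_333 Crest.Agent.R273.Kah_333
open Crest.Agent.R273.SerA_945 (Fn)
open Crest.Agent.R273.SteinC_794 Crest.Agent.R273.Chow_313
open Crest.Agent.R273.Vm_333
open Crest.Agent.R281.Defs_273 Crest.Agent.R281.AF_867 Crest.Agent.R281.Qr_770
open Crest.Agent.R281.HkP2_508 (volS)

variable {n r : ℕ} {R : Type*} [CommRing R]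

/-! ### homogenisation -/

/-- the linear form as a polynomial -/
def lfp (a : Fin r → R) : MvPolynomial (Fin r) R := ∑ k, MvPolynomial.C (a k) * MvPolynomial.X k

theorem lfp_hom (a : Fin r → R) : (lfp a).IsHomogeneous 1 := by
  refine MvPolynomial.IsHomogeneous.sum _ _ _ fun k _ => ?_
  have h1 := (MvPolynomial.isHomogeneous_C (Fin r) (a k)).mul (MvPolynomial.isHomogeneous_X R k)
  rwa [zero_add] at h1

theorem eval₂_lfp (e : R →+* ℂ) (u : Fin r → ℂ) (a : Fin r → R) :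
    MvPolynomial.eval₂ e u (lfp a) = lv e a u := by
  simp [lfp, lv, MvPolynomial.eval₂_sum, MvPolynomial.eval₂_mul]

/-- the affine coordinates of a point of the cone -/
def yv (𝔭 : PrD n r R) (e : R →+* ℂ) (u : Fin r → ℂ) : Fin n → ℂ :=
  fun j => lv e (𝔭.lam j.succ) u / lv e (𝔭.lam 0) u

/-- homogenisation of a polynomial in `y` -/
theorem homog (𝔭 : PrD n r R) (f : MvPolynomial (Fin n) R) :
    ∃ m0 : ℕ, ∀ m, m0 ≤ m → ∃ p : MvPolynomial (Fin r) R, p.IsHomogeneous m ∧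
      ∀ (e : R →+* ℂ) (u : Fin r → ℂ), lv e (𝔭.lam 0) u ≠ 0 →
        MvPolynomial.eval₂ e u p = lv e (𝔭.lam 0) u ^ m * ph e (yv 𝔭 e u) f := by
  induction f using MvPolynomial.induction_on with
  | C a =>
    refine ⟨0, fun m _ => ⟨MvPolynomial.C a * lfp (𝔭.lam 0) ^ m, ?_, fun e u _ => ?_⟩⟩
    · have h1 := (MvPolynomial.isHomogeneous_C (Fin r) a).mul ((lfp_hom (𝔭.lam 0)).pow m)
      simpa using h1
    · rw [MvPolynomial.eval₂_mul, MvPolynomial.eval₂_pow, eval₂_lfp, MvPolynomial.eval₂_C, ph_C,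
        mul_comm]
  | add p q hp hq =>
    obtain ⟨m1, h1⟩ := hp
    obtain ⟨m2, h2⟩ := hq
    refine ⟨max m1 m2, fun m hm => ?_⟩
    obtain ⟨p', hp', hp''⟩ := h1 m ((le_max_left _ _).trans hm)
    obtain ⟨q', hq', hq''⟩ := h2 m ((le_max_right _ _).trans hm)
    refine ⟨p' + q', hp'.add hq', fun e u hu => ?_⟩
    rw [MvPolynomial.eval₂_add, hp'' e u hu, hq'' e u hu, map_add]
    ring
  | mul_X p j hp =>
    obtain ⟨m1, h1⟩ := hp
    refine ⟨m1 + 1, fun m hm => ?_⟩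
    obtain ⟨m', rfl⟩ := Nat.exists_eq_add_of_le' hm
    obtain ⟨p', hp', hp''⟩ := h1 (m' + m1) (Nat.le_add_left _ _)
    refine ⟨p' * lfp (𝔭.lam j.succ), ?_, fun e u hu => ?_⟩
    · have := hp'.mul (lfp_hom (𝔭.lam j.succ))
      rwa [add_assoc] at this
    · rw [MvPolynomial.eval₂_mul, hp'' e u hu, eval₂_lfp, map_mul, ph_X, yv, ← add_assoc, pow_succ]
      field_simp

/-- homogenisation of a polynomial in `(y, z)` -/
theorem homog2 (𝔭 : PrD n r R) (P : (MvPolynomial (Fin n) R)[X]) :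
    ∃ m0 : ℕ, ∀ m, m0 ≤ m → ∃ p : MvPolynomial (Fin r) R, p.IsHomogeneous m ∧
      ∀ (e : R →+* ℂ) (u : Fin r → ℂ), lv e (𝔭.lam 0) u ≠ 0 →
        MvPolynomial.eval₂ e u p = lv e (𝔭.lam 0) u ^ m *
          (P.map (ph e (yv 𝔭 e u))).eval (lv e 𝔭.w u / lv e (𝔭.lam 0) u) := by
  induction P using Polynomial.induction_on' with
  | add p q hp hq =>
    obtain ⟨m1, h1⟩ := hp
    obtain ⟨m2, h2⟩ := hq
    refine ⟨max m1 m2, fun m hm => ?_⟩
    obtain ⟨p', hp', hp''⟩ := h1 m ((le_max_left _ _).trans hm)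
    obtain ⟨q', hq', hq''⟩ := h2 m ((le_max_right _ _).trans hm)
    refine ⟨p' + q', hp'.add hq', fun e u hu => ?_⟩
    rw [MvPolynomial.eval₂_add, hp'' e u hu, hq'' e u hu, Polynomial.map_add, eval_add]
    ring
  | monomial k a =>
    obtain ⟨m1, h1⟩ := homog 𝔭 a
    refine ⟨m1 + k, fun m hm => ?_⟩
    obtain ⟨m', rfl⟩ := Nat.exists_eq_add_of_le' hm
    obtain ⟨p', hp', hp''⟩ := h1 (m' + m1) (Nat.le_add_left _ _)
    refine ⟨p' * lfp 𝔭.w ^ k, ?_, fun e u hu => ?_⟩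
    · have := hp'.mul ((lfp_hom 𝔭.w).pow k)
      rw [one_mul] at this
      rwa [add_assoc] at this
    · rw [MvPolynomial.eval₂_mul, MvPolynomial.eval₂_pow, hp'' e u hu, eval₂_lfp, map_monomial,
        eval_monomial, ← add_assoc, pow_add _ (m' + m1) k, div_pow]
      field_simp

/-! ### null sets -/

variable {M : Type} [TopologicalSpace M] {A : Atl n M} {O : LB A}

namespace Mbr

variable {𝔭 : PrD n r R} {e : R →+* ℂ} {U : Fin r → Fn A} {𝔰 : FmD r R} {σ : HSymp A}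

theorem pM_eq (h : Mbr 𝔭 e O U) (P : (MvPolynomial (Fin n) R)[X]) {i : A.ι} {x : M}
    (hx : x ∈ (A.e i).source) : pM 𝔭 e U P x = (P.map (ph e (yv 𝔭 e fun k => U k i x))).eval
      (lv e 𝔭.w (fun k => U k i x) / lv e (𝔭.lam 0) (fun k => U k i x)) := by
  unfold pM
  have h1 : yM 𝔭 e U x = yv 𝔭 e fun k => U k i x := funext fun j => h.yM_eq hx j
  rw [h1, h.zM_eq hx]

theorem null_W [MeasurableSpace M] [BorelSpace M] [Countable A.ι] [ConnectedSpace M]
    (h : Mbr 𝔭 e O U) {P : (MvPolynomial (Fin n) R)[X]} (hP : (W 𝔭 e U P).Nonempty) :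
    vm (volS σ) (W 𝔭 e U P)ᶜ = 0 := by
  obtain ⟨m0, hm0⟩ := homog2 𝔭 P
  obtain ⟨p, hp, hpe⟩ := hm0 m0 le_rfl
  obtain ⟨x0, hx0⟩ := hP
  obtain ⟨i0, hi0⟩ := A.cover x0
  have hs : IsHS (O ^ m0) univ (evF U (p.map e)) := isHS_evF h.hs (hp.map e)
  have hval : ∀ i, ∀ x ∈ (A.e i).source, x ∈ nz (ls e U (𝔭.lam 0)) →
      evF U (p.map e) i x = lv e (𝔭.lam 0) (fun k => U k i x) ^ m0 * pM 𝔭 e U P x := by
    intro i x hx hx0
    rw [evF_apply _ _ hx, MvPolynomial.eval_map, hpe e _ ((h.nz_iff hx).1 hx0), h.pM_eq P hx]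
  have hn1 : vm (volS σ) (nz (evF U (p.map e)))ᶜ = 0 := by
    refine Crest.Agent.R273.SteinL_794.null_nz (volS σ) hs ⟨i0, x0, hi0, ?_⟩
    rw [hval i0 x0 hi0 hx0.1]
    exact mul_ne_zero (pow_ne_zero _ ((h.nz_iff hi0).1 hx0.1)) hx0.2
  have hn2 : vm (volS σ) (nz (ls e U (𝔭.lam 0)))ᶜ = 0 :=
    Crest.Agent.R273.SteinL_794.null_nz (volS σ) (h.hls _)
      ⟨i0, x0, hi0, (h.nz_iff hi0).1 hx0.1⟩
  refine measure_mono_null ?_ (measure_union_null hn1 hn2)
  intro x hx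
  by_contra hcon
  rw [mem_union, not_or, notMem_compl_iff, notMem_compl_iff] at hcon
  apply hx
  refine ⟨hcon.2, fun h0 => ?_⟩
  obtain ⟨i, hi⟩ := A.cover x
  have h1 := (mem_nz hs hi).1 hcon.1
  rw [hval i x hi hcon.2, h0, mul_zero] at h1
  exact h1 rfl

section mass

variable [MeasurableSpace M] [BorelSpace M] [Countable A.ι]

/-- upper bound for the mass over `B` -/
theorem mass_le (h : Mbr 𝔭 e O U) (hg : 𝔭.Good) (hs : 𝔰.Good) (hσ : FMbr 𝔰 e U σ.toH2)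
    {B : Set (Fin n → ℂ)} (hB : MeasurableSet B) {H : (Fin n → ℂ) → ℝ≥0∞}
    (hH : ∀ᵐ y : Fin n → ℂ, ∀ z, (𝔭.F.map (ph e y)).eval z = 0 →
      ENNReal.ofReal (dS 𝔭 𝔰 e y z) ≤ H y) :
    vm (volS σ) (W 𝔭 e U (𝔭.gp 𝔰) ∩ yM 𝔭 e U ⁻¹' B) ≤
      ∫⁻ y in B, (𝔭.F.natDegree : ℝ≥0∞) * H y := by
  rw [h.area_y hs hσ hB]
  refine lintegral_mono_ae (ae_restrict_of_ae ?_)
  filter_upwards [hH] with y hy
  refine h.fsum_le hg (fun x hx => ((W_gp x).1 hx).1) fun x hx hxy => ?_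
  have h1 := h.eqF x hx.1
  unfold pM at h1
  rw [hxy] at h1
  rw [hxy]
  exact hy _ h1

/-- lower bound for the mass -/
theorem le_mass (h : Mbr 𝔭 e O U) (hg : 𝔭.Good) (hs : 𝔰.Good) (hσ : FMbr 𝔰 e U σ.toH2)
    {H : (Fin n → ℂ) → ℝ≥0∞}
    (hH : ∀ᵐ y : Fin n → ℂ, ∃ z, (𝔭.F.map (ph e y)).eval z = 0 ∧
      ((𝔭.gp 𝔰).map (ph e y)).eval z ≠ 0 ∧ H y ≤ ENNReal.ofReal (dS 𝔭 𝔰 e y z)) :
    ∫⁻ y, H y ≤ vm (volS σ) (W 𝔭 e U (𝔭.gp 𝔰)) := by
  have h1 := h.area_y hs hσ (B := univ) MeasurableSet.univ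
  rw [preimage_univ, inter_univ] at h1
  rw [h1, Measure.restrict_univ]
  refine lintegral_mono_ae ?_
  filter_upwards [hH] with y hy
  obtain ⟨z, hz, hgp, hHz⟩ := hy
  have hz' : ((derivative 𝔭.F).map (ph e y)).eval z ≠ 0 := by
    intro h0
    apply hgp
    rw [PrD.gp, Polynomial.map_mul, eval_mul, h0, zero_mul]
  obtain ⟨x, hx0, hxy, hxz⟩ := h.exists_pt hg hz hz'
  have hxW : x ∈ W 𝔭 e U (𝔭.gp 𝔰) := by
    refine ⟨hx0, ?_⟩
    unfold pM
    rw [hxy, hxz]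
    exact hgp
  refine hHz.trans ?_
  have h2 := le_fsum (𝔭 := 𝔭) (e := e) (U := U)
    (G := fun x => ENNReal.ofReal (dS 𝔭 𝔰 e (yM 𝔭 e U x) (zM 𝔭 e U x))) hxW hxy
  rw [hxy, hxz] at h2
  exact h2

end mass

end Mbr

end Crest.Agent.R281.GT_639
end
end

-- ▼ part R281/GT10_639
section

/-!
Row 281, glue DIV 2 -> DIV 3 -> DIV 4 (helper639).  Part 10: the sections of the triangular tuple.

* `sp`, `sS`  : `s_0 = lam_0^m`, `s_(j+1) = lam_0^m f_j(y)` as polynomials over `R` and as sections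
* `quo_eq`    : `s_(j+1)/s_0 = f_j(y)`
* `eta_eq`    : `dlog` matrix `= (∂_b f_j / f_j) * Jy`
* `det_tri`   : for triangular `f` its determinant is `∏ ∂_j f_j / f_j`
* `jsq_eq`    : `Jsq = ∏ |∂_j f_j / f_j|² / (ρ |det σ_y|)`
-/

set_option autoImplicit false
set_option linter.unusedSectionVars false

open Polynomial Set Filter Topology Complex MeasureTheory
open scoped ContDiff Matrix ComplexConjugate Manifold ENNReal

noncomputable section

namespace Crest.Agent.R281.GT_639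

open Crest.Agent.R275 Crest.Agent.R275.Geo Crest.Agent.R275.Core144 Crest.Agent.R275.EDR890
open Crest.Agent.R273.Defs_333 Crest.Agent.R273.Kah_333
open Crest.Agent.R273.SerA_945 (Fn)
open Crest.Agent.R273.SteinC_794 Crest.Agent.R273.Chow_313
open Crest.Agent.R273.Vm_333 Crest.Agent.R273.Vol_333
open Crest.Agent.R273.FIb0_597 (ch mem_ch)
open Crest.Agent.R281.Defs_273 Crest.Agent.R281.AF_867 Crest.Agent.R281.Qr_770
open Crest.Agent.R281.HkP2_508 (volS)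
open Crest.Agent.R281.SIn_14

/-! ### scaling of the measure -/

section scal

variable {n : ℕ} {M : Type} [TopologicalSpace M] {A : Atl n M} [MeasurableSpace M] [BorelSpace M]
  [Countable A.ι]

theorem chm_scal {h h' : HM (KB A)⁻¹} {ρ : ℝ} (hρ : 0 ≤ ρ)
    (hh : ∀ i, ∀ x ∈ (A.e i).source, h'.w i x = ρ * h.w i x) (i : A.ι) :
    chm h' i = ENNReal.ofReal ρ • chm h i := by
  ext E hE
  rw [Measure.smul_apply, smul_eq_mul, chm_apply h' i hE, chm_apply h i hE,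
    ← lintegral_const_mul' _ _ ENNReal.ofReal_ne_top]
  refine setLIntegral_congr_fun (meas_inter i hE) fun y hy => ?_
  simp only [dn]
  rw [hh i _ (sg_mem hy.1), ENNReal.ofReal_mul hρ]

theorem vm_scal {h h' : HM (KB A)⁻¹} {ρ : ℝ} (hρ : 0 ≤ ρ)
    (hh : ∀ i, ∀ x ∈ (A.e i).source, h'.w i x = ρ * h.w i x) :
    vm h' = ENNReal.ofReal ρ • vm h := by
  symm
  apply ext_vm
  intro i
  rw [Measure.restrict_smul, vm_restrict, chm_scal hρ hh]

end scal

variable {n r : ℕ} {R : Type*} [CommRing R]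

/-- homogeneous polynomials for the triangular tuple -/
structure STup (𝔭 : PrD n r R) (f : Fin n → MvPolynomial (Fin n) R) where
  m : ℕ
  pos : 0 < m
  p : Fin n → MvPolynomial (Fin r) R
  hom : ∀ j, (p j).IsHomogeneous m
  eq : ∀ j (e : R →+* ℂ) (u : Fin r → ℂ), lv e (𝔭.lam 0) u ≠ 0 →
    MvPolynomial.eval₂ e u (p j) = lv e (𝔭.lam 0) u ^ m * ph e (yv 𝔭 e u) (f j)

theorem exists_STup (𝔭 : PrD n r R) (f : Fin n → MvPolynomial (Fin n) R) :
    Nonempty (STup 𝔭 f) := by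
  choose m0 hm0 using fun j => homog 𝔭 (f j)
  have h1 : ∀ j, m0 j ≤ ∑ j, m0 j + 1 := fun j =>
    (Finset.single_le_sum (fun _ _ => Nat.zero_le _) (Finset.mem_univ j)).trans (Nat.le_succ _)
  choose p hp he using fun j => hm0 j (∑ j, m0 j + 1) (h1 j)
  exact ⟨⟨∑ j, m0 j + 1, Nat.succ_pos _, p, hp, he⟩⟩

namespace STup

variable {𝔭 : PrD n r R} {f : Fin n → MvPolynomial (Fin n) R}

/-- the polynomials -/
def sp (𝔱 : STup 𝔭 f) : Fin (n + 1) → MvPolynomial (Fin r) R :=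
  Fin.cons (lfp (𝔭.lam 0) ^ 𝔱.m) 𝔱.p

theorem sp_hom (𝔱 : STup 𝔭 f) (j : Fin (n + 1)) : (𝔱.sp j).IsHomogeneous 𝔱.m := by
  refine Fin.cases ?_ (fun j => ?_) j
  · have := (lfp_hom (𝔭.lam 0)).pow 𝔱.m
    rwa [one_mul] at this
  · exact 𝔱.hom j

variable {M : Type} [TopologicalSpace M] {A : Atl n M} {O : LB A}

/-- the sections -/
def sS (𝔱 : STup 𝔭 f) (e : R →+* ℂ) (U : Fin r → Fn A) (j : Fin (n + 1)) : A.ι → M → ℂ :=
  evF U ((𝔱.sp j).map e)

end STup

variable {M : Type} [TopologicalSpace M] {A : Atl n M} {O : LB A}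

/-- the matrix of the logarithmic derivatives -/
def Dm (f : Fin n → MvPolynomial (Fin n) R) (φ : MvPolynomial (Fin n) R →+* ℂ) :
    Matrix (Fin n) (Fin n) ℂ :=
  Matrix.of fun j b => φ (MvPolynomial.pderiv b (f j)) / φ (f j)

theorem det_tri {f : Fin n → MvPolynomial (Fin n) R} (hf : ∀ i, ∀ j ∈ (f i).vars, i ≤ j)
    (φ : MvPolynomial (Fin n) R →+* ℂ) :
    (Dm f φ).det = ∏ i, φ (MvPolynomial.pderiv i (f i)) / φ (f i) := by
  rw [Matrix.det_of_isUpperTriangular]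
  · rfl
  · intro j b hb
    rw [Dm, Matrix.of_apply, MvPolynomial.pderiv_eq_zero_of_notMem_vars, map_zero, zero_div]
    intro h1
    exact absurd (hf j b h1) (not_le.2 hb)

namespace Mbr

variable {𝔭 : PrD n r R} {e : R →+* ℂ} {U : Fin r → Fn A} {𝔰 : FmD r R} {σ : HSymp A}
  {f : Fin n → MvPolynomial (Fin n) R}

theorem hs_sS (h : Mbr 𝔭 e O U) (𝔱 : STup 𝔭 f) (j : Fin (n + 1)) :
    IsHS (O ^ 𝔱.m) univ (𝔱.sS e U j) := isHS_evF h.hs ((𝔱.sp_hom j).map e)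

theorem sS_zero (h : Mbr 𝔭 e O U) (𝔱 : STup 𝔭 f) {i : A.ι} {x : M} (hx : x ∈ (A.e i).source) :
    𝔱.sS e U 0 i x = ls e U (𝔭.lam 0) i x ^ 𝔱.m := by
  unfold STup.sS
  rw [evF_apply _ _ hx, MvPolynomial.eval_map, STup.sp, Fin.cons_zero, MvPolynomial.eval₂_pow,
    eval₂_lfp]
  rfl

theorem sS_succ (h : Mbr 𝔭 e O U) (𝔱 : STup 𝔭 f) {i : A.ι} {x : M} (hx : x ∈ (A.e i).source)
    (h0 : x ∈ nz (ls e U (𝔭.lam 0))) (j : Fin n) :
    𝔱.sS e U j.succ i x = ls e U (𝔭.lam 0) i x ^ 𝔱.m * ph e (yM 𝔭 e U x) (f j) := by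
  unfold STup.sS
  rw [evF_apply _ _ hx, MvPolynomial.eval_map, STup.sp, Fin.cons_succ,
    𝔱.eq j e _ ((h.nz_iff hx).1 h0)]
  have h1 : yM 𝔭 e U x = yv 𝔭 e fun k => U k i x := funext fun j => h.yM_eq hx j
  rw [h1]
  rfl

theorem nz_sS (h : Mbr 𝔭 e O U) (𝔱 : STup 𝔭 f) {x : M} :
    NZ (𝔱.sS e U) x ↔ x ∈ nz (ls e U (𝔭.lam 0)) ∧ ∀ j, ph e (yM 𝔭 e U x) (f j) ≠ 0 := by
  have hx := mem_ch A x
  constructor
  · intro h1
    have h0 : x ∈ nz (ls e U (𝔭.lam 0)) := by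
      rw [h.nz_iff hx]
      intro h2
      apply h1 0
      rw [h.sS_zero 𝔱 hx]
      simp only [ls]
      rw [h2, zero_pow 𝔱.pos.ne']
    refine ⟨h0, fun j h2 => ?_⟩
    apply h1 j.succ
    rw [h.sS_succ 𝔱 hx h0, h2, mul_zero]
  · rintro ⟨h0, h1⟩ j
    have h2 : ls e U (𝔭.lam 0) (ch A x) x ^ 𝔱.m ≠ 0 := pow_ne_zero _ ((h.nz_iff hx).1 h0)
    refine Fin.cases ?_ (fun j => ?_) j
    · rw [h.sS_zero 𝔱 hx]
      exact h2
    · rw [h.sS_succ 𝔱 hx h0]
      exact mul_ne_zero h2 (h1 j)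

theorem quo_eq (h : Mbr 𝔭 e O U) (𝔱 : STup 𝔭 f) {x : M} (h0 : x ∈ nz (ls e U (𝔭.lam 0)))
    (j : Fin n) : quo (𝔱.sS e U) x j = ph e (yM 𝔭 e U x) (f j) := by
  have hx := mem_ch A x
  have h2 : ls e U (𝔭.lam 0) (ch A x) x ^ 𝔱.m ≠ 0 := pow_ne_zero _ ((h.nz_iff hx).1 h0)
  unfold quo
  rw [h.sS_zero 𝔱 hx, h.sS_succ 𝔱 hx h0, mul_div_cancel_left₀ _ h2]

theorem eta_eq (h : Mbr 𝔭 e O U) (𝔱 : STup 𝔭 f) {i : A.ι} {x : M} (hx : x ∈ (A.e i).source)
    (h0 : x ∈ nz (ls e U (𝔭.lam 0))) (hf : ∀ j, ph e (yM 𝔭 e U x) (f j) ≠ 0) :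
    eta (𝔱.sS e U) i x = Dm f (ph e (yM 𝔭 e U x)) * Jy 𝔭 e U i x := by
  have hl := (A.e i).left_inv hx
  set P0 : M → ℂ := fun x => ls e U (𝔭.lam 0) i x ^ 𝔱.m with hP0
  have hP : P0 x ≠ 0 := pow_ne_zero _ ((h.nz_iff hx).1 h0)
  have hdl : DifferentiableAt ℂ (fun ζ => P0 ((A.e i).symm ζ)) (A.e i x) :=
    (((h.hls (𝔭.lam 0)).hol i).diffAt isOpen_univ hx (mem_univ x)).pow _
  have hdy := (h.diff_y hx h0).hasFDerivAt
  ext j a
  have h1 : HasFDerivAt (fun ζ => ph e (yM 𝔭 e U ((A.e i).symm ζ)) (f j))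
      (lc (fun b => ph e (yM 𝔭 e U x) (MvPolynomial.pderiv b (f j)))
        (fderiv ℂ (fun ζ => yM 𝔭 e U ((A.e i).symm ζ)) (A.e i x))) (A.e i x) := by
    have h2 := (ph_hasFDerivAt e (f j) (yM 𝔭 e U ((A.e i).symm (A.e i x)))).comp (A.e i x) hdy
    rw [hl] at h2
    exact h2
  have h3 := hdl.hasFDerivAt.fun_mul h1
  have h4 : HasFDerivAt (fun ζ => 𝔱.sS e U j.succ i ((A.e i).symm ζ)) _ (A.e i x) :=
    h3.congr_of_eventuallyEq (by
      filter_upwards [ev_symm hx ((A.e i).open_source.mem_nhds hx),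
        ev_symm hx (h.open_nz.mem_nhds h0)] with ζ hζ hζ'
      exact h.sS_succ 𝔱 hζ hζ' j)
  have h5 : HasFDerivAt (fun ζ => 𝔱.sS e U 0 i ((A.e i).symm ζ)) _ (A.e i x) :=
    hdl.hasFDerivAt.congr_of_eventuallyEq (by
      filter_upwards [ev_symm hx ((A.e i).open_source.mem_nhds hx)] with ζ hζ
      exact h.sS_zero 𝔱 hζ)
  rw [SIn_14.eta, Matrix.of_apply, pd, pd, h4.fderiv, h5.fderiv, h.sS_zero 𝔱 hx, h.sS_succ 𝔱 hx h0]
  simp only [_root_.add_apply, _root_.smul_apply, smul_eq_mul, lc_apply, hl]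
  rw [Matrix.mul_apply]
  have h6 : ∀ b, Dm f (ph e (yM 𝔭 e U x)) j b * Jy 𝔭 e U i x b a =
      (ph e (yM 𝔭 e U x) (f j))⁻¹ * (ph e (yM 𝔭 e U x) (MvPolynomial.pderiv b (f j)) *
        (fderiv ℂ (fun ζ => yM 𝔭 e U ((A.e i).symm ζ)) (A.e i x))
          (EuclideanSpace.single a 1) b) := by
    intro b
    rw [Dm, Matrix.of_apply, Jy, Matrix.of_apply]
    ring
  rw [Finset.sum_congr rfl fun b _ => h6 b, ← Finset.mul_sum]
  have h7 := hf j
  have h8 : ls e U (𝔭.lam 0) i x ^ 𝔱.m ≠ 0 := hP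
  simp only [hP0]
  field_simp
  ring

/-- the density -/
theorem jsq_eq (h : Mbr 𝔭 e O U) (hs : 𝔰.Good) (hσ : FMbr 𝔰 e U σ.toH2) (𝔱 : STup 𝔭 f)
    (hf : ∀ i, ∀ j ∈ (f i).vars, i ≤ j) {K : Kah A} {ρ : ℝ}
    (hK : ∀ i, ∀ x ∈ (A.e i).source, (K.g i x).det.re = ρ * ‖(σ.s i x).det‖) {x : M}
    (hW : x ∈ W 𝔭 e U (𝔭.gp 𝔰)) (hfx : ∀ j, ph e (yM 𝔭 e U x) (f j) ≠ 0) :
    Jsq K (𝔱.sS e U) x = (∏ i, ‖ph e (yM 𝔭 e U x) (MvPolynomial.pderiv i (f i)) /
      ph e (yM 𝔭 e U x) (f i)‖ ^ 2) / (ρ * dS 𝔭 𝔰 e (yM 𝔭 e U x) (zM 𝔭 e U x)) := by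
  have hx := mem_ch A x
  have hW' := (W_gp x).1 hW
  have h1 := h.form hs hσ hx hW'.1 hW'.2
  have h2 := det_form_eq h1
  have h3 := h.Jy_det_ne hx hW'.1
  have h4 : 0 < ‖(Jy 𝔭 e U (ch A x) x).det‖ := norm_pos_iff.2 h3
  unfold Jsq
  rw [h.eta_eq 𝔱 hx hW.1 hfx, Matrix.det_mul, det_tri hf, hK _ x hx, h2, norm_mul, mul_pow,
    norm_prod, Finset.prod_pow, dS]
  field_simp

/-- where `Jsq ≠ 0` -/
theorem jsq_ne (h : Mbr 𝔭 e O U) (𝔱 : STup 𝔭 f) (hf : ∀ i, ∀ j ∈ (f i).vars, i ≤ j) {K : Kah A}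
    {x : M} (hN : NZ (𝔱.sS e U) x) : Jsq K (𝔱.sS e U) x ≠ 0 ↔
      (∀ i, ph e (yM 𝔭 e U x) (MvPolynomial.pderiv i (f i)) ≠ 0) ∧
        (Jy 𝔭 e U (ch A x) x).det ≠ 0 := by
  have hx := mem_ch A x
  obtain ⟨h0, h1⟩ := (h.nz_sS 𝔱).1 hN
  have h2 : (K.g (ch A x) x).det.re ≠ 0 := (det_re_pos (K.pos _ x hx)).ne'
  unfold Jsq
  rw [h.eta_eq 𝔱 hx h0 h1, Matrix.det_mul, det_tri hf, Ne, div_eq_zero_iff, not_or,
    pow_eq_zero_iff two_ne_zero, norm_eq_zero, mul_eq_zero, not_or, Finset.prod_eq_zero_iff]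
  constructor
  · rintro ⟨⟨h3, h4⟩, -⟩
    refine ⟨fun i h5 => h3 ⟨i, Finset.mem_univ i, ?_⟩, h4⟩
    rw [h5, zero_div]
  · rintro ⟨h3, h4⟩
    refine ⟨⟨?_, h4⟩, h2⟩
    rintro ⟨i, -, h5⟩
    rw [div_eq_zero_iff] at h5
    exact h5.elim (h3 i) (h1 i)

end Mbr

end Crest.Agent.R281.GT_639
end
end

-- ▼ part R281/GT4_639

/-!
Row 281, glue DIV 2 -> DIV 3 (helper639).  Part 4: the maximum over the sheets of the modulus of a
rational function on the sheets lies in the class `Tr A` of 726, up to constants.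
-/

set_option autoImplicit false

open Polynomial
open Crest.Agent.R281.TrPL_726 (Tr PL)

noncomputable section

namespace Crest.Agent.R281.GT_639

section lead

variable {A : Type*} [CommRing A]


theorem prod_coeff_card' {K : Type*} [Field K] (s : Multiset K) (p q : K → K) :
    (s.map fun z => C (q z) * X - C (p z)).prod.coeff (Multiset.card s) = (s.map q).prod := by
  classical
  induction s using Multiset.induction_on with
  | empty => simp
  | cons a s ih =>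
    rw [Multiset.map_cons, Multiset.prod_cons, Multiset.map_cons, Multiset.prod_cons,
      Multiset.card_cons, sub_mul, coeff_sub, mul_assoc, coeff_C_mul, coeff_X_mul, coeff_C_mul,
      ih]
    have hdeg : (s.map fun z => C (q z) * X - C (p z)).prod.natDegree
        < Multiset.card s + 1 := by
      refine lt_of_le_of_lt (natDegree_multiset_prod_le _) ?_
      rw [Multiset.map_map, Nat.lt_succ_iff]
      refine (Multiset.sum_map_le_sum_map (g := fun _ => 1) _ fun z _ => ?_).trans (by simp)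
      simp only [Function.comp_apply]
      compute_degree
    rw [coeff_eq_zero_of_natDegree_lt hdeg, mul_zero, sub_zero]

end lead

variable {A : Type*} [CommRing A] [IsDomain A] {F : A[X]}

/-- the coefficients of `H` as seen in an algebraically closed field over `A` -/
theorem H_alg (hm : F.Monic) (hp : Prime F) {P Q : A[X]} {n : ℕ} (hP : P.natDegree ≤ n)
    (hQ : Q.natDegree ≤ n) (hFQ : ¬ F ∣ Q) :
    (H F P Q n).coeff F.natDegree ≠ 0 ∧
      (¬ F ∣ P → ∃ j, 1 ≤ j ∧ j ≤ F.natDegree ∧ (H F P Q n).coeff (F.natDegree - j) ≠ 0) := by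
  classical
  set K := AlgebraicClosure (FractionRing A) with hK
  set ι : A →+* K := (algebraMap (FractionRing A) K).comp (algebraMap A (FractionRing A)) with hι
  have hinj : Function.Injective ι :=
    (algebraMap (FractionRing A) K).injective.comp (IsFractionRing.injective A (FractionRing A))
  have hs : (F.map ι).Splits := IsAlgClosed.splits _
  have hH := H_map F P Q hm hP hQ ι hs
  set R := (F.map ι).roots with hR
  have hcard : Multiset.card R = F.natDegree := by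
    rw [hR, ← hs.natDegree_eq_card_roots, hm.natDegree_map]
  -- a common root gives divisibility
  have hdiv : ∀ S : A[X], ∀ z ∈ R, (S.map ι).eval z = 0 → F ∣ S := by
    intro S z hz h0
    have hz' : (F.map ι).eval z = 0 := (mem_roots (hm.map ι).ne_zero).1 hz
    have hirr := irr_of_prime hm hp
    have h1 : F.map (algebraMap A (FractionRing A)) ∣ S.map (algebraMap A (FractionRing A)) := by
      by_contra hcon
      obtain ⟨a, b, hab⟩ := hirr.coprime_iff_not_dvd.2 hcon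
      have h2 := congrArg (fun p => (p.map (algebraMap (FractionRing A) K)).eval z) hab
      simp only [Polynomial.map_add, Polynomial.map_mul, eval_add, eval_mul, Polynomial.map_one,
        eval_one] at h2
      rw [Polynomial.map_map, Polynomial.map_map] at h2
      rw [← hι, hz', h0] at h2
      simp at h2
    exact (map_dvd_map _ (IsFractionRing.injective A (FractionRing A)) hm).1 h1
  have hlead : (H F P Q n).coeff F.natDegree ≠ 0 := by
    intro h0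
    have h1 := congrArg (fun p => coeff p F.natDegree) hH
    simp only [coeff_map] at h1
    rw [h0, map_zero, ← hcard, prod_coeff_card' R (fun z => (P.map ι).eval z)
      (fun z => (Q.map ι).eval z)] at h1
    have h2 := h1.symm
    rw [Multiset.prod_eq_zero_iff, Multiset.mem_map] at h2
    obtain ⟨z, hz, hz0⟩ := h2
    exact hFQ (hdiv Q z hz hz0)
  refine ⟨hlead, fun hFP => ?_⟩
  by_contra hcon
  push Not at hcon
  have hd0 : 0 < F.natDegree := by
    rcases Nat.eq_zero_or_pos F.natDegree with h | h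
    · exact absurd (by rw [hm.natDegree_eq_zero.1 h]; exact isUnit_one) hp.not_isUnit
    · exact h
  have h1 := hcon F.natDegree hd0 le_rfl
  rw [Nat.sub_self] at h1
  have h2 := congrArg (fun p => eval (0 : K) p) hH
  rw [← coeff_zero_eq_eval_zero, coeff_map, h1, map_zero, eval_multiset_prod, Multiset.map_map]
    at h2
  have h3 := h2.symm
  rw [Multiset.prod_eq_zero_iff, Multiset.mem_map] at h3
  obtain ⟨z, hz, hz0⟩ := h3
  simp only [Function.comp_apply, eval_sub, eval_mul, eval_C, eval_X, mul_zero, zero_sub,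
    neg_eq_zero] at hz0
  exact hFP (hdiv P z hz hz0)

/-- **TROP-IN, algebraic core.**  The maximum over the sheets of `|g|` is in the class `Tr A`, up to
constants, off one hypersurface. -/
theorem RS.tr (hm : F.Monic) (hp : Prime F) {g : (A →+* ℂ) → ℂ → ℂ} (hg : RS F g)
    (hne : ∀ q : A, q ≠ 0 → ∃ φ : A →+* ℂ, φ q ≠ 0 ∧ ∃ z, (F.map φ).eval z = 0 ∧ g φ z ≠ 0) :
    ∃ (G : (A →+* ℂ) → ℝ) (q1 : A) (B : ℝ), Tr A G ∧ q1 ≠ 0 ∧ 0 < B ∧
      ∀ φ : A →+* ℂ, φ q1 ≠ 0 →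
        (∀ z, (F.map φ).eval z = 0 → ‖g φ z‖ ≤ B * G φ) ∧
        ∃ z, (F.map φ).eval z = 0 ∧ G φ ≤ B * ‖g φ z‖ := by
  classical
  obtain ⟨P, Q, q, hQ, hq, HH⟩ := hg
  have hP : ¬ F ∣ P := by
    intro hd
    obtain ⟨φ, hφ, z, hz, hgz⟩ := hne q hq
    obtain ⟨h1, h2⟩ := HH φ hφ z hz
    apply hgz
    obtain ⟨S, rfl⟩ := hd
    rw [h2, Polynomial.map_mul, eval_mul, hz, zero_mul, zero_div]
  set n := max P.natDegree Q.natDegree with hn
  have hPn : P.natDegree ≤ n := le_max_left _ _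
  have hQn : Q.natDegree ≤ n := le_max_right _ _
  obtain ⟨hlead, hJ⟩ := H_alg hm hp hPn hQn hQ
  obtain ⟨j0, hj01, hj0d, hj0⟩ := hJ hP
  set d := F.natDegree with hd
  set h := H F P Q n with hh
  set J : Finset ℕ := (Finset.Icc 1 d).filter fun j => h.coeff (d - j) ≠ 0 with hJdef
  have hJne : J.Nonempty := ⟨j0, by
    rw [hJdef, Finset.mem_filter, Finset.mem_Icc]
    exact ⟨⟨hj01, hj0d⟩, hj0⟩⟩
  have hJmem : ∀ j ∈ J, 1 ≤ j ∧ j ≤ d ∧ h.coeff (d - j) ≠ 0 := by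
    intro j hj
    rw [hJdef, Finset.mem_filter, Finset.mem_Icc] at hj
    exact ⟨hj.1.1, hj.1.2, hj.2⟩
  -- the PL function
  let V := Option {j // j ∈ J}
  let qv : V → A := fun v => v.elim (h.coeff d) fun j => h.coeff (d - j.1)
  have hqv : ∀ v, qv v ≠ 0 := by
    intro v
    rcases v with _ | j
    · exact hlead
    · exact (hJmem j.1 j.2).2.2
  let Fj : {j // j ∈ J} → (V → ℝ) → ℝ := fun j ξ =>
    (((1 : ℚ) / (j.1 : ℚ) : ℚ) : ℝ) * (ξ (some j) - ξ none)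
  have hFj : ∀ j ∈ (Finset.univ : Finset {j // j ∈ J}), PL (Fj j) := by
    intro j _
    exact ((PL.coord (some j)).sub (PL.coord none)).smul _
  have huniv : (Finset.univ : Finset {j // j ∈ J}).Nonempty := by
    obtain ⟨j, hj⟩ := hJne
    exact ⟨⟨j, hj⟩, Finset.mem_univ _⟩
  obtain ⟨Gl, hGl, hG1, hG2⟩ := PL.exists_sup (Finset.univ : Finset {j // j ∈ J}) huniv hFj
  refine ⟨fun φ => Real.exp (Gl fun v => Real.log ‖φ (qv v)‖),
    q * (h.coeff d * ∏ j ∈ J, h.coeff (d - j)), 2 ^ (d + 1), Tr.mk' qv hqv hGl, ?_, by positivity,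
    ?_⟩
  · exact mul_ne_zero hq (mul_ne_zero hlead (Finset.prod_ne_zero_iff.2 fun j hj =>
      (hJmem j hj).2.2))
  intro φ hφ
  rw [map_mul, map_mul, map_prod] at hφ
  have hφq : φ q ≠ 0 := left_ne_zero_of_mul hφ
  have hφd : φ (h.coeff d) ≠ 0 := left_ne_zero_of_mul (right_ne_zero_of_mul hφ)
  have hφj : ∀ j ∈ J, φ (h.coeff (d - j)) ≠ 0 := by
    intro j hj
    exact Finset.prod_ne_zero_iff.1 (right_ne_zero_of_mul (right_ne_zero_of_mul hφ)) j hj
  obtain ⟨hb1, hb2, hb3⟩ := H_bound F P Q hm hPn hQn φ hφd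
  have hval : ∀ z, (F.map φ).eval z = 0 → g φ z = (P.map φ).eval z / (Q.map φ).eval z :=
    fun z hz => (HH φ hφq z hz).2
  have hroot : ∀ z, z ∈ (F.map φ).roots ↔ (F.map φ).eval z = 0 := fun z =>
    mem_roots (hm.map φ).ne_zero
  set ξ : V → ℝ := fun v => Real.log ‖φ (qv v)‖ with hξ
  have hd0 : 0 < d := lt_of_lt_of_le hj01 hj0d
  have hlpos : 0 < ‖φ (h.coeff d)‖ := norm_pos_iff.2 hφd
  refine ⟨fun z hz => ?_, ?_⟩
  · obtain ⟨j, hj1, hjd, hjz⟩ := hb3 z ((hroot z).2 hz)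
    rw [← hval z hz] at hjz
    by_cases hjJ : j ∈ J
    · have h1 := hG1 ξ ⟨j, hjJ⟩ (Finset.mem_univ _)
      rcases eq_or_lt_of_le (norm_nonneg (g φ z)) with h0 | h0
      · rw [← h0]
        positivity
      · have hjpos : (0 : ℝ) < j := by exact_mod_cast hj1
        have h2 : (j : ℝ) * Real.log (‖g φ z‖ / 2) ≤ Real.log ‖φ (h.coeff (d - j))‖ -
            Real.log ‖φ (h.coeff d)‖ := by
          have h3 : 0 < (‖g φ z‖ / 2) ^ j := by positivity
          have h4 := Real.log_le_log (mul_pos h3 hlpos) hjz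
          rw [Real.log_mul h3.ne' hlpos.ne', Real.log_pow] at h4
          linarith
        have h5 : Real.log (‖g φ z‖ / 2) ≤ Gl ξ := by
          refine le_trans ?_ h1
          show Real.log (‖g φ z‖ / 2) ≤ (((1 : ℚ) / (j : ℚ) : ℚ) : ℝ) *
            (Real.log ‖φ (h.coeff (d - j))‖ - Real.log ‖φ (h.coeff d)‖)
          push_cast
          rw [one_div, ← div_eq_inv_mul, le_div_iff₀ hjpos]
          linarith
        have h6 : ‖g φ z‖ / 2 ≤ Real.exp (Gl ξ) := by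
          rw [← Real.exp_log (show 0 < ‖g φ z‖ / 2 by positivity)]
          exact Real.exp_le_exp.2 h5
        have h7 : (2 : ℝ) ≤ 2 ^ (d + 1) := by
          calc (2 : ℝ) = 2 ^ 1 := by norm_num
            _ ≤ 2 ^ (d + 1) := pow_le_pow_right₀ (by norm_num) (by omega)
        calc ‖g φ z‖ ≤ 2 * Real.exp (Gl ξ) := by linarith
          _ ≤ 2 ^ (d + 1) * Real.exp (Gl ξ) :=
            mul_le_mul_of_nonneg_right h7 (Real.exp_pos _).le
    · have h1 : h.coeff (d - j) = 0 := by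
        by_contra hcon
        apply hjJ
        rw [hJdef, Finset.mem_filter, Finset.mem_Icc]
        exact ⟨⟨hj1, hjd⟩, hcon⟩
      rw [h1, map_zero, norm_zero] at hjz
      have h2 : (‖g φ z‖ / 2) ^ j = 0 := by
        have h3 : 0 ≤ (‖g φ z‖ / 2) ^ j := by positivity
        have := mul_nonneg h3 hlpos.le
        have h4 : (‖g φ z‖ / 2) ^ j * ‖φ (h.coeff d)‖ = 0 := le_antisymm hjz this
        rcases mul_eq_zero.1 h4 with h5 | h5
        · exact h5
        · exact absurd h5 hlpos.ne'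
      have h3 : ‖g φ z‖ = 0 := by
        have := pow_eq_zero_iff (by omega : j ≠ 0) |>.1 h2
        linarith
      rw [h3]
      positivity
  · obtain ⟨j, _, hj⟩ := hG2 ξ
    obtain ⟨hj1, hjd, hjne⟩ := hJmem j.1 j.2
    -- the maximal sheet
    have hrne : ((F.map φ).roots.toFinset).Nonempty := by
      obtain ⟨z, hz⟩ := IsAlgClosed.exists_root (F.map φ) (by
        rw [degree_eq_natDegree (hm.map φ).ne_zero, hm.natDegree_map]
        exact_mod_cast hd0.ne')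
      exact ⟨z, by rw [Multiset.mem_toFinset]; exact (hroot z).2 hz⟩
    obtain ⟨z, hz, hzmax⟩ := Finset.exists_max_image (F.map φ).roots.toFinset (fun z => ‖g φ z‖)
      hrne
    rw [Multiset.mem_toFinset] at hz
    refine ⟨z, (hroot z).1 hz, ?_⟩
    have h1 := hb2 ‖g φ z‖ (by
      intro w hw
      rw [← hval w ((hroot w).1 hw)]
      exact hzmax w (by rw [Multiset.mem_toFinset]; exact hw)) j.1 hjd
    have hjpos : (0 : ℝ) < j.1 := by exact_mod_cast hj1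
    have hnum : 0 < ‖φ (h.coeff (d - j.1))‖ := norm_pos_iff.2 (hφj j.1 j.2)
    have hgpos : 0 < ‖g φ z‖ := by
      rcases eq_or_lt_of_le (norm_nonneg (g φ z)) with h0 | h0
      · exfalso
        rw [← h0, zero_pow (by omega), mul_zero, zero_mul] at h1
        exact absurd h1 (not_le.2 hnum)
      · exact h0
    have h2 : Real.log ‖φ (h.coeff (d - j.1))‖ - Real.log ‖φ (h.coeff d)‖ ≤
        d * Real.log 2 + j.1 * Real.log ‖g φ z‖ := by
      have h3 := Real.log_le_log hnum h1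
      rw [Real.log_mul (by positivity) hlpos.ne', Real.log_mul (by positivity) (by positivity),
        Real.log_pow, Real.log_pow] at h3
      linarith
    have hlog2 : 0 < Real.log 2 := Real.log_pos (by norm_num)
    have h4 : Gl ξ ≤ d * Real.log 2 + Real.log ‖g φ z‖ := by
      rw [hj]
      show (((1 : ℚ) / (j.1 : ℚ) : ℚ) : ℝ) *
            (Real.log ‖φ (h.coeff (d - j.1))‖ - Real.log ‖φ (h.coeff d)‖) ≤ _
      push_cast
      rw [one_div, ← div_eq_inv_mul, div_le_iff₀ hjpos]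
      refine h2.trans ?_
      have h5 : (d : ℝ) * Real.log 2 ≤ d * Real.log 2 * j.1 := by
        have h6 : (1 : ℝ) ≤ j.1 := by exact_mod_cast hj1
        nlinarith [mul_nonneg (Nat.cast_nonneg (α := ℝ) d) hlog2.le]
      nlinarith
    calc Real.exp (Gl ξ) ≤ Real.exp (d * Real.log 2 + Real.log ‖g φ z‖) := Real.exp_le_exp.2 h4
      _ = 2 ^ d * ‖g φ z‖ := by
          rw [Real.exp_add, Real.exp_log hgpos, ← Real.log_pow, Real.exp_log (by positivity)]
      _ ≤ 2 ^ (d + 1) * ‖g φ z‖ := by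
          refine mul_le_mul_of_nonneg_right ?_ (norm_nonneg _)
          exact pow_le_pow_right₀ (by norm_num) (by omega)

end Crest.Agent.R281.GT_639
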