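import Mathlib
import Crest.Agent.R271.Null_821

-- ▼ part R281/Gal1_257
section

/-!
# Row 281, KAP-GAL part 1 (helper257): automorphisms of an algebraically closed field

`exists_ringEquiv`: two embeddings of a countable domain into an uncountable algebraically closed
field of characteristic zero differ by an automorphism.
`mem_of_fixed`: the fixed field of `Aut(Ω/K)`, `K` countable, is `K`.
-/

set_option autoImplicit false

namespace Crest.Agent.R281.Gal1_257

open Cardinal

universe u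

section Ext

variable {R : Type u} [CommRing R] [IsDomain R] {Ω : Type u} [Field Ω] [IsAlgClosed Ω]

/-- copy of `Ω` seen as an algebra along a given map -/
def Cp {R : Type u} [CommRing R] {Ω : Type u} [Field Ω] (_i : R →+* Ω) : Type u := Ω

noncomputable instance {R : Type u} [CommRing R] {Ω : Type u} [Field Ω] (i : R →+* Ω) :
    Field (Cp i) := inferInstanceAs (Field Ω)

instance {R : Type u} [CommRing R] {Ω : Type u} [Field Ω] [IsAlgClosed Ω] (i : R →+* Ω) :
    IsAlgClosed (Cp i) := inferInstanceAs (IsAlgClosed Ω)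

noncomputable instance {R : Type u} [CommRing R] {Ω : Type u} [Field Ω] (i : R →+* Ω) :
    Algebra R (Cp i) := i.toAlgebra

theorem exists_ringEquiv [Countable R] (hΩ : ℵ₀ < #Ω) (i j : R →+* Ω)
    (hi : Function.Injective i) (hj : Function.Injective j) :
    ∃ σ : Ω ≃+* Ω, ∀ r, σ (i r) = j r := by
  classical
  have : Nontrivial R := inferInstance
  have : FaithfulSMul R (Cp i) := (faithfulSMul_iff_algebraMap_injective R (Cp i)).2 hi
  have : FaithfulSMul R (Cp j) := (faithfulSMul_iff_algebraMap_injective R (Cp j)).2 hj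
  obtain ⟨s, hs⟩ := exists_isTranscendenceBasis R (Cp i)
  obtain ⟨t, ht⟩ := exists_isTranscendenceBasis R (Cp j)
  have hR : #R ≤ ℵ₀ := Cardinal.mk_le_aleph0
  have h1 : #(Cp i) = #s :=
    IsAlgClosed.cardinal_eq_cardinal_transcendence_basis_of_aleph0_lt' _ hs hR hΩ
  have h2 : #(Cp j) = #t :=
    IsAlgClosed.cardinal_eq_cardinal_transcendence_basis_of_aleph0_lt' _ ht hR hΩ
  have h3 : #s = #t := h1.symm.trans h2
  obtain ⟨e⟩ := Cardinal.eq.1 h3
  let := IsAlgClosed.isAlgClosure_of_transcendence_basis _ hs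
  let := IsAlgClosed.isAlgClosure_of_transcendence_basis _ ht
  let ee : Algebra.adjoin R (Set.range (Subtype.val : s → Cp i)) ≃ₐ[R]
      Algebra.adjoin R (Set.range (Subtype.val : t → Cp j)) :=
    (hs.1.aevalEquiv.symm.trans (MvPolynomial.renameEquiv R e)).trans ht.1.aevalEquiv
  let σ : Cp i ≃+* Cp j := IsAlgClosure.equivOfEquiv (Cp i) (Cp j) ee.toRingEquiv
  refine ⟨σ, fun r => ?_⟩
  have h4 : σ (algebraMap (Algebra.adjoin R (Set.range (Subtype.val : s → Cp i))) (Cp i)
      (algebraMap R _ r)) = algebraMap (Algebra.adjoin R (Set.range (Subtype.val : t → Cp j)))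
        (Cp j) (ee.toRingEquiv (algebraMap R _ r)) :=
    IsAlgClosure.equivOfEquiv_algebraMap _ _ _ _
  have h5 : ee.toRingEquiv (algebraMap R _ r) = algebraMap R _ r := ee.commutes r
  rw [h5] at h4
  exact h4

end Ext

section Fix

variable {Ω : Type u} [Field Ω] [IsAlgClosed Ω] [CharZero Ω]

open Polynomial in
/-- the fixed field of the automorphisms over a countable subfield -/
theorem exists_moves (hΩ : ℵ₀ < #Ω) {K : Type u} [Field K] [Countable K] [Algebra K Ω]
    (a : Ω) (ha : a ∉ Set.range (algebraMap K Ω)) :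
    ∃ σ : Ω ≃ₐ[K] Ω, σ a ≠ a := by
  classical
  have : CharZero K := (algebraMap K Ω).charZero
  by_cases h : IsAlgebraic K a
  · have hint : IsIntegral K a := h.isIntegral
    -- another root
    have hsep : (minpoly K a).Separable := (minpoly.irreducible hint).separable
    obtain ⟨b, hb, hba⟩ : ∃ b, aeval b (minpoly K a) = 0 ∧ b ≠ a := by
      by_contra hcon
      push Not at hcon
      have h1 : (minpoly K a).aroots Ω = Multiset.replicate (minpoly K a).natDegree a := by
        rw [Multiset.eq_replicate]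
        constructor
        · rw [aroots, splits_iff_card_roots.1 (IsAlgClosed.splits _), natDegree_map]
        · intro b hb
          exact hcon b (by simpa using (mem_aroots.1 hb).2)
      have h2 : ((minpoly K a).aroots Ω).Nodup := nodup_aroots_iff_of_splits
        (minpoly.ne_zero hint) (IsAlgClosed.splits _) |>.2 hsep
      rw [h1, Multiset.nodup_iff_count_le_one] at h2
      have h3 : (minpoly K a).natDegree ≤ 1 := by simpa using h2 a
      have h4 : (minpoly K a).natDegree = 1 :=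
        le_antisymm h3 (minpoly.natDegree_pos hint)
      exact ha (minpoly.natDegree_eq_one_iff.1 h4)
    have : Fact (Irreducible (minpoly K a)) := ⟨minpoly.irreducible hint⟩
    have : Countable (AdjoinRoot (minpoly K a)) := by
      have : Countable K[X] := by
        rw [← Cardinal.mk_le_aleph0_iff]
        exact (Polynomial.cardinalMk_le_max).trans (by simp)
      exact (AdjoinRoot.mk_surjective (g := minpoly K a)).countable
    let i : AdjoinRoot (minpoly K a) →+* Ω :=
      AdjoinRoot.lift (algebraMap K Ω) a (by simpa [aeval_def] using minpoly.aeval K a)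
    let j : AdjoinRoot (minpoly K a) →+* Ω :=
      AdjoinRoot.lift (algebraMap K Ω) b (by simpa [aeval_def] using hb)
    have hi1 : ∀ r, i (AdjoinRoot.of _ r) = algebraMap K Ω r := fun r => AdjoinRoot.lift_of _
    have hj1 : ∀ r, j (AdjoinRoot.of _ r) = algebraMap K Ω r := fun r => AdjoinRoot.lift_of _
    have hi2 : i (AdjoinRoot.root _) = a := AdjoinRoot.lift_root _
    have hj2 : j (AdjoinRoot.root _) = b := AdjoinRoot.lift_root _
    obtain ⟨σ, hσ⟩ := exists_ringEquiv hΩ i j i.injective j.injective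
    refine ⟨{ σ with commutes' := fun r => ?_ }, ?_⟩
    · have := hσ (AdjoinRoot.of _ r)
      rw [hi1, hj1] at this
      exact this
    · have h5 := hσ (AdjoinRoot.root _)
      rw [hi2, hj2] at h5
      change σ a ≠ a
      rw [h5]; exact hba
  · have htr : Transcendental K a := h
    have : Countable K[X] := by
      rw [← Cardinal.mk_le_aleph0_iff]
      exact (Polynomial.cardinalMk_le_max).trans (by simp)
    have htr2 : Transcendental K (a + 1) := by
      intro hcon
      apply htr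
      have : IsAlgebraic K ((a + 1) - 1) := hcon.sub isAlgebraic_one
      simpa using this
    obtain ⟨σ, hσ⟩ := exists_ringEquiv hΩ (aeval (R := K) a).toRingHom
      (aeval (R := K) (a + 1)).toRingHom
      (transcendental_iff_injective.1 htr) (transcendental_iff_injective.1 htr2)
    refine ⟨{ σ with commutes' := fun r => ?_ }, ?_⟩
    · have := hσ (C r)
      simpa using this
    · have := hσ X
      have h5 : σ a = a + 1 := by simpa using this
      change σ a ≠ a
      rw [h5]; simp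

theorem mem_of_fixed (hΩ : ℵ₀ < #Ω) {K : Type u} [Field K] [Countable K] [Algebra K Ω]
    (a : Ω) (ha : ∀ σ : Ω ≃ₐ[K] Ω, σ a = a) : a ∈ Set.range (algebraMap K Ω) := by
  by_contra h
  obtain ⟨σ, hσ⟩ := exists_moves hΩ a h
  exact hσ (ha σ)

end Fix

end Crest.Agent.R281.Gal1_257
end

-- ▼ part R281/Gal2_257
section

/-!
# Row 281, KAP-GAL part 2 (helper257): descent of the equations of a family of algebraic sets

`Piv V P`: restriction of `V ⊆ Ω^ι` to the coordinates in `P` is bijective; `ent`: the dual basis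
(the entries of the reduced echelon form).  `Idl S T`: the polynomials with exponents in `S`
vanishing on `T`.
-/

set_option autoImplicit false
set_option linter.unusedSectionVars false

namespace Crest.Agent.R281.Gal2_257

open Cardinal

universe u

section Piv

variable {Ω : Type u} [Field Ω] {ι : Type*}

/-- restriction to the coordinates in `P` is bijective on `V` -/
def Piv (V : Submodule Ω (ι → Ω)) (P : Set ι) : Prop :=
  Function.Bijective (fun (v : V) (p : P) => (v : ι → Ω) p)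

theorem exists_piv [Finite ι] (V : Submodule Ω (ι → Ω)) : ∃ P : Set ι, Piv V P := by
  classical
  have := Fintype.ofFinite ι
  let A : Set (Finset ι) := {P | ∀ v ∈ V, (∀ p ∈ P, v p = 0) → v = 0}
  obtain ⟨P, hP, hmin⟩ := (wellFounded_lt (α := Finset ι)).has_min A
    ⟨Finset.univ, fun v _ h => funext fun i => h i (Finset.mem_univ i)⟩
  have hdual : ∀ p ∈ P, ∃ v ∈ V, v p = 1 ∧ ∀ q ∈ P, q ≠ p → v q = 0 := by
    intro p hp
    have h1 : P.erase p ∉ A := fun h => hmin _ h (Finset.erase_ssubset hp)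
    have h2 : ∃ v ∈ V, (∀ q ∈ P.erase p, v q = 0) ∧ v ≠ 0 := by
      by_contra hcon
      push Not at hcon
      exact h1 fun v hv hq => hcon v hv hq
    obtain ⟨v, hv, hq, hne⟩ := h2
    have h3 : v p ≠ 0 := by
      intro h0
      apply hne
      apply hP v hv
      intro q hqP
      by_cases hqp : q = p
      · rw [hqp]; exact h0
      · exact hq q (Finset.mem_erase.2 ⟨hqp, hqP⟩)
    refine ⟨(v p)⁻¹ • v, V.smul_mem _ hv, by simp [h3], ?_⟩
    intro q hqP hqp
    simp [hq q (Finset.mem_erase.2 ⟨hqp, hqP⟩)]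
  refine ⟨(P : Set ι), ?_, ?_⟩
  · intro v w h
    have h1 : (v : ι → Ω) - w = 0 := by
      apply hP _ (V.sub_mem v.2 w.2)
      intro p hp
      have := congrFun h ⟨p, hp⟩
      simpa [sub_eq_zero] using this
    exact Subtype.ext (sub_eq_zero.1 h1)
  · intro c
    choose! e he using hdual
    refine ⟨⟨∑ p : P, c ⟨p, p.2⟩ • e p, V.sum_mem fun p _ => V.smul_mem _ (he p p.2).1⟩, ?_⟩
    ext q
    have hq : (q : ι) ∈ P := q.2
    simp only [Finset.sum_apply, Pi.smul_apply, smul_eq_mul]
    rw [Finset.sum_eq_single (⟨q, hq⟩ : P)]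
    · rw [(he q hq).2.1, mul_one]
    · intro p _ hpq
      rw [(he p p.2).2.2 q hq (fun h => hpq (Subtype.ext h.symm)), mul_zero]
    · intro h; exact absurd (Finset.mem_univ _) h

open Classical in
/-- the dual vectors: `ent p` is the vector of `V` with coordinates `δ_p` on `P` -/
noncomputable def ent {V : Submodule Ω (ι → Ω)} {P : Set ι} (h : Piv V P) (p : P) : ι → Ω :=
  ((Equiv.ofBijective _ h).symm (Pi.single p 1) : V)

theorem ent_mem {V : Submodule Ω (ι → Ω)} {P : Set ι} (h : Piv V P) (p : P) : ent h p ∈ V :=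
  Subtype.coe_prop _

open Classical in
theorem ent_apply {V : Submodule Ω (ι → Ω)} {P : Set ι} (h : Piv V P) (p q : P) :
    ent h p q = (Pi.single p 1 : P → Ω) q := by
  have := (Equiv.ofBijective _ h).apply_symm_apply (Pi.single p 1)
  exact congrFun this q

theorem ent_self {V : Submodule Ω (ι → Ω)} {P : Set ι} (h : Piv V P) (p : P) :
    ent h p p = 1 := by
  rw [ent_apply]; simp

theorem ent_ne {V : Submodule Ω (ι → Ω)} {P : Set ι} (h : Piv V P) {p q : P} (hqp : q ≠ p) :
    ent h p q = 0 := by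
  rw [ent_apply]; simp [hqp]

theorem Piv.ext {V : Submodule Ω (ι → Ω)} {P : Set ι} (h : Piv V P) {v w : ι → Ω} (hv : v ∈ V)
    (hw : w ∈ V) (hp : ∀ p : P, v p = w p) : v = w := by
  have : (⟨v, hv⟩ : V) = ⟨w, hw⟩ := h.1 (funext hp)
  exact congrArg Subtype.val this

theorem ent_unique {V : Submodule Ω (ι → Ω)} {P : Set ι} (h : Piv V P) (p : P) {v : ι → Ω}
    (hv : v ∈ V) (h1 : v p = 1) (h0 : ∀ q : P, q ≠ p → v q = 0) : v = ent h p := by
  apply h.ext hv (ent_mem h p)
  intro q
  by_cases hq : q = p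
  · rw [hq, ent_self, h1]
  · rw [ent_ne h hq, h0 q hq]

/-- the entries determine the space -/
theorem eq_of_ent [Finite ι] {V W : Submodule Ω (ι → Ω)} {P : Set ι} (hV : Piv V P)
    (hW : Piv W P) (h : ∀ p : P, ent hV p = ent hW p) : V = W := by
  classical
  have := Fintype.ofFinite ι
  have key : ∀ {V W : Submodule Ω (ι → Ω)} (hV : Piv V P) (hW : Piv W P),
      (∀ p : P, ent hV p = ent hW p) → V ≤ W := by
    intro V W hV hW h v hv
    have h1 : v = ∑ p : P, v p • ent hV p := by
      apply hV.ext hv (V.sum_mem fun p _ => V.smul_mem _ (ent_mem hV p))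
      intro q
      simp only [Finset.sum_apply, Pi.smul_apply, smul_eq_mul]
      rw [Finset.sum_eq_single q]
      · rw [ent_self, mul_one]
      · intro p _ hpq
        rw [ent_ne hV (Ne.symm hpq), mul_zero]
      · intro h; exact absurd (Finset.mem_univ _) h
    rw [h1]
    refine W.sum_mem fun p _ => W.smul_mem _ ?_
    rw [h p]; exact ent_mem hW p
  exact le_antisymm (key hV hW h) (key hW hV fun p => (h p).symm)

/-- `V'` is the image of `V` under the automorphism `σ` applied coordinatewise -/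
def Tr (σ : Ω ≃+* Ω) (V V' : Submodule Ω (ι → Ω)) : Prop :=
  ∀ v : ι → Ω, v ∈ V ↔ (fun i => σ (v i)) ∈ V'

theorem Tr.mem' {σ : Ω ≃+* Ω} {V V' : Submodule Ω (ι → Ω)} (h : Tr σ V V') {v : ι → Ω}
    (hv : v ∈ V') : (fun i => σ.symm (v i)) ∈ V := by
  rw [h]; simpa using hv

theorem Tr.piv {σ : Ω ≃+* Ω} {V V' : Submodule Ω (ι → Ω)} (h : Tr σ V V') {P : Set ι}
    (hP : Piv V P) : Piv V' P := by
  constructor
  · intro v w hvw
    apply Subtype.ext
    have h1 : (fun i => σ.symm ((v : ι → Ω) i)) = fun i => σ.symm ((w : ι → Ω) i) := by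
      apply hP.ext (h.mem' v.2) (h.mem' w.2)
      intro p
      exact congrArg σ.symm (congrFun hvw p)
    funext i
    exact σ.symm.injective (congrFun h1 i)
  · intro c
    obtain ⟨v, hv⟩ := hP.2 (fun p => σ.symm (c p))
    refine ⟨⟨fun i => σ ((v : ι → Ω) i), (h _).1 v.2⟩, ?_⟩
    funext p
    have := congrFun hv p
    simp only at this ⊢
    rw [this, RingEquiv.apply_symm_apply]

theorem Tr.ent {σ : Ω ≃+* Ω} {V V' : Submodule Ω (ι → Ω)} (h : Tr σ V V') {P : Set ι}
    (hP : Piv V P) (hP' : Piv V' P) (p : P) (i : ι) :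
    ent hP' p i = σ (ent hP p i) := by
  have h1 : (fun i => σ (Gal2_257.ent hP p i)) = Gal2_257.ent hP' p := by
    apply ent_unique hP' p ((h _).1 (ent_mem hP p))
    · simp [ent_self]
    · intro q hq; simp [ent_ne hP hq]
  exact (congrFun h1 i).symm

end Piv

section Idl

variable {Ω : Type u} [Field Ω] {κ : Type} [Fintype κ]

/-- coefficient vectors of polynomials with exponents in `S` which vanish on `T` -/
def Idl (S : Finset (κ →₀ ℕ)) (T : Set (κ → Ω)) : Submodule Ω (S → Ω) where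
  carrier := {c | ∀ z ∈ T, ∑ m : S, c m * ∏ i, z i ^ (m : κ →₀ ℕ) i = 0}
  add_mem' := by
    intro a b ha hb z hz
    simp only [Pi.add_apply, add_mul, Finset.sum_add_distrib]
    rw [ha z hz, hb z hz, add_zero]
  zero_mem' := by intro z _; simp
  smul_mem' := by
    intro c a ha z hz
    simp only [Pi.smul_apply, smul_eq_mul, mul_assoc, ← Finset.mul_sum]
    rw [ha z hz, mul_zero]


/-- `T'` is the image of `T` under `σ` applied to the coordinates -/
def TrS (σ : Ω ≃+* Ω) (T T' : Set (κ → Ω)) : Prop :=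
  ∀ z : κ → Ω, z ∈ T ↔ (fun i => σ (z i)) ∈ T'

theorem TrS.idl {σ : Ω ≃+* Ω} {T T' : Set (κ → Ω)} (h : TrS σ T T') (S : Finset (κ →₀ ℕ)) :
    Tr σ (Idl S T) (Idl S T') := by
  intro c
  have key : ∀ z : κ → Ω, ∑ m : S, σ (c m) * ∏ i, (σ (z i)) ^ (m : κ →₀ ℕ) i =
      σ (∑ m : S, c m * ∏ i, z i ^ (m : κ →₀ ℕ) i) := by
    intro z
    simp [map_sum, map_mul, map_prod, map_pow]
  constructor
  · intro hc z hz
    have hz' : (fun i => σ.symm (z i)) ∈ T := by rw [h]; simpa using hz
    have h1 := key (fun i => σ.symm (z i))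
    simp only [RingEquiv.apply_symm_apply] at h1
    rw [h1, hc _ hz', map_zero]
  · intro hc z hz
    have h1 := hc _ ((h z).1 hz)
    rw [key] at h1
    exact σ.injective (h1.trans (map_zero σ).symm)

end Idl

section Rel

variable {k Ω : Type u} [Field k] [Field Ω] [IsAlgClosed Ω] [CharZero Ω] [Algebra k Ω]
variable {κ : Type} [Fintype κ]

open MvPolynomial

/-- same polynomial relations over `k` -/
def Rel (k : Type u) {Ω : Type u} [Field k] [Field Ω] [Algebra k Ω] {κ : Type}
    (x y : κ → Ω) : Prop :=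
  ∀ p : MvPolynomial κ k, aeval x p = 0 ↔ aeval y p = 0

theorem countable_mvPoly [Countable k] : Countable (MvPolynomial κ k) := by
  rw [← Cardinal.mk_le_aleph0_iff]
  refine (MvPolynomial.cardinalMk_le_max_lift).trans ?_
  simp

/-- generic points are conjugate -/
theorem exists_conj [Countable k] (hΩ : ℵ₀ < #Ω) {x y : κ → Ω} (h : Rel k x y) :
    ∃ σ : Ω ≃ₐ[k] Ω, ∀ i, σ (x i) = y i := by
  classical
  have hc : Countable (MvPolynomial κ k) := countable_mvPoly
  let f : MvPolynomial κ k →+* Ω := (aeval (R := k) x).toRingHom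
  let g : MvPolynomial κ k →+* Ω := (aeval (R := k) y).toRingHom
  let I := RingHom.ker f
  have hI : I.IsPrime := RingHom.ker_isPrime f
  have hg : ∀ a ∈ I, g a = 0 := fun a ha => (h a).1 (RingHom.mem_ker.1 ha)
  have : Countable (MvPolynomial κ k ⧸ I) := (Ideal.Quotient.mk_surjective (I := I)).countable
  let i : MvPolynomial κ k ⧸ I →+* Ω := Ideal.Quotient.lift I f fun a ha => RingHom.mem_ker.1 ha
  let j : MvPolynomial κ k ⧸ I →+* Ω := Ideal.Quotient.lift I g hg
  have hi : Function.Injective i := by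
    rw [injective_iff_map_eq_zero]
    intro a
    obtain ⟨a, rfl⟩ := Ideal.Quotient.mk_surjective a
    intro ha
    rw [Ideal.Quotient.eq_zero_iff_mem]
    exact ha
  have hj : Function.Injective j := by
    rw [injective_iff_map_eq_zero]
    intro a
    obtain ⟨a, rfl⟩ := Ideal.Quotient.mk_surjective a
    intro ha
    rw [Ideal.Quotient.eq_zero_iff_mem]
    exact (h a).2 ha
  obtain ⟨σ, hσ⟩ := Gal1_257.exists_ringEquiv hΩ i j hi hj
  refine ⟨{ σ with commutes' := fun r => ?_ }, fun n => ?_⟩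
  · have := hσ (Ideal.Quotient.mk I (C r))
    have h1 : i (Ideal.Quotient.mk I (C r)) = algebraMap k Ω r := by
      change f (C r) = _
      simp [f]
    have h2 : j (Ideal.Quotient.mk I (C r)) = algebraMap k Ω r := by
      change g (C r) = _
      simp [g]
    rw [h1, h2] at this
    exact this
  · have := hσ (Ideal.Quotient.mk I (X n))
    have h1 : i (Ideal.Quotient.mk I (X n)) = x n := by
      change f (X n) = _
      simp [f]
    have h2 : j (Ideal.Quotient.mk I (X n)) = y n := by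
      change g (X n) = _
      simp [g]
    rw [h1, h2] at this
    exact this

/-- an element fixed by all automorphisms over `k` fixing `x` is a rational function of `x` -/
theorem exists_ratio [Countable k] (hΩ : ℵ₀ < #Ω) (x : κ → Ω) (a : Ω)
    (h : ∀ σ : Ω ≃ₐ[k] Ω, (∀ i, σ (x i) = x i) → σ a = a) :
    ∃ p q : MvPolynomial κ k, aeval x q ≠ 0 ∧ a = aeval x p / aeval x q := by
  classical
  let K : IntermediateField k Ω := IntermediateField.adjoin k (Set.range x)
  have hc : Countable (MvPolynomial κ k) := countable_mvPoly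
  have hmem : ∀ b : Ω, b ∈ K ↔ ∃ r s : MvPolynomial κ k, b = aeval x r / aeval x s :=
    fun b => IntermediateField.mem_adjoin_range_iff (F := k) x b
  have : Countable K := by
    let F : MvPolynomial κ k × MvPolynomial κ k → K := fun rs =>
      ⟨aeval x rs.1 / aeval x rs.2, (hmem _).2 ⟨rs.1, rs.2, rfl⟩⟩
    have hF : Function.Surjective F := by
      rintro ⟨b, hb⟩
      obtain ⟨r, s, hrs⟩ := (hmem b).1 hb
      exact ⟨(r, s), Subtype.ext hrs.symm⟩
    exact hF.countable
  have h1 : a ∈ Set.range (algebraMap K Ω) := by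
    apply Gal1_257.mem_of_fixed hΩ (K := K) a
    intro σ
    let σ' : Ω ≃ₐ[k] Ω := σ.restrictScalars k
    have := h σ' (fun i => by
      have hx : x i ∈ K := IntermediateField.subset_adjoin k _ ⟨i, rfl⟩
      exact σ.commutes ⟨x i, hx⟩)
    exact this
  obtain ⟨b, hb⟩ := h1
  obtain ⟨r, s, hrs⟩ := (hmem a).1 (hb ▸ b.2)
  by_cases hs : aeval x s = 0
  · exact ⟨0, 1, by simp, by rw [hrs, hs]; simp⟩
  · exact ⟨r, s, hs, hrs⟩

theorem Rel.ratio {x y : κ → Ω} (h : Rel k x y) {σ : Ω ≃ₐ[k] Ω} (hσ : ∀ i, σ (x i) = y i)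
    {a : Ω} {p q : MvPolynomial κ k} (hq : aeval x q ≠ 0) (ha : a = aeval x p / aeval x q) :
    aeval y q ≠ 0 ∧ σ a = aeval y p / aeval y q := by
  refine ⟨fun h0 => hq ((h q).2 h0), ?_⟩
  have key : ∀ p : MvPolynomial κ k, σ (aeval x p) = aeval y p := by
    intro p
    have h1 : (σ : Ω →ₐ[k] Ω).comp (aeval x) = aeval y := by
      ext i; simp [hσ]
    exact DFunLike.congr_fun h1 p
  rw [ha, map_div₀, key, key]

/-- **the entries of the equations are rational functions, the same at all conjugate points** -/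
theorem exists_entries [Countable k] (hΩ : ℵ₀ < #Ω) (S : Finset (κ →₀ ℕ)) (x : κ → Ω)
    (T : Set (κ → Ω)) (hT : ∀ σ : Ω ≃ₐ[k] Ω, (∀ i, σ (x i) = x i) → TrS (σ : Ω ≃+* Ω) T T) :
    ∃ (P : Set S) (p q : P → S → MvPolynomial κ k),
      ∀ (y : κ → Ω) (T' : Set (κ → Ω)), Rel k x y →
        (∀ σ : Ω ≃ₐ[k] Ω, (∀ i, σ (x i) = y i) → TrS (σ : Ω ≃+* Ω) T T') →
        ∃ hP : Piv (Idl S T') P, ∀ (a : P) (m : S), aeval y (q a m) ≠ 0 ∧
          ent hP a m = aeval y (p a m) / aeval y (q a m) := by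
  classical
  obtain ⟨P, hP⟩ := exists_piv (Idl S T)
  have h1 : ∀ (a : P) (m : S), ∃ p q : MvPolynomial κ k, aeval x q ≠ 0 ∧
      ent hP a m = aeval x p / aeval x q := by
    intro a m
    apply exists_ratio hΩ
    intro σ hσ
    have h2 := (hT σ hσ).idl S
    exact (h2.ent hP hP a m).symm
  choose p q hpq using h1
  refine ⟨P, p, q, ?_⟩
  intro y T' hxy hT'
  obtain ⟨σ, hσ⟩ := exists_conj hΩ hxy
  have h2 := (hT' σ hσ).idl S
  refine ⟨h2.piv hP, fun a m => ?_⟩
  have h3 := h2.ent hP (h2.piv hP) a m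
  have h4 := hxy.ratio hσ (hpq a m).1 (hpq a m).2
  refine ⟨h4.1, ?_⟩
  rw [h3]
  exact h4.2

end Rel

end Crest.Agent.R281.Gal2_257
end

-- ▼ part R281/Gal3_257
section

/-!
# Row 281, KAP-GAL part 3 (helper257): a holomorphic map which is injective on a set of full measure
has injective derivative somewhere
-/

set_option autoImplicit false
set_option linter.unusedSectionVars false

open MeasureTheory Set Filter Metric Topology

namespace Crest.Agent.R281.Gal3_257

variable {E : Type*} [NormedAddCommGroup E] [NormedSpace ℂ E] [FiniteDimensional ℂ E]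
  [MeasurableSpace E] [BorelSpace E]
variable {F : Type*} [NormedAddCommGroup F] [NormedSpace ℂ F] [FiniteDimensional ℂ F]

/-- two shifted good points -/
theorem exists_shift (μ : Measure E) [μ.IsAddHaarMeasure] {N : Set E} (hN : μ N = 0)
    {O : Set E} (hO : IsOpen O) (hne : O.Nonempty) (v : E) :
    ∃ a ∈ O, a ∉ N ∧ a + v ∉ N := by
  have h1 : μ ((fun a => a + v) ⁻¹' N) = 0 := by
    rw [measure_preimage_add_right]; exact hN
  have h2 : μ (N ∪ (fun a => a + v) ⁻¹' N) = 0 := measure_union_null hN h1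
  have h3 : 0 < μ O := hO.measure_pos μ hne
  have h4 : ¬ O ⊆ N ∪ (fun a => a + v) ⁻¹' N := fun h =>
    absurd (measure_mono_null h h2) h3.ne'
  obtain ⟨a, ha, hna⟩ := Set.not_subset.1 h4
  exact ⟨a, ha, fun h => hna (Or.inl h), fun h => hna (Or.inr h)⟩

theorem exists_injective_fderiv (μ : Measure E) [μ.IsAddHaarMeasure]
    {g : E → F} {U : Set E} (hU : IsOpen U) (hne : U.Nonempty) (hg : AnalyticOnNhd ℂ g U)
    {N : Set E} (hN : μ N = 0)
    (hinj : ∀ z ∈ U, z ∉ N → ∀ z' ∈ U, z' ∉ N → g z = g z' → z = z') :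
    ∃ z ∈ U, Function.Injective (fderiv ℂ g z) := by
  classical
  have hcompl : CompleteSpace E := FiniteDimensional.complete ℂ E
  have hcomplF : CompleteSpace F := FiniteDimensional.complete ℂ F
  -- a point of maximal rank
  let rk : E → ℕ := fun z => Module.finrank ℂ (LinearMap.range (fderiv ℂ g z : E →ₗ[ℂ] F))
  have hbd : ∀ z, rk z ≤ Module.finrank ℂ F := fun z => Submodule.finrank_le _
  obtain ⟨z₀, hz₀, hmax⟩ : ∃ z₀ ∈ U, ∀ z ∈ U, rk z ≤ rk z₀ := by
    obtain ⟨z₁, hz₁⟩ := hne
    let Q : ℕ → Prop := fun m => ∃ z ∈ U, rk z = m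
    have h1 : Q (Nat.findGreatest Q (Module.finrank ℂ F)) :=
      Nat.findGreatest_spec (P := Q) (hbd z₁) ⟨z₁, hz₁, rfl⟩
    obtain ⟨z₀, hz₀, hr⟩ := h1
    exact ⟨z₀, hz₀, fun z hz => hr ▸ Nat.le_findGreatest (hbd z) ⟨z, hz, rfl⟩⟩
  refine ⟨z₀, hz₀, ?_⟩
  by_contra hni
  set L : E →L[ℂ] F := fderiv ℂ g z₀ with hL
  set K : Submodule ℂ E := LinearMap.ker (L : E →ₗ[ℂ] F) with hK
  have hKne : ∃ v ∈ K, v ≠ 0 := by
    by_contra hcon
    push Not at hcon
    apply hni
    have h1 : LinearMap.ker (L : E →ₗ[ℂ] F) = ⊥ := by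
      rw [Submodule.eq_bot_iff]
      exact hcon
    exact LinearMap.ker_eq_bot.1 h1
  obtain ⟨K', hKK⟩ := Submodule.exists_isCompl K
  -- a left inverse on the complement
  have hinjK : LinearMap.ker ((L : E →ₗ[ℂ] F).comp K'.subtype) = ⊥ := by
    rw [Submodule.eq_bot_iff]
    intro x hx
    have h1 : (x : E) ∈ K := hx
    have h2 : (x : E) ∈ K ⊓ K' := ⟨h1, x.2⟩
    rw [hKK.inf_eq_bot] at h2
    exact Subtype.ext (by simpa using h2)
  obtain ⟨s, hs⟩ := LinearMap.exists_leftInverse_of_injective _ hinjK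
  -- the change of coordinates
  let πK : E →ₗ[ℂ] E := K.subtype.comp (Submodule.projectionOnto K K' hKK)
  let πK' : E →ₗ[ℂ] E := K'.subtype.comp (Submodule.projectionOnto K' K hKK.symm)
  have hsum : ∀ v, πK' v + πK v = v := by
    intro v
    have := Submodule.projection_add_projection_eq_self hKK v
    simp only [πK, πK', LinearMap.comp_apply, Submodule.subtype_apply]
    rw [add_comm]; exact this
  let S : F →L[ℂ] E := LinearMap.toContinuousLinearMap (K'.subtype.comp s)
  let P : E →L[ℂ] E := LinearMap.toContinuousLinearMap πK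
  have hSL : ∀ v, S (L v) = πK' v := by
    intro v
    have h1 : L v = L (πK' v) := by
      have h2 : L (πK v) = 0 := by
        have : (πK v : E) ∈ K := Subtype.coe_prop _
        exact this
      conv_lhs => rw [← hsum v, map_add, h2, add_zero]
    rw [h1]
    have h3 := LinearMap.congr_fun hs (Submodule.projectionOnto K' K hKK.symm v)
    simp only [LinearMap.comp_apply, LinearMap.id_apply, Submodule.subtype_apply] at h3
    change ((s (L _) : K') : E) = _
    exact congrArg Subtype.val h3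
  let Ψ : E → E := fun z => S (g z) + P z
  have hΨan : AnalyticOnNhd ℂ Ψ U := fun z hz =>
    ((S.analyticAt _).comp (hg z hz)).add (P.analyticAt z)
  have hΨ0 : HasStrictFDerivAt Ψ ((ContinuousLinearEquiv.refl ℂ E : E ≃L[ℂ] E) : E →L[ℂ] E) z₀ := by
    have h1 : HasStrictFDerivAt Ψ (S.comp L + P) z₀ :=
      (S.hasStrictFDerivAt.comp z₀ (hg z₀ hz₀).hasStrictFDerivAt).add P.hasStrictFDerivAt
    have h2 : S.comp L + P = ((ContinuousLinearEquiv.refl ℂ E : E ≃L[ℂ] E) : E →L[ℂ] E) := by
      ext v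
      change S (L v) + πK v = v
      rw [hSL, hsum]
    rw [← h2]; exact h1
  let h := hΨ0.toOpenPartialHomeomorph Ψ
  have hhc : (h : E → E) = Ψ := hΨ0.toOpenPartialHomeomorph_coe
  have hz₀s : z₀ ∈ h.source := hΨ0.mem_toOpenPartialHomeomorph_source
  let a₀ := Ψ z₀
  have ha₀ : a₀ ∈ h.target := by
    have := h.map_source hz₀s
    rwa [hhc] at this
  have hsymm0 : h.symm a₀ = z₀ := by
    have := h.left_inv hz₀s
    rwa [hhc] at this
  have hcd : ContDiffAt ℂ 1 h.symm a₀ := by
    apply h.contDiffAt_symm (f₀' := ContinuousLinearEquiv.refl ℂ E) ha₀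
    · rw [hsymm0, hhc]; exact hΨ0.hasFDerivAt
    · rw [hsymm0, hhc]; exact (hΨan z₀ hz₀).contDiffAt
  have hev : ∀ᶠ a in 𝓝 a₀, DifferentiableAt ℂ h.symm a := by
    have h1 := hcd.eventually (by simp)
    exact h1.mono fun a ha => ha.differentiableAt (by simp)
  have hevU : ∀ᶠ a in 𝓝 a₀, h.symm a ∈ U := by
    have h1 : ContinuousAt h.symm a₀ := h.continuousAt_symm ha₀
    apply h1.eventually_mem
    rw [hsymm0]; exact hU.mem_nhds hz₀
  have hevT : ∀ᶠ a in 𝓝 a₀, a ∈ h.target := h.open_target.mem_nhds ha₀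
  obtain ⟨ρ, hρ, hball⟩ := Metric.eventually_nhds_iff_ball.1 (hev.and (hevU.and hevT))
  let G : E → F := fun a => g (h.symm a)
  have hGd : ∀ a ∈ ball a₀ ρ, HasFDerivAt G ((fderiv ℂ g (h.symm a)).comp
      (fderiv ℂ h.symm a)) a := by
    intro a ha
    obtain ⟨h1, h2, _⟩ := hball a ha
    exact (hg _ h2).differentiableAt.hasFDerivAt.comp a h1.hasFDerivAt
  have hSG : ∀ a ∈ ball a₀ ρ, S (G a) = πK' a := by
    intro a ha
    obtain ⟨_, _, h3⟩ := hball a ha
    have h4 := h.right_inv h3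
    rw [hhc] at h4
    have h5 : S (g (h.symm a)) + πK (h.symm a) = a := h4
    have h6 : πK' (S (g (h.symm a)) + πK (h.symm a)) = πK' a := by rw [h5]
    have h7 : πK' (S (g (h.symm a))) = S (g (h.symm a)) := by
      change ((Submodule.projectionOnto K' K hKK.symm (((s (g (h.symm a)) : K') : E)) : K')
        : E) = _
      rw [Submodule.projectionOnto_apply_left]
      rfl
    have h8 : πK' (πK (h.symm a)) = 0 := by
      change ((Submodule.projectionOnto K' K hKK.symm
        (((Submodule.projectionOnto K K' hKK (h.symm a) : K) : E)) : K') : E) = _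
      rw [Submodule.projectionOnto_apply_right]
      rfl
    rw [map_add, h7, h8, add_zero] at h6
    exact h6
  -- the derivative of `G` vanishes on `K`
  have hGK : ∀ a ∈ ball a₀ ρ, ∀ v ∈ K, fderiv ℂ G a v = 0 := by
    intro a ha v hv
    set D : E →L[ℂ] F := (fderiv ℂ g (h.symm a)).comp (fderiv ℂ h.symm a) with hD
    have hfd : fderiv ℂ G a = D := (hGd a ha).fderiv
    rw [hfd]
    -- `S ∘ D = πK'`
    have h1 : ∀ w, S (D w) = πK' w := by
      have h2 : HasFDerivAt (fun a => S (G a)) (S.comp D) a :=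
        S.hasFDerivAt.comp a (hGd a ha)
      have h3 : HasFDerivAt (fun a => S (G a)) (LinearMap.toContinuousLinearMap πK') a := by
        have h4 : HasFDerivAt (fun a => πK' a) (LinearMap.toContinuousLinearMap πK') a :=
          (LinearMap.toContinuousLinearMap πK').hasFDerivAt
        refine h4.congr_of_eventuallyEq ?_
        filter_upwards [isOpen_ball.mem_nhds ha] with b hb
        exact hSG b hb
      intro w
      exact DFunLike.congr_fun (h2.unique h3) w
    -- dimension count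
    let R : Submodule ℂ F := LinearMap.range (D : E →ₗ[ℂ] F)
    have h5 : Module.finrank ℂ R ≤ rk z₀ := by
      refine le_trans ?_ (hmax _ (hball a ha).2.1)
      apply Submodule.finrank_mono
      rintro _ ⟨w, rfl⟩
      exact ⟨fderiv ℂ h.symm a w, rfl⟩
    have h6 : rk z₀ = Module.finrank ℂ K' := by
      have e1 := LinearMap.finrank_range_add_finrank_ker (L : E →ₗ[ℂ] F)
      have e2 := Submodule.finrank_add_eq_of_isCompl hKK
      change Module.finrank ℂ (LinearMap.range (L : E →ₗ[ℂ] F)) = _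
      have e3 : Module.finrank ℂ (LinearMap.ker (L : E →ₗ[ℂ] F)) = Module.finrank ℂ K := rfl
      omega
    let SR : R →ₗ[ℂ] K' := s.comp R.subtype
    have h7 : Function.Surjective SR := by
      intro w
      refine ⟨⟨D w, ⟨(w : E), rfl⟩⟩, ?_⟩
      apply Subtype.ext
      have h8 := h1 (w : E)
      have h9 : πK' (w : E) = w := by
        change ((Submodule.projectionOnto K' K hKK.symm (w : E) : K') : E) = _
        rw [Submodule.projectionOnto_apply_left]
      rw [h9] at h8
      exact h8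
    have h10 : Function.Injective SR := by
      rw [LinearMap.injective_iff_surjective_of_finrank_eq_finrank]
      · exact h7
      · apply le_antisymm
        · rw [← h6]; exact h5
        · exact LinearMap.finrank_le_finrank_of_surjective h7
    have h11 : SR ⟨D v, ⟨v, rfl⟩⟩ = 0 := by
      apply Subtype.ext
      have h12 := h1 v
      have h13 : πK' v = 0 := by
        change ((Submodule.projectionOnto K' K hKK.symm (v : E) : K') : E) = _
        rw [(Submodule.projectionOnto_apply_eq_zero_iff hKK.symm).2 hv]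
        rfl
      rw [h13] at h12
      exact h12
    have h14 : (⟨D v, ⟨v, rfl⟩⟩ : R) = 0 := h10 (h11.trans (map_zero SR).symm)
    exact congrArg Subtype.val h14
  -- `G` is constant in the direction of `v`
  obtain ⟨v₀, hv₀, hv₀ne⟩ := hKne
  obtain ⟨c, hc0, hc⟩ : ∃ c : ℂ, c ≠ 0 ∧ ‖c • v₀‖ < ρ / 2 := by
    have hpos : 0 < ‖v₀‖ := norm_pos_iff.2 hv₀ne
    refine ⟨((ρ / (4 * ‖v₀‖) : ℝ) : ℂ), ?_, ?_⟩
    · have : (ρ / (4 * ‖v₀‖) : ℝ) ≠ 0 := by positivity
      exact_mod_cast this
    · rw [norm_smul, Complex.norm_real, Real.norm_eq_abs, abs_of_pos (by positivity)]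
      have : ρ / (4 * ‖v₀‖) * ‖v₀‖ = ρ / 4 := by field_simp
      rw [this]; linarith
  set v := c • v₀ with hv
  have hvK : v ∈ K := K.smul_mem _ hv₀
  have hvne : v ≠ 0 := smul_ne_zero hc0 hv₀ne
  have hconst : ∀ a ∈ ball a₀ (ρ / 2), G (a + v) = G a := by
    intro a ha
    let f : ℝ → F := fun t => G (a + (t : ℂ) • v)
    have hseg : ∀ t ∈ Set.Icc (0 : ℝ) 1, a + (t : ℂ) • v ∈ ball a₀ ρ := by
      intro t ht
      rw [mem_ball, dist_eq_norm] at ha ⊢
      calc ‖a + (t : ℂ) • v - a₀‖ = ‖(a - a₀) + (t : ℂ) • v‖ := by congr 1; abel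
        _ ≤ ‖a - a₀‖ + ‖(t : ℂ) • v‖ := norm_add_le _ _
        _ ≤ ‖a - a₀‖ + ‖v‖ := by
            gcongr
            rw [norm_smul, Complex.norm_real, Real.norm_eq_abs, abs_of_nonneg ht.1]
            exact mul_le_of_le_one_left (norm_nonneg _) ht.2
        _ < ρ := by linarith
    have hder : ∀ t ∈ Set.Icc (0 : ℝ) 1, HasDerivWithinAt f 0 (Set.Icc 0 1) t := by
      intro t ht
      have h1 := (hGd _ (hseg t ht))
      have h2 : HasDerivAt (fun t : ℝ => a + (t : ℂ) • v) v t := by
        have h3 : HasDerivAt (fun t : ℝ => (t : ℂ)) 1 t := Complex.ofRealCLM.hasDerivAt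
        have h4 := (h3.smul_const v).const_add a
        simpa using h4
      have h5 := (h1.restrictScalars ℝ).comp_hasDerivAt t h2
      have h6 := hGK _ (hseg t ht) v hvK
      rw [(hGd _ (hseg t ht)).fderiv] at h6
      have h7 : HasDerivAt f (((fderiv ℂ g (h.symm (a + (t : ℂ) • v))).comp
          (fderiv ℂ h.symm (a + (t : ℂ) • v))) v) t := h5
      rw [h6] at h7
      exact h7.hasDerivWithinAt
    have h8 := (convex_Icc (0 : ℝ) 1).is_const_of_fderivWithin_eq_zero (𝕜 := ℝ) (f := f)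
      (fun t ht => (hder t ht).differentiableWithinAt) (fun t ht => by
        have h9 : UniqueDiffWithinAt ℝ (Set.Icc (0 : ℝ) 1) t :=
          uniqueDiffOn_Icc zero_lt_one t ht
        have h10 := (hder t ht).hasFDerivWithinAt.fderivWithin h9
        rw [h10]; ext; simp) (Set.left_mem_Icc.2 zero_le_one) (Set.right_mem_Icc.2 zero_le_one)
    have h9 : f 0 = f 1 := h8
    simp only [f, Complex.ofReal_zero, zero_smul, add_zero, Complex.ofReal_one, one_smul] at h9
    exact h9.symm
  -- the null set in the new coordinates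
  let N' : Set E := Ψ '' (N ∩ (h.source ∩ U))
  have hN' : μ N' = 0 := by
    let _ : NormedSpace ℝ E := NormedSpace.complexToReal
    have : FiniteDimensional ℝ E := FiniteDimensional.complexToReal E
    apply addHaar_image_eq_zero_of_differentiableOn_of_addHaar_eq_zero μ
    · intro z hz
      exact ((hΨan z hz.2.2).differentiableAt.restrictScalars ℝ).differentiableWithinAt
    · exact measure_mono_null Set.inter_subset_left hN
  obtain ⟨a, ha, hna, hnav⟩ := exists_shift μ hN' isOpen_ball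
    ⟨a₀, mem_ball_self (half_pos hρ)⟩ v
  have ha' : a ∈ ball a₀ ρ := ball_subset_ball (by linarith) ha
  have hav : a + v ∈ ball a₀ ρ := by
    rw [mem_ball, dist_eq_norm] at ha ⊢
    calc ‖a + v - a₀‖ = ‖(a - a₀) + v‖ := by congr 1; abel
      _ ≤ ‖a - a₀‖ + ‖v‖ := norm_add_le _ _
      _ < ρ := by linarith
  have hgood : ∀ b ∈ ball a₀ ρ, b ∉ N' → h.symm b ∉ N := by
    intro b hb hb' hcon
    apply hb'
    refine ⟨h.symm b, ⟨hcon, h.map_target (hball b hb).2.2, (hball b hb).2.1⟩, ?_⟩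
    have := h.right_inv (hball b hb).2.2
    rwa [hhc] at this
  have heq : h.symm a = h.symm (a + v) :=
    hinj _ (hball a ha').2.1 (hgood a ha' hna) _ (hball _ hav).2.1 (hgood _ hav hnav)
      (hconst a ha).symm
  have := h.symm.injOn (hball a ha').2.2 (hball _ hav).2.2 heq
  exact hvne (by simpa using this)

end Crest.Agent.R281.Gal3_257
end

-- ▼ part R281/Gal4_257

/-!
# Row 281, KAP-GAL part 4 (helper257): KAPPA-1, steps (1) and (2), on a box

`exists_rational`: a holomorphic family of algebraic sets `T b`, which is equivariant under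
`Aut(ℂ/k)` at almost every point of the box, is given by rational functions over `k`.
-/

set_option autoImplicit false
set_option linter.unusedSectionVars false

open MeasureTheory Set Filter Metric Topology
open Crest.Agent.R281.Gal2_257

namespace Crest.Agent.R281.Gal4_257

section Zer

variable {Ω : Type} [Field Ω] {κ : Type} [Fintype κ]

/-- common zeros of a space of polynomials with exponents in `S` -/
def Zer (S : Finset (κ →₀ ℕ)) (V : Submodule Ω (S → Ω)) : Set (κ → Ω) :=
  {x | ∀ c ∈ V, ∑ m : S, c m * ∏ i, x i ^ (m : κ →₀ ℕ) i = 0}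

theorem TrS.zer {σ : Ω ≃+* Ω} {T T' : Set (κ → Ω)} (h : TrS σ T T') {S : Finset (κ →₀ ℕ)}
    (hT : Zer S (Idl S T) ⊆ T) : Zer S (Idl S T') ⊆ T' := by
  intro x hx
  have h1 : (fun i => σ.symm (x i)) ∈ T := by
    apply hT
    intro c hc
    have h2 := hx _ ((h.idl S c).1 hc)
    have h3 : σ (∑ m : S, c m * ∏ i, (σ.symm (x i)) ^ (m : κ →₀ ℕ) i) = 0 := by
      simpa [map_sum, map_mul, map_prod, map_pow] using h2
    exact σ.injective (h3.trans (map_zero σ).symm)
  have h4 := (h _).1 h1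
  simpa using h4

theorem subset_zer (S : Finset (κ →₀ ℕ)) (T : Set (κ → Ω)) : T ⊆ Zer S (Idl S T) :=
  fun x hx _ hc => hc x hx

end Zer

section An

variable {E : Type*} [NormedAddCommGroup E] [NormedSpace ℂ E]
variable {k : Type} [Field k] [Algebra k ℂ] {κ : Type} [Fintype κ]

theorem analyticOnNhd_aeval {φ : E → κ → ℂ} {U : Set E} (hφ : AnalyticOnNhd ℂ φ U)
    (p : MvPolynomial κ k) : AnalyticOnNhd ℂ (fun z => MvPolynomial.aeval (φ z) p) U := by
  have hφi : ∀ i, AnalyticOnNhd ℂ (fun z => φ z i) U := fun i z hz =>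
    ((ContinuousLinearMap.proj (R := ℂ) (φ := fun _ : κ => ℂ) i).analyticAt _).comp (hφ z hz)
  induction p using MvPolynomial.induction_on with
  | C a => simpa using analyticOnNhd_const
  | add p q hp hq =>
    simp only [map_add]
    exact hp.add hq
  | mul_X p i hp =>
    simp only [map_mul, MvPolynomial.aeval_X]
    exact hp.mul (hφi i)

end An

section Sel

variable {V : Type*} [AddCommGroup V] [Module ℂ V] [FiniteDimensional ℂ V]

/-- among functionals which separate the points, `dim V` are independent -/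
theorem exists_sel {I : Type*} (m : I → Module.Dual ℂ V)
    (h : ∀ v, (∀ i, m i v = 0) → v = 0) :
    ∃ f : Fin (Module.finrank ℂ V) → I, LinearIndependent ℂ (m ∘ f) := by
  classical
  obtain ⟨K, a, ha, hsp, hli⟩ := exists_linearIndependent' ℂ m
  have hK : Finite K := hli.finite
  have := Fintype.ofFinite K
  let W : Submodule ℂ (Module.Dual ℂ V) := Submodule.span ℂ (Set.range m)
  have h1 : Module.finrank ℂ W = Fintype.card K := by
    change Module.finrank ℂ (Submodule.span ℂ (Set.range m)) = _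
    rw [← hsp]
    exact finrank_span_eq_card hli
  let F : V →ₗ[ℂ] Module.Dual ℂ W :=
    (Module.Dual.transpose (W.subtype)).comp (Module.Dual.eval ℂ V)
  have hF : Function.Injective F := by
    rw [injective_iff_map_eq_zero]
    intro v hv
    apply h
    intro i
    exact LinearMap.congr_fun hv ⟨m i, Submodule.subset_span ⟨i, rfl⟩⟩
  have h2 : Module.finrank ℂ V ≤ Fintype.card K := by
    rw [← h1, ← Subspace.dual_finrank_eq (K := ℂ) (V := W)]
    exact LinearMap.finrank_le_finrank_of_injective hF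
  let e : Fin (Module.finrank ℂ V) → K := fun j => (Fintype.equivFin K).symm (Fin.castLE h2 j)
  have he : Function.Injective e :=
    (Fintype.equivFin K).symm.injective.comp (Fin.castLE_injective h2)
  exact ⟨a ∘ e, hli.comp e he⟩

end Sel

section Main

variable {E₁ E₂ : Type*} [NormedAddCommGroup E₁] [NormedSpace ℂ E₁] [FiniteDimensional ℂ E₁]
  [NormedAddCommGroup E₂] [NormedSpace ℂ E₂] [FiniteDimensional ℂ E₂]
  [MeasurableSpace (E₁ × E₂)] [BorelSpace (E₁ × E₂)]

variable {k : Type} [Field k] [Countable k] [Algebra k ℂ] {κ : Type} [Fintype κ]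

open MvPolynomial

/-- not generic over `k` -/
def NG (k : Type) [Field k] [Algebra k ℂ] (φ : E₁ × E₂ → κ → ℂ) (U : Set (E₁ × E₂)) :
    Set (E₁ × E₂) :=
  {z ∈ U | ∃ p : MvPolynomial κ k, aeval (φ z) p = 0 ∧ ∃ z' ∈ U, aeval (φ z') p ≠ 0}

theorem null_NG (μ : Measure (E₁ × E₂)) [μ.IsAddHaarMeasure] {z₁ : E₁ × E₂} {r : ℝ}
    {φ : E₁ × E₂ → κ → ℂ} (hφ : AnalyticOnNhd ℂ φ (ball z₁ r)) :
    μ (NG k φ (ball z₁ r)) = 0 := by
  classical
  have hc : Countable (MvPolynomial κ k) := countable_mvPoly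
  have h1 : NG k φ (ball z₁ r) ⊆ ⋃ p : MvPolynomial κ k,
      {z ∈ ball z₁ r | aeval (φ z) p = 0 ∧ ∃ z' ∈ ball z₁ r, aeval (φ z') p ≠ 0} := by
    rintro z ⟨hz, p, hp, hp'⟩
    exact mem_iUnion.2 ⟨p, hz, hp, hp'⟩
  refine measure_mono_null h1 (measure_iUnion_null fun p => ?_)
  by_cases hp : ∃ z' ∈ ball z₁ r, aeval (φ z') p ≠ 0
  · obtain ⟨z', hz', hne⟩ := hp
    have h2 := Crest.Agent.R271.Local821.null_zero_ball μ (analyticOnNhd_aeval hφ p) hz' hne
    refine measure_mono_null ?_ h2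
    rintro z ⟨hz, h0, _⟩
    exact ⟨hz, h0⟩
  · refine measure_mono_null (t := ∅) ?_ measure_empty
    rintro z ⟨_, _, h⟩
    exact hp h

theorem rel_of_gen {φ : E₁ × E₂ → κ → ℂ} {U : Set (E₁ × E₂)} {z z' : E₁ × E₂} (hz : z ∈ U)
    (hz' : z' ∈ U) (hg : z ∉ NG k φ U) (hg' : z' ∉ NG k φ U) : Rel k (φ z) (φ z') := by
  intro p
  constructor
  · intro h
    by_contra hcon
    exact hg ⟨hz, p, h, z', hz', hcon⟩
  · intro h
    by_contra hcon
    exact hg' ⟨hz', p, h, z, hz, hcon⟩

theorem aleph0_lt_complex : Cardinal.aleph0 < Cardinal.mk ℂ := by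
  rw [Cardinal.mk_complex]
  exact Cardinal.aleph0_lt_continuum

/-- **KAPPA-1, steps (1), (2)** -/
theorem exists_rational (μ : Measure (E₁ × E₂)) [μ.IsAddHaarMeasure] {z₁ : E₁ × E₂} {r : ℝ}
    (hr : 0 < r) {φ : E₁ × E₂ → κ → ℂ} (hφ : AnalyticOnNhd ℂ φ (ball z₁ r))
    (T : E₁ → Set (κ → ℂ)) {N : Set (E₁ × E₂)} (hN : μ N = 0)
    (h2 : ∀ z ∈ ball z₁ r, z ∉ N → ∀ z' ∈ ball z₁ r, z' ∉ N → ∀ σ : ℂ ≃ₐ[k] ℂ,
      (∀ i, σ (φ z i) = φ z' i) → TrS (σ : ℂ ≃+* ℂ) (T z.1) (T z'.1))
    (h3 : ∀ z ∈ ball z₁ r, z ∉ N → ∃ S : Finset (κ →₀ ℕ), Zer S (Idl S (T z.1)) ⊆ T z.1)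
    (h4 : ∀ z ∈ ball z₁ r, z ∉ N → ∀ z' ∈ ball z₁ r, z' ∉ N → T z.1 = T z'.1 → z.1 = z'.1) :
    ∃ P Q : Fin (Module.finrank ℂ E₁) → MvPolynomial κ k, ∃ z₀ ∈ ball z₁ r,
      (∀ j, aeval (φ z₀) (Q j) ≠ 0) ∧
      (∀ j, ∀ z ∈ ball z₁ r, ∀ z' ∈ ball z₁ r, z.1 = z'.1 →
        aeval (φ z) (P j) * aeval (φ z') (Q j) = aeval (φ z') (P j) * aeval (φ z) (Q j)) ∧
      LinearIndependent ℂ (fun j => fderiv ℂ (fun z => aeval (φ z) (P j) / aeval (φ z) (Q j)) z₀)
      := by
  classical
  set U : Set (E₁ × E₂) := ball z₁ r with hU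
  have hUo : IsOpen U := isOpen_ball
  have hUne : U.Nonempty := ⟨z₁, mem_ball_self hr⟩
  set N' : Set (E₁ × E₂) := N ∪ NG k φ U with hN'
  have hN'0 : μ N' = 0 := measure_union_null hN (null_NG μ hφ)
  have hg1 : ∀ {z}, z ∉ N' → z ∉ N := fun h h' => h (Or.inl h')
  have hg2 : ∀ {z}, z ∉ N' → z ∉ NG k φ U := fun h h' => h (Or.inr h')
  -- a good generic point
  obtain ⟨z₀, hz₀, hz₀g, -⟩ := Gal3_257.exists_shift μ hN'0 hUo hUne 0
  obtain ⟨S, hS⟩ := h3 z₀ hz₀ (hg1 hz₀g)
  obtain ⟨P, p, q, hpq⟩ := exists_entries (k := k) aleph0_lt_complex S (φ z₀) (T z₀.1)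
    (h2 z₀ hz₀ (hg1 hz₀g) z₀ hz₀ (hg1 hz₀g))
  have hent : ∀ z ∈ U, z ∉ N' → ∃ hP : Piv (Idl S (T z.1)) P, ∀ (a : P) (m : S),
      aeval (φ z) (q a m) ≠ 0 ∧ ent hP a m = aeval (φ z) (p a m) / aeval (φ z) (q a m) :=
    fun z hz hzg => hpq (φ z) (T z.1) (rel_of_gen hz₀ hz (hg2 hz₀g) (hg2 hzg))
      (h2 z₀ hz₀ (hg1 hz₀g) z hz (hg1 hzg))
  have hcl : ∀ z ∈ U, z ∉ N' → Zer S (Idl S (T z.1)) ⊆ T z.1 := by
    intro z hz hzg
    obtain ⟨σ, hσ⟩ := exists_conj (k := k) aleph0_lt_complex
      (rel_of_gen hz₀ hz (hg2 hz₀g) (hg2 hzg))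
    exact TrS.zer (h2 z₀ hz₀ (hg1 hz₀g) z hz (hg1 hzg) σ hσ) hS
  -- constancy along the fibres, cross multiplied
  have hcross0 : ∀ a m, ∀ z ∈ U, z ∉ N' → ∀ z' ∈ U, z' ∉ N' → z.1 = z'.1 →
      aeval (φ z) (p a m) * aeval (φ z') (q a m) =
        aeval (φ z') (p a m) * aeval (φ z) (q a m) := by
    intro a m z hz hzg z' hz' hzg' h
    obtain ⟨hP, hP2⟩ := hent z hz hzg
    obtain ⟨hP', hP2'⟩ := hent z' hz' hzg'
    have e1 := (hP2 a m).2
    have e2 := (hP2' a m).2
    have e3 : ent hP a m = ent hP' a m := by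
      have : ∀ {b b' : E₁} (_ : b = b') (hP : Piv (Idl S (T b)) P) (hP' : Piv (Idl S (T b')) P),
          ent hP a m = ent hP' a m := by
        intro b b' hb hP hP'
        subst hb
        rfl
      exact this h hP hP'
    rw [e1, e2] at e3
    exact (div_eq_div_iff (hP2 a m).1 (hP2' a m).1).1 e3
  have hcont : ∀ t : MvPolynomial κ k, ContinuousOn (fun z => aeval (φ z) t) U := fun t =>
    (analyticOnNhd_aeval hφ t).continuousOn
  have hcross : ∀ a m, ∀ z ∈ U, ∀ z' ∈ U, z.1 = z'.1 →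
      aeval (φ z) (p a m) * aeval (φ z') (q a m) =
        aeval (φ z') (p a m) * aeval (φ z) (q a m) := by
    intro a m z hz z' hz' h
    -- points near `z`, shifted by `z' - z`
    set v := z' - z with hv
    have hv1 : v.1 = 0 := by rw [hv, Prod.fst_sub, h, sub_self]
    let O : Set (E₁ × E₂) := U ∩ (fun y => y + v) ⁻¹' U
    have hO : IsOpen O := hUo.inter (hUo.preimage (continuous_id.add continuous_const))
    have hzO : z ∈ O := ⟨hz, by simpa [hv] using hz'⟩
    let F : E₁ × E₂ → ℂ := fun y =>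
      aeval (φ y) (p a m) * aeval (φ (y + v)) (q a m) -
        aeval (φ (y + v)) (p a m) * aeval (φ y) (q a m)
    have hFc : ContinuousOn F O := by
      have hs : ∀ t : MvPolynomial κ k, ContinuousOn (fun y => aeval (φ (y + v)) t) O := fun t =>
        (hcont t).comp (continuous_id.add continuous_const).continuousOn fun y hy => hy.2
      have hn : ∀ t : MvPolynomial κ k, ContinuousOn (fun y => aeval (φ y) t) O := fun t =>
        (hcont t).mono inter_subset_left
      exact ((hn _).mul (hs _)).sub ((hs _).mul (hn _))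
    have hF0 : F z = 0 := by
      by_contra hne
      have h5 : {y ∈ O | F y ≠ 0} ∈ 𝓝 z := by
        have := (hFc z hzO).continuousAt (hO.mem_nhds hzO)
        exact Filter.inter_mem (hO.mem_nhds hzO) (this.eventually_ne hne)
      obtain ⟨V, hV, hVo, hzV⟩ := _root_.mem_nhds_iff.1 h5
      obtain ⟨y, hy, hyg, hyg'⟩ := Gal3_257.exists_shift μ hN'0 hVo ⟨z, hzV⟩ v
      obtain ⟨hyO, hyF⟩ := hV hy
      apply hyF
      have h6 := hcross0 a m y hyO.1 hyg (y + v) hyO.2 hyg' (by
        rw [Prod.fst_add, hv1, add_zero])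
      exact sub_eq_zero.2 h6
    have h7 : z + v = z' := by rw [hv]; abel
    have h8 : aeval (φ z) (p a m) * aeval (φ (z + v)) (q a m) -
        aeval (φ (z + v)) (p a m) * aeval (φ z) (q a m) = 0 := hF0
    rw [h7] at h8
    exact sub_eq_zero.1 h8
  -- the map
  have : Fintype P := Fintype.ofFinite P
  let qq : MvPolynomial κ k := ∏ am : P × S, q am.1 am.2
  have hqq : ∀ z, aeval (φ z) qq ≠ 0 ↔ ∀ a m, aeval (φ z) (q a m) ≠ 0 := by
    intro z
    simp only [qq, map_prod, ne_eq, Finset.prod_eq_zero_iff, Finset.mem_univ, true_and, not_exists]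
    exact ⟨fun h a m => h (a, m), fun h am => h am.1 am.2⟩
  let O : Set (E₁ × E₂) := U ∩ (fun z => aeval (φ z) qq) ⁻¹' {0}ᶜ
  have hO : IsOpen O := (hcont qq).isOpen_inter_preimage hUo isOpen_compl_singleton
  have hmemO : ∀ z, z ∈ O ↔ z ∈ U ∧ ∀ a m, aeval (φ z) (q a m) ≠ 0 := by
    intro z
    exact and_congr_right fun _ => hqq z
  have hgO : ∀ z ∈ U, z ∉ N' → z ∈ O := by
    intro z hz hzg
    rw [hmemO]
    obtain ⟨hP, hP2⟩ := hent z hz hzg
    exact ⟨hz, fun a m => (hP2 a m).1⟩
  let R : (P × S) → E₁ × E₂ → ℂ := fun am z =>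
    aeval (φ z) (p am.1 am.2) / aeval (φ z) (q am.1 am.2)
  have hRan : ∀ am, AnalyticOnNhd ℂ (R am) O := fun am z hz =>
    (analyticOnNhd_aeval hφ _ z hz.1).div (analyticOnNhd_aeval hφ _ z hz.1)
      (((hmemO z).1 hz).2 _ _)
  let G : E₁ × E₂ → ((P × S) → ℂ) × E₂ := fun z => (fun am => R am z, z.2)
  have hGan : AnalyticOnNhd ℂ G O := by
    intro z hz
    have h1 : AnalyticAt ℂ (fun z => fun am => R am z) z := by
      rw [analyticAt_pi_iff]
      exact fun am => hRan am z hz
    exact h1.prod (ContinuousLinearMap.analyticAt (ContinuousLinearMap.snd ℂ E₁ E₂) z)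
  have hinj : ∀ z ∈ O, z ∉ N' → ∀ z' ∈ O, z' ∉ N' → G z = G z' → z = z' := by
    intro z hz hzg z' hz' hzg' h
    have e20 : (G z).2 = (G z').2 := by rw [h]
    have e2 : z.2 = z'.2 := e20
    have e10 : (G z).1 = (G z').1 := by rw [h]
    have e1 : ∀ am, R am z = R am z' := fun am => congrFun e10 am
    obtain ⟨hP, hP2⟩ := hent z hz.1 hzg
    obtain ⟨hP', hP2'⟩ := hent z' hz'.1 hzg'
    have e3 : Idl S (T z.1) = Idl S (T z'.1) := by
      apply eq_of_ent hP hP'
      intro a
      funext m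
      rw [(hP2 a m).2, (hP2' a m).2]
      exact e1 (a, m)
    have e4 : T z.1 = T z'.1 := by
      apply Set.Subset.antisymm
      · exact ((subset_zer S _).trans (by rw [e3])).trans (hcl z' hz'.1 hzg')
      · exact ((subset_zer S _).trans (by rw [e3])).trans (hcl z hz.1 hzg)
    exact Prod.ext (h4 z hz.1 (hg1 hzg) z' hz'.1 (hg1 hzg') e4) e2
  obtain ⟨z₂, hz₂, hz₂i⟩ := Gal3_257.exists_injective_fderiv μ hO ⟨z₀, hgO z₀ hz₀ hz₀g⟩ hGan
    hN'0 hinj
  have hz₂O := (hmemO z₂).1 hz₂
  have hG' : ∀ v : E₁, (∀ am, fderiv ℂ (R am) z₂ (v, 0) = 0) → v = 0 := by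
    intro v hv
    have h5 : HasFDerivAt G ((ContinuousLinearMap.pi fun am => fderiv ℂ (R am) z₂).prod
        (ContinuousLinearMap.snd ℂ E₁ E₂)) z₂ := by
      apply HasFDerivAt.prodMk
      · rw [hasFDerivAt_pi]
        exact fun am => (hRan am z₂ hz₂).differentiableAt.hasFDerivAt
      · exact (ContinuousLinearMap.snd ℂ E₁ E₂).hasFDerivAt
    rw [h5.fderiv] at hz₂i
    have h6 : ((v, 0) : E₁ × E₂) = 0 := by
      apply hz₂i
      rw [map_zero]
      apply Prod.ext
      · funext am
        exact hv am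
      · rfl
    exact congrArg Prod.fst h6
  let cI : (E₁ × E₂ →L[ℂ] ℂ) →ₗ[ℂ] Module.Dual ℂ E₁ :=
    { toFun := fun ℓ => (ℓ : E₁ × E₂ →ₗ[ℂ] ℂ).comp (LinearMap.inl ℂ E₁ E₂)
      map_add' := fun _ _ => rfl
      map_smul' := fun _ _ => rfl }
  obtain ⟨f, hf⟩ := exists_sel (fun am => cI (fderiv ℂ (R am) z₂)) hG'
  refine ⟨fun j => p (f j).1 (f j).2, fun j => q (f j).1 (f j).2, z₂, hz₂O.1,
    fun j => hz₂O.2 _ _, fun j => hcross _ _, ?_⟩
  exact LinearIndependent.of_comp cI hf

end Main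

end Crest.Agent.R281.Gal4_257
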