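import Mathlib
import Crest.Agent.R273.YauPf_635

-- ▼ part R281/HKMovA_478
section

/-!
# R281 (S0424), YAU-AN (helper478), file A: scalar majorants

* `Nn P`, `Le P Q` : coefficientwise order on real polynomials
* `Ap x J` = `∑_{j ≤ J} x_j X^j`
* `maj_seq` : the recursion `x_{J+1} = C [(1 + x_{≤J})^n]_{J+1} + w_{J+1}` has positive radius
-/

set_option autoImplicit false

open Polynomial

namespace Crest.Agent.R281.HKMov_478

noncomputable section

/-- nonnegative coefficients -/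
def Nn (P : ℝ[X]) : Prop := ∀ j, 0 ≤ P.coeff j

/-- coefficientwise order -/
def Le (P Q : ℝ[X]) : Prop := ∀ j, P.coeff j ≤ Q.coeff j

theorem Nn.add {P Q : ℝ[X]} (hP : Nn P) (hQ : Nn Q) : Nn (P + Q) := fun j => by
  rw [coeff_add]
  exact add_nonneg (hP j) (hQ j)

theorem Nn.mul {P Q : ℝ[X]} (hP : Nn P) (hQ : Nn Q) : Nn (P * Q) := fun j => by
  rw [coeff_mul]
  exact Finset.sum_nonneg fun x _ => mul_nonneg (hP _) (hQ _)

theorem nn_zero : Nn 0 := fun j => by simp

theorem nn_C {c : ℝ} (hc : 0 ≤ c) : Nn (C c) := fun j => by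
  rw [coeff_C]
  split_ifs
  · exact hc
  · exact le_rfl

theorem nn_one : Nn 1 := by
  have := nn_C (c := 1) zero_le_one
  rwa [C_1] at this


theorem Nn.pow {P : ℝ[X]} (hP : Nn P) : ∀ k : ℕ, Nn (P ^ k)
  | 0 => by rw [pow_zero]; exact nn_one
  | k + 1 => by rw [pow_succ]; exact (Nn.pow hP k).mul hP

theorem Nn.sum {ι : Type*} {s : Finset ι} {P : ι → ℝ[X]} (hP : ∀ i ∈ s, Nn (P i)) :
    Nn (∑ i ∈ s, P i) := fun j => by
  rw [finsetSum_coeff]
  exact Finset.sum_nonneg fun i hi => hP i hi j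

theorem Le.refl (P : ℝ[X]) : Le P P := fun _ => le_rfl

theorem Le.trans {P Q R : ℝ[X]} (h : Le P Q) (h' : Le Q R) : Le P R := fun j => (h j).trans (h' j)

theorem Le.add {P Q P' Q' : ℝ[X]} (h : Le P P') (h' : Le Q Q') : Le (P + Q) (P' + Q') := fun j => by
  rw [coeff_add, coeff_add]
  exact add_le_add (h j) (h' j)

theorem Le.mul {P Q P' Q' : ℝ[X]} (hP : Nn P) (hQ' : Nn Q') (h : Le P P') (h' : Le Q Q') :
    Le (P * Q) (P' * Q') := fun j => by
  rw [coeff_mul, coeff_mul]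
  exact Finset.sum_le_sum fun x _ => (mul_le_mul_of_nonneg_left (h' _) (hP _)).trans
    (mul_le_mul_of_nonneg_right (h _) (hQ' _))

theorem Le.nn {P Q : ℝ[X]} (hP : Nn P) (h : Le P Q) : Nn Q := fun j => (hP j).trans (h j)

theorem Nn.eval_nonneg {P : ℝ[X]} (hP : Nn P) {r : ℝ} (hr : 0 ≤ r) : 0 ≤ P.eval r := by
  rw [eval_eq_sum_range]
  exact Finset.sum_nonneg fun i _ => mul_nonneg (hP i) (pow_nonneg hr i)

/-- partial sums of a polynomial with nonnegative coefficients -/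
theorem Nn.sum_le_eval {P : ℝ[X]} (hP : Nn P) {r : ℝ} (hr : 0 ≤ r) (t : Finset ℕ) :
    ∑ j ∈ t, P.coeff j * r ^ j ≤ P.eval r := by
  obtain ⟨N, hN⟩ : ∃ N, t ⊆ Finset.range N ∧ P.natDegree < N := by
    refine ⟨max (t.sup id + 1) (P.natDegree + 1), fun i hi => ?_, ?_⟩
    · rw [Finset.mem_range]
      have := Finset.le_sup (f := id) hi
      simp only [id] at this
      omega
    · omega
  rw [eval_eq_sum_range' hN.2]
  exact Finset.sum_le_sum_of_subset_of_nonneg hN.1 fun i _ _ => mul_nonneg (hP i) (pow_nonneg hr i)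

/-- `∑_{j ≤ J} x_j X^j` -/
def Ap (x : ℕ → ℝ) (J : ℕ) : ℝ[X] := ∑ j ∈ Finset.range (J + 1), C (x j) * X ^ j

theorem Ap_coeff (x : ℕ → ℝ) (J k : ℕ) : (Ap x J).coeff k = if k ≤ J then x k else 0 := by
  rw [Ap, finsetSum_coeff]
  simp only [coeff_C_mul, coeff_X_pow, mul_ite, mul_one, mul_zero]
  rw [Finset.sum_ite_eq (Finset.range (J + 1)) k x]
  simp

theorem Ap_eval (x : ℕ → ℝ) (J : ℕ) (r : ℝ) :
    (Ap x J).eval r = ∑ j ∈ Finset.range (J + 1), x j * r ^ j := by
  simp [Ap, eval_finsetSum]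

theorem Ap_nn {x : ℕ → ℝ} {J : ℕ} (hx : ∀ j ≤ J, 0 ≤ x j) : Nn (Ap x J) := fun k => by
  rw [Ap_coeff]
  split_ifs with h
  · exact hx k h
  · exact le_rfl

theorem Ap_le {x : ℕ → ℝ} {J J' : ℕ} (hJ : J ≤ J') (hx : ∀ j ≤ J', 0 ≤ x j) :
    Le (Ap x J) (Ap x J') := fun k => by
  rw [Ap_coeff, Ap_coeff]
  split_ifs with h h'
  · exact le_rfl
  · exact absurd (h.trans hJ) h'
  · exact hx k ‹_›
  · exact le_rfl

/-- `(1 + A)^n - 1 - n A` -/
def Qn (A : ℝ[X]) : ℕ → ℝ[X]
  | 0 => 0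
  | n + 1 => (1 + A) * Qn A n + C (n : ℝ) * A ^ 2

theorem Qn_eq (A : ℝ[X]) : ∀ n : ℕ, (1 + A) ^ n = 1 + C (n : ℝ) * A + Qn A n
  | 0 => by simp [Qn]
  | n + 1 => by
    rw [pow_succ, Qn_eq A n, Qn]
    push_cast
    rw [C_add, C_1]
    ring

theorem Qn_nn {A : ℝ[X]} (hA : Nn A) : ∀ n, Nn (Qn A n)
  | 0 => nn_zero
  | n + 1 => ((nn_one.add hA).mul (Qn_nn hA n)).add ((nn_C (Nat.cast_nonneg n)).mul (hA.pow 2))

theorem Qn_le {A B : ℝ[X]} (hA : Nn A) (h : Le A B) : ∀ n, Le (Qn A n) (Qn B n)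
  | 0 => Le.refl 0
  | n + 1 => by
    have hB : Nn B := h.nn hA
    refine Le.add (Le.mul (nn_one.add hA) (Qn_nn hB n) ((Le.refl 1).add h) (Qn_le hA h n)) ?_
    refine Le.mul (nn_C (Nat.cast_nonneg n)) (hB.pow 2) (Le.refl _) ?_
    rw [pow_two, pow_two]
    exact Le.mul hA hB h h

theorem Qn_eval (n : ℕ) : ∃ c : ℝ, 0 ≤ c ∧ ∀ (A : ℝ[X]) (r : ℝ), 0 ≤ A.eval r → A.eval r ≤ 1 →
    (Qn A n).eval r ≤ c * (A.eval r) ^ 2 := by
  induction n with
  | zero => exact ⟨0, le_rfl, fun A r _ _ => by simp [Qn]⟩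
  | succ n ih =>
    obtain ⟨c, hc, h⟩ := ih
    refine ⟨2 * c + n, by positivity, fun A r h0 h1 => ?_⟩
    have h2 := h A r h0 h1
    have h3 : 0 ≤ c * (A.eval r) ^ 2 := by positivity
    simp only [Qn, eval_add, eval_mul, eval_one, eval_C, eval_pow]
    have h4 : (1 + A.eval r) * (Qn A n).eval r ≤ 2 * (c * (A.eval r) ^ 2) := by
      calc (1 + A.eval r) * (Qn A n).eval r ≤ (1 + A.eval r) * (c * (A.eval r) ^ 2) :=
            mul_le_mul_of_nonneg_left h2 (by linarith)
        _ ≤ 2 * (c * (A.eval r) ^ 2) := mul_le_mul_of_nonneg_right (by linarith) h3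
    linarith

/-- **scalar majorant** -/
theorem maj_seq (n : ℕ) {Cc : ℝ} (hCc : 0 ≤ Cc) {w : ℕ → ℝ} (hw : ∀ j, 0 ≤ w j) {ρ W : ℝ}
    (hρ : 0 < ρ) (hW : ∀ J, ∑ j ∈ Finset.range J, w (j + 1) * ρ ^ (j + 1) ≤ W) {η : ℝ}
    (hη : 0 < η) : ∃ r, 0 < r ∧ r ≤ ρ ∧ ∀ x : ℕ → ℝ, x 0 = 0 →
      (∀ J, x (J + 1) = Cc * ((1 + Ap x J) ^ n).coeff (J + 1) + w (J + 1)) →
      (∀ j, 0 ≤ x j) ∧ ∀ J, ∑ j ∈ Finset.range (J + 1), x j * r ^ j ≤ η := by
  obtain ⟨c, hc, hQ⟩ := Qn_eval n
  have hW0 : 0 ≤ W := by simpa using hW 0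
  set q : ℝ := 2 * (Cc * c + 1) with hq
  have hq0 : 0 < q := by positivity
  set δ : ℝ := min (min η 1) (1 / q) with hδ
  have hδ0 : 0 < δ := lt_min (lt_min hη one_pos) (by positivity)
  have hδη : δ ≤ η := (min_le_left _ _).trans (min_le_left _ _)
  have hδ1 : δ ≤ 1 := (min_le_left _ _).trans (min_le_right _ _)
  have hδq : δ * q ≤ 1 := by
    have : δ ≤ 1 / q := min_le_right _ _
    rwa [le_div_iff₀ hq0] at this
  set lam : ℝ := min 1 (δ / (2 * (W + 1))) with hlam
  have hlam0 : 0 < lam := lt_min one_pos (by positivity)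
  have hlam1 : lam ≤ 1 := min_le_left _ _
  have hlamW : lam * W ≤ δ / 2 := by
    have h1 : lam ≤ δ / (2 * (W + 1)) := min_le_right _ _
    have h2 : lam * (2 * (W + 1)) ≤ δ := by rwa [le_div_iff₀ (by positivity)] at h1
    nlinarith
  refine ⟨lam * ρ, by positivity, by nlinarith, fun x hx0 hx => ?_⟩
  set r : ℝ := lam * ρ with hr
  have hr0 : 0 < r := by positivity
  have hnn : ∀ j, 0 ≤ x j := by
    intro j
    induction j using Nat.strong_induction_on with
    | _ j ih =>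
      rcases j with _ | J
      · rw [hx0]
      · rw [hx J]
        refine add_nonneg (mul_nonneg hCc ?_) (hw _)
        exact (nn_one.add (Ap_nn fun k hk => ih k (by omega))).pow n (J + 1)
  have hwr : ∀ J, ∑ j ∈ Finset.range J, w (j + 1) * r ^ (j + 1) ≤ δ / 2 := by
    intro J
    calc ∑ j ∈ Finset.range J, w (j + 1) * r ^ (j + 1)
        ≤ ∑ j ∈ Finset.range J, lam * (w (j + 1) * ρ ^ (j + 1)) := by
          refine Finset.sum_le_sum fun j _ => ?_
          rw [hr, mul_pow]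
          have h1 : lam ^ (j + 1) ≤ lam := by
            rw [pow_succ]
            exact mul_le_of_le_one_left hlam0.le (pow_le_one₀ hlam0.le hlam1)
          have h2 : 0 ≤ w (j + 1) * ρ ^ (j + 1) := mul_nonneg (hw _) (by positivity)
          calc w (j + 1) * (lam ^ (j + 1) * ρ ^ (j + 1))
              = lam ^ (j + 1) * (w (j + 1) * ρ ^ (j + 1)) := by ring
            _ ≤ lam * (w (j + 1) * ρ ^ (j + 1)) := mul_le_mul_of_nonneg_right h1 h2
      _ = lam * ∑ j ∈ Finset.range J, w (j + 1) * ρ ^ (j + 1) := by rw [Finset.mul_sum]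
      _ ≤ lam * W := mul_le_mul_of_nonneg_left (hW J) hlam0.le
      _ ≤ δ / 2 := hlamW
  have key : ∀ J, ∑ j ∈ Finset.range (J + 1), x j * r ^ j ≤ δ := by
    intro J
    induction J with
    | zero => simp [hx0, hδ0.le]
    | succ J ih =>
      have hS : 0 ≤ (Ap x J).eval r := (Ap_nn fun k _ => hnn k).eval_nonneg hr0.le
      have hSδ : (Ap x J).eval r ≤ δ := by rw [Ap_eval]; exact ih
      have h1 : ∑ j ∈ Finset.range (J + 2), x j * r ^ j =
          ∑ j ∈ Finset.range (J + 1), (Cc * ((1 + Ap x j) ^ n).coeff (j + 1) * r ^ (j + 1)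
            + w (j + 1) * r ^ (j + 1)) := by
        rw [Finset.sum_range_succ']
        simp only [hx0, zero_mul, add_zero]
        exact Finset.sum_congr rfl fun j _ => by rw [hx j]; ring
      have h2 : ∀ j ∈ Finset.range (J + 1), ((1 + Ap x j) ^ n).coeff (j + 1) ≤
          (Qn (Ap x J) n).coeff (j + 1) := by
        intro j hj
        have hjJ : j ≤ J := Nat.lt_succ_iff.1 (Finset.mem_range.1 hj)
        rw [Qn_eq]
        have e1 : (1 : ℝ[X]).coeff (j + 1) = 0 := by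
          rw [coeff_one, if_neg (by omega)]
        have e2 : (C (n : ℝ) * Ap x j).coeff (j + 1) = 0 := by
          rw [coeff_C_mul, Ap_coeff, if_neg (by omega), mul_zero]
        rw [coeff_add, coeff_add, e1, e2, zero_add, zero_add]
        exact Qn_le (Ap_nn fun k _ => hnn k) (Ap_le hjJ fun k _ => hnn k) n (j + 1)
      rw [h1, Finset.sum_add_distrib]
      have h3 : ∑ j ∈ Finset.range (J + 1), Cc * ((1 + Ap x j) ^ n).coeff (j + 1) * r ^ (j + 1) ≤
          Cc * (Qn (Ap x J) n).eval r := by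
        calc _ ≤ ∑ j ∈ Finset.range (J + 1), Cc * ((Qn (Ap x J) n).coeff (j + 1) * r ^ (j + 1)) := by
              refine Finset.sum_le_sum fun j hj => ?_
              rw [mul_assoc]
              exact mul_le_mul_of_nonneg_left (mul_le_mul_of_nonneg_right (h2 j hj)
                (by positivity)) hCc
          _ = Cc * ∑ j ∈ Finset.range (J + 1), (Qn (Ap x J) n).coeff (j + 1) * r ^ (j + 1) := by
              rw [Finset.mul_sum]
          _ ≤ Cc * (Qn (Ap x J) n).eval r := by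
              refine mul_le_mul_of_nonneg_left ?_ hCc
              have h4 := (Qn_nn (Ap_nn fun k (_ : k ≤ J) => hnn k) n).sum_le_eval hr0.le
                ((Finset.range (J + 1)).image (· + 1))
              rwa [Finset.sum_image (fun a _ b _ h => Nat.succ_injective h)] at h4
      have h5 := hQ (Ap x J) r hS (hSδ.trans hδ1)
      have h6 : Cc * (Qn (Ap x J) n).eval r ≤ δ / 2 := by
        have h7 : (Ap x J).eval r ^ 2 ≤ δ * δ := by
          rw [pow_two]
          exact mul_le_mul hSδ hSδ hS hδ0.le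
        have h8 : Cc * (c * (Ap x J).eval r ^ 2) ≤ Cc * (c * (δ * δ)) :=
          mul_le_mul_of_nonneg_left (mul_le_mul_of_nonneg_left h7 hc) hCc
        have h9 : Cc * (c * (δ * δ)) ≤ δ / 2 := by
          have : (Cc * c) * δ ≤ 1 / 2 := by
            have h10 : δ * (2 * (Cc * c)) ≤ δ * q := by
              refine mul_le_mul_of_nonneg_left ?_ hδ0.le
              rw [hq]
              linarith
            nlinarith
          nlinarith
        exact (mul_le_mul_of_nonneg_left h5 hCc).trans (h8.trans h9)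
      have h7 := hwr (J + 1)
      linarith
  exact ⟨hnn, fun J => (key J).trans hδη⟩

end

end Crest.Agent.R281.HKMov_478
private theorem rz_b130c95019 : type_of% @_root_.Crest.Agent.R281.HKMov_478.Qn.eq_def := @_root_.Crest.Agent.R281.HKMov_478.Qn.eq_def -- L122
private theorem rz_1de9153859 : type_of% @_root_.Crest.Agent.R281.HKMov_478.Qn.eq_1 := @_root_.Crest.Agent.R281.HKMov_478.Qn.eq_1 -- L122
end

-- ▼ part R281/HKMovB_478

/-!
# R281 (S0424), YAU-AN (helper478), file B: determinants of matrix polynomials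

* `Um Z J`  = `1 + ∑_{1 ≤ j ≤ J} X^j Z_j`, `dt Z J` its determinant
* `dt_stable`, `dt_succ` : coefficients of order `≤ J`, the linear term
* `Mj a s p P` : `p : Z → ℂ[X]` is majorised by `P : ℝ[X]` in `C^a(s)`
* `Mj.dt` : majorant of `dt`
-/

set_option autoImplicit false
set_option linter.unusedSectionVars false

open Polynomial Set

namespace Crest.Agent.R281.HKMov_478

open Crest.Agent.R273.SchA_152 Crest.Agent.R273.YauQ_635

noncomputable section

section alg

variable {m : Type*} [Fintype m] [DecidableEq m]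

theorem dvd_det_sub {R : Type*} [CommRing R] (r : R) (U W : Matrix m m R) :
    r ∣ (U + r • W).det - U.det := by
  rw [← Ideal.mem_span_singleton, ← Ideal.Quotient.eq, RingHom.map_det, RingHom.map_det]
  congr 1
  ext i j
  simp only [RingHom.mapMatrix_apply, Matrix.map_apply, Matrix.add_apply, Matrix.smul_apply,
    smul_eq_mul, map_add, map_mul]
  have : Ideal.Quotient.mk (Ideal.span {r}) r = 0 :=
    Ideal.Quotient.eq_zero_iff_mem.2 (Ideal.mem_span_singleton_self r)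
  rw [this, zero_mul, add_zero]

theorem coeff_det_low {k j : ℕ} (hj : j < k) (U W : Matrix m m ℂ[X]) :
    (U + ((X : ℂ[X]) ^ k) • W).det.coeff j = U.det.coeff j := by
  obtain ⟨q, hq⟩ := dvd_det_sub ((X : ℂ[X]) ^ k) U W
  have h1 : (U + ((X : ℂ[X]) ^ k) • W).det = U.det + X ^ k * q := by rw [← hq]; ring
  rw [h1, coeff_add, coeff_X_pow_mul', if_neg (by omega), add_zero]

theorem coeff_zero_det (U' : Matrix m m ℂ[X]) : (1 + (X : ℂ[X]) • U').det.coeff 0 = 1 := by
  have h := coeff_det_low (m := m) (k := 1) (j := 0) one_pos 1 U'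
  rw [pow_one] at h
  rw [h, Matrix.det_one, coeff_one_zero]

theorem coeff_det_lin {k : ℕ} (hk : 0 < k) (U' : Matrix m m ℂ[X]) (Z : Matrix m m ℂ) :
    (1 + (X : ℂ[X]) • U' + ((X : ℂ[X]) ^ k) • Z.map C).det.coeff k =
      (1 + (X : ℂ[X]) • U').det.coeff k + Z.trace := by
  set U : Matrix m m ℂ[X] := 1 + (X : ℂ[X]) • U' with hU
  set V : Matrix m m ℂ[X] := Z.map C with hV
  have h1 : U + ((X : ℂ[X]) ^ k) • V =
      (1 + ((X : ℂ[X]) ^ k) • V) * U + ((X : ℂ[X]) ^ (k + 1)) • (-(V * U')) := by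
    rw [hU, pow_succ']
    simp only [add_mul, mul_add, Matrix.one_mul, Matrix.mul_one, Matrix.smul_mul, Matrix.mul_smul,
      smul_smul, smul_neg]
    abel
  rw [h1, coeff_det_low (Nat.lt_succ_self k), Matrix.det_mul, Matrix.det_one_add_smul]
  set q : ℂ[X] := eval (X ^ k) (1 + (X : ℂ[X][X]) • V.map C).det.divX.divX with hq
  have h2 : V.trace = C Z.trace := by
    rw [hV]
    simp [Matrix.trace]
  have h3 : U.det.coeff 0 = 1 := coeff_zero_det U'
  have h4 : (1 + V.trace * X ^ k + q * (X ^ k) ^ 2) * U.det =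
      U.det + (C Z.trace * U.det) * X ^ k + (q * X ^ k * U.det) * X ^ k := by
    rw [h2]
    ring
  rw [h4, coeff_add, coeff_add, coeff_mul_X_pow', coeff_mul_X_pow', if_pos le_rfl, if_pos le_rfl,
    Nat.sub_self, coeff_C_mul, h3]
  have h5 : (q * X ^ k * U.det).coeff 0 = 0 := by
    rw [mul_coeff_zero, mul_coeff_zero, coeff_X_pow, if_neg (by omega), mul_zero, zero_mul]
  rw [h5]
  ring

/-- `1 + ∑_{1 ≤ j ≤ J} X^j Z_j` -/
def Um (Z : ℕ → Matrix m m ℂ) (J : ℕ) : Matrix m m ℂ[X] :=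
  1 + ∑ j ∈ Finset.range J, ((X : ℂ[X]) ^ (j + 1)) • (Z (j + 1)).map C


theorem Um_succ (Z : ℕ → Matrix m m ℂ) (J : ℕ) :
    Um Z (J + 1) = Um Z J + ((X : ℂ[X]) ^ (J + 1)) • (Z (J + 1)).map C := by
  rw [Um, Um, Finset.sum_range_succ, add_assoc]

theorem Um_X (Z : ℕ → Matrix m m ℂ) (J : ℕ) :
    Um Z J = 1 + (X : ℂ[X]) • ∑ j ∈ Finset.range J, ((X : ℂ[X]) ^ j) • (Z (j + 1)).map C := by
  rw [Um, Finset.smul_sum]
  congr 1
  exact Finset.sum_congr rfl fun j _ => by rw [smul_smul, pow_succ']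

/-- the determinant of `Um Z J` -/
def dt (Z : ℕ → Matrix m m ℂ) (J : ℕ) : ℂ[X] := (Um Z J).det


theorem dt_coeff_zero (Z : ℕ → Matrix m m ℂ) (J : ℕ) : (dt Z J).coeff 0 = 1 := by
  rw [dt, Um_X]
  exact coeff_zero_det _

theorem dt_step (Z : ℕ → Matrix m m ℂ) {j J : ℕ} (hj : j ≤ J) :
    (dt Z (J + 1)).coeff j = (dt Z J).coeff j := by
  rw [dt, Um_succ]
  exact coeff_det_low (by omega) _ _

theorem dt_stable (Z : ℕ → Matrix m m ℂ) {j J : ℕ} (hj : j ≤ J) :
    (dt Z J).coeff j = (dt Z j).coeff j := by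
  induction J, hj using Nat.le_induction with
  | base => rfl
  | succ J hJ ih => rw [dt_step Z hJ, ih]

theorem dt_succ (Z : ℕ → Matrix m m ℂ) (J : ℕ) :
    (dt Z (J + 1)).coeff (J + 1) = (dt Z J).coeff (J + 1) + (Z (J + 1)).trace := by
  rw [dt, Um_succ, Um_X, dt, Um_X]
  exact coeff_det_lin (Nat.succ_pos J) _ _

theorem dt_congr {Z Z' : ℕ → Matrix m m ℂ} {J : ℕ} (h : ∀ j ≤ J, 1 ≤ j → Z j = Z' j) :
    dt Z J = dt Z' J := by
  rw [dt, dt, Um, Um]
  congr 2
  refine Finset.sum_congr rfl fun j hj => ?_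
  rw [h (j + 1) (Finset.mem_range.1 hj) (by omega)]

theorem dt_eval (Z : ℕ → Matrix m m ℂ) (J : ℕ) (s : ℂ) :
    (dt Z J).eval s = (1 + ∑ j ∈ Finset.range J, s ^ (j + 1) • Z (j + 1)).det := by
  rw [dt, Um]
  have h := RingHom.map_det (evalRingHom s)
    (1 + ∑ j ∈ Finset.range J, ((X : ℂ[X]) ^ (j + 1)) • (Z (j + 1)).map C)
  rw [coe_evalRingHom] at h
  rw [h]
  congr 1
  ext a b
  have h1 : eval s ((1 : Matrix m m ℂ[X]) a b) = (1 : Matrix m m ℂ) a b := by
    rcases eq_or_ne a b with rfl | hab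
    · simp
    · simp [Matrix.one_apply_ne hab]
  simp only [RingHom.mapMatrix_apply, Matrix.map_apply, Matrix.add_apply, Matrix.sum_apply,
    Matrix.smul_apply, smul_eq_mul, coe_evalRingHom, eval_add, eval_finsetSum, eval_mul, eval_pow,
    eval_X, eval_C, h1]

theorem dt_similar {Z Z' : ℕ → Matrix m m ℂ} {P : Matrix m m ℂ} (hP : P.det ≠ 0)
    (h : ∀ j, Z' j = P⁻¹ * Z j * P) (J : ℕ) : dt Z' J = dt Z J := by
  have hu : IsUnit P.det := isUnit_iff_ne_zero.2 hP
  have h1 : Um Z' J = (P⁻¹).map C * Um Z J * P.map C := by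
    have h2 : (P⁻¹).map C * P.map (C : ℂ →+* ℂ[X]) = 1 := by
      rw [← Matrix.map_mul, Matrix.nonsing_inv_mul _ hu]
      exact Matrix.map_one _ C.map_zero C.map_one
    rw [Um, Um, mul_add, add_mul, Matrix.mul_one, h2, Finset.mul_sum, Finset.sum_mul]
    congr 1
    refine Finset.sum_congr rfl fun j _ => ?_
    rw [h, Matrix.map_mul, Matrix.map_mul, Matrix.mul_smul, Matrix.smul_mul]
  rw [dt, h1, Matrix.det_mul, Matrix.det_mul]
  have h3 : ((P⁻¹).map (C : ℂ →+* ℂ[X])).det * (P.map C).det = 1 := by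
    rw [← Matrix.det_mul, ← Matrix.map_mul, Matrix.nonsing_inv_mul _ hu,
      Matrix.map_one _ C.map_zero C.map_one, Matrix.det_one]
  calc _ = (((P⁻¹).map (C : ℂ →+* ℂ[X])).det * (P.map C).det) * (Um Z J).det := by ring
    _ = dt Z J := by rw [h3, one_mul, dt]

/-- the coefficients are real if `Z_j = G⁻¹ Y_j` with `G`, `Y_j` Hermitian -/
theorem dt_real {G : Matrix m m ℂ} (hG : G.IsHermitian) (hG0 : G.det ≠ 0)
    {Y : ℕ → Matrix m m ℂ} (hY : ∀ j, 1 ≤ j → (Y j).IsHermitian) (J j : ℕ) :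
    ((dt (fun k => G⁻¹ * Y k) J).coeff j).im = 0 := by
  have hu : IsUnit G.det := isUnit_iff_ne_zero.2 hG0
  have hGi : (G⁻¹).conjTranspose = G⁻¹ := by
    rw [Matrix.conjTranspose_nonsing_inv, hG.eq]
  have h1 : (dt (fun k => G⁻¹ * Y k) J).map (starRingEnd ℂ) = dt (fun k => Y k * G⁻¹) J := by
    have h2 := RingHom.map_det (mapRingHom (starRingEnd ℂ)) (Um (fun k => G⁻¹ * Y k) J)
    rw [coe_mapRingHom] at h2
    rw [dt, h2, dt, ← Matrix.det_transpose]
    congr 1
    ext a b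
    have h1' : Polynomial.map (starRingEnd ℂ) ((1 : Matrix m m ℂ[X]) b a) =
        (1 : Matrix m m ℂ[X]) a b := by
      rcases eq_or_ne a b with rfl | hab
      · simp
      · simp [Matrix.one_apply_ne hab, Matrix.one_apply_ne hab.symm]
    have h3 : ∀ k, starRingEnd ℂ ((G⁻¹ * Y (k + 1)) b a) = (Y (k + 1) * G⁻¹) a b := by
      intro k
      have h4 : (G⁻¹ * Y (k + 1)).conjTranspose = Y (k + 1) * G⁻¹ := by
        rw [Matrix.conjTranspose_mul, hGi, (hY (k + 1) (by omega)).eq]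
      rw [← h4]
      rfl
    simp only [RingHom.mapMatrix_apply, Matrix.transpose_apply, Matrix.map_apply, Um,
      Matrix.add_apply, Matrix.sum_apply, Matrix.smul_apply, smul_eq_mul, coe_mapRingHom,
      Polynomial.map_add, Polynomial.map_sum, Polynomial.map_mul, Polynomial.map_pow, map_X, map_C,
      h1', h3]
  have h5 : dt (fun k => Y k * G⁻¹) J = dt (fun k => G⁻¹ * Y k) J := by
    refine dt_similar (P := G⁻¹) ?_ (fun k => ?_) J
    · rw [Matrix.det_nonsing_inv, Ring.inverse_eq_inv']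
      exact inv_ne_zero hG0
    · rw [Matrix.nonsing_inv_nonsing_inv _ hu, ← Matrix.mul_assoc, Matrix.mul_nonsing_inv _ hu,
        Matrix.one_mul]
  have h6 := congrArg (fun p : ℂ[X] => p.coeff j) (h1.trans h5)
  simp only [coeff_map] at h6
  exact Complex.conj_eq_iff_im.1 h6

end alg

/-! ### majorants in Hölder classes -/

section maj

variable {E : Type*} [NormedAddCommGroup E] {a : ℝ} {s : Set E}

theorem ho_fsum {ι F : Type*} [NormedAddCommGroup F] {f : ι → E → F} {M : ι → ℝ} (t : Finset ι)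
    (hf : ∀ i ∈ t, HO a (M i) s (f i)) : HO a (∑ i ∈ t, M i) s (fun z => ∑ i ∈ t, f i z) := by
  refine ⟨fun z hz => ?_, fun z hz w hw => ?_⟩
  · exact (norm_sum_le _ _).trans (Finset.sum_le_sum fun i hi => (hf i hi).bdd z hz)
  · rw [← Finset.sum_sub_distrib, Finset.sum_mul]
    exact (norm_sum_le _ _).trans (Finset.sum_le_sum fun i hi => (hf i hi).hol z hz w hw)

theorem ho_const {F : Type*} [NormedAddCommGroup F] {c : F} {M : ℝ} (h : ‖c‖ ≤ M) :
    HO a M s (fun _ => c) := by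
  refine ⟨fun _ _ => h, fun z _ w _ => ?_⟩
  rw [sub_self, norm_zero]
  exact mul_nonneg ((norm_nonneg c).trans h) (Real.rpow_nonneg (norm_nonneg _) _)

/-- `p` is majorised by `P` -/
def Mj (a : ℝ) (s : Set E) (p : E → ℂ[X]) (P : ℝ[X]) : Prop :=
  ∀ j, HO a (P.coeff j) s (fun z => (p z).coeff j)

theorem Mj.one : Mj a s (fun _ => 1) 1 := fun j => by
  refine ho_const ?_
  rw [coeff_one, coeff_one]
  split_ifs <;> simp

theorem Mj.mul {p q : E → ℂ[X]} {P Q : ℝ[X]} (hP : Nn P) (hQ : Nn Q) (hp : Mj a s p P)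
    (hq : Mj a s q Q) : Mj a s (fun z => p z * q z) (C 2 * (P * Q)) := fun j => by
  have h := ho_fsum (Finset.HasAntidiagonal.antidiagonal j) (a := a) (s := s)
    (f := fun x z => (p z).coeff x.1 * (q z).coeff x.2)
    (M := fun x => 2 * P.coeff x.1 * Q.coeff x.2)
    (fun x _ => ho_mul (hP _) (hQ _) (hp _) (hq _))
  have e1 : (C 2 * (P * Q)).coeff j =
      ∑ x ∈ Finset.HasAntidiagonal.antidiagonal j, 2 * P.coeff x.1 * Q.coeff x.2 := by
    rw [coeff_C_mul, coeff_mul, Finset.mul_sum]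
    exact Finset.sum_congr rfl fun x _ => by ring
  rw [e1]
  refine h.congr fun z _ => ?_
  simp only [coeff_mul]

theorem Mj.prod {ι : Type*} {p : ι → E → ℂ[X]} {P : ℝ[X]} (hP : Nn P) (t : Finset ι)
    (hp : ∀ i ∈ t, Mj a s (p i) P) :
    Mj a s (fun z => ∏ i ∈ t, p i z) (C (2 ^ t.card) * P ^ t.card) := by
  classical
  induction t using Finset.induction_on with
  | empty => simpa using Mj.one
  | insert i t hi ih =>
    have h1 := ih fun k hk => hp k (Finset.mem_insert_of_mem hk)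
    have h2 := Mj.mul hP ((nn_C (by positivity)).mul (hP.pow _))
      (hp i (Finset.mem_insert_self _ _)) h1
    have e : C (2 ^ (insert i t).card) * P ^ (insert i t).card =
        C 2 * (P * (C (2 ^ t.card) * P ^ t.card)) := by
      rw [Finset.card_insert_of_notMem hi, pow_succ, pow_succ, C_mul]
      ring
    rw [e]
    intro j
    refine (h2 j).congr fun z _ => ?_
    show (∏ i ∈ insert i t, p i z).coeff j = (p i z * ∏ i ∈ t, p i z).coeff j
    rw [Finset.prod_insert hi]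

theorem ho_units {F : Type*} [NormedAddCommGroup F] {f : E → F} {M : ℝ} (e : ℤˣ)
    (hf : HO a M s f) : HO a M s (fun z => e • f z) := by
  rcases Int.units_eq_one_or e with rfl | rfl
  · simpa using hf
  · have := hf.neg
    refine this.congr fun z _ => ?_
    simp [Units.smul_def]

theorem Mj.det {n : ℕ} {U : E → Matrix (Fin n) (Fin n) ℂ[X]} {P : ℝ[X]} (hP : Nn P)
    (hU : ∀ b c, Mj a s (fun z => U z b c) P) :
    Mj a s (fun z => (U z).det) (C ((n.factorial : ℝ) * 2 ^ n) * P ^ n) := fun j => by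
  have h1 : ∀ σ : Equiv.Perm (Fin n), HO a ((C (2 ^ n) * P ^ n).coeff j) s
      (fun z => Equiv.Perm.sign σ • (∏ i, U z (σ i) i).coeff j) := fun σ => by
    refine ho_units _ ?_
    have h2 := Mj.prod (p := fun i z => U z (σ i) i) hP Finset.univ (fun i _ => hU _ _) j
    rwa [Finset.card_univ, Fintype.card_fin] at h2
  have h3 := ho_sum (Finset.univ : Finset (Equiv.Perm (Fin n))) (fun σ _ => h1 σ)
  rw [Finset.card_univ, Fintype.card_perm, Fintype.card_fin] at h3
  have e : (C ((n.factorial : ℝ) * 2 ^ n) * P ^ n).coeff j =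
      (n.factorial : ℝ) * (C (2 ^ n) * P ^ n).coeff j := by
    rw [C_mul, mul_assoc, coeff_C_mul]
  rw [e]
  refine h3.congr fun z _ => ?_
  show ((U z).det).coeff j = _
  rw [Matrix.det_apply, finsetSum_coeff]
  refine Finset.sum_congr rfl fun σ _ => ?_
  rcases Int.units_eq_one_or (Equiv.Perm.sign σ) with h | h
  · rw [h, one_smul, one_smul]
  · rw [h]
    simp [Units.smul_def]

theorem Um_coeff {n : ℕ} (Z : ℕ → Matrix (Fin n) (Fin n) ℂ) (J : ℕ) (b c : Fin n) (k : ℕ) :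
    (Um Z J b c).coeff k =
      if k = 0 then (1 : Matrix (Fin n) (Fin n) ℂ) b c else if k ≤ J then Z k b c else 0 := by
  have h1 : (∑ j ∈ Finset.range J, (((X : ℂ[X]) ^ (j + 1)) • (Z (j + 1)).map C) b c).coeff k =
      if k = 0 then 0 else if k ≤ J then Z k b c else 0 := by
    rw [finsetSum_coeff]
    rcases k with _ | k
    · rw [if_pos rfl]
      refine Finset.sum_eq_zero fun j _ => ?_
      simp [Matrix.smul_apply, Matrix.map_apply]
    · rw [if_neg (Nat.succ_ne_zero k)]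
      have h2 : ∀ j, ((((X : ℂ[X]) ^ (j + 1)) • (Z (j + 1)).map C) b c).coeff (k + 1) =
          if k = j then Z (j + 1) b c else 0 := by
        intro j
        rw [Matrix.smul_apply, Matrix.map_apply, smul_eq_mul, mul_comm, coeff_C_mul, coeff_X_pow]
        by_cases h : k = j
        · subst h
          simp
        · rw [if_neg h, if_neg (by omega), mul_zero]
      simp only [h2]
      rw [Finset.sum_ite_eq (Finset.range J) k (fun j => Z (j + 1) b c)]
      by_cases h : k < J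
      · rw [if_pos (Finset.mem_range.2 h), if_pos (by omega)]
      · rw [if_neg (by simpa using h), if_neg (by omega)]
  rw [Um, Matrix.add_apply, Matrix.sum_apply, coeff_add, h1]
  have h3 : ((1 : Matrix (Fin n) (Fin n) ℂ[X]) b c).coeff k =
      if k = 0 then (1 : Matrix (Fin n) (Fin n) ℂ) b c else 0 := by
    rcases eq_or_ne b c with rfl | hbc
    · rw [Matrix.one_apply_eq, coeff_one, Matrix.one_apply_eq]
    · rw [Matrix.one_apply_ne hbc, coeff_zero, Matrix.one_apply_ne hbc, ite_self]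
  rw [h3]
  split_ifs <;> simp

/-- majorant of the determinant -/
theorem Mj.dt {n : ℕ} {Z : ℕ → E → Matrix (Fin n) (Fin n) ℂ} {J : ℕ} {x : ℕ → ℝ}
    (hx : ∀ j ≤ J, 0 ≤ x j)
    (hZ : ∀ j ≤ J, 1 ≤ j → ∀ b c, HO a (x j) s (fun z => Z j z b c)) :
    Mj a s (fun z => dt (fun j => Z j z) J) (C ((n.factorial : ℝ) * 2 ^ n) * (1 + Ap x J) ^ n) := by
  refine Mj.det (nn_one.add (Ap_nn hx)) fun b c k => ?_
  rw [coeff_add, Ap_coeff]
  have e : (fun z => (Um (fun j => Z j z) J b c).coeff k) = fun z =>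
      if k = 0 then (1 : Matrix (Fin n) (Fin n) ℂ) b c else if k ≤ J then Z k z b c else 0 := by
    funext z
    exact Um_coeff _ _ _ _ _
  rw [e]
  rcases Nat.eq_zero_or_pos k with rfl | hk
  · simp only [if_true, coeff_one_zero, Nat.zero_le]
    refine ho_const ?_
    have h0 := hx 0 (Nat.zero_le _)
    have : ‖(1 : Matrix (Fin n) (Fin n) ℂ) b c‖ ≤ 1 := by
      rcases eq_or_ne b c with rfl | hbc
      · simp
      · simp [Matrix.one_apply_ne hbc]
    linarith
  · have hk0 : k ≠ 0 := by omega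
    simp only [if_neg hk0, coeff_one, zero_add]
    by_cases hkJ : k ≤ J
    · simp only [if_pos hkJ]
      exact hZ k hkJ hk b c
    · simp only [if_neg hkJ]
      exact ho_const (by simp)

end maj

end

end Crest.Agent.R281.HKMov_478
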