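import Crest.Agent.R281.HKMovD_478
import Crest.Agent.R281.HKMovE_478
import Crest.Agent.R281.KpE_487
import Crest.Agent.R281.HkR9_835
import Crest.Agent.R281.KpU_487

-- ▼ part R281/HKMovF_478
section

/-!
# R281 (S0424), YAU-AN (helper478), file F: local regularity

* `lev_pos_c2`  : `cH u z > 0` => `lev u z v > 0` (`C²` version)
* `reg_add`     : `G` smooth Hermitian closed, `v ∈ C^{2,a}`, `G + ∂∂̄v > 0`, `det (G + ∂∂̄v)` smooth
                  => `v` smooth
* `cHLc`        : `D²u ↦ cH u` as a continuous linear map; `cH_tsum`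
-/

set_option autoImplicit false
set_option linter.unusedSectionVars false

open Set Filter Topology Complex Metric
open scoped ContDiff Matrix ComplexConjugate ComplexOrder

namespace Crest.Agent.R281.HKMov_478

open Crest.Agent.R275.Geo Crest.Agent.R275.Core144 Crest.Agent.R275.GC293
open Crest.Agent.R275.EDR890
open Crest.Agent.R273.Defs_333 Crest.Agent.R273.YauDefs_635 Crest.Agent.R273.HM_333
open Crest.Agent.R273.YauCh_635 Crest.Agent.R273.Hess_333 Crest.Agent.R273.HessB_333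
open Crest.Agent.R273.Kah_333 Crest.Agent.R273.YauMax_635 Crest.Agent.R273.YauLoc_635
open Crest.Agent.R273.SchA_152 Crest.Agent.R273.SchD_152 Crest.Agent.R273.YauQ_635
open Crest.Agent.R273.YauSchF_635 Crest.Agent.R273.YauPf_635 Crest.Agent.R273.YauOpA_635
open Crest.Agent.R281.KpE_487 Crest.Agent.R281.KpD_487

noncomputable section

variable {n : ℕ}

/-- the quadratic form of `cH` -/
theorem lev_eq_cH {u : Cn n → ℝ} {z : Cn n} (hu : ContDiffAt ℝ 2 u z) (v : Cn n) :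
    ((Crest.Agent.R273.Levi_145.lev u z v : ℝ) : ℂ) =
      star (fun a => conj (v a)) ⬝ᵥ (cH u z) *ᵥ (fun a => conj (v a)) := by
  rw [Crest.Agent.R273.Levi_145.lev_eq hu v]
  simp only [dotProduct, Matrix.mulVec, Pi.star_apply, RCLike.star_def, Finset.mul_sum,
    Complex.conj_conj, cH_eq_hs hu]
  refine Finset.sum_congr rfl fun a _ => Finset.sum_congr rfl fun b _ => ?_
  ring

theorem lev_pos_c2 {u : Cn n → ℝ} {z : Cn n} (hu : ContDiffAt ℝ 2 u z) (h : (cH u z).PosDef)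
    {v : Cn n} (hv : v ≠ 0) : 0 < lev u z v := by
  have h0 : (fun a => conj (v a)) ≠ 0 := by
    intro h1
    apply hv
    ext a
    have := congrFun h1 a
    simpa using this
  have h1 := h.dotProduct_mulVec_pos h0
  have h2 := lev_eq_cH hu v
  rw [← h2] at h1
  rw [lev333_eq_lev145]
  have h3 : 0 < Crest.Agent.R273.Levi_145.lev u z v := by exact_mod_cast h1
  linarith

theorem cH_add_c2 {u v : Cn n → ℝ} {z : Cn n} (hu : ContDiffAt ℝ 2 u z)
    (hv : ContDiffAt ℝ 2 v z) : cH (fun w => u w + v w) z = cH u z + cH v z := by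
  have h1 : fderiv ℝ (fderiv ℝ (fun w => u w + v w)) z =
      fderiv ℝ (fderiv ℝ u) z + fderiv ℝ (fderiv ℝ v) z := by
    have e : fderiv ℝ (fun w => u w + v w) =ᶠ[𝓝 z] fun w => fderiv ℝ u w + fderiv ℝ v w := by
      filter_upwards [hu.eventually (by simp), hv.eventually (by simp)] with w hw hw'
      exact fderiv_fun_add (hw.differentiableAt (by norm_num)) (hw'.differentiableAt (by norm_num))
    have d1 : ∀ {f : Cn n → ℝ}, ContDiffAt ℝ 2 f z → DifferentiableAt ℝ (fderiv ℝ f) z := by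
      intro f hf
      exact (hf.fderiv_right (m := 1) (by norm_num)).differentiableAt (by norm_num)
    rw [e.fderiv_eq, fderiv_fun_add (d1 hu) (d1 hv)]
  ext a b
  simp only [cH, Matrix.of_apply, Matrix.add_apply, D2, h1, _root_.add_apply]
  push_cast
  ring

theorem fd2_add_c2 {u v : Cn n → ℝ} {z : Cn n} (hu : ContDiffAt ℝ 2 u z)
    (hv : ContDiffAt ℝ 2 v z) : fderiv ℝ (fderiv ℝ (fun w => u w + v w)) z =
      fderiv ℝ (fderiv ℝ u) z + fderiv ℝ (fderiv ℝ v) z := by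
  have e : fderiv ℝ (fun w => u w + v w) =ᶠ[𝓝 z] fun w => fderiv ℝ u w + fderiv ℝ v w := by
    filter_upwards [hu.eventually (by simp), hv.eventually (by simp)] with w hw hw'
    exact fderiv_fun_add (hw.differentiableAt (by norm_num)) (hw'.differentiableAt (by norm_num))
  have d1 : ∀ {f : Cn n → ℝ}, ContDiffAt ℝ 2 f z → DifferentiableAt ℝ (fderiv ℝ f) z := by
    intro f hf
    exact (hf.fderiv_right (m := 1) (by norm_num)).differentiableAt (by norm_num)
  rw [e.fderiv_eq, fderiv_fun_add (d1 hu) (d1 hv)]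

theorem norm_add_sub_le {F : Type*} [NormedAddCommGroup F] (p q p' q' : F) {c d t : ℝ}
    (h : ‖p - p'‖ ≤ c * t) (h' : ‖q - q'‖ ≤ d * t) : ‖(p + q) - (p' + q')‖ ≤ (c + d) * t := by
  have e : (p + q) - (p' + q') = (p - p') + (q - q') := by abel
  rw [e, add_mul]
  exact (norm_add_le _ _).trans (add_le_add h h')

/-- **local regularity** -/
theorem reg_add {U : Set (Cn n)} (hU : IsOpen U) {G : Cn n → Matrix (Fin n) (Fin n) ℂ}
    (hs : ∀ a b, ContDiffOn ℝ ∞ (fun w => G w a b) U)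
    (hh : ∀ z ∈ U, (G z).IsHermitian)
    (hc : ∀ z ∈ U, ∀ a b c,
      wd (false, c) (fun w => G w a b) z = wd (false, a) (fun w => G w c b) z)
    (hc' : ∀ z ∈ U, ∀ a b c,
      wd (true, c) (fun w => G w a b) z = wd (true, b) (fun w => G w a c) z)
    {v : Cn n → ℝ} (hv : ContDiffOn ℝ 2 v U) {S : ℝ}
    (hvH : HO (1 / 2) S U (fderiv ℝ (fderiv ℝ v))) {f : Cn n → ℝ} (hf : ContDiffOn ℝ ∞ f U)
    (hpos : ∀ z ∈ U, (G z + cH v z).PosDef) (hdet : ∀ z ∈ U, (G z + cH v z).det = (f z : ℂ)) :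
    ContDiffOn ℝ ∞ v U := by
  intro z0 hz0
  refine ContDiffAt.contDiffWithinAt ?_
  obtain ⟨ρ, hρ, hρU⟩ := exists_PD_subset (hU.mem_nhds hz0)
  obtain ⟨s, hs0, hsρ, w, hw, hwG⟩ := ddbar_local hρ (fun a b => (hs a b).mono hρU)
    (fun z hz => hh z (hρU hz)) (fun z hz => hc z (hρU hz)) (fun z hz => hc' z (hρU hz))
  have hsU : PD z0 s ⊆ U := fun z hz => hρU fun a => (hz a).trans_le hsρ
  set O : Set (Cn n) := PD z0 s with hO
  have hOo : IsOpen O := isOpen_PD _ _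
  have hz0O : z0 ∈ O := mem_PD_self hs0
  have hcw : ∀ z ∈ O, cH w z = G z := fun z hz => by
    rw [cH_eq_hess hw.contDiffAt, hwG z hz]
  have hvat : ∀ z ∈ O, ContDiffAt ℝ 2 v z := fun z hz => hv.contDiffAt (hU.mem_nhds (hsU hz))
  have hwat : ∀ z, ContDiffAt ℝ 2 w z := fun z => hw.contDiffAt.of_le two_le_inf
  have hcu : ∀ z ∈ O, cH (fun y => w y + v y) z = G z + cH v z := fun z hz => by
    rw [cH_add_c2 (hwat z) (hvat z hz), hcw z hz]
  have hfpos : ∀ z ∈ O, 0 < f z := fun z hz => by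
    have h1 := (hpos z (hsU hz)).det_pos
    rw [hdet z (hsU hz)] at h1
    exact_mod_cast h1
  have hreg : ContDiffOn ℝ ∞ (fun y => w y + v y) O := by
    refine Crest.Agent.R273.CReg_933.reg_holds n O _ (fun z => Real.log (f z)) (1 / 2) hOo
      (by norm_num) (by norm_num) ((hw.of_le two_le_inf).contDiffOn.add (hv.mono hsU))
      ((hf.mono hsU).log fun z hz => (hfpos z hz).ne') (fun z hz => ?_) (fun z hz ξ hξ => ?_)
      (fun z hz => ?_)
    · obtain ⟨δ, hδ, hδO⟩ := Metric.isOpen_iff.1 hOo z hz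
      set R : ℝ := min (δ / 2) 1 with hR
      have hR0 : 0 < R := lt_min (by linarith) one_pos
      have hRδ : closedBall z R ⊆ O := fun y hy => hδO (by
        rw [mem_closedBall] at hy
        rw [mem_ball]
        have := min_le_left (δ / 2) 1
        linarith)
      obtain ⟨V, hV⟩ := ho_smooth (u := w) isOpen_univ hw.contDiffOn (min_le_right _ _ : R ≤ 1)
        (subset_univ (closedBall z R))
      refine ⟨R, hR0, V + S, ball_subset_closedBall.trans hRδ, fun x hx y hy => ?_⟩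
      have hxO := hRδ (ball_subset_closedBall hx)
      have hyO := hRδ (ball_subset_closedBall hy)
      rw [fd2_add_c2 (hwat x) (hvat x hxO), fd2_add_c2 (hwat y) (hvat y hyO)]
      have h1 := hV.hol x (ball_subset_closedBall hx) y (ball_subset_closedBall hy)
      have h2 := hvH.hol x (hsU hxO) y (hsU hyO)
      exact norm_add_sub_le (F := Cn n →L[ℝ] Cn n →L[ℝ] ℝ) _ _ _ _ h1 h2
    · refine lev_pos_c2 ((hwat z).add (hvat z hz)) ?_ hξ
      rw [hcu z hz]
      exact hpos z (hsU hz)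
    · rw [hcu z hz, hdet z (hsU hz), Real.exp_log (hfpos z hz)]
  have h1 : ContDiffAt ℝ ∞ (fun y => w y + v y) z0 := hreg.contDiffAt (hOo.mem_nhds hz0O)
  have h2 := h1.sub hw.contDiffAt
  refine h2.congr_of_eventuallyEq (Eventually.of_forall fun y => ?_)
  simp

/-- `D²u ↦ cH u` -/
def cHLc (a b : Fin n) : (Cn n →L[ℝ] Cn n →L[ℝ] ℝ) →L[ℝ] ℂ :=
  LinearMap.mkContinuous
    { toFun := cHL a b
      map_add' := fun Q Q' => by
        simp only [cHL, _root_.add_apply]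
        push_cast
        ring
      map_smul' := fun c Q => by
        simp only [cHL, _root_.smul_apply, smul_eq_mul, RingHom.id_apply, Complex.real_smul]
        push_cast
        ring } 1 (fun Q => cHL_le a b Q)



end

end Crest.Agent.R281.HKMov_478
end

-- ▼ part R281/HKMovG_478
section

/-!
# R281 (S0424), YAU-AN (helper478), file G: the sum of the series

For `S : AnS K Bc B x0 r η w` and real `|s| < r`:
* `S.ps s = ∑ s^j φ_j`, `S.ms s = ∑ s^j m_j`
* `ps_c2`, `ps_ho`     : `C^{2,1/2}`, derivatives term by term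
* `det_ps`             : `det (G_s + ∂∂̄ ps) = (1 + ms) det K`, `G_s = K + ∑ s^j B_j`
* `pos_ps`, `ps_sm`    : positivity and smoothness for small `η`
-/

set_option autoImplicit false
set_option linter.unusedSectionVars false

open Set Filter Topology Complex Metric
open scoped ContDiff Matrix ComplexConjugate ComplexOrder

namespace Crest.Agent.R281.HKMov_478

open Crest.Agent.R275.Geo Crest.Agent.R275.Core144 Crest.Agent.R275.GC293
open Crest.Agent.R275.EDR890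
open Crest.Agent.R273.Defs_333 Crest.Agent.R273.YauDefs_635 Crest.Agent.R273.HM_333
open Crest.Agent.R273.YauCh_635 Crest.Agent.R273.Hess_333 Crest.Agent.R273.HessB_333
open Crest.Agent.R273.Kah_333 Crest.Agent.R273.YauMax_635 Crest.Agent.R273.YauLoc_635
open Crest.Agent.R273.SchA_152 Crest.Agent.R273.SchD_152 Crest.Agent.R273.YauQ_635
open Crest.Agent.R273.YauSchF_635 Crest.Agent.R273.YauPf_635 Crest.Agent.R273.YauOpA_635
open Crest.Agent.R273.SchF_152 Crest.Agent.R273.SchE_152 Crest.Agent.R273.SchG_152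

noncomputable section

variable {n : ℕ} {M : Type} [TopologicalSpace M] {A : Atl n M}

theorem fd_cmul (c : ℝ) (f : Cn n → ℝ) : fderiv ℝ (fun z => c * f z) = fun z => c • fderiv ℝ f z := by
  funext z
  exact congrFun (congrArg _ (rfl : (fun z => c * f z) = c • f)) z |>.trans
    (congrFun (fderiv_const_smul_field (f := f) c) z)

theorem fd2_cmul (c : ℝ) (f : Cn n → ℝ) :
    fderiv ℝ (fderiv ℝ (fun z => c * f z)) = fun z => c • fderiv ℝ (fderiv ℝ f) z := by
  rw [fd_cmul]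
  funext z
  exact congrFun (congrArg _ (rfl : (fun z => c • fderiv ℝ f z) = c • fderiv ℝ f)) z |>.trans
    (congrFun (fderiv_const_smul_field (f := fderiv ℝ f) c) z)

theorem ho_smulr {X F : Type*} [NormedAddCommGroup X] [NormedAddCommGroup F] [NormedSpace ℝ F]
    {a N : ℝ} {s : Set X} {f : X → F} (c : ℝ) (h : HO a N s f) :
    HO a (|c| * N) s (fun z => c • f z) := by
  refine ⟨fun z hz => ?_, fun z hz w hw => ?_⟩
  · rw [norm_smul, Real.norm_eq_abs]
    exact mul_le_mul_of_nonneg_left (h.bdd z hz) (abs_nonneg _)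
  · rw [← smul_sub, norm_smul, Real.norm_eq_abs, mul_assoc]
    exact mul_le_mul_of_nonneg_left (h.hol z hz w hw) (abs_nonneg _)

theorem norm_pow_smul_le {F : Type*} [NormedAddCommGroup F] [NormedSpace ℝ F] (s : ℝ) (j : ℕ)
    (q : F) {a : ℝ} (h : ‖q‖ ≤ a) : ‖s ^ j • q‖ ≤ |s| ^ j * a := by
  rw [norm_smul, norm_pow, Real.norm_eq_abs]
  exact mul_le_mul_of_nonneg_left h (by positivity)

theorem hasSum_clm {F : Type*} [NormedAddCommGroup F] [NormedSpace ℝ F] [CompleteSpace F]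
    (L : F →L[ℝ] ℂ) {s : ℝ} {q : ℕ → F} {a : ℕ → ℝ} (ha : Summable fun j => |s| ^ j * a j)
    (h : ∀ j, ‖q j‖ ≤ a j) : HasSum (fun j => (s : ℂ) ^ j * L (q j)) (L (∑' j, s ^ j • q j)) := by
  have h1 : Summable fun j => s ^ j • q j :=
    Summable.of_norm_bounded ha fun j => norm_pow_smul_le s j _ (h j)
  have h2 := L.hasSum h1.hasSum
  refine h2.congr_fun ?_
  intro j
  rw [map_smul, Complex.real_smul]
  push_cast
  rfl

namespace AnS

variable {K : Kah A} {Bc : Cb A} {B : ℕ → A.ι → M → Matrix (Fin n) (Fin n) ℂ} {x0 : M}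
  {r η : ℝ} {w : ℕ → ℝ}

/-- the sum of the series -/
def ps (S : AnS K Bc B x0 r η w) (s : ℝ) (x : M) : ℝ := ∑' j, s ^ j * S.φ j x

/-- the sum of the constants -/
def ms (S : AnS K Bc B x0 r η w) (s : ℝ) : ℝ := ∑' j, s ^ j * S.m j

variable (S : AnS K Bc B x0 r η w) {s : ℝ}

theorem summ (hr : 0 < r) : Summable fun j => S.a j * r ^ j :=
  summable_of_bd hr.le S.a_nn S.a_sum

theorem summ_s (hr : 0 < r) (hs : |s| ≤ r) : Summable fun j => |s| ^ j * S.a j := by
  refine Summable.of_nonneg_of_le (fun j => mul_nonneg (by positivity) (S.a_nn j)) (fun j => ?_)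
    (S.summ hr)
  rw [mul_comm]
  exact mul_le_mul_of_nonneg_left (pow_le_pow_left₀ (abs_nonneg _) hs _) (S.a_nn j)

theorem tsum_le (hr : 0 < r) (hs : |s| ≤ r) : ∑' j, |s| ^ j * S.a j ≤ η := by
  have h1 : ∑' j, S.a j * r ^ j ≤ η := by
    refine (S.summ hr).tsum_le_of_sum_range_le fun N => ?_
    rcases N with _ | N
    · have h0 := S.a_sum 0
      simp only [Finset.range_zero, Finset.sum_empty]
      have h1 : 0 ≤ ∑ j ∈ Finset.range (0 + 1), S.a j * r ^ j :=
        Finset.sum_nonneg fun j _ => mul_nonneg (S.a_nn j) (by positivity)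
      linarith
    · exact S.a_sum N
  refine ((S.summ_s hr hs).tsum_le_tsum (fun j => ?_) (S.summ hr)).trans h1
  rw [mul_comm]
  exact mul_le_mul_of_nonneg_left (pow_le_pow_left₀ (abs_nonneg _) hs _) (S.a_nn j)

theorem eta_nonneg (S : AnS K Bc B x0 r η w) (hr : 0 < r) : 0 ≤ η := by
  have h1 := S.a_sum 0
  have : 0 ≤ ∑ j ∈ Finset.range (0 + 1), S.a j * r ^ j :=
    Finset.sum_nonneg fun j _ => mul_nonneg (S.a_nn j) (by positivity)
  linarith

/-- the sum is `C²` in the chart balls, derivatives term by term -/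
theorem ps_c2 (hr : 0 < r) (hs : |s| ≤ r) (k : Bc.κ) :
    ContDiffOn ℝ 2 (inC A (Bc.i k) (S.ps s)) (ball (Bc.z k) (Bc.r k / 2)) ∧
      (∀ z ∈ ball (Bc.z k) (Bc.r k / 2), fderiv ℝ (inC A (Bc.i k) (S.ps s)) z =
        ∑' j, s ^ j • fderiv ℝ (inC A (Bc.i k) (S.φ j)) z) ∧
      ∀ z ∈ ball (Bc.z k) (Bc.r k / 2), fderiv ℝ (fderiv ℝ (inC A (Bc.i k) (S.ps s))) z =
        ∑' j, s ^ j • fderiv ℝ (fderiv ℝ (inC A (Bc.i k) (S.φ j))) z := by
  set O : Set (Cn n) := ball (Bc.z k) (Bc.r k / 2) with hO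
  have hOB : O ⊆ closedBall (Bc.z k) (Bc.r k / 2) := ball_subset_closedBall
  set u : ℕ → Cn n → ℝ := fun j z => s ^ j * inC A (Bc.i k) (S.φ j) z with hu
  have hb : ∀ (c : ℝ), |c| ≤ c → 0 ≤ c := fun c h => (abs_nonneg c).trans h
  have hc2 : ∀ j, ContDiffOn ℝ 2 (u j) O := fun j =>
    contDiffOn_const.mul (((inC_smooth (S.sm j) (Bc.i k)).of_le two_le_inf).mono
      (hOB.trans (Bc.sub' k)))
  obtain ⟨g1, g2, g3⟩ := sum_c2 isOpen_ball hc2 (S.summ_s hr hs)
    (fun j z hz => by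
      simp only [hu]
      rw [norm_mul, norm_pow, Real.norm_eq_abs]
      exact mul_le_mul_of_nonneg_left ((S.n2 j k).h0.bdd z (hOB hz)) (by positivity))
    (fun j z hz => by
      simp only [hu]
      rw [fd_cmul]
      exact norm_pow_smul_le (F := Cn n →L[ℝ] ℝ) s j _ ((S.n2 j k).h1.bdd z (hOB hz)))
    (fun j z hz => by
      simp only [hu]
      rw [fd2_cmul]
      exact norm_pow_smul_le (F := Cn n →L[ℝ] Cn n →L[ℝ] ℝ) s j _ ((S.n2 j k).h2.bdd z (hOB hz)))
  refine ⟨g1, fun z hz => ?_, fun z hz => ?_⟩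
  · refine (g2 z hz).trans ?_
    refine tsum_congr fun j => ?_
    simp only [hu]
    rw [fd_cmul]
  · refine (g3 z hz).trans ?_
    refine tsum_congr fun j => ?_
    simp only [hu]
    rw [fd2_cmul]

theorem ps_ho (hr : 0 < r) (hs : |s| ≤ r) (k : Bc.κ) :
    HO (1 / 2) η (ball (Bc.z k) (Bc.r k / 2))
      (fderiv ℝ (fderiv ℝ (inC A (Bc.i k) (S.ps s)))) := by
  obtain ⟨-, -, g3⟩ := S.ps_c2 hr hs k
  have h1 := ho_tsum (s := ball (Bc.z k) (Bc.r k / 2)) (al := 1 / 2) (S := η)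
    (f := fun j z => s ^ j • fderiv ℝ (fderiv ℝ (inC A (Bc.i k) (S.φ j))) z)
    (S.summ_s hr hs) (S.tsum_le hr hs) (fun j => by
      have h2 := ho_smulr (s ^ j) ((S.n2 j k).h2.subset (ball_subset_closedBall))
      rwa [abs_pow] at h2)
  exact h1.congr g3

/-- the Hessian of the sum -/
theorem cH_ps (hr : 0 < r) (hs : |s| ≤ r) (k : Bc.κ) {z : Cn n}
    (hz : z ∈ ball (Bc.z k) (Bc.r k / 2)) (b c : Fin n) :
    HasSum (fun j => (s : ℂ) ^ j * cH (inC A (Bc.i k) (S.φ j)) z b c)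
      (cH (inC A (Bc.i k) (S.ps s)) z b c) := by
  obtain ⟨-, -, g3⟩ := S.ps_c2 hr hs k
  have h2 := hasSum_clm (F := Cn n →L[ℝ] Cn n →L[ℝ] ℝ) (cHLc b c) (s := s)
    (q := fun j => fderiv ℝ (fderiv ℝ (inC A (Bc.i k) (S.φ j))) z) (S.summ_s hr hs)
    (fun j => (S.n2 j k).h2.bdd z (ball_subset_closedBall hz))
  rw [← g3 z hz] at h2
  exact h2

end AnS

end

end Crest.Agent.R281.HKMov_478
end

-- ▼ part R281/HKMovH_478
section

/-!
# R281 (S0424), YAU-AN (helper478), file H: the metrics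

* `K11.addH G u`  : `G + i ∂∂̄u`;  `K11.lin K H s` : `K + s H`
* `AnS.det_ps`    : `det (G_s + ∂∂̄ ps) = (1 + ms) det K`
* `AnS.pos_ps`, `AnS.sm_ps` : positivity and smoothness
* **`yau_an`**
-/

set_option autoImplicit false
set_option linter.unusedSectionVars false

open Set Filter Topology Complex Metric
open scoped ContDiff Matrix ComplexConjugate ComplexOrder

namespace Crest.Agent.R281.HKMov_478

open Crest.Agent.R275.Geo Crest.Agent.R275.Core144 Crest.Agent.R275.GC293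
open Crest.Agent.R275.EDR890
open Crest.Agent.R273.Defs_333 Crest.Agent.R273.YauDefs_635 Crest.Agent.R273.HM_333
open Crest.Agent.R273.YauCh_635 Crest.Agent.R273.Hess_333 Crest.Agent.R273.HessB_333
open Crest.Agent.R273.Kah_333 Crest.Agent.R273.YauMax_635 Crest.Agent.R273.YauLoc_635
open Crest.Agent.R273.SchA_152 Crest.Agent.R273.SchD_152 Crest.Agent.R273.YauQ_635
open Crest.Agent.R273.YauSchF_635 Crest.Agent.R273.YauPf_635 Crest.Agent.R273.YauOpA_635
open Crest.Agent.R273.SchF_152 Crest.Agent.R273.SchE_152 Crest.Agent.R273.SchG_152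
open Crest.Agent.R273.Vol_333 (addK Yau volK det_real det_re_pos)
open Crest.Agent.R281.HkR_835 (K11 ofKah)

noncomputable section

variable {n : ℕ} {M : Type} [TopologicalSpace M] {A : Atl n M}

/-! ### operations on `K11` -/

theorem k11_hf (G : K11 A) : HF A G.g := ⟨⟨G.sm, G.tr⟩, G.herm⟩

/-- `G + i ∂∂̄u` -/
def addH (G : K11 A) (u : M → ℝ) (hu : A.Sm u) : K11 A where
  g i x := G.g i x + hsf A u i x
  sm i a b := by
    have h1 : ContDiffOn ℝ ∞ (fun z => hsf A u i ((A.e i).symm z) a b) (A.e i).target := by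
      refine (contDiffOn_hess (A.e i).open_target (hu i) a b).congr fun z hz => ?_
      simp only [hsf_read u i hz]
    exact (G.sm i a b).add h1
  herm i x hx := (G.herm i x hx).add ((hf_hsf hu).herm i x hx)
  tr i j x hx := by
    rw [hsf_tr hu hx, G.tr i j x hx, Matrix.mul_add, Matrix.add_mul]
  closed i z hz a b c := by
    have hr : ∀ a, (fun w => (G.g i ((A.e i).symm w) + hsf A u i ((A.e i).symm w)) a b) =ᶠ[𝓝 z]
        fun w => G.g i ((A.e i).symm w) a b + hess (fun z => u ((A.e i).symm z)) w a b := by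
      intro a
      filter_upwards [(A.e i).open_target.mem_nhds hz] with w hw
      rw [Matrix.add_apply, hsf_read u i hw]
    have hK : ∀ a, DifferentiableAt ℝ (fun w => G.g i ((A.e i).symm w) a b) z := fun a =>
      ((G.sm i a b).contDiffAt ((A.e i).open_target.mem_nhds hz)).differentiableAt (by simp)
    have hU : ∀ a, DifferentiableAt ℝ (fun w => hess (fun z => u ((A.e i).symm z)) w a b) z :=
      fun a => (contDiffAt_hess (sm_contDiffAt hu i hz) a b).differentiableAt (by simp)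
    rw [wd_congr (hr a), wd_congr (hr c), wd_add (hK a) (hU a), wd_add (hK c) (hU c),
      G.closed i z hz, wd_hess (sm_contDiffAt hu i hz)]

/-- `K + s H` -/
def linK (K : Kah A) (H : K11 A) (s : ℝ) : K11 A where
  g i x := K.g i x + (s : ℂ) • H.g i x
  sm i a b := (K.sm i a b).add (contDiffOn_const.mul (H.sm i a b))
  herm i x hx := by
    refine (K.pos i x hx).1.add ?_
    unfold Matrix.IsHermitian
    rw [Matrix.conjTranspose_smul, (H.herm i x hx).eq, Complex.star_def, Complex.conj_ofReal]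
  tr i j x hx := by
    rw [K.tr i j x hx, H.tr i j x hx, Matrix.mul_add, Matrix.add_mul, Matrix.mul_smul,
      Matrix.smul_mul]
  closed i z hz a b c := by
    have hK : ∀ a, DifferentiableAt ℝ (fun w => K.g i ((A.e i).symm w) a b) z := fun a =>
      ((K.sm i a b).contDiffAt ((A.e i).open_target.mem_nhds hz)).differentiableAt (by simp)
    have hH : ∀ a, DifferentiableAt ℝ (fun w => H.g i ((A.e i).symm w) a b) z := fun a =>
      ((H.sm i a b).contDiffAt ((A.e i).open_target.mem_nhds hz)).differentiableAt (by simp)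
    have hr : ∀ a, (fun w => (K.g i ((A.e i).symm w) + (s : ℂ) • H.g i ((A.e i).symm w)) a b) =
        fun w => K.g i ((A.e i).symm w) a b + (s : ℂ) * H.g i ((A.e i).symm w) a b := fun a => rfl
    have hs : ∀ e (f : Cn n → ℂ), DifferentiableAt ℝ f z →
        wd e (fun w => (s : ℂ) * f w) z = (s : ℂ) * wd e f z := fun e f hf =>
      wd_const_smul (s : ℂ) hf e
    rw [hr a, hr c, wd_add (hK a) ((hH a).const_mul _), wd_add (hK c) ((hH c).const_mul _),
      hs _ _ (hH a), hs _ _ (hH c), K.closed i z hz, H.closed i z hz]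

/-! ### positivity -/

theorem posDef_add {G X : Matrix (Fin n) (Fin n) ℂ} {lo hi η : ℝ} (h : EllC lo hi G)
    (hX : X.IsHermitian) (hη : 0 ≤ η) (hb : ∀ b c, ‖X b c‖ ≤ η) (hlt : n * η < lo) :
    (G + X).PosDef := by
  refine Matrix.PosDef.of_dotProduct_mulVec_pos (h.1.add hX) fun ζ hζ => ?_
  have hS : 0 < ∑ a, ‖ζ a‖ ^ 2 := by
    obtain ⟨a, ha⟩ := Function.ne_iff.1 hζ
    refine lt_of_lt_of_le (by positivity : 0 < ‖ζ a‖ ^ 2)
      (Finset.single_le_sum (f := fun a => ‖ζ a‖ ^ 2) (fun b _ => by positivity)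
        (Finset.mem_univ a))
  have h1 : |(star ζ ⬝ᵥ (X *ᵥ ζ)).re| ≤ n * η * ∑ a, ‖ζ a‖ ^ 2 := by
    refine (Complex.abs_re_le_norm _).trans ?_
    simp only [dotProduct, Matrix.mulVec, Pi.star_apply, Finset.mul_sum]
    refine (norm_sum_le_of_le (f := fun a => ∑ b, star (ζ a) * (X a b * ζ b))
      (n := fun a => ∑ b, η * (‖ζ a‖ ^ 2 / 2 + ‖ζ b‖ ^ 2 / 2)) _ fun a _ =>
      norm_sum_le_of_le _ fun b _ => ?_).trans (le_of_eq ?_)
    · rw [norm_mul, norm_mul, norm_star]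
      have h2 := mul_le_mul_of_nonneg_right (hb a b)
        (mul_nonneg (norm_nonneg (ζ a)) (norm_nonneg (ζ b)))
      have h3 : ‖ζ a‖ * ‖ζ b‖ ≤ ‖ζ a‖ ^ 2 / 2 + ‖ζ b‖ ^ 2 / 2 := by
        nlinarith [sq_nonneg (‖ζ a‖ - ‖ζ b‖)]
      calc ‖ζ a‖ * (‖X a b‖ * ‖ζ b‖) = ‖X a b‖ * (‖ζ a‖ * ‖ζ b‖) := by ring
        _ ≤ η * (‖ζ a‖ * ‖ζ b‖) := h2
        _ ≤ _ := mul_le_mul_of_nonneg_left h3 hη
    · simp only [← Finset.mul_sum, Finset.sum_add_distrib, Finset.sum_const, Finset.card_univ,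
        Fintype.card_fin, nsmul_eq_mul, ← Finset.sum_div]
      ring
  have h2 := (h.2 ζ).1
  have h3 : (star ζ ⬝ᵥ ((G + X) *ᵥ ζ)).re =
      (star ζ ⬝ᵥ (G *ᵥ ζ)).re + (star ζ ⬝ᵥ (X *ᵥ ζ)).re := by
    rw [Matrix.add_mulVec, dotProduct_add, Complex.add_re]
  have h4 : (star ζ ⬝ᵥ ((G + X) *ᵥ ζ)).im = 0 := by
    have := (h.1.add hX).im_star_dotProduct_mulVec_self ζ
    simpa using this
  refine Complex.pos_iff.2 ⟨?_, h4.symm⟩
  rw [h3]
  have h5 := neg_abs_le (star ζ ⬝ᵥ (X *ᵥ ζ)).re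
  have h6 : n * η * ∑ a, ‖ζ a‖ ^ 2 < lo * ∑ a, ‖ζ a‖ ^ 2 := mul_lt_mul_of_pos_right hlt hS
  linarith

/-- uniform lower bound on the balls -/
theorem exists_lo (K : Kah A) (Bc : Cb A) : ∃ lo hi : ℝ, 0 < lo ∧
    ∀ k, ∀ z ∈ closedBall (Bc.z k) (Bc.r k / 2), EllC lo hi (K.g (Bc.i k) ((A.e (Bc.i k)).symm z)) := by
  have := Bc.fin
  have h1 : ∀ k, ∃ lo hi : ℝ, 0 < lo ∧ lo ≤ hi ∧ ∀ z ∈ closedBall (Bc.z k) (Bc.r k / 2),
      EllC lo hi (K.g (Bc.i k) ((A.e (Bc.i k)).symm z)) := fun k =>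
    exists_ell (isCompact_closedBall _ _)
      (fun a b => ((K.sm (Bc.i k) a b).continuousOn).mono (Bc.sub' k))
      (fun z hz => K.pos _ _ ((A.e (Bc.i k)).map_target (Bc.sub' k hz)))
  choose lo hi h0 _ h using h1
  obtain ⟨l, hl, hlk⟩ := exists_pos_lb h0
  obtain ⟨u, hu, huk⟩ := exists_ub hi
  exact ⟨l, u, hl, fun k z hz => Crest.Agent.R273.SchG_152.EllC.mono (h k z hz) (hlk k) (huk k)⟩

/-! ### the sum -/

theorem cH_herm_c2 {v : Cn n → ℝ} {z : Cn n} (hv : ContDiffAt ℝ 2 v z) : (cH v z).IsHermitian := by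
  ext a b
  rw [Matrix.conjTranspose_apply, cH_eq_hs hv, cH_eq_hs hv]
  exact Crest.Agent.R273.Levi_145.hs_herm hv b a

/-- `∑_{j ≥ 1} s^j B_j = G - K` on the sources -/
def IsSum (K : Kah A) (B : ℕ → K11 A) (s : ℝ) (G : K11 A) : Prop :=
  ∀ i, ∀ x ∈ (A.e i).source, ∀ b c,
    HasSum (fun j => (s : ℂ) ^ (j + 1) * (B (j + 1)).g i x b c) (G.g i x b c - K.g i x b c)

namespace AnS

variable {K : Kah A} {Bc : Cb A} {B : ℕ → K11 A} {x0 : M} {r η : ℝ} {w : ℕ → ℝ} {s : ℝ}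
  {G : K11 A}

theorem hsf_ps (S : AnS K Bc (fun j => (B j).g) x0 r η w) (hr : 0 < r) (hs : |s| ≤ r) (k : Bc.κ)
    {z : Cn n} (hz : z ∈ ball (Bc.z k) (Bc.r k / 2)) (b c : Fin n) :
    HasSum (fun j => (s : ℂ) ^ (j + 1) * hsf A (S.φ (j + 1)) (Bc.i k) ((A.e (Bc.i k)).symm z) b c)
      (cH (inC A (Bc.i k) (S.ps s)) z b c) := by
  have hzt : z ∈ (A.e (Bc.i k)).target := Bc.sub' k (ball_subset_closedBall hz)
  have h1 := S.cH_ps hr hs k hz b c
  have e : ∀ j, cH (inC A (Bc.i k) (S.φ j)) z b c =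
      hsf A (S.φ j) (Bc.i k) ((A.e (Bc.i k)).symm z) b c := fun j => by
    rw [hsf_eq_cH (S.sm j) ((A.e (Bc.i k)).map_target hzt), (A.e (Bc.i k)).right_inv hzt]
  simp only [e] at h1
  have h2 := (hasSum_nat_add_iff' 1).2 h1
  rw [Finset.sum_range_one, S.φ0, hsf_zero] at h2
  simpa using h2

/-- the entries of `G_s + ∂∂̄ ps - K` -/
theorem sum_Y (S : AnS K Bc (fun j => (B j).g) x0 r η w) (hr : 0 < r) (hs : |s| ≤ r)
    (hG : IsSum K B s G) (k : Bc.κ)
    {z : Cn n} (hz : z ∈ ball (Bc.z k) (Bc.r k / 2)) (b c : Fin n) :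
    HasSum (fun j => (s : ℂ) ^ (j + 1) * Yf A (fun j => (B j).g) S.φ (j + 1) (Bc.i k)
        ((A.e (Bc.i k)).symm z) b c)
      ((G.g (Bc.i k) ((A.e (Bc.i k)).symm z) + cH (inC A (Bc.i k) (S.ps s)) z -
        K.g (Bc.i k) ((A.e (Bc.i k)).symm z)) b c) := by
  have hzt : z ∈ (A.e (Bc.i k)).target := Bc.sub' k (ball_subset_closedBall hz)
  have h1 := (hG (Bc.i k) _ ((A.e (Bc.i k)).map_target hzt) b c).add (S.hsf_ps hr hs k hz b c)
  have e : (G.g (Bc.i k) ((A.e (Bc.i k)).symm z) + cH (inC A (Bc.i k) (S.ps s)) z -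
        K.g (Bc.i k) ((A.e (Bc.i k)).symm z)) b c =
      G.g (Bc.i k) ((A.e (Bc.i k)).symm z) b c - K.g (Bc.i k) ((A.e (Bc.i k)).symm z) b c +
        cH (inC A (Bc.i k) (S.ps s)) z b c := by
    rw [Matrix.sub_apply, Matrix.add_apply]
    ring
  rw [e]
  refine h1.congr_fun fun j => ?_
  rw [Yf, Matrix.add_apply]
  ring

theorem ent_le (S : AnS K Bc (fun j => (B j).g) x0 r η w) (hr : 0 < r) (hs : |s| ≤ r)
    (hG : IsSum K B s G) (k : Bc.κ)
    {z : Cn n} (hz : z ∈ ball (Bc.z k) (Bc.r k / 2)) (b c : Fin n) :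
    ‖(G.g (Bc.i k) ((A.e (Bc.i k)).symm z) + cH (inC A (Bc.i k) (S.ps s)) z -
        K.g (Bc.i k) ((A.e (Bc.i k)).symm z)) b c‖ ≤ η := by
  have h1 := S.sum_Y hr hs hG k hz b c
  have h2 : Summable fun j => |s| ^ (j + 1) * S.a (j + 1) :=
    (summable_nat_add_iff (f := fun j => |s| ^ j * S.a j) 1).2 (S.summ_s hr hs)
  rw [← h1.tsum_eq]
  refine (tsum_of_norm_bounded h2.hasSum fun j => ?_).trans ?_
  · rw [norm_mul, norm_pow, Complex.norm_real, Real.norm_eq_abs]
    exact mul_le_mul_of_nonneg_left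
      ((S.hoY (j + 1) (by omega) k b c).bdd z (ball_subset_closedBall hz)) (by positivity)
  · have h3 := (S.summ_s hr hs).sum_add_tsum_nat_add 1
    rw [Finset.sum_range_one] at h3
    have h4 := S.tsum_le hr hs
    have h5 : 0 ≤ |s| ^ 0 * S.a 0 := mul_nonneg (by positivity) (S.a_nn 0)
    linarith

theorem det_ps (S : AnS K Bc (fun j => (B j).g) x0 r η w) (hr : 0 < r) (hs : |s| < r)
    (hG : IsSum K B s G) (k : Bc.κ)
    {z : Cn n} (hz : z ∈ ball (Bc.z k) (Bc.r k / 2)) :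
    (G.g (Bc.i k) ((A.e (Bc.i k)).symm z) + cH (inC A (Bc.i k) (S.ps s)) z).det =
      ((1 + S.ms s : ℝ) : ℂ) * (K.g (Bc.i k) ((A.e (Bc.i k)).symm z)).det := by
  have hzt : z ∈ (A.e (Bc.i k)).target := Bc.sub' k (ball_subset_closedBall hz)
  set x := (A.e (Bc.i k)).symm z with hx
  have hxs : x ∈ (A.e (Bc.i k)).source := (A.e (Bc.i k)).map_target hzt
  have hu : IsUnit (K.g (Bc.i k) x).det :=
    isUnit_iff_ne_zero.2 (K.pos _ x hxs).det_pos.ne'
  set X := G.g (Bc.i k) x + cH (inC A (Bc.i k) (S.ps s)) z - K.g (Bc.i k) x with hX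
  have h1 : ∀ b c, HasSum (fun j => (s : ℂ) ^ (j + 1) *
      Zf K (Yf A (fun j => (B j).g) S.φ) (Bc.i k) x (j + 1) b c)
      (((K.g (Bc.i k) x)⁻¹ * X) b c) := by
    intro b c
    rw [Matrix.mul_apply]
    have h2 := hasSum_sum (s := (Finset.univ : Finset (Fin n))) fun l _ =>
      (S.sum_Y hr hs.le hG k hz l c).mul_left ((K.g (Bc.i k) x)⁻¹ b l)
    refine h2.congr_fun fun j => ?_
    rw [Zf, Matrix.mul_apply, Finset.mul_sum]
    refine Finset.sum_congr rfl fun l _ => ?_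
    ring
  have h2 := dt_limit (Z := Zf K (Yf A (fun j => (B j).g) S.φ) (Bc.i k) x)
    (m := fun j => (S.m j : ℂ)) (s := (s : ℂ)) hr S.a_nn S.a_sum
    (fun j hj b c => (S.hoZ j hj k b c).bdd z (ball_subset_closedBall hz))
    (fun j _ => by
      rw [Complex.norm_real, Real.norm_eq_abs]
      exact S.hm j)
    (fun J j hj hJ => S.eqn J j hj hJ (Bc.i k) x hxs)
    (by rwa [Complex.norm_real, Real.norm_eq_abs])
  have h3 : (Matrix.of fun b c => ∑' j, (s : ℂ) ^ (j + 1) *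
      Zf K (Yf A (fun j => (B j).g) S.φ) (Bc.i k) x (j + 1) b c) = (K.g (Bc.i k) x)⁻¹ * X := by
    ext b c
    exact (h1 b c).tsum_eq
  rw [h3] at h2
  have h4 : G.g (Bc.i k) x + cH (inC A (Bc.i k) (S.ps s)) z =
      K.g (Bc.i k) x * (1 + (K.g (Bc.i k) x)⁻¹ * X) := by
    rw [Matrix.mul_add, Matrix.mul_one, ← Matrix.mul_assoc, Matrix.mul_nonsing_inv _ hu,
      Matrix.one_mul, hX]
    abel
  have h5 : (1 : ℂ) + ∑' j, (s : ℂ) ^ (j + 1) * (S.m (j + 1) : ℂ) = ((1 + S.ms s : ℝ) : ℂ) := by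
    have hsum : Summable fun j => s ^ j * S.m j := by
      refine Summable.of_norm_bounded (S.summ_s hr hs.le) fun j => ?_
      rw [norm_mul, norm_pow, Real.norm_eq_abs]
      exact mul_le_mul_of_nonneg_left (S.hm j) (by positivity)
    have h6 := hsum.sum_add_tsum_nat_add 1
    rw [Finset.sum_range_one, S.m0, mul_zero, zero_add] at h6
    rw [ms, ← h6]
    push_cast
    rfl
  rw [h4, Matrix.det_mul, h2, h5, mul_comm]

theorem pos_ps (S : AnS K Bc (fun j => (B j).g) x0 r η w) (hr : 0 < r) (hs : |s| ≤ r)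
    (hG : IsSum K B s G) {lo hi : ℝ} (hη : n * η < lo)
    (hlo : ∀ k, ∀ z ∈ closedBall (Bc.z k) (Bc.r k / 2),
      EllC lo hi (K.g (Bc.i k) ((A.e (Bc.i k)).symm z))) (k : Bc.κ)
    {z : Cn n} (hz : z ∈ ball (Bc.z k) (Bc.r k / 2)) :
    (G.g (Bc.i k) ((A.e (Bc.i k)).symm z) + cH (inC A (Bc.i k) (S.ps s)) z).PosDef := by
  have hzt : z ∈ (A.e (Bc.i k)).target := Bc.sub' k (ball_subset_closedBall hz)
  have hxs := (A.e (Bc.i k)).map_target hzt
  have hc2 : ContDiffAt ℝ 2 (inC A (Bc.i k) (S.ps s)) z :=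
    (S.ps_c2 hr hs k).1.contDiffAt (isOpen_ball.mem_nhds hz)
  have h1 := posDef_add (hlo k z (ball_subset_closedBall hz))
    (X := G.g (Bc.i k) ((A.e (Bc.i k)).symm z) + cH (inC A (Bc.i k) (S.ps s)) z -
      K.g (Bc.i k) ((A.e (Bc.i k)).symm z))
    (((G.herm _ _ hxs).add (cH_herm_c2 hc2)).sub (K.pos _ _ hxs).1)
    (S.eta_nonneg hr) (S.ent_le hr hs hG k hz) hη
  rwa [add_sub_cancel] at h1

theorem sm_ps (S : AnS K Bc (fun j => (B j).g) x0 r η w) (hr : 0 < r) (hs : |s| < r)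
    (hG : IsSum K B s G) {lo hi : ℝ} (hη : n * η < lo)
    (hlo : ∀ k, ∀ z ∈ closedBall (Bc.z k) (Bc.r k / 2),
      EllC lo hi (K.g (Bc.i k) ((A.e (Bc.i k)).symm z))) : A.Sm (S.ps s) := by
  refine sm_of_local fun x => ?_
  obtain ⟨k, hk, hx⟩ := Bc.cover x
  refine ⟨Bc.i k, hk, ?_⟩
  set O : Set (Cn n) := ball (Bc.z k) (Bc.r k / 2) with hO
  have hOt : O ⊆ (A.e (Bc.i k)).target := ball_subset_closedBall.trans (Bc.sub' k)
  have h1 : ContDiffOn ℝ ∞ (inC A (Bc.i k) (S.ps s)) O := by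
    refine reg_add isOpen_ball (G := fun z => G.g (Bc.i k) ((A.e (Bc.i k)).symm z))
      (fun a b => (G.sm (Bc.i k) a b).mono hOt)
      (fun z hz => G.herm _ _ ((A.e (Bc.i k)).map_target (hOt hz)))
      (fun z hz a b c => G.closed (Bc.i k) z (hOt hz) a b c)
      (fun z hz a b c => Crest.Agent.R281.HkR_835.K11.closed' G (Bc.i k) (hOt hz) a b c)
      (S.ps_c2 hr hs.le k).1 (S.ps_ho hr hs.le k)
      (f := fun z => (1 + S.ms s) * (K.g (Bc.i k) ((A.e (Bc.i k)).symm z)).det.re)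
      (contDiffOn_const.mul ?_) (fun z hz => S.pos_ps hr hs.le hG hη hlo k hz) (fun z hz => ?_)
    · exact Complex.reCLM.contDiff.comp_contDiffOn
        ((Crest.Agent.R273.Vol_333.smAt_det (fun a b => K.sm (Bc.i k) a b)).mono hOt)
    · rw [S.det_ps hr hs hG k hz]
      push_cast
      rw [det_real (K.pos _ _ ((A.e (Bc.i k)).map_target (hOt hz))).1]
  exact h1.contDiffAt (isOpen_ball.mem_nhds hx)

end AnS

end

end Crest.Agent.R281.HKMov_478
end

-- ▼ part R281/HKMovI_478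
section

/-!
# R281 (S0424), YAU-AN (helper478), file I: the theorem

* `pos_tr`, `det_tr` : positivity and determinant identities pass to other charts
* **`yau_an`**       : the power series solves the Monge-Ampere equation for real `|s| < r`
* **`yau_lin`**      : the case of the segment `K + s H`
-/

set_option autoImplicit false
set_option linter.unusedSectionVars false

open Set Filter Topology Complex Metric
open scoped ContDiff Matrix ComplexConjugate ComplexOrder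

namespace Crest.Agent.R281.HKMov_478

open Crest.Agent.R275.Geo Crest.Agent.R275.Core144 Crest.Agent.R275.GC293
open Crest.Agent.R275.EDR890
open Crest.Agent.R273.Defs_333 Crest.Agent.R273.YauDefs_635 Crest.Agent.R273.HM_333
open Crest.Agent.R273.YauCh_635 Crest.Agent.R273.Hess_333 Crest.Agent.R273.HessB_333
open Crest.Agent.R273.Kah_333 Crest.Agent.R273.YauMax_635 Crest.Agent.R273.YauLoc_635
open Crest.Agent.R273.SchA_152 Crest.Agent.R273.SchD_152 Crest.Agent.R273.YauQ_635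
open Crest.Agent.R273.YauSchF_635 Crest.Agent.R273.YauPf_635 Crest.Agent.R273.YauOpA_635
open Crest.Agent.R273.SchF_152 Crest.Agent.R273.SchE_152 Crest.Agent.R273.SchG_152
open Crest.Agent.R273.Vol_333 (addK Yau volK det_real det_re_pos)
open Crest.Agent.R281.HkR_835 (K11 ofKah)

noncomputable section

variable {n : ℕ} {M : Type} [TopologicalSpace M] {A : Atl n M}

theorem isUnit_Jbar {i j : A.ι} {x : M} (hx : x ∈ (A.e i).source ∩ (A.e j).source) :
    IsUnit ((Jm A i j x).map conj) := by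
  rw [Matrix.isUnit_iff_isUnit_det, isUnit_iff_ne_zero]
  exact det_Jbar hx

theorem pos_tr {i j : A.ι} {x : M} (hx : x ∈ (A.e i).source ∩ (A.e j).source)
    {g g' : Matrix (Fin n) (Fin n) ℂ} (h : g = (Jm A i j x)ᵀ * g' * (Jm A i j x).map conj)
    (hg : g'.PosDef) : g.PosDef := by
  have e1 : ((Jm A i j x).map conj)ᴴ = (Jm A i j x)ᵀ := by
    ext a b
    simp [Matrix.conjTranspose_apply, Matrix.transpose_apply]
  rw [h, ← e1]
  exact hg.conjTranspose_mul_mul_same (Matrix.mulVec_injective_iff_isUnit.2 (isUnit_Jbar hx))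

theorem det_tr {i j : A.ι} {x : M}
    {g g' k k' : Matrix (Fin n) (Fin n) ℂ} (h : g = (Jm A i j x)ᵀ * g' * (Jm A i j x).map conj)
    (hk : k = (Jm A i j x)ᵀ * k' * (Jm A i j x).map conj) {c : ℂ} (hd : g'.det = c * k'.det) :
    g.det = c * k.det := by
  rw [h, hk, Matrix.det_mul, Matrix.det_mul, Matrix.det_mul, Matrix.det_mul, hd]
  ring

/-- `K'` is `G + i∂∂̄u` -/
structure IsAdd (K' : Kah A) (G : K11 A) (u : M → ℝ) : Prop where
  sm : A.Sm u
  eq : ∀ i, ∀ x ∈ (A.e i).source, K'.g i x = G.g i x + hsf A u i x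

/-- **YAU-AN**: a power series of Monge-Ampere metrics, uniform radius -/
theorem yau_an [T2Space M] [CompactSpace M] [ConnectedSpace M] [Finite A.ι] (P : Part A)
    (K : Kah A) (Bc : Cb A) (x0 : M) {w : ℕ → ℝ} (hw : ∀ j, 0 ≤ w j) {ρ W : ℝ} (hρ : 0 < ρ)
    (hW : ∀ J, ∑ j ∈ Finset.range J, w (j + 1) * ρ ^ (j + 1) ≤ W) {η : ℝ} (hη : 0 < η) :
    ∃ r η' : ℝ, 0 < r ∧ r ≤ ρ ∧ 0 < η' ∧ η' ≤ η ∧ ∀ B : ℕ → K11 A,
      (∀ j, 1 ≤ j → ∀ k b c, HO (1 / 2) (w j) (closedBall (Bc.z k) (Bc.r k / 2))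
        (fun z => (B j).g (Bc.i k) ((A.e (Bc.i k)).symm z) b c)) →
      ∃ S : AnS K Bc (fun j => (B j).g) x0 r η' w, ∀ s : ℝ, |s| < r → ∀ G : K11 A,
        IsSum K B s G → ∃ K' : Kah A, IsAdd K' G (S.ps s) ∧
          ∀ i, ∀ x ∈ (A.e i).source, (K'.g i x).det = ((1 + S.ms s : ℝ) : ℂ) * (K.g i x).det := by
  obtain ⟨lo, hi, hlo, hell⟩ := exists_lo K Bc
  set η' : ℝ := min η (lo / (n + 1)) with hη'
  have hη'0 : 0 < η' := lt_min hη (by positivity)
  have hηlo : n * η' < lo := by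
    have h1 : η' ≤ lo / (n + 1) := min_le_right _ _
    have h2 : (n : ℝ) * η' ≤ n * (lo / (n + 1)) := mul_le_mul_of_nonneg_left h1 (by positivity)
    have h3 : (n : ℝ) * (lo / (n + 1)) < lo := by
      rw [mul_div_assoc', div_lt_iff₀ (by positivity)]
      nlinarith
    linarith
  obtain ⟨r, hr, hrρ, H⟩ := an_bound P K Bc x0 hw hρ hW hη'0
  refine ⟨r, η', hr, hrρ, hη'0, min_le_left _ _, fun B hB => ?_⟩
  obtain ⟨S⟩ := H (fun j => (B j).g) (fun j _ => k11_hf (B j)) hB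
  refine ⟨S, fun s hs G hG => ?_⟩
  have hsm : A.Sm (S.ps s) := S.sm_ps hr hs hG hηlo hell
  have hball : ∀ x : M, ∃ k, x ∈ (A.e (Bc.i k)).source ∧
      (G.g (Bc.i k) x + hsf A (S.ps s) (Bc.i k) x).PosDef ∧
      (G.g (Bc.i k) x + hsf A (S.ps s) (Bc.i k) x).det =
        ((1 + S.ms s : ℝ) : ℂ) * (K.g (Bc.i k) x).det := by
    intro x
    obtain ⟨k, hk, hx⟩ := Bc.cover x
    have h1 := S.pos_ps hr hs.le hG hηlo hell k hx
    have h2 := S.det_ps hr hs hG k hx
    rw [(A.e (Bc.i k)).left_inv hk] at h1 h2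
    rw [← hsf_eq_cH hsm hk] at h1 h2
    exact ⟨k, hk, h1, h2⟩
  have htr : ∀ {i j : A.ι} {x : M}, x ∈ (A.e i).source ∩ (A.e j).source →
      G.g i x + hsf A (S.ps s) i x =
        (Jm A i j x)ᵀ * (G.g j x + hsf A (S.ps s) j x) * (Jm A i j x).map conj := fun hx => by
    rw [hsf_tr hsm hx, G.tr _ _ _ hx, Matrix.mul_add, Matrix.add_mul]
  have hpos : ∀ i, ∀ x ∈ (A.e i).source, ((addH G (S.ps s) hsm).g i x).PosDef := by
    intro i x hx
    obtain ⟨k, hk, h1, -⟩ := hball x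
    exact pos_tr ⟨hx, hk⟩ (htr ⟨hx, hk⟩) h1
  refine ⟨(addH G (S.ps s) hsm).kah hpos, ⟨hsm, fun i x _ => rfl⟩, fun i x hx => ?_⟩
  obtain ⟨k, hk, -, h2⟩ := hball x
  exact det_tr (htr ⟨hx, hk⟩) (K.tr i (Bc.i k) x ⟨hx, hk⟩) h2

end

end Crest.Agent.R281.HKMov_478
end

-- ▼ part R281/HKMovJ_478
section

/-!
# R281 (S0424), HK-MOVE (helper478), file J: local power series along a move

* `Ps11 Bc G s0 r Y a` : `G s = ∑ (s - s0)^j Y_j` (closed (1,1)-forms), `C^{1/2}` bounds `a j` on the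
  balls of `Bc`, `∑ a_j r^j < ∞`
* `PsF Bc f s0 r φ a`  : `f s = ∑ (s - s0)^j φ_j` (smooth functions), `C^{2,1/2}` bounds
* `PsF.fd1`, `PsF.fd2`, `PsF.hsf` : derivatives term by term on the closed balls; Hessians everywhere
* **`yau_move`** : Monge-Ampere metrics along a `Ps11` family have power series
-/

set_option autoImplicit false
set_option linter.unusedSectionVars false

open Set Filter Topology Complex Metric
open scoped ContDiff Matrix ComplexConjugate ComplexOrder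

namespace Crest.Agent.R281.HKMov_478

open Crest.Agent.R275.Geo Crest.Agent.R275.Core144 Crest.Agent.R275.GC293
open Crest.Agent.R275.EDR890
open Crest.Agent.R273.Defs_333 Crest.Agent.R273.YauDefs_635 Crest.Agent.R273.HM_333
open Crest.Agent.R273.YauCh_635 Crest.Agent.R273.Hess_333 Crest.Agent.R273.HessB_333
open Crest.Agent.R273.Kah_333 Crest.Agent.R273.YauMax_635 Crest.Agent.R273.YauLoc_635
open Crest.Agent.R273.SchA_152 Crest.Agent.R273.SchD_152 Crest.Agent.R273.YauQ_635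
open Crest.Agent.R273.YauSchF_635 Crest.Agent.R273.YauPf_635 Crest.Agent.R273.YauOpA_635
open Crest.Agent.R273.SchF_152 Crest.Agent.R273.SchE_152 Crest.Agent.R273.SchG_152
open Crest.Agent.R273.Vol_333 (addK Yau volK det_real det_re_pos)
open Crest.Agent.R281.HkR_835 (K11 ofKah)

noncomputable section

/-! ### sums on closed balls -/

section closed

variable {n : ℕ}

theorem hasSum_closed {F : Type*} [NormedAddCommGroup F] [NormedSpace ℝ F] [CompleteSpace F]
    {z0 : Cn n} {R : ℝ} (hR : 0 < R) {D : ℕ → Cn n → F} {g : Cn n → F}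
    (hD : ∀ j, ContinuousOn (D j) (closedBall z0 R)) (hg : ContinuousOn g (closedBall z0 R))
    {a : ℕ → ℝ} (ha : Summable a) (hb : ∀ j, ∀ z ∈ closedBall z0 R, ‖D j z‖ ≤ a j)
    (he : ∀ z ∈ ball z0 R, ∑' j, D j z = g z) :
    ∀ z ∈ closedBall z0 R, HasSum (fun j => D j z) (g z) := by
  have hcl : closedBall z0 R ⊆ closure (ball z0 R) := by rw [closure_ball _ hR.ne']
  have c1 : ContinuousOn (fun z => ∑' j, D j z) (closedBall z0 R) := continuousOn_tsum hD ha hb
  have e1 : EqOn (fun z => ∑' j, D j z) g (closedBall z0 R) :=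
    Set.EqOn.of_subset_closure (s := ball z0 R) (fun z hz => he z hz) c1 hg
      ball_subset_closedBall hcl
  intro z hz
  rw [← e1 hz]
  exact (Summable.of_norm_bounded ha fun j => hb j z hz).hasSum

theorem sum_fd1 {T : Set (Cn n)} (hT : IsOpen T) {z0 : Cn n} {R : ℝ} (hR : 0 < R)
    (hRT : closedBall z0 R ⊆ T) {u : ℕ → Cn n → ℝ} {f : Cn n → ℝ}
    (hu : ∀ j, ContDiffOn ℝ ∞ (u j) T) (hf : ContDiffOn ℝ ∞ f T) {a : ℕ → ℝ} (ha : Summable a)
    (h0 : ∀ j, ∀ z ∈ closedBall z0 R, ‖u j z‖ ≤ a j)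
    (h1 : ∀ j, ∀ z ∈ closedBall z0 R, ‖fderiv ℝ (u j) z‖ ≤ a j)
    (hs : ∀ z ∈ closedBall z0 R, HasSum (fun j => u j z) (f z)) :
    ∀ z ∈ closedBall z0 R, HasSum (fun j => fderiv ℝ (u j) z) (fderiv ℝ f z) := by
  have hbc : ball z0 R ⊆ closedBall z0 R := ball_subset_closedBall
  obtain ⟨-, g2⟩ := sum_c1 (isOpen_ball (x := z0) (ε := R))
    (fun j => ((hu j).of_le (by simp)).mono (hbc.trans hRT)) ha
    (fun j z hz => h0 j z (hbc hz)) (fun j z hz => h1 j z (hbc hz))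
  refine hasSum_closed hR (F := Cn n →L[ℝ] ℝ) (D := fun j => fderiv ℝ (u j)) (g := fderiv ℝ f)
    (fun j => ((hu j).continuousOn_fderiv_of_isOpen hT (by simp)).mono hRT)
    ((hf.continuousOn_fderiv_of_isOpen hT (by simp)).mono hRT) ha h1 (fun z hz => ?_)
  rw [← (g2 z hz).fderiv]
  refine Filter.EventuallyEq.fderiv_eq ?_
  filter_upwards [isOpen_ball.mem_nhds hz] with y hy using (hs y (hbc hy)).tsum_eq

/-- second derivatives -/
theorem sum_fd2 {T : Set (Cn n)} (hT : IsOpen T) {z0 : Cn n} {R : ℝ} (hR : 0 < R)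
    (hRT : closedBall z0 R ⊆ T) {u : ℕ → Cn n → Cn n →L[ℝ] ℝ} {f : Cn n → Cn n →L[ℝ] ℝ}
    (hu : ∀ j, ContDiffOn ℝ ∞ (u j) T) (hf : ContDiffOn ℝ ∞ f T) {a : ℕ → ℝ} (ha : Summable a)
    (h0 : ∀ j, ∀ z ∈ closedBall z0 R, ‖u j z‖ ≤ a j)
    (h1 : ∀ j, ∀ z ∈ closedBall z0 R, ‖fderiv ℝ (u j) z‖ ≤ a j)
    (hs : ∀ z ∈ closedBall z0 R, HasSum (fun j => u j z) (f z)) :
    ∀ z ∈ closedBall z0 R, HasSum (fun j => fderiv ℝ (u j) z) (fderiv ℝ f z) := by
  have hbc : ball z0 R ⊆ closedBall z0 R := ball_subset_closedBall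
  obtain ⟨-, g2⟩ := sum_c1 (F := Cn n →L[ℝ] ℝ) (isOpen_ball (x := z0) (ε := R))
    (fun j => ((hu j).of_le (by simp)).mono (hbc.trans hRT)) ha
    (fun j z hz => h0 j z (hbc hz)) (fun j z hz => h1 j z (hbc hz))
  refine hasSum_closed hR (F := Cn n →L[ℝ] Cn n →L[ℝ] ℝ) (D := fun j => fderiv ℝ (u j))
    (g := fderiv ℝ f)
    (fun j => ((hu j).continuousOn_fderiv_of_isOpen hT (by simp)).mono hRT)
    ((hf.continuousOn_fderiv_of_isOpen hT (by simp)).mono hRT) ha h1 (fun z hz => ?_)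
  rw [← (g2 z hz).fderiv]
  refine Filter.EventuallyEq.fderiv_eq ?_
  filter_upwards [isOpen_ball.mem_nhds hz] with y hy using (hs y (hbc hy)).tsum_eq

end closed

variable {n : ℕ} {M : Type} [TopologicalSpace M] {A : Atl n M}

/-- local power series of closed (1,1)-forms -/
structure Ps11 (Bc : Cb A) (G : ℝ → K11 A) (s0 r : ℝ) (Y : ℕ → K11 A) (a : ℕ → ℝ) : Prop where
  r0 : 0 < r
  a0 : ∀ j, 0 ≤ a j
  sum : Summable fun j => a j * r ^ j
  ho : ∀ j k b c, HO (1 / 2) (a j) (closedBall (Bc.z k) (Bc.r k / 2))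
    (fun z => (Y j).g (Bc.i k) ((A.e (Bc.i k)).symm z) b c)
  hs : ∀ s, |s - s0| < r → ∀ i, ∀ x ∈ (A.e i).source, ∀ b c,
    HasSum (fun j => ((s - s0 : ℝ) : ℂ) ^ j * (Y j).g i x b c) ((G s).g i x b c)

/-- local power series of smooth functions -/
structure PsF (Bc : Cb A) (f : ℝ → M → ℝ) (s0 r : ℝ) (φ : ℕ → M → ℝ) (a : ℕ → ℝ) : Prop where
  r0 : 0 < r
  a0 : ∀ j, 0 ≤ a j
  sum : Summable fun j => a j * r ^ j
  sm : ∀ j, A.Sm (φ j)
  n2 : ∀ j, Bc.N2 (1 / 2) (a j) (φ j)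
  hs : ∀ s, |s - s0| < r → ∀ x, HasSum (fun j => (s - s0) ^ j * φ j x) (f s x)

theorem smb {a : ℕ → ℝ} {r t : ℝ} (ha : ∀ j, 0 ≤ a j) (hs : Summable fun j => a j * r ^ j)
    (ht : |t| ≤ r) : Summable fun j => |t| ^ j * a j := by
  refine Summable.of_nonneg_of_le (fun j => mul_nonneg (by positivity) (ha j)) (fun j => ?_) hs
  rw [mul_comm]
  exact mul_le_mul_of_nonneg_left (pow_le_pow_left₀ (abs_nonneg _) ht _) (ha j)

/-- a smooth form has bounds on the balls -/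
theorem k11_ho (H : K11 A) (Bc : Cb A) : ∃ V : ℝ, 0 ≤ V ∧ ∀ k b c,
    HO (1 / 2) V (closedBall (Bc.z k) (Bc.r k / 2))
      (fun z => H.g (Bc.i k) ((A.e (Bc.i k)).symm z) b c) := by
  have := Bc.fin
  have h1 : ∀ p : Bc.κ × Fin n × Fin n, ∃ V, HO (1 / 2) V
      (closedBall (Bc.z p.1) (Bc.r p.1 / 2))
      (fun z => H.g (Bc.i p.1) ((A.e (Bc.i p.1)).symm z) p.2.1 p.2.2) := fun p =>
    ho_c1 (A.e (Bc.i p.1)).open_target ((H.sm (Bc.i p.1) p.2.1 p.2.2).of_le (by simp))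
      (by linarith [Bc.r1 p.1, Bc.r0 p.1]) (Bc.sub' p.1)
  choose V hV using h1
  obtain ⟨C, hC0, hC⟩ := exists_ub V
  exact ⟨C, hC0, fun k b c => (hV (k, b, c)).mono (hC _)⟩

/-- a smooth function has bounds on the balls -/
theorem sm_n2 {v : M → ℝ} (hv : A.Sm v) (Bc : Cb A) : ∃ V : ℝ, 0 ≤ V ∧ Bc.N2 (1 / 2) V v := by
  have := Bc.fin
  have hR : ∀ k, Bc.r k / 2 ≤ 1 := fun k => by linarith [Bc.r1 k, Bc.r0 k]
  have h0 : ∀ k, ∃ V, HO (1 / 2) V (closedBall (Bc.z k) (Bc.r k / 2)) (inC A (Bc.i k) v) :=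
    fun k => ho_c1 (A.e (Bc.i k)).open_target ((inC_smooth hv (Bc.i k)).of_le (by simp)) (hR k)
      (Bc.sub' k)
  have hd : ∀ k, ContDiffOn ℝ ∞ (fderiv ℝ (inC A (Bc.i k) v)) (A.e (Bc.i k)).target := fun k =>
    (inC_smooth hv (Bc.i k)).fderiv_of_isOpen (A.e (Bc.i k)).open_target (by simp)
  have h1 : ∀ k, ∃ V, HO (1 / 2) V (closedBall (Bc.z k) (Bc.r k / 2))
      (fderiv ℝ (inC A (Bc.i k) v)) :=
    fun k => ho_c1 (A.e (Bc.i k)).open_target ((hd k).of_le (by simp)) (hR k) (Bc.sub' k)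
  have hd2 : ∀ k, ContDiffOn ℝ ∞ (fderiv ℝ (fderiv ℝ (inC A (Bc.i k) v)))
      (A.e (Bc.i k)).target := fun k =>
    (hd k).fderiv_of_isOpen (A.e (Bc.i k)).open_target (by simp)
  have h2 : ∀ k, ∃ V, HO (1 / 2) V (closedBall (Bc.z k) (Bc.r k / 2))
      (fderiv ℝ (fderiv ℝ (inC A (Bc.i k) v))) :=
    fun k => ho_c1 (A.e (Bc.i k)).open_target ((hd2 k).of_le (by simp)) (hR k) (Bc.sub' k)
  choose V0 hV0 using h0
  choose V1 hV1 using h1
  choose V2 hV2 using h2
  obtain ⟨C0, hC00, hC0⟩ := exists_ub V0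
  obtain ⟨C1, hC10, hC1⟩ := exists_ub V1
  obtain ⟨C2, hC20, hC2⟩ := exists_ub V2
  refine ⟨C0 + C1 + C2, by linarith, fun k => ⟨(hV0 k).mono ?_, (hV1 k).mono ?_, (hV2 k).mono ?_⟩⟩
  · linarith [hC0 k]
  · linarith [hC1 k]
  · linarith [hC2 k]

namespace PsF

variable {Bc : Cb A} {f : ℝ → M → ℝ} {s0 r : ℝ} {φ : ℕ → M → ℝ} {a : ℕ → ℝ} {s : ℝ}

theorem fd1 (S : PsF Bc f s0 r φ a) (hs : |s - s0| < r) (hf : A.Sm (f s)) (k : Bc.κ) :
    ∀ z ∈ closedBall (Bc.z k) (Bc.r k / 2),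
      HasSum (fun j => (s - s0) ^ j • fderiv ℝ (inC A (Bc.i k) (φ j)) z)
        (fderiv ℝ (inC A (Bc.i k) (f s)) z) := by
  have h := sum_fd1 (A.e (Bc.i k)).open_target (z0 := Bc.z k) (R := Bc.r k / 2)
    (by linarith [Bc.r0 k]) (Bc.sub' k)
    (u := fun j z => (s - s0) ^ j * inC A (Bc.i k) (φ j) z) (f := inC A (Bc.i k) (f s))
    (fun j => contDiffOn_const.mul (inC_smooth (S.sm j) (Bc.i k))) (inC_smooth hf (Bc.i k))
    (smb S.a0 S.sum hs.le)
    (fun j z hz => by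
      rw [norm_mul, norm_pow, Real.norm_eq_abs]
      exact mul_le_mul_of_nonneg_left ((S.n2 j k).h0.bdd z hz) (by positivity))
    (fun j z hz => by
      rw [fd_cmul]
      exact norm_pow_smul_le (F := Cn n →L[ℝ] ℝ) _ j _ ((S.n2 j k).h1.bdd z hz))
    (fun z _ => S.hs s hs _)
  intro z hz
  have h1 := h z hz
  simp only [fd_cmul] at h1
  exact h1

theorem fd2 (S : PsF Bc f s0 r φ a) (hs : |s - s0| < r) (hf : A.Sm (f s)) (k : Bc.κ) :
    ∀ z ∈ closedBall (Bc.z k) (Bc.r k / 2),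
      HasSum (fun j => (s - s0) ^ j • fderiv ℝ (fderiv ℝ (inC A (Bc.i k) (φ j))) z)
        (fderiv ℝ (fderiv ℝ (inC A (Bc.i k) (f s))) z) := by
  have hd : ∀ j, ContDiffOn ℝ ∞ (fderiv ℝ (fun z => (s - s0) ^ j * inC A (Bc.i k) (φ j) z))
      (A.e (Bc.i k)).target := fun j =>
    (contDiffOn_const.mul (inC_smooth (S.sm j) (Bc.i k))).fderiv_of_isOpen
      (A.e (Bc.i k)).open_target (by simp)
  have h := sum_fd2 (A.e (Bc.i k)).open_target (z0 := Bc.z k) (R := Bc.r k / 2)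
    (by linarith [Bc.r0 k]) (Bc.sub' k)
    (u := fun j => fderiv ℝ (fun z => (s - s0) ^ j * inC A (Bc.i k) (φ j) z))
    (f := fderiv ℝ (inC A (Bc.i k) (f s))) hd
    ((inC_smooth hf (Bc.i k)).fderiv_of_isOpen (A.e (Bc.i k)).open_target (by simp))
    (smb S.a0 S.sum hs.le)
    (fun j z hz => by
      rw [fd_cmul]
      exact norm_pow_smul_le (F := Cn n →L[ℝ] ℝ) _ j _ ((S.n2 j k).h1.bdd z hz))
    (fun j z hz => by
      rw [fd2_cmul]
      exact norm_pow_smul_le (F := Cn n →L[ℝ] Cn n →L[ℝ] ℝ) _ j _ ((S.n2 j k).h2.bdd z hz))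
    (fun z hz => by
      simp only [fd_cmul]
      exact S.fd1 hs hf k z hz)
  intro z hz
  have h1 := h z hz
  simp only [fd2_cmul] at h1
  exact h1

theorem cH_sum (S : PsF Bc f s0 r φ a) (hs : |s - s0| < r) (hf : A.Sm (f s)) (k : Bc.κ) {z : Cn n}
    (hz : z ∈ closedBall (Bc.z k) (Bc.r k / 2)) (b c : Fin n) :
    HasSum (fun j => ((s - s0 : ℝ) : ℂ) ^ j * cH (inC A (Bc.i k) (φ j)) z b c)
      (cH (inC A (Bc.i k) (f s)) z b c) := by
  have h2 := hasSum_clm (F := Cn n →L[ℝ] Cn n →L[ℝ] ℝ) (cHLc b c) (s := s - s0)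
    (q := fun j => fderiv ℝ (fderiv ℝ (inC A (Bc.i k) (φ j))) z) (smb S.a0 S.sum hs.le)
    (fun j => (S.n2 j k).h2.bdd z hz)
  rw [(S.fd2 hs hf k z hz).tsum_eq] at h2
  exact h2

end PsF

/-- convergence passes to other charts -/
theorem hasSum_tr {i j : A.ι} {x : M} {c : ℕ → ℂ}
    {g : ℕ → Matrix (Fin n) (Fin n) ℂ} {g' : ℕ → Matrix (Fin n) (Fin n) ℂ}
    {l l' : Matrix (Fin n) (Fin n) ℂ}
    (h : ∀ k, g k = (Jm A i j x)ᵀ * g' k * (Jm A i j x).map conj)
    (hl : l = (Jm A i j x)ᵀ * l' * (Jm A i j x).map conj)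
    (hs : ∀ b c', HasSum (fun k => c k * g' k b c') (l' b c')) (b c' : Fin n) :
    HasSum (fun k => c k * g k b c') (l b c') := by
  rw [hl, Matrix.mul_apply]
  have h1 : ∀ d, HasSum (fun k => c k * ((Jm A i j x)ᵀ * g' k) b d)
      (((Jm A i j x)ᵀ * l') b d) := by
    intro d
    rw [Matrix.mul_apply]
    refine (hasSum_sum (s := (Finset.univ : Finset (Fin n))) fun e _ =>
      (hs e d).mul_left ((Jm A i j x)ᵀ b e)).congr_fun fun k => ?_
    rw [Matrix.mul_apply, Finset.mul_sum]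
    refine Finset.sum_congr rfl fun e _ => ?_
    ring
  refine (hasSum_sum (s := (Finset.univ : Finset (Fin n))) fun d _ =>
    (h1 d).mul_right (((Jm A i j x).map conj) d c')).congr_fun fun k => ?_
  rw [h k, Matrix.mul_apply, Finset.mul_sum]
  refine Finset.sum_congr rfl fun d _ => ?_
  ring

namespace PsF

variable {Bc : Cb A} {f : ℝ → M → ℝ} {s0 r : ℝ} {φ : ℕ → M → ℝ} {a : ℕ → ℝ} {s : ℝ}

theorem hsf_sum (S : PsF Bc f s0 r φ a) (hs : |s - s0| < r) (hf : A.Sm (f s)) {i : A.ι} {x : M}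
    (hx : x ∈ (A.e i).source) (b c : Fin n) :
    HasSum (fun j => ((s - s0 : ℝ) : ℂ) ^ j * hsf A (φ j) i x b c)
      (hsf A (f s) i x b c) := by
  obtain ⟨k, hk, hxk⟩ := Bc.cover x
  refine hasSum_tr (i := i) (j := Bc.i k) (x := x) (g' := fun j => hsf A (φ j) (Bc.i k) x)
    (fun j => hsf_tr (S.sm j) ⟨hx, hk⟩) (hsf_tr hf ⟨hx, hk⟩) (fun b c => ?_) b c
  have h1 := S.cH_sum hs hf k (ball_subset_closedBall hxk) b c
  simp only [← hsf_eq_cH (S.sm _) hk, ← hsf_eq_cH hf hk] at h1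
  exact h1

end PsF

end

end Crest.Agent.R281.HKMov_478
end

-- ▼ part R281/HKMovK_478

/-!
# R281 (S0424), HK-MOVE (helper478), file K: Monge-Ampere metrics along a move

* `hsf_addf`
* **`yau_move`** : `K s = G s + i∂∂̄ u s`, `G` with a local power series at `s0`, `det K s` proportional to
  `det K s0`, `u s x0 = 0`: `K` and `u` have local power series at `s0`
-/

set_option autoImplicit false
set_option linter.unusedSectionVars false

open Set Filter Topology Complex Metric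
open scoped ContDiff Matrix ComplexConjugate ComplexOrder

namespace Crest.Agent.R281.HKMov_478

open Crest.Agent.R275.Geo Crest.Agent.R275.Core144 Crest.Agent.R275.GC293
open Crest.Agent.R275.EDR890
open Crest.Agent.R273.Defs_333 Crest.Agent.R273.YauDefs_635 Crest.Agent.R273.HM_333
open Crest.Agent.R273.YauCh_635 Crest.Agent.R273.Hess_333 Crest.Agent.R273.HessB_333
open Crest.Agent.R273.Kah_333 Crest.Agent.R273.YauMax_635 Crest.Agent.R273.YauLoc_635
open Crest.Agent.R273.SchA_152 Crest.Agent.R273.SchD_152 Crest.Agent.R273.YauQ_635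
open Crest.Agent.R273.YauSchF_635 Crest.Agent.R273.YauPf_635 Crest.Agent.R273.YauOpA_635
open Crest.Agent.R273.SchF_152 Crest.Agent.R273.SchE_152 Crest.Agent.R273.SchG_152
open Crest.Agent.R273.Vol_333 (addK Yau volK det_real det_re_pos)
open Crest.Agent.R281.HkR_835 (K11 ofKah)
open Crest.Agent.R281.KpU_487 (C2f unique_gen)

noncomputable section

variable {n : ℕ} {M : Type} [TopologicalSpace M] {A : Atl n M}

theorem hsf_addf {u v : M → ℝ} (hu : A.Sm u) (hv : A.Sm v) {i : A.ι} {x : M}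
    (hx : x ∈ (A.e i).source) : hsf A (fun y => u y + v y) i x = hsf A u i x + hsf A v i x := by
  have hs : A.Sm (fun y => u y + v y) := fun i => (hu i).add (hv i)
  have hz := (A.e i).map_source hx
  rw [hsf_eq_cH hs hx, hsf_eq_cH hu hx, hsf_eq_cH hv hx]
  exact cH_add_c2 ((inC_contDiffAt hu i hz).of_le two_le_inf)
    ((inC_contDiffAt hv i hz).of_le two_le_inf)

theorem hsf_subc {u : M → ℝ} (hu : A.Sm u) (c : ℝ) {i : A.ι} {x : M} (hx : x ∈ (A.e i).source) :
    hsf A (fun y => u y + c) i x = hsf A u i x := by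
  have hc : A.Sm (fun _ : M => c) := fun i => contDiffOn_const
  rw [hsf_addf hu hc hx, hsf_eq_cH hc hx]
  have e : inC A i (fun _ : M => c) = fun _ => c := rfl
  rw [e, Crest.Agent.R281.KpU_487.cH_const, add_zero]

theorem Ps11.zero_eq {Bc : Cb A} {G : ℝ → K11 A} {s0 r : ℝ} {Y : ℕ → K11 A} {a : ℕ → ℝ}
    (h : Ps11 Bc G s0 r Y a) {i : A.ι} {x : M} (hx : x ∈ (A.e i).source) (b c : Fin n) :
    (Y 0).g i x b c = (G s0).g i x b c := by
  have h1 := h.hs s0 (by simpa using h.r0) i x hx b c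
  have h2 : HasSum (fun j => ((s0 - s0 : ℝ) : ℂ) ^ j * (Y j).g i x b c) ((Y 0).g i x b c) := by
    have h3 := hasSum_single (f := fun j => ((s0 - s0 : ℝ) : ℂ) ^ j * (Y j).g i x b c) 0
      (fun j hj => by simp [hj])
    simpa using h3
  exact h2.unique h1

/-- **YAU-AN along a move** -/
theorem yau_move [T2Space M] [CompactSpace M] [ConnectedSpace M] [Finite A.ι] (P : Part A)
    (Bc : Cb A) (x0 : M) {G : ℝ → K11 A} {K : ℝ → Kah A} {u : ℝ → M → ℝ} {s0 r δ : ℝ}
    {Y : ℕ → K11 A} {a : ℕ → ℝ} (hG : Ps11 Bc G s0 r Y a) (hδ : 0 < δ)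
    (hK : ∀ s, |s - s0| < δ → IsAdd (K s) (G s) (u s))
    (hu : ∀ s, |s - s0| < δ → u s x0 = 0)
    (hdet : ∀ s, |s - s0| < δ → ∃ c : ℝ, ∀ i, ∀ x ∈ (A.e i).source,
      ((K s).g i x).det = (c : ℂ) * ((K s0).g i x).det) :
    ∃ (r' : ℝ) (φ : ℕ → M → ℝ) (Y' : ℕ → K11 A) (m : ℕ → ℝ) (b : ℕ → ℝ), r' ≤ δ ∧ r' ≤ r ∧
      PsF Bc u s0 r' φ b ∧ Ps11 Bc (fun s => ofKah (K s)) s0 r' Y' b ∧ (∀ j, |m j| ≤ b j) ∧
      ∀ s, |s - s0| < r' → ∀ i, ∀ x ∈ (A.e i).source,
        ((K s).g i x).det = ((∑' j, (s - s0) ^ j * m j : ℝ) : ℂ) * ((K s0).g i x).det := by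
  classical
  have h00 : |s0 - s0| < δ := by simpa using hδ
  have hK0 := hK s0 h00
  set ρ : ℝ := min r δ with hρd
  have hρ : 0 < ρ := lt_min hG.r0 hδ
  have hW : ∀ J, ∑ j ∈ Finset.range J, a (j + 1) * ρ ^ (j + 1) ≤ ∑' j, a j * r ^ j := by
    intro J
    calc ∑ j ∈ Finset.range J, a (j + 1) * ρ ^ (j + 1)
        ≤ ∑ j ∈ Finset.range J, a (j + 1) * r ^ (j + 1) :=
          Finset.sum_le_sum fun j _ => mul_le_mul_of_nonneg_left
            (pow_le_pow_left₀ hρ.le (min_le_left _ _) _) (hG.a0 _)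
      _ ≤ ∑ j ∈ Finset.range (J + 1), a j * r ^ j := by
          rw [Finset.sum_range_succ' (fun j => a j * r ^ j)]
          have : 0 ≤ a 0 * r ^ 0 := mul_nonneg (hG.a0 0) (by positivity)
          linarith
      _ ≤ _ := hG.sum.sum_le_tsum _ fun j _ => mul_nonneg (hG.a0 j) (pow_nonneg hG.r0.le _)
  obtain ⟨r1, η, hr1, hr1ρ, hη, -, H⟩ := yau_an P (K s0) Bc x0 hG.a0 hρ hW one_pos
  obtain ⟨S, HS⟩ := H Y fun j _ => hG.ho j
  -- identification
  have key : ∀ s, |s - s0| < r1 → A.Sm (S.ps (s - s0)) ∧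
      (∀ x, u s x = u s0 x + S.ps (s - s0) x) ∧
      ∀ i, ∀ x ∈ (A.e i).source,
        ((K s).g i x).det = ((1 + S.ms (s - s0) : ℝ) : ℂ) * ((K s0).g i x).det := by
    intro s hs
    have hsδ : |s - s0| < δ := hs.trans_le (hr1ρ.trans (min_le_right _ _))
    have hsr : |s - s0| < r := hs.trans_le (hr1ρ.trans (min_le_left _ _))
    have hKs := hK s hsδ
    obtain ⟨K', hK', hdK'⟩ := HS (s - s0) hs (addH (G s) (u s0) hK0.sm) (by
      intro i x hx b c
      have h1 := (hasSum_nat_add_iff' 1).2 (hG.hs s hsr i x hx b c)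
      rw [Finset.sum_range_one, pow_zero, one_mul, hG.zero_eq hx] at h1
      have e : (addH (G s) (u s0) hK0.sm).g i x b c - (K s0).g i x b c =
          (G s).g i x b c - (G s0).g i x b c := by
        rw [hK0.eq i x hx]
        show ((G s).g i x + hsf A (u s0) i x) b c - _ = _
        rw [Matrix.add_apply, Matrix.add_apply]
        ring
      rw [e]
      exact h1)
    obtain ⟨c, hc⟩ := hdet s hsδ
    set v : M → ℝ := fun x => u s0 x + S.ps (s - s0) x with hv
    have hvs : A.Sm v := fun i => (hK0.sm i).add (hK'.sm i)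
    have hgv : ∀ i, ∀ x ∈ (A.e i).source, (G s).g i x + hsf A v i x = K'.g i x := by
      intro i x hx
      rw [hK'.eq i x hx, hv, hsf_addf hK0.sm hK'.sm hx]
      show _ = (G s).g i x + hsf A (u s0) i x + _
      rw [add_assoc]
    have hne : (1 + S.ms (s - s0) : ℝ) ≠ 0 := by
      intro h0
      obtain ⟨i, hi⟩ := A.cover x0
      have h1 := hdK' i x0 hi
      rw [h0, Complex.ofReal_zero, zero_mul] at h1
      exact (K'.pos i x0 hi).det_pos.ne' h1
    obtain ⟨hc1, k, hk⟩ := unique_gen (G s).g (fun i a b => ((G s).sm i a b).continuousOn)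
      (u := u s) (v := v) (C2f.of_sm hKs.sm) (C2f.of_sm hvs)
      (fun i x hx => by rw [← hKs.eq i x hx]; exact (K s).pos i x hx)
      (fun i x hx => by rw [hgv i x hx]; exact K'.pos i x hx)
      (c := c / (1 + S.ms (s - s0))) (fun i x hx => by
        rw [← hKs.eq i x hx, hgv i x hx, hc i x hx, hdK' i x hx, Complex.ofReal_div, ← mul_assoc,
          div_mul_cancel₀]
        exact_mod_cast hne)
    have hk0 : k = 0 := by
      have h1 := hk x0
      have h2 : S.ps (s - s0) x0 = 0 := by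
        unfold AnS.ps
        simp [S.nrm]
      simp only [hv, hu s hsδ, hu s0 h00, h2] at h1
      linarith
    have hcc : c = 1 + S.ms (s - s0) := by
      rw [div_eq_one_iff_eq hne] at hc1
      exact hc1
    refine ⟨hK'.sm, fun x => ?_, fun i x hx => ?_⟩
    · have h1 := hk x
      rw [hk0] at h1
      simp only [hv] at h1
      linarith
    · rw [hc i x hx, hcc]
  obtain ⟨V1, hV10, hV1⟩ := sm_n2 hK0.sm Bc
  obtain ⟨V2, hV20, hV2⟩ := k11_ho (ofKah (K s0)) Bc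
  set b : ℕ → ℝ := fun j => if j = 0 then V1 + V2 + 1 else S.a j with hb
  have hb0 : ∀ j, 0 ≤ b j := fun j => by
    rcases j with _ | j
    · simp only [hb, if_true]
      linarith
    · simpa [hb] using S.a_nn (j + 1)
  have hbs : Summable fun j => b j * r1 ^ j := by
    refine (summable_nat_add_iff 1).1 ?_
    simpa [hb] using (summable_nat_add_iff (f := fun j => S.a j * r1 ^ j) 1).2 (S.summ hr1)
  have hps : ∀ s, |s - s0| < r1 → ∀ x, HasSum (fun j => (s - s0) ^ j * S.φ j x)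
      (S.ps (s - s0) x) := by
    intro s hs x
    refine (Summable.of_norm_bounded (S.summ_s hr1 hs.le) fun j => ?_).hasSum
    rw [norm_mul, norm_pow, Real.norm_eq_abs]
    refine mul_le_mul_of_nonneg_left ?_ (by positivity)
    obtain ⟨k, hk, hxk⟩ := Bc.cover x
    have h1 := (S.n2 j k).h0.bdd _ (ball_subset_closedBall hxk)
    simpa [inC, (A.e (Bc.i k)).left_inv hk] using h1
  set φ : ℕ → M → ℝ := fun j => if j = 0 then u s0 else S.φ j with hφ
  have hF : PsF Bc u s0 r1 φ b := by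
    refine ⟨hr1, hb0, hbs, fun j => ?_, fun j => ?_, fun s hs x => ?_⟩
    · rcases j with _ | j
      · simpa [hφ] using hK0.sm
      · simpa [hφ] using S.sm (j + 1)
    · rcases j with _ | j
      · simp only [hφ, hb, if_true]
        exact hV1.mono (by linarith)
      · simpa [hφ, hb] using S.n2 (j + 1)
    · rw [(key s hs).2.1 x]
      have h1 := (hasSum_nat_add_iff' 1).2 (hps s hs x)
      rw [Finset.sum_range_one, S.φ0, mul_zero, sub_zero] at h1
      refine (hasSum_nat_add_iff' 1).1 ?_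
      rw [Finset.sum_range_one]
      simpa [hφ] using h1
  set Y' : ℕ → K11 A := fun j => if j = 0 then ofKah (K s0) else addH (Y j) (S.φ j) (S.sm j)
    with hY'
  have hKp : Ps11 Bc (fun s => ofKah (K s)) s0 r1 Y' b := by
    refine ⟨hr1, hb0, hbs, fun j k p q => ?_, fun s hs i x hx p q => ?_⟩
    · rcases j with _ | j
      · simp only [hY', hb, if_true]
        exact (hV2 k p q).mono (by linarith)
      · have h1 := S.hoY (j + 1) (by omega) k p q
        simp only [hY', hb, Nat.add_one_ne_zero, if_false]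
        exact h1
    · have hsδ : |s - s0| < δ := hs.trans_le (hr1ρ.trans (min_le_right _ _))
      have hsr : |s - s0| < r := hs.trans_le (hr1ρ.trans (min_le_left _ _))
      have h1 := (hG.hs s hsr i x hx p q).add (hF.hsf_sum hs (hK s hsδ).sm hx p q)
      have e : (ofKah (K s)).g i x p q = (G s).g i x p q + hsf A (u s) i x p q := by
        show (K s).g i x p q = _
        rw [(hK s hsδ).eq i x hx, Matrix.add_apply]
      rw [e]
      refine h1.congr_fun fun j => ?_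
      rcases j with _ | j
      · simp only [hY', hφ, if_true, pow_zero, one_mul]
        show (K s0).g i x p q = _
        rw [hK0.eq i x hx, Matrix.add_apply, hG.zero_eq hx]
      · simp only [hY', hφ, Nat.add_one_ne_zero, if_false]
        show _ * ((Y (j + 1)).g i x + hsf A (S.φ (j + 1)) i x) p q = _
        rw [Matrix.add_apply]
        ring
  refine ⟨r1, φ, Y', fun j => if j = 0 then 1 else S.m j, b, hr1ρ.trans (min_le_right _ _),
    hr1ρ.trans (min_le_left _ _), hF, hKp, fun j => ?_, fun s hs i x hx => ?_⟩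
  · rcases j with _ | j
    · simp only [hb, if_true, abs_one]
      linarith
    · simpa [hb] using S.hm (j + 1)
  · rw [(key s hs).2.2 i x hx]
    congr 2
    have hsum : Summable fun j => (s - s0) ^ j * S.m j := by
      refine Summable.of_norm_bounded (S.summ_s hr1 hs.le) fun j => ?_
      rw [norm_mul, norm_pow, Real.norm_eq_abs]
      exact mul_le_mul_of_nonneg_left (S.hm j) (by positivity)
    have hsum' : Summable fun j => (s - s0) ^ j * (if j = 0 then 1 else S.m j) := by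
      refine (summable_nat_add_iff 1).1 ?_
      simpa using (summable_nat_add_iff 1).2 hsum
    rw [← hsum'.sum_add_tsum_nat_add 1, Finset.sum_range_one, AnS.ms,
      ← hsum.sum_add_tsum_nat_add 1, Finset.sum_range_one, S.m0]
    simp

end

end Crest.Agent.R281.HKMov_478
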