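import Mathlib
import Crest.Agent.R281.Glob1_484
import Crest.Agent.R273.YauMax_635
import Crest.Agent.R273.FS_333

-- ▼ part R281/Hk1_389
section

/-!
# R281 (S0424), S6-HARN (Hc), part 1 (helper389): real functions and matrices

* `exists_prof e` : `a` smooth, `a = t` for `t ≥ 1/2`, `a' ≥ 0`, `(t a')' ≥ 0` on `t ≥ 0`, and
  `a', (t a')' ≥ 1/(32 e)` on `[0, e]`;
* `cap` : smooth with `cap = t - 1` for `t ≤ 5/8` up to a constant, constant for `t ≥ 3/4`.
* `det_mono` : monotonicity of the determinant on semipositive matrices;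
* `det_rank_one` : `det (A + v v^*) = det A (1 + tr (A⁻¹ v v^*))`.
-/

set_option autoImplicit false

open Set Filter Topology MeasureTheory
open scoped ContDiff Matrix ComplexOrder

noncomputable section

namespace Crest.Agent.R281.Hk_389

/-- smooth step from `0` (`t ≤ u`) to `1` (`t ≥ v`) -/
def stp (u v t : ℝ) : ℝ := Real.smoothTransition ((t - u) / (v - u))

section stp

variable {u v : ℝ}

lemma stp_contDiff : ContDiff ℝ ∞ (stp u v) :=
  Real.smoothTransition.contDiff.comp ((contDiff_id.sub contDiff_const).div_const _)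

lemma stp_zero (h : u < v) {t : ℝ} (ht : t ≤ u) : stp u v t = 0 :=
  Real.smoothTransition.zero_of_nonpos
    (div_nonpos_of_nonpos_of_nonneg (by linarith) (by linarith))

lemma stp_one (h : u < v) {t : ℝ} (ht : v ≤ t) : stp u v t = 1 := by
  refine Real.smoothTransition.one_of_one_le ?_
  rw [le_div_iff₀ (by linarith)]
  linarith

lemma stp_nonneg (t : ℝ) : 0 ≤ stp u v t := Real.smoothTransition.nonneg _

lemma stp_le_one (t : ℝ) : stp u v t ≤ 1 := Real.smoothTransition.le_one _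

lemma stp_mono (h : u < v) : Monotone (stp u v) := by
  intro a b hab
  refine Real.smoothTransition.monotone ?_
  exact div_le_div_of_nonneg_right (by linarith) (by linarith)

lemma stp_deriv_nonneg (h : u < v) (t : ℝ) : 0 ≤ deriv (stp u v) t :=
  (stp_mono h).deriv_nonneg

lemma stp_hasDerivAt (t : ℝ) : HasDerivAt (stp u v) (deriv (stp u v) t) t :=
  ((stp_contDiff (u := u) (v := v)).differentiable (by simp)).differentiableAt.hasDerivAt

lemma stp_deriv_zero (h : u < v) {t : ℝ} (ht : t < u) : deriv (stp u v) t = 0 := by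
  have h1 : stp u v =ᶠ[𝓝 t] fun _ => 0 := by
    filter_upwards [gt_mem_nhds ht] with s hs
    exact stp_zero h hs.le
  rw [h1.deriv_eq]; simp

end stp

/-- `1 / (8 √(t² + e²))` -/
def rr (e t : ℝ) : ℝ := (1 / 8) * (Real.sqrt (t ^ 2 + e ^ 2))⁻¹

/-- the derivative of the profile -/
def pa (e t : ℝ) : ℝ := (1 - stp (1 / 4) (1 / 2) t) * rr e t + stp (1 / 4) (1 / 2) t

section prof

variable {e : ℝ}

lemma q_pos (he : 0 < e) (t : ℝ) : 0 < t ^ 2 + e ^ 2 := by positivity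

lemma sq_pos (he : 0 < e) (t : ℝ) : 0 < Real.sqrt (t ^ 2 + e ^ 2) := Real.sqrt_pos.2 (q_pos he t)

lemma rr_contDiff (he : 0 < e) : ContDiff ℝ ∞ (rr e) := by
  have h1 : ContDiff ℝ ∞ (fun t : ℝ => Real.sqrt (t ^ 2 + e ^ 2)) :=
    ((contDiff_id.pow 2).add contDiff_const).sqrt fun t => (q_pos he t).ne'
  exact contDiff_const.mul (h1.inv fun t => (sq_pos he t).ne')

lemma rr_pos (he : 0 < e) (t : ℝ) : 0 < rr e t := by
  have := sq_pos he t
  unfold rr; positivity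

lemma rr_hasDerivAt (he : 0 < e) (t : ℝ) :
    HasDerivAt (rr e) (-(1 / 8) * t * ((Real.sqrt (t ^ 2 + e ^ 2)) ^ 3)⁻¹) t := by
  have hs := sq_pos he t
  have h0 : HasDerivAt (fun t : ℝ => t ^ 2 + e ^ 2) (2 * t) t := by
    simpa using (hasDerivAt_pow 2 t).add_const (e ^ 2)
  have h1 := h0.sqrt (q_pos he t).ne'
  have h2 := (h1.inv hs.ne').const_mul (1 / 8 : ℝ)
  refine h2.congr_deriv ?_
  field_simp

lemma rr_add (he : 0 < e) (t : ℝ) :
    rr e t + t * (-(1 / 8) * t * ((Real.sqrt (t ^ 2 + e ^ 2)) ^ 3)⁻¹) =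
      (1 / 8) * e ^ 2 * ((Real.sqrt (t ^ 2 + e ^ 2)) ^ 3)⁻¹ := by
  have hs := sq_pos he t
  have h2 : Real.sqrt (t ^ 2 + e ^ 2) ^ 2 = t ^ 2 + e ^ 2 := Real.sq_sqrt (q_pos he t).le
  unfold rr
  field_simp
  rw [h2]; ring

lemma rr_le (he : 0 < e) {t : ℝ} (ht : 1 / 4 ≤ t) : rr e t ≤ 1 := by
  have h1 : t ≤ Real.sqrt (t ^ 2 + e ^ 2) := Real.le_sqrt_of_sq_le (by nlinarith)
  have h2 : (Real.sqrt (t ^ 2 + e ^ 2))⁻¹ ≤ 4 := by
    rw [inv_le_comm₀ (sq_pos he t) (by norm_num)]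
    linarith
  unfold rr
  linarith

lemma pa_contDiff (he : 0 < e) : ContDiff ℝ ∞ (pa e) :=
  ((contDiff_const.sub stp_contDiff).mul (rr_contDiff he)).add stp_contDiff

lemma pa_one {t : ℝ} (ht : 1 / 2 ≤ t) : pa e t = 1 := by
  unfold pa
  rw [stp_one (by norm_num) ht]; ring

/-- the derivative of `pa` -/
def pa' (e t : ℝ) : ℝ :=
  -(deriv (stp (1 / 4) (1 / 2)) t) * rr e t +
    (1 - stp (1 / 4) (1 / 2) t) * (-(1 / 8) * t * ((Real.sqrt (t ^ 2 + e ^ 2)) ^ 3)⁻¹) +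
      deriv (stp (1 / 4) (1 / 2)) t

lemma pa_hasDerivAt (he : 0 < e) (t : ℝ) : HasDerivAt (pa e) (pa' e t) t := by
  have h1 := stp_hasDerivAt (u := 1 / 4) (v := 1 / 2) t
  have h2 := ((h1.const_sub 1).mul (rr_hasDerivAt he t)).add h1
  exact h2

lemma pa_nonneg (he : 0 < e) (t : ℝ) : 0 ≤ pa e t := by
  have h1 := stp_nonneg (u := 1 / 4) (v := 1 / 2) t
  have h2 := stp_le_one (u := 1 / 4) (v := 1 / 2) t
  have h3 := rr_pos he t
  unfold pa
  have : 0 ≤ (1 - stp (1 / 4) (1 / 2) t) * rr e t := mul_nonneg (by linarith) h3.le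
  linarith

lemma pa_add_nonneg (he : 0 < e) {t : ℝ} (ht : 0 ≤ t) : 0 ≤ pa e t + t * pa' e t := by
  have h1 := stp_nonneg (u := 1 / 4) (v := 1 / 2) t
  have h2 := stp_le_one (u := 1 / 4) (v := 1 / 2) t
  have h3 := stp_deriv_nonneg (u := 1 / 4) (v := 1 / 2) (by norm_num) t
  have h4 := rr_add he t
  have hs := sq_pos he t
  have e1 : pa e t + t * pa' e t = (1 - stp (1 / 4) (1 / 2) t) *
      (rr e t + t * (-(1 / 8) * t * ((Real.sqrt (t ^ 2 + e ^ 2)) ^ 3)⁻¹)) +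
      stp (1 / 4) (1 / 2) t + t * deriv (stp (1 / 4) (1 / 2)) t * (1 - rr e t) := by
    unfold pa pa'; ring
  rw [e1, h4]
  have h5 : 0 ≤ t * deriv (stp (1 / 4) (1 / 2)) t * (1 - rr e t) := by
    rcases lt_or_ge t (1 / 4) with h | h
    · rw [stp_deriv_zero (by norm_num) h]; simp
    · exact mul_nonneg (mul_nonneg ht h3) (by linarith [rr_le he h])
  have h6 : 0 ≤ (1 - stp (1 / 4) (1 / 2) t) *
      ((1 / 8) * e ^ 2 * ((Real.sqrt (t ^ 2 + e ^ 2)) ^ 3)⁻¹) :=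
    mul_nonneg (by linarith) (by positivity)
  linarith

lemma sqrt_le (he : 0 < e) {t : ℝ} (h0 : 0 ≤ t) (h1 : t ≤ e) :
    Real.sqrt (t ^ 2 + e ^ 2) ≤ (3 / 2) * e := by
  rw [Real.sqrt_le_left (by positivity)]
  nlinarith

lemma pa_ge (he : 0 < e) (he' : e < 1 / 4) {t : ℝ} (h0 : 0 ≤ t) (h1 : t ≤ e) :
    1 / (32 * e) ≤ pa e t := by
  have hs := sq_pos he t
  have h2 := sqrt_le he h0 h1
  unfold pa
  rw [stp_zero (by norm_num) (by linarith)]
  simp only [sub_zero, one_mul, add_zero]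
  unfold rr
  rw [one_div, mul_inv, ← one_div, ← one_div, ← one_div]
  rw [← div_eq_mul_one_div, ← div_eq_mul_one_div, div_div, div_div,
    div_le_div_iff₀ (by positivity) (by positivity)]
  nlinarith

lemma pa_add_ge (he : 0 < e) (he' : e < 1 / 4) {t : ℝ} (h0 : 0 ≤ t) (h1 : t ≤ e) :
    1 / (32 * e) ≤ pa e t + t * pa' e t := by
  have hs := sq_pos he t
  have h2 := sqrt_le he h0 h1
  have h4 := rr_add he t
  have e1 : pa e t + t * pa' e t =
      (1 / 8) * e ^ 2 * ((Real.sqrt (t ^ 2 + e ^ 2)) ^ 3)⁻¹ := by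
    rw [← h4]
    unfold pa pa'
    rw [stp_zero (by norm_num) (by linarith : t ≤ 1 / 4),
      stp_deriv_zero (by norm_num) (by linarith)]
    ring
  rw [e1]
  have h5 : Real.sqrt (t ^ 2 + e ^ 2) ^ 3 ≤ ((3 / 2) * e) ^ 3 := pow_le_pow_left₀ hs.le h2 3
  have h6 : (((3 / 2) * e) ^ 3)⁻¹ ≤ (Real.sqrt (t ^ 2 + e ^ 2) ^ 3)⁻¹ :=
    inv_anti₀ (by positivity) h5
  have h7 : 1 / (32 * e) ≤ (1 / 8) * e ^ 2 * (((3 / 2) * e) ^ 3)⁻¹ := by
    have : (1 / 8) * e ^ 2 * (((3 / 2) * e) ^ 3)⁻¹ = 1 / (27 * e) := by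
      field_simp; norm_num
    rw [this]
    exact one_div_le_one_div_of_le (by positivity) (by linarith)
  exact h7.trans (mul_le_mul_of_nonneg_left h6 (by positivity))

end prof

/-! ### the capped profiles -/

/-- the cap factor -/
def cp (t : ℝ) : ℝ := 1 - stp (5 / 8) (3 / 4) t

lemma cp_contDiff : ContDiff ℝ ∞ cp := contDiff_const.sub stp_contDiff

lemma cp_one {t : ℝ} (ht : t ≤ 5 / 8) : cp t = 1 := by
  unfold cp; rw [stp_zero (by norm_num) ht]; ring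

lemma cp_zero {t : ℝ} (ht : 3 / 4 ≤ t) : cp t = 0 := by
  unfold cp; rw [stp_one (by norm_num) ht]; ring

/-- primitive from `1` -/
def pr (f : ℝ → ℝ) (t : ℝ) : ℝ := ∫ s in (1 : ℝ)..t, f s

lemma pr_hasDerivAt {f : ℝ → ℝ} (hf : Continuous f) (t : ℝ) : HasDerivAt (pr f) (f t) t :=
  intervalIntegral.integral_hasDerivAt_right (hf.intervalIntegrable _ _)
    (hf.stronglyMeasurableAtFilter _ _) hf.continuousAt

lemma pr_contDiff {f : ℝ → ℝ} (hf : ContDiff ℝ ∞ f) : ContDiff ℝ ∞ (pr f) := by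
  rw [contDiff_infty_iff_deriv]
  refine ⟨fun t => (pr_hasDerivAt hf.continuous t).differentiableAt, ?_⟩
  have : deriv (pr f) = f := funext fun t => (pr_hasDerivAt hf.continuous t).deriv
  rw [this]; exact hf

lemma pr_congr {f g : ℝ → ℝ} {c : ℝ} (hc : c ≤ 1) (h : ∀ t, c ≤ t → f t = g t) {t : ℝ}
    (ht : c ≤ t) : pr f t = pr g t := by
  refine intervalIntegral.integral_congr fun s hs => h s ?_
  rcases le_total 1 t with h1 | h1
  · rw [uIcc_of_le h1] at hs; exact hc.trans hs.1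
  · rw [uIcc_of_ge h1] at hs; exact ht.trans hs.1

/-- the capped identity -/
def F0 : ℝ → ℝ := pr cp

/-- the capped profile -/
def F1 (e : ℝ) : ℝ → ℝ := pr fun s => cp s * pa e s

section F

variable {e : ℝ}

lemma F0_contDiff : ContDiff ℝ ∞ F0 := pr_contDiff cp_contDiff

lemma F0_hasDerivAt (t : ℝ) : HasDerivAt F0 (cp t) t := pr_hasDerivAt cp_contDiff.continuous t

lemma F1_contDiff (he : 0 < e) : ContDiff ℝ ∞ (F1 e) :=
  pr_contDiff (cp_contDiff.mul (pa_contDiff he))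

lemma F1_hasDerivAt (he : 0 < e) (t : ℝ) : HasDerivAt (F1 e) (cp t * pa e t) t :=
  pr_hasDerivAt (cp_contDiff.mul (pa_contDiff he)).continuous t

lemma F0_zero {t : ℝ} (ht : 3 / 4 ≤ t) : F0 t = 0 := by
  have h := pr_congr (f := cp) (g := fun _ => 0) (c := 3 / 4) (by norm_num)
    (fun s hs => cp_zero hs) ht
  rw [F0, h]; simp [pr]

lemma F1_eq {t : ℝ} (ht : 1 / 2 ≤ t) : F1 e t = F0 t :=
  pr_congr (c := 1 / 2) (by norm_num) (fun s hs => by rw [pa_one hs, mul_one]) ht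

lemma cp_hasDerivAt_zero {t : ℝ} (ht : t < 5 / 8) : HasDerivAt cp 0 t := by
  have h1 : cp =ᶠ[𝓝 t] fun _ => 1 := by
    filter_upwards [gt_mem_nhds ht] with s hs
    exact cp_one hs.le
  exact (hasDerivAt_const t (1 : ℝ)).congr_of_eventuallyEq h1

lemma cppa_hasDerivAt (he : 0 < e) {t : ℝ} (ht : t < 5 / 8) :
    HasDerivAt (fun s => cp s * pa e s) (pa' e t) t := by
  have h := (cp_hasDerivAt_zero ht).mul (pa_hasDerivAt he t)
  refine h.congr_deriv ?_
  rw [cp_one ht.le]; ring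

end F

end Crest.Agent.R281.Hk_389
end
end

-- ▼ part R281/Hk2_389

/-!
# R281 (S0424), S6-HARN (Hc), part 2 (helper389): pointwise part of the Lelong lower bound

`F : Cn n → Fin m → ℂ` holomorphic, `b = ∑ |F_k|²`:
* `hess_cap` : `∂∂̄ φ(b) = φ'(b) ∂∂̄ b + φ''(b) ∂b ∂̄b`
* `psd_prof` : `a₁ ∂∂̄ b + a₂ ∂b ∂̄b ≥ c ∂∂̄ b` if `a₁ ≥ c`, `a₁ + b a₂ ≥ c`
* `det_mono` : monotonicity of the determinant on semipositive matrices
-/

set_option autoImplicit false
set_option linter.unusedSectionVars false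

open Set Filter Topology Complex MeasureTheory
open scoped ContDiff Matrix ComplexConjugate ComplexOrder

namespace Crest.Agent.R281.Hk_389

open Crest.Agent.R275 Crest.Agent.R275.Geo Crest.Agent.R275.Core144 Crest.Agent.R275.EDR890
open Crest.Agent.R273.Defs_333 Crest.Agent.R273.Hess_333 Crest.Agent.R273.HessB_333
open Crest.Agent.R273.HM_333 Crest.Agent.R273.Kah_333 Crest.Agent.R273.Vol_333
open Crest.Agent.R273.Vm_333
open Crest.Agent.R273.Green_5 Crest.Agent.R273.FIa0_597 Crest.Agent.R273.FIb0_597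
open Crest.Agent.R273.FIc0_597 Crest.Agent.R273
open Crest.Agent.R273.FS_333 (sq hess_sq wd_sq wd_sq' contDiffAt_of_hol)
open Crest.Agent.R281.Glob1_484

noncomputable section

variable {n m : ℕ}

/-! ### matrices -/

theorem det_mono {H X : Matrix (Fin n) (Fin n) ℂ} (hH : H.PosSemidef) (hX : X.PosSemidef) :
    H.det.re ≤ (H + X).det.re := by
  by_cases h0 : H.det = 0
  · rw [h0]
    exact (Complex.le_def.1 (hH.add hX).det_nonneg).1
  · have h1 : H.PosDef := hH.posDef_iff_isUnit.2 ((Matrix.isUnit_iff_isUnit_det _).2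
      (isUnit_iff_ne_zero.2 h0))
    exact (Complex.le_def.1 (YauMax_635.det_le_det_add h1 hX)).1

theorem det_mono_smul {H X : Matrix (Fin n) (Fin n) ℂ} (hH : H.PosSemidef) {c : ℝ} (hc : 0 ≤ c)
    (hX : (X - (c : ℂ) • H).PosSemidef) : c ^ n * H.det.re ≤ X.det.re := by
  have h1 : ((c : ℂ) • H).PosSemidef := hH.smul (by exact_mod_cast hc)
  have h2 := det_mono h1 hX
  rw [add_sub_cancel, Matrix.det_smul, Fintype.card_fin, ← Complex.ofReal_pow,
    Complex.re_ofReal_mul] at h2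
  exact h2

/-! ### the local computation -/

section Local

variable {F : Cn n → Fin m → ℂ} {U : Set (Cn n)}

/-- the Jacobian -/
def jac (F : Cn n → Fin m → ℂ) (z : Cn n) : Matrix (Fin m) (Fin n) ℂ :=
  Matrix.of fun k a => fderiv ℂ (fun z => F z k) z (EuclideanSpace.single a 1)

theorem hess_sq_mat (hU : IsOpen U) (hF : ∀ k, DifferentiableOn ℂ (fun z => F z k) U) {z : Cn n}
    (hz : z ∈ U) : hess (sq F) z = (jac F z)ᵀ * (jac F z).map conj := by
  ext a b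
  rw [hess_sq hU hF hz, Matrix.mul_apply]
  rfl

theorem gr_sq (hU : IsOpen U) (hF : ∀ k, DifferentiableOn ℂ (fun z => F z k) U) {z : Cn n}
    (hz : z ∈ U) : gr (sq F) z = (jac F z)ᵀ *ᵥ (fun k => conj (F z k)) := by
  funext a
  unfold gr
  rw [wd_sq' hU hF hz]
  rfl

theorem sq_contDiffAt (hU : IsOpen U) (hF : ∀ k, DifferentiableOn ℂ (fun z => F z k) U) {z : Cn n}
    (hz : z ∈ U) : ContDiffAt ℝ ∞ (sq F) z :=
  ContDiffAt.sum fun k _ => (contDiffAt_of_hol hU (hF k) hz).norm_sq ℝ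

theorem psd_jac (J : Matrix (Fin m) (Fin n) ℂ) : (Jᵀ * J.map conj).PosSemidef := by
  have h : Jᵀ = (J.map conj)ᴴ := by
    ext a b
    simp [Matrix.conjTranspose_apply]
  rw [h]
  exact Matrix.posSemidef_conjTranspose_mul_self _

/-- the basic inequality `∂b ∂̄b ≤ b ∂∂̄b` -/
theorem cs_jac (J : Matrix (Fin m) (Fin n) ℂ) (f : Fin m → ℂ) (x : Fin n → ℂ) :
    (star x ⬝ᵥ (Matrix.vecMulVec (Jᵀ *ᵥ fun k => conj (f k))
      (star (Jᵀ *ᵥ fun k => conj (f k))) *ᵥ x)).re ≤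
      (∑ k, ‖f k‖ ^ 2) * (star x ⬝ᵥ ((Jᵀ * J.map conj) *ᵥ x)).re := by
  set y : Fin m → ℂ := J.map conj *ᵥ x with hy
  have e1 : star x ⬝ᵥ ((Jᵀ * J.map conj) *ᵥ x) = ∑ k, conj (y k) * y k := by
    rw [← Matrix.mulVec_mulVec, Matrix.dotProduct_mulVec, ← hy]
    have : star x ᵥ* Jᵀ = fun k => conj (y k) := by
      funext k
      simp only [Matrix.vecMul, dotProduct, hy, Matrix.mulVec, Matrix.transpose_apply,
        Matrix.map_apply, map_sum, map_mul, Complex.conj_conj, Pi.star_apply, RCLike.star_def]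
      exact Finset.sum_congr rfl fun a _ => mul_comm _ _
    rw [this]
    rfl
  have e2 : star x ⬝ᵥ (Jᵀ *ᵥ fun k => conj (f k)) = ∑ k, conj (y k) * conj (f k) := by
    rw [Matrix.dotProduct_mulVec]
    have : star x ᵥ* Jᵀ = fun k => conj (y k) := by
      funext k
      simp only [Matrix.vecMul, dotProduct, hy, Matrix.mulVec, Matrix.transpose_apply,
        Matrix.map_apply, map_sum, map_mul, Complex.conj_conj, Pi.star_apply, RCLike.star_def]
      exact Finset.sum_congr rfl fun a _ => mul_comm _ _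
    rw [this]
    rfl
  set v := Jᵀ *ᵥ fun k => conj (f k) with hv
  have e3 : star x ⬝ᵥ (Matrix.vecMulVec v (star v) *ᵥ x) =
      (star x ⬝ᵥ v) * conj (star x ⬝ᵥ v) := by
    rw [Matrix.vecMulVec_mulVec, dotProduct_smul]
    have : star v ⬝ᵥ x = conj (star x ⬝ᵥ v) := by
      simp only [dotProduct, map_sum, map_mul, Pi.star_apply, RCLike.star_def, Complex.conj_conj]
      exact Finset.sum_congr rfl fun a _ => mul_comm _ _
    rw [this]
    simp [mul_comm]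
  rw [e3, e1, e2, Complex.mul_conj, Complex.ofReal_re, Complex.normSq_eq_norm_sq]
  have e4 : (∑ k, conj (y k) * y k).re = ∑ k, ‖y k‖ ^ 2 := by
    rw [Complex.re_sum]
    refine Finset.sum_congr rfl fun k _ => ?_
    rw [mul_comm, Complex.mul_conj, Complex.ofReal_re, Complex.normSq_eq_norm_sq]
  rw [e4]
  have e5 : ‖∑ k, conj (y k) * conj (f k)‖ ≤ ∑ k, ‖y k‖ * ‖f k‖ := by
    refine (norm_sum_le _ _).trans (le_of_eq ?_)
    refine Finset.sum_congr rfl fun k _ => ?_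
    rw [norm_mul, RCLike.norm_conj, RCLike.norm_conj]
  have e6 := Finset.sum_mul_sq_le_sq_mul_sq Finset.univ (fun k => ‖y k‖) (fun k => ‖f k‖)
  calc ‖∑ k, conj (y k) * conj (f k)‖ ^ 2 ≤ (∑ k, ‖y k‖ * ‖f k‖) ^ 2 :=
        pow_le_pow_left₀ (norm_nonneg _) e5 2
    _ ≤ _ := by rw [mul_comm (∑ k, ‖f k‖ ^ 2)]; exact e6

/-- `a₁ ∂∂̄ b + a₂ ∂b ∂̄b ≥ c ∂∂̄ b` if `a₁ ≥ c`, `a₁ + b a₂ ≥ c` -/
theorem psd_prof (J : Matrix (Fin m) (Fin n) ℂ) (f : Fin m → ℂ) {a₁ a₂ c : ℝ} (h1 : c ≤ a₁)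
    (h2 : c ≤ a₁ + (∑ k, ‖f k‖ ^ 2) * a₂) :
    (((a₁ : ℝ) • (Jᵀ * J.map conj) + (a₂ : ℝ) • Matrix.vecMulVec (Jᵀ *ᵥ fun k => conj (f k))
      (star (Jᵀ *ᵥ fun k => conj (f k)))) - (c : ℂ) • (Jᵀ * J.map conj)).PosSemidef := by
  set v := Jᵀ *ᵥ fun k => conj (f k) with hv
  have hJ := psd_jac J
  have hV : (Matrix.vecMulVec v (star v)).PosSemidef := Matrix.posSemidef_vecMulVec_self_star v
  have hherm : (((a₁ : ℝ) • (Jᵀ * J.map conj) + (a₂ : ℝ) • Matrix.vecMulVec v (star v)) -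
      (c : ℂ) • (Jᵀ * J.map conj)).IsHermitian := by
    have k1 : ∀ (r : ℝ) {X : Matrix (Fin n) (Fin n) ℂ}, X.IsHermitian → (r • X).IsHermitian := by
      intro r X hX
      unfold Matrix.IsHermitian
      rw [Matrix.conjTranspose_smul, hX.eq]
      simp
    have k2 : (c : ℂ) • (Jᵀ * J.map conj) = (c : ℝ) • (Jᵀ * J.map conj) := by
      ext a b; simp
    rw [k2]
    exact ((k1 a₁ hJ.isHermitian).add (k1 a₂ hV.isHermitian)).sub (k1 c hJ.isHermitian)
  refine Matrix.PosSemidef.of_dotProduct_mulVec_nonneg hherm fun x => ?_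
  have hcs := cs_jac J f x
  rw [← hv] at hcs
  have p1 : 0 ≤ (star x ⬝ᵥ ((Jᵀ * J.map conj) *ᵥ x)).re :=
    (Complex.le_def.1 (hJ.dotProduct_mulVec_nonneg x)).1
  have p2 : 0 ≤ (star x ⬝ᵥ (Matrix.vecMulVec v (star v) *ᵥ x)).re :=
    (Complex.le_def.1 (hV.dotProduct_mulVec_nonneg x)).1
  have hre : 0 ≤ (star x ⬝ᵥ ((((a₁ : ℝ) • (Jᵀ * J.map conj) +
      (a₂ : ℝ) • Matrix.vecMulVec v (star v)) - (c : ℂ) • (Jᵀ * J.map conj)) *ᵥ x)).re := by
    have e : (star x ⬝ᵥ ((((a₁ : ℝ) • (Jᵀ * J.map conj) +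
        (a₂ : ℝ) • Matrix.vecMulVec v (star v)) - (c : ℂ) • (Jᵀ * J.map conj)) *ᵥ x)).re =
        (a₁ - c) * (star x ⬝ᵥ ((Jᵀ * J.map conj) *ᵥ x)).re +
          a₂ * (star x ⬝ᵥ (Matrix.vecMulVec v (star v) *ᵥ x)).re := by
      have k2 : (c : ℂ) • (Jᵀ * J.map conj) = (c : ℝ) • (Jᵀ * J.map conj) := by
        ext a b; simp
      rw [k2, Matrix.sub_mulVec, Matrix.add_mulVec, Matrix.smul_mulVec, Matrix.smul_mulVec,
        Matrix.smul_mulVec, dotProduct_sub, dotProduct_add, dotProduct_smul, dotProduct_smul,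
        dotProduct_smul, Complex.sub_re, Complex.add_re, Complex.smul_re, Complex.smul_re,
        Complex.smul_re]
      simp only [smul_eq_mul]
      ring
    rw [e]
    rcases le_total 0 a₂ with h | h
    · have := mul_nonneg h p2
      have := mul_nonneg (sub_nonneg.2 h1) p1
      linarith
    · have h3 : a₂ * ((∑ k, ‖f k‖ ^ 2) * (star x ⬝ᵥ ((Jᵀ * J.map conj) *ᵥ x)).re) ≤
          a₂ * (star x ⬝ᵥ (Matrix.vecMulVec v (star v) *ᵥ x)).re :=
        mul_le_mul_of_nonpos_left hcs h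
      have h4 : 0 ≤ (a₁ + (∑ k, ‖f k‖ ^ 2) * a₂ - c) *
          (star x ⬝ᵥ ((Jᵀ * J.map conj) *ᵥ x)).re := mul_nonneg (by linarith) p1
      nlinarith
  have him : (star x ⬝ᵥ ((((a₁ : ℝ) • (Jᵀ * J.map conj) +
      (a₂ : ℝ) • Matrix.vecMulVec v (star v)) - (c : ℂ) • (Jᵀ * J.map conj)) *ᵥ x)).im = 0 :=
    hherm.im_star_dotProduct_mulVec_self x
  exact Complex.le_def.2 ⟨hre, by rw [him]; simp⟩

end Local

end

end Crest.Agent.R281.Hk_389
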