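import Crest.Agent.R281.HoC4_578
import Crest.Agent.R273.SerE_945

/-!
# R281, L2-CPT (helper578), part 5: user form over families of sections (helper10, post 7512)

* `oB_nab_embN` : `∂̄` of a section in the charts;
* `hd_embN` : the density of a section;
* `user` : Hoermander–Demailly for `g = ∂̄ y0`, `|∂̄ y0|² ≤ |y1|²` in the norm of
  `(Θ_ν + ε_ν ω)⁻¹`, with a flat metric on the canonical bundle.
-/

set_option autoImplicit false
set_option linter.unusedSectionVars false
set_option linter.style.haveILetI false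

open Set Filter Topology Complex
open scoped ContDiff Matrix ComplexConjugate Kronecker ComplexOrder

namespace Crest.Agent.R281.HoC_578

open Crest.Agent.R275 Crest.Agent.R275.Geo Crest.Agent.R275.Core144
open Crest.Agent.R273.Defs_333 Crest.Agent.R273.HM_333 Crest.Agent.R273.Kah_333
open Crest.Agent.R273.Fock_243 Crest.Agent.R273.Calc_243 Crest.Agent.R273.Bkn_243
open Crest.Agent.R273.LamN127 Crest.Agent.R273.NV_578
open Crest.Agent.R273.NormC_505 Crest.Agent.R273.DnInt_505 Crest.Agent.R273.L2K_774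
open Crest.Agent.R273.DVec_733 Crest.Agent.R273.DMet_733 Crest.Agent.R273.DMetB_733
open Crest.Agent.R273.Mol_106 Crest.Agent.R273.Lim_505 Crest.Agent.R273.Pos_243
open Crest.Agent.R273.HDN_505 (HB HB_pos Ku Ku_posDef Gam_smAt)
open Crest.Agent.R273.SerA_945

noncomputable section

variable {n : ℕ} {M : Type} [TopologicalSpace M] {A : Atl n M}

theorem oB_embN {N : LB A} (s : Fn A) (i : A.ι) (x : M) :
    oB (N := N) (embN s i x) = s i x • (Pi.single ∅ (1 : ℂ) : FI n → ℂ) := by
  funext T
  show (if T = ∅ then s i x else 0) = s i x * (Pi.single ∅ (1 : ℂ) : FI n → ℂ) T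
  by_cases hT : T = ∅
  · rw [if_pos hT, hT, Pi.single_eq_same, mul_one]
  · rw [if_neg hT, Pi.single_eq_of_ne hT, mul_zero]

/-- `∂̄` of a section in the charts -/
theorem oB_nab_embN {N : LB A} {s : Fn A} (hs : SmS N s)
    (hoff : ∀ i, ∀ x ∉ (A.e i).source, s i x = 0) {i : A.ι} {x : M} (hx : x ∈ (A.e i).source)
    (b : Fin n) : oB (nab (BN N) (embN s) i x) {b} = A.db i b (s i) x := by
  have hm := embN_mem hs hoff
  rw [oB_nab hm.1.1 hx, Finset.sum_apply]
  have h1 : ∀ k : Fin n, dV I k (fun z => oB (N := N) (embN s i ((A.e i).symm z))) (A.e i x) =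
      A.db i k (s i) x • (Pi.single ∅ (1 : ℂ) : FI n → ℂ) := by
    intro k
    funext T
    show A.db i k (fun y => oB (N := N) (embN s i y) T) x = _ * _
    by_cases hT : T = ∅
    · subst hT
      rw [Pi.single_eq_same, mul_one]
      congr 1
    · have h2 : (fun y => oB (N := N) (embN s i y) T) = fun _ => (0 : ℂ) := by
        funext y
        rw [oB_embN, Pi.smul_apply, Pi.single_eq_of_ne hT, smul_zero]
      rw [h2, Pi.single_eq_of_ne hT, mul_zero]
      simp [Atl.db, dbj]
  rw [Finset.sum_eq_single b]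
  · rw [h1, Matrix.mulVec_smul, eW_vac, Pi.smul_apply, Pi.single_eq_same, smul_eq_mul, mul_one]
  · intro k _ hk
    rw [h1, Matrix.mulVec_smul, eW_vac, Pi.smul_apply, Pi.single_eq_of_ne, smul_zero]
    intro h
    exact hk (Finset.singleton_injective h).symm
  · intro h
    exact absurd (Finset.mem_univ b) h

/-- the density of a section -/
theorem hd_embN {N : LB A} (K : Kah A) (h : HM ((KB A)⁻¹ * N)) (s : Fn A) (i : A.ι) (x : M) :
    (HB K h).hd (embN s) (embN s) i x = ((h.w i x * ‖s i x‖ ^ 2 : ℝ) : ℂ) := by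
  refine (HB_hd_iB K h (embN s) (embN s) i x).trans ?_
  have h0 : oB (N := N) (embN s i x) = s i x • (Pi.single ∅ (1 : ℂ) : FI n → ℂ) := oB_embN s i x
  rw [h0, Matrix.mulVec_smul, dotProduct_smul, star_smul, star_single',
    smul_dotProduct, Matrix.mulVec_single_one, single_one_dotProduct, Matrix.col_apply]
  have h1 : GI K i x ∅ ∅ = 1 := by
    show Gam _ ∅ ∅ = 1
    rw [Gam_vac, if_pos rfl]
  rw [h1]
  simp only [smul_eq_mul, mul_one, RCLike.star_def]
  rw [Complex.mul_conj, Complex.normSq_eq_norm_sq]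
  push_cast
  ring

variable [T2Space M] [CompactSpace M] [Finite A.ι]


end

end Crest.Agent.R281.HoC_578
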