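import Crest.Agent.R281.PL2_713
import Mathlib
import Crest.Agent.R330.Rellich_893

-- ▼ part R281/Hy1_409
section

/-!
# R281 (S0424), H0-OP, second road (helper409), part 1: TRANSFER

* `Bc C`       : finite family of closed chart balls whose open balls cover `X`
* `lintegral_image_le` : change of variables, inequality, between two model spaces
* `transfer`   : integrals over a compact subset of a chart target are bounded by the integrals over
                 the cells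
-/

set_option autoImplicit false
set_option linter.unusedSectionVars false
set_option maxSynthPendingDepth 3

open Set Filter Topology MeasureTheory Metric
open scoped ContDiff ENNReal NNReal

namespace Crest.Agent.R281.Hy_409

open Crest.Agent.R281.HkR_835 Crest.Agent.R281.Ti_846 Crest.Agent.R281.PL_713

noncomputable section

variable {V W X : Type} [NormedAddCommGroup V] [NormedSpace ℝ V] [NormedAddCommGroup W]
  [NormedSpace ℝ W] [TopologicalSpace X]

/-- finite family of closed chart balls; the open balls cover `X` -/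
structure Bc (C : RCh V X) where
  κ : Type
  fin : Fintype κ
  i : κ → C.ι
  z : κ → V
  r : κ → ℝ
  sub : ∀ k, closedBall (z k) (r k) ⊆ (C.e (i k)).target
  cov : ∀ x, ∃ k, x ∈ (C.e (i k)).source ∧ C.e (i k) x ∈ ball (z k) (r k)

attribute [instance] Bc.fin

section cv

variable [FiniteDimensional ℝ V] [MeasurableSpace V] [BorelSpace V]
  [FiniteDimensional ℝ W] [MeasurableSpace W] [BorelSpace W]

/-- additive Haar measures and linear equivalences -/
theorem map_smul (μ : Measure V) [μ.IsAddHaarMeasure] (ν : Measure W) [ν.IsAddHaarMeasure]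
    (L : V ≃L[ℝ] W) : ∃ c : ℝ≥0, ν = c • μ.map L := by
  have h : (μ.map L).IsAddHaarMeasure := inferInstance
  exact ⟨_, Measure.isAddLeftInvariant_eq_smul ν (μ.map L)⟩

/-- change of variables between two model spaces, inequality -/
theorem lintegral_image_le (μ : Measure V) [μ.IsAddHaarMeasure] (ν : Measure W)
    [ν.IsAddHaarMeasure] (L : V ≃L[ℝ] W) : ∃ c : ℝ≥0, ∀ (T : Set V) (τ : V → W) (b : ℝ≥0),
      MeasurableSet T → (∀ y ∈ T, DifferentiableAt ℝ τ y) → InjOn τ T →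
      (∀ y ∈ T, |((L.symm : W →L[ℝ] V).comp (fderiv ℝ τ y)).det| ≤ b) →
      ∀ f : W → ℝ≥0∞, ∫⁻ z in τ '' T, f z ∂ν ≤ c * b * ∫⁻ y in T, f (τ y) ∂μ := by
  obtain ⟨c, hc⟩ := map_smul μ ν L
  refine ⟨c, fun T τ b hT hτ hinj hb f => ?_⟩
  set σ : V → V := fun y => L.symm (τ y) with hσ
  have hσd : ∀ y ∈ T, HasFDerivWithinAt σ ((L.symm : W →L[ℝ] V).comp (fderiv ℝ τ y)) T y :=
    fun y hy => ((L.symm : W →L[ℝ] V).hasFDerivAt.comp y (hτ y hy).hasFDerivAt).hasFDerivWithinAt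
  have hσi : InjOn σ T := fun y hy y' hy' h => hinj hy hy' (L.symm.injective h)
  have h1 := lintegral_image_eq_lintegral_abs_det_fderiv_mul μ hT hσd hσi (fun v => f (L v))
  have h2 : ∫⁻ z in τ '' T, f z ∂ν = c * ∫⁻ v in σ '' T, f (L v) ∂μ := by
    rw [hc, Measure.restrict_smul, lintegral_smul_measure]
    have hme : MeasurableEmbedding (L : V → W) := L.toHomeomorph.measurableEmbedding
    rw [hme.restrict_map, hme.lintegral_map]
    have h3 : (L : V → W) ⁻¹' (τ '' T) = σ '' T := by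
      ext v
      constructor
      · rintro ⟨y, hy, h⟩
        exact ⟨y, hy, by show L.symm (τ y) = v; rw [h, L.symm_apply_apply]⟩
      · rintro ⟨y, hy, h⟩
        exact ⟨y, hy, by
          rw [← h]
          show τ y = L (L.symm (τ y))
          rw [L.apply_symm_apply]⟩
    rw [h3]
    rfl
  rw [h2, h1, mul_assoc]
  refine mul_le_mul_right ?_ _
  have h4 : ∀ y ∈ T, ENNReal.ofReal |((L.symm : W →L[ℝ] V).comp (fderiv ℝ τ y)).det| *
      f (L (σ y)) ≤ (b : ℝ≥0∞) * f (τ y) := by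
    intro y hy
    have h5 : L (σ y) = τ y := L.apply_symm_apply _
    rw [h5]
    refine mul_le_mul_left ?_ _
    rw [← ENNReal.ofReal_coe_nnreal]
    exact ENNReal.ofReal_le_ofReal (hb y hy)
  refine (setLIntegral_mono' hT h4).trans ?_
  rw [lintegral_const_mul' _ _ ENNReal.coe_ne_top]

end cv

/-! ### the transfer inequality -/

section tr

variable [FiniteDimensional ℝ V] [MeasurableSpace V] [BorelSpace V]
  [FiniteDimensional ℝ W] [MeasurableSpace W] [BorelSpace W] [CompactSpace X] [T2Space X]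
  {C : RCh V X} {C' : RCh W X}

/-- part of `K` which is seen in the cell `k` -/
def QQ (B : Bc C) (a : C'.ι) (K : Set W) (k : B.κ) : Set W :=
  K ∩ (C'.e a).symm ⁻¹' ((C.e (B.i k)).symm '' closedBall (B.z k) (B.r k))

theorem isCompact_QQ (B : Bc C) {a : C'.ι} {K : Set W} (hK : IsCompact K)
    (hKt : K ⊆ (C'.e a).target) (k : B.κ) : IsCompact (QQ B a K k) := by
  have h1 : IsCompact ((C.e (B.i k)).symm '' closedBall (B.z k) (B.r k)) :=
    (isCompact_closedBall _ _).image_of_continuousOn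
      ((C.e (B.i k)).continuousOn_symm.mono (B.sub k))
  have h2 : IsClosed (QQ B a K k) :=
    ((C'.e a).continuousOn_symm.mono hKt).preimage_isClosed_of_isClosed hK.isClosed h1.isClosed
  exact hK.of_isClosed_subset h2 inter_subset_left

theorem QQ_sub (B : Bc C) {a : C'.ι} {K : Set W} (hKt : K ⊆ (C'.e a).target) (k : B.κ) :
    QQ B a K k ⊆ mov C C' (B.i k) a := by
  rintro z ⟨hz, y, hy, hyz⟩
  refine ⟨hKt hz, ?_⟩
  rw [← hyz]
  exact (C.e (B.i k)).map_target (B.sub k hy)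

/-- **TRANSFER** -/
theorem transfer (hC : Cmp C C') (B : Bc C) (μ : Measure V) [μ.IsAddHaarMeasure] (ν : Measure W)
    [ν.IsAddHaarMeasure] (L : V ≃L[ℝ] W) (a : C'.ι) {K : Set W} (hK : IsCompact K)
    (hKt : K ⊆ (C'.e a).target) :
    ∃ c : ℝ≥0, ∀ (f0 : W → ℝ≥0∞) (f : B.κ → V → ℝ≥0∞),
      (∀ k, ∀ z ∈ mov C C' (B.i k) a, z ∈ K → mt C C' (B.i k) a z ∈ closedBall (B.z k) (B.r k) →
        f0 z ≤ (1 + ‖fderiv ℝ (mt C C' (B.i k) a) z‖ₑ) ^ 2 * f k (mt C C' (B.i k) a z)) →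
      ∫⁻ z in K, f0 z ∂ν ≤ c * ∑ k, ∫⁻ y in closedBall (B.z k) (B.r k), f k y ∂μ := by
  classical
  obtain ⟨c0, hc0⟩ := lintegral_image_le μ ν L
  -- bounds on the compact sets
  have hb1 : ∀ k, ∃ b : ℝ≥0, ∀ z ∈ QQ B a K k, ‖fderiv ℝ (mt C C' (B.i k) a) z‖ₑ ≤ b := by
    intro k
    have h1 : ContinuousOn (fderiv ℝ (mt C C' (B.i k) a)) (mov C C' (B.i k) a) :=
      ((hC.s (B.i k) a).continuousOn_fderiv_of_isOpen (Cmp.isOpen_mov _ _ _ _) (by simp))
    obtain ⟨b, hb⟩ := (isCompact_QQ B hK hKt k).exists_bound_of_continuousOn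
      (h1.mono (QQ_sub B hKt k))
    refine ⟨Real.toNNReal b, fun z hz => ?_⟩
    rw [← ofReal_norm]
    exact ENNReal.ofReal_le_ofReal (hb z hz)
  have hb2 : ∀ k, ∃ b : ℝ≥0, ∀ z ∈ QQ B a K k,
      |((L.symm : W →L[ℝ] V).comp (fderiv ℝ (mt C' C a (B.i k)) (mt C C' (B.i k) a z))).det| ≤
        b := by
    intro k
    have h0 : ContinuousOn (fderiv ℝ (mt C' C a (B.i k))) (mov C' C a (B.i k)) :=
      ((hC.s' (B.i k) a).continuousOn_fderiv_of_isOpen (Cmp.isOpen_mov _ _ _ _) (by simp))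
    have h1 : ContinuousOn (fun z => fderiv ℝ (mt C' C a (B.i k)) (mt C C' (B.i k) a z))
        (mov C C' (B.i k) a) :=
      h0.comp (hC.s (B.i k) a).continuousOn fun z hz => Cmp.mt_mem hz
    have h2 : ContinuousOn (fun z =>
        ((L.symm : W →L[ℝ] V).comp (fderiv ℝ (mt C' C a (B.i k)) (mt C C' (B.i k) a z))).det)
        (mov C C' (B.i k) a) :=
      ContinuousLinearMap.continuous_det.comp_continuousOn (continuousOn_const.clm_comp h1)
    obtain ⟨b, hb⟩ := (isCompact_QQ B hK hKt k).exists_bound_of_continuousOn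
      (h2.mono (QQ_sub B hKt k))
    refine ⟨Real.toNNReal b, fun z hz => ?_⟩
    exact (hb z hz).trans (Real.le_coe_toNNReal b)
  choose b1 hb1 using hb1
  choose b2 hb2 using hb2
  refine ⟨c0 * ∑ k, b2 k * (1 + b1 k) ^ 2, fun f0 f hf => ?_⟩
  -- the pieces
  set S : B.κ → Set W := fun k =>
    K ∩ (mov C C' (B.i k) a ∩ mt C C' (B.i k) a ⁻¹' ball (B.z k) (B.r k)) with hS
  have hopen : ∀ k, IsOpen (mov C C' (B.i k) a ∩ mt C C' (B.i k) a ⁻¹' ball (B.z k) (B.r k)) :=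
    fun k => (hC.s (B.i k) a).continuousOn.isOpen_inter_preimage (Cmp.isOpen_mov _ _ _ _)
      isOpen_ball
  have hSm : ∀ k, MeasurableSet (S k) := fun k => hK.measurableSet.inter (hopen k).measurableSet
  have hSQ : ∀ k, S k ⊆ QQ B a K k := by
    rintro k z ⟨hz, hz1, hz2⟩
    refine ⟨hz, ?_⟩
    refine ⟨mt C C' (B.i k) a z, ball_subset_closedBall hz2, ?_⟩
    exact (C.e (B.i k)).left_inv hz1.2
  have hcov : K ⊆ ⋃ k, S k := by
    intro z hz
    obtain ⟨k, hk1, hk2⟩ := B.cov ((C'.e a).symm z)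
    exact mem_iUnion.2 ⟨k, hz, ⟨hKt hz, hk1⟩, hk2⟩
  have h1 : ∫⁻ z in K, f0 z ∂ν ≤ ∑ k, ∫⁻ z in S k, f0 z ∂ν := by
    refine (lintegral_mono_set hcov).trans ?_
    refine (lintegral_iUnion_le S f0).trans ?_
    rw [tsum_fintype]
  refine h1.trans ?_
  have h2 : ∀ k, ∫⁻ z in S k, f0 z ∂ν ≤
      (c0 * (b2 k * (1 + b1 k) ^ 2) : ℝ≥0) * ∫⁻ y in closedBall (B.z k) (B.r k), f k y ∂μ := by
    intro k
    set τ := mt C' C a (B.i k) with hτ
    set T : Set V := mt C C' (B.i k) a '' S k with hT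
    have hTeq : T = (mov C' C a (B.i k) ∩ ball (B.z k) (B.r k)) ∩ τ ⁻¹' K := by
      ext y
      constructor
      · rintro ⟨z, ⟨hz, hz1, hz2⟩, rfl⟩
        refine ⟨⟨Cmp.mt_mem hz1, hz2⟩, ?_⟩
        show mt C' C a (B.i k) (mt C C' (B.i k) a z) ∈ K
        rw [Cmp.mt_mt hz1]
        exact hz
      · rintro ⟨⟨hy1, hy2⟩, hy3⟩
        have h5 : mt C C' (B.i k) a (τ y) = y := Cmp.mt_mt (C := C') (C' := C) hy1
        refine ⟨τ y, ⟨hy3, Cmp.mt_mem (C := C') (C' := C) hy1, ?_⟩, h5⟩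
        show mt C C' (B.i k) a (τ y) ∈ ball (B.z k) (B.r k)
        rw [h5]
        exact hy2
    have hO : IsOpen (mov C' C a (B.i k) ∩ ball (B.z k) (B.r k)) :=
      (Cmp.isOpen_mov _ _ _ _).inter isOpen_ball
    have hτc : ContinuousOn τ (mov C' C a (B.i k) ∩ ball (B.z k) (B.r k)) :=
      (hC.s' (B.i k) a).continuousOn.mono inter_subset_left
    have hTm : MeasurableSet T := by
      rw [hTeq]
      obtain ⟨u, hu, hu2⟩ := (continuousOn_iff_isClosed.1 hτc) K hK.isClosed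
      rw [inter_comm, hu2]
      exact hu.measurableSet.inter hO.measurableSet
    have hTsub : T ⊆ mov C' C a (B.i k) := by
      rw [hTeq]; exact inter_subset_left.trans inter_subset_left
    have hTball : T ⊆ closedBall (B.z k) (B.r k) := by
      rw [hTeq]
      exact inter_subset_left.trans (inter_subset_right.trans ball_subset_closedBall)
    have himg : τ '' T = S k := by
      rw [hT, image_image]
      have : ∀ z ∈ S k, mt C' C a (B.i k) (mt C C' (B.i k) a z) = z := fun z hz =>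
        Cmp.mt_mt hz.2.1
      exact (image_congr this).trans (image_id _)
    have hinj : InjOn τ T := by
      intro y hy y' hy' h
      have e1 : mt C C' (B.i k) a (τ y) = y := Cmp.mt_mt (C := C') (C' := C) (hTsub hy)
      have e2 : mt C C' (B.i k) a (τ y') = y' := Cmp.mt_mt (C := C') (C' := C) (hTsub hy')
      rw [← e1, h, e2]
    have hQ : ∀ y ∈ T, τ y ∈ S k := fun y hy => himg ▸ mem_image_of_mem τ hy
    have h6 := hc0 T τ (b2 k) hTm (fun y hy => hC.symm.diff (hTsub hy)) hinj (by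
      intro y hy
      have h7 := hb2 k (τ y) (hSQ k (hQ y hy))
      have h8 : mt C C' (B.i k) a (τ y) = y := Cmp.mt_mt (C := C') (C' := C) (hTsub hy)
      rw [h8] at h7
      exact h7) f0
    rw [himg] at h6
    refine h6.trans ?_
    have h9 : ∫⁻ y in T, f0 (τ y) ∂μ ≤ ((1 + b1 k) ^ 2 : ℝ≥0) *
        ∫⁻ y in closedBall (B.z k) (B.r k), f k y ∂μ := by
      have h10 : ∀ y ∈ T, f0 (τ y) ≤ ((1 + b1 k) ^ 2 : ℝ≥0) * f k y := by
        intro y hy
        have h8 : mt C C' (B.i k) a (τ y) = y := Cmp.mt_mt (C := C') (C' := C) (hTsub hy)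
        have h11 := hf k (τ y) (hQ y hy).2.1 (hQ y hy).1 (by rw [h8]; exact hTball hy)
        rw [h8] at h11
        refine h11.trans (mul_le_mul_left ?_ _)
        have h12 := hb1 k (τ y) (hSQ k (hQ y hy))
        push_cast
        gcongr
      refine (setLIntegral_mono' hTm h10).trans ?_
      rw [lintegral_const_mul' _ _ ENNReal.coe_ne_top]
      gcongr
    calc (c0 : ℝ≥0∞) * b2 k * ∫⁻ y in T, f0 (τ y) ∂μ
        ≤ c0 * b2 k * (((1 + b1 k) ^ 2 : ℝ≥0) *
          ∫⁻ y in closedBall (B.z k) (B.r k), f k y ∂μ) := by gcongr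
      _ = _ := by
        push_cast
        ring
  refine (Finset.sum_le_sum fun k _ => h2 k).trans ?_
  rw [Finset.mul_sum]
  refine Finset.sum_le_sum fun k _ => ?_
  refine mul_le_mul_left ?_ _
  refine ENNReal.coe_le_coe.2 (mul_le_mul_right ?_ _)
  exact Finset.single_le_sum (f := fun k => b2 k * (1 + b1 k) ^ 2) (fun _ _ => zero_le)
    (Finset.mem_univ k)

end tr

end

end Crest.Agent.R281.Hy_409
end

-- ▼ part R281/Hy2_409
section

/-!
# R281 (S0424), H0-OP, second road (helper409), part 2: Garding with frozen coefficients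

`w : V → ℂ` smooth with compact support:

* `frozen`   : `∫ ‖∂_v w + i ∂_v' w‖² = ∫ ‖∂_v w‖² + ∫ ‖∂_v' w‖²` (constant `v, v'`)
* `garding0` : `∫ ‖dw‖² ≤ K ∫ ‖dw + i dw ∘ J‖²` if `‖J - J0‖ ≤ η` on the support of `w`
-/

set_option autoImplicit false
set_option linter.unusedSectionVars false

open Set Filter Topology MeasureTheory Metric Complex
open scoped ContDiff ENNReal NNReal ComplexConjugate

namespace Crest.Agent.R281.Hy_409

noncomputable section

section alg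

variable {V : Type} [NormedAddCommGroup V] [NormedSpace ℝ V]

/-- the operator `dw + i dw ∘ J` -/
def dbJ (T : V →L[ℝ] ℂ) (J : V →L[ℝ] V) : V →L[ℝ] ℂ := T + I • T.comp J

@[simp] theorem dbJ_apply (T : V →L[ℝ] ℂ) (J : V →L[ℝ] V) (v : V) :
    dbJ T J v = T v + I * T (J v) := rfl

theorem dbJ_add (T T' : V →L[ℝ] ℂ) (J : V →L[ℝ] V) : dbJ (T + T') J = dbJ T J + dbJ T' J := by
  ext v
  simp only [dbJ_apply, add_apply]
  ring

theorem dbJ_smul (c : ℂ) (T : V →L[ℝ] ℂ) (J : V →L[ℝ] V) : dbJ (c • T) J = c • dbJ T J := by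
  ext v
  simp only [dbJ_apply, smul_apply, smul_eq_mul]
  ring

theorem dbJ_cont {T : V → V →L[ℝ] ℂ} {J : V → V →L[ℝ] V} {S : Set V} (hT : ContinuousOn T S)
    (hJ : ContinuousOn J S) : ContinuousOn (fun z => dbJ (T z) (J z)) S :=
  hT.add ((hT.clm_comp hJ).const_smul Complex.I)

end alg

variable {V : Type} [NormedAddCommGroup V] [NormedSpace ℝ V] [FiniteDimensional ℝ V]
  [MeasurableSpace V] [BorelSpace V] (μ : Measure V) [μ.IsAddHaarMeasure]

theorem dir_cont {w : V → ℂ} (hw : ContDiff ℝ ∞ w) (v : V) :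
    Continuous fun x => fderiv ℝ w x v :=
  (hw.continuous_fderiv (by simp)).clm_apply continuous_const

theorem dir_supp {w : V → ℂ} (hc : HasCompactSupport w) (v : V) :
    HasCompactSupport fun x => fderiv ℝ w x v :=
  (hc.fderiv ℝ).comp_left (g := fun T : V →L[ℝ] ℂ => T v) (by simp)

theorem sq_int {E : Type*} [NormedAddCommGroup E] {f : V → E} (hf : Continuous f)
    (hc : HasCompactSupport f) : Integrable (fun x => ‖f x‖ ^ 2) μ := by
  have h1 : Continuous fun x => ‖f x‖ ^ 2 := hf.norm.pow 2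
  have h2 : HasCompactSupport fun x => ‖f x‖ ^ 2 := by
    refine hc.mono' ?_
    intro x hx
    refine subset_tsupport _ ?_
    intro h
    apply hx
    simp [h]
  exact h1.integrable_of_hasCompactSupport h2

theorem lint_sq {E : Type*} [NormedAddCommGroup E] {f : V → E} (hf : Continuous f)
    (hc : HasCompactSupport f) :
    ∫⁻ x, ‖f x‖ₑ ^ 2 ∂μ = ENNReal.ofReal (∫ x, ‖f x‖ ^ 2 ∂μ) := by
  rw [ofReal_integral_eq_lintegral_ofReal (sq_int μ hf hc)
    (Eventually.of_forall fun x => by positivity)]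
  refine lintegral_congr fun x => ?_
  rw [ENNReal.ofReal_pow (norm_nonneg _), ofReal_norm]

/-- the mixed integral is real -/
theorem im_zero {w : V → ℂ} (hw : ContDiff ℝ ∞ w) (hc : HasCompactSupport w) (v v' : V) :
    (∫ x, fderiv ℝ w x v * conj (fderiv ℝ w x v') ∂μ).im = 0 := by
  have hd : ∀ x, DifferentiableAt ℝ w x := fun x => (hw.differentiable (by simp)) x
  have hd2 : ContDiff ℝ ∞ (fderiv ℝ w) := hw.fderiv_right (by simp)
  have hdir : ∀ u : V, ContDiff ℝ ∞ fun x => fderiv ℝ w x u := fun u =>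
    hd2.clm_apply contDiff_const
  -- integration by parts
  have key : ∀ u u' : V, ∫ x, fderiv ℝ w x u * conj (fderiv ℝ w x u') ∂μ =
      -∫ x, w x * conj (fderiv ℝ (fderiv ℝ w) x u u') ∂μ := by
    intro u u'
    set g : V → ℂ := fun x => conj (fderiv ℝ w x u') with hg
    have hgd : ContDiff ℝ ∞ g := conjCLE.contDiff.comp (hdir u')
    have hg' : ∀ x, fderiv ℝ g x u = conj (fderiv ℝ (fderiv ℝ w) x u u') := by
      intro x
      have h1 : HasFDerivAt (fun x => fderiv ℝ w x u') _ x :=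
        ((hd2.differentiable (by simp)) x).hasFDerivAt.clm_apply (hasFDerivAt_const u' x)
      have h2 : HasFDerivAt g ((conjCLE : ℂ →L[ℝ] ℂ).comp _) x :=
        (conjCLE : ℂ →L[ℝ] ℂ).hasFDerivAt.comp x h1
      rw [h2.fderiv]
      simp
    have hgc : HasCompactSupport g := (dir_supp hc u').comp_left (g := conj) (by simp)
    have h3 := integral_mul_fderiv_eq_neg_fderiv_mul_of_integrable (μ := μ) (f := g) (g := w)
      (v := u) ?_ ?_ ?_ (fun x _ => (hgd.differentiable (by simp)) x)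
      (fun x _ => (hw.differentiable (by simp)) x)
    · have h4 : ∀ x, fderiv ℝ w x u * conj (fderiv ℝ w x u') = g x * fderiv ℝ w x u := fun x =>
        mul_comm _ _
      simp_rw [h4]
      rw [h3]
      congr 1
      refine integral_congr_ae (Eventually.of_forall fun x => ?_)
      simp only [hg']
      ring
    · exact ((dir_cont hgd u).mul hw.continuous).integrable_of_hasCompactSupport
        (hc.mul_left)
    · exact (hgd.continuous.mul (dir_cont hw u)).integrable_of_hasCompactSupport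
        (hgc.mul_right)
    · exact (hgd.continuous.mul hw.continuous).integrable_of_hasCompactSupport
        (hgc.mul_right)
  have hsym : ∀ x, fderiv ℝ (fderiv ℝ w) x v v' = fderiv ℝ (fderiv ℝ w) x v' v := fun x =>
    (hw.contDiffAt.isSymmSndFDerivAt (by
      rw [minSmoothness_of_isRCLikeNormedField]; exact WithTop.coe_le_coe.2 le_top)) v v'
  have h1 : ∫ x, fderiv ℝ w x v * conj (fderiv ℝ w x v') ∂μ =
      ∫ x, fderiv ℝ w x v' * conj (fderiv ℝ w x v) ∂μ := by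
    rw [key, key]
    simp_rw [hsym]
  have h2 : conj (∫ x, fderiv ℝ w x v * conj (fderiv ℝ w x v') ∂μ) =
      ∫ x, fderiv ℝ w x v' * conj (fderiv ℝ w x v) ∂μ := by
    rw [← integral_conj]
    refine integral_congr_ae (Eventually.of_forall fun x => ?_)
    simp only [map_mul, conj_conj]
    ring
  rw [← h1] at h2
  exact Complex.conj_eq_iff_im.1 h2

theorem norm_sq_add_I (a b : ℂ) :
    ‖a + I * b‖ ^ 2 = ‖a‖ ^ 2 + ‖b‖ ^ 2 + 2 * (a * conj b).im := by
  rw [← Complex.normSq_eq_norm_sq, ← Complex.normSq_eq_norm_sq, ← Complex.normSq_eq_norm_sq]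
  simp only [Complex.normSq_apply, Complex.add_re, Complex.add_im, Complex.mul_re, Complex.mul_im,
    Complex.I_re, Complex.I_im, Complex.conj_re, Complex.conj_im]
  ring

/-- **constant coefficients** -/
theorem frozen {w : V → ℂ} (hw : ContDiff ℝ ∞ w) (hc : HasCompactSupport w) (v v' : V) :
    ∫ x, ‖fderiv ℝ w x v + I * fderiv ℝ w x v'‖ ^ 2 ∂μ =
      ∫ x, ‖fderiv ℝ w x v‖ ^ 2 ∂μ + ∫ x, ‖fderiv ℝ w x v'‖ ^ 2 ∂μ := by
  have i1 : ∀ u : V, Integrable (fun x => ‖fderiv ℝ w x u‖ ^ 2) μ := fun u =>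
    sq_int μ (dir_cont hw u) (dir_supp hc u)
  have i2 : Integrable (fun x => fderiv ℝ w x v * conj (fderiv ℝ w x v')) μ :=
    ((dir_cont hw v).mul (continuous_conj.comp (dir_cont hw v'))).integrable_of_hasCompactSupport
      (dir_supp hc v).mul_right
  have i3 : Integrable (fun x => 2 * (fderiv ℝ w x v * conj (fderiv ℝ w x v')).im) μ :=
    i2.im.const_mul 2
  have i4 : Integrable (fun x => ‖fderiv ℝ w x v‖ ^ 2 + ‖fderiv ℝ w x v'‖ ^ 2) μ :=
    (i1 v).add (i1 v')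
  simp_rw [norm_sq_add_I]
  rw [integral_add i4 i3, integral_add (i1 v) (i1 v'), integral_const_mul]
  have h1 : ∫ x, (fderiv ℝ w x v * conj (fderiv ℝ w x v')).im ∂μ =
      (∫ x, fderiv ℝ w x v * conj (fderiv ℝ w x v') ∂μ).im := integral_im i2
  rw [h1, im_zero μ hw hc]
  ring

theorem frozen_le {w : V → ℂ} (hw : ContDiff ℝ ∞ w) (hc : HasCompactSupport w) (v v' : V) :
    ∫⁻ x, ‖fderiv ℝ w x v‖ₑ ^ 2 ∂μ ≤ ∫⁻ x, ‖fderiv ℝ w x v + I * fderiv ℝ w x v'‖ₑ ^ 2 ∂μ := by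
  have h1 : Continuous fun x => fderiv ℝ w x v + I * fderiv ℝ w x v' :=
    (dir_cont hw v).add (continuous_const.mul (dir_cont hw v'))
  have h2 : HasCompactSupport fun x => fderiv ℝ w x v + I * fderiv ℝ w x v' :=
    (dir_supp hc v).add (dir_supp hc v').mul_left
  rw [lint_sq μ (dir_cont hw v) (dir_supp hc v), lint_sq μ h1 h2, frozen μ hw hc]
  refine ENNReal.ofReal_le_ofReal (le_add_of_nonneg_right ?_)
  exact integral_nonneg fun x => by positivity

theorem sq_add_le (a b : ℝ≥0∞) : (a + b) ^ 2 ≤ 2 * a ^ 2 + 2 * b ^ 2 := by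
  have h := ENNReal.rpow_add_le_mul_rpow_add_rpow a b (p := 2) (by norm_num)
  norm_num at h
  rw [mul_add] at h
  exact h

/-- **Garding inequality with almost constant coefficients** -/
theorem garding0 : ∃ K : ℝ≥0, ∃ η : ℝ, 0 < η ∧ ∀ (J : V → V →L[ℝ] V) (J0 : V →L[ℝ] V) (w : V → ℂ),
    ContDiff ℝ ∞ w → HasCompactSupport w → (∀ y ∈ tsupport w, ‖J y - J0‖ ≤ η) →
    ∫⁻ x, ‖fderiv ℝ w x‖ₑ ^ 2 ∂μ ≤ K * ∫⁻ x, ‖dbJ (fderiv ℝ w x) (J x)‖ₑ ^ 2 ∂μ := by
  classical
  set d := Module.finrank ℝ V with hd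
  set b : Module.Basis (Fin d) ℝ V := Module.finBasis ℝ V with hb
  -- operator norm against the basis
  obtain ⟨Cb, hCb⟩ : ∃ Cb : ℝ≥0, ∀ T : V →L[ℝ] ℂ, ‖T‖ₑ ^ 2 ≤ Cb * ∑ a, ‖T (b a)‖ₑ ^ 2 := by
    obtain ⟨C, hC0, hC⟩ := b.exists_opNorm_le (F := ℂ)
    refine ⟨(Real.toNNReal C) ^ 2, fun T => ?_⟩
    have h1 : ‖T‖ ≤ C * √(∑ a, ‖T (b a)‖ ^ 2) := by
      refine hC (Real.sqrt_nonneg _) fun a => ?_
      refine Real.le_sqrt_of_sq_le ?_
      exact Finset.single_le_sum (f := fun a => ‖T (b a)‖ ^ 2) (fun _ _ => by positivity)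
        (Finset.mem_univ a)
    have h2 : ‖T‖ ^ 2 ≤ C ^ 2 * ∑ a, ‖T (b a)‖ ^ 2 := by
      have h3 := pow_le_pow_left₀ (norm_nonneg _) h1 2
      rwa [mul_pow, Real.sq_sqrt (Finset.sum_nonneg fun _ _ => by positivity)] at h3
    have h3 := ENNReal.ofReal_le_ofReal h2
    rw [ENNReal.ofReal_mul (by positivity), ENNReal.ofReal_pow (norm_nonneg _), ofReal_norm,
      ENNReal.ofReal_pow hC0.le, ENNReal.ofReal_sum_of_nonneg (fun _ _ => by positivity)] at h3
    refine h3.trans (le_of_eq ?_)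
    push_cast
    congr 1
    exact Finset.sum_congr rfl fun a _ => by rw [ENNReal.ofReal_pow (norm_nonneg _), ofReal_norm]
  set S : ℝ≥0 := ∑ a, ‖b a‖₊ ^ 2 with hS
  set K0 : ℝ≥0 := 2 * Cb * S with hK0
  -- choice of eta
  obtain ⟨η, hη, hKη⟩ : ∃ η : ℝ≥0, 0 < η ∧ K0 * η ^ 2 ≤ 1 / 2 := by
    refine ⟨1 / (2 * K0 + 2), by positivity, ?_⟩
    have h1 : (0 : ℝ≥0) < 2 * K0 + 2 := by positivity
    rw [← NNReal.coe_le_coe]
    push_cast
    have h2 : (0 : ℝ) ≤ (K0 : ℝ) := K0.2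
    rw [div_pow, one_pow, mul_one_div, div_le_iff₀ (by positivity)]
    nlinarith
  refine ⟨2 * K0, η, by exact_mod_cast hη, fun J J0 w hw hc hJ => ?_⟩
  set A := ∫⁻ x, ‖fderiv ℝ w x‖ₑ ^ 2 ∂μ with hA
  set Bq := ∫⁻ x, ‖dbJ (fderiv ℝ w x) (J x)‖ₑ ^ 2 ∂μ with hBq
  have hmeas : Measurable fun x => ‖fderiv ℝ w x‖ₑ ^ 2 :=
    ((hw.continuous_fderiv (by simp)).enorm.measurable).pow_const 2
  have hAfin : A ≠ ⊤ := by
    rw [hA, lint_sq μ (hw.continuous_fderiv (by simp)) (hc.fderiv ℝ)]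
    exact ENNReal.ofReal_ne_top
  -- one direction
  have h1 : ∀ a, ∫⁻ x, ‖fderiv ℝ w x (b a)‖ₑ ^ 2 ∂μ ≤
      2 * (‖b a‖₊ ^ 2 : ℝ≥0) * Bq + 2 * (‖b a‖₊ ^ 2 : ℝ≥0) * η ^ 2 * A := by
    intro a
    refine (frozen_le μ hw hc (b a) (J0 (b a))).trans ?_
    have h2 : ∀ x, ‖fderiv ℝ w x (b a) + I * fderiv ℝ w x (J0 (b a))‖ₑ ^ 2 ≤
        2 * (‖b a‖₊ ^ 2 : ℝ≥0) * ‖dbJ (fderiv ℝ w x) (J x)‖ₑ ^ 2 +
          2 * (‖b a‖₊ ^ 2 : ℝ≥0) * η ^ 2 * ‖fderiv ℝ w x‖ₑ ^ 2 := by
      intro x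
      by_cases hx : x ∈ tsupport w
      · have e1 : fderiv ℝ w x (b a) + I * fderiv ℝ w x (J0 (b a)) =
            dbJ (fderiv ℝ w x) (J x) (b a) - I * fderiv ℝ w x ((J x - J0) (b a)) := by
          rw [dbJ_apply, sub_apply, map_sub]
          ring
        rw [e1]
        have e2 : ‖dbJ (fderiv ℝ w x) (J x) (b a) - I * fderiv ℝ w x ((J x - J0) (b a))‖ₑ ≤
            ‖dbJ (fderiv ℝ w x) (J x)‖ₑ * ‖b a‖ₑ + ‖fderiv ℝ w x‖ₑ * (η * ‖b a‖ₑ) := by
          refine enorm_sub_le.trans (add_le_add (ContinuousLinearMap.le_opENorm _ _) ?_)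
          rw [enorm_mul]
          have e3 : ‖I‖ₑ = 1 := by rw [← ofReal_norm, norm_I, ENNReal.ofReal_one]
          rw [e3, one_mul]
          refine (ContinuousLinearMap.le_opENorm _ _).trans ?_
          gcongr
          refine (ContinuousLinearMap.le_opENorm _ _).trans ?_
          gcongr
          rw [← ofReal_norm, ← ENNReal.ofReal_coe_nnreal]
          exact ENNReal.ofReal_le_ofReal (hJ x hx)
        refine (pow_le_pow_left' e2 2).trans ((sq_add_le _ _).trans (le_of_eq ?_))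
        rw [mul_pow, mul_pow, mul_pow]
        push_cast
        simp only [enorm_eq_nnnorm]
        ring
      · have e1 : fderiv ℝ w x = 0 := by
          by_contra h
          exact hx (support_fderiv_subset ℝ h)
        rw [e1]
        simp
    refine (lintegral_mono h2).trans ?_
    rw [lintegral_add_right _ (hmeas.const_mul _)]
    refine add_le_add ?_ ?_
    · rw [lintegral_const_mul']
      exact ENNReal.mul_ne_top (by norm_num) ENNReal.coe_ne_top
    · rw [lintegral_const_mul _ hmeas]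
  have h3 : A ≤ Cb * ∑ a, ∫⁻ x, ‖fderiv ℝ w x (b a)‖ₑ ^ 2 ∂μ := by
    have hm : ∀ a, Measurable fun x => ‖fderiv ℝ w x (b a)‖ₑ ^ 2 := fun a =>
      (dir_cont hw (b a)).enorm.measurable.pow_const 2
    rw [← lintegral_finsetSum _ fun a _ => hm a, ← lintegral_const_mul' _ _ ENNReal.coe_ne_top]
    exact lintegral_mono fun x => hCb _
  have h4 : A ≤ K0 * Bq + A / 2 := by
    refine h3.trans ?_
    calc (Cb : ℝ≥0∞) * ∑ a, ∫⁻ x, ‖fderiv ℝ w x (b a)‖ₑ ^ 2 ∂μ
        ≤ Cb * ∑ a, (2 * (‖b a‖₊ ^ 2 : ℝ≥0) * Bq + 2 * (‖b a‖₊ ^ 2 : ℝ≥0) * η ^ 2 * A) := by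
          gcongr with a
          exact h1 a
      _ = K0 * Bq + (K0 * η ^ 2 : ℝ≥0) * A := by
          rw [Finset.sum_add_distrib, hK0, hS]
          push_cast
          simp only [← Finset.sum_mul, ← Finset.mul_sum]
          ring
      _ ≤ K0 * Bq + A / 2 := by
          gcongr
          have h5 : ((K0 * η ^ 2 : ℝ≥0) : ℝ≥0∞) ≤ ((1 / 2 : ℝ≥0) : ℝ≥0∞) :=
            ENNReal.coe_le_coe.2 hKη
          rw [ENNReal.div_eq_inv_mul]
          refine mul_le_mul_left (h5.trans (le_of_eq ?_)) _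
          simp
  have h5 : A / 2 + A / 2 ≤ K0 * Bq + A / 2 := by rwa [ENNReal.add_halves]
  have h6 : A / 2 ≤ K0 * Bq :=
    (ENNReal.add_le_add_iff_right (ENNReal.div_ne_top hAfin (by norm_num))).1 h5
  calc A = 2 * (A / 2) := by rw [two_mul, ENNReal.add_halves]
    _ ≤ 2 * (K0 * Bq) := by gcongr
    _ = _ := by push_cast; ring

end

end Crest.Agent.R281.Hy_409
end

-- ▼ part R281/Hy3_409
section

/-!
# R281 (S0424), H0-OP, second road (helper409), part 3: GARDING for sections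

* `DL s i z`  : covariant derivative as an element of `V →L[ℝ] ℂ`
* `N0, N1, NJ`: `∑ₖ ∫⁻` over the cells of `‖u‖²`, `‖Du‖²`, `‖Du + i Du ∘ J‖²`
* `refine_bc` : refinement of a family of cells
* `garding`   : `N1 s ≤ c (NJ s + N0 s)` for every continuous field `J`
-/

set_option autoImplicit false
set_option linter.unusedSectionVars false
set_option maxSynthPendingDepth 3

open Set Filter Topology MeasureTheory Metric
open scoped ContDiff ENNReal NNReal

namespace Crest.Agent.R281.Hy_409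

open Crest.Agent.R281.HkR_835 Crest.Agent.R281.Ti_846 Crest.Agent.R281.PL_713

noncomputable section

variable {V X : Type} [NormedAddCommGroup V] [NormedSpace ℝ V] [TopologicalSpace X] {C : RCh V X}

/-- a real covector as a complex valued one -/
def cof (a : V →L[ℝ] ℝ) : V →L[ℝ] ℂ := Complex.ofRealCLM.comp a

@[simp] theorem cof_apply (a : V →L[ℝ] ℝ) (v : V) : cof a v = ((a v : ℝ) : ℂ) := rfl

/-- covariant derivative -/
def DL {L : PL C} (s : Sec L) (i : C.ι) (z : V) : V →L[ℝ] ℂ :=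
  fderiv ℝ (s.u i) z + (Complex.I * s.u i z) • cof (L.th i z)

theorem DL_apply {L : PL C} (s : Sec L) (i : C.ι) (z v : V) : DL s i z v = s.D i z v := by
  show fderiv ℝ (s.u i) z v + (Complex.I * s.u i z) • ((L.th i z v : ℝ) : ℂ) = _
  rw [Sec.D, smul_eq_mul]
  ring

theorem db_eq {L : PL C} (s : Sec L) (J : C.ι → V → V →L[ℝ] V) (i : C.ι) (z v : V) :
    dbJ (DL s i z) (J i z) v = s.db J i z v := by
  rw [dbJ_apply, DL_apply, DL_apply]
  rfl

theorem cof_cont {f : V → V →L[ℝ] ℝ} {S : Set V} (hf : ContinuousOn f S) :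
    ContinuousOn (fun z => cof (f z)) S :=
  continuousOn_const.clm_comp hf

theorem DL_cont {L : PL C} (s : Sec L) (i : C.ι) : ContinuousOn (DL s i) (C.e i).target := by
  have h1 : ContinuousOn (fderiv ℝ (s.u i)) (C.e i).target :=
    (s.sm i).continuousOn_fderiv_of_isOpen (C.e i).open_target (by simp)
  exact h1.add ((continuousOn_const.mul (s.sm i).continuousOn).smul
    (cof_cont (L.th_sm i).continuousOn))




theorem u_norm_tr {L : PL C} (s : Sec L) {i j : C.ι} {z : V} (hz : z ∈ C.ov i j) :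
    ‖s.u i z‖ = ‖s.u j (C.t i j z)‖ := by
  rw [s.tr i j z hz, norm_mul, L.unit i j z hz, one_mul]

theorem DL_norm_tr {L : PL C} (s : Sec L) {i j : C.ι} {z : V} (hz : z ∈ C.ov i j) :
    ‖DL s i z‖ ≤ ‖DL s j (C.t i j z)‖ * ‖fderiv ℝ (C.t i j) z‖ := by
  refine ContinuousLinearMap.opNorm_le_bound _ (by positivity) fun v => ?_
  rw [DL_apply, s.D_tr hz, norm_mul, L.unit i j z hz, one_mul, ← DL_apply, mul_assoc]
  exact (ContinuousLinearMap.le_opNorm _ _).trans
    (mul_le_mul_of_nonneg_left (ContinuousLinearMap.le_opNorm _ _) (norm_nonneg _))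

section norms

variable [MeasurableSpace V] (B : Bc C) (μ : Measure V) {L : PL C}

/-- `L²` norm squared over the cells -/
def N0 (s : Sec L) : ℝ≥0∞ := ∑ k, ∫⁻ z in closedBall (B.z k) (B.r k), ‖s.u (B.i k) z‖ₑ ^ 2 ∂μ

/-- `L²` norm squared of the covariant derivative -/
def N1 (s : Sec L) : ℝ≥0∞ := ∑ k, ∫⁻ z in closedBall (B.z k) (B.r k), ‖DL s (B.i k) z‖ₑ ^ 2 ∂μ

/-- `L²` norm squared of `Du + i Du ∘ J` -/
def NJ (J : C.ι → V → V →L[ℝ] V) (s : Sec L) : ℝ≥0∞ :=
  ∑ k, ∫⁻ z in closedBall (B.z k) (B.r k), ‖dbJ (DL s (B.i k) z) (J (B.i k) z)‖ₑ ^ 2 ∂μ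

end norms

/-! ### refinement -/

section ref

variable [CompactSpace X]

theorem refine_bc (B : Bc C) (P : B.κ → V → ℝ → Prop)
    (hP : ∀ k, ∀ z ∈ ball (B.z k) (B.r k), ∃ δ > 0,
      closedBall z (2 * δ) ⊆ ball (B.z k) (B.r k) ∧ P k z δ) :
    ∃ (B' : Bc C) (q : B'.κ → B.κ), (∀ k, B'.i k = B.i (q k)) ∧
      (∀ k, closedBall (B'.z k) (2 * B'.r k) ⊆ ball (B.z (q k)) (B.r (q k))) ∧
      (∀ k, 0 < B'.r k) ∧ ∀ k, P (q k) (B'.z k) (B'.r k) := by
  classical
  choose k hk1 hk2 using B.cov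
  have h := fun x => hP (k x) (C.e (B.i (k x)) x) (hk2 x)
  choose δ hδ hsub hPδ using h
  have hopen : ∀ x, IsOpen ((C.e (B.i (k x))).source ∩
      C.e (B.i (k x)) ⁻¹' ball (C.e (B.i (k x)) x) (δ x)) := fun x =>
    (C.e (B.i (k x))).isOpen_inter_preimage isOpen_ball
  obtain ⟨T, hT⟩ := isCompact_univ.elim_finite_subcover _ hopen
    (fun x _ => mem_iUnion.2 ⟨x, hk1 x, mem_ball_self (hδ x)⟩)
  refine ⟨{ κ := T, fin := inferInstance, i := fun x => B.i (k x),
            z := fun x => C.e (B.i (k x)) x, r := fun x => δ x,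
            sub := fun x => ?_, cov := fun x => ?_ }, fun x => k x, fun x => rfl,
            fun x => hsub x, fun x => hδ x, fun x => hPδ x⟩
  · have h1 := hsub x
    have h2 := hδ (x : X)
    refine (closedBall_subset_closedBall (by linarith)).trans (h1.trans ?_)
    exact ball_subset_closedBall.trans (B.sub _)
  · have h1 := hT (mem_univ x)
    rw [mem_iUnion₂] at h1
    obtain ⟨y, hy, hxy1, hxy2⟩ := h1
    exact ⟨⟨y, hy⟩, hxy1, hxy2⟩

end ref

/-! ### one chart -/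

section one

variable [FiniteDimensional ℝ V] [MeasurableSpace V] [BorelSpace V] (μ : Measure V)
  [μ.IsAddHaarMeasure]

/-- cut-off of a function smooth near the support of the bump function -/
theorem cut_smooth {z0 : V} (χ : ContDiffBump z0) {u : V → ℂ} {O : Set V} (hO : IsOpen O)
    (hu : ContDiffOn ℝ ∞ u O) (hs : closedBall z0 χ.rOut ⊆ O) :
    ContDiff ℝ ∞ fun z => (χ z : ℂ) * u z := by
  rw [contDiff_iff_contDiffAt]
  intro z
  by_cases hz : z ∈ O
  · have h1 : ContDiffAt ℝ ∞ (fun z => (χ z : ℂ)) z :=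
      Complex.ofRealCLM.contDiff.contDiffAt.comp z χ.contDiff.contDiffAt
    exact h1.mul (hu.contDiffAt (hO.mem_nhds hz))
  · have h1 : (fun z => (χ z : ℂ) * u z) =ᶠ[𝓝 z] fun _ => 0 := by
      have h2 : z ∉ closedBall z0 χ.rOut := fun h => hz (hs h)
      filter_upwards [isClosed_closedBall.isOpen_compl.mem_nhds h2] with y hy
      have h3 : χ y = 0 := χ.zero_of_le_dist (by
        have : ¬ dist y z0 ≤ χ.rOut := hy
        linarith)
      rw [h3]
      simp
    exact contDiffAt_const.congr_of_eventuallyEq h1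

theorem cut_supp {z0 : V} (χ : ContDiffBump z0) (u : V → ℂ) :
    tsupport (fun z => (χ z : ℂ) * u z) ⊆ closedBall z0 χ.rOut := by
  refine closure_minimal ?_ isClosed_closedBall
  intro z hz
  by_contra h
  apply hz
  have h3 : χ z = 0 := χ.zero_of_le_dist (by
    have : ¬ dist z z0 ≤ χ.rOut := h
    linarith)
  show (χ z : ℂ) * u z = 0
  rw [h3]
  simp

theorem cut_cpt {z0 : V} (χ : ContDiffBump z0) (u : V → ℂ) :
    HasCompactSupport (fun z => (χ z : ℂ) * u z) :=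
  (isCompact_closedBall z0 χ.rOut).of_isClosed_subset (isClosed_tsupport _) (cut_supp χ u)

/-- derivative of the cut-off function -/
theorem cut_fderiv {z0 : V} (χ : ContDiffBump z0) {u : V → ℂ} {z : V}
    (hu : DifferentiableAt ℝ u z) :
    fderiv ℝ (fun z => (χ z : ℂ) * u z) z =
      (χ z : ℂ) • fderiv ℝ u z + u z • cof (fderiv ℝ χ z) := by
  have h1 : HasFDerivAt (fun z => (χ z : ℂ)) (cof (fderiv ℝ χ z)) z :=
    Complex.ofRealCLM.hasFDerivAt.comp z
      ((χ.contDiff (n := 1)).differentiable (by simp) z).hasFDerivAt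
  exact (h1.mul hu.hasFDerivAt).fderiv

theorem aem_sq {E : Type*} [NormedAddCommGroup E] {f : V → E} {K : Set V} (hK : IsCompact K)
    (hf : ContinuousOn f K) : AEMeasurable (fun z => ‖f z‖ₑ ^ 2) (μ.restrict K) := by
  have h1 : ContinuousOn (fun z => ‖f z‖ₑ) K := hf.enorm
  exact (h1.aemeasurable hK.measurableSet).pow_const 2

theorem int_le {E : Type*} [NormedAddCommGroup E] {f g : V → ℝ≥0∞} {h : V → E} {K : Set V}
    (hK : IsCompact K) (hh : ContinuousOn h K) {a b : ℝ≥0}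
    (H : ∀ z ∈ K, f z ≤ a * g z + b * ‖h z‖ₑ ^ 2) :
    ∫⁻ z in K, f z ∂μ ≤ a * ∫⁻ z in K, g z ∂μ + b * ∫⁻ z in K, ‖h z‖ₑ ^ 2 ∂μ := by
  refine (setLIntegral_mono' hK.measurableSet H).trans ?_
  rw [lintegral_add_right' _ ((aem_sq μ hK hh).const_mul _),
    lintegral_const_mul' _ _ ENNReal.coe_ne_top, lintegral_const_mul' _ _ ENNReal.coe_ne_top]

/-- **Garding in one small ball** -/
theorem garding_ball {K0 : ℝ≥0} {η : ℝ} (hG : ∀ (J : V → V →L[ℝ] V) (J0 : V →L[ℝ] V) (w : V → ℂ),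
    ContDiff ℝ ∞ w → HasCompactSupport w → (∀ y ∈ tsupport w, ‖J y - J0‖ ≤ η) →
    ∫⁻ x, ‖fderiv ℝ w x‖ₑ ^ 2 ∂μ ≤ K0 * ∫⁻ x, ‖dbJ (fderiv ℝ w x) (J x)‖ₑ ^ 2 ∂μ)
    {O : Set V} (hO : IsOpen O) {z0 : V} {δ : ℝ} (hδ : 0 < δ) (hs : closedBall z0 (2 * δ) ⊆ O)
    {J : V → V →L[ℝ] V} (hJ : ContinuousOn J O)
    (hJ0 : ∀ y ∈ closedBall z0 (2 * δ), ‖J y - J z0‖ ≤ η)
    {th : V → V →L[ℝ] ℝ} (hth : ContinuousOn th O) :
    ∃ c : ℝ≥0, ∀ u : V → ℂ, ContDiffOn ℝ ∞ u O →
      ∫⁻ z in closedBall z0 δ, ‖fderiv ℝ u z + (Complex.I * u z) • cof (th z)‖ₑ ^ 2 ∂μ ≤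
        c * (∫⁻ z in closedBall z0 (2 * δ),
          ‖dbJ (fderiv ℝ u z + (Complex.I * u z) • cof (th z)) (J z)‖ₑ ^ 2 ∂μ +
          ∫⁻ z in closedBall z0 (2 * δ), ‖u z‖ₑ ^ 2 ∂μ) := by
  set χ : ContDiffBump z0 := ⟨3 / 2 * δ, 2 * δ, by positivity, by linarith⟩ with hχ
  set K := closedBall z0 (2 * δ) with hK
  have hKc : IsCompact K := isCompact_closedBall _ _
  have hdχ : Continuous fun z => cof (fderiv ℝ χ z) :=
    continuous_const.clm_comp ((χ.contDiff (n := 1)).continuous_fderiv (by simp))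
  -- the zeroth order coefficient
  set m : V → V →L[ℝ] ℂ := fun z => cof (fderiv ℝ χ z) - ((χ z : ℂ) * Complex.I) • cof (th z)
    with hm
  have hmc : ContinuousOn m K := by
    have e1 : ContinuousOn (fun z => (χ z : ℂ) * Complex.I) K :=
      ((Complex.continuous_ofReal.comp χ.continuous).mul continuous_const).continuousOn
    have e2 : ContinuousOn (fun z => cof (th z)) K := cof_cont (hth.mono hs)
    exact hdχ.continuousOn.sub (e1.smul e2)
  obtain ⟨M, hM⟩ := hKc.exists_bound_of_continuousOn (dbJ_cont hmc (hJ.mono hs))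
  obtain ⟨M', hM'⟩ := hKc.exists_bound_of_continuousOn (cof_cont (hth.mono hs))
  set b : ℝ≥0 := 2 * Real.toNNReal M ^ 2 with hb
  set b' : ℝ≥0 := 2 * Real.toNNReal M' ^ 2 with hb'
  refine ⟨2 * K0 * (2 + b) + b', fun u hu => ?_⟩
  have hucont : ContinuousOn u K := hu.continuousOn.mono hs
  have hud : ∀ z ∈ K, DifferentiableAt ℝ u z := fun z hz =>
    (hu.contDiffAt (hO.mem_nhds (hs hz))).differentiableAt (by simp)
  set w : V → ℂ := fun z => (χ z : ℂ) * u z with hw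
  have hws : ContDiff ℝ ∞ w := cut_smooth χ hO hu hs
  have hwc : HasCompactSupport w := cut_cpt χ u
  have hwt : tsupport w ⊆ K := cut_supp χ u
  have h1 := hG J (J z0) w hws hwc fun y hy => hJ0 y (hwt hy)
  set a0 := ∫⁻ z in K, ‖dbJ (fderiv ℝ u z + (Complex.I * u z) • cof (th z)) (J z)‖ₑ ^ 2 ∂μ
    with ha0
  set a1 := ∫⁻ z in K, ‖u z‖ₑ ^ 2 ∂μ with ha1
  -- upper bound of the right hand side
  have h2 : ∫⁻ x, ‖dbJ (fderiv ℝ w x) (J x)‖ₑ ^ 2 ∂μ ≤ (2 : ℝ≥0) * a0 + b * a1 := by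
    have h3 : ∫⁻ x, ‖dbJ (fderiv ℝ w x) (J x)‖ₑ ^ 2 ∂μ =
        ∫⁻ x in K, ‖dbJ (fderiv ℝ w x) (J x)‖ₑ ^ 2 ∂μ := by
      rw [← lintegral_indicator hKc.measurableSet]
      refine lintegral_congr fun x => ?_
      by_cases hx : x ∈ K
      · rw [indicator_of_mem hx]
      · rw [indicator_of_notMem hx]
        have e1 : fderiv ℝ w x = 0 := by
          by_contra h
          exact hx (hwt (support_fderiv_subset ℝ h))
        rw [e1]
        have e2 : dbJ (0 : V →L[ℝ] ℂ) (J x) = 0 := by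
          ext v; simp
        rw [e2]
        simp
    rw [h3]
    refine int_le μ hKc hucont fun z hz => ?_
    have e1 : dbJ (fderiv ℝ w z) (J z) =
        (χ z : ℂ) • dbJ (fderiv ℝ u z + (Complex.I * u z) • cof (th z)) (J z) +
          u z • dbJ (m z) (J z) := by
      rw [← dbJ_smul, ← dbJ_smul, ← dbJ_add]
      congr 1
      rw [hw, cut_fderiv χ (hud z hz), hm]
      ext v
      simp only [add_apply, smul_apply, sub_apply, smul_eq_mul]
      ring
    rw [e1]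
    have e2 : ‖(χ z : ℂ) • dbJ (fderiv ℝ u z + (Complex.I * u z) • cof (th z)) (J z) +
        u z • dbJ (m z) (J z)‖ₑ ≤
        ‖dbJ (fderiv ℝ u z + (Complex.I * u z) • cof (th z)) (J z)‖ₑ +
          Real.toNNReal M * ‖u z‖ₑ := by
      refine (enorm_add_le _ _).trans (add_le_add ?_ ?_)
      · rw [enorm_smul]
        refine mul_le_of_le_one_left (zero_le) ?_
        rw [← ofReal_norm, Complex.norm_real, Real.norm_eq_abs, abs_of_nonneg χ.nonneg]
        exact ENNReal.ofReal_le_one.2 χ.le_one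
      · rw [enorm_smul, mul_comm]
        refine mul_le_mul_left ?_ _
        rw [← ofReal_norm]
        exact ENNReal.ofReal_le_ofReal (hM z hz)
    refine (pow_le_pow_left' e2 2).trans ((sq_add_le _ _).trans (le_of_eq ?_))
    rw [hb]
    push_cast
    ring
  -- lower bound of the left hand side
  have h4 : ∫⁻ z in closedBall z0 δ, ‖fderiv ℝ u z + (Complex.I * u z) • cof (th z)‖ₑ ^ 2 ∂μ ≤
      (2 : ℝ≥0) * ∫⁻ z in closedBall z0 δ, ‖fderiv ℝ w z‖ₑ ^ 2 ∂μ +
        b' * ∫⁻ z in closedBall z0 δ, ‖u z‖ₑ ^ 2 ∂μ := by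
    have hsub : closedBall z0 δ ⊆ K := closedBall_subset_closedBall (by linarith)
    refine int_le μ (isCompact_closedBall _ _) (hucont.mono hsub) fun z hz => ?_
    have e1 : fderiv ℝ w z = fderiv ℝ u z := by
      refine Filter.EventuallyEq.fderiv_eq ?_
      have h5 : z ∈ ball z0 (3 / 2 * δ) := by
        rw [mem_ball]
        have : dist z z0 ≤ δ := hz
        linarith
      filter_upwards [isOpen_ball.mem_nhds h5] with y hy
      have h6 : χ y = 1 := χ.one_of_mem_closedBall (ball_subset_closedBall hy)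
      show (χ y : ℂ) * u y = u y
      rw [h6]
      simp
    rw [e1]
    have e2 : ‖fderiv ℝ u z + (Complex.I * u z) • cof (th z)‖ₑ ≤
        ‖fderiv ℝ u z‖ₑ + Real.toNNReal M' * ‖u z‖ₑ := by
      refine (enorm_add_le _ _).trans (add_le_add le_rfl ?_)
      rw [enorm_smul, enorm_mul]
      have e3 : ‖Complex.I‖ₑ = 1 := by rw [← ofReal_norm, Complex.norm_I, ENNReal.ofReal_one]
      rw [e3, one_mul, mul_comm]
      refine mul_le_mul_left ?_ _
      rw [← ofReal_norm]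
      exact ENNReal.ofReal_le_ofReal (hM' z (hsub hz))
    refine (pow_le_pow_left' e2 2).trans ((sq_add_le _ _).trans (le_of_eq ?_))
    rw [hb']
    push_cast
    ring
  have hsub : closedBall z0 δ ⊆ K := closedBall_subset_closedBall (by linarith)
  have h5 : ∫⁻ z in closedBall z0 δ, ‖fderiv ℝ w z‖ₑ ^ 2 ∂μ ≤
      K0 * ((2 : ℝ≥0) * a0 + b * a1) :=
    (setLIntegral_le_lintegral _ _).trans (h1.trans (by gcongr))
  have h6 : ∫⁻ z in closedBall z0 δ, ‖u z‖ₑ ^ 2 ∂μ ≤ a1 := lintegral_mono_set hsub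
  calc _ ≤ (2 : ℝ≥0) * ∫⁻ z in closedBall z0 δ, ‖fderiv ℝ w z‖ₑ ^ 2 ∂μ +
        b' * ∫⁻ z in closedBall z0 δ, ‖u z‖ₑ ^ 2 ∂μ := h4
    _ ≤ (2 : ℝ≥0) * (K0 * ((2 : ℝ≥0) * a0 + b * a1)) + b' * a1 := by gcongr
    _ ≤ (2 : ℝ≥0) * (K0 * ((2 + b : ℝ≥0) * a0 + (2 + b : ℝ≥0) * a1)) +
        b' * (a0 + a1) := by
        gcongr
        · exact le_self_add
        · exact le_add_self
        · exact le_add_self
    _ = _ := by
        push_cast
        ring

end one

end

end Crest.Agent.R281.Hy_409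
end

-- ▼ part R281/Hy4_409
section

/-!
# R281 (S0424), H0-OP, second road (helper409), part 4: GARDING on the whole space

* `N_tr`    : the norms for two families of cells are equivalent
* `garding` : `N1 s ≤ c (NJ s + N0 s)` for every continuous field `J`
-/

set_option autoImplicit false
set_option linter.unusedSectionVars false
set_option maxSynthPendingDepth 3

open Set Filter Topology MeasureTheory Metric
open scoped ContDiff ENNReal NNReal

namespace Crest.Agent.R281.Hy_409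

open Crest.Agent.R281.HkR_835 Crest.Agent.R281.Ti_846 Crest.Agent.R281.PL_713

noncomputable section

variable {V X : Type} [NormedAddCommGroup V] [NormedSpace ℝ V] [FiniteDimensional ℝ V]
  [MeasurableSpace V] [BorelSpace V] [TopologicalSpace X] [CompactSpace X] [T2Space X]
  {C : RCh V X} (μ : Measure V) [μ.IsAddHaarMeasure]

theorem cmp_refl (C : RCh V X) : Cmp C C :=
  ⟨fun i j => RCh.t_smooth j i, fun i j => RCh.t_smooth i j⟩

/-- a quantity bounded under changes of charts is estimated over any family of cells -/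
theorem tr_gen (B B' : Bc C) : ∃ c : ℝ≥0, ∀ f : C.ι → V → ℝ≥0∞,
    (∀ i j, ∀ z ∈ C.ov i j, f i z ≤ (1 + ‖fderiv ℝ (C.t i j) z‖ₑ) ^ 2 * f j (C.t i j z)) →
    ∑ k, ∫⁻ z in closedBall (B.z k) (B.r k), f (B.i k) z ∂μ ≤
      c * ∑ k, ∫⁻ z in closedBall (B'.z k) (B'.r k), f (B'.i k) z ∂μ := by
  have h := fun k : B.κ => transfer (cmp_refl C) B' μ μ (ContinuousLinearEquiv.refl ℝ V) (B.i k)
    (isCompact_closedBall (B.z k) (B.r k)) (B.sub k)
  choose c hc using h
  refine ⟨∑ k, c k, fun f hf => ?_⟩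
  push_cast
  rw [Finset.sum_mul]
  refine Finset.sum_le_sum fun k _ => ?_
  exact hc k (f (B.i k)) (fun k' => f (B'.i k')) fun k' z hz _ _ => hf _ _ z hz

theorem u_w {L : PL C} (s : Sec L) (i j : C.ι) (z : V) (hz : z ∈ C.ov i j) :
    ‖s.u i z‖ₑ ^ 2 ≤ (1 + ‖fderiv ℝ (C.t i j) z‖ₑ) ^ 2 * ‖s.u j (C.t i j z)‖ₑ ^ 2 := by
  have h1 : ‖s.u i z‖ₑ = ‖s.u j (C.t i j z)‖ₑ := by
    rw [← ofReal_norm, ← ofReal_norm, u_norm_tr s hz]
  rw [h1]
  exact le_mul_of_one_le_left (zero_le) (one_le_pow_of_one_le' le_self_add 2)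

theorem DL_w {L : PL C} (s : Sec L) (i j : C.ι) (z : V) (hz : z ∈ C.ov i j) :
    ‖DL s i z‖ₑ ^ 2 ≤ (1 + ‖fderiv ℝ (C.t i j) z‖ₑ) ^ 2 * ‖DL s j (C.t i j z)‖ₑ ^ 2 := by
  rw [← mul_pow]
  refine pow_le_pow_left' ?_ 2
  have h1 : ‖DL s i z‖ₑ ≤ ‖fderiv ℝ (C.t i j) z‖ₑ * ‖DL s j (C.t i j z)‖ₑ := by
    rw [← ofReal_norm, ← ofReal_norm, ← ofReal_norm, ← ENNReal.ofReal_mul (norm_nonneg _),
      mul_comm ‖fderiv ℝ (C.t i j) z‖]
    exact ENNReal.ofReal_le_ofReal (DL_norm_tr s hz)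
  exact h1.trans (mul_le_mul_left le_add_self _)

theorem N_tr (B B' : Bc C) : ∃ c : ℝ≥0, ∀ (L : PL C) (s : Sec L),
    N0 B μ s ≤ c * N0 B' μ s ∧ N1 B μ s ≤ c * N1 B' μ s := by
  obtain ⟨c, hc⟩ := tr_gen μ B B'
  exact ⟨c, fun L s => ⟨hc (fun i z => ‖s.u i z‖ₑ ^ 2) (u_w s),
    hc (fun i z => ‖DL s i z‖ₑ ^ 2) (DL_w s)⟩⟩

theorem cell_le (B : Bc C) (f : B.κ → V → ℝ≥0∞) (k : B.κ) {K : Set V}
    (hK : K ⊆ closedBall (B.z k) (B.r k)) :
    ∫⁻ z in K, f k z ∂μ ≤ ∑ k, ∫⁻ z in closedBall (B.z k) (B.r k), f k z ∂μ :=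
  (lintegral_mono_set hK).trans
    (Finset.single_le_sum (f := fun k => ∫⁻ z in closedBall (B.z k) (B.r k), f k z ∂μ)
      (fun _ _ => zero_le) (Finset.mem_univ k))

/-- **Garding inequality** -/
theorem garding (B : Bc C) (L : PL C) {J : C.ι → V → V →L[ℝ] V}
    (hJ : ∀ i, ContinuousOn (J i) (C.e i).target) :
    ∃ c : ℝ≥0, ∀ s : Sec L, N1 B μ s ≤ c * (NJ B μ J s + N0 B μ s) := by
  obtain ⟨K0, η, hη, hG⟩ := garding0 (V := V) μ
  obtain ⟨B', q, hi, hsub, -, hP⟩ := refine_bc B (fun k z δ => ∃ c : ℝ≥0, ∀ s : Sec L,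
    ∫⁻ y in closedBall z δ, ‖DL s (B.i k) y‖ₑ ^ 2 ∂μ ≤
      c * (∫⁻ y in closedBall z (2 * δ), ‖dbJ (DL s (B.i k) y) (J (B.i k) y)‖ₑ ^ 2 ∂μ +
        ∫⁻ y in closedBall z (2 * δ), ‖s.u (B.i k) y‖ₑ ^ 2 ∂μ)) (by
    intro k z hz
    have hzt : z ∈ (C.e (B.i k)).target := B.sub k (ball_subset_closedBall hz)
    have h1 : ContinuousAt (J (B.i k)) z :=
      (hJ (B.i k)).continuousAt ((C.e (B.i k)).open_target.mem_nhds hzt)
    have h2 : {y | ‖J (B.i k) y - J (B.i k) z‖ < η} ∈ 𝓝 z := by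
      have h3 := (Metric.continuousAt_iff.1 h1) η hη
      obtain ⟨d, hd, hd2⟩ := h3
      filter_upwards [ball_mem_nhds z hd] with y hy
      have := hd2 hy
      rwa [dist_eq_norm] at this
    obtain ⟨ε, hε, hε2⟩ := Metric.mem_nhds_iff.1 (inter_mem h2 (isOpen_ball.mem_nhds hz))
    have hcb : closedBall z (2 * (ε / 3)) ⊆ ball z ε := closedBall_subset_ball (by linarith)
    refine ⟨ε / 3, by positivity, hcb.trans (hε2.trans inter_subset_right), ?_⟩
    obtain ⟨c, hc⟩ := garding_ball μ hG (C.e (B.i k)).open_target (z0 := z) (δ := ε / 3)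
      (by positivity)
      ((hcb.trans (hε2.trans inter_subset_right)).trans (ball_subset_closedBall.trans (B.sub k)))
      (hJ (B.i k)) (fun y hy => (hε2 (hcb hy)).1.le) ((L.th_sm (B.i k)).continuousOn)
    exact ⟨c, fun s => hc (s.u (B.i k)) (s.sm _)⟩)
  choose c hc using hP
  obtain ⟨c1, hc1⟩ := N_tr μ B B'
  refine ⟨c1 * ∑ k, c k, fun s => (hc1 L s).2.trans ?_⟩
  push_cast
  rw [mul_assoc, Finset.sum_mul]
  refine mul_le_mul_right (Finset.sum_le_sum fun k' _ => ?_) _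
  have h1 := hc k' s
  rw [hi k']
  refine h1.trans (mul_le_mul_right (add_le_add ?_ ?_) _)
  · exact cell_le μ B (fun k z => ‖dbJ (DL s (B.i k) z) (J (B.i k) z)‖ₑ ^ 2) (q k')
      ((hsub k').trans ball_subset_closedBall)
  · exact cell_le μ B (fun k z => ‖s.u (B.i k) z‖ₑ ^ 2) (q k')
      ((hsub k').trans ball_subset_closedBall)

end

end Crest.Agent.R281.Hy_409
end

-- ▼ part R281/Hy5_409

/-!
# R281 (S0424), H0-OP, second road (helper409), part 5: RELLICH

* `rellich_V` : smooth functions on `V` with supports in a fixed compact set, bounded in `H¹`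
* `rellich_S` : sections bounded in `H¹` on the cells: a subsequence is `L²`-Cauchy on the cells
-/

set_option autoImplicit false
set_option linter.unusedSectionVars false
set_option maxSynthPendingDepth 3

open Set Filter Topology MeasureTheory Metric
open scoped ContDiff ENNReal NNReal

namespace Crest.Agent.R281.Hy_409

open Crest.Agent.R281.HkR_835 Crest.Agent.R281.Ti_846 Crest.Agent.R281.PL_713

noncomputable section

variable {V W X : Type} [NormedAddCommGroup V] [NormedSpace ℝ V] [FiniteDimensional ℝ V]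
  [MeasurableSpace V] [BorelSpace V] [NormedAddCommGroup W] [NormedSpace ℝ W]
  [FiniteDimensional ℝ W] [MeasurableSpace W] [BorelSpace W]

theorem lint_lin (μ : Measure V) [μ.IsAddHaarMeasure] (ν : Measure W) [ν.IsAddHaarMeasure]
    (L : V ≃L[ℝ] W) : ∃ c : ℝ≥0, ∀ f : W → ℝ≥0∞, ∫⁻ z, f z ∂ν = c * ∫⁻ y, f (L y) ∂μ := by
  obtain ⟨c, hc⟩ := map_smul μ ν L
  refine ⟨c, fun f => ?_⟩
  have hme : MeasurableEmbedding (L : V → W) := L.toHomeomorph.measurableEmbedding
  rw [hc, lintegral_smul_measure, hme.lintegral_map]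
  rfl

/-- common subsequence for finitely many properties -/
theorem common_sub {ι : Type*} (S : Finset ι) (R : ι → (ℕ → ℕ) → Prop)
    (hsub : ∀ (i : ι) (φ ψ : ℕ → ℕ), StrictMono ψ → R i φ → R i (φ ∘ ψ))
    (hex : ∀ (i : ι) (φ : ℕ → ℕ), StrictMono φ → ∃ ψ : ℕ → ℕ, StrictMono ψ ∧ R i (φ ∘ ψ)) :
    ∃ φ : ℕ → ℕ, StrictMono φ ∧ ∀ i ∈ S, R i φ := by
  classical
  induction S using Finset.induction_on with
  | empty => exact ⟨id, strictMono_id, by simp⟩
  | insert a S ha ih =>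
    obtain ⟨φ, hφ, h⟩ := ih
    obtain ⟨ψ, hψ, h2⟩ := hex a φ hφ
    refine ⟨φ ∘ ψ, hφ.comp hψ, fun i hi => ?_⟩
    rcases Finset.mem_insert.1 hi with rfl | hi
    · exact h2
    · exact hsub i φ ψ hψ (h i hi)

theorem int_sq_le {E : Type*} [NormedAddCommGroup E] {f : V → E} (μ : Measure V)
    [μ.IsAddHaarMeasure] (hf : Continuous f) (hc : HasCompactSupport f) {D : ℝ} (hD : 0 ≤ D)
    (h : ∫⁻ x, ‖f x‖ₑ ^ 2 ∂μ ≤ ENNReal.ofReal D) : ∫ x, ‖f x‖ ^ 2 ∂μ ≤ D := by
  rw [lint_sq μ hf hc] at h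
  exact (ENNReal.ofReal_le_ofReal_iff hD).1 h

/-- **Rellich on a finite dimensional space** -/
theorem rellich_V (μ : Measure V) [μ.IsAddHaarMeasure] {K : Set V} (hK : IsCompact K)
    {w : ℕ → V → ℂ} (hs : ∀ m, ContDiff ℝ ∞ (w m)) (hc : ∀ m, tsupport (w m) ⊆ K) {D : ℝ≥0}
    (h0 : ∀ m, ∫⁻ x, ‖w m x‖ₑ ^ 2 ∂μ ≤ D) (h1 : ∀ m, ∫⁻ x, ‖fderiv ℝ (w m) x‖ₑ ^ 2 ∂μ ≤ D) :
    ∃ φ : ℕ → ℕ, StrictMono φ ∧ ∀ ε : ℝ≥0, 0 < ε → ∃ N, ∀ m ≥ N, ∀ k ≥ N,
      ∫⁻ x, ‖w (φ m) x - w (φ k) x‖ₑ ^ 2 ∂μ ≤ ε := by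
  classical
  set L : V ≃L[ℝ] EuclideanSpace ℝ (Fin (Module.finrank ℝ V)) := toEuclidean with hL
  have hcs : ∀ m, HasCompactSupport (w m) := fun m =>
    hK.of_isClosed_subset (isClosed_tsupport _) (hc m)
  -- transported functions
  set v : ℕ → EuclideanSpace ℝ (Fin (Module.finrank ℝ V)) → ℂ := fun m x => w m (L.symm x) with hv
  have hvs : ∀ m, ContDiff ℝ ∞ (v m) := fun m => (hs m).comp L.symm.contDiff
  have hvc : ∀ m, HasCompactSupport (v m) := fun m =>
    (hcs m).comp_homeomorph L.symm.toHomeomorph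
  obtain ⟨c1, hc1⟩ := lint_lin μ volume L
  obtain ⟨c2, hc2⟩ := lint_lin (volume : Measure (EuclideanSpace ℝ (Fin (Module.finrank ℝ V))))
    μ L.symm
  have hsym : ∀ y, L.symm (L y) = y := fun y => L.symm_apply_apply y
  -- bounds
  set M : ℝ≥0 := ∑ i, ‖L.symm (EuclideanSpace.single i (1 : ℝ))‖₊ ^ 2 with hM
  set D' : ℝ≥0 := c1 * D + c1 * (M * D) with hD'
  have hb0 : ∀ m, ∫ x, ‖v m x‖ ^ 2 ≤ D' := fun m => by
    refine int_sq_le _ (hvs m).continuous (hvc m) (NNReal.coe_nonneg D') ?_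
    rw [hc1]
    simp only [hv, hsym]
    refine (mul_le_mul_right (h0 m) _).trans ?_
    rw [ENNReal.ofReal_coe_nnreal, hD']
    push_cast
    exact le_self_add
  have hder : ∀ m x i, fderiv ℝ (v m) x (EuclideanSpace.single i 1) =
      fderiv ℝ (w m) (L.symm x) (L.symm (EuclideanSpace.single i 1)) := by
    intro m x i
    have e1 : HasFDerivAt (v m) ((fderiv ℝ (w m) (L.symm x)).comp
        (L.symm : EuclideanSpace ℝ (Fin (Module.finrank ℝ V)) →L[ℝ] V)) x :=
      (((hs m).differentiable (by simp)) (L.symm x)).hasFDerivAt.comp x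
        (L.symm : EuclideanSpace ℝ (Fin (Module.finrank ℝ V)) →L[ℝ] V).hasFDerivAt
    rw [e1.fderiv]
    rfl
  have hb1 : ∀ m, ∫ x, ∑ i, ‖fderiv ℝ (v m) x (EuclideanSpace.single i 1)‖ ^ 2 ≤ D' := fun m => by
    have i0 : ∀ i, Integrable (fun x => ‖fderiv ℝ (v m) x (EuclideanSpace.single i 1)‖ ^ 2) :=
      fun i => sq_int _ (dir_cont (hvs m) _) (dir_supp (hvc m) _)
    refine (ENNReal.ofReal_le_ofReal_iff (NNReal.coe_nonneg D')).1 ?_
    rw [ofReal_integral_eq_lintegral_ofReal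
      (integrable_finsetSum _ fun i _ => i0 i)
      (Eventually.of_forall fun x => Finset.sum_nonneg fun _ _ => by positivity), hc1]
    have e1 : ∀ y, ENNReal.ofReal (∑ i, ‖fderiv ℝ (v m) (L y) (EuclideanSpace.single i 1)‖ ^ 2) ≤
        M * ‖fderiv ℝ (w m) y‖ₑ ^ 2 := by
      intro y
      rw [ENNReal.ofReal_sum_of_nonneg (fun _ _ => by positivity), hM]
      push_cast
      rw [Finset.sum_mul]
      refine Finset.sum_le_sum fun i _ => ?_
      rw [hder, hsym, ENNReal.ofReal_pow (norm_nonneg _), ofReal_norm, ← mul_pow]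
      refine pow_le_pow_left' ?_ 2
      rw [mul_comm]
      exact ContinuousLinearMap.le_opENorm _ _
    refine (mul_le_mul_right (lintegral_mono e1) _).trans ?_
    rw [lintegral_const_mul' _ _ ENNReal.coe_ne_top, ENNReal.ofReal_coe_nnreal, hD']
    push_cast
    refine le_trans ?_ le_add_self
    gcongr
    exact h1 m
  obtain ⟨Ψ, φ, hΨ, hφ, hconv⟩ := Crest.Agent.R330.Rel893.rellich_local hvs hvc hb0 hb1
  refine ⟨φ, hφ, fun ε hε => ?_⟩
  -- the supports lie in a fixed ball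
  obtain ⟨R, hR⟩ := (hK.image L.continuous).isBounded.exists_norm_le
  have hvz : ∀ m x, ¬ ‖x‖ ≤ R → v m x = 0 := by
    intro m x hx
    by_contra h
    apply hx
    refine hR x ⟨L.symm x, hc m (subset_tsupport _ h), L.apply_symm_apply x⟩
  have hc2' := (hconv R)
  rw [Metric.tendsto_atTop] at hc2'
  have hη : (0 : ℝ) < ε / (4 * (c2 + 1)) := by positivity
  obtain ⟨N, hN⟩ := hc2' _ hη
  refine ⟨N, fun m hm k hk => ?_⟩
  rw [hc2]
  set S := {x : EuclideanSpace ℝ (Fin (Module.finrank ℝ V)) | ‖x‖ ≤ R} with hS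
  have hSm : MeasurableSet S := Crest.Agent.R330.Rel893.measurableSet_ball R
  have e1 : ∫⁻ x, ‖w (φ m) (L.symm x) - w (φ k) (L.symm x)‖ₑ ^ 2 =
      ∫⁻ x in S, ‖v (φ m) x - v (φ k) x‖ₑ ^ 2 := by
    rw [← lintegral_indicator hSm]
    refine lintegral_congr fun x => ?_
    by_cases hx : x ∈ S
    · rw [indicator_of_mem hx]
    · rw [indicator_of_notMem hx]
      have e2 : w (φ m) (L.symm x) = 0 := hvz (φ m) x hx
      have e3 : w (φ k) (L.symm x) = 0 := hvz (φ k) x hx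
      rw [e2, e3]
      simp
  have hint : ∀ m, Integrable (fun x => ‖v (φ m) x - Ψ x‖ ^ 2) := fun m =>
    Crest.Agent.R330.Rel893.integrable_norm_sq_of_memLp
      ((Crest.Agent.R330.Rel893.memLp_core (hvs _) (hvc _)).sub hΨ)
  have e4 : ∀ m ≥ N, ∫⁻ x in S, ‖v (φ m) x - Ψ x‖ₑ ^ 2 ≤ ENNReal.ofReal (ε / (4 * (c2 + 1))) := by
    intro m hm
    have h5 := hN m hm
    rw [Real.dist_eq, sub_zero, abs_of_nonneg (integral_nonneg fun x => by positivity)] at h5
    have h6 : ∫⁻ x in S, ‖v (φ m) x - Ψ x‖ₑ ^ 2 =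
        ENNReal.ofReal (∫ x in S, ‖v (φ m) x - Ψ x‖ ^ 2) := by
      rw [ofReal_integral_eq_lintegral_ofReal (hint m).integrableOn
        (Eventually.of_forall fun x => by positivity)]
      refine lintegral_congr fun x => ?_
      rw [ENNReal.ofReal_pow (norm_nonneg _), ofReal_norm]
    rw [h6]
    exact ENNReal.ofReal_le_ofReal h5.le
  have e5 : ∫⁻ x in S, ‖v (φ m) x - v (φ k) x‖ₑ ^ 2 ≤
      2 * ENNReal.ofReal (ε / (4 * (c2 + 1))) + 2 * ENNReal.ofReal (ε / (4 * (c2 + 1))) := by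
    have hm1 : AEMeasurable (fun x => ‖v (φ m) x - Ψ x‖ₑ ^ 2) (volume.restrict S) := by
      have h7 : AEStronglyMeasurable (fun x => v (φ m) x - Ψ x) (volume.restrict S) :=
        ((hvs (φ m)).continuous.aestronglyMeasurable.sub
          (hΨ.1.mono_measure Measure.restrict_le_self))
      exact h7.enorm.pow_const 2
    calc ∫⁻ x in S, ‖v (φ m) x - v (φ k) x‖ₑ ^ 2
        ≤ ∫⁻ x in S, (2 * ‖v (φ m) x - Ψ x‖ₑ ^ 2 + 2 * ‖v (φ k) x - Ψ x‖ₑ ^ 2) := by
          refine lintegral_mono fun x => ?_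
          have h8 : v (φ m) x - v (φ k) x = (v (φ m) x - Ψ x) - (v (φ k) x - Ψ x) := by ring
          rw [h8]
          exact (pow_le_pow_left' enorm_sub_le 2).trans (sq_add_le _ _)
      _ = 2 * (∫⁻ x in S, ‖v (φ m) x - Ψ x‖ₑ ^ 2) + 2 * (∫⁻ x in S, ‖v (φ k) x - Ψ x‖ₑ ^ 2) := by
          rw [lintegral_add_left' (hm1.const_mul 2), lintegral_const_mul' _ _ (by norm_num),
            lintegral_const_mul' _ _ (by norm_num)]
      _ ≤ _ := by
          gcongr
          · exact e4 m hm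
          · exact e4 k hk
  calc (c2 : ℝ≥0∞) * ∫⁻ x, ‖w (φ m) (L.symm x) - w (φ k) (L.symm x)‖ₑ ^ 2
      ≤ c2 * (2 * ENNReal.ofReal (ε / (4 * (c2 + 1))) +
          2 * ENNReal.ofReal (ε / (4 * (c2 + 1)))) := by rw [e1]; gcongr
    _ = ENNReal.ofReal (c2 * (4 * (ε / (4 * (c2 + 1))))) := by
        rw [ENNReal.ofReal_mul (NNReal.coe_nonneg c2), ENNReal.ofReal_coe_nnreal,
          ENNReal.ofReal_mul (by norm_num : (0 : ℝ) ≤ 4), ← add_mul]
        have h12 : (2 : ℝ≥0∞) + 2 = ENNReal.ofReal 4 := by norm_num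
        rw [h12]
    _ ≤ ENNReal.ofReal ε := by
        refine ENNReal.ofReal_le_ofReal ?_
        have h9 : (0 : ℝ) ≤ c2 := NNReal.coe_nonneg c2
        have h10 : (0 : ℝ) ≤ ε := NNReal.coe_nonneg ε
        have h11 : (c2 : ℝ) * (4 * (ε / (4 * (c2 + 1)))) = ε * (c2 / (c2 + 1)) := by
          field_simp
        rw [h11]
        refine mul_le_of_le_one_right h10 ?_
        rw [div_le_one (by positivity)]
        linarith
    _ = ε := ENNReal.ofReal_coe_nnreal

/-! ### sections -/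

section sec

variable [TopologicalSpace X] [CompactSpace X] [T2Space X] {C : RCh V X} (μ : Measure V)
  [μ.IsAddHaarMeasure]

/-- bounds for the cut-off of a section in one small ball -/
theorem cut_bound {O : Set V} (hO : IsOpen O) {z0 : V} {δ : ℝ}
    (hs : closedBall z0 (2 * δ) ⊆ O) {th : V → V →L[ℝ] ℝ} (hth : ContinuousOn th O)
    (χ : ContDiffBump z0) (hχ : χ.rOut = 2 * δ) :
    ∃ c : ℝ≥0, ∀ u : V → ℂ, ContDiffOn ℝ ∞ u O →
      ∫⁻ z, ‖(χ z : ℂ) * u z‖ₑ ^ 2 ∂μ ≤ ∫⁻ z in closedBall z0 (2 * δ), ‖u z‖ₑ ^ 2 ∂μ ∧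
      ∫⁻ z, ‖fderiv ℝ (fun z => (χ z : ℂ) * u z) z‖ₑ ^ 2 ∂μ ≤
        c * (∫⁻ z in closedBall z0 (2 * δ),
          ‖fderiv ℝ u z + (Complex.I * u z) • cof (th z)‖ₑ ^ 2 ∂μ +
          ∫⁻ z in closedBall z0 (2 * δ), ‖u z‖ₑ ^ 2 ∂μ) := by
  set K := closedBall z0 (2 * δ) with hK
  have hKc : IsCompact K := isCompact_closedBall _ _
  have hdχ : Continuous fun z => cof (fderiv ℝ χ z) :=
    continuous_const.clm_comp ((χ.contDiff (n := 1)).continuous_fderiv (by simp))
  set m : V → V →L[ℝ] ℂ := fun z => cof (fderiv ℝ χ z) - ((χ z : ℂ) * Complex.I) • cof (th z)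
    with hm
  have hmc : ContinuousOn m K := by
    have e1 : ContinuousOn (fun z => (χ z : ℂ) * Complex.I) K :=
      ((Complex.continuous_ofReal.comp χ.continuous).mul continuous_const).continuousOn
    have e2 : ContinuousOn (fun z => cof (th z)) K := cof_cont (hth.mono hs)
    exact hdχ.continuousOn.sub (e1.smul e2)
  obtain ⟨M, hM⟩ := hKc.exists_bound_of_continuousOn hmc
  set b : ℝ≥0 := 2 * Real.toNNReal M ^ 2 with hb
  refine ⟨2 + b, fun u hu => ?_⟩
  have hucont : ContinuousOn u K := hu.continuousOn.mono hs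
  have hud : ∀ z ∈ K, DifferentiableAt ℝ u z := fun z hz =>
    (hu.contDiffAt (hO.mem_nhds (hs hz))).differentiableAt (by simp)
  set w : V → ℂ := fun z => (χ z : ℂ) * u z with hw
  have hwt : tsupport w ⊆ K := by
    have := cut_supp χ u
    rwa [hχ] at this
  have hχ1 : ∀ z, ‖(χ z : ℂ)‖ₑ ≤ 1 := by
    intro z
    rw [← ofReal_norm, Complex.norm_real, Real.norm_eq_abs, abs_of_nonneg χ.nonneg]
    exact ENNReal.ofReal_le_one.2 χ.le_one
  refine ⟨?_, ?_⟩
  · have h3 : ∫⁻ x, ‖w x‖ₑ ^ 2 ∂μ = ∫⁻ x in K, ‖w x‖ₑ ^ 2 ∂μ := by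
      rw [← lintegral_indicator hKc.measurableSet]
      refine lintegral_congr fun x => ?_
      by_cases hx : x ∈ K
      · rw [indicator_of_mem hx]
      · rw [indicator_of_notMem hx]
        have e1 : w x = 0 := by
          by_contra h
          exact hx (hwt (subset_tsupport _ h))
        rw [e1]
        simp
    rw [h3]
    refine lintegral_mono fun z => pow_le_pow_left' ?_ 2
    show ‖(χ z : ℂ) * u z‖ₑ ≤ _
    rw [enorm_mul]
    exact mul_le_of_le_one_left zero_le (hχ1 z)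
  · have h3 : ∫⁻ x, ‖fderiv ℝ w x‖ₑ ^ 2 ∂μ = ∫⁻ x in K, ‖fderiv ℝ w x‖ₑ ^ 2 ∂μ := by
      rw [← lintegral_indicator hKc.measurableSet]
      refine lintegral_congr fun x => ?_
      by_cases hx : x ∈ K
      · rw [indicator_of_mem hx]
      · rw [indicator_of_notMem hx]
        have e1 : fderiv ℝ w x = 0 := by
          by_contra h
          exact hx (hwt (support_fderiv_subset ℝ h))
        rw [e1]
        simp
    rw [h3]
    have h4 : ∫⁻ x in K, ‖fderiv ℝ w x‖ₑ ^ 2 ∂μ ≤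
        (2 : ℝ≥0) * (∫⁻ z in K, ‖fderiv ℝ u z + (Complex.I * u z) • cof (th z)‖ₑ ^ 2 ∂μ) +
          b * ∫⁻ z in K, ‖u z‖ₑ ^ 2 ∂μ := by
      refine int_le μ hKc hucont fun z hz => ?_
      have e1 : fderiv ℝ w z = (χ z : ℂ) • (fderiv ℝ u z + (Complex.I * u z) • cof (th z)) +
          u z • m z := by
        rw [hw, cut_fderiv χ (hud z hz), hm]
        ext v
        simp only [add_apply, smul_apply, sub_apply, smul_eq_mul]
        ring
      rw [e1]
      have e2 : ‖(χ z : ℂ) • (fderiv ℝ u z + (Complex.I * u z) • cof (th z)) + u z • m z‖ₑ ≤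
          ‖fderiv ℝ u z + (Complex.I * u z) • cof (th z)‖ₑ + Real.toNNReal M * ‖u z‖ₑ := by
        refine (enorm_add_le _ _).trans (add_le_add ?_ ?_)
        · rw [enorm_smul]
          exact mul_le_of_le_one_left zero_le (hχ1 z)
        · rw [enorm_smul, mul_comm]
          refine mul_le_mul_left ?_ _
          rw [← ofReal_norm]
          exact ENNReal.ofReal_le_ofReal (hM z hz)
      refine (pow_le_pow_left' e2 2).trans ((sq_add_le _ _).trans (le_of_eq ?_))
      rw [hb]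
      push_cast
      ring
    refine h4.trans ?_
    rw [mul_add]
    push_cast
    gcongr
    · exact le_self_add
    · exact le_add_self

/-- **Rellich for sections** -/
theorem rellich_S (B : Bc C) {L : PL C} {u : ℕ → Sec L} {D : ℝ≥0} (h0 : ∀ m, N0 B μ (u m) ≤ D)
    (h1 : ∀ m, N1 B μ (u m) ≤ D) : ∃ φ : ℕ → ℕ, StrictMono φ ∧ ∀ ε : ℝ≥0, 0 < ε →
      ∃ N, ∀ m ≥ N, ∀ k ≥ N, N0 B μ (u (φ m) - u (φ k)) ≤ ε := by
  classical
  obtain ⟨B', q, hi, hsub, hpos, -⟩ := refine_bc B (fun _ _ _ => True) (by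
    intro k z hz
    obtain ⟨ε, hε, hε2⟩ := Metric.mem_nhds_iff.1 (isOpen_ball.mem_nhds hz)
    exact ⟨ε / 3, by positivity, (closedBall_subset_ball (by linarith)).trans hε2, trivial⟩)
  set χ : (k : B'.κ) → ContDiffBump (B'.z k) := fun k =>
    ⟨3 / 2 * B'.r k, 2 * B'.r k, by have := hpos k; positivity, by have := hpos k; linarith⟩
    with hχ
  have hst : ∀ k, closedBall (B'.z k) (2 * B'.r k) ⊆ (C.e (B'.i k)).target := by
    intro k
    rw [hi k]
    exact (hsub k).trans (ball_subset_closedBall.trans (B.sub _))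
  have hcb := fun k => cut_bound μ (C.e (B'.i k)).open_target (hst k)
    (L.th_sm (B'.i k)).continuousOn (χ k) rfl
  choose c hc using hcb
  set w : B'.κ → ℕ → V → ℂ := fun k m z => (χ k z : ℂ) * (u m).u (B'.i k) z with hw
  have hws : ∀ k m, ContDiff ℝ ∞ (w k m) := fun k m =>
    cut_smooth (χ k) (C.e (B'.i k)).open_target ((u m).sm _) (hst k)
  have hwt : ∀ k m, tsupport (w k m) ⊆ closedBall (B'.z k) (2 * B'.r k) := fun k m =>
    cut_supp (χ k) _
  have hb0 : ∀ k m, ∫⁻ z in closedBall (B'.z k) (2 * B'.r k), ‖(u m).u (B'.i k) z‖ₑ ^ 2 ∂μ ≤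
      D := by
    intro k m
    rw [hi k]
    exact (cell_le μ B (fun k z => ‖(u m).u (B.i k) z‖ₑ ^ 2) (q k)
      ((hsub k).trans ball_subset_closedBall)).trans (h0 m)
  have hb1 : ∀ k m, ∫⁻ z in closedBall (B'.z k) (2 * B'.r k), ‖DL (u m) (B'.i k) z‖ₑ ^ 2 ∂μ ≤
      D := by
    intro k m
    rw [hi k]
    exact (cell_le μ B (fun k z => ‖DL (u m) (B.i k) z‖ₑ ^ 2) (q k)
      ((hsub k).trans ball_subset_closedBall)).trans (h1 m)
  obtain ⟨φ, hφ, hR⟩ := common_sub (Finset.univ : Finset B'.κ) (fun k φ => ∀ ε : ℝ≥0, 0 < ε →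
      ∃ N, ∀ m ≥ N, ∀ l ≥ N, ∫⁻ x, ‖w k (φ m) x - w k (φ l) x‖ₑ ^ 2 ∂μ ≤ ε)
    (fun k φ ψ hψ h ε hε => by
      obtain ⟨N, hN⟩ := h ε hε
      exact ⟨N, fun m hm l hl => hN _ (hm.trans (hψ.id_le m)) _ (hl.trans (hψ.id_le l))⟩)
    (fun k φ hφ => by
      set D' : ℝ≥0 := D + c k * (D + D) with hD'
      obtain ⟨ψ, hψ, h⟩ := rellich_V μ (isCompact_closedBall (B'.z k) (2 * B'.r k))
        (w := fun m => w k (φ m)) (fun m => hws k _) (fun m => hwt k _) (D := D')
        (fun m => by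
          refine ((hc k ((u (φ m)).u (B'.i k)) ((u (φ m)).sm _)).1).trans ((hb0 k _).trans ?_)
          rw [hD']
          push_cast
          exact le_self_add)
        (fun m => by
          refine ((hc k ((u (φ m)).u (B'.i k)) ((u (φ m)).sm _)).2).trans ?_
          rw [hD']
          push_cast
          refine le_trans ?_ le_add_self
          gcongr
          · exact hb1 k (φ m)
          · exact hb0 k (φ m))
      exact ⟨ψ, hψ, h⟩)
  obtain ⟨c1, hc1⟩ := N_tr μ B B'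
  refine ⟨φ, hφ, fun ε hε => ?_⟩
  set ε' : ℝ≥0 := ε / ((c1 + 1) * (Fintype.card B'.κ + 1)) with hε'
  have hε'0 : 0 < ε' := by positivity
  choose N hN using fun k => hR k (Finset.mem_univ k) ε' hε'0
  refine ⟨∑ k, N k, fun m hm l hl => ?_⟩
  have hle : ∀ k, N k ≤ ∑ k, N k := fun k =>
    Finset.single_le_sum (fun _ _ => Nat.zero_le _) (Finset.mem_univ k)
  have h3 : N0 B' μ (u (φ m) - u (φ l)) ≤ ∑ k : B'.κ, (ε' : ℝ≥0∞) := by
    refine Finset.sum_le_sum fun k _ => ?_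
    have h4 := hN k m ((hle k).trans hm) l ((hle k).trans hl)
    refine le_trans ?_ h4
    refine le_trans (le_of_eq ?_) (setLIntegral_le_lintegral (closedBall (B'.z k) (B'.r k)) _)
    refine setLIntegral_congr_fun isClosed_closedBall.measurableSet fun z hz => ?_
    have h6 : χ k z = 1 := (χ k).one_of_mem_closedBall
      (closedBall_subset_closedBall (by have := hpos k; show B'.r k ≤ 3 / 2 * B'.r k; linarith) hz)
    show ‖(u (φ m) - u (φ l)).u (B'.i k) z‖ₑ ^ 2 = ‖w k (φ m) z - w k (φ l) z‖ₑ ^ 2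
    simp only [hw, h6]
    simp
  refine (hc1 L _).1.trans ?_
  refine (mul_le_mul_right h3 _).trans ?_
  rw [Finset.sum_const, Finset.card_univ, nsmul_eq_mul]
  have h7 : c1 * (Fintype.card B'.κ * ε') ≤ ε := by
    rw [hε', ← NNReal.coe_le_coe]
    push_cast
    have a1 : (0 : ℝ) ≤ c1 := NNReal.coe_nonneg c1
    have a2 : (0 : ℝ) ≤ (Fintype.card B'.κ : ℝ) := Nat.cast_nonneg _
    have a3 : (0 : ℝ) ≤ ε := NNReal.coe_nonneg ε
    rw [show (c1 : ℝ) * ((Fintype.card B'.κ : ℝ) * (ε / ((c1 + 1) * (Fintype.card B'.κ + 1)))) =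
      ε * ((c1 * Fintype.card B'.κ) / ((c1 + 1) * (Fintype.card B'.κ + 1))) by ring]
    refine mul_le_of_le_one_right a3 ?_
    rw [div_le_one (by positivity)]
    nlinarith
  exact_mod_cast h7

end sec

end

end Crest.Agent.R281.Hy_409
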