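import Crest.Agent.R271.RExt1_747
import Crest.Agent.R272.Kod5_410
import Crest.Agent.R281.HoC5_578
import Crest.Agent.R281.Js4_578
import Crest.Agent.R272.Kod6_410

-- ▼ part R281/Js1_578
section

/-!
# R281, JETS (2) SECTIONS (helper578), part 1: order of vanishing from integrals over small balls

`van` : `∫_{B(p,s)} |f|² ≤ B s^{2(n+k)}` for all small `s` ⟹ `|f z| ≤ C |z - p|^k` near `p`.
-/

set_option autoImplicit false

open Set Filter Topology Metric MeasureTheory Complex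
open scoped Real ENNReal NNReal

noncomputable section

namespace Crest.Agent.R281.Js_578

variable {n : ℕ}

theorem vol_cb (x : Fin n → ℂ) {ρ : ℝ} (hρ : 0 ≤ ρ) : volume (closedBall x ρ) =
    ENNReal.ofReal (ρ ^ (2 * n) * (volume (closedBall (0 : Fin n → ℂ) 1)).toReal) := by
  rw [Measure.addHaar_closedBall' _ _ hρ, ENNReal.ofReal_mul (by positivity),
    ENNReal.ofReal_toReal measure_closedBall_lt_top.ne]
  congr 2
  have : Module.finrank ℝ (Fin n → ℂ) = 2 * n := by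
    rw [Module.finrank_pi_fintype]
    simp [Complex.finrank_real_complex, mul_comm]
  rw [this]

/-- mean value over one ball -/
theorem sup_le {D : Set (Fin n → ℂ)} {x : Fin n → ℂ} {t : ℝ} {f : (Fin n → ℂ) → ℂ} {I : ℝ}
    (hD : IsOpen D) (hf : DifferentiableOn ℂ f D) (ht : 0 < t) (htD : closedBall x t ⊆ D)
    (hI : 0 ≤ I) (hint : ∫⁻ y in closedBall x t, ‖f y‖ₑ ^ 2 ≤ ENNReal.ofReal I) :
    t ^ (2 * n) * (volume (closedBall (0 : Fin n → ℂ) 1)).toReal * ‖f x‖ ^ 2 ≤ I := by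
  have h1 := (Crest.Agent.R271.RExt747.submean hD hf htD).trans hint
  rw [vol_cb x ht.le] at h1
  have h3 : ‖f x‖ₑ ^ 2 = ENNReal.ofReal (‖f x‖ ^ 2) := by
    rw [← ofReal_norm, ENNReal.ofReal_pow (norm_nonneg _)]
  rw [h3, ← ENNReal.ofReal_mul (by positivity), ENNReal.ofReal_le_ofReal_iff hI] at h1
  exact h1

/-- **order of vanishing** -/
theorem van {D : Set (Fin n → ℂ)} {p : Fin n → ℂ} {r B : ℝ} {f : (Fin n → ℂ) → ℂ} {k : ℕ}
    (hD : IsOpen D) (hf : DifferentiableOn ℂ f D) (hr : 0 < r) (hrD : closedBall p r ⊆ D)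
    (hB : 0 ≤ B)
    (hint : ∀ s : ℝ, 0 < s → s ≤ r →
      ∫⁻ y in closedBall p s, ‖f y‖ₑ ^ 2 ≤ ENNReal.ofReal (B * s ^ (2 * (n + k)))) :
    ∃ C : ℝ, 0 ≤ C ∧ ∀ z ∈ closedBall p (r / 2), ‖f z‖ ≤ C * ‖z - p‖ ^ k := by
  set v0 : ℝ := (volume (closedBall (0 : Fin n → ℂ) 1)).toReal with hv0
  have hv0p : 0 < v0 := ENNReal.toReal_pos (measure_closedBall_pos volume _ one_pos).ne'
    measure_closedBall_lt_top.ne
  set C : ℝ := Real.sqrt (B * 2 ^ (2 * (n + k)) / v0) with hC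
  have hC2 : C ^ 2 = B * 2 ^ (2 * (n + k)) / v0 := Real.sq_sqrt (by positivity)
  have hC0 : 0 ≤ C := Real.sqrt_nonneg _
  have key : ∀ z, ∀ t : ℝ, 0 < t → t ≤ r / 2 → closedBall z t ⊆ closedBall p (2 * t) →
      ‖f z‖ ≤ C * t ^ k := by
    intro z t ht htr hsub
    have h1 := hint (2 * t) (by positivity) (by linarith)
    have h2 : closedBall z t ⊆ D :=
      (hsub.trans (closedBall_subset_closedBall (by linarith))).trans hrD
    have h3 := sup_le hD hf ht h2 (by positivity) ((lintegral_mono_set hsub).trans h1)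
    rw [← hv0] at h3
    have h4 : ‖f z‖ ^ 2 ≤ (C * t ^ k) ^ 2 := by
      rw [mul_pow, hC2]
      have e : B * (2 * t) ^ (2 * (n + k)) =
          t ^ (2 * n) * (B * 2 ^ (2 * (n + k)) * (t ^ k) ^ 2) := by
        rw [mul_pow, mul_add 2 n k, pow_add t, ← pow_mul, mul_comm k 2]
        ring
      rw [e, mul_assoc] at h3
      have h5 := le_of_mul_le_mul_left h3 (by positivity)
      rw [div_mul_eq_mul_div, le_div_iff₀ hv0p]
      linarith
    exact abs_le_of_sq_le_sq' h4 (by positivity) |>.2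
  refine ⟨C, hC0, fun z hz => ?_⟩
  rcases eq_or_ne z p with rfl | hne
  · rw [sub_self, norm_zero]
    rcases Nat.eq_zero_or_pos k with rfl | hk
    · have h1 := key z (r / 2) (by positivity) le_rfl
        (closedBall_subset_closedBall (by linarith))
      simpa using h1
    · rw [zero_pow hk.ne', mul_zero]
      have h1 : Tendsto (fun t : ℝ => C * t ^ k) (𝓝[>] 0) (𝓝 0) := by
        have : Continuous fun t : ℝ => C * t ^ k := by fun_prop
        have h2 := this.tendsto 0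
        simp only [zero_pow hk.ne', mul_zero] at h2
        exact h2.mono_left nhdsWithin_le_nhds
      refine ge_of_tendsto h1 ?_
      filter_upwards [Ioc_mem_nhdsGT (show (0 : ℝ) < r / 2 by positivity)] with t ht
      exact key z t ht.1 ht.2 (closedBall_subset_closedBall (by linarith [ht.1]))
  · have ht : 0 < ‖z - p‖ := norm_pos_iff.2 (sub_ne_zero.2 hne)
    have hz' : ‖z - p‖ ≤ r / 2 := by
      rw [← dist_eq_norm]
      exact mem_closedBall.1 hz
    refine key z ‖z - p‖ ht hz' (closedBall_subset_closedBall' ?_)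
    rw [dist_eq_norm]
    linarith

end Crest.Agent.R281.Js_578
end
end

-- ▼ part R281/Js5_578
section

/-!
# R281, JETS (2) SECTIONS (helper578), part 5: order of vanishing from weighted norms

* `lowerJ` : `∫_{B(ζ_p,s)} |y|² ≤ c⁻¹ (C1 n s² + e)^m ‖y‖²_h` for `h ≥ c2 hb (C1|z-z_p|²+e)^{-m}`;
* `vanJ`   : `‖y‖_{h_d} ≤ D` for all `d ∈ (0,1]`, weights `≥ c2 hb (C1|z-z_p|²+d²)^{-(n+k)}`
  near `p`, `y` holomorphic near `p` ⟹ `|y(z)| ≤ C |z-z_p|^k`.
-/

set_option autoImplicit false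
set_option linter.unusedSectionVars false

open Set Filter Topology Complex MeasureTheory Metric
open scoped ContDiff Matrix ComplexConjugate Kronecker ComplexOrder ENNReal

namespace Crest.Agent.R281.Js_578

open Crest.Agent.R275 Crest.Agent.R275.Geo Crest.Agent.R275.Core144 Crest.Agent.R275.Dg199
open Crest.Agent.R275.C1d194 Crest.Agent.R275.Pai323
open Crest.Agent.R275.SerG398 (lint dens)
open Crest.Agent.R273.Defs_333 Crest.Agent.R273.HM_333 Crest.Agent.R273.Kah_333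
open Crest.Agent.R273.Fock_243 Crest.Agent.R273.Pos_243
open Crest.Agent.R273.LamN127 Crest.Agent.R273.NormC_505 Crest.Agent.R273.DnInt_505
open Crest.Agent.R273.DVec_733 Crest.Agent.R273.DMet_733 Crest.Agent.R273.Mol_106
open Crest.Agent.R273.HDN_505 (HB HB_pos)
open Crest.Agent.R273.Lim_505
open Crest.Agent.R273.SteinM_794 (kap kap_eq mp_kap me_kap)
open Crest.Agent.R272.Kod2_410 Crest.Agent.R272.Kod5_410
open Crest.Agent.R272.Kod3_410 (dsq dsq_nonneg)

noncomputable section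

variable {n : ℕ} {M : Type} [TopologicalSpace M] {A : Atl n M} {N : LB A}
variable [T2Space M] [CompactSpace M] [Finite A.ι] (P : Part A) (K : Kah A)
  (hb : HM ((KB A)⁻¹ * N)) {p : M} {i0 : A.ι}

theorem lowerJ (hp : p ∈ (A.e i0).source) {W' : Set M} (hW' : IsOpen W') (hpW' : p ∈ W') :
    ∃ r c : ℝ, 0 < r ∧ 0 < c ∧
      (∀ ζ ∈ closedBall (WithLp.ofLp (A.e i0 p)) r, WithLp.toLp 2 ζ ∈ (A.e i0).target ∧
        (A.e i0).symm (WithLp.toLp 2 ζ) ∈ W') ∧
      ∀ (m : ℕ) (C1 c2 e : ℝ), 0 ≤ C1 → 0 < c2 → 0 < e → ∀ h : HM ((KB A)⁻¹ * N),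
        (∀ q ∈ W', q ∈ (A.e i0).source →
          c2 * hb.w i0 q * ((C1 * dsq A p i0 q + e) ^ m)⁻¹ ≤ h.w i0 q) →
        ∀ s : ℝ, 0 < s → s ≤ r →
        ∀ y : Sec (BN N), ∫⁻ ζ in closedBall (WithLp.ofLp (A.e i0 p)) s, ‖Yf i0 y.1 ζ‖ₑ ^ 2 ≤
          ENNReal.ofReal ((c2 * c)⁻¹ * (C1 * (n * s ^ 2) + e) ^ m * (HB K h).sn P y ^ 2) := by
  obtain ⟨χ, hχ, hχ1, hχs, hχc, hχ0, hχ2⟩ := exists_bump A ((A.e i0).open_source.mem_nhds hp)
  have hwp := hb.pos i0 p hp
  have hwc : ContinuousAt (hb.w i0) p :=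
    (Dg199.SmAt.smN (hb.sm i0) hp).continuousAt
  have ev : ∀ᶠ q in 𝓝 p, χ q = 1 ∧ q ∈ W' ∧ hb.w i0 p / 2 < hb.w i0 q := by
    refine hχ1.and ((hW'.eventually_mem hpW').and ?_)
    exact hwc.eventually (lt_mem_nhds (by linarith))
  have ev2 : ∀ᶠ ζ in 𝓝 (WithLp.ofLp (A.e i0 p)), WithLp.toLp 2 ζ ∈ (A.e i0).target ∧
      (χ ((A.e i0).symm (WithLp.toLp 2 ζ)) = 1 ∧ (A.e i0).symm (WithLp.toLp 2 ζ) ∈ W' ∧
        hb.w i0 p / 2 < hb.w i0 ((A.e i0).symm (WithLp.toLp 2 ζ))) := by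
    have h1 : Tendsto (fun ζ : Fin n → ℂ => (WithLp.toLp 2 ζ : Cn n))
        (𝓝 (WithLp.ofLp (A.e i0 p))) (𝓝 (A.e i0 p)) := by
      have := (PiLp.continuous_toLp 2 (fun _ : Fin n => ℂ)).continuousAt
        (x := WithLp.ofLp (A.e i0 p))
      exact this
    exact h1.eventually (((A.e i0).open_target.eventually_mem ((A.e i0).map_source hp)).and
      (ev_symm hp ev))
  obtain ⟨r, hr, hrb⟩ := Metric.eventually_nhds_iff_ball.1 ev2
  have hcb : closedBall (WithLp.ofLp (A.e i0 p)) (r / 2) ⊆ ball (WithLp.ofLp (A.e i0 p)) r :=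
    closedBall_subset_ball (by linarith)
  refine ⟨r / 2, hb.w i0 p / 2, by positivity, by positivity, fun ζ hζ =>
    ⟨(hrb ζ (hcb hζ)).1, (hrb ζ (hcb hζ)).2.2.1⟩, ?_⟩
  intro m C1 c2 e hC1 hc2 he h hw s hs hsr y
  set c : ℝ := hb.w i0 p / 2 with hc
  have hc0 : 0 < c := by positivity
  have hsub : closedBall (WithLp.ofLp (A.e i0 p)) s ⊆ ball (WithLp.ofLp (A.e i0 p)) r :=
    (closedBall_subset_closedBall hsr).trans hcb
  -- the localised density
  have hdn : IsDn A ((HB K h).hd y.1 y.1) := (HB K h).isDn y.2 y.2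
  have hχC : A.Sm (fun x => (χ x : ℂ)) := sm_iff.2 fun q => (hχ q).ofReal
  have hf : IsDn A (fun i x => (χ x : ℂ) * (HB K h).hd y.1 y.1 i x) := hdn.fmul hχC
  have hnn : ∀ i, ∀ x ∈ (A.e i).source, 0 ≤ ((HB K h).hd y.1 y.1 i x).re := fun i x hx =>
    (Complex.le_def.1 ((HB K h).hd_self_nonneg y.1 hx)).1
  have hmono : (IntP P (fun i x => (χ x : ℂ) * (HB K h).hd y.1 y.1 i x)).re ≤
      (HB K h).sn P y ^ 2 := by
    rw [HDen.sn_sq]
    refine IntP_re_mono P hf hdn fun i x hx => ?_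
    rw [Complex.re_ofReal_mul]
    have := mul_le_mul_of_nonneg_right (hχ2 x) (hnn i x hx)
    linarith
  have hz0 : ∀ i, ∀ x ∈ (A.e i).source, x ∉ tsupport χ →
      (χ x : ℂ) * (HB K h).hd y.1 y.1 i x = 0 := fun i x _ hx => by
    rw [image_eq_zero_of_notMem_tsupport hx, Complex.ofReal_zero, zero_mul]
  rw [IntP_loc P hf hχc hχs hz0] at hmono
  have hcc : CC A i0 (fun x => (χ x : ℂ) * (HB K h).hd y.1 y.1 i0 x) :=
    CC.of_zero_off (hf.sm i0) hχc hχs fun x hx => by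
      rw [image_eq_zero_of_notMem_tsupport hx, Complex.ofReal_zero, zero_mul]
  rw [lint_re i0 hcc.integrable] at hmono
  set G : (RI n → ℝ) → ℂ := rd A i0 (fun x => (χ x : ℂ) * (HB K h).hd y.1 y.1 i0 x) with hG
  have hGnn : ∀ x, 0 ≤ (G x).re := by
    intro x
    by_cases hx : x ∈ Ui A i0
    · rw [hG, C1d194.rd_of_mem hx, Complex.re_ofReal_mul]
      exact mul_nonneg (hχ0 _) (hnn i0 _ ((A.e i0).map_target hx))
    · rw [hG, C1d194.rd_off hx]
      simp
  have hGint : Integrable (fun x => (G x).re) := hcc.integrable.re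
  have h1 : ENNReal.ofReal (∫ x, (G x).re) = ∫⁻ x, ENNReal.ofReal (G x).re :=
    ofReal_integral_eq_lintegral_ofReal hGint (Eventually.of_forall hGnn)
  set D : ℝ := (c2 * c) * ((C1 * (n * s ^ 2) + e) ^ m)⁻¹ with hD
  have hse : 0 < C1 * (n * s ^ 2) + e := by positivity
  have hD0 : 0 < D := by positivity
  have h2 : ENNReal.ofReal D * ∫⁻ ζ in closedBall (WithLp.ofLp (A.e i0 p)) s,
      ‖Yf i0 y.1 ζ‖ₑ ^ 2 ≤ ENNReal.ofReal (∫ x, (G x).re) := by
    rw [h1, ← lintegral_const_mul' _ _ ENNReal.ofReal_ne_top,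
      ← (mp_kap n).setLIntegral_comp_preimage_emb (me_kap n)]
    refine (setLIntegral_mono' ?_ fun x hx => ?_).trans (setLIntegral_le_lintegral _ _)
    · exact (mp_kap n).measurable measurableSet_closedBall
    · have hx' : kap x ∈ closedBall (WithLp.ofLp (A.e i0 p)) s := hx
      obtain ⟨hxt, hx1, hx2, hx4⟩ := hrb (kap x) (hsub hx')
      have hcx : (WithLp.toLp 2 (kap x) : Cn n) = cc x := by
        rw [kap_eq]
      rw [hcx] at hxt hx1 hx2 hx4
      have hxU : x ∈ Ui A i0 := hxt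
      rw [hG, C1d194.rd_of_mem hxU, Complex.re_ofReal_mul, hx1, one_mul]
      have hsrc := (A.e i0).map_target hxt
      have h3 := hd_zero_le K h y.1 hsrc
      have hθ : dsq A p i0 ((A.e i0).symm (cc x)) ≤ n * s ^ 2 := by
        unfold dsq
        rw [(A.e i0).right_inv hxt]
        have h4 : ∀ a : Fin n, ‖cc x a - A.e i0 p a‖ ^ 2 ≤ s ^ 2 := by
          intro a
          have h5 : ‖kap x a - (WithLp.ofLp (A.e i0 p)) a‖ ≤ s := by
            have h6 : ‖kap x - WithLp.ofLp (A.e i0 p)‖ ≤ s := by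
              rw [← dist_eq_norm]; exact mem_closedBall.1 hx'
            exact (norm_le_pi_norm (kap x - WithLp.ofLp (A.e i0 p)) a).trans h6
          exact pow_le_pow_left₀ (norm_nonneg _) h5 2
        refine (Finset.sum_le_sum fun a _ => h4 a).trans ?_
        rw [Finset.sum_const, Finset.card_univ, Fintype.card_fin, nsmul_eq_mul]
      have hθ0 := dsq_nonneg (A := A) p i0 ((A.e i0).symm (cc x))
      have h7 : D ≤ h.w i0 ((A.e i0).symm (cc x)) := by
        refine le_trans ?_ (hw _ hx2 hsrc)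
        rw [hD]
        refine mul_le_mul (mul_le_mul_of_nonneg_left hx4.le hc2.le) ?_ (by positivity)
          (mul_nonneg hc2.le (le_trans (by positivity) hx4.le))
        refine inv_anti₀ (by positivity) ?_
        refine pow_le_pow_left₀ (by positivity) ?_ m
        have := mul_le_mul_of_nonneg_left hθ hC1
        linarith
      have h8 : ‖Yf i0 y.1 (kap x)‖ₑ ^ 2 =
          ENNReal.ofReal (‖oB (y.1 i0 ((A.e i0).symm (cc x))) ∅‖ ^ 2) := by
        rw [← hcx, ENNReal.ofReal_pow (norm_nonneg _), ofReal_norm]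
        rfl
      rw [h8, ← ENNReal.ofReal_mul hD0.le]
      refine ENNReal.ofReal_le_ofReal (le_trans ?_ h3)
      exact mul_le_mul_of_nonneg_right h7 (sq_nonneg _)
  have h3 : ENNReal.ofReal D * ∫⁻ ζ in closedBall (WithLp.ofLp (A.e i0 p)) s,
      ‖Yf i0 y.1 ζ‖ₑ ^ 2 ≤ ENNReal.ofReal ((HB K h).sn P y ^ 2) :=
    h2.trans (ENNReal.ofReal_le_ofReal hmono)
  have h4 : ∫⁻ ζ in closedBall (WithLp.ofLp (A.e i0 p)) s, ‖Yf i0 y.1 ζ‖ₑ ^ 2 =
      ENNReal.ofReal D⁻¹ * (ENNReal.ofReal D *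
        ∫⁻ ζ in closedBall (WithLp.ofLp (A.e i0 p)) s, ‖Yf i0 y.1 ζ‖ₑ ^ 2) := by
    rw [← mul_assoc, ← ENNReal.ofReal_mul (by positivity), inv_mul_cancel₀ hD0.ne',
      ENNReal.ofReal_one, one_mul]
  rw [h4]
  refine (mul_le_mul_right h3 _).trans ?_
  rw [← ENNReal.ofReal_mul (by positivity)]
  refine ENNReal.ofReal_le_ofReal (le_of_eq ?_)
  rw [hD, _root_.mul_inv, inv_inv]

/-- **order of vanishing from weighted norms** -/
theorem vanJ (hp : p ∈ (A.e i0).source) {W' : Set M} (hW' : IsOpen W') (hpW' : p ∈ W') {k : ℕ}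
    {C1 c2 D : ℝ} (hC1 : 0 ≤ C1) (hc2 : 0 < c2) (H : ℝ → HM ((KB A)⁻¹ * N))
    (hw : ∀ d : ℝ, 0 < d → d ≤ 1 → ∀ q ∈ W', q ∈ (A.e i0).source →
      c2 * hb.w i0 q * ((C1 * dsq A p i0 q + d ^ 2) ^ (n + k))⁻¹ ≤ (H d).w i0 q)
    (y : Sec (BN N)) (hD : ∀ d : ℝ, 0 < d → d ≤ 1 → (HB K (H d)).sn P y ^ 2 ≤ D)
    (hol : DifferentiableOn ℂ (Yf i0 y.1) {ζ | WithLp.toLp 2 ζ ∈ (A.e i0).target ∧
      (A.e i0).symm (WithLp.toLp 2 ζ) ∈ W'}) :
    ∃ C : ℝ, 0 ≤ C ∧ ∀ᶠ ζ in 𝓝 (WithLp.ofLp (A.e i0 p)),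
      ‖Yf i0 y.1 ζ‖ ≤ C * ‖ζ - WithLp.ofLp (A.e i0 p)‖ ^ k := by
  obtain ⟨r, c, hr, hc, hrW, hlow⟩ := lowerJ P K hb hp hW' hpW'
  have hcont : Continuous (fun ζ : Fin n → ℂ => (WithLp.toLp 2 ζ : Cn n)) :=
    PiLp.continuous_toLp 2 (fun _ : Fin n => ℂ)
  set DD : Set (Fin n → ℂ) := {ζ | WithLp.toLp 2 ζ ∈ (A.e i0).target ∧
    (A.e i0).symm (WithLp.toLp 2 ζ) ∈ W'} with hDD
  have hDDo : IsOpen DD := (isOpen_ti (A := A) (i := i0) hW').preimage hcont
  have hD0 : 0 ≤ D := (sq_nonneg _).trans (hD 1 one_pos le_rfl)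
  set r' : ℝ := min r 1 with hr'
  have hr'0 : 0 < r' := lt_min hr one_pos
  obtain ⟨C, hC0, hC⟩ := van (k := k) (r := r') (B := (c2 * c)⁻¹ * (C1 * n + 1) ^ (n + k) * D)
    hDDo hol hr'0
    (fun ζ hζ => hrW ζ (closedBall_subset_closedBall (min_le_left _ _) hζ)) (by positivity)
    (fun s hs hsr => by
      refine (hlow (n + k) C1 c2 (s ^ 2) hC1 hc2 (by positivity) (H s)
        (hw s hs (hsr.trans (min_le_right _ _))) s hs (hsr.trans (min_le_left _ _)) y).trans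
        (ENNReal.ofReal_le_ofReal ?_)
      have h1 := hD s hs (hsr.trans (min_le_right _ _))
      have h2 : C1 * (n * s ^ 2) + s ^ 2 = (C1 * n + 1) * s ^ 2 := by ring
      rw [h2, mul_pow, ← pow_mul]
      calc (c2 * c)⁻¹ * ((C1 * n + 1) ^ (n + k) * s ^ (2 * (n + k))) * (HB K (H s)).sn P y ^ 2
          ≤ (c2 * c)⁻¹ * ((C1 * n + 1) ^ (n + k) * s ^ (2 * (n + k))) * D :=
            mul_le_mul_of_nonneg_left h1 (by positivity)
        _ = _ := by ring)
  refine ⟨C, hC0, ?_⟩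
  filter_upwards [closedBall_mem_nhds (WithLp.ofLp (A.e i0 p)) (half_pos hr'0)] with ζ hζ
  exact hC ζ hζ

end

end Crest.Agent.R281.Js_578
end

-- ▼ part R281/Js2_578
section

/-!
# R281, JETS (2) SECTIONS (helper578), part 2: Hoermander–Demailly for metrics on `K⁻¹ ⊗ N`

* `user_H` : as `HoC_578.user_gen`, for metrics of `(KB A)⁻¹ * N` (no flat metric on `KB A`).
-/

set_option autoImplicit false
set_option linter.unusedSectionVars false
set_option linter.style.haveILetI false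

open Set Filter Topology Complex
open scoped ContDiff Matrix ComplexConjugate Kronecker ComplexOrder

namespace Crest.Agent.R281.Js_578

open Crest.Agent.R275 Crest.Agent.R275.Geo Crest.Agent.R275.Core144
open Crest.Agent.R273.Defs_333 Crest.Agent.R273.HM_333 Crest.Agent.R273.Kah_333
open Crest.Agent.R273.LamN127 Crest.Agent.R273.NV_578
open Crest.Agent.R273.NormC_505 Crest.Agent.R273.DnInt_505
open Crest.Agent.R273.DVec_733 Crest.Agent.R273.DMet_733 Crest.Agent.R273.DMetB_733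
open Crest.Agent.R273.HDN_505 (HB HB_pos Ku Ku_posDef Gam_smAt)
open Crest.Agent.R273.SerA_945
open Crest.Agent.R281.HoC_578

noncomputable section

variable {n : ℕ} {M : Type} [TopologicalSpace M] {A : Atl n M}
variable [T2Space M] [CompactSpace M] [Finite A.ι]

/-- **Hoermander–Demailly**, metrics on `K⁻¹ ⊗ N` -/
theorem user_H (P : Part A) (K : Kah A) {N : LB A} (H : ℕ → HM ((KB A)⁻¹ * N))
    (Href : HM ((KB A)⁻¹ * N)) {c : ℝ} (hc : 0 < c)
    (hlow : ∀ ν i, ∀ x ∈ (A.e i).source, c * Href.w i x ≤ (H ν).w i x)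
    {ε : ℕ → ℝ} (hε : ∀ ν, 0 < ε ν) (hε0 : Tendsto ε atTop (𝓝 0))
    (hpsd : ∀ ν i, ∀ x ∈ (A.e i).source, (cur (H ν) i x + (ε ν : ℂ) • K.g i x).PosSemidef)
    {y0 y1 : Fn A} (h0 : SmS N y0) (o0 : ∀ i, ∀ x ∉ (A.e i).source, y0 i x = 0)
    (h1 : SmS N y1) (o1 : ∀ i, ∀ x ∉ (A.e i).source, y1 i x = 0) {D : ℝ}
    (hD : ∀ ν, (HB K (H ν)).sn P ⟨embN y1, (embN_mem h1 o1).1⟩ ^ 2 ≤ D)
    (hpt : ∀ ν i, ∀ x ∈ (A.e i).source, ∀ ξ : Fin n → ℂ,
      ‖∑ a, A.db i a (y0 i) x * conj (ξ a)‖ ^ 2 ≤ ‖y1 i x‖ ^ 2 *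
        (∑ a, ∑ c, (cur (H ν) i x + (ε ν : ℂ) • K.g i x) a c * ξ a * conj (ξ c)).re) :
    ∃ (s : Fn A) (u : Sec (BN N)), IsHS N univ s ∧ u.1 = embN y0 - embN s ∧
      ∀ b : HM ((KB A)⁻¹ * N),
      (∀ᶠ ν in atTop, ∀ i, ∀ x ∈ (A.e i).source, b.w i x ≤ (H ν).w i x) →
      (HB K b).sn P u ^ 2 ≤ D := by
  have hm := embN_mem h0 o0
  have hm1 := embN_mem h1 o1
  let σ : Sec (BN N) := ⟨embN y0, hm.1⟩
  have hσ0 : Geo.pqL (BN N) 0 σ = σ := Subtype.ext (R273.SerE_945.pq_of_isDeg hm.2)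
  set g : Sec (BN N) := nabL (BN N) σ with hg
  have hg1 : Geo.pqL (BN N) 1 g = g := by
    have h2 := LinearMap.congr_fun (nabL_pqL (B := BN N) 0) σ
    simp only [LinearMap.comp_apply] at h2
    rw [hσ0] at h2
    exact h2.symm
  have hg0 : nabL (BN N) g = 0 := nab_nab_BN N σ
  obtain ⟨y, hy0, hy, hyn⟩ := l2_pt_gen P K g hg0 hg1 H Href hc hlow
    ε hε hε0 hpsd
    (fun ν => (HB K (H ν)).hd (embN y1) (embN y1)) D
    (fun ν => (HB K (H ν)).isDn hm1.1 hm1.1)
    (fun ν i x hx => by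
      rw [hd_embN, Complex.ofReal_re]
      exact mul_nonneg ((H ν).pos i x hx).le (sq_nonneg _))
    (fun ν => by
      have h3 := hD ν
      rw [HDen.sn_sq] at h3
      exact h3)
    (fun ν i x hx ξ => by
      rw [hd_embN, Complex.ofReal_re, mul_assoc]
      refine mul_le_mul_of_nonneg_left ?_ ((H ν).pos i x hx).le
      refine le_trans (le_of_eq ?_) (hpt ν i x hx ξ)
      congr 2
      refine Finset.sum_congr rfl fun a _ => ?_
      rw [← oB_nab_embN h0 o0 hx a]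
      rfl)
  -- the holomorphic section
  let yr : Raw A := y.1
  have hyF : yr ∈ FF N 0 := by
    refine ⟨y.2, ?_⟩
    intro i x κ hκ
    by_contra hne
    have h4 : y.1 i x κ = pq (BN N) 0 y.1 i x κ := by
      conv_lhs => rw [← hy0]
      rfl
    rw [pq_apply, if_neg hne] at h4
    exact hκ h4
  have hu : embN y0 - yr ∈ FF N 0 := (FF N 0).sub_mem hm hyF
  have hDu : Db (embN y0 - yr) = 0 := by
    rw [Db_sub hm hyF]
    have h2 : Db yr = Db (embN y0) := congrArg Subtype.val hy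
    rw [h2, sub_self]
  refine ⟨_, y, isHS_of_closed hu hDu, ?_, hyn⟩
  have h6 : embN (fun i x => (embN y0 - yr) i x (∅, ())) = embN y0 - yr := (eq_embN hu).symm
  show (y.1 : Raw A) = embN y0 - embN (fun i x => (embN y0 - yr) i x (∅, ()))
  rw [h6, sub_sub_cancel]

end

end Crest.Agent.R281.Js_578
end

-- ▼ part R281/Js6_578

/-!
# R281, JETS (2) SECTIONS (helper578), part 6: the cut off section and the metrics

* `cutdata` : near a point `x'`: a smooth section `y0`, holomorphic and nonzero near `x'`,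
  supported in a given neighbourhood, `|∂̄ y0|² ≤ |y1|² K`, `y1` supported away from `x'`;
* `Hm`, `Hm_w`, `cur_Hm_ge` : the metrics `h0 e^{-m1 W1 - m2 W2}`.
-/

set_option autoImplicit false
set_option linter.unusedSectionVars false

open Set Filter Topology Complex
open scoped ContDiff Matrix ComplexConjugate Kronecker ComplexOrder

namespace Crest.Agent.R281.Js_578

open Crest.Agent.R275 Crest.Agent.R275.Geo Crest.Agent.R275.Core144 Crest.Agent.R275.Dg199
open Crest.Agent.R273.Defs_333 Crest.Agent.R273.Kah_333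
open Crest.Agent.R273.Hess_333 Crest.Agent.R273.HessB_333
open Crest.Agent.R273.SerA_945 Crest.Agent.R273.SerB_945
open Crest.Agent.R272.Kod6_410 (cutC cutC_eq cutC_off smS_cutC)
open Crest.Agent.R281.LEnd_10 (sqw)
open Crest.Agent.R281.End_946 (psd_smul coe_smul')

noncomputable section

variable {n : ℕ} {M : Type} [TopologicalSpace M] {A : Atl n M}

theorem smN_real {f : M → ℝ} (hf : ∀ q, SmN A f q) (q : M) : SmN A (fun x => (f x : ℂ)) q :=
  (hf q).ofReal

theorem tsupport_ofReal (f : M → ℝ) : tsupport (fun x => (f x : ℂ)) = tsupport f := by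
  unfold tsupport
  congr 1
  ext x
  simp

variable [T2Space M] [CompactSpace M]

/-- **the cut off section** -/
theorem cutdata (K : Kah A) (N : LB A) {x' : M} {V : Set M} (hV : IsOpen V) (hx'V : x' ∈ V) :
    ∃ (y0 y1 : Fn A) (S0 S1 W : Set M), SmS N y0 ∧ (∀ i, ∀ x ∉ (A.e i).source, y0 i x = 0) ∧
      SmS N y1 ∧ (∀ i, ∀ x ∉ (A.e i).source, y1 i x = 0) ∧
      IsClosed S0 ∧ S0 ⊆ V ∧ (∀ i, ∀ x ∉ S0, y0 i x = 0) ∧
      IsClosed S1 ∧ S1 ⊆ V ∧ x' ∉ S1 ∧ (∀ i, ∀ x ∉ S1, y1 i x = 0) ∧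
      IsOpen W ∧ x' ∈ W ∧ (∀ i, HolAt A i W (y0 i)) ∧
      (∀ i, x' ∈ (A.e i).source → y0 i x' ≠ 0) ∧
      ∀ i, ∀ x ∈ (A.e i).source, ∀ ξ : Fin n → ℂ,
        ‖∑ a, A.db i a (y0 i) x * conj (ξ a)‖ ^ 2 ≤ ‖y1 i x‖ ^ 2 * qv (K.g i x) ξ := by
  obtain ⟨i', hi'⟩ := A.cover x'
  -- three bumps
  have hV1 : V ∩ (A.e i').source ∈ 𝓝 x' :=
    inter_mem (hV.mem_nhds hx'V) ((A.e i').open_source.mem_nhds hi')
  obtain ⟨χ₃, h3, h31, h3s, h3c, h30, h32⟩ := exists_bump A hV1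
  obtain ⟨W3, hW3, hW3o, hxW3⟩ := eventually_nhds_iff.1 h31
  obtain ⟨χ, hχ, hχ1, hχs, hχc, hχ0, hχ2⟩ := exists_bump A (hW3o.mem_nhds hxW3)
  obtain ⟨W, hW, hWo, hxW⟩ := eventually_nhds_iff.1 hχ1
  obtain ⟨χ₄, h4, h41, h4s, h4c, h40, h42⟩ := exists_bump A (hWo.mem_nhds hxW)
  obtain ⟨W4, hW4, hW4o, hxW4⟩ := eventually_nhds_iff.1 h41
  have hχsm : A.Sm χ := sm_iff.2 hχ
  obtain ⟨C, hC0, hC⟩ := exists_grad K hχsm hχ0 hχ2
  have hχV : tsupport χ ⊆ V ∩ (A.e i').source := by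
    intro y hy
    have h5 := hW3 y (hχs hy)
    exact h3s (subset_tsupport _ (by rw [Function.mem_support, h5]; exact one_ne_zero))
  set ψ : M → ℝ := fun x => Real.sqrt C * (χ₃ x * (1 - χ₄ x)) with hψ
  have hψs : ∀ q, SmN A ψ q := fun q => by
    have h5 := ((smN_const (A := A) (1 : ℝ) q).sub (h4 q))
    exact (smN_const (A := A) (Real.sqrt C) q).smul ((h3 q).smul h5)
  have hψt : tsupport ψ ⊆ tsupport χ₃ := by
    refine closure_minimal ?_ (isClosed_tsupport _)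
    intro y hy
    refine subset_tsupport _ ?_
    rw [Function.mem_support] at hy ⊢
    intro h5
    exact hy (by rw [hψ]; simp only [h5, zero_mul, mul_zero])
  have hψ4 : ∀ y ∈ W4, ψ y = 0 := fun y hy => by
    rw [hψ]
    simp only [hW4 y hy, sub_self, mul_zero]
  refine ⟨cutC N (fun x => (χ x : ℂ)) i', cutC N (fun x => (ψ x : ℂ)) i', tsupport χ,
    tsupport χ₃ \ W4, W ∩ (A.e i').source, ?_, cutC_off N _ i', ?_, cutC_off N _ i',
    isClosed_tsupport _, hχV.trans inter_subset_left, ?_, (isClosed_tsupport _).sdiff hW4o,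
    (sdiff_subset.trans h3s).trans inter_subset_left, fun h => h.2 hxW4, ?_,
    hWo.inter (A.e i').open_source, ⟨hxW, hi'⟩, ?_, ?_, ?_⟩
  · refine smS_cutC N (smN_real hχ) ?_
    rw [tsupport_ofReal]
    exact hχV.trans inter_subset_right
  · refine smS_cutC N (smN_real hψs) ?_
    rw [tsupport_ofReal]
    exact (hψt.trans h3s).trans inter_subset_right
  · intro i x hx
    by_cases hxs : x ∈ (A.e i).source
    · rw [cutC_eq N _ hxs, image_eq_zero_of_notMem_tsupport hx, Complex.ofReal_zero, zero_mul]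
    · exact cutC_off N _ i' i x hxs
  · intro i x hx
    by_cases hxs : x ∈ (A.e i).source
    · rw [cutC_eq N _ hxs]
      have : ψ x = 0 := by
        by_cases h5 : x ∈ W4
        · exact hψ4 x h5
        · exact image_eq_zero_of_notMem_tsupport fun h6 => hx ⟨hψt h6, h5⟩
      rw [this, Complex.ofReal_zero, zero_mul]
    · exact cutC_off N _ i' i x hxs
  · intro i
    refine ((N.hol i i').mono inter_subset_right).congr fun x hx hxW => ?_
    rw [cutC_eq N _ hx, hW x hxW.1, Complex.ofReal_one, one_mul]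
  · intro i hi
    rw [cutC_eq N _ hi, hW x' hxW, Complex.ofReal_one, one_mul]
    exact N.ne_zero i i' x'
  · intro i x hx ξ
    have hK := qv_nonneg (K.pos i x hx).posSemidef ξ
    have hR : 0 ≤ ‖cutC N (fun x => (ψ x : ℂ)) i' i x‖ ^ 2 * qv (K.g i x) ξ :=
      mul_nonneg (sq_nonneg _) hK
    by_cases hxχ : x ∈ tsupport χ
    · have hx' : x ∈ (A.e i').source := (hχV hxχ).2
      have hd1 : DifferentiableAt ℝ (fun z => ((χ ((A.e i).symm z) : ℝ) : ℂ)) (A.e i x) :=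
        ((smN_iff hx).1 (smN_real hχ x)).differentiableAt (by simp)
      have hd2 : DifferentiableAt ℝ (fun z => N.g i i' ((A.e i).symm z)) (A.e i x) :=
        ((N.hol i i').diffAt (A.e i').open_source hx hx').restrictScalars ℝ
      have e1 : ∀ a, A.db i a (cutC N (fun x => (χ x : ℂ)) i' i) x =
          A.db i a (fun x => (χ x : ℂ)) x * N.g i i' x := by
        intro a
        have e2 : A.db i a (cutC N (fun x => (χ x : ℂ)) i' i) x =
            A.db i a (fun y => (χ y : ℂ) * N.g i i' y) x := by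
          unfold Atl.db
          have e3 : (fun z => cutC N (fun x => (χ x : ℂ)) i' i ((A.e i).symm z)) =ᶠ[𝓝 (A.e i x)]
              fun z => (χ ((A.e i).symm z) : ℂ) * N.g i i' ((A.e i).symm z) := by
            filter_upwards [(A.e i).open_target.mem_nhds ((A.e i).map_source hx)] with z hz
            exact cutC_eq N _ ((A.e i).map_target hz)
          unfold dbj
          rw [e3.fderiv_eq]
        rw [e2, db_mul hd1 hd2 hx, (N.hol i i').db_zero (A.e i').open_source hx hx' a, mul_zero,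
          add_zero]
      have e4 : ∑ a, A.db i a (cutC N (fun x => (χ x : ℂ)) i' i) x * conj (ξ a) =
          N.g i i' x * ∑ a, A.db i a (fun x => (χ x : ℂ)) x * conj (ξ a) := by
        rw [Finset.mul_sum]
        refine Finset.sum_congr rfl fun a _ => ?_
        rw [e1 a]
        ring
      rw [e4, norm_mul, mul_pow]
      by_cases hxW : x ∈ W
      · have e5 : ∀ a, A.db i a (fun x => (χ x : ℂ)) x = 0 := by
          intro a
          unfold Atl.db dbj
          have e6 : (fun z => ((χ ((A.e i).symm z) : ℝ) : ℂ)) =ᶠ[𝓝 (A.e i x)] fun _ => 1 := by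
            filter_upwards [ev_symm hx (hWo.eventually_mem hxW)] with z hz
            rw [hW _ hz, Complex.ofReal_one]
          rw [e6.fderiv_eq]
          simp
        have e7 : ∑ a, A.db i a (fun x => (χ x : ℂ)) x * conj (ξ a) = 0 :=
          Finset.sum_eq_zero fun a _ => by rw [e5 a, zero_mul]
        rw [e7, norm_zero, zero_pow two_ne_zero, mul_zero]
        exact hR
      · have h5 : ψ x = Real.sqrt C := by
          have h6 : χ₃ x = 1 := hW3 x (hχs hxχ)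
          have h7 : χ₄ x = 0 := image_eq_zero_of_notMem_tsupport fun h => hxW (h4s h)
          rw [hψ]
          simp only [h6, h7, sub_zero, mul_one]
        rw [cutC_eq N _ hx, h5, norm_mul, mul_pow, Complex.norm_real, Real.norm_eq_abs, sq_abs,
          Real.sq_sqrt hC0]
        have h8 := mul_le_mul_of_nonneg_left (hC i x hx ξ) (sq_nonneg ‖N.g i i' x‖)
        linarith
    · have e5 : ∀ a, A.db i a (cutC N (fun x => (χ x : ℂ)) i' i) x = 0 := by
        intro a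
        unfold Atl.db dbj
        have e6 : (fun z => cutC N (fun x => (χ x : ℂ)) i' i ((A.e i).symm z)) =ᶠ[𝓝 (A.e i x)]
            fun _ => 0 := by
          filter_upwards [ev_symm hx ((isClosed_tsupport χ).isOpen_compl.eventually_mem hxχ),
            (A.e i).open_target.mem_nhds ((A.e i).map_source hx)] with z hz hz'
          rw [cutC_eq N _ ((A.e i).map_target hz'), image_eq_zero_of_notMem_tsupport hz,
            Complex.ofReal_zero, zero_mul]
        rw [e6.fderiv_eq]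
        simp
      have e7 : ∑ a, A.db i a (cutC N (fun x => (χ x : ℂ)) i' i) x * conj (ξ a) = 0 :=
        Finset.sum_eq_zero fun a _ => by rw [e5 a, zero_mul]
      rw [e7, norm_zero, zero_pow two_ne_zero]
      exact hR

/-! ### the metrics -/

section metrics

variable (D1 D2 : TW A) (m1 m2 : ℕ)

/-- the total weight -/
def wsum (d : ℝ) (x : M) : ℝ := m1 * D1.W d x + m2 * D2.W d x

theorem wsum_sm {d : ℝ} (hd : 0 < d) : A.Sm (wsum D1 D2 m1 m2 d) := fun i =>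
  (contDiffOn_const.mul (D1.W_sm hd i)).add (contDiffOn_const.mul (D2.W_sm hd i))

theorem hsf_wsum {d : ℝ} (hd : 0 < d) {i : A.ι} {x : M} (hx : x ∈ (A.e i).source) :
    hsf A (wsum D1 D2 m1 m2 d) i x =
      (m1 : ℝ) • hsf A (D1.W d) i x + (m2 : ℝ) • hsf A (D2.W d) i x := by
  have hz := (A.e i).map_source hx
  have h1 := sm_contDiffAt (D1.W_sm hd) i hz
  have h2 := sm_contDiffAt (D2.W_sm hd) i hz
  unfold hsf
  have e : (fun z => wsum D1 D2 m1 m2 d ((A.e i).symm z)) = fun z =>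
      (fun z => (m1 : ℝ) * D1.W d ((A.e i).symm z)) z +
      (fun z => (m2 : ℝ) * D2.W d ((A.e i).symm z)) z := rfl
  rw [e, hess_add (contDiffAt_const.mul h1) (contDiffAt_const.mul h2), hess_const_mul _ h1,
    hess_const_mul _ h2, coe_smul', coe_smul']

theorem wsum_mono {d d' : ℝ} (hd : 0 < d) (hdd : d ≤ d') (x : M) :
    wsum D1 D2 m1 m2 d x ≤ wsum D1 D2 m1 m2 d' x :=
  add_le_add (mul_le_mul_of_nonneg_left (D1.W_mono hd hdd x) (Nat.cast_nonneg _))
    (mul_le_mul_of_nonneg_left (D2.W_mono hd hdd x) (Nat.cast_nonneg _))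

variable {N : LB A} (h0 : HM N)

open Classical in
/-- the metric `h0 e^{-wsum}` -/
def Hm (d : ℝ) : HM N :=
  if hd : 0 < d then R273.HM_333.tw h0 (wsum D1 D2 m1 m2 d) (wsum_sm D1 D2 m1 m2 hd) else h0

theorem Hm_w {d : ℝ} (hd : 0 < d) (i : A.ι) (x : M) :
    (Hm D1 D2 m1 m2 h0 d).w i x = h0.w i x * Real.exp (-wsum D1 D2 m1 m2 d x) := by
  unfold Hm
  rw [dif_pos hd]
  rfl

theorem cur_Hm {d : ℝ} (hd : 0 < d) {i : A.ι} {x : M} (hx : x ∈ (A.e i).source) :
    cur (Hm D1 D2 m1 m2 h0 d) i x = cur h0 i x +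
      ((m1 : ℝ) • hsf A (D1.W d) i x + (m2 : ℝ) • hsf A (D2.W d) i x) := by
  unfold Hm
  rw [dif_pos hd, cur_tw _ _ i hx, hsf_wsum D1 D2 m1 m2 hd hx]

/-- **the curvature** -/
theorem cur_Hm_ge {K : Kah A} {κ1 κ2 : ℝ} (hκ10 : 0 ≤ κ1) (hκ20 : 0 ≤ κ2)
    (hκ1 : ∀ i, ∀ x ∈ (A.e i).source, x ∈ D1.U →
      sqw D1.w x ≤ 1 → (κ1 • K.g i x - hsf A (sqw D1.w) i x).PosSemidef)
    (hκ2 : ∀ i, ∀ x ∈ (A.e i).source, x ∈ D2.U →
      sqw D2.w x ≤ 1 → (κ2 • K.g i x - hsf A (sqw D2.w) i x).PosSemidef)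
    (hcur : ∀ i, ∀ x ∈ (A.e i).source,
      (cur h0 i x - (m1 * (CJ * κ1) + m2 * (CJ * κ2) + 1) • K.g i x).PosSemidef)
    {d : ℝ} (hd : 0 < d) (hd1 : d ≤ 1) {i : A.ι} {x : M} (hx : x ∈ (A.e i).source) :
    (cur (Hm D1 D2 m1 m2 h0 d) i x - K.g i x).PosSemidef := by
  have e1 := psd_smul (Nat.cast_nonneg m1) (D1.W_ge hκ10 hκ1 hd hd1 hx)
  have e2 := psd_smul (Nat.cast_nonneg m2) (D2.W_ge hκ20 hκ2 hd hd1 hx)
  have e3 := ((hcur i x hx).add e1).add e2
  have e4 : cur (Hm D1 D2 m1 m2 h0 d) i x - K.g i x =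
      (cur h0 i x - (m1 * (CJ * κ1) + m2 * (CJ * κ2) + 1) • K.g i x) +
      (m1 : ℝ) • (hsf A (D1.W d) i x + (CJ * κ1) • K.g i x) +
      (m2 : ℝ) • (hsf A (D2.W d) i x + (CJ * κ2) • K.g i x) := by
    rw [cur_Hm D1 D2 m1 m2 h0 hd hx]
    module
  rw [e4]
  exact e3

end metrics

end

end Crest.Agent.R281.Js_578
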