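import Crest.Agent.R281.Js6_578_Mg
import Crest.Agent.R281.Js8_578
import Crest.Agent.R281.AF4_867
import Mathlib
import Crest.Agent.R281.Gal4_257
import Crest.Agent.R273.ChowM_313
import Crest.Agent.R281.Qt1_922
import Crest.Agent.R281.AF3_867
import Crest.Agent.R281.LEnd0_10
import Crest.Agent.R273.LeviR_155
import Crest.Agent.R273.D13_505
import Crest.Agent.R281.Kas3_975

-- ▼ part R281/Js7_578
section

/-!
# R281, JETS (2) SECTIONS (helper578), part 7: the section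

* `sect` : `N` with a metric on `K⁻¹ ⊗ N` of curvature `≥ ((n+k1) CJ κ1 + (n+k2) CJ κ2 + 1) K`
  ⟹ a holomorphic section which vanishes to the order `k1` at `x` and is `≠ 0` at `x'`.
-/

set_option autoImplicit false
set_option linter.unusedSectionVars false

open Set Filter Topology Complex MeasureTheory Metric Asymptotics
open scoped ContDiff Matrix ComplexConjugate Kronecker ComplexOrder ENNReal

namespace Crest.Agent.R281.Js_578

open Crest.Agent.R275 Crest.Agent.R275.Geo Crest.Agent.R275.Core144 Crest.Agent.R275.Dg199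
open Crest.Agent.R273.Defs_333 Crest.Agent.R273.Kah_333
open Crest.Agent.R273.Hess_333 Crest.Agent.R273.HessB_333
open Crest.Agent.R273.LamN127 Crest.Agent.R273.NormC_505 Crest.Agent.R273.DnInt_505
open Crest.Agent.R273.DVec_733 Crest.Agent.R273.DMet_733
open Crest.Agent.R273.HDN_505 (HB HB_pos)
open Crest.Agent.R273.SerA_945 Crest.Agent.R273.SerB_945
open Crest.Agent.R272.Kod5_410 (Yf)
open Crest.Agent.R272.Kod3_410 (dsq dsq_nonneg)
open Crest.Agent.R281.LEnd_10 (sqw)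
open Crest.Agent.R281.End_946 (psd_smul coe_smul')
open Crest.Agent.R281.HoC_578 (hd_embN)

noncomputable section

variable {n : ℕ} {M : Type} [TopologicalSpace M] {A : Atl n M} {N : LB A}

theorem Yf_eq {y0 s : Fn A} {u : Sec (BN N)} (hu : u.1 = embN y0 - embN s) (i : A.ι)
    (ζ : Fin n → ℂ) : Yf i u.1 ζ = y0 i ((A.e i).symm (WithLp.toLp 2 ζ)) -
      s i ((A.e i).symm (WithLp.toLp 2 ζ)) := by
  rw [hu]
  rfl

section

variable [T2Space M]

/-- the pole of the weight -/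
theorem exists_pole (D : TW A) {p : M} (hp : p ∈ D.U) (h0 : D.w p = 0) {i : A.ι}
    (hi : p ∈ (A.e i).source) : ∃ C1 : ℝ, 0 ≤ C1 ∧ ∀ᶠ q in 𝓝 p, ∀ (m : ℕ) (d : ℝ), 0 < d →
      ((C1 * dsq A p i q + d ^ 2) ^ m)⁻¹ ≤ Real.exp (-(m * D.W d q)) := by
  obtain ⟨C, hC, hCe⟩ := D.exists_lip hp h0 hi
  have h1 : ∀ᶠ q in 𝓝 p, sqw D.w q < 1 / 4 := by
    have h2 : ContinuousAt (sqw D.w) p := D.sqw_cont.continuousAt (D.isOpen_U.mem_nhds hp)
    refine h2.eventually (gt_mem_nhds ?_)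
    have : sqw D.w p = 0 := by
      unfold sqw
      rw [h0]
      simp
    rw [this]
    norm_num
  refine ⟨C, hC.le, ?_⟩
  filter_upwards [hCe, h1, D.isOpen_U.mem_nhds hp] with q h1 h2 h3 m d hd
  have ht := sqw_nonneg D.w q
  have hp : 0 < sqw D.w q + d ^ 2 := by positivity
  rw [D.W_low h3 h2.le, Real.exp_neg, mul_comm (m : ℝ), Real.exp_mul, Real.exp_log hp, Real.rpow_natCast]
  exact inv_anti₀ (by positivity) (pow_le_pow_left₀ hp.le (by linarith) m)

end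

variable [T2Space M] [CompactSpace M] [Finite A.ι] (P : Part A) (K : Kah A)

/-- order of vanishing of `y0 - s` -/
theorem van_sec (h0 : HM ((KB A)⁻¹ * N)) {p : M} {i : A.ι} (hp : p ∈ (A.e i).source)
    {k : ℕ} {C1 c2 D : ℝ} (hC1 : 0 ≤ C1) (hc2 : 0 < c2) (H : ℝ → HM ((KB A)⁻¹ * N))
    (hw : ∀ᶠ q in 𝓝 p, ∀ d : ℝ, 0 < d → d ≤ 1 →
      c2 * h0.w i q * ((C1 * dsq A p i q + d ^ 2) ^ (n + k))⁻¹ ≤ (H d).w i q)
    {y0 s : Fn A} {u : Sec (BN N)} (hu : u.1 = embN y0 - embN s) (hs : IsHS N univ s)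
    (hD : ∀ d : ℝ, 0 < d → d ≤ 1 → (HB K (H d)).sn P u ^ 2 ≤ D)
    {W : Set M} (hW : IsOpen W) (hpW : p ∈ W) (hy0 : HolAt A i W (y0 i)) :
    ∃ C : ℝ, 0 ≤ C ∧ ∀ᶠ z in 𝓝 (A.e i p),
      ‖y0 i ((A.e i).symm z) - s i ((A.e i).symm z)‖ ≤ C * ‖z - A.e i p‖ ^ k := by
  obtain ⟨W2, hW2, hW2o, hpW2⟩ := eventually_nhds_iff.1 hw
  have hWo : IsOpen (W ∩ W2) := hW.inter hW2o
  obtain ⟨C, hC0, hC⟩ := vanJ P K h0 hp hWo ⟨hpW, hpW2⟩ (k := k) hC1 hc2 H
    (fun d hd hd1 q hq _ => hW2 q hq.2 d hd hd1) u hD (by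
      intro ζ hζ
      have h1 : DifferentiableAt ℂ (fun z => y0 i ((A.e i).symm z)) (WithLp.toLp 2 ζ) :=
        DifferentiableOn.differentiableAt hy0 ((isOpen_ti (A := A) hW).mem_nhds ⟨hζ.1, hζ.2.1⟩)
      have h2 : DifferentiableAt ℂ (fun z => s i ((A.e i).symm z)) (WithLp.toLp 2 ζ) :=
        DifferentiableOn.differentiableAt (hs.hol i)
          ((isOpen_ti (A := A) isOpen_univ).mem_nhds ⟨hζ.1, mem_univ _⟩)
      let E : (Fin n → ℂ) ≃L[ℂ] Cn n :=
        (PiLp.continuousLinearEquiv 2 ℂ (fun _ : Fin n => ℂ)).symm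
      have h3 : DifferentiableAt ℂ (fun ζ => E ζ) ζ := E.differentiableAt
      have h4 : DifferentiableAt ℂ (fun z => y0 i ((A.e i).symm z) - s i ((A.e i).symm z)) (E ζ) :=
        h1.sub h2
      have h5 := DifferentiableAt.comp ζ (f := fun ζ => E ζ) h4 h3
      refine DifferentiableAt.differentiableWithinAt ?_
      refine h5.congr_of_eventuallyEq (Eventually.of_forall fun ξ => ?_)
      exact Yf_eq hu i ξ)
  refine ⟨C, hC0, ?_⟩
  have h6 : Tendsto (fun z : Cn n => WithLp.ofLp z) (𝓝 (A.e i p)) (𝓝 (WithLp.ofLp (A.e i p))) :=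
    (PiLp.continuous_ofLp 2 (fun _ : Fin n => ℂ)).continuousAt
  filter_upwards [h6.eventually hC] with z hz
  rw [Yf_eq hu] at hz
  refine hz.trans (mul_le_mul_of_nonneg_left ?_ hC0)
  refine pow_le_pow_left₀ (norm_nonneg _) ?_ k
  have h7 : WithLp.ofLp z - WithLp.ofLp (A.e i p) = WithLp.ofLp (z - A.e i p) := rfl
  rw [h7]
  refine (pi_norm_le_iff_of_nonneg (norm_nonneg _)).2 fun a => ?_
  exact PiLp.norm_apply_le (z - A.e i p) a

include P in
/-- **the section** -/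
theorem sect (h0 : HM ((KB A)⁻¹ * N)) (D1 D2 : TW A)
    {κ1 κ2 : ℝ} (hκ10 : 0 ≤ κ1) (hκ20 : 0 ≤ κ2)
    (hκ1 : ∀ i, ∀ x ∈ (A.e i).source, x ∈ D1.U →
      sqw D1.w x ≤ 1 → (κ1 • K.g i x - hsf A (sqw D1.w) i x).PosSemidef)
    (hκ2 : ∀ i, ∀ x ∈ (A.e i).source, x ∈ D2.U →
      sqw D2.w x ≤ 1 → (κ2 • K.g i x - hsf A (sqw D2.w) i x).PosSemidef)
    {k1 k2 : ℕ}
    (hcur : ∀ i, ∀ x ∈ (A.e i).source,
      (cur h0 i x - (((n + k1 : ℕ) : ℝ) * (CJ * κ1) + ((n + k2 : ℕ) : ℝ) * (CJ * κ2) + 1) •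
        K.g i x).PosSemidef)
    {x x' : M} (hx : x ∈ D1.U) (hx0 : D1.w x = 0) (hx' : x' ∈ D2.U) (hx'0 : D2.w x' = 0)
    (huniq : ∀ y ∈ D2.U, D2.w y = 0 → y = x') (hne : x' ∈ D1.U → D1.w x' ≠ 0) (hk2 : 0 < k2) :
    ∃ s, IsHS N univ s ∧
      (∀ i, x ∈ (A.e i).source → (fun z => s i ((A.e i).symm z)) =O[𝓝 (A.e i x)]
        fun z => ‖z - A.e i x‖ ^ k1) ∧
      ∀ i, x' ∈ (A.e i).source → s i x' ≠ 0 := by
  set m1 : ℕ := n + k1 with hm1
  set m2 : ℕ := n + k2 with hm2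
  -- the zero set of `w1`
  have hZc : IsClosed ({y | y ∈ D1.U ∧ sqw D1.w y ≤ 1} ∩ sqw D1.w ⁻¹' {0}) :=
    (D1.sqw_cont.mono fun y hy => hy.1).preimage_isClosed_of_isClosed D1.cpt.isClosed
      isClosed_singleton
  set V : Set M := ({y | y ∈ D1.U ∧ sqw D1.w y ≤ 1} ∩ sqw D1.w ⁻¹' {0})ᶜ with hV
  have hVo : IsOpen V := hZc.isOpen_compl
  have sq0 : ∀ (D : TW A) (y : M), D.w y = 0 → sqw D.w y = 0 := fun D y h => by
    unfold sqw
    rw [h]
    simp
  have sq0' : ∀ (D : TW A) (y : M), sqw D.w y = 0 → D.w y = 0 := fun D y h => by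
    funext k
    have h2 := (Finset.sum_eq_zero_iff_of_nonneg fun a _ => sq_nonneg ‖D.w y a‖).1 h k
      (Finset.mem_univ k)
    simpa using h2
  have hVne : ∀ y ∈ V, y ∈ D1.U → D1.w y = 0 → False := fun y hy hyU hy0 =>
    hy ⟨⟨hyU, by rw [sq0 D1 y hy0]; exact zero_le_one⟩, sq0 D1 y hy0⟩
  have hx'V : x' ∈ V := fun h => hne h.1.1 (sq0' D1 x' h.2)
  obtain ⟨y0, y1, S0, S1, W, hy0, o0, hy1, o1, hS0, hS0V, hy0S, hS1, hS1V, hx'S1, hy1S, hW, hx'W,
    hy0W, hy0ne, hgrad⟩ := cutdata K N hVo hx'V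
  -- uniform bounds
  obtain ⟨B1, hB1⟩ := D1.exists_W_lower hS1 fun y hy hyU hy0 => hVne y (hS1V hy) hyU hy0
  obtain ⟨B2, hB2⟩ := D2.exists_W_lower hS1 fun y hy hyU hy0 => by
    rw [huniq y hyU hy0] at hy
    exact hx'S1 hy
  set E : ℝ := Real.exp (m1 * B1 + m2 * B2) with hE
  have hE0 : 0 < E := Real.exp_pos _
  set H : ℝ → HM ((KB A)⁻¹ * N) := Hm D1 D2 m1 m2 h0 with hH
  set dn : ℕ → ℝ := fun ν => 1 / ((ν : ℝ) + 1) with hdn
  have hdn0 : ∀ ν, 0 < dn ν := fun ν => by positivity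
  have hdn1 : ∀ ν, dn ν ≤ 1 := fun ν => by
    rw [hdn]
    exact div_le_one_of_le₀ (by linarith [Nat.cast_nonneg (α := ℝ) ν]) (by positivity)
  have hdnt : Tendsto dn atTop (𝓝 0) := tendsto_one_div_add_atTop_nhds_zero_nat
  have hcur' : ∀ d : ℝ, 0 < d → d ≤ 1 → ∀ i, ∀ x ∈ (A.e i).source,
      (cur (H d) i x - K.g i x).PosSemidef := fun d hd hd1 i x hx =>
    cur_Hm_ge D1 D2 m1 m2 h0 hκ10 hκ20 hκ1 hκ2 hcur hd hd1 hx
  have hmon : ∀ d d' : ℝ, 0 < d → d ≤ d' → ∀ i, ∀ x ∈ (A.e i).source,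
      (H d').w i x ≤ (H d).w i x := by
    intro d d' hd hdd i x hx
    rw [hH, Hm_w _ _ _ _ _ hd, Hm_w _ _ _ _ _ (hd.trans_le hdd)]
    refine mul_le_mul_of_nonneg_left ?_ (h0.pos i x hx).le
    refine Real.exp_le_exp.2 (neg_le_neg ?_)
    exact wsum_mono D1 D2 m1 m2 hd hdd x
  obtain ⟨s, u, hs, hu, hb⟩ := user_H P K (fun ν => H (dn ν)) (H 1) one_pos
    (fun ν i x hx => by
      rw [one_mul]
      exact hmon _ _ (hdn0 ν) (hdn1 ν) i x hx)
    (ε := dn) hdn0 hdnt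
    (fun ν i x hx => by
      have h1 := (hcur' (dn ν) (hdn0 ν) (hdn1 ν) i x hx).add
        (psd_smul (r := 1 + dn ν) (by linarith [hdn0 ν]) (K.pos i x hx).posSemidef)
      have e : cur (H (dn ν)) i x - K.g i x + (1 + dn ν) • K.g i x =
          cur (H (dn ν)) i x + ((dn ν : ℝ) : ℂ) • K.g i x := by
        rw [coe_smul']
        module
      rwa [e] at h1)
    hy0 o0 hy1 o1
    (D := E * (HB K h0).sn P ⟨embN y1, (embN_mem hy1 o1).1⟩ ^ 2)
    (fun ν => by
      rw [HDen.sn_sq, HDen.sn_sq]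
      have h1 : E * ((HB K h0).ip P (embN y1) (embN y1)).re =
          (IntP P (fun i x => ((E : ℝ) : ℂ) * (HB K h0).hd (embN y1) (embN y1) i x)).re := by
        rw [IntP_const_mul, Complex.re_ofReal_mul]
        rfl
      show ((HB K (H (dn ν))).ip P (embN y1) (embN y1)).re ≤
        E * ((HB K h0).ip P (embN y1) (embN y1)).re
      rw [h1]
      refine IntP_re_mono P ((HB K (H (dn ν))).isDn (embN_mem hy1 o1).1 (embN_mem hy1 o1).1)
        (((HB K h0).isDn (embN_mem hy1 o1).1 (embN_mem hy1 o1).1).const_mul _)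
        fun i x hx => ?_
      rw [hd_embN, hd_embN, Complex.re_ofReal_mul, Complex.ofReal_re, Complex.ofReal_re]
      have hw0 := (h0.pos i x hx).le
      by_cases hxS : x ∈ S1
      · rw [hH, Hm_w _ _ _ _ _ (hdn0 ν)]
        have h2 := hB1 (dn ν) (hdn0 ν) (hdn1 ν) x hxS
        have h3 := hB2 (dn ν) (hdn0 ν) (hdn1 ν) x hxS
        have h4 : Real.exp (-wsum D1 D2 m1 m2 (dn ν) x) ≤ E := by
          refine Real.exp_le_exp.2 ?_
          unfold wsum
          have h5 := mul_le_mul_of_nonneg_left h2 (Nat.cast_nonneg (α := ℝ) m1)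
          have h6 := mul_le_mul_of_nonneg_left h3 (Nat.cast_nonneg (α := ℝ) m2)
          linarith
        have h5 := mul_le_mul_of_nonneg_left h4 (mul_nonneg hw0 (sq_nonneg ‖y1 i x‖))
        nlinarith
      · rw [hy1S i x hxS, norm_zero, zero_pow two_ne_zero, mul_zero, mul_zero, mul_zero])
    (fun ν i x hx ξ => by
      refine (hgrad i x hx ξ).trans (mul_le_mul_of_nonneg_left ?_ (sq_nonneg _))
      have h1 := (hcur' (dn ν) (hdn0 ν) (hdn1 ν) i x hx).add
        (psd_smul (r := dn ν) (hdn0 ν).le (K.pos i x hx).posSemidef)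
      have e : cur (H (dn ν)) i x - K.g i x + dn ν • K.g i x =
          (cur (H (dn ν)) i x + ((dn ν : ℝ) : ℂ) • K.g i x) - K.g i x := by
        rw [coe_smul']
        module
      rw [e] at h1
      have h2 := qv_nonneg h1 ξ
      rw [qv_sub] at h2
      exact sub_nonneg.1 h2)
  -- the bound for every `d`
  have hbd : ∀ d : ℝ, 0 < d → d ≤ 1 → (HB K (H d)).sn P u ^ 2 ≤
      E * (HB K h0).sn P ⟨embN y1, (embN_mem hy1 o1).1⟩ ^ 2 := by
    intro d hd _
    refine hb (H d) ?_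
    filter_upwards [hdnt.eventually (gt_mem_nhds hd)] with ν hν i x hx
    exact hmon _ _ (hdn0 ν) hν.le i x hx
  refine ⟨s, hs, fun i hi => ?_, fun i hi => ?_⟩
  · -- at `x`
    obtain ⟨C1, hC1, hC1e⟩ := exists_pole D1 hx hx0 hi
    have hxS0 : x ∉ S0 := fun h => hVne x (hS0V h) hx hx0
    obtain ⟨C, hC0, hC⟩ := van_sec P K h0 hi (k := k1) (c2 := Real.exp (-(m2 * TW.CW))) hC1
      (Real.exp_pos _) H (by
        filter_upwards [hC1e, (A.e i).open_source.mem_nhds hi] with q hq hqs d hd hd1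
        rw [hH, Hm_w _ _ _ _ _ hd]
        have h1 := hq m1 d hd
        have h2 : Real.exp (-(m2 * TW.CW)) ≤ Real.exp (-(m2 * D2.W d q)) :=
          Real.exp_le_exp.2 (neg_le_neg (mul_le_mul_of_nonneg_left (D2.W_le hd hd1 q)
            (Nat.cast_nonneg _)))
        have h3 : Real.exp (-wsum D1 D2 m1 m2 d q) =
            Real.exp (-(m1 * D1.W d q)) * Real.exp (-(m2 * D2.W d q)) := by
          rw [← Real.exp_add]
          congr 1
          unfold wsum
          ring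
        rw [h3]
        have hw0 := (h0.pos i q hqs).le
        have hds := dsq_nonneg (A := A) x i q
        have h4 : ((C1 * dsq A x i q + d ^ 2) ^ m1)⁻¹ * Real.exp (-(m2 * TW.CW)) ≤
            Real.exp (-(m1 * D1.W d q)) * Real.exp (-(m2 * D2.W d q)) :=
          mul_le_mul h1 h2 (Real.exp_pos _).le (Real.exp_pos _).le
        have h5 := mul_le_mul_of_nonneg_left h4 hw0
        refine le_trans (le_of_eq ?_) h5
        ring)
      hu hs hbd hS0.isOpen_compl hxS0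
      (by
        refine (show HolAt A i S0ᶜ (fun _ => (0 : ℂ)) from differentiableOn_const _).congr fun q _ hq => ?_
        rw [hy0S i q hq])
    refine IsBigO.of_bound C ?_
    have h1 : ∀ᶠ z in 𝓝 (A.e i x), (A.e i).symm z ∈ S0ᶜ :=
      ev_symm hi (hS0.isOpen_compl.eventually_mem hxS0)
    filter_upwards [hC, h1] with z hz hz'
    rw [hy0S i _ hz', zero_sub, norm_neg] at hz
    rw [norm_pow, norm_norm]
    exact hz
  · -- at `x'`
    obtain ⟨C1, hC1, hC1e⟩ := exists_pole D2 hx' hx'0 hi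
    obtain ⟨C, hC0, hC⟩ := van_sec P K h0 hi (k := k2) (c2 := Real.exp (-(m1 * TW.CW))) hC1
      (Real.exp_pos _) H (by
        filter_upwards [hC1e, (A.e i).open_source.mem_nhds hi] with q hq hqs d hd hd1
        rw [hH, Hm_w _ _ _ _ _ hd]
        have h1 := hq m2 d hd
        have h2 : Real.exp (-(m1 * TW.CW)) ≤ Real.exp (-(m1 * D1.W d q)) :=
          Real.exp_le_exp.2 (neg_le_neg (mul_le_mul_of_nonneg_left (D1.W_le hd hd1 q)
            (Nat.cast_nonneg _)))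
        have h3 : Real.exp (-wsum D1 D2 m1 m2 d q) =
            Real.exp (-(m2 * D2.W d q)) * Real.exp (-(m1 * D1.W d q)) := by
          rw [← Real.exp_add]
          congr 1
          unfold wsum
          ring
        rw [h3]
        have hw0 := (h0.pos i q hqs).le
        have hds := dsq_nonneg (A := A) x' i q
        have h4 : ((C1 * dsq A x' i q + d ^ 2) ^ m2)⁻¹ * Real.exp (-(m1 * TW.CW)) ≤
            Real.exp (-(m2 * D2.W d q)) * Real.exp (-(m1 * D1.W d q)) :=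
          mul_le_mul h1 h2 (Real.exp_pos _).le (Real.exp_pos _).le
        have h5 := mul_le_mul_of_nonneg_left h4 hw0
        refine le_trans (le_of_eq ?_) h5
        ring)
      hu hs hbd hW hx'W (hy0W i)
    have h1 := hC.self_of_nhds
    rw [(A.e i).left_inv hi, sub_self, norm_zero, zero_pow hk2.ne', mul_zero, norm_le_zero_iff,
      sub_eq_zero] at h1
    rw [← h1]
    exact hy0ne i hi

end

end Crest.Agent.R281.Js_578
end

-- ▼ part R281/Js9_578
section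

/-!
# R281, JETS (2) SECTIONS (helper578), part 9: the sections over a quantified tube

* `CS` : the absolute constant, `1 ≤ CS`;
* `sections` : `cur h = c K`, `CS κ² ≤ R²` ⟹ for all large `p`, all `x` with `|f x| < R / 2`, all `x'`
  outside the fibre of `x`, all `m ≤ 3 κ c p + 1` : a section of `L ^ p` which vanishes to the
  order `m` at `x` and is `≠ 0` at `x'`.
-/

set_option autoImplicit false
set_option linter.unusedSectionVars false

open Set Filter Topology Complex Metric Asymptotics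
open scoped ContDiff Matrix ComplexConjugate ComplexOrder

namespace Crest.Agent.R281.Js_578

open Crest.Agent.R275.Geo Crest.Agent.R275.Core144 Crest.Agent.R275.EDR890 Crest.Agent.R273
open Crest.Agent.R275.Dg199
open Crest.Agent.R273.Defs_333 Crest.Agent.R273.HM_333 Crest.Agent.R273.Kah_333
open Crest.Agent.R273.Hess_333 Crest.Agent.R273.HessB_333
open Crest.Agent.R273.SerD_945
open Crest.Agent.R281.LEnd_10 (sqw)
open Crest.Agent.R281.End_946 (psd_smul coe_smul')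
open Crest.Agent.R281.Qt_922

noncomputable section

/-- the absolute constant -/
def CS : ℝ := 48 * CJ + 1

theorem one_le_CS : 1 ≤ CS := by
  unfold CS
  linarith [CJ_nonneg]

variable {n : ℕ} {M : Type} [TopologicalSpace M] {A : Atl n M}
variable [T2Space M] [CompactSpace M] [Finite A.ι] (P : Part A) (K : Kah A)

include P in
/-- **sections over a quantified tube** -/
theorem sections {L : LB A} (h : HM L) {c : ℝ} (hc : 0 < c)
    (hcur : ∀ i, ∀ x ∈ (A.e i).source, cur h i x = (c : ℂ) • K.g i x) {d : ℕ} {κ R : ℝ}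
    (hκ : 0 ≤ κ) (hR : CS * κ ^ 2 ≤ R ^ 2) (Q : QTube A K d κ R) :
    ∃ p0 : ℕ, ∀ p, p0 ≤ p → ∀ m : ℕ, (m : ℝ) ≤ 3 * κ * c * p + 1 → ∀ x ∈ Q.U, ‖Q.f x‖ < R / 2 →
      ∀ x' : M, ¬ (x' ∈ Q.U ∧ Q.f x' = Q.f x) → ∃ s, IsHS (L ^ p) univ s ∧
        (∀ i, x ∈ (A.e i).source → (fun z => s i ((A.e i).symm z)) =O[𝓝 (A.e i x)]
          fun z => ‖z - A.e i x‖ ^ m) ∧
        ∀ i, x' ∈ (A.e i).source → s i x' ≠ 0 := by
  obtain ⟨g0⟩ := exists_hm P (KB A)⁻¹
  obtain ⟨t0, ht0⟩ := exists_pos_add K.g (cur g0) (fun i a b => smAt_cont (K.sm i a b))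
    (cur_cont g0) K.pos (fun i x hx => cur_herm g0 i hx) (fun i j x hx => K.tr i j x hx)
    (fun i j x hx => cur_tr g0 hx)
  obtain ⟨κ2, hκ20, hpt⟩ := exists_pt K
  set T : ℝ := t0 + (n + 1) * (CJ * κ2) + (n + 1) * (CJ * (κ / (R / 2) ^ 2)) + 1 with hT
  obtain ⟨p0, hp0⟩ := exists_nat_ge (2 * T / c)
  refine ⟨p0, fun p hp m hm x hx hxR x' hx' => ?_⟩
  have hR0 : 0 < R := by
    have := norm_nonneg (Q.f x)
    linarith
  have hcR : ‖Q.f x‖ + R / 2 < R := by linarith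
  obtain ⟨D2, h2U, h2w, h2u, h2κ⟩ := hpt x'
  set κ1 : ℝ := κ / (R / 2) ^ 2 with hκ1
  have hκ10 : 0 ≤ κ1 := by positivity
  have hCJ := CJ_nonneg
  -- the numbers
  have hpc : T ≤ p * c / 2 := by
    have h1 : 2 * T / c ≤ p := hp0.trans (by exact_mod_cast hp)
    rw [div_le_iff₀ hc] at h1
    linarith
  have hkey : 3 * κ * c * p * (CJ * κ1) ≤ p * c / 4 := by
    have h1 : 48 * CJ * κ ^ 2 ≤ R ^ 2 := by
      refine le_trans ?_ hR
      unfold CS
      nlinarith [sq_nonneg κ]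
    have h2 : 3 * κ * c * p * (CJ * κ1) = (12 * (CJ * κ ^ 2) / R ^ 2) * (p * c) := by
      rw [hκ1]
      field_simp
      ring
    have h3 : 12 * (CJ * κ ^ 2) / R ^ 2 ≤ 1 / 4 := by
      rw [div_le_iff₀ (by positivity)]
      linarith
    rw [h2]
    have h4 : 0 ≤ p * c := by positivity
    nlinarith
  have hnum : ((n + m : ℕ) : ℝ) * (CJ * κ1) + ((n + 1 : ℕ) : ℝ) * (CJ * κ2) + 1 + t0 ≤ p * c := by
    push_cast
    have h1 : (m : ℝ) * (CJ * κ1) ≤ (3 * κ * c * p + 1) * (CJ * κ1) :=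
      mul_le_mul_of_nonneg_right hm (by positivity)
    have h2 : 0 ≤ p * c := by positivity
    nlinarith
  refine sect P K (HM_333.mul g0 (HM_333.pow h p)) (ofQT Q (Q.f x) (half_pos hR0) hcR) D2 hκ10 hκ20
    (fun i y hy hyU _ => ofQT_psd Q (Q.f x) (half_pos hR0) hcR hy hyU) h2κ (k1 := m) (k2 := 1) ?_
    hx ((ofQT_w Q (Q.f x) (half_pos hR0) hcR).2 rfl) h2U h2w h2u
    (fun hU h0 => hx' ⟨hU, (ofQT_w Q (Q.f x) (half_pos hR0) hcR).1 h0⟩) one_pos
  intro i y hy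
  have h1 := (ht0 t0 le_rfl i y hy).posSemidef
  have h2 := psd_smul (sub_nonneg.2 hnum) (K.pos i y hy).posSemidef
  have e : cur (HM_333.mul g0 (HM_333.pow h p)) i y -
      (((n + m : ℕ) : ℝ) * (CJ * κ1) + ((n + 1 : ℕ) : ℝ) * (CJ * κ2) + 1) • K.g i y =
      (cur g0 i y + (t0 : ℂ) • K.g i y) + (p * c -
        (((n + m : ℕ) : ℝ) * (CJ * κ1) + ((n + 1 : ℕ) : ℝ) * (CJ * κ2) + 1 + t0)) • K.g i y := by
    rw [cur_mul _ _ i hy, cur_pow _ _ i hy, hcur i y hy, coe_smul', coe_smul']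
    have e2 : (p : ℂ) • c • K.g i y = ((p : ℝ) * c) • K.g i y := by
      ext a b
      simp only [Matrix.smul_apply, smul_eq_mul, Complex.real_smul]
      push_cast
      ring
    rw [e2]
    module
  rw [e]
  exact h1.add h2


end

end Crest.Agent.R281.Js_578
end

-- ▼ part R281/Loc1_310
section

/-!
# R281, JETALG (e) (helper310): affine local description of a projective manifold

`loc_aff` : from 867's `Eqs F E` (homogeneous equations of the cone) to the affine equations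
`aff E j0 = E ∪ {X_{j0} - 1}` in the affine coordinates `F_k / F_{j0}`.
-/

set_option autoImplicit false
set_option linter.unusedSectionVars false

open Set Filter Topology Complex

namespace Crest.Agent.R281.Loc_310

open Crest.Agent.R275 Crest.Agent.R275.Geo Crest.Agent.R275.Core144
open Crest.Agent.R273.SerA_945 Crest.Agent.R273.SerB_945 Crest.Agent.R273.SerC_945
open Crest.Agent.R273.SerE_945 Crest.Agent.R273.TD3_733 Crest.Agent.R273.FS_333
open Crest.Agent.R273.Defs_333 Crest.Agent.R273.SteinC_794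
open Crest.Agent.R273.Chow_313 Crest.Agent.R260.Zt_313
open Crest.Agent.R281.AF_867

noncomputable section

/-- affine equations : the homogeneous ones and `X_{j0} = 1` -/
def aff {κ : Type*} (E : Set (MvPolynomial κ ℂ)) (j0 : κ) : Set (MvPolynomial κ ℂ) :=
  insert (MvPolynomial.X j0 - 1) E

theorem dE_aff {κ : Type*} [Fintype κ] (j0 : κ) (v t : κ → ℂ) :
    dE (MvPolynomial.X j0 - 1 : MvPolynomial κ ℂ) v t = t j0 := by
  classical
  have h1 : (1 : MvPolynomial κ ℂ) = MvPolynomial.C 1 := by simp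
  rw [dE_sub, dE_X, h1, dE_C, sub_zero]

variable {n : ℕ} {M : Type} [TopologicalSpace M] {A : Atl n M} {O : LB A} {r : ℕ}

/-- affine coordinates read in the chart `i` around `x` -/
def th (A : Atl n M) (F : Fin r → Fn A) (j0 : Fin r) (i : A.ι) (x : M) : Cn n → Fin r → ℂ :=
  fun t k => F k i ((A.e i).symm (A.e i x + t)) / F j0 i ((A.e i).symm (A.e i x + t))

theorem th_zero (F : Fin r → Fn A) (j0 : Fin r) {i : A.ι} {x : M} (hx : x ∈ (A.e i).source) :
    th A F j0 i x 0 = fun k => F k i x / F j0 i x := by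
  funext k
  simp only [th, add_zero, (A.e i).left_inv hx]

/-- holomorphic functions are analytic -/
theorem an_of_hol {i : A.ι} {f : M → ℂ} (hf : HolAt A i univ f) {x : M}
    (hx : x ∈ (A.e i).source) : AnalyticAt ℂ (fun w => f ((A.e i).symm w)) (A.e i x) := by
  have hU : IsOpen ((A.e i).target ∩ (A.e i).symm ⁻¹' univ) := isOpen_ti isOpen_univ
  have h1 := (Crest.Agent.R266.SCV.contDiffOn_omega_of_differentiableOn hU hf).contDiffAt
    (hU.mem_nhds ⟨(A.e i).map_source hx, mem_univ _⟩)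
  exact h1.analyticAt

theorem an_shift {G : Type*} [NormedAddCommGroup G] [NormedSpace ℂ G] {f : Cn n → G} {z : Cn n}
    (hf : AnalyticAt ℂ f z) : AnalyticAt ℂ (fun t => f (z + t)) 0 := by
  refine AnalyticAt.comp (g := f) (f := fun t => z + t) (by rw [add_zero]; exact hf) ?_
  exact analyticAt_const.add analyticAt_id

/-- **local description in affine coordinates** -/
theorem loc_aff {F : Fin r → Fn A} (hF : ∀ k, IsHS O univ (F k))
    {E : Set (MvPolynomial (Fin r) ℂ)} (hE : Eqs F E) {i : A.ι} {x : M}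
    (hx : x ∈ (A.e i).source)
    (imm : ∀ v : Cn n, (∃ c : ℂ, ∀ k, df A i (F k i) x v = c * F k i x) → v = 0)
    {j0 : Fin r} (h0 : F j0 i x ≠ 0) :
    AnalyticAt ℂ (th A F j0 i x) 0 ∧
    (∀ p ∈ aff E j0, ∀ᶠ t in 𝓝 (0 : Cn n), MvPolynomial.eval (th A F j0 i x t) p = 0) ∧
    Function.Injective (fderiv ℂ (th A F j0 i x) 0) ∧
    (∀ t : Fin r → ℂ, (∀ p ∈ aff E j0, dE p (th A F j0 i x 0) t = 0) →
      t ∈ range (fderiv ℂ (th A F j0 i x) 0)) ∧
    (∀ u, fderiv ℂ (th A F j0 i x) 0 u = fun k => (df A i (F k i) x u * F j0 i x -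
      F k i x * df A i (F j0 i) x u) / F j0 i x ^ 2) := by
  have han : ∀ k, AnalyticAt ℂ (fun t : Cn n => F k i ((A.e i).symm (A.e i x + t))) 0 :=
    fun k => an_shift (an_of_hol ((hF k).hol i) hx)
  have hval : ∀ k, F k i ((A.e i).symm (A.e i x + 0)) = F k i x := fun k => by
    rw [add_zero, (A.e i).left_inv hx]
  have hth : AnalyticAt ℂ (th A F j0 i x) 0 :=
    AnalyticAt.pi fun k => (han k).div (han j0) (by rw [hval]; exact h0)
  have hne : ∀ᶠ t in 𝓝 (0 : Cn n), F j0 i ((A.e i).symm (A.e i x + t)) ≠ 0 :=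
    (han j0).continuousAt.eventually_ne (by rw [hval]; exact h0)
  have hsrc : ∀ᶠ t in 𝓝 (0 : Cn n), (A.e i).symm (A.e i x + t) ∈ (A.e i).source := by
    have h1 : Tendsto (fun t : Cn n => A.e i x + t) (𝓝 0) (𝓝 (A.e i x)) := by
      have h2 : Continuous fun t : Cn n => A.e i x + t := continuous_const.add continuous_id
      have h3 := h2.tendsto 0
      rwa [add_zero] at h3
    filter_upwards [h1.eventually ((A.e i).open_target.mem_nhds ((A.e i).map_source hx))]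
      with t ht
    exact (A.e i).map_target ht
  -- derivative
  have hd0 : ∀ k, HasFDerivAt (fun t : Cn n => F k i ((A.e i).symm (A.e i x + t)))
      (df A i (F k i) x) 0 := by
    intro k
    have h1 : HasFDerivAt (fun w : Cn n => F k i ((A.e i).symm w)) (df A i (F k i) x)
        (A.e i x + 0) := by
      rw [add_zero]
      exact (((hF k).hol i).diffAt isOpen_univ hx (mem_univ x)).hasFDerivAt
    have h2 : HasFDerivAt (fun t : Cn n => A.e i x + t) (ContinuousLinearMap.id ℂ (Cn n)) 0 :=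
      (hasFDerivAt_id (0 : Cn n)).const_add _
    have h3 := HasFDerivAt.comp (g := fun w : Cn n => F k i ((A.e i).symm w))
      (f := fun t : Cn n => A.e i x + t) (0 : Cn n) h1 h2
    exact h3.congr_fderiv (ContinuousLinearMap.comp_id _)
  have hder : ∀ u, fderiv ℂ (th A F j0 i x) 0 u = fun k => (df A i (F k i) x u * F j0 i x -
      F k i x * df A i (F j0 i) x u) / F j0 i x ^ 2 := by
    intro u
    funext k
    have h1 : HasFDerivAt (fun t : Cn n => th A F j0 i x t k)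
        ((ContinuousLinearMap.proj k : (Fin r → ℂ) →L[ℂ] ℂ).comp
          (fderiv ℂ (th A F j0 i x) 0)) 0 := by
      exact (ContinuousLinearMap.proj k : (Fin r → ℂ) →L[ℂ] ℂ).hasFDerivAt.comp 0
        hth.differentiableAt.hasFDerivAt
    have h2 := h1.fun_mul (hd0 j0)
    have h4 : (fun t : Cn n => F k i ((A.e i).symm (A.e i x + t))) =ᶠ[𝓝 0]
        fun t => th A F j0 i x t k * F j0 i ((A.e i).symm (A.e i x + t)) := by
      filter_upwards [hne] with t ht
      simp only [th]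
      rw [div_mul_cancel₀ _ ht]
    have h3 := DFunLike.congr_fun ((hd0 k).unique (h2.congr_of_eventuallyEq h4)) u
    simp only [add_apply, smul_apply, smul_eq_mul, ContinuousLinearMap.comp_apply,
      ContinuousLinearMap.proj_apply, hval] at h3
    have h5 : th A F j0 i x 0 k = F k i x / F j0 i x := congrFun (th_zero F j0 hx) k
    rw [h5] at h3
    rw [h3]
    field_simp
    ring
  refine ⟨hth, ?_, ?_, ?_, hder⟩
  · rintro p (rfl | hp)
    · filter_upwards [hne] with t ht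
      simp only [map_sub, MvPolynomial.eval_X, map_one, th]
      rw [div_self ht, sub_self]
    · obtain ⟨⟨d, hd⟩, hz⟩ := hE.rel hp
      filter_upwards [hne, hsrc] with t ht hts
      have h1 : th A F j0 i x t = (F j0 i ((A.e i).symm (A.e i x + t)))⁻¹ •
          fun k => F k i ((A.e i).symm (A.e i x + t)) := by
        funext k
        simp only [th, Pi.smul_apply, smul_eq_mul]
        rw [div_eq_inv_mul]
      rw [h1, eval_smul hd, hz i _ hts, mul_zero]
  · intro u u' huu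
    have h1 : fderiv ℂ (th A F j0 i x) 0 (u - u') = 0 := by
      rw [map_sub, huu, sub_self]
    rw [hder] at h1
    have h2 : u - u' = 0 := by
      refine imm _ ⟨df A i (F j0 i) x (u - u') / F j0 i x, fun k => ?_⟩
      have h3 := congrFun h1 k
      simp only [Pi.zero_apply] at h3
      have h4 : df A i (F k i) x (u - u') * F j0 i x -
          F k i x * df A i (F j0 i) x (u - u') = 0 := by
        rcases div_eq_zero_iff.1 h3 with h5 | h5
        · exact h5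
        · exact absurd (pow_eq_zero_iff (two_ne_zero) |>.1 h5) h0
      field_simp
      linear_combination h4
    exact sub_eq_zero.1 h2
  · intro t ht
    have ht0 : t j0 = 0 := by
      have := ht _ (mem_insert _ _)
      rwa [dE_aff] at this
    have h1 : ∀ p ∈ E, dE p (fun k => F k i x) t = 0 := by
      intro p hp
      obtain ⟨⟨d, hd⟩, hz⟩ := hE.rel hp
      have h2 := ht p (mem_insert_of_mem _ hp)
      have h3 : th A F j0 i x 0 = (F j0 i x)⁻¹ • fun k => F k i x := by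
        rw [th_zero F j0 hx]
        funext k
        simp only [Pi.smul_apply, smul_eq_mul]
        rw [div_eq_inv_mul]
      rw [h3, dE_smul_left hd] at h2
      rcases mul_eq_zero.1 h2 with h4 | h4
      · exact absurd h4 (pow_ne_zero _ (inv_ne_zero h0))
      · exact h4
    obtain ⟨a, u, htu⟩ := hE.tan i x hx t h1
    have h2 : a * F j0 i x + df A i (F j0 i) x u = 0 := by
      rw [← ht0, htu]
    refine ⟨F j0 i x • u, ?_⟩
    rw [hder]
    funext k
    simp only [map_smul, smul_eq_mul]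
    rw [htu]
    field_simp
    linear_combination (-(F k i x)) * h2

/-- the zeros of the affine equations -/
theorem pt_aff {F : Fin r → Fn A} {E : Set (MvPolynomial (Fin r) ℂ)} (hE : Eqs F E) {j0 : Fin r}
    {v : Fin r → ℂ} (hv : ∀ p ∈ aff E j0, MvPolynomial.eval v p = 0) :
    ∃ i, ∃ x ∈ (A.e i).source, F j0 i x ≠ 0 ∧ v = fun k => F k i x / F j0 i x := by
  have h1 : v j0 = 1 := by
    have := hv _ (mem_insert _ _)
    simp only [map_sub, MvPolynomial.eval_X, map_one] at this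
    exact sub_eq_zero.1 this
  have h2 : v ≠ 0 := by
    rintro rfl
    simp at h1
  obtain ⟨i, x, hx, c, hc, hvc⟩ := hE.pt v h2 fun p hp => hv p (mem_insert_of_mem _ hp)
  have h3 : c * F j0 i x = 1 := by
    rw [← h1, hvc]
    rfl
  have h4 : F j0 i x ≠ 0 := right_ne_zero_of_mul_eq_one h3
  refine ⟨i, x, hx, h4, ?_⟩
  rw [hvc]
  funext k
  simp only [Pi.smul_apply, smul_eq_mul]
  rw [eq_div_iff h4]
  linear_combination (F k i x) * h3

end

end Crest.Agent.R281.Loc_310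
end

-- ▼ part R281/Ja1_257
section

/-!
# Row 281, JETALG part 1 (helper257): order of vanishing on a smooth algebraic set

`E e` (`e ∈ ι`) polynomials, `θ` a local parametrisation of their zero set at `v`.  A polynomial `P`
satisfies `P ∘ θ = O(|t| ^ m)` iff `P ∈ (E) + 𝔪_v ^ m`.
-/

set_option autoImplicit false
set_option linter.unusedSectionVars false

open Filter Topology Asymptotics MvPolynomial

namespace Crest.Agent.R281.Ja1_257

variable {κ : Type} [Fintype κ]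

section Ord

variable {F : Type*} [Field F]

/-- no terms of degree `< m` -/
def Ord (m : ℕ) (G : MvPolynomial κ F) : Prop := ∀ s : κ →₀ ℕ, s.degree < m → coeff s G = 0

/-- Taylor shift -/
noncomputable def sh (v : κ → F) : MvPolynomial κ F →ₐ[F] MvPolynomial κ F :=
  aeval fun i => X i + C (v i)

/-- linear part at `v` -/
noncomputable def lin (v : κ → F) (E : MvPolynomial κ F) : MvPolynomial κ F :=
  ∑ i, C (eval v (pderiv i E)) * X i

theorem Ord.mono {m n : ℕ} {G : MvPolynomial κ F} (h : Ord n G) (hmn : m ≤ n) : Ord m G :=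
  fun s hs => h s (lt_of_lt_of_le hs hmn)

theorem Ord.zero' (G : MvPolynomial κ F) : Ord 0 G := fun _ hs => absurd hs (Nat.not_lt_zero _)

theorem ord_zero (m : ℕ) : Ord m (0 : MvPolynomial κ F) := fun _ _ => coeff_zero _

theorem Ord.add {m : ℕ} {G H : MvPolynomial κ F} (hG : Ord m G) (hH : Ord m H) : Ord m (G + H) :=
  fun s hs => by rw [coeff_add, hG s hs, hH s hs, add_zero]

theorem Ord.neg {m : ℕ} {G : MvPolynomial κ F} (hG : Ord m G) : Ord m (-G) :=
  fun s hs => by rw [coeff_neg, hG s hs, neg_zero]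

theorem Ord.sub {m : ℕ} {G H : MvPolynomial κ F} (hG : Ord m G) (hH : Ord m H) : Ord m (G - H) :=
  fun s hs => by rw [coeff_sub, hG s hs, hH s hs, sub_zero]

theorem Ord.sum {ι : Type*} (S : Finset ι) {m : ℕ} {G : ι → MvPolynomial κ F}
    (h : ∀ i ∈ S, Ord m (G i)) : Ord m (∑ i ∈ S, G i) := by
  intro s hs
  rw [coeff_sum]
  exact Finset.sum_eq_zero fun i hi => h i hi s hs

theorem Ord.mul {a b : ℕ} {G H : MvPolynomial κ F} (hG : Ord a G) (hH : Ord b H) :
    Ord (a + b) (G * H) := by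
  classical
  intro s hs
  rw [coeff_mul]
  refine Finset.sum_eq_zero fun x hx => ?_
  have h1 : x.1 + x.2 = s := Finset.HasAntidiagonal.mem_antidiagonal.1 hx
  have h2 : x.1.degree + x.2.degree = s.degree := by rw [← h1, map_add]
  rcases lt_or_ge x.1.degree a with h3 | h3
  · rw [hG _ h3, zero_mul]
  · rw [hH _ (by omega), mul_zero]

theorem Ord.of_hom {m : ℕ} {G : MvPolynomial κ F} (h : G.IsHomogeneous m) : Ord m G :=
  fun _ hs => h.coeff_eq_zero hs.ne

theorem eval_sh (v y : κ → F) (P : MvPolynomial κ F) : eval y (sh v P) = eval (v + y) P := by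
  have h : (eval y).comp (sh v : MvPolynomial κ F →ₐ[F] MvPolynomial κ F).toRingHom =
      (eval (v + y) : MvPolynomial κ F →+* F) := by
    ext i
    · simp [sh]
    · simp [sh, add_comm]
  exact RingHom.congr_fun h P

theorem sh_sh (v : κ → F) (P : MvPolynomial κ F) : sh v (sh (-v) P) = P := by
  have h : (sh v).comp (sh (-v)) = AlgHom.id F (MvPolynomial κ F) := by
    ext i
    simp [sh]
  exact AlgHom.congr_fun h P

theorem isHomogeneous_lin (v : κ → F) (E : MvPolynomial κ F) : (lin v E).IsHomogeneous 1 := by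
  unfold lin
  exact IsHomogeneous.sum _ _ _ fun i _ => isHomogeneous_C_mul_X _ _

theorem ord_X (i : κ) : Ord 1 (X i : MvPolynomial κ F) := Ord.of_hom (isHomogeneous_X F i)

theorem taylor1 (v : κ → F) (E : MvPolynomial κ F) :
    Ord 2 (sh v E - C (eval v E) - lin v E) := by
  classical
  induction E using MvPolynomial.induction_on with
  | C a =>
    have : sh v (C a) - C (eval v (C a)) - lin v (C a) = 0 := by
      simp [sh, lin]
    rw [this]; exact ord_zero 2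
  | add p q hp hq =>
    have : sh v (p + q) - C (eval v (p + q)) - lin v (p + q) =
        (sh v p - C (eval v p) - lin v p) + (sh v q - C (eval v q) - lin v q) := by
      have h1 : lin v (p + q) = lin v p + lin v q := by
        simp [lin, add_mul, Finset.sum_add_distrib]
      rw [h1, map_add, map_add, map_add]; ring
    rw [this]; exact hp.add hq
  | mul_X p j hp =>
    have h1 : lin v (p * X j) = C (v j) * lin v p + C (eval v p) * X j := by
      unfold lin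
      rw [Finset.mul_sum]
      have h2 : ∀ i, C (eval v (pderiv i (p * X j))) * (X i : MvPolynomial κ F) =
          C (v j) * (C (eval v (pderiv i p)) * X i) +
            (if i = j then C (eval v p) * X j else 0) := by
        intro i
        rw [Derivation.leibniz, pderiv_X]
        by_cases hij : i = j
        · subst hij
          simp
          ring
        · simp [hij, Ne.symm hij]
          ring
      rw [Finset.sum_congr rfl fun i _ => h2 i, Finset.sum_add_distrib]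
      simp
    have h3 : sh v (p * X j) = sh v p * (X j + C (v j)) := by
      rw [map_mul]; simp [sh]
    have h4 : sh v (p * X j) - C (eval v (p * X j)) - lin v (p * X j) =
        (sh v p - C (eval v p) - lin v p) * (X j + C (v j)) + lin v p * X j := by
      rw [h1, h3]
      simp only [map_mul, eval_X]
      ring
    rw [h4]
    refine Ord.add ?_ ?_
    · exact (hp.mul (Ord.zero' _)).mono (by norm_num)
    · exact (Ord.of_hom (isHomogeneous_lin v p)).mul (ord_X j)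

theorem hc_mul {a : ℕ} {C' l : MvPolynomial κ F} (hl : l.IsHomogeneous 1) :
    homogeneousComponent (a + 1) (C' * l) = homogeneousComponent a C' * l := by
  classical
  conv_lhs => rw [← sum_homogeneousComponent C', Finset.sum_mul, map_sum]
  have h1 : ∀ j, homogeneousComponent (a + 1) (homogeneousComponent j C' * l) =
      if j = a then homogeneousComponent a C' * l else 0 := by
    intro j
    have h2 : (homogeneousComponent j C' * l).IsHomogeneous (j + 1) :=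
      (homogeneousComponent_isHomogeneous j C').mul hl
    rw [homogeneousComponent_of_mem h2]
    by_cases hj : j = a
    · simp [hj]
    · have : ¬ (a + 1 = j + 1) := by omega
      simp [hj, Ne.symm hj]
  rw [Finset.sum_congr rfl fun j _ => h1 j, Finset.sum_ite_eq']
  by_cases ha : a ∈ Finset.range (C'.totalDegree + 1)
  · rw [if_pos ha]
  · rw [if_neg ha, homogeneousComponent_eq_zero _ _ (by simpa using ha), zero_mul]

theorem ord_sub_hc {m : ℕ} {G : MvPolynomial κ F} (h : Ord m G) :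
    Ord (m + 1) (G - homogeneousComponent m G) := by
  intro s hs
  rw [coeff_sub, coeff_homogeneousComponent]
  by_cases h1 : s.degree = m
  · simp [h1]
  · rw [if_neg h1, h s (by omega), sub_zero]

/-- a polynomial vanishing on a linear subspace is in the ideal of its equations -/
theorem mem_ideal_of_vanish [Infinite F] {ι : Type*} [Fintype ι] (l : ι → MvPolynomial κ F)
    (hl : ∀ e, ∃ a : κ → F, l e = ∑ i, C (a i) * X i) (G : MvPolynomial κ F)
    (hG : ∀ y : κ → F, (∀ e, eval y (l e) = 0) → eval y G = 0) :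
    ∃ c : ι → MvPolynomial κ F, G = ∑ e, c e * l e := by
  classical
  choose a ha using hl
  -- the linear map with components `l e`
  let Λ : (κ → F) →ₗ[F] (ι → F) := LinearMap.pi fun e => ∑ i, a e i • LinearMap.proj i
  have hΛ : ∀ y e, Λ y e = eval y (l e) := by
    intro y e
    simp [Λ, ha, LinearMap.sum_apply]
  -- a generalised inverse
  obtain ⟨g, hg⟩ : ∃ g : (ι → F) →ₗ[F] (κ → F), ∀ y, Λ (g (Λ y)) = Λ y := by
    obtain ⟨g, hg⟩ := LinearMap.exists_rightInverse_of_surjective Λ.rangeRestrict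
      (LinearMap.range_rangeRestrict Λ)
    obtain ⟨q, hq⟩ := Submodule.exists_isCompl (LinearMap.range Λ)
    refine ⟨g.comp (Submodule.projectionOnto (LinearMap.range Λ) q hq), fun y => ?_⟩
    have h1 : Submodule.projectionOnto (LinearMap.range Λ) q hq (Λ y) = Λ.rangeRestrict y :=
      Submodule.projectionOnto_apply_left hq (Λ.rangeRestrict y)
    rw [LinearMap.comp_apply, h1]
    have h2 := LinearMap.congr_fun hg (Λ.rangeRestrict y)
    exact congrArg Subtype.val h2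
  -- the projection `y ↦ y - g (Λ y)` as polynomials
  let π : κ → MvPolynomial κ F := fun i => X i - ∑ e, C (g (Pi.single e 1) i) * l e
  have hπ : ∀ y i, eval y (π i) = (y - g (Λ y)) i := by
    intro y i
    have h1 : Λ y = ∑ e, (Λ y e) • (Pi.single e (1 : F)) := by
      funext e'
      simp [Finset.sum_apply, Pi.single_apply]
    have h2 : g (Λ y) i = ∑ e, Λ y e * g (Pi.single e 1) i := by
      conv_lhs => rw [h1]
      simp [map_sum, Finset.sum_apply]
    simp only [π, map_sub, eval_X, map_sum, map_mul, eval_C, Pi.sub_apply]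
    rw [h2]
    congr 1
    refine Finset.sum_congr rfl fun e _ => ?_
    rw [hΛ]; ring
  let I : Ideal (MvPolynomial κ F) := Ideal.span (Set.range l)
  have h0 : aeval π G = 0 := by
    apply MvPolynomial.funext
    intro y
    rw [map_zero]
    have h1 : eval y (aeval π G) = eval (fun i => eval y (π i)) G := by
      have : (eval y).comp (aeval π : MvPolynomial κ F →ₐ[F] MvPolynomial κ F).toRingHom =
          (eval fun i => eval y (π i)) := by
        ext i <;> simp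
      exact RingHom.congr_fun this G
    rw [h1]
    apply hG
    intro e
    have h2 : (fun i => eval y (π i)) = y - g (Λ y) := funext fun i => hπ y i
    rw [h2, ← hΛ, map_sub, hg, sub_self]
    rfl
  have h3 : G ∈ I := by
    rw [← Ideal.Quotient.eq_zero_iff_mem]
    have h4 : (Ideal.Quotient.mk I : MvPolynomial κ F →+* _) G =
        (Ideal.Quotient.mk I) (aeval π G) := by
      have : (Ideal.Quotient.mk I : MvPolynomial κ F →+* _) =
          (Ideal.Quotient.mk I).comp (aeval π : MvPolynomial κ F →ₐ[F] MvPolynomial κ F).toRingHom := by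
        ext i
        · simp
        · simp only [RingHom.coe_comp, Function.comp_apply, AlgHom.toRingHom_eq_coe,
            RingHom.coe_coe, aeval_X, π, map_sub, map_sum, map_mul]
          have h5 : ∀ e, (Ideal.Quotient.mk I) (l e) = 0 := fun e =>
            Ideal.Quotient.eq_zero_iff_mem.2 (Ideal.subset_span ⟨e, rfl⟩)
          simp [h5]
      exact RingHom.congr_fun this G
    rw [h4, h0, map_zero]
  obtain ⟨c, hc⟩ := (Ideal.mem_span_range_iff_exists_fun).1 h3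
  exact ⟨c, hc.symm⟩

end Ord

end Crest.Agent.R281.Ja1_257
end

-- ▼ part R281/Ja2_257
section

/-!
# Row 281, JETALG part 2 (helper257): vanishing order along a parametrised zero set

`isBigO_iff`: `P ∘ θ = O(‖t‖ ^ m)` iff `P` is in `(E) + 𝔪_v ^ m`.
-/

set_option autoImplicit false
set_option linter.unusedSectionVars false

open Filter Topology Asymptotics MvPolynomial
open Crest.Agent.R281.Ja1_257

namespace Crest.Agent.R281.Ja2_257

variable {κ : Type} [Fintype κ]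
variable {V : Type*} [NormedAddCommGroup V] [NormedSpace ℂ V]

theorem isBigO_eval {m : ℕ} {G : MvPolynomial κ ℂ} (hG : Ord m G) :
    (fun y : κ → ℂ => eval y G) =O[𝓝 0] fun y : κ → ℂ => ‖y‖ ^ m := by
  classical
  have h1 : (fun y : κ → ℂ => eval y G) =
      fun y => ∑ s ∈ G.support, coeff s G * ∏ i, y i ^ s i := by
    funext y; rw [eval_eq']
  rw [h1]
  refine IsBigO.fun_sum fun s hs => ?_
  have hsm : m ≤ s.degree := by
    by_contra h
    exact (mem_support_iff.1 hs) (hG s (not_le.1 h))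
  refine IsBigO.of_bound ‖coeff s G‖ ?_
  have h2 : ∀ᶠ y : κ → ℂ in 𝓝 0, ‖y‖ < 1 := by
    have := (continuous_norm (E := κ → ℂ)).tendsto 0
    rw [norm_zero] at this
    exact this.eventually (gt_mem_nhds one_pos)
  filter_upwards [h2] with y hy
  rw [norm_mul, norm_pow, norm_norm]
  refine mul_le_mul_of_nonneg_left ?_ (norm_nonneg _)
  calc ‖∏ i, y i ^ s i‖ = ∏ i, ‖y i‖ ^ s i := by rw [norm_prod]; simp
    _ ≤ ∏ i, ‖y‖ ^ s i := Finset.prod_le_prod (fun i _ => by positivity)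
        fun i _ => pow_le_pow_left₀ (norm_nonneg _) (norm_le_pi_norm y i) _
    _ = ‖y‖ ^ s.degree := by rw [Finset.prod_pow_eq_pow_sum, Finsupp.degree_eq_sum]
    _ ≤ ‖y‖ ^ m := pow_le_pow_of_le_one (norm_nonneg _) hy.le hsm

theorem isBigO_sub {θ : V → κ → ℂ} {L : V →L[ℂ] (κ → ℂ)} (hθ : HasFDerivAt θ L 0) :
    (fun t => θ t - θ 0) =O[𝓝 0] fun t => ‖t‖ := by
  have h := hθ.isBigO_sub
  simpa using h.norm_right

theorem tendsto_sub {θ : V → κ → ℂ} {L : V →L[ℂ] (κ → ℂ)} (hθ : HasFDerivAt θ L 0) :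
    Tendsto (fun t => θ t - θ 0) (𝓝 0) (𝓝 0) := by
  have h := hθ.continuousAt.tendsto.sub_const (θ 0)
  simpa using h

theorem isBigO_comp {m : ℕ} {G : MvPolynomial κ ℂ} (hG : Ord m G)
    {θ : V → κ → ℂ} {L : V →L[ℂ] (κ → ℂ)} (hθ : HasFDerivAt θ L 0) :
    (fun t => eval (θ t - θ 0) G) =O[𝓝 0] fun t => ‖t‖ ^ m := by
  have h1 := (isBigO_eval hG).comp_tendsto (tendsto_sub hθ)
  refine h1.trans ?_
  have h2 := ((isBigO_sub hθ).norm_left).pow m
  exact h2

theorem isBigO_of_ord {m : ℕ} {P : MvPolynomial κ ℂ}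
    {θ : V → κ → ℂ} {L : V →L[ℂ] (κ → ℂ)} (hθ : HasFDerivAt θ L 0) (hP : Ord m (sh (θ 0) P)) :
    (fun t => eval (θ t) P) =O[𝓝 0] fun t => ‖t‖ ^ m := by
  have h1 := isBigO_comp hP hθ
  refine h1.congr_left fun t => ?_
  rw [eval_sh]
  congr 2
  abel

theorem eval_smul_hom {m : ℕ} {H : MvPolynomial κ ℂ} (hH : H.IsHomogeneous m) (c : ℂ)
    (y : κ → ℂ) : eval (c • y) H = c ^ m * eval y H := by
  classical
  rw [eval_eq', eval_eq', Finset.mul_sum]
  refine Finset.sum_congr rfl fun s hs => ?_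
  have h1 : s.degree = m := by
    by_contra h
    exact (mem_support_iff.1 hs) (hH.coeff_eq_zero h)
  have h2 : ∏ i, (c • y) i ^ s i = c ^ m * ∏ i, y i ^ s i := by
    simp only [Pi.smul_apply, smul_eq_mul, mul_pow]
    rw [Finset.prod_mul_distrib, Finset.prod_pow_eq_pow_sum, ← Finsupp.degree_eq_sum, h1]
  rw [h2]; ring

/-- the leading form vanishes on the tangent space -/
theorem leading {m : ℕ} {G : MvPolynomial κ ℂ} (hG : Ord m G)
    {θ : V → κ → ℂ} {L : V →L[ℂ] (κ → ℂ)} (hθ : HasFDerivAt θ L 0)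
    (h : (fun t => eval (θ t - θ 0) G) =O[𝓝 0] fun t => ‖t‖ ^ (m + 1)) (y : V) :
    eval (L y) (homogeneousComponent m G) = 0 := by
  set H := homogeneousComponent m G with hH
  have h1 : (fun t => eval (θ t - θ 0) H) =O[𝓝 0] fun t => ‖t‖ ^ (m + 1) := by
    have h2 := isBigO_comp (ord_sub_hc hG) hθ
    have h3 := h.sub h2
    refine h3.congr_left fun t => ?_
    rw [map_sub, hH]; ring
  -- along the line `s • y`
  have hy : Tendsto (fun s : ℂ => s • y) (𝓝[≠] 0) (𝓝 0) := by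
    have : Tendsto (fun s : ℂ => s • y) (𝓝 0) (𝓝 ((0 : ℂ) • y)) :=
      (continuous_id.smul continuous_const).tendsto 0
    rw [zero_smul] at this
    exact this.mono_left nhdsWithin_le_nhds
  have h4 : (fun s : ℂ => eval (θ (s • y) - θ 0) H) =O[𝓝[≠] 0] fun s => ‖s • y‖ ^ (m + 1) :=
    h1.comp_tendsto hy
  have h5 : (fun s : ℂ => eval (s⁻¹ • (θ (s • y) - θ 0)) H) =O[𝓝[≠] 0]
      fun s => ‖s‖ * ‖y‖ ^ (m + 1) := by
    obtain ⟨C, hC⟩ := h4.bound
    refine IsBigO.of_bound C ?_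
    filter_upwards [hC, self_mem_nhdsWithin] with s hs hs0
    have hs0' : s ≠ 0 := hs0
    rw [eval_smul_hom (homogeneousComponent_isHomogeneous m G), norm_mul, norm_pow, norm_inv]
    have h6 : 0 < ‖s‖ ^ m := pow_pos (norm_pos_iff.2 hs0') m
    rw [norm_pow, norm_norm, norm_smul, mul_pow] at hs
    rw [norm_mul, norm_norm, norm_pow, norm_norm, inv_pow, inv_mul_le_iff₀ h6]
    calc _ ≤ C * (‖s‖ ^ (m + 1) * ‖y‖ ^ (m + 1)) := hs
      _ = _ := by ring
  have h7 : Tendsto (fun s : ℂ => ‖s‖ * ‖y‖ ^ (m + 1)) (𝓝[≠] 0) (𝓝 0) := by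
    have : Tendsto (fun s : ℂ => ‖s‖ * ‖y‖ ^ (m + 1)) (𝓝 0) (𝓝 (‖(0 : ℂ)‖ * ‖y‖ ^ (m + 1))) :=
      (continuous_norm.mul continuous_const).tendsto 0
    rw [norm_zero, zero_mul] at this
    exact this.mono_left nhdsWithin_le_nhds
  have h8 : Tendsto (fun s : ℂ => eval (s⁻¹ • (θ (s • y) - θ 0)) H) (𝓝[≠] 0) (𝓝 0) :=
    h5.trans_tendsto h7
  have h9 : Tendsto (fun s : ℂ => s⁻¹ • (θ (s • y) - θ 0)) (𝓝[≠] 0) (𝓝 (L y)) := by
    have h10 : HasDerivAt (fun s : ℂ => θ (s • y)) (L y) 0 := by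
      have h11 : HasDerivAt (fun s : ℂ => s • y) y 0 := by
        simpa using (hasDerivAt_id (0 : ℂ)).smul_const y
      have h12 : HasFDerivAt θ L ((0 : ℂ) • y) := by rw [zero_smul]; exact hθ
      exact h12.comp_hasDerivAt 0 h11
    have h13 := h10.tendsto_slope
    refine h13.congr' ?_
    filter_upwards with s
    simp [slope_def_module, zero_smul]
  have hcont : Continuous fun y : κ → ℂ => eval y H := MvPolynomial.continuous_eval H
  exact tendsto_nhds_unique ((hcont.tendsto _).comp h9) h8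

section main

variable {ι : Type} [Fintype ι] (E : ι → MvPolynomial κ ℂ)
variable {θ : V → κ → ℂ} {L : V →L[ℂ] (κ → ℂ)}

/-- `P ∈ (E) + 𝔪_v ^ m` -/
def Jet {F : Type*} [Field F] (E : ι → MvPolynomial κ F) (m : ℕ) (v : κ → F)
    (P : MvPolynomial κ F) : Prop :=
  ∃ B : ι → MvPolynomial κ F, Ord m (sh v (P - ∑ e, B e * E e))

theorem eval_lin {F : Type*} [Field F] (v y : κ → F) (P : MvPolynomial κ F) :
    eval y (lin v P) = ∑ i, eval v (pderiv i P) * y i := by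
  simp [lin]

theorem Jet.isBigO {m : ℕ} {P : MvPolynomial κ ℂ} (hθ : HasFDerivAt θ L 0)
    (hE : ∀ e, ∀ᶠ t in 𝓝 0, eval (θ t) (E e) = 0) (h : Jet E m (θ 0) P) :
    (fun t => eval (θ t) P) =O[𝓝 0] fun t => ‖t‖ ^ m := by
  obtain ⟨B, hB⟩ := h
  refine (isBigO_of_ord hθ hB).congr' ?_ (EventuallyEq.refl _ _)
  have h1 : ∀ᶠ t in 𝓝 0, ∀ e, eval (θ t) (E e) = 0 := eventually_all.2 hE
  filter_upwards [h1] with t ht
  simp [map_sub, map_sum, map_mul, ht]

theorem jet_of_isBigO {m : ℕ} {P : MvPolynomial κ ℂ} (hθ : HasFDerivAt θ L 0)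
    (hE : ∀ e, ∀ᶠ t in 𝓝 0, eval (θ t) (E e) = 0)
    (hL : ∀ y, (∀ e, ∑ i, eval (θ 0) (pderiv i (E e)) * y i = 0) → ∃ t, L t = y)
    (h : (fun t => eval (θ t) P) =O[𝓝 0] fun t => ‖t‖ ^ m) : Jet E m (θ 0) P := by
  classical
  induction m with
  | zero => exact ⟨fun _ => 0, Ord.zero' _⟩
  | succ m ih =>
    have hm : (fun t => eval (θ t) P) =O[𝓝 0] fun t => ‖t‖ ^ m := by
      refine h.trans ?_
      refine IsBigO.of_bound 1 ?_
      have h2 : ∀ᶠ y : V in 𝓝 0, ‖y‖ < 1 := by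
        have := (continuous_norm (E := V)).tendsto 0
        rw [norm_zero] at this
        exact this.eventually (gt_mem_nhds one_pos)
      filter_upwards [h2] with t ht
      rw [one_mul, norm_pow, norm_pow, norm_norm]
      exact pow_le_pow_of_le_one (norm_nonneg _) ht.le (Nat.le_succ m)
    obtain ⟨B, hB⟩ := ih hm
    set v := θ 0 with hv
    set G := sh v (P - ∑ e, B e * E e) with hG
    have hEv : ∀ e, eval v (E e) = 0 := fun e => (hE e).self_of_nhds
    have h1 : (fun t => eval (θ t - θ 0) G) =O[𝓝 0] fun t => ‖t‖ ^ (m + 1) := by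
      refine h.congr' ?_ (EventuallyEq.refl _ _)
      have h1 : ∀ᶠ t in 𝓝 0, ∀ e, eval (θ t) (E e) = 0 := eventually_all.2 hE
      filter_upwards [h1] with t ht
      rw [hG, eval_sh, ← hv]
      have h3 : v + (θ t - v) = θ t := by abel
      rw [h3]
      simp [map_sub, map_sum, map_mul, ht]
    have h2 := leading hB hθ h1
    cases m with
    | zero =>
      refine ⟨B, ?_⟩
      rw [← hG]
      have h3 : homogeneousComponent 0 G = 0 := by
        have h4 := h2 0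
        rw [homogeneousComponent_zero] at h4 ⊢
        rw [eval_C] at h4
        rw [h4, map_zero]
      have h5 := ord_sub_hc hB
      rwa [h3, sub_zero] at h5
    | succ k =>
      obtain ⟨c, hc⟩ := mem_ideal_of_vanish (fun e => lin v (E e))
        (fun e => ⟨fun i => eval v (pderiv i (E e)), rfl⟩) (homogeneousComponent (k + 1) G) (by
          intro y hy
          obtain ⟨t, rfl⟩ := hL y fun e => by rw [← eval_lin]; exact hy e
          exact h2 t)
      have hc' : homogeneousComponent (k + 1) G =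
          ∑ e, homogeneousComponent k (c e) * lin v (E e) := by
        have h3 : homogeneousComponent (k + 1) (homogeneousComponent (k + 1) G) =
            homogeneousComponent (k + 1) G := by
          rw [homogeneousComponent_of_mem (homogeneousComponent_isHomogeneous (k + 1) G),
            if_pos rfl]
        rw [← h3]
        conv_lhs => rw [hc]
        rw [map_sum]
        exact Finset.sum_congr rfl fun e _ => hc_mul (isHomogeneous_lin v (E e))
      let D : ι → MvPolynomial κ ℂ := fun e => homogeneousComponent k (c e)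
      refine ⟨fun e => B e + sh (-v) (D e), ?_⟩
      have h4 : sh v (P - ∑ e, (B e + sh (-v) (D e)) * E e) =
          (G - homogeneousComponent (k + 1) G) - ∑ e, D e * (sh v (E e) - lin v (E e)) := by
        have h5 : sh v (P - ∑ e, (B e + sh (-v) (D e)) * E e) =
            G - ∑ e, D e * sh v (E e) := by
          rw [hG]
          simp only [map_sub, map_sum, map_mul, map_add, sh_sh, add_mul, Finset.sum_add_distrib]
          ring
        rw [h5, hc']
        simp only [mul_sub, Finset.sum_sub_distrib, D]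
        ring
      rw [h4]
      refine Ord.sub (ord_sub_hc hB) (Ord.sum _ fun e _ => ?_)
      have h6 : Ord 2 (sh v (E e) - lin v (E e)) := by
        have := taylor1 v (E e)
        rwa [hEv, map_zero, sub_zero] at this
      have h7 : Ord k (D e) := Ord.of_hom (homogeneousComponent_isHomogeneous k (c e))
      exact h7.mul h6

theorem isBigO_iff {m : ℕ} {P : MvPolynomial κ ℂ} (hθ : HasFDerivAt θ L 0)
    (hE : ∀ e, ∀ᶠ t in 𝓝 0, eval (θ t) (E e) = 0)
    (hL : ∀ y, (∀ e, ∑ i, eval (θ 0) (pderiv i (E e)) * y i = 0) → ∃ t, L t = y) :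
    ((fun t => eval (θ t) P) =O[𝓝 0] fun t => ‖t‖ ^ m) ↔ Jet E m (θ 0) P :=
  ⟨jet_of_isBigO E hθ hE hL, Jet.isBigO E hθ hE⟩

end main

end Crest.Agent.R281.Ja2_257
end

-- ▼ part R281/Ja3_257
section

/-!
# Row 281, JETALG part 3 (helper257): KAPPA-1 from jets

`T b = {v | E v = 0 and P v = 0 for every P of degree ≤ d with P ∘ θ = O(‖t‖ ^ m)}` is equivariant
under `Aut(ℂ/k)`, `k` a countable field containing the coefficients of `E`.
-/

set_option autoImplicit false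
set_option linter.unusedSectionVars false

open Filter Topology Asymptotics MvPolynomial MeasureTheory Metric
open Crest.Agent.R281.Ja1_257 Crest.Agent.R281.Ja2_257
open Crest.Agent.R281.Gal2_257 Crest.Agent.R281.Gal4_257

namespace Crest.Agent.R281.Ja3_257

section Alg

variable {F : Type} [Field F] {κ ι : Type} [Fintype κ] [Fintype ι]

theorem eval_map_equiv (σ : F ≃+* F) (v : κ → F) (P : MvPolynomial κ F) :
    eval (fun i => σ (v i)) (MvPolynomial.map (σ : F →+* F) P) = σ (eval v P) := by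
  have h : (eval fun i => σ (v i)).comp (MvPolynomial.map (σ : F →+* F)) =
      (σ : F →+* F).comp (eval v : MvPolynomial κ F →+* F) := by
    ext i <;> simp
  exact RingHom.congr_fun h P

theorem sh_map (σ : F ≃+* F) (v : κ → F) (P : MvPolynomial κ F) :
    MvPolynomial.map (σ : F →+* F) (sh v P) =
      sh (fun i => σ (v i)) (MvPolynomial.map (σ : F →+* F) P) := by
  have h : (MvPolynomial.map (σ : F →+* F)).comp
      (sh v : MvPolynomial κ F →ₐ[F] MvPolynomial κ F).toRingHom =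
      (sh (fun i => σ (v i)) : MvPolynomial κ F →ₐ[F] MvPolynomial κ F).toRingHom.comp
        (MvPolynomial.map (σ : F →+* F)) := by
    ext i <;> simp [sh]
  exact RingHom.congr_fun h P

theorem Ord.map (σ : F ≃+* F) {m : ℕ} {G : MvPolynomial κ F} (h : Ord m G) :
    Ord m (MvPolynomial.map (σ : F →+* F) G) := by
  intro s hs
  rw [coeff_map, h s hs, map_zero]

theorem Jet.map (σ : F ≃+* F) {E : ι → MvPolynomial κ F}
    (hE : ∀ e, MvPolynomial.map (σ : F →+* F) (E e) = E e) {m : ℕ} {v : κ → F}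
    {P : MvPolynomial κ F} (h : Jet E m v P) :
    Jet E m (fun i => σ (v i)) (MvPolynomial.map (σ : F →+* F) P) := by
  obtain ⟨B, hB⟩ := h
  refine ⟨fun e => MvPolynomial.map (σ : F →+* F) (B e), ?_⟩
  have h1 := Ord.map σ hB
  rw [sh_map] at h1
  simpa [map_sub, map_sum, map_mul, hE] using h1

theorem map_symm_map (σ : F ≃+* F) (P : MvPolynomial κ F) :
    MvPolynomial.map (σ : F →+* F) (MvPolynomial.map (σ.symm : F →+* F) P) = P := by
  rw [MvPolynomial.map_map]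
  have : (σ : F →+* F).comp (σ.symm : F →+* F) = RingHom.id F := by ext x; simp
  rw [this, MvPolynomial.map_id]

/-- a Zariski closed set is given by finitely many monomials -/
theorem exists_zer {T : Set (κ → F)}
    (hT : ∀ v, v ∉ T → ∃ P : MvPolynomial κ F, (∀ w ∈ T, eval w P = 0) ∧ eval v P ≠ 0) :
    ∃ S : Finset (κ →₀ ℕ), Zer S (Idl S T) ⊆ T := by
  classical
  let I : Ideal (MvPolynomial κ F) :=
    { carrier := {P | ∀ w ∈ T, eval w P = 0}
      add_mem' := by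
        intro a b ha hb w hw
        rw [map_add, ha w hw, hb w hw, add_zero]
      zero_mem' := by intro w _; simp
      smul_mem' := by
        intro c a ha w hw
        rw [smul_eq_mul, map_mul, ha w hw, mul_zero] }
  obtain ⟨G, hG⟩ : I.FG := (isNoetherianRing_iff_ideal_fg _).1 inferInstance I
  refine ⟨G.biUnion fun g => g.support, fun v hv => ?_⟩
  by_contra hvT
  obtain ⟨P, hP, hPv⟩ := hT v hvT
  apply hPv
  set S := G.biUnion fun g => g.support with hS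
  have hsum : ∀ g ∈ G, ∀ w : κ → F,
      ∑ m : S, coeff (m : κ →₀ ℕ) g * ∏ i, w i ^ (m : κ →₀ ℕ) i = eval w g := by
    intro g hg w
    rw [eval_eq', Finset.sum_coe_sort S fun m => coeff m g * ∏ i, w i ^ m i]
    symm
    refine Finset.sum_subset ?_ fun m _ hm => ?_
    · intro m hm
      exact Finset.mem_biUnion.2 ⟨g, hg, hm⟩
    · rw [notMem_support_iff.1 hm, zero_mul]
  have hgv : ∀ g ∈ G, eval v g = 0 := by
    intro g hg
    rw [← hsum g hg]
    apply hv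
    intro w hw
    rw [hsum g hg]
    have : g ∈ I := hG ▸ Ideal.subset_span hg
    exact this w hw
  have hPI : P ∈ Ideal.span (G : Set (MvPolynomial κ F)) := by
    have : P ∈ I := hP
    rwa [← hG] at this
  have hle : Ideal.span (G : Set (MvPolynomial κ F)) ≤ RingHom.ker (eval v) :=
    Ideal.span_le.2 fun g hg => hgv g hg
  exact hle hPI

end Alg

section Main

variable {E₁ E₂ : Type*} [NormedAddCommGroup E₁] [NormedSpace ℂ E₁] [FiniteDimensional ℂ E₁]
  [NormedAddCommGroup E₂] [NormedSpace ℂ E₂] [FiniteDimensional ℂ E₂]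
  [MeasurableSpace (E₁ × E₂)] [BorelSpace (E₁ × E₂)]
variable {V : Type*} [NormedAddCommGroup V] [NormedSpace ℂ V]
variable {κ ι : Type} [Fintype κ] [Fintype ι]

/-- the hypotheses of JETALG; `θ z` is a local parameter of the zero set of `E` at `φ z` -/
structure JetDat (T : E₁ → Set (κ → ℂ)) (U : Set (E₁ × E₂)) (φ : E₁ × E₂ → κ → ℂ)
    (E : ι → MvPolynomial κ ℂ) (m d : ℕ)
    (θ : E₁ × E₂ → V → κ → ℂ) (L : E₁ × E₂ → V →L[ℂ] (κ → ℂ)) : Prop where
  e0 : ∀ z ∈ U, θ z 0 = φ z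
  e1 : ∀ z ∈ U, HasFDerivAt (θ z) (L z) 0
  e2 : ∀ z ∈ U, ∀ e, ∀ᶠ t in 𝓝 0, eval (θ z t) (E e) = 0
  e3 : ∀ z ∈ U, ∀ y : κ → ℂ, (∀ e, ∑ i, eval (φ z) (pderiv i (E e)) * y i = 0) → ∃ t, L z t = y
  j1 : ∀ z ∈ U, ∀ P : MvPolynomial κ ℂ, P.totalDegree ≤ d →
    ((fun t => eval (θ z t) P) =O[𝓝 0] fun t => ‖t‖ ^ m) → ∀ v ∈ T z.1, eval v P = 0
  j2 : ∀ z ∈ U, ∀ v : κ → ℂ, (∀ e, eval v (E e) = 0) → v ∉ T z.1 →
    ∃ P : MvPolynomial κ ℂ, P.totalDegree ≤ d ∧
      ((fun t => eval (θ z t) P) =O[𝓝 0] fun t => ‖t‖ ^ m) ∧ eval v P ≠ 0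
  j3 : ∀ z ∈ U, ∀ v ∈ T z.1, ∀ e, eval v (E e) = 0
  j4 : ∀ z ∈ U, ∀ z' ∈ U, T z.1 = T z'.1 → z.1 = z'.1

variable {T : E₁ → Set (κ → ℂ)} {U : Set (E₁ × E₂)} {φ : E₁ × E₂ → κ → ℂ}
  {E : ι → MvPolynomial κ ℂ} {m d : ℕ}
  {θ : E₁ × E₂ → V → κ → ℂ} {L : E₁ × E₂ → V →L[ℂ] (κ → ℂ)}

theorem JetDat.iff (h : JetDat T U φ E m d θ L) {z : E₁ × E₂} (hz : z ∈ U)
    (P : MvPolynomial κ ℂ) :
    ((fun t => eval (θ z t) P) =O[𝓝 0] fun t => ‖t‖ ^ m) ↔ Jet E m (φ z) P := by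
  have h1 := isBigO_iff (m := m) (P := P) E (h.e1 z hz) (h.e2 z hz) (by
    rw [h.e0 z hz]; exact h.e3 z hz)
  rwa [h.e0 z hz] at h1

theorem JetDat.tr (h : JetDat T U φ E m d θ L) {z z' : E₁ × E₂} (hz : z ∈ U) (hz' : z' ∈ U)
    (σ : ℂ ≃+* ℂ) (hE : ∀ e, MvPolynomial.map (σ : ℂ →+* ℂ) (E e) = E e)
    (hσ : ∀ i, σ (φ z i) = φ z' i) {v : κ → ℂ} (hv : v ∈ T z.1) :
    (fun i => σ (v i)) ∈ T z'.1 := by
  by_contra hn
  have h1 : ∀ e, eval (fun i => σ (v i)) (E e) = 0 := by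
    intro e
    rw [← hE e, eval_map_equiv, h.j3 z hz v hv e, map_zero]
  obtain ⟨P', hd', hO', hP'⟩ := h.j2 z' hz' _ h1 hn
  rw [h.iff hz'] at hO'
  have hE' : ∀ e, MvPolynomial.map (σ.symm : ℂ →+* ℂ) (E e) = E e := by
    intro e
    conv_lhs => rw [← hE e]
    have := map_symm_map σ.symm (E e)
    simpa using this
  have h2 := Jet.map σ.symm hE' hO'
  have h3 : (fun i => σ.symm (φ z' i)) = φ z := by
    funext i
    rw [← hσ i, RingEquiv.symm_apply_apply]
  rw [h3, ← h.iff hz] at h2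
  have hdeg : (MvPolynomial.map (σ.symm : ℂ →+* ℂ) P').totalDegree ≤ d := by
    refine le_trans ?_ hd'
    exact Finset.sup_mono (support_map_subset _ _)
  have h4 := h.j1 z hz _ hdeg h2 v hv
  apply hP'
  rw [← map_symm_map σ P', eval_map_equiv, h4, map_zero]

theorem JetDat.trS (h : JetDat T U φ E m d θ L) {z z' : E₁ × E₂} (hz : z ∈ U) (hz' : z' ∈ U)
    (σ : ℂ ≃+* ℂ) (hE : ∀ e, MvPolynomial.map (σ : ℂ →+* ℂ) (E e) = E e)
    (hσ : ∀ i, σ (φ z i) = φ z' i) : TrS σ (T z.1) (T z'.1) := by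
  intro v
  refine ⟨fun hv => h.tr hz hz' σ hE hσ hv, fun hv => ?_⟩
  have hE' : ∀ e, MvPolynomial.map (σ.symm : ℂ →+* ℂ) (E e) = E e := by
    intro e
    conv_lhs => rw [← hE e]
    have := map_symm_map σ.symm (E e)
    simpa using this
  have h1 := h.tr hz' hz σ.symm hE' (fun i => by rw [← hσ i, RingEquiv.symm_apply_apply]) hv
  simpa using h1

theorem JetDat.zer (h : JetDat T U φ E m d θ L) {z : E₁ × E₂} (hz : z ∈ U) :
    ∃ S : Finset (κ →₀ ℕ), Zer S (Idl S (T z.1)) ⊆ T z.1 := by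
  apply exists_zer
  intro v hv
  by_cases h1 : ∀ e, eval v (E e) = 0
  · obtain ⟨P, hd, hO, hP⟩ := h.j2 z hz v h1 hv
    exact ⟨P, h.j1 z hz P hd hO, hP⟩
  · push Not at h1
    obtain ⟨e, he⟩ := h1
    exact ⟨E e, fun w hw => h.j3 z hz w hw e, he⟩

/-- **JETALG.** -/
theorem exists_rational_jets {k : Type} [Field k] [Countable k] [Algebra k ℂ]
    (μ : Measure (E₁ × E₂)) [μ.IsAddHaarMeasure] {z₁ : E₁ × E₂} {r : ℝ}
    (hr : 0 < r) (hφ : AnalyticOnNhd ℂ φ (ball z₁ r))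
    (h : JetDat T (ball z₁ r) φ E m d θ L)
    (hk : ∀ e, E e ∈ (MvPolynomial.map (σ := κ) (algebraMap k ℂ)).range) :
    ∃ P Q : Fin (Module.finrank ℂ E₁) → MvPolynomial κ k, ∃ z₀ ∈ ball z₁ r,
      (∀ j, aeval (φ z₀) (Q j) ≠ 0) ∧
      (∀ j, ∀ z ∈ ball z₁ r, ∀ z' ∈ ball z₁ r, z.1 = z'.1 →
        aeval (φ z) (P j) * aeval (φ z') (Q j) = aeval (φ z') (P j) * aeval (φ z) (Q j)) ∧
      LinearIndependent ℂ (fun j => fderiv ℂ (fun z => aeval (φ z) (P j) / aeval (φ z) (Q j)) z₀)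
      := by
  have hE : ∀ σ : ℂ ≃ₐ[k] ℂ, ∀ e, MvPolynomial.map ((σ : ℂ ≃+* ℂ) : ℂ →+* ℂ) (E e) = E e := by
    intro σ e
    obtain ⟨E', hE'⟩ := hk e
    rw [← hE', MvPolynomial.map_map]
    have h1 : ((σ : ℂ ≃+* ℂ) : ℂ →+* ℂ).comp (algebraMap k ℂ) = algebraMap k ℂ := by
      ext x
      simp
    rw [h1]
  refine exists_rational μ hr hφ T (N := ∅) (by simp) ?_ ?_ ?_
  · intro z hz _ z' hz' _ σ hσ
    exact h.trS hz hz' (σ : ℂ ≃+* ℂ) (hE σ) hσ
  · intro z hz _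
    exact h.zer hz
  · intro z hz _ z' hz' _ h1
    exact h.j4 z hz z' hz' h1

/-- the countable field of the coefficients -/
theorem exists_field (E : ι → MvPolynomial κ ℂ) : ∃ k : Subfield ℂ, Countable k ∧
    ∀ e, E e ∈ (MvPolynomial.map (σ := κ) (algebraMap k ℂ)).range := by
  classical
  let A : Set ℂ := ⋃ e, (E e).coeffs
  have hA : A.Countable := Set.countable_iUnion fun e => (E e).coeffs.countable_toSet
  refine ⟨Subfield.closure A, ?_, fun e => ?_⟩
  · rw [← Cardinal.mk_le_aleph0_iff]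
    refine (Subfield.cardinalMk_closure_le_max A).trans ?_
    exact max_le (Cardinal.mk_le_aleph0_iff.2 hA.to_subtype) le_rfl
  · refine mem_range_map_iff_coeffs_subset.2 ?_
    intro c hc
    exact ⟨⟨c, Subfield.subset_closure (Set.mem_iUnion.2 ⟨e, hc⟩)⟩, rfl⟩

/-- **JETALG**, the field of coefficients forgotten. -/
theorem exists_rational_jets' (μ : Measure (E₁ × E₂)) [μ.IsAddHaarMeasure] {z₁ : E₁ × E₂} {r : ℝ}
    (hr : 0 < r) (hφ : AnalyticOnNhd ℂ φ (ball z₁ r))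
    (h : JetDat T (ball z₁ r) φ E m d θ L) :
    ∃ P Q : Fin (Module.finrank ℂ E₁) → MvPolynomial κ ℂ, ∃ z₀ ∈ ball z₁ r,
      (∀ j, eval (φ z₀) (Q j) ≠ 0) ∧
      (∀ j, ∀ z ∈ ball z₁ r, ∀ z' ∈ ball z₁ r, z.1 = z'.1 →
        eval (φ z) (P j) * eval (φ z') (Q j) = eval (φ z') (P j) * eval (φ z) (Q j)) ∧
      LinearIndependent ℂ (fun j => fderiv ℂ (fun z => eval (φ z) (P j) / eval (φ z) (Q j)) z₀)
      := by
  obtain ⟨k, hk, hE⟩ := exists_field E
  obtain ⟨P, Q, z₀, h0, h1, h2, h3⟩ := exists_rational_jets (k := k) μ hr hφ h hE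
  have hae : ∀ (R : MvPolynomial κ k) (y : κ → ℂ),
      eval y (MvPolynomial.map (algebraMap k ℂ) R) = aeval y R := by
    intro R y
    rw [eval_map, aeval_def]
  refine ⟨fun j => MvPolynomial.map (algebraMap k ℂ) (P j),
    fun j => MvPolynomial.map (algebraMap k ℂ) (Q j), z₀, h0, ?_, ?_, ?_⟩
  · intro j; rw [hae]; exact h1 j
  · intro j z hz z' hz' h
    simp only [hae]
    exact h2 j z hz z' hz' h
  · simpa only [hae] using h3

end Main

end Crest.Agent.R281.Ja3_257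
end

-- ▼ part R281/Jd1_310
section

/-!
# R281, JETS-ASM (J2) (helper310): 257's `JetDat` from MULT, SECTIONS, surjectivity, local description
-/

set_option autoImplicit false
set_option linter.unusedSectionVars false

open Set Filter Topology Complex Asymptotics Metric

namespace Crest.Agent.R281.Jd_310

open Crest.Agent.R275 Crest.Agent.R275.Geo Crest.Agent.R275.Core144
open Crest.Agent.R273.SerA_945 Crest.Agent.R273.SerB_945 Crest.Agent.R273.SerC_945
open Crest.Agent.R273.SerE_945 Crest.Agent.R273.TD3_733 Crest.Agent.R273.FS_333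
open Crest.Agent.R273.Defs_333 Crest.Agent.R273.SteinC_794
open Crest.Agent.R273.Chow_313 Crest.Agent.R260.Zt_313
open Crest.Agent.R281.AF_867 Crest.Agent.R281.Loc_310

noncomputable section

/-! ### orders of vanishing -/

theorem isBigO_shift {E G : Type*} [NormedAddCommGroup E] [NormedAddCommGroup G] {g : E → G}
    {z : E} {m : ℕ} : ((fun t => g (z + t)) =O[𝓝 0] fun t => ‖t‖ ^ m) ↔
      (g =O[𝓝 z] fun w => ‖w - z‖ ^ m) := by
  constructor
  · intro h
    have h1 : Tendsto (fun w : E => w - z) (𝓝 z) (𝓝 0) := by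
      have h2 : Continuous fun w : E => w - z := continuous_id.sub continuous_const
      have h3 := h2.tendsto z
      rwa [sub_self] at h3
    refine (h.comp_tendsto h1).congr_left fun w => ?_
    simp only [Function.comp_apply, add_sub_cancel]
  · intro h
    have h1 : Tendsto (fun t : E => z + t) (𝓝 0) (𝓝 z) := by
      have h2 : Continuous fun t : E => z + t := continuous_const.add continuous_id
      have h3 := h2.tendsto 0
      rwa [add_zero] at h3
    have h2 := h.comp_tendsto h1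
    refine h2.congr_right fun t => ?_
    simp only [Function.comp_apply, add_sub_cancel_left]

variable {n : ℕ} {M : Type} [TopologicalSpace M] {A : Atl n M} {O : LB A} {r : ℕ}

/-- the section `s` vanishes to order `m` at `x`, in the chart `i` -/
def Ord (A : Atl n M) (s : Fn A) (i : A.ι) (x : M) (m : ℕ) : Prop :=
  (fun w => s i ((A.e i).symm w)) =O[𝓝 (A.e i x)] fun w => ‖w - A.e i x‖ ^ m

/-- affine coordinates -/
def crd (A : Atl n M) (F : Fin r → Fn A) (j0 : Fin r) (i : A.ι) (x : M) : Fin r → ℂ :=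
  fun k => F k i x / F j0 i x


/-- points of the affine part are determined by their coordinates -/
theorem crd_inj {F : Fin r → Fn A}
    (hinj : ∀ i j, ∀ x ∈ (A.e i).source, ∀ y ∈ (A.e j).source,
      (∃ c : ℂ, ∀ k, F k i x = c * F k j y) → x = y)
    {j0 : Fin r} {i j : A.ι} {x y : M} (hi : x ∈ (A.e i).source) (hj : y ∈ (A.e j).source)
    (hx : F j0 i x ≠ 0) (h : crd A F j0 i x = crd A F j0 j y) : x = y := by
  have hy : F j0 j y ≠ 0 := by
    intro h0
    have h1 := congrFun h j0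
    simp only [crd, h0, div_zero, div_self hx] at h1
    exact one_ne_zero h1
  refine hinj i j x hi y hj ⟨F j0 i x / F j0 j y, fun k => ?_⟩
  have h1 := congrFun h k
  simp only [crd] at h1
  rw [div_eq_div_iff hx hy] at h1
  field_simp
  linear_combination h1

/-- the linear form `X_{j0}` -/
def sg (j0 : Fin r) : Fin r → ℂ := Pi.single j0 1

theorem sg_sum (j0 : Fin r) (u : Fin r → ℂ) : ∑ k, sg j0 k * u k = u j0 := by
  classical
  simp [sg, Pi.single_apply]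

theorem eval_hmg' (j0 : Fin r) {d : ℕ} {q : MvPolynomial (Fin r) ℂ} (hd : q.totalDegree ≤ d)
    {u : Fin r → ℂ} (h0 : u j0 ≠ 0) : MvPolynomial.eval u (hmg (sg j0) d q) =
      u j0 ^ d * MvPolynomial.eval (fun k => u k / u j0) q := by
  have h1 := eval_hmg (sg j0) hd u (by rw [sg_sum]; exact h0)
  simp only [sg_sum] at h1
  exact h1

/-- a homogeneous polynomial at the affine coordinates -/
theorem eval_crd {p : MvPolynomial (Fin r) ℂ} {d : ℕ} (hp : p.IsHomogeneous d)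
    {u : Fin r → ℂ} {j0 : Fin r} (h0 : u j0 ≠ 0) :
    MvPolynomial.eval u p = u j0 ^ d * MvPolynomial.eval (fun k => u k / u j0) p := by
  rw [← eval_smul hp]
  have h1 : u = u j0 • fun k => u k / u j0 := by
    funext k
    simp only [Pi.smul_apply, smul_eq_mul]
    rw [mul_div_cancel₀ _ h0]
  rw [← h1]

/-- jets of a polynomial of degree `≤ d` in the affine coordinates versus jets of the section -/
theorem ord_iff {F : Fin r → Fn A} (hF : ∀ k, IsHS O univ (F k)) {j0 : Fin r} {i : A.ι} {x : M}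
    (hx : x ∈ (A.e i).source) (h0 : F j0 i x ≠ 0) {s : Fn A} {d : ℕ} {q : MvPolynomial (Fin r) ℂ}
    (hs : ∀ y ∈ (A.e i).source, F j0 i y ≠ 0 →
      s i y = F j0 i y ^ d * MvPolynomial.eval (crd A F j0 i y) q) {m : ℕ} :
    Ord A s i x m ↔
      ((fun t => MvPolynomial.eval (th A F j0 i x t) q) =O[𝓝 0] fun t => ‖t‖ ^ m) := by
  unfold Ord
  rw [← isBigO_shift (g := fun w => s i ((A.e i).symm w))]
  have han : AnalyticAt ℂ (fun t : Cn n => F j0 i ((A.e i).symm (A.e i x + t))) 0 :=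
    an_shift (an_of_hol ((hF j0).hol i) hx)
  have hval : F j0 i ((A.e i).symm (A.e i x + 0)) = F j0 i x := by
    rw [add_zero, (A.e i).left_inv hx]
  have hne : ∀ᶠ t in 𝓝 (0 : Cn n), F j0 i ((A.e i).symm (A.e i x + t)) ≠ 0 :=
    han.continuousAt.eventually_ne (by rw [hval]; exact h0)
  have hsrc : ∀ᶠ t in 𝓝 (0 : Cn n), (A.e i).symm (A.e i x + t) ∈ (A.e i).source := by
    have h1 : Tendsto (fun t : Cn n => A.e i x + t) (𝓝 0) (𝓝 (A.e i x)) := by
      have h2 : Continuous fun t : Cn n => A.e i x + t := continuous_const.add continuous_id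
      have h3 := h2.tendsto 0
      rwa [add_zero] at h3
    filter_upwards [h1.eventually ((A.e i).open_target.mem_nhds ((A.e i).map_source hx))]
      with t ht
    exact (A.e i).map_target ht
  have heq : ∀ᶠ t in 𝓝 (0 : Cn n), s i ((A.e i).symm (A.e i x + t)) =
      F j0 i ((A.e i).symm (A.e i x + t)) ^ d * MvPolynomial.eval (th A F j0 i x t) q := by
    filter_upwards [hne, hsrc] with t ht hts
    exact hs _ hts ht
  have hct : Tendsto (fun t : Cn n => F j0 i ((A.e i).symm (A.e i x + t)) ^ d) (𝓝 0)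
      (𝓝 (F j0 i x ^ d)) := by
    have h1 := (han.continuousAt.tendsto).pow d
    rwa [hval] at h1
  have hb : (fun t : Cn n => F j0 i ((A.e i).symm (A.e i x + t)) ^ d) =O[𝓝 0]
      fun _ => (1 : ℝ) := hct.isBigO_one ℝ
  have hb' : (fun t : Cn n => (F j0 i ((A.e i).symm (A.e i x + t)) ^ d)⁻¹) =O[𝓝 0]
      fun _ => (1 : ℝ) := (hct.inv₀ (pow_ne_zero d h0)).isBigO_one ℝ
  constructor
  · intro h
    have h1 := hb'.mul h
    simp only [one_mul] at h1
    refine h1.congr' ?_ EventuallyEq.rfl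
    filter_upwards [heq, hne] with t ht ht0
    rw [ht, ← mul_assoc, inv_mul_cancel₀ (pow_ne_zero d ht0), one_mul]
  · intro h
    have h1 := hb.mul h
    simp only [one_mul] at h1
    refine h1.congr' ?_ EventuallyEq.rfl
    filter_upwards [heq] with t ht
    exact ht.symm

/-! ### the assembly -/

variable {E₁ E₂ : Type*} [NormedAddCommGroup E₁] [NormedSpace ℂ E₁] [FiniteDimensional ℂ E₁]
  [NormedAddCommGroup E₂] [NormedSpace ℂ E₂] [FiniteDimensional ℂ E₂]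

/-- the affine part of the fibre of `f` over `b` -/
def Tf (A : Atl n M) (F : Fin r → Fn A) (j0 : Fin r) (U : Set M) (f : M → E₁) (b : E₁) :
    Set (Fin r → ℂ) :=
  {v | ∃ y ∈ U, f y = b ∧ ∃ j, y ∈ (A.e j).source ∧ F j0 j y ≠ 0 ∧ v = crd A F j0 j y}

/-- the affine equations -/
def aE (E0 : Finset (MvPolynomial (Fin r) ℂ)) (j0 : Fin r) :
    Option {p // p ∈ E0} → MvPolynomial (Fin r) ℂ
  | none => MvPolynomial.X j0 - 1
  | some p => p.1

theorem aE_mem (E0 : Finset (MvPolynomial (Fin r) ℂ)) (j0 : Fin r) (e : Option {p // p ∈ E0}) :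
    aE E0 j0 e ∈ aff (E0 : Set (MvPolynomial (Fin r) ℂ)) j0 := by
  cases e with
  | none => exact mem_insert _ _
  | some p => exact mem_insert_of_mem _ p.2

theorem forall_aff {E0 : Finset (MvPolynomial (Fin r) ℂ)} {j0 : Fin r}
    {Q : MvPolynomial (Fin r) ℂ → Prop} (h : ∀ e, Q (aE E0 j0 e)) :
    ∀ p ∈ aff (E0 : Set (MvPolynomial (Fin r) ℂ)) j0, Q p := by
  rintro p (rfl | hp)
  · exact h none
  · exact h (some ⟨p, hp⟩)

/-- the inputs of (J2) -/
structure Inp (A : Atl n M) (O : LB A) (F : Fin r → Fn A) (E0 : Finset (MvPolynomial (Fin r) ℂ))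
    (U U' : Set M) (f : M → E₁) (m d : ℕ) : Prop where
  hF : ∀ k, IsHS O univ (F k)
  hE : Eqs F (E0 : Set (MvPolynomial (Fin r) ℂ))
  imm : ∀ i, ∀ x ∈ (A.e i).source, ∀ v : Cn n,
    (∃ c : ℂ, ∀ k, df A i (F k i) x v = c * F k i x) → v = 0
  inj : ∀ i j, ∀ x ∈ (A.e i).source, ∀ y ∈ (A.e j).source,
    (∃ c : ℂ, ∀ k, F k i x = c * F k j y) → x = y
  surj : ∀ s : Fn A, IsHS (O ^ d) univ s → ∃ p : MvPolynomial (Fin r) ℂ, p.IsHomogeneous d ∧
    ∀ i, ∀ x ∈ (A.e i).source, s i x = MvPolynomial.eval (fun k => F k i x) p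
  /-- MULT -/
  mult : ∀ s : Fn A, IsHS (O ^ d) univ s → ∀ i, ∀ x ∈ (A.e i).source, x ∈ U' → Ord A s i x m →
    ∀ y ∈ U, f y = f x → ∀ j, y ∈ (A.e j).source → s j y = 0
  /-- SECTIONS -/
  sect : ∀ i, ∀ x ∈ (A.e i).source, x ∈ U' → ∀ y : M, ¬ (y ∈ U ∧ f y = f x) →
    ∃ s : Fn A, IsHS (O ^ d) univ s ∧ Ord A s i x m ∧ ∀ j, y ∈ (A.e j).source → s j y ≠ 0

/-- **(J2)** -/
theorem jetDat {F : Fin r → Fn A} {E0 : Finset (MvPolynomial (Fin r) ℂ)} {U U' : Set M}
    {f : M → E₁} {m d : ℕ} (h : Inp A O F E0 U U' f m d) (hUU : U' ⊆ U) {B : Set (E₁ × E₂)}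
    {Ψ : E₁ × E₂ → M} {i : A.ι} {j0 : Fin r} (hi : ∀ z ∈ B, Ψ z ∈ (A.e i).source)
    (hU : ∀ z ∈ B, Ψ z ∈ U') (h0 : ∀ z ∈ B, F j0 i (Ψ z) ≠ 0) (hf : ∀ z ∈ B, f (Ψ z) = z.1) :
    Ja3_257.JetDat (Tf A F j0 U f) B (fun z => crd A F j0 i (Ψ z)) (aE E0 j0) m d
      (fun z => th A F j0 i (Ψ z)) (fun z => fderiv ℂ (th A F j0 i (Ψ z)) 0) where
  e0 z hz := th_zero F j0 (hi z hz)
  e1 z hz := (loc_aff h.hF h.hE (hi z hz) (h.imm i _ (hi z hz))
    (h0 z hz)).1.differentiableAt.hasFDerivAt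
  e2 z hz e := (loc_aff h.hF h.hE (hi z hz) (h.imm i _ (hi z hz)) (h0 z hz)).2.1 _
    (aE_mem E0 j0 e)
  e3 z hz y hy := by
    refine (loc_aff h.hF h.hE (hi z hz) (h.imm i _ (hi z hz)) (h0 z hz)).2.2.2.1 y
      (forall_aff fun e => ?_)
    have h1 := hy e
    rw [th_zero F j0 (hi z hz)]
    exact h1
  j1 z hz P hP hO v hv := by
    obtain ⟨y, hyU, hfy, j, hj, hy0, rfl⟩ := hv
    have hh := hmg_homog (sg j0) hP
    have hs := isHS_evF h.hF hh
    have hev : ∀ (j : A.ι), ∀ y ∈ (A.e j).source, F j0 j y ≠ 0 →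
        evF F (hmg (sg j0) d P) j y =
          F j0 j y ^ d * MvPolynomial.eval (crd A F j0 j y) P := by
      intro j y hj hy
      rw [evF_apply F _ hj, eval_hmg' j0 hP hy]
      rfl
    have h1 := h.mult _ hs i (Ψ z) (hi z hz) (hU z hz)
      ((ord_iff h.hF (hi z hz) (h0 z hz) (fun y hy hy0 => hev i y hy hy0)).2 hO) y hyU
      (by rw [hfy, hf z hz]) j hj
    rw [hev j y hj hy0] at h1
    exact (mul_eq_zero.1 h1).resolve_left (pow_ne_zero _ hy0)
  j2 z hz v hv hvT := by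
    obtain ⟨j, y, hj, hy0, rfl⟩ := pt_aff (A := A) h.hE (j0 := j0) (forall_aff hv)
    have hn : ¬ (y ∈ U ∧ f y = f (Ψ z)) := by
      rintro ⟨h1, h2⟩
      refine hvT ⟨y, h1, ?_, j, hj, hy0, rfl⟩
      rw [h2, hf z hz]
    obtain ⟨s, hs, hO, hsy⟩ := h.sect i (Ψ z) (hi z hz) (hU z hz) y hn
    obtain ⟨p, hp, hps⟩ := h.surj s hs
    have hev : ∀ (j : A.ι), ∀ y ∈ (A.e j).source, F j0 j y ≠ 0 →
        s j y = F j0 j y ^ d * MvPolynomial.eval (crd A F j0 j y) p := by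
      intro j y hj hy
      rw [hps j y hj, eval_crd (j0 := j0) hp hy]
      rfl
    refine ⟨p, hp.totalDegree_le, (ord_iff h.hF (hi z hz) (h0 z hz)
      (fun y hy hy0 => hev i y hy hy0)).1 hO, ?_⟩
    intro h1
    refine hsy j hj ?_
    rw [hev j y hj hy0]
    change F j0 j y ^ d * MvPolynomial.eval (fun k => F k j y / F j0 j y) p = 0
    rw [h1, mul_zero]
  j3 z hz v hv e := by
    obtain ⟨y, -, -, j, hj, hy0, rfl⟩ := hv
    cases e with
    | none =>
      simp only [aE, crd, map_sub, MvPolynomial.eval_X, map_one]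
      rw [div_self hy0, sub_self]
    | some p =>
      obtain ⟨⟨d', hd⟩, hz⟩ := h.hE.rel p.2
      have h1 := hz j y hj
      rw [eval_crd (j0 := j0) hd hy0] at h1
      exact (mul_eq_zero.1 h1).resolve_left (pow_ne_zero _ hy0)
  j4 z hz z' hz' hT := by
    have h1 : crd A F j0 i (Ψ z) ∈ Tf A F j0 U f z.1 :=
      ⟨Ψ z, hUU (hU z hz), hf z hz, i, hi z hz, h0 z hz, rfl⟩
    rw [hT] at h1
    obtain ⟨y, -, hfy, j, hj, hy0, hc⟩ := h1
    have h2 := crd_inj h.inj (hi z hz) hj (h0 z hz) hc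
    rw [← h2, hf z hz] at hfy
    exact hfy

end

end Crest.Agent.R281.Jd_310
private theorem rz_76674f3db3 : type_of% @_root_.Crest.Agent.R281.Jd_310.aE.eq_1 := @_root_.Crest.Agent.R281.Jd_310.aE.eq_1 -- L167
end

-- ▼ part R281/Jd2_310
section

/-!
# R281, JETS-ASM (J2), part 2 (helper310): the inputs from `QTube`, MULT and SECTIONS

`MULT` : 10's multiplicity bound (in `Qt_922.Disc`); `SEC` : 578's sections;
`exists_inp` : `Inp` for `O = lb P = Lb ^ m0`, all large degrees.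
-/

set_option autoImplicit false
set_option linter.unusedSectionVars false

open Set Filter Topology Complex Asymptotics Metric
open scoped ComplexOrder

namespace Crest.Agent.R281.Jd_310

open Crest.Agent.R275 Crest.Agent.R275.Geo Crest.Agent.R275.Core144
open Crest.Agent.R273.SerA_945 Crest.Agent.R273.SerB_945 Crest.Agent.R273.SerC_945
open Crest.Agent.R273.SerE_945 Crest.Agent.R273.TD3_733 Crest.Agent.R273.FS_333
open Crest.Agent.R273.Defs_333 Crest.Agent.R273.SteinC_794 Crest.Agent.R273.Kah_333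
open Crest.Agent.R273.Chow_313 Crest.Agent.R260.Zt_313
open Crest.Agent.R281.AF_867 Crest.Agent.R281.Loc_310 Crest.Agent.R281.Qt_922

noncomputable section

variable {N : ℕ} {M : Type} [TopologicalSpace M]

/-- the multiplicity bound, for sections of all line bundles -/
def MULT (A : Atl N M) (K : Kah A) (κ : ℝ) : Prop :=
  ∀ (T : Set M), IsCompact T → ∀ (L : LB A) (h : HM L) (C : ℝ), 0 ≤ C →
    (∀ i, ∀ y ∈ (A.e i).source, y ∈ T → ((C : ℂ) • K.g i y - cur h i y).PosSemidef) →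
    ∀ s : Fn A, IsHS L univ s → ∀ (i : A.ι) (x : M) (m : ℕ), x ∈ (A.e i).source →
    Ord A s i x m → (∀ z ∈ T, ∃ g, Disc A K κ T g ∧ g 0 = z ∧ g 1 = x) →
    2 * (C * κ) < m * Real.log 2 → ∀ y ∈ T, ∀ j, y ∈ (A.e j).source → s j y = 0

/-- sections of the powers `Lb ^ p`, `p ≥ p0`, with the order of vanishing `mu p` at a point of the
inner tube, not vanishing at a given point outside the fibre -/
def SEC (A : Atl N M) {K : Kah A} {n : ℕ} {κ R : ℝ} (q : QTube A K n κ R) (Lb : LB A) (R' : ℝ)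
    (p0 : ℕ) (mu : ℕ → ℕ) : Prop :=
  ∀ p, p0 ≤ p → ∀ (i : A.ι) (x : M), x ∈ (A.e i).source → x ∈ q.U → ‖q.f x‖ < R' →
    ∀ y : M, ¬ (y ∈ q.U ∧ q.f y = q.f x) →
      ∃ s : Fn A, IsHS (Lb ^ p) univ s ∧ Ord A s i x (mu p) ∧
        ∀ j, y ∈ (A.e j).source → s j y ≠ 0

section

variable {A : Atl N M} {K : Kah A} {n : ℕ} {κ R : ℝ}

theorem isCompact_fib [T2Space M] (q : QTube A K n κ R) {x : M} (hx : x ∈ q.U) :
    IsCompact {y | y ∈ q.U ∧ q.f y = q.f x} := by
  have hC := q.cpt ‖q.f x‖ (q.lt x hx)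
  have h1 : {y | y ∈ q.U ∧ q.f y = q.f x} =
      {y | y ∈ q.U ∧ ‖q.f y‖ ≤ ‖q.f x‖} ∩ q.f ⁻¹' {q.f x} := by
    ext y
    constructor
    · rintro ⟨h1, h2⟩
      exact ⟨⟨h1, by rw [h2]⟩, h2⟩
    · rintro ⟨⟨h1, _⟩, h2⟩
      exact ⟨h1, h2⟩
  rw [h1]
  refine hC.of_isClosed_subset ?_ inter_subset_left
  exact (q.cont.mono fun y hy => hy.1).preimage_isClosed_of_isClosed hC.isClosed
    isClosed_singleton


variable [T2Space M] [ConnectedSpace M] [CompactSpace M] [Finite A.ι]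

/-- **`Inp` from QTube, MULT, SECTIONS** -/
theorem exists_inp (PA : Part A) (hD : D2 A) (q : QTube A K n κ R) {Lb : LB A} (h : HM Lb)
    {c : ℝ} (hc : 0 ≤ c) (hcur : ∀ i, ∀ y ∈ (A.e i).source, cur h i y = (c : ℂ) • K.g i y)
    (hM : MULT A K κ) {R' : ℝ} {p0 : ℕ} {mu : ℕ → ℕ}
    (hmu : ∀ p, p0 ≤ p → 2 * ((c * p) * κ) < mu p * Real.log 2)
    (hS : SEC A q Lb R' p0 mu) (P : ProjD A) {m0 : ℕ} (hm0 : 0 < m0) (hP : lb P = Lb ^ m0) :
    ∃ E0 : Finset (MvPolynomial (Fin (P.N + 1)) ℂ), ∃ d0 : ℕ, ∀ d, d0 ≤ d →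
      Inp A (lb P) (fun k => sec P k) E0 q.U {x | x ∈ q.U ∧ ‖q.f x‖ < R'} q.f (mu (m0 * d)) d := by
  obtain ⟨E0, hE0, hE⟩ := exists_eqs_proj PA hD P
  obtain ⟨m1, hm1⟩ := surj_proj PA hD P
  refine ⟨E0, max p0 m1, fun d hd => ?_⟩
  have hd0 : p0 ≤ m0 * d := (le_trans (le_max_left _ _) hd).trans (Nat.le_mul_of_pos_left d hm0)
  have hpw : lb P ^ d = Lb ^ (m0 * d) := by rw [hP, ← pow_mul]
  refine ⟨fun k => isHS_sec P k, hE _ Subset.rfl hE0, ?_, ?_, hm1 d (le_trans (le_max_right _ _) hd),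
    ?_, ?_⟩
  · rintro i x hx v ⟨c, hc⟩
    refine (ofProj P).imm i (A.e i x) ((A.e i).map_source hx) v ⟨c, fun k => ?_⟩
    rw [(A.e i).left_inv hx]
    exact hc k
  · rintro i j x hx y hy ⟨c, hc⟩
    refine P.inj i j x hx y hy ⟨c, funext fun k => ?_⟩
    have h1 := hc k
    rw [sec_eq P hx, sec_eq P hy] at h1
    exact h1
  · intro s hs i x hx hxU hO y hy hfy j hj
    rw [hpw] at hs
    refine hM {y | y ∈ q.U ∧ q.f y = q.f x} (isCompact_fib q hxU.1) _
      (Crest.Agent.R273.HM_333.pow h (m0 * d)) (c * (m0 * d : ℕ)) (by positivity)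
      (fun i y hy _ => ?_) s hs i x _ hx hO (fun z hz => ?_) (hmu _ hd0) y ⟨hy, hfy⟩ j hj
    · rw [cur_pow h _ i hy, hcur i y hy, smul_smul]
      have h1 : (((c * (m0 * d : ℕ) : ℝ)) : ℂ) = ((m0 * d : ℕ) : ℂ) * (c : ℂ) := by
        push_cast
        ring
      rw [h1, sub_self]
      exact Matrix.PosSemidef.zero
    · obtain ⟨g, hg, hg0, hg1⟩ := q.q2 x hxU.1 z hz.1 hz.2.symm
      exact ⟨g, hg, hg0, hg1⟩
  · intro i x hx hxU y hy
    obtain ⟨s, hs, hO, hsy⟩ := hS (m0 * d) hd0 i x hx hxU.1 hxU.2 y hy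
    exact ⟨s, by rw [hpw]; exact hs, hO, hsy⟩

end

end

end Crest.Agent.R281.Jd_310
end

-- ▼ part R281/Mult0_10
section

/-!
# R281 (S0424), MULT (helper10), part 0: one complex variable

`no_localMax` : `log |f|² - w ∘ γ + a |ζ|² - m log |B|²` has no local maximum at a point where
`f, B ≠ 0` and the Levi form of `w` on `γ'` is `< a`.
`Bl ζ = 2 (ζ - 1) / (4 - ζ)` : the Blaschke factor of the disc of radius `2` with the zero `1`.
-/

set_option autoImplicit false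
set_option linter.unusedSectionVars false

open Set Filter Topology Complex Metric
open scoped ContDiff Matrix ComplexConjugate Manifold ComplexOrder

namespace Crest.Agent.R281.Mult_10

open Crest.Agent.R275.Geo Crest.Agent.R275.Core144 Crest.Agent.R275.GC293
open Crest.Agent.R273.Defs_333 Crest.Agent.R273.Kah_333 Crest.Agent.R273.HM_333
open Crest.Agent.R273.Hess_333 Crest.Agent.R273.HessB_333
open Crest.Agent.R273.FS_333 (hess_sq contDiffAt_of_hol)
open Crest.Agent.R273.Map_835 (mt)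

noncomputable section

/-- the point `ζ` of `Cn 1` -/
def pt (ζ : ℂ) : Cn 1 := EuclideanSpace.single 0 ζ

@[simp] theorem pt_zero (ζ : ℂ) : pt ζ 0 = ζ := by simp [pt]

theorem two_le_inf : (2 : WithTop ℕ∞) ≤ (∞ : WithTop ℕ∞) := by
  have h : ((2 : ℕ∞) : WithTop ℕ∞) ≤ ((⊤ : ℕ∞) : WithTop ℕ∞) := WithTop.coe_le_coe.2 le_top
  exact h

theorem hess_re_nonpos {F : Cn 1 → ℝ} {z : Cn 1} (hF : ContDiffAt ℝ ∞ F z) (hm : IsLocalMax F z) :
    (hess F z 0 0).re ≤ 0 := by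
  have h1 : 0 ≤ lev (fun z => - F z) z (EuclideanSpace.single 0 1) :=
    Crest.Agent.R273.YauMax_635.lev_nonneg_of_localMin (hF.neg.of_le two_le_inf) hm.neg _
  have h2 := hq_re (hF.neg) (EuclideanSpace.single (0 : Fin 1) (1 : ℂ))
  have h3 : hq (fun z => - F z) z (EuclideanSpace.single 0 1) = - hess F z 0 0 := by
    simp [hq, hess_neg hF]
  rw [h3, Complex.neg_re] at h2
  linarith

theorem analyticAt_c0 (z : Cn 1) : AnalyticAt ℂ (fun y : Cn 1 => y 0) z :=
  (EuclideanSpace.proj (0 : Fin 1) : Cn 1 →L[ℂ] ℂ).analyticAt z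

theorem analyticAt_lift {W : Type*} [NormedAddCommGroup W] [NormedSpace ℂ W] {f : ℂ → W} {ζ : ℂ}
    (hf : AnalyticAt ℂ f ζ) : AnalyticAt ℂ (fun y : Cn 1 => f (y 0)) (pt ζ) := by
  have h : AnalyticAt ℂ f ((fun y : Cn 1 => y 0) (pt ζ)) := by
    show AnalyticAt ℂ f (pt ζ 0)
    rwa [pt_zero]
  exact AnalyticAt.comp (g := f) (f := fun y : Cn 1 => y 0) h (analyticAt_c0 (pt ζ))

theorem ev_diff {W : Type*} [NormedAddCommGroup W] [NormedSpace ℂ W] [CompleteSpace W] {f : Cn 1 → W} {z : Cn 1}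
    (hf : AnalyticAt ℂ f z) : ∀ᶠ y in 𝓝 z, DifferentiableAt ℂ f y :=
  hf.eventually_analyticAt.mono fun _ h => h.differentiableAt

theorem fderiv_lift {W : Type*} [NormedAddCommGroup W] [NormedSpace ℂ W] {f : ℂ → W} {ζ : ℂ}
    (hf : AnalyticAt ℂ f ζ) :
    fderiv ℂ (fun y : Cn 1 => f (y 0)) (pt ζ) (EuclideanSpace.single 0 1) = deriv f ζ := by
  have h1 : HasFDerivAt f (ContinuousLinearMap.toSpanSingleton ℂ (deriv f ζ)) (pt ζ 0) := by
    rw [pt_zero]
    exact hf.differentiableAt.hasDerivAt.hasFDerivAt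
  have h2 : HasFDerivAt (fun y : Cn 1 => y 0) (EuclideanSpace.proj (0 : Fin 1) : Cn 1 →L[ℂ] ℂ)
      (pt ζ) := (EuclideanSpace.proj (0 : Fin 1) : Cn 1 →L[ℂ] ℂ).hasFDerivAt
  have h3 := h1.comp (pt ζ) h2
  have h4 : fderiv ℂ (fun y : Cn 1 => f (y 0)) (pt ζ) = _ := h3.fderiv
  rw [h4]
  simp

theorem hess_sq0 (a : ℝ) (z : Cn 1) : ContDiffAt ℝ ∞ (fun y : Cn 1 => a * ‖y 0‖ ^ 2) z ∧
    hess (fun y : Cn 1 => a * ‖y 0‖ ^ 2) z 0 0 = (a : ℂ) := by
  have hd : ∀ k : Fin 1, DifferentiableOn ℂ (fun y : Cn 1 => (fun (y : Cn 1) (_ : Fin 1) => y 0) y k)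
      univ := fun k y _ => (analyticAt_c0 y).differentiableAt.differentiableWithinAt
  have hc : ContDiffAt ℝ ∞ (fun y : Cn 1 => ‖y 0‖ ^ 2) z :=
    ContDiffAt.norm_sq ℝ ((analyticAt_c0 z).contDiffAt.restrict_scalars ℝ)
  refine ⟨contDiffAt_const.mul hc, ?_⟩
  rw [hess_const_mul a hc]
  have h1 := hess_sq isOpen_univ hd (mem_univ z) 0 0
  have h2 : Crest.Agent.R273.FS_333.sq (fun (y : Cn 1) (_ : Fin 1) => y 0) = fun y : Cn 1 => ‖y 0‖ ^ 2 := by
    funext y
    simp [Crest.Agent.R273.FS_333.sq]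
  rw [h2] at h1
  have h3 : fderiv ℂ (fun y : Cn 1 => y 0) z (EuclideanSpace.single 0 1) = 1 := by
    have h4 : HasFDerivAt (fun y : Cn 1 => y 0) (EuclideanSpace.proj (0 : Fin 1) : Cn 1 →L[ℂ] ℂ)
      z := (EuclideanSpace.proj (0 : Fin 1) : Cn 1 →L[ℂ] ℂ).hasFDerivAt
    rw [h4.fderiv]
    simp
  simp only [Matrix.smul_apply, smul_eq_mul]
  rw [h1]
  simp [h3]

variable {N : ℕ}

/-- the function on `Cn 1` -/
def Fn (f B : ℂ → ℂ) (w : Cn N → ℝ) (γ : ℂ → Cn N) (a m : ℝ) (ξ : ℂ) : ℝ :=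
  Real.log (‖f ξ‖ ^ 2) - w (γ ξ) + a * ‖ξ‖ ^ 2 - m * Real.log (‖B ξ‖ ^ 2)

theorem hess_Fn {w : Cn N → ℝ} {γ : ℂ → Cn N} {f B : ℂ → ℂ} {ζ : ℂ} (a m : ℝ)
    (hw : ContDiffAt ℝ ∞ w (γ ζ)) (hγ : AnalyticAt ℂ γ ζ) (hf : AnalyticAt ℂ f ζ) (hf0 : f ζ ≠ 0)
    (hB : AnalyticAt ℂ B ζ) (hB0 : B ζ ≠ 0) :
    ContDiffAt ℝ ∞ (fun y : Cn 1 => Fn f B w γ a m (y 0)) (pt ζ) ∧
    hess (fun y : Cn 1 => Fn f B w γ a m (y 0)) (pt ζ) 0 0 =
      (a : ℂ) - ∑ c, ∑ d, hess w (γ ζ) c d * (deriv γ ζ) c * conj ((deriv γ ζ) d) := by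
  have hT : AnalyticAt ℂ (fun y : Cn 1 => γ (y 0)) (pt ζ) := analyticAt_lift hγ
  have hF : AnalyticAt ℂ (fun y : Cn 1 => f (y 0)) (pt ζ) := analyticAt_lift hf
  have hB' : AnalyticAt ℂ (fun y : Cn 1 => B (y 0)) (pt ζ) := analyticAt_lift hB
  have hw' : ContDiffAt ℝ ∞ w ((fun y : Cn 1 => γ (y 0)) (pt ζ)) := by simpa using hw
  have c1 : ContDiffAt ℝ ∞ (fun y : Cn 1 => Real.log (‖f (y 0)‖ ^ 2)) (pt ζ) :=
    (ContDiffAt.norm_sq ℝ (hF.contDiffAt.restrict_scalars ℝ)).log (by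
      simpa using hf0)
  have c4 : ContDiffAt ℝ ∞ (fun y : Cn 1 => Real.log (‖B (y 0)‖ ^ 2)) (pt ζ) :=
    (ContDiffAt.norm_sq ℝ (hB'.contDiffAt.restrict_scalars ℝ)).log (by
      simpa using hB0)
  have c2 : ContDiffAt ℝ ∞ (fun y : Cn 1 => w (γ (y 0))) (pt ζ) :=
    hw'.comp (pt ζ) (hT.contDiffAt.restrict_scalars ℝ)
  obtain ⟨c3, h3⟩ := hess_sq0 a (pt ζ)
  have c12 : ContDiffAt ℝ ∞ (fun y : Cn 1 => Real.log (‖f (y 0)‖ ^ 2) - w (γ (y 0))) (pt ζ) :=
    c1.sub c2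
  have c123 : ContDiffAt ℝ ∞ (fun y : Cn 1 => Real.log (‖f (y 0)‖ ^ 2) - w (γ (y 0)) +
      a * ‖y 0‖ ^ 2) (pt ζ) := c12.add c3
  have c4' : ContDiffAt ℝ ∞ (fun y : Cn 1 => m * Real.log (‖B (y 0)‖ ^ 2)) (pt ζ) :=
    contDiffAt_const.mul c4
  refine ⟨c123.sub c4', ?_⟩
  have e1 : hess (fun y : Cn 1 => Real.log (‖f (y 0)‖ ^ 2)) (pt ζ) = 0 :=
    hess_log_norm (f := fun y : Cn 1 => f (y 0)) (ev_diff hF) (by simpa using hf0)
  have e4 : hess (fun y : Cn 1 => Real.log (‖B (y 0)‖ ^ 2)) (pt ζ) = 0 :=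
    hess_log_norm (f := fun y : Cn 1 => B (y 0)) (ev_diff hB') (by simpa using hB0)
  have e2 := Crest.Agent.R273.LeviR_155.hess_compR (u := w) hT
    (hw'.of_le two_le_inf)
  have e : hess (fun y : Cn 1 => Fn f B w γ a m (y 0)) (pt ζ) =
      (hess (fun y : Cn 1 => Real.log (‖f (y 0)‖ ^ 2)) (pt ζ) -
        hess (fun y : Cn 1 => w (γ (y 0))) (pt ζ) +
        hess (fun y : Cn 1 => a * ‖y 0‖ ^ 2) (pt ζ)) -
        (m : ℂ) • hess (fun y : Cn 1 => Real.log (‖B (y 0)‖ ^ 2)) (pt ζ) := by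
    rw [← hess_const_mul m c4, ← hess_sub c1 c2, ← hess_add c12 c3, ← hess_sub c123 c4']
    rfl
  rw [e, e1, e4, e2]
  simp only [smul_zero, sub_zero, zero_sub, Matrix.add_apply, Matrix.neg_apply, h3]
  rw [neg_add_eq_sub]
  congr 1
  simp only [Matrix.mul_apply, Matrix.transpose_apply, Matrix.map_apply, Finset.sum_mul]
  rw [Finset.sum_comm]
  have e5 : ∀ c, mt (fderiv ℂ (fun y : Cn 1 => γ (y 0)) (pt ζ)) c 0 = (deriv γ ζ) c := by
    intro c
    rw [← fderiv_lift hγ]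
    rfl
  refine Finset.sum_congr rfl fun c _ => Finset.sum_congr rfl fun d _ => ?_
  rw [e5, e5]
  simp only [pt_zero]
  ring

theorem no_localMax {w : Cn N → ℝ} {γ : ℂ → Cn N} {f B : ℂ → ℂ} {ζ : ℂ} {a m : ℝ}
    (hw : ContDiffAt ℝ ∞ w (γ ζ)) (hγ : AnalyticAt ℂ γ ζ) (hf : AnalyticAt ℂ f ζ) (hf0 : f ζ ≠ 0)
    (hB : AnalyticAt ℂ B ζ) (hB0 : B ζ ≠ 0)
    (hlt : (∑ c, ∑ d, hess w (γ ζ) c d * (deriv γ ζ) c * conj ((deriv γ ζ) d)).re < a) :
    ¬ IsLocalMax (Fn f B w γ a m) ζ := by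
  intro hm
  obtain ⟨hc, hh⟩ := hess_Fn a m hw hγ hf hf0 hB hB0
  have h1 : IsLocalMax (fun y : Cn 1 => Fn f B w γ a m (y 0)) (pt ζ) := by
    have h2 : Tendsto (fun y : Cn 1 => y 0) (𝓝 (pt ζ)) (𝓝 ζ) := by
      have := (analyticAt_c0 (pt ζ)).continuousAt
      simpa [ContinuousAt] using this
    have h3 := h2.eventually hm
    filter_upwards [h3] with y hy
    simpa using hy
  have h4 := hess_re_nonpos hc h1
  rw [hh, Complex.sub_re, Complex.ofReal_re] at h4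
  linarith

/-! ### the Blaschke factor -/

/-- the Blaschke factor -/
def Bl (ζ : ℂ) : ℂ := 2 * (ζ - 1) / (4 - ζ)

theorem four_sub_ne {ζ : ℂ} (h : ‖ζ‖ < 3) : (4 : ℂ) - ζ ≠ 0 := by
  intro h0
  have h1 : ζ = 4 := (sub_eq_zero.1 h0).symm
  rw [h1] at h
  norm_num at h

theorem analyticAt_Bl {ζ : ℂ} (h : ‖ζ‖ < 3) : AnalyticAt ℂ Bl ζ :=
  (analyticAt_const.mul (analyticAt_id.sub analyticAt_const)).div
    (analyticAt_const.sub analyticAt_id) (four_sub_ne h)

theorem Bl_ne {ζ : ℂ} (h : ‖ζ‖ < 3) (h1 : ζ ≠ 1) : Bl ζ ≠ 0 :=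
  div_ne_zero (mul_ne_zero two_ne_zero (sub_ne_zero.2 h1)) (four_sub_ne h)

theorem Bl_one : Bl 1 = 0 := by simp [Bl]

theorem norm_Bl_zero : ‖Bl 0‖ ^ 2 = 1 / 4 := by
  have : Bl 0 = -(1 / 2) := by simp [Bl]; norm_num
  rw [this, norm_neg]
  norm_num

theorem norm_Bl_bd {ζ : ℂ} (h : ‖ζ‖ = 2) : ‖Bl ζ‖ ^ 2 = 1 := by
  have h0 : (4 : ℂ) - ζ ≠ 0 := four_sub_ne (by rw [h]; norm_num)
  have h1 : ‖(4 : ℂ) - ζ‖ ^ 2 ≠ 0 := by
    have := norm_pos_iff.2 h0
    positivity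
  rw [Bl, norm_div, div_pow, div_eq_one_iff_eq h1, norm_mul, mul_pow]
  have h2 : ζ.re ^ 2 + ζ.im ^ 2 = 4 := by
    have := Complex.sq_norm ζ
    rw [h, Complex.normSq_apply] at this
    nlinarith
  rw [Complex.sq_norm (ζ - 1), Complex.sq_norm (4 - ζ), Complex.normSq_apply, Complex.normSq_apply]
  simp only [Complex.sub_re, Complex.sub_im, Complex.one_re, Complex.one_im]
  have e4 : (4 : ℂ).re = 4 := rfl
  have e4' : (4 : ℂ).im = 0 := rfl
  rw [e4, e4']
  have : ‖(2 : ℂ)‖ = 2 := by norm_num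
  rw [this]
  nlinarith

theorem norm_Bl_ge {ζ : ℂ} (h : ‖ζ‖ < 3) : ‖ζ - 1‖ ^ 2 / 16 ≤ ‖Bl ζ‖ ^ 2 := by
  have h0 : (4 : ℂ) - ζ ≠ 0 := four_sub_ne h
  have h1 : 0 < ‖(4 : ℂ) - ζ‖ := norm_pos_iff.2 h0
  have h2 : ‖(4 : ℂ) - ζ‖ ≤ 7 := by
    have := norm_sub_le (4 : ℂ) ζ
    have h4 : ‖(4 : ℂ)‖ = 4 := by norm_num
    linarith
  have h3 : ‖(2 : ℂ)‖ = 2 := by norm_num
  rw [Bl, norm_div, div_pow, norm_mul, mul_pow, h3]
  rw [div_le_div_iff₀ (by norm_num) (by positivity)]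
  have h5 : ‖(4 : ℂ) - ζ‖ ^ 2 ≤ 49 := by nlinarith
  have h6 : 0 ≤ ‖ζ - 1‖ ^ 2 := by positivity
  nlinarith

end

end Crest.Agent.R281.Mult_10
end

-- ▼ part R281/Mult1_10
section

/-!
# R281 (S0424), MULT (helper10), part 1: the multiplicity bound

`kq K i y v`   : the squared length of the vector `v` at `y` in the metric `K`
`Disc K T κ g` : `g` is a holomorphic disc of radius `3` in `T` with `K(g', g') ≤ κ`
`mult`         : a section which vanishes to order `m` at `x` along all the discs of `T` through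
                 `x` is zero on `T`, if `cur h ≤ C K` on `T` and `2 C κ < m log 2`
`mult_jet`, `mult_pow`.
-/

set_option autoImplicit false
set_option linter.unusedSectionVars false

open Set Filter Topology Complex Metric Asymptotics
open scoped ContDiff Matrix ComplexConjugate Manifold ComplexOrder

namespace Crest.Agent.R281.Mult_10

open Crest.Agent.R275.Geo Crest.Agent.R275.Core144 Crest.Agent.R275.GC293
open Crest.Agent.R273.Defs_333 Crest.Agent.R273.Kah_333 Crest.Agent.R273.HM_333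
open Crest.Agent.R273.Hess_333 Crest.Agent.R273.HessB_333

noncomputable section

variable {N : ℕ} {M : Type} [TopologicalSpace M] {A : Atl N M}

/-- the squared length of `v` at `y` -/
def kq (K : Kah A) (i : A.ι) (y : M) (v : Cn N) : ℝ :=
  (∑ a, ∑ b, K.g i y a b * v a * conj (v b)).re

/-- a holomorphic disc of radius `3` in `T`, of squared speed `≤ κ` -/
structure Disc (K : Kah A) (T : Set M) (κ : ℝ) (g : ℂ → M) : Prop where
  mem : ∀ ζ ∈ ball (0 : ℂ) 3, g ζ ∈ T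
  cont : ContinuousOn g (ball 0 3)
  hol : ∀ i, ∀ ζ ∈ ball (0 : ℂ) 3, g ζ ∈ (A.e i).source →
    DifferentiableAt ℂ (fun ξ => A.e i (g ξ)) ζ
  speed : ∀ i, ∀ ζ ∈ ball (0 : ℂ) 3, g ζ ∈ (A.e i).source →
    kq K i (g ζ) (deriv (fun ξ => A.e i (g ξ)) ζ) ≤ κ

/-! ### the squared length of a section as a function on `M` -/

/-- `|s|²` -/
def Nf {L : LB A} (h : HM L) (s : A.ι → M → ℂ) (y : M) : ℝ :=
  nsq h s (Classical.choose (A.cover y)) y

variable {L : LB A} {h : HM L} {s : A.ι → M → ℂ} {U : Set M}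

theorem Nf_eq (hs : IsHS L U s) {i : A.ι} {y : M} (hi : y ∈ (A.e i).source) (hU : y ∈ U) :
    Nf h s y = ‖s i y‖ ^ 2 * h.w i y :=
  nsq_indep h hs ⟨Classical.choose_spec (A.cover y), hi⟩ hU

theorem contAt_chart {β : Type*} [TopologicalSpace β] {f : M → β} {i : A.ι} {x : M}
    (hx : x ∈ (A.e i).source) (hf : ContinuousAt (fun z => f ((A.e i).symm z)) (A.e i x)) :
    ContinuousAt f x := by
  have h2 : ContinuousAt (fun y => f ((A.e i).symm (A.e i y))) x :=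
    hf.comp (f := A.e i) (x := x) ((A.e i).continuousAt hx)
  refine h2.congr ?_
  filter_upwards [(A.e i).open_source.mem_nhds hx] with y hy
  rw [(A.e i).left_inv hy]

theorem contAt_w (h : HM L) {i : A.ι} {y : M} (hi : y ∈ (A.e i).source) :
    ContinuousAt (h.w i) y :=
  contAt_chart hi ((h.sm i).continuousOn.continuousAt
    ((A.e i).open_target.mem_nhds ((A.e i).map_source hi)))

theorem diffAt_s (hU : IsOpen U) (hs : IsHS L U s) {i : A.ι} {y : M} (hi : y ∈ (A.e i).source)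
    (hyU : y ∈ U) : DifferentiableAt ℂ (fun z => s i ((A.e i).symm z)) (A.e i y) :=
  (hs.hol i).differentiableAt ((isOpen_ti hU).mem_nhds
    ⟨(A.e i).map_source hi, by rw [mem_preimage, (A.e i).left_inv hi]; exact hyU⟩)

theorem contAt_s (hU : IsOpen U) (hs : IsHS L U s) {i : A.ι} {y : M} (hi : y ∈ (A.e i).source)
    (hyU : y ∈ U) : ContinuousAt (s i) y :=
  contAt_chart hi (diffAt_s hU hs hi hyU).continuousAt

theorem contOn_Nf (hU : IsOpen U) (hs : IsHS L U s) : ContinuousOn (Nf h s) U := by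
  intro y hy
  obtain ⟨i, hi⟩ := A.cover y
  have h1 : ContinuousAt (fun y => ‖s i y‖ ^ 2 * h.w i y) y :=
    ((contAt_s hU hs hi hy).norm.pow 2).mul (contAt_w h hi)
  refine (h1.congr ?_).continuousWithinAt
  filter_upwards [(A.e i).open_source.mem_nhds hi, hU.mem_nhds hy] with y' h2 h3
  exact (Nf_eq hs h2 h3).symm

theorem Nf_nonneg (hs : IsHS L U s) {y : M} (hU : y ∈ U) : 0 ≤ Nf h s y := by
  obtain ⟨i, hi⟩ := A.cover y
  rw [Nf_eq hs hi hU]
  exact mul_nonneg (by positivity) (h.pos i y hi).le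

theorem Nf_pos_iff (hs : IsHS L U s) {i : A.ι} {y : M} (hi : y ∈ (A.e i).source) (hU : y ∈ U) :
    0 < Nf h s y ↔ s i y ≠ 0 := by
  rw [Nf_eq hs hi hU]
  have h1 := h.pos i y hi
  constructor
  · intro h2 h3
    rw [h3] at h2
    simp at h2
  · intro h2
    have := norm_pos_iff.2 h2
    positivity

/-! ### along a disc -/

section disc

variable {K : Kah A} {T : Set M} {κ : ℝ} {g : ℂ → M}

theorem Disc.nhds (hg : Disc K T κ g) {i : A.ι} {ζ : ℂ} (hζ : ζ ∈ ball (0 : ℂ) 3)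
    (hi : g ζ ∈ (A.e i).source) : ∀ᶠ ξ in 𝓝 ζ, ξ ∈ ball (0 : ℂ) 3 ∧ g ξ ∈ (A.e i).source := by
  have h1 : ContinuousAt g ζ := hg.cont.continuousAt (isOpen_ball.mem_nhds hζ)
  filter_upwards [isOpen_ball.mem_nhds hζ, h1.eventually ((A.e i).open_source.mem_nhds hi)]
    with ξ h2 h3
  exact ⟨h2, h3⟩

theorem Disc.analyticAt (hg : Disc K T κ g) {i : A.ι} {ζ : ℂ} (hζ : ζ ∈ ball (0 : ℂ) 3)
    (hi : g ζ ∈ (A.e i).source) : AnalyticAt ℂ (fun ξ => A.e i (g ξ)) ζ := by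
  rw [Complex.analyticAt_iff_eventually_differentiableAt]
  filter_upwards [hg.nhds hζ hi] with ξ h1
  exact hg.hol i ξ h1.1 h1.2

theorem Disc.analyticAt_s (hg : Disc K T κ g) (hU : IsOpen U) (hTU : T ⊆ U) (hs : IsHS L U s)
    {i : A.ι} {ζ : ℂ} (hζ : ζ ∈ ball (0 : ℂ) 3) (hi : g ζ ∈ (A.e i).source) :
    AnalyticAt ℂ (fun ξ => s i (g ξ)) ζ := by
  rw [Complex.analyticAt_iff_eventually_differentiableAt]
  filter_upwards [(hg.nhds hζ hi).eventually_nhds] with ξ h1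
  have h2 := h1.self_of_nhds
  have h3 : DifferentiableAt ℂ (fun ξ => s i ((A.e i).symm (A.e i (g ξ)))) ξ :=
    DifferentiableAt.comp (g := fun z => s i ((A.e i).symm z)) (f := fun ξ => A.e i (g ξ)) ξ
      (diffAt_s hU hs h2.2 (hTU (hg.mem ξ h2.1))) (hg.hol i ξ h2.1 h2.2)
  refine h3.congr_of_eventuallyEq ?_
  filter_upwards [h1] with ξ' h4
  rw [(A.e i).left_inv h4.2]

/-- the Levi form of the weight along the disc -/
theorem Disc.levi_le (hg : Disc K T κ g) {C : ℝ} (hC : 0 ≤ C)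
    (hcur : ∀ i, ∀ y ∈ (A.e i).source, y ∈ T → ((C : ℂ) • K.g i y - cur h i y).PosSemidef)
    {i : A.ι} {ζ : ℂ} (hζ : ζ ∈ ball (0 : ℂ) 3) (hi : g ζ ∈ (A.e i).source) :
    (∑ c, ∑ d, hess (h.wt i) (A.e i (g ζ)) c d * (deriv (fun ξ => A.e i (g ξ)) ζ) c *
      conj ((deriv (fun ξ => A.e i (g ξ)) ζ) d)).re ≤ C * κ := by
  set v : Cn N := deriv (fun ξ => A.e i (g ξ)) ζ with hv
  have h1 := (hcur i (g ζ) hi (hg.mem ζ hζ)).dotProduct_mulVec_nonneg (fun a => conj (v a))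
  have h2 : star (fun a => conj (v a)) ⬝ᵥ (((C : ℂ) • K.g i (g ζ) - cur h i (g ζ)) *ᵥ
      (fun a => conj (v a))) = (C : ℂ) * (∑ a, ∑ b, K.g i (g ζ) a b * v a * conj (v b)) -
      ∑ a, ∑ b, hess (h.wt i) (A.e i (g ζ)) a b * v a * conj (v b) := by
    rw [Matrix.sub_mulVec, Matrix.smul_mulVec, dotProduct_sub, dotProduct_smul, smul_eq_mul]
    simp only [dotProduct, Matrix.mulVec, Pi.star_apply, RCLike.star_def, Finset.mul_sum,
      Complex.conj_conj, cur]
    congr 1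
    · refine Finset.sum_congr rfl fun a _ => Finset.sum_congr rfl fun b _ => ?_
      ring
    · refine Finset.sum_congr rfl fun a _ => Finset.sum_congr rfl fun b _ => ?_
      ring
  rw [h2] at h1
  have h3 := (Complex.le_def.1 h1).1
  rw [Complex.sub_re, Complex.re_ofReal_mul, Complex.zero_re] at h3
  have h4 : kq K i (g ζ) v ≤ κ := hg.speed i ζ hζ hi
  have h5 : C * kq K i (g ζ) v ≤ C * κ := mul_le_mul_of_nonneg_left h4 hC
  unfold kq at h5
  linarith

/-- the function of the maximum principle -/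
def Gf (h : HM L) (s : A.ι → M → ℂ) (g : ℂ → M) (a m : ℝ) (ξ : ℂ) : ℝ :=
  Nf h s (g ξ) * Real.exp (a * ‖ξ‖ ^ 2) * (‖Bl ξ‖ ^ 2) ^ (-m)

theorem Disc.no_max (hg : Disc K T κ g) (hU : IsOpen U) (hTU : T ⊆ U) (hs : IsHS L U s) {C : ℝ}
    (hC : 0 ≤ C)
    (hcur : ∀ i, ∀ y ∈ (A.e i).source, y ∈ T → ((C : ℂ) • K.g i y - cur h i y).PosSemidef)
    {a m : ℝ} (ha : C * κ < a) {ζ : ℂ} (hζ : ζ ∈ ball (0 : ℂ) 3) (h1 : ζ ≠ 1)
    (hpos : 0 < Nf h s (g ζ)) : ¬ IsLocalMax (Gf h s g a m) ζ := by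
  intro hm
  obtain ⟨i, hi⟩ := A.cover (g ζ)
  have hf0 : s i (g ζ) ≠ 0 := (Nf_pos_iff hs hi (hTU (hg.mem ζ hζ))).1 hpos
  have hζ3 : ‖ζ‖ < 3 := by simpa using hζ
  have hf := hg.analyticAt_s hU hTU hs hζ hi
  have hB := analyticAt_Bl hζ3
  have hB0 := Bl_ne hζ3 h1
  refine no_localMax (w := h.wt i) (γ := fun ξ => A.e i (g ξ)) (f := fun ξ => s i (g ξ))
    (B := Bl) (m := m) (wt_contDiffAt h i ((A.e i).map_source hi)) (hg.analyticAt hζ hi) hf hf0
    hB hB0 ((hg.levi_le hC hcur hζ hi).trans_lt ha) ?_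
  -- `log Gf` near `ζ`
  have e : ∀ᶠ ξ in 𝓝 ζ, 0 < Gf h s g a m ξ ∧ Real.log (Gf h s g a m ξ) =
      Fn (fun ξ => s i (g ξ)) Bl (h.wt i) (fun ξ => A.e i (g ξ)) a m ξ := by
    filter_upwards [hg.nhds hζ hi, hf.continuousAt.eventually_ne hf0,
      hB.continuousAt.eventually_ne hB0] with ξ h2 h3 h4
    have hu := hTU (hg.mem ξ h2.1)
    have hN : Nf h s (g ξ) = ‖s i (g ξ)‖ ^ 2 * h.w i (g ξ) := Nf_eq hs h2.2 hu
    have hw := h.pos i (g ξ) h2.2
    have p1 : 0 < ‖s i (g ξ)‖ ^ 2 := by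
      have := norm_pos_iff.2 h3
      positivity
    have p2 : 0 < ‖Bl ξ‖ ^ 2 := by
      have := norm_pos_iff.2 h4
      positivity
    have p3 : 0 < (‖Bl ξ‖ ^ 2) ^ (-m) := Real.rpow_pos_of_pos p2 _
    have p4 : 0 < Nf h s (g ξ) := by
      rw [hN]
      positivity
    refine ⟨by unfold Gf; positivity, ?_⟩
    unfold Gf Fn
    rw [Real.log_mul (by positivity) p3.ne', Real.log_mul p4.ne' (Real.exp_pos _).ne', hN,
      Real.log_mul p1.ne' hw.ne', Real.log_exp, Real.log_rpow p2]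
    simp only [HM.wt, (A.e i).left_inv h2.2]
    ring
  have h5 := e.self_of_nhds
  filter_upwards [e, hm] with ξ h6 h7
  rw [← h6.2, ← h5.2]
  exact Real.log_le_log h6.1 h7

theorem Disc.tendsto_one (hg : Disc K T κ g) (hU : IsOpen U) (hTU : T ⊆ U) (hs : IsHS L U s)
    {i₀ : A.ι} (hi : g 1 ∈ (A.e i₀).source) {m : ℕ}
    (hO : (fun ζ => s i₀ (g ζ)) =O[𝓝 1] fun ζ => (ζ - 1) ^ m) {a m' : ℝ} (hm0 : 0 < m')
    (hm' : m' < m) : ContinuousAt (Gf h s g a m') 1 := by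
  have h1mem : (1 : ℂ) ∈ ball (0 : ℂ) 3 := by simp
  have hG1 : Gf h s g a m' 1 = 0 := by
    unfold Gf
    rw [Bl_one, norm_zero, zero_pow two_ne_zero, Real.zero_rpow (by linarith), mul_zero]
  obtain ⟨c, hc0, hc⟩ := hO.exists_nonneg
  have hc := hc.bound
  -- bound of the weight
  have hwc : ContinuousAt (fun ξ => h.w i₀ (g ξ)) 1 :=
    ContinuousAt.comp (g := h.w i₀) (f := g) (contAt_w h hi)
      (hg.cont.continuousAt (isOpen_ball.mem_nhds h1mem))
  have hwb : ∀ᶠ ξ in 𝓝 (1 : ℂ), h.w i₀ (g ξ) < h.w i₀ (g 1) + 1 :=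
    hwc.eventually (gt_mem_nhds (lt_add_one _))
  have hW : 0 < h.w i₀ (g 1) + 1 := by
    have := h.pos i₀ (g 1) hi
    linarith
  set Q : ℝ := c ^ 2 * (h.w i₀ (g 1) + 1) * Real.exp (|a| * 9) * 16 ^ m' with hQ
  have hQ0 : 0 ≤ Q := by positivity
  have key : ∀ᶠ ξ in 𝓝 (1 : ℂ), Gf h s g a m' ξ ≤ Q * (‖ξ - 1‖ ^ 2) ^ ((m : ℝ) - m') ∧
      0 ≤ Gf h s g a m' ξ := by
    filter_upwards [hc, hwb, hg.nhds h1mem hi] with ξ h1 h2 h3
    have hu := hTU (hg.mem ξ h3.1)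
    have hξ3 : ‖ξ‖ < 3 := by simpa using h3.1
    have hN0 : 0 ≤ Nf h s (g ξ) := Nf_nonneg hs hu
    have hG0 : 0 ≤ Gf h s g a m' ξ := by
      unfold Gf
      positivity
    refine ⟨?_, hG0⟩
    rcases eq_or_ne ξ 1 with rfl | hne
    · rw [hG1]
      positivity
    · have ht : 0 < ‖ξ - 1‖ ^ 2 := by
        have := norm_pos_iff.2 (sub_ne_zero.2 hne)
        positivity
      have hw := h.pos i₀ (g ξ) h3.2
      have b1 : Nf h s (g ξ) ≤ c ^ 2 * (h.w i₀ (g 1) + 1) * (‖ξ - 1‖ ^ 2) ^ m := by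
        rw [Nf_eq hs h3.2 hu]
        have b2 : ‖s i₀ (g ξ)‖ ^ 2 ≤ c ^ 2 * (‖ξ - 1‖ ^ 2) ^ m := by
          have b3 : ‖s i₀ (g ξ)‖ ≤ c * ‖ξ - 1‖ ^ m := by
            simpa [norm_pow] using h1
          calc ‖s i₀ (g ξ)‖ ^ 2 ≤ (c * ‖ξ - 1‖ ^ m) ^ 2 := by gcongr
            _ = c ^ 2 * (‖ξ - 1‖ ^ 2) ^ m := by ring
        calc ‖s i₀ (g ξ)‖ ^ 2 * h.w i₀ (g ξ)
            ≤ (c ^ 2 * (‖ξ - 1‖ ^ 2) ^ m) * (h.w i₀ (g 1) + 1) := by gcongr
          _ = _ := by ring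
      have b4 : Real.exp (a * ‖ξ‖ ^ 2) ≤ Real.exp (|a| * 9) := by
        apply Real.exp_le_exp.2
        have : ‖ξ‖ ^ 2 ≤ 9 := by nlinarith [norm_nonneg ξ]
        calc a * ‖ξ‖ ^ 2 ≤ |a| * ‖ξ‖ ^ 2 := by gcongr; exact le_abs_self a
          _ ≤ |a| * 9 := by gcongr
      have b5 : (‖Bl ξ‖ ^ 2) ^ (-m') ≤ 16 ^ m' * (‖ξ - 1‖ ^ 2) ^ (-m') := by
        have b6 := norm_Bl_ge hξ3
        have b7 : (‖Bl ξ‖ ^ 2) ^ (-m') ≤ (‖ξ - 1‖ ^ 2 / 16) ^ (-m') :=
          Real.rpow_le_rpow_of_nonpos (by positivity) b6 (by linarith)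
        refine b7.trans (le_of_eq ?_)
        rw [Real.div_rpow ht.le (by norm_num), Real.rpow_neg (by norm_num : (0:ℝ) ≤ 16),
          div_inv_eq_mul, mul_comm]
      have b8 : ((‖ξ - 1‖ ^ 2) ^ m : ℝ) * (‖ξ - 1‖ ^ 2) ^ (-m') =
          (‖ξ - 1‖ ^ 2) ^ ((m : ℝ) - m') := by
        rw [← Real.rpow_natCast, ← Real.rpow_add ht, ← sub_eq_add_neg]
      unfold Gf
      calc Nf h s (g ξ) * Real.exp (a * ‖ξ‖ ^ 2) * (‖Bl ξ‖ ^ 2) ^ (-m')
          ≤ (c ^ 2 * (h.w i₀ (g 1) + 1) * (‖ξ - 1‖ ^ 2) ^ m) * Real.exp (|a| * 9) *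
            (16 ^ m' * (‖ξ - 1‖ ^ 2) ^ (-m')) := by gcongr
        _ = Q * (((‖ξ - 1‖ ^ 2) ^ m : ℝ) * (‖ξ - 1‖ ^ 2) ^ (-m')) := by rw [hQ]; ring
        _ = _ := by rw [b8]
  have hlim : Tendsto (fun ξ : ℂ => Q * (‖ξ - 1‖ ^ 2) ^ ((m : ℝ) - m')) (𝓝 1) (𝓝 0) := by
    have h1 : ContinuousAt (fun ξ : ℂ => ‖ξ - 1‖ ^ 2) 1 := by fun_prop
    have h2 : ContinuousAt (fun ξ : ℂ => (‖ξ - 1‖ ^ 2) ^ ((m : ℝ) - m')) 1 :=
      h1.rpow_const (Or.inr (by linarith))
    have h3 : ContinuousAt (fun ξ : ℂ => Q * (‖ξ - 1‖ ^ 2) ^ ((m : ℝ) - m')) 1 :=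
      continuousAt_const.mul h2
    have h4 : Q * (‖(1 : ℂ) - 1‖ ^ 2) ^ ((m : ℝ) - m') = 0 := by
      rw [sub_self, norm_zero, zero_pow two_ne_zero, Real.zero_rpow (by linarith), mul_zero]
    have h5 := h3.tendsto
    rwa [h4] at h5
  show Tendsto (Gf h s g a m') (𝓝 1) (𝓝 (Gf h s g a m' 1))
  rw [hG1]
  exact squeeze_zero' (key.mono fun ξ h => h.2) (key.mono fun ξ h => h.1) hlim

theorem Disc.contOn_Gf (hg : Disc K T κ g) (hU : IsOpen U) (hTU : T ⊆ U) (hs : IsHS L U s)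
    {i₀ : A.ι} (hi : g 1 ∈ (A.e i₀).source) {m : ℕ}
    (hO : (fun ζ => s i₀ (g ζ)) =O[𝓝 1] fun ζ => (ζ - 1) ^ m) {a m' : ℝ} (hm0 : 0 < m')
    (hm' : m' < m) : ContinuousOn (Gf h s g a m') (closedBall 0 2) := by
  intro ξ hξ
  rcases eq_or_ne ξ 1 with rfl | hne
  · exact (hg.tendsto_one hU hTU hs hi hO hm0 hm').continuousWithinAt
  · have hξ3 : ‖ξ‖ < 3 := by
      have : ‖ξ‖ ≤ 2 := by simpa using hξ
      linarith
    have hb : ξ ∈ ball (0 : ℂ) 3 := by simpa using hξ3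
    have h1 : ContinuousAt (fun ξ => Nf h s (g ξ)) ξ :=
      ContinuousAt.comp (g := Nf h s) (f := g)
        ((contOn_Nf hU hs).continuousAt (hU.mem_nhds (hTU (hg.mem ξ hb))))
        (hg.cont.continuousAt (isOpen_ball.mem_nhds hb))
    have h2 : ContinuousAt (fun ξ => ‖Bl ξ‖ ^ 2) ξ := ((analyticAt_Bl hξ3).continuousAt.norm.pow 2)
    have h3 : ContinuousAt (fun ξ => (‖Bl ξ‖ ^ 2) ^ (-m')) ξ := by
      refine h2.rpow_const (Or.inl ?_)
      have := norm_pos_iff.2 (Bl_ne hξ3 hne)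
      positivity
    have h4 : ContinuousAt (fun ξ : ℂ => Real.exp (a * ‖ξ‖ ^ 2)) ξ := by fun_prop
    exact ((h1.mul h4).mul h3).continuousWithinAt

/-- the multiplicity bound along one disc through a maximum point -/
theorem Disc.absurd (hg : Disc K T κ g) (hU : IsOpen U) (hTU : T ⊆ U) (hs : IsHS L U s) {C : ℝ}
    (hC : 0 ≤ C)
    (hcur : ∀ i, ∀ y ∈ (A.e i).source, y ∈ T → ((C : ℂ) • K.g i y - cur h i y).PosSemidef)
    (hmax : ∀ y ∈ T, Nf h s y ≤ Nf h s (g 0)) (hpos : 0 < Nf h s (g 0))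
    {i₀ : A.ι} (hi : g 1 ∈ (A.e i₀).source) {m : ℕ}
    (hO : (fun ζ => s i₀ (g ζ)) =O[𝓝 1] fun ζ => (ζ - 1) ^ m)
    (hm : 2 * (C * κ) < m * Real.log 2) : False := by
  have hlog : 0 < Real.log 2 := Real.log_pos one_lt_two
  have hlog1 : Real.log 2 < 1 := by
    have := Real.log_two_lt_d9
    linarith
  -- `0 ≤ C κ`
  have hκ : 0 ≤ C * κ := by
    have h0 : (0 : ℂ) ∈ ball (0 : ℂ) 3 := by simp
    obtain ⟨i, hi'⟩ := A.cover (g 0)
    have h1 := hg.speed i 0 h0 hi'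
    have h2 : 0 ≤ kq K i (g 0) (deriv (fun ξ => A.e i (g ξ)) 0) := by
      set v : Cn N := deriv (fun ξ => A.e i (g ξ)) 0
      have h3 := (K.pos i (g 0) hi').posSemidef.dotProduct_mulVec_nonneg (fun a => conj (v a))
      have h4 : star (fun a => conj (v a)) ⬝ᵥ ((K.g i (g 0)) *ᵥ (fun a => conj (v a))) =
          ∑ a, ∑ b, K.g i (g 0) a b * v a * conj (v b) := by
        simp only [dotProduct, Matrix.mulVec, Pi.star_apply, RCLike.star_def, Finset.mul_sum,
          Complex.conj_conj]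
        refine Finset.sum_congr rfl fun a _ => Finset.sum_congr rfl fun b _ => ?_
        ring
      rw [h4] at h3
      exact (Complex.le_def.1 h3).1
    exact mul_nonneg hC (h2.trans h1)
  set δ : ℝ := m * Real.log 2 - 2 * (C * κ) with hδ
  have hδ0 : 0 < δ := by linarith
  set a : ℝ := C * κ + δ / 8 with ha
  set m' : ℝ := m - δ / 8 with hm'
  have hml : m' * Real.log 2 > 2 * a := by
    have e1 : m' * Real.log 2 = m * Real.log 2 - δ / 8 * Real.log 2 := by rw [hm']; ring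
    have e2 : δ / 8 * Real.log 2 ≤ δ / 8 := by nlinarith
    rw [e1, ha]
    linarith
  have hm0 : 0 < m' := by
    have : 0 < m' * Real.log 2 := by linarith
    exact pos_of_mul_pos_left this hlog.le
  have hmm : m' < m := by rw [hm']; linarith
  have hcont : ContinuousOn (Gf h s g a m') (closedBall 0 2) :=
    hg.contOn_Gf hU hTU hs hi hO hm0 hmm
  obtain ⟨ζ, hζ, hζmax⟩ := (isCompact_closedBall (0 : ℂ) 2).exists_isMaxOn
    ⟨0, by simp⟩ hcont
  have hζmax' : ∀ ξ ∈ closedBall (0 : ℂ) 2, Gf h s g a m' ξ ≤ Gf h s g a m' ζ := fun ξ hξ =>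
    hζmax hξ
  have hζ2 : ‖ζ‖ ≤ 2 := by simpa using hζ
  have hζ3 : ζ ∈ ball (0 : ℂ) 3 := by
    simp only [mem_ball_zero_iff]
    linarith
  have hG0 : Gf h s g a m' 0 = Nf h s (g 0) * (1 / 4 : ℝ) ^ (-m') := by
    unfold Gf
    rw [norm_Bl_zero]
    simp
  have hG0pos : 0 < Gf h s g a m' 0 := by
    rw [hG0]
    positivity
  have hGζ : 0 < Gf h s g a m' ζ := hG0pos.trans_le (hζmax' 0 (by simp))
  have hne : ζ ≠ 1 := by
    rintro rfl
    unfold Gf at hGζ
    rw [Bl_one, norm_zero, zero_pow two_ne_zero, Real.zero_rpow (by linarith), mul_zero] at hGζ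
    exact lt_irrefl _ hGζ
  have hNζ : 0 < Nf h s (g ζ) := by
    by_contra h1
    have h2 : Nf h s (g ζ) = 0 :=
      le_antisymm (not_lt.1 h1) (Nf_nonneg hs (hTU (hg.mem ζ hζ3)))
    unfold Gf at hGζ
    rw [h2, zero_mul, zero_mul] at hGζ
    exact lt_irrefl _ hGζ
  rcases hζ2.lt_or_eq with hlt | heq
  · refine hg.no_max hU hTU hs hC hcur (a := a) (m := m') (by rw [ha]; linarith) hζ3 hne hNζ ?_
    have h1 : closedBall (0 : ℂ) 2 ∈ 𝓝 ζ := by
      refine mem_of_superset (isOpen_ball.mem_nhds ?_) ball_subset_closedBall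
      simpa using hlt
    filter_upwards [h1] with ξ hξ using hζmax' ξ hξ
  · have h1 : Gf h s g a m' ζ = Nf h s (g ζ) * Real.exp (a * 4) := by
      unfold Gf
      rw [norm_Bl_bd heq, heq, Real.one_rpow, mul_one]
      norm_num
    have h2 := hζmax' 0 (by simp)
    rw [hG0, h1] at h2
    have h3 : Nf h s (g ζ) * Real.exp (a * 4) ≤ Nf h s (g 0) * Real.exp (a * 4) := by
      have := hmax (g ζ) (hg.mem ζ hζ3)
      gcongr
    have h4 : (1 / 4 : ℝ) ^ (-m') ≤ Real.exp (a * 4) :=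
      le_of_mul_le_mul_left (h2.trans h3) hpos
    have h5 : (1 / 4 : ℝ) ^ (-m') = Real.exp (2 * (m' * Real.log 2)) := by
      rw [Real.rpow_def_of_pos (by norm_num)]
      congr 1
      have : Real.log (1 / 4) = - (2 * Real.log 2) := by
        rw [one_div, Real.log_inv]
        have : (4 : ℝ) = 2 ^ 2 := by norm_num
        rw [this, Real.log_pow]
        push_cast
        ring
      rw [this]
      ring
    rw [h5, Real.exp_le_exp] at h4
    linarith

end disc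

/-- **the multiplicity bound** -/
theorem mult {T : Set M} (hT : IsCompact T) (K : Kah A) {L : LB A} (h : HM L) {C κ : ℝ}
    (hcur : ∀ i, ∀ y ∈ (A.e i).source, y ∈ T → ((C : ℂ) • K.g i y - cur h i y).PosSemidef)
    (hC : 0 ≤ C) {U : Set M} (hU : IsOpen U) (hTU : T ⊆ U) {s : A.ι → M → ℂ} (hs : IsHS L U s)
    {x : M} {i₀ : A.ι} (hi : x ∈ (A.e i₀).source) {m : ℕ}
    (hd : ∀ z ∈ T, ∃ g : ℂ → M, Disc K T κ g ∧ g 0 = z ∧ g 1 = x ∧
      (fun ζ => s i₀ (g ζ)) =O[𝓝 1] fun ζ => (ζ - 1) ^ m)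
    (hm : 2 * (C * κ) < m * Real.log 2) : ∀ y ∈ T, ∀ i, y ∈ (A.e i).source → s i y = 0 := by
  intro y hy i hyi
  by_contra h0
  have hpos : 0 < Nf h s y := (Nf_pos_iff hs hyi (hTU hy)).2 h0
  obtain ⟨z, hz, hzmax⟩ := hT.exists_isMaxOn ⟨y, hy⟩ ((contOn_Nf (h := h) hU hs).mono hTU)
  have hzmax' : ∀ y ∈ T, Nf h s y ≤ Nf h s z := fun y hy => hzmax hy
  obtain ⟨g, hg, hg0, hg1, hO⟩ := hd z hz
  refine hg.absurd (h := h) hU hTU hs hC hcur (i₀ := i₀) (m := m) ?_ ?_ ?_ hO hm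
  · rw [hg0]; exact hzmax'
  · rw [hg0]; exact hpos.trans_le (hzmax' y hy)
  · rw [hg1]; exact hi

/-- the jet condition in a chart implies the condition along the discs -/
theorem Disc.isBigO {K : Kah A} {T : Set M} {κ : ℝ} {g : ℂ → M} (hg : Disc K T κ g)
    {s : A.ι → M → ℂ} {i₀ : A.ι} (hi : g 1 ∈ (A.e i₀).source) {m : ℕ}
    (hj : (fun w => s i₀ ((A.e i₀).symm w)) =O[𝓝 (A.e i₀ (g 1))]
      fun w => ‖w - A.e i₀ (g 1)‖ ^ m) :
    (fun ζ => s i₀ (g ζ)) =O[𝓝 1] fun ζ => (ζ - 1) ^ m := by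
  have h1mem : (1 : ℂ) ∈ ball (0 : ℂ) 3 := by simp
  have hd := hg.hol i₀ 1 h1mem hi
  have h1 : Tendsto (fun ζ => A.e i₀ (g ζ)) (𝓝 1) (𝓝 (A.e i₀ (g 1))) := hd.continuousAt
  have h2 := hj.comp_tendsto h1
  have h3 : (fun ζ => s i₀ (g ζ)) =ᶠ[𝓝 1]
      ((fun w => s i₀ ((A.e i₀).symm w)) ∘ fun ζ => A.e i₀ (g ζ)) := by
    filter_upwards [hg.nhds h1mem hi] with ζ hζ
    show _ = s i₀ ((A.e i₀).symm (A.e i₀ (g ζ)))
    rw [(A.e i₀).left_inv hζ.2]
  refine h3.trans_isBigO (h2.trans ?_)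
  have h4 : (fun ζ => A.e i₀ (g ζ) - A.e i₀ (g 1)) =O[𝓝 1] fun ζ => ζ - 1 := hd.isBigO_sub
  exact (h4.norm_left.pow m)

theorem mult_jet {T : Set M} (hT : IsCompact T) (K : Kah A) {L : LB A} (h : HM L) {C κ : ℝ}
    (hcur : ∀ i, ∀ y ∈ (A.e i).source, y ∈ T → ((C : ℂ) • K.g i y - cur h i y).PosSemidef)
    (hC : 0 ≤ C) {U : Set M} (hU : IsOpen U) (hTU : T ⊆ U) {s : A.ι → M → ℂ} (hs : IsHS L U s)
    {x : M} {i₀ : A.ι} (hi : x ∈ (A.e i₀).source) {m : ℕ}
    (hd : ∀ z ∈ T, ∃ g : ℂ → M, Disc K T κ g ∧ g 0 = z ∧ g 1 = x)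
    (hj : (fun w => s i₀ ((A.e i₀).symm w)) =O[𝓝 (A.e i₀ x)] fun w => ‖w - A.e i₀ x‖ ^ m)
    (hm : 2 * (C * κ) < m * Real.log 2) : ∀ y ∈ T, ∀ i, y ∈ (A.e i).source → s i y = 0 := by
  refine mult hT K h hcur hC hU hTU hs hi (fun z hz => ?_) hm
  obtain ⟨g, hg, hg0, hg1⟩ := hd z hz
  refine ⟨g, hg, hg0, hg1, hg.isBigO (by rw [hg1]; exact hi) (by rw [hg1]; exact hj)⟩

/-- **the multiplicity bound for sections of a power** -/
theorem mult_pow {T : Set M} (hT : IsCompact T) (K : Kah A) {L : LB A} (h : HM L) {c κ : ℝ}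
    (hcur : ∀ i, ∀ y ∈ (A.e i).source, y ∈ T → cur h i y = (c : ℂ) • K.g i y)
    (hc : 0 ≤ c) (hκ : 0 ≤ κ) {U : Set M} (hU : IsOpen U) (hTU : T ⊆ U) (p : ℕ)
    {s : A.ι → M → ℂ} (hs : IsHS (L ^ p) U s)
    {x : M} {i₀ : A.ι} (hi : x ∈ (A.e i₀).source) {m : ℕ}
    (hd : ∀ z ∈ T, ∃ g : ℂ → M, Disc K T κ g ∧ g 0 = z ∧ g 1 = x)
    (hj : (fun w => s i₀ ((A.e i₀).symm w)) =O[𝓝 (A.e i₀ x)] fun w => ‖w - A.e i₀ x‖ ^ m)
    (hm : 3 * κ * c * p < m) : ∀ y ∈ T, ∀ i, y ∈ (A.e i).source → s i y = 0 := by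
  refine mult_jet hT K (pow h p) (C := p * c) (fun i y hy hyT => ?_) (by positivity) hU hTU hs hi
    hd hj ?_
  · have h1 : ((p * c : ℝ) : ℂ) • K.g i y - cur (pow h p) i y = 0 := by
      rw [cur_pow h p i hy, hcur i y hy hyT, smul_smul]
      push_cast
      rw [sub_self]
    rw [h1]
    exact Matrix.PosSemidef.zero
  · have h1 : (2 / 3 : ℝ) ≤ Real.log 2 := by
      have := Real.log_two_gt_d9
      linarith
    have h2 : (0 : ℝ) < m := by
      have : 0 ≤ 3 * κ * c * p := by positivity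
      linarith
    have h3 : (2 / 3 : ℝ) * m ≤ m * Real.log 2 := by nlinarith
    nlinarith

end

end Crest.Agent.R281.Mult_10
end

-- ▼ part R281/Mult2_10
section

/-!
# R281 (S0424), MULT (helper10), part 2: the multiplicity bound for the fibres of a `QTube`

`fib Q x`   : the fibre of the tube through `x` (compact)
`mult_fib`  : a section of `L ^ p` (on a neighbourhood of the fibre), `cur h = c K`, which vanishes
              to order `m > 3 κ c p` at `x`, is zero on the fibre through `x`.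
-/

set_option autoImplicit false
set_option linter.unusedSectionVars false

open Set Filter Topology Complex Metric Asymptotics
open scoped ContDiff Matrix ComplexConjugate Manifold ComplexOrder

namespace Crest.Agent.R281.Mult_10

open Crest.Agent.R275.Geo Crest.Agent.R275.Core144 Crest.Agent.R275.GC293
open Crest.Agent.R273.Defs_333 Crest.Agent.R273.Kah_333 Crest.Agent.R273.HM_333
open Crest.Agent.R281.SAsm_790 (qf)
open Crest.Agent.R281.Qt_922 (QTube)

noncomputable section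

variable {N : ℕ} {M : Type} [TopologicalSpace M] {A : Atl N M}

theorem kq_eq_qf (K : Kah A) (i : A.ι) (y : M) (v : Cn N) : kq K i y v = qf K i y v := by
  unfold kq qf
  congr 1
  simp only [dotProduct, Matrix.mulVec, Pi.star_apply, RCLike.star_def, Finset.mul_sum,
    Matrix.transpose_apply]
  rw [Finset.sum_comm]
  refine Finset.sum_congr rfl fun a _ => Finset.sum_congr rfl fun b _ => ?_
  ring

theorem disc_of_qt {K : Kah A} {κ : ℝ} {T : Set M} {g : ℂ → M} (hg : Qt_922.Disc A K κ T g) :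
    Disc K T κ g where
  mem := hg.mem
  cont := hg.cont
  hol := fun i ζ hζ hi => hg.hol ζ hζ i hi
  speed := fun i ζ hζ hi => by
    rw [kq_eq_qf]
    exact hg.q ζ hζ i hi

variable {K : Kah A} {n : ℕ} {κ R : ℝ}

/-- the fibre of the tube through `x` -/
def fib (Q : QTube A K n κ R) (x : M) : Set M := {y | y ∈ Q.U ∧ Q.f y = Q.f x}

theorem mem_fib {Q : QTube A K n κ R} {x : M} (hx : x ∈ Q.U) : x ∈ fib Q x := ⟨hx, rfl⟩


theorem fib_compact (Q : QTube A K n κ R) {x : M} (hx : x ∈ Q.U) : IsCompact (fib Q x) := by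
  have h1 := Q.cpt ‖Q.f x‖ (Q.lt x hx)
  have h2 : fib Q x = {y | y ∈ Q.U ∧ ‖Q.f y‖ ≤ ‖Q.f x‖} ∩ Q.f ⁻¹' {Q.f x} := by
    ext y
    constructor
    · rintro ⟨h3, h4⟩
      exact ⟨⟨h3, by rw [h4]⟩, h4⟩
    · rintro ⟨⟨h3, _⟩, h4⟩
      exact ⟨h3, h4⟩
  have hc : ContinuousOn Q.f {y | y ∈ Q.U ∧ ‖Q.f y‖ ≤ ‖Q.f x‖} :=
    Q.cont.mono fun y hy => hy.1
  rw [h2]
  -- a relatively closed subset of a compact set
  rw [isCompact_iff_isCompact_univ]
  have h3 : IsClosed {y : ↥{y | y ∈ Q.U ∧ ‖Q.f y‖ ≤ ‖Q.f x‖} | Q.f y = Q.f x} :=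
    isClosed_eq (continuousOn_iff_continuous_domRestrict.1 hc) continuous_const
  have h4 : CompactSpace ↥{y | y ∈ Q.U ∧ ‖Q.f y‖ ≤ ‖Q.f x‖} := isCompact_iff_compactSpace.1 h1
  have h5 := (h3.isCompact).image continuous_subtype_val
  rw [← isCompact_iff_isCompact_univ]
  convert h5 using 1
  ext y
  constructor
  · rintro ⟨h6, h7⟩
    exact ⟨⟨y, h6⟩, h7, rfl⟩
  · rintro ⟨⟨y', h6⟩, h7, rfl⟩
    exact ⟨h6, h7⟩

theorem exists_disc (Q : QTube A K n κ R) {x : M} (hx : x ∈ Q.U) :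
    ∀ z ∈ fib Q x, ∃ g : ℂ → M, Disc K (fib Q x) κ g ∧ g 0 = z ∧ g 1 = x := by
  intro z hz
  obtain ⟨g, hg, h0, h1⟩ := Q.q2 x hx z hz.1 hz.2.symm
  exact ⟨g, disc_of_qt hg, h0, h1⟩

theorem kappa_nonneg (Q : QTube A K n κ R) {x : M} (hx : x ∈ Q.U) : 0 ≤ κ := by
  obtain ⟨g, hg, h0, h1⟩ := exists_disc Q hx x (mem_fib hx)
  obtain ⟨i, hi⟩ := A.cover (g 0)
  have h2 := hg.speed i 0 (by simp) hi
  refine le_trans ?_ h2
  set v : Cn N := deriv (fun ξ => A.e i (g ξ)) 0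
  have h3 := (K.pos i (g 0) hi).posSemidef.dotProduct_mulVec_nonneg (fun a => conj (v a))
  have h4 : star (fun a => conj (v a)) ⬝ᵥ ((K.g i (g 0)) *ᵥ (fun a => conj (v a))) =
      ∑ a, ∑ b, K.g i (g 0) a b * v a * conj (v b) := by
    simp only [dotProduct, Matrix.mulVec, Pi.star_apply, RCLike.star_def, Finset.mul_sum,
      Complex.conj_conj]
    refine Finset.sum_congr rfl fun a _ => Finset.sum_congr rfl fun b _ => ?_
    ring
  rw [h4] at h3
  exact (Complex.le_def.1 h3).1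

/-- **the multiplicity bound for the fibres of the tube** -/
theorem mult_fib (Q : QTube A K n κ R) {x : M} (hx : x ∈ Q.U) {L : LB A} (h : HM L) {c : ℝ}
    (hc : 0 ≤ c)
    (hcur : ∀ i, ∀ y ∈ (A.e i).source, y ∈ fib Q x → cur h i y = (c : ℂ) • K.g i y)
    {U : Set M} (hU : IsOpen U) (hTU : fib Q x ⊆ U) (p : ℕ) {s : A.ι → M → ℂ}
    (hs : IsHS (L ^ p) U s) {i₀ : A.ι} (hi : x ∈ (A.e i₀).source) {m : ℕ}
    (hj : (fun w => s i₀ ((A.e i₀).symm w)) =O[𝓝 (A.e i₀ x)] fun w => ‖w - A.e i₀ x‖ ^ m)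
    (hm : 3 * κ * c * p < m) : ∀ y ∈ fib Q x, ∀ i, y ∈ (A.e i).source → s i y = 0 :=
  mult_pow (fib_compact Q hx) K h hcur hc (kappa_nonneg Q hx) hU hTU p hs hi (exists_disc Q hx)
    hj hm

end

end Crest.Agent.R281.Mult_10
end

-- ▼ part R281/Jd3_310
section

/-!
# R281, JETS-ASM (J2), part 3 (helper310): the inputs from `QTube` and SECTIONS (MULT = Mult2_10)
-/

set_option autoImplicit false
set_option linter.unusedSectionVars false

open Set Filter Topology Complex Asymptotics Metric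
open scoped ComplexOrder

namespace Crest.Agent.R281.Jd_310

open Crest.Agent.R275 Crest.Agent.R275.Geo Crest.Agent.R275.Core144
open Crest.Agent.R273.SerA_945 Crest.Agent.R273.SerB_945 Crest.Agent.R273.SerC_945
open Crest.Agent.R273.SerE_945 Crest.Agent.R273.TD3_733 Crest.Agent.R273.FS_333
open Crest.Agent.R273.Defs_333 Crest.Agent.R273.SteinC_794 Crest.Agent.R273.Kah_333
open Crest.Agent.R273.Chow_313 Crest.Agent.R260.Zt_313
open Crest.Agent.R281.AF_867 Crest.Agent.R281.Loc_310 Crest.Agent.R281.Qt_922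

noncomputable section

variable {N : ℕ} {M : Type} [TopologicalSpace M]
variable {A : Atl N M} {K : Kah A} {n : ℕ} {κ R : ℝ}
variable [T2Space M] [ConnectedSpace M] [CompactSpace M] [Finite A.ι]

/-- **`Inp` from QTube and SECTIONS** -/
theorem exists_inp' (PA : Part A) (hD : D2 A) (q : QTube A K n κ R) {Lb : LB A} (h : HM Lb)
    {c : ℝ} (hc : 0 ≤ c) (hcur : ∀ i, ∀ y ∈ (A.e i).source, cur h i y = (c : ℂ) • K.g i y)
    {R' : ℝ} {p0 : ℕ} {mu : ℕ → ℕ} (hmu : ∀ p, p0 ≤ p → 3 * κ * c * p < mu p)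
    (hS : SEC A q Lb R' p0 mu) (P : ProjD A) {m0 : ℕ} (hm0 : 0 < m0) (hP : lb P = Lb ^ m0) :
    ∃ E0 : Finset (MvPolynomial (Fin (P.N + 1)) ℂ), ∃ d0 : ℕ, ∀ d, d0 ≤ d →
      Inp A (lb P) (fun k => sec P k) E0 q.U {x | x ∈ q.U ∧ ‖q.f x‖ < R'} q.f (mu (m0 * d)) d := by
  obtain ⟨E0, hE0, hE⟩ := exists_eqs_proj PA hD P
  obtain ⟨m1, hm1⟩ := surj_proj PA hD P
  refine ⟨E0, max p0 m1, fun d hd => ?_⟩
  have hd0 : p0 ≤ m0 * d := (le_trans (le_max_left _ _) hd).trans (Nat.le_mul_of_pos_left d hm0)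
  have hpw : lb P ^ d = Lb ^ (m0 * d) := by rw [hP, ← pow_mul]
  refine ⟨fun k => isHS_sec P k, hE _ Subset.rfl hE0, ?_, ?_, hm1 d (le_trans (le_max_right _ _) hd),
    ?_, ?_⟩
  · rintro i x hx v ⟨c, hc⟩
    refine (ofProj P).imm i (A.e i x) ((A.e i).map_source hx) v ⟨c, fun k => ?_⟩
    rw [(A.e i).left_inv hx]
    exact hc k
  · rintro i j x hx y hy ⟨c, hc⟩
    refine P.inj i j x hx y hy ⟨c, funext fun k => ?_⟩
    have h1 := hc k
    rw [sec_eq P hx, sec_eq P hy] at h1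
    exact h1
  · intro s hs i x hx hxU hO y hy hfy j hj
    rw [hpw] at hs
    exact Mult_10.mult_fib q hxU.1 h hc (fun i y hy _ => hcur i y hy) isOpen_univ (subset_univ _)
      (m0 * d) hs hx hO (hmu _ hd0) y ⟨hy, hfy⟩ j hj
  · intro i x hx hxU y hy
    obtain ⟨s, hs, hO, hsy⟩ := hS (m0 * d) hd0 i x hx hxU.1 hxU.2 y hy
    exact ⟨s, by rw [hpw]; exact hs, hO, hsy⟩

/-- the order `⌊3 κ c p⌋ + 1` -/
theorem floor_ok' {c κ : ℝ} (p : ℕ) : 3 * κ * c * p < ((⌊3 * κ * c * p⌋₊ + 1 : ℕ) : ℝ) := by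
  push_cast
  exact Nat.lt_floor_add_one _

end

end Crest.Agent.R281.Jd_310
end

-- ▼ part R281/Js10_578
section

/-!
# R281, JETS (2) SECTIONS (helper578), part 10: 310's `SEC` and `Inp` without open inputs

* `sec`       : `∃ p0, SEC A Q L (R / 2) p0 (fun p => ⌊3 κ c p⌋ + 1)`;
* `exists_inp` : 310's `Inp` from a `QTube`, `lb P = Lb ^ m0`, `cur h = c K`, `CS κ² ≤ R²`.
-/

set_option autoImplicit false
set_option linter.unusedSectionVars false

open Set Filter Topology Complex Asymptotics Metric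
open scoped ComplexOrder

namespace Crest.Agent.R281.Js_578

open Crest.Agent.R273

open Crest.Agent.R275 Crest.Agent.R275.Geo Crest.Agent.R275.Core144
open Crest.Agent.R273.SerE_945 Crest.Agent.R273.TD3_733 Crest.Agent.R273.FS_333
open Crest.Agent.R273.Defs_333 Crest.Agent.R273.Kah_333 Crest.Agent.R273.SteinC_794
open Crest.Agent.R273.Chow_313 Crest.Agent.R260.Zt_313
open Crest.Agent.R281.AF_867 Crest.Agent.R281.Qt_922 Crest.Agent.R281.Jd_310

noncomputable section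

variable {n : ℕ} {M : Type} [TopologicalSpace M] {A : Atl n M} {K : Kah A} {d : ℕ} {κ R : ℝ}
variable [T2Space M] [CompactSpace M] [Finite A.ι]

/-- 310's `SEC` -/
theorem sec (P : Part A) {L : LB A} (h : HM L) {c : ℝ} (hc : 0 < c)
    (hcur : ∀ i, ∀ x ∈ (A.e i).source, cur h i x = (c : ℂ) • K.g i x)
    (hκ : 0 ≤ κ) (hR : CS * κ ^ 2 ≤ R ^ 2) (Q : QTube A K d κ R) :
    ∃ p0 : ℕ, SEC A Q L (R / 2) p0 (fun p => ⌊3 * κ * c * p⌋₊ + 1) := by
  obtain ⟨p0, hp0⟩ := sections P K h hc hcur hκ hR Q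
  refine ⟨p0, fun p hp i x hi hx hxR y hy => ?_⟩
  obtain ⟨s, hs, h1, h2⟩ := hp0 p hp (⌊3 * κ * c * p⌋₊ + 1) (by
    push_cast
    have h1 : (0 : ℝ) ≤ 3 * κ * c * p := by positivity
    linarith [Nat.floor_le h1]) x hx hxR y hy
  exact ⟨s, hs, h1 i hi, h2⟩

/-- **310's `Inp`, all inputs discharged** -/
theorem exists_inp [ConnectedSpace M] (PA : Part A) (Q : QTube A K d κ R) {Lb : LB A} (h : HM Lb)
    {c : ℝ} (hc : 0 < c) (hcur : ∀ i, ∀ x ∈ (A.e i).source, cur h i x = (c : ℂ) • K.g i x)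
    (hκ : 0 ≤ κ) (hR : CS * κ ^ 2 ≤ R ^ 2) (P : ProjD A) {m0 : ℕ} (hm0 : 0 < m0)
    (hP : lb P = Lb ^ m0) :
    ∃ E0 : Finset (MvPolynomial (Fin (P.N + 1)) ℂ), ∃ d0 : ℕ, ∃ mu : ℕ → ℕ, ∀ D, d0 ≤ D →
      Inp A (lb P) (fun k => FS_333.sec P k) E0 Q.U {x | x ∈ Q.U ∧ ‖Q.f x‖ < R / 2} Q.f
        (mu D) D := by
  obtain ⟨p0, hp0⟩ := sec PA h hc hcur hκ hR Q
  obtain ⟨E0, d0, h0⟩ := exists_inp' PA (R273.D13_505.d2 PA K) Q h hc.le hcur
    (fun p _ => floor_ok' p) hp0 P hm0 hP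
  exact ⟨E0, d0, fun D => ⌊3 * κ * c * (m0 * D : ℕ)⌋₊ + 1, h0⟩

end

end Crest.Agent.R281.Js_578
end

-- ▼ part R281/Kas4_975

/-!
# Row 281, KAPPA-1 assembly, part 4 (helper975): the road JETS

* `fbn_of_qtube`      : 922's `QTube` is a fibration `Fbn`
* `sections_of_inp`   : 310's `Inp` ⟹ sections with the cross relation on the fibres and `Rk`
* `sections_of_qtube` : MULT, SECTIONS, QTube, `lb P = Lb ^ m0`, `cur h = c K` ⟹ the same
-/

set_option autoImplicit false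
set_option linter.unusedSectionVars false

open Set Filter Topology Complex Metric MeasureTheory

noncomputable section

namespace Crest.Agent.R281.Kas_975

open Crest.Agent.R275 Crest.Agent.R275.Geo Crest.Agent.R275.Core144 Crest.Agent.R275.Loc2879
open Crest.Agent.R273.Defs_333 Crest.Agent.R273.FS_333 Crest.Agent.R281.Rk_599
open Crest.Agent.R273.SerA_945 Crest.Agent.R273.SerB_945 Crest.Agent.R273.SerC_945
open Crest.Agent.R273.SerE_945 Crest.Agent.R273.TD3_733 Crest.Agent.R273.Kah_333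
open Crest.Agent.R281.Kd_22 Crest.Agent.R281.Gal2_257 Crest.Agent.R281.Gal4_257
open Crest.Agent.R281.AF_867 Crest.Agent.R281.Loc_310 Crest.Agent.R281.Jd_310
open Crest.Agent.R281.Qt_922 Crest.Agent.R281.Ja3_257

variable {N : ℕ} {M : Type} [TopologicalSpace M] {A : Atl N M} {n : ℕ}

/-- 922's `QTube` is a fibration -/
theorem fbn_of_qtube {K : Kah A} {κ R : ℝ} (q : QTube A K n κ R) : Fbn A n q.U q.f where
  op := q.op
  cont := q.cont
  hol := q.hol
  surj := q.surj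
  disc x hx z hz hxz := by
    obtain ⟨g, hg, h0, h1⟩ := q.q2 x hx z hz hxz
    exact ⟨g, ⟨hg.cont, hg.hol⟩, fun ζ hζ => hg.mem ζ hζ, h0, h1⟩

section Inp

variable {U U' : Set M} {f : M → Cn n}

/-- **310's `Inp` gives sections** with the cross relation on the fibres and of rank `n` -/
theorem sections_of_inp (H : Fbn A n U f) (P : ProjD A)
    {E0 : Finset (MvPolynomial (Fin (P.N + 1)) ℂ)} {m d : ℕ}
    (hI : Inp A (lb P) (fun k => sec P k) E0 U U' f m d) (hUU : U' ⊆ U) {x₁ : M}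
    (hx₁ : U' ∈ 𝓝 x₁) :
    ∃ r : ℝ, 0 < r ∧ ∃ D : ℕ, 0 < D ∧ ∃ s : Fin (n + 1) → A.ι → M → ℂ,
      (∀ a, IsHS ((lb P) ^ D) univ (s a)) ∧
      (∀ a, ∀ x ∈ U, ∀ x' ∈ U, f x ∈ ball (f x₁) r → f x' = f x → ∀ i i', x ∈ (A.e i).source →
        x' ∈ (A.e i').source → s a i x * s 0 i' x' = s a i' x' * s 0 i x) ∧
      ∃ i, ∃ x ∈ U, f x ∈ ball (f x₁) r ∧ Rk A s i x := by
  classical
  have hxU : x₁ ∈ U := hUU (mem_of_mem_nhds hx₁)
  obtain ⟨i₀, hi₀⟩ := A.cover x₁
  obtain ⟨k0, hk0⟩ := exists_F_ne P hi₀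
  have hF0 : Hm A (fun x => P.F i₀ x k0) x₁ :=
    hm_of_holAt (P.hol i₀ k0) isOpen_univ hi₀ (mem_univ x₁)
  obtain ⟨E₂, b, hb⟩ := exists_fbox H hxU
    (fun y => y ∈ U' ∧ y ∈ (A.e i₀).source ∧ P.F i₀ y k0 ≠ 0) (by
      have h1 : ∀ᶠ y in 𝓝 x₁, y ∈ U' := hx₁
      have h2 : ∀ᶠ y in 𝓝 x₁, y ∈ (A.e i₀).source := (A.e i₀).open_source.mem_nhds hi₀
      have h3 : ∀ᶠ y in 𝓝 x₁, P.F i₀ y k0 ≠ 0 := hF0.ev_ne hk0
      exact h1.and (h2.and h3))
  have h0 : ∀ z ∈ ball (f x₁, (0 : E₂)) b.r, P.F b.i (b.Psi z) k0 ≠ 0 := by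
    intro z hz h
    obtain ⟨-, h2, h3⟩ := hb z hz
    obtain ⟨c, hc⟩ := P.tr i₀ b.i (b.Psi z) ⟨h2, b.src z hz⟩
    apply h3
    rw [hc, Pi.smul_apply, h, smul_zero]
  have hcrd : ∀ z ∈ ball (f x₁, (0 : E₂)) b.r,
      crd A (fun k => sec P k) k0 b.i (b.Psi z) = b.aff P k0 z := by
    intro z hz
    funext l
    simp only [crd, FBox.aff]
    rw [sec_eq P (b.src z hz), sec_eq P (b.src z hz)]
  have hJ0 := jetDat (i := b.i) (j0 := k0) hI hUU (B := ball (f x₁, (0 : E₂)) b.r) (Ψ := b.Psi)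
    (fun z hz => b.src z hz) (fun z hz => (hb z hz).1)
    (fun z hz => by rw [sec_eq P (b.src z hz)]; exact h0 z hz) (fun z hz => b.val z hz)
  have hJ : JetDat (Crest.Agent.R281.Jd_310.Tf A (fun k => sec P k) k0 U f)
      (ball (f x₁, (0 : E₂)) b.r) (b.aff P k0) (aE E0 k0) m d
      (fun z => th A (fun k => sec P k) k0 b.i (b.Psi z))
      (fun z => fderiv ℂ (th A (fun k => sec P k) k0 b.i (b.Psi z)) 0) :=
    { e0 := fun z hz => (hJ0.e0 z hz).trans (hcrd z hz)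
      e1 := hJ0.e1
      e2 := hJ0.e2
      e3 := fun z hz y hy => hJ0.e3 z hz y (fun e => by rw [hcrd z hz]; exact hy e)
      j1 := hJ0.j1
      j2 := hJ0.j2
      j3 := hJ0.j3
      j4 := hJ0.j4 }
  obtain ⟨Pp, Qq, z₀, hz₀, hQ, hX, hli⟩ := exists_rational_jets'
    (MeasureTheory.Measure.addHaar : Measure (Cn n × E₂)) b.hr (b.aff_an P h0) hJ
  have hae : ∀ (R : MvPolynomial (Fin (P.N + 1)) ℂ) (y : Fin (P.N + 1) → ℂ),
      MvPolynomial.aeval y R = MvPolynomial.eval y R := fun R y => by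
    rw [MvPolynomial.aeval_def, MvPolynomial.eval, MvPolynomial.coe_eval₂Hom]
    rfl
  have hfr : Module.finrank ℂ (Cn n) = n := finrank_euclideanSpace_fin
  have key : ∀ (r : ℕ) (_ : r = n) (Pp Qq : Fin r → MvPolynomial (Fin (P.N + 1)) ℂ),
      (∀ j, MvPolynomial.eval (b.aff P k0 z₀) (Qq j) ≠ 0) →
      (∀ j, ∀ z ∈ ball (f x₁, (0 : E₂)) b.r, ∀ z' ∈ ball (f x₁, (0 : E₂)) b.r, z.1 = z'.1 →
        MvPolynomial.eval (b.aff P k0 z) (Pp j) * MvPolynomial.eval (b.aff P k0 z') (Qq j) =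
          MvPolynomial.eval (b.aff P k0 z') (Pp j) * MvPolynomial.eval (b.aff P k0 z) (Qq j)) →
      LinearIndependent ℂ (fun j => fderiv ℂ (fun z => MvPolynomial.eval (b.aff P k0 z) (Pp j) /
        MvPolynomial.eval (b.aff P k0 z) (Qq j)) z₀) →
      ∃ r : ℝ, 0 < r ∧ ∃ D : ℕ, 0 < D ∧ ∃ s : Fin (n + 1) → A.ι → M → ℂ,
        (∀ a, IsHS ((lb P) ^ D) univ (s a)) ∧
        (∀ a, ∀ x ∈ U, ∀ x' ∈ U, f x ∈ ball (f x₁) r → f x' = f x → ∀ i i',
          x ∈ (A.e i).source → x' ∈ (A.e i').source →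
            s a i x * s 0 i' x' = s a i' x' * s 0 i x) ∧
        ∃ i, ∃ x ∈ U, f x ∈ ball (f x₁) r ∧ Rk A s i x := by
    rintro r rfl Pp Qq hQ hX hli
    obtain ⟨D, hD, s, hs, hc, hrk⟩ := sections_of_box (k := ℂ) H P b h0 (Pp := Pp) (Qq := Qq)
      (fun j z hz z' hz' h => by simp only [hae]; exact hX j z hz z' hz' h) hz₀
      (fun j => by rw [hae]; exact hQ j) (by simp only [hae]; exact hli)
    refine ⟨b.r, b.hr, D, hD, s, hs, hc, b.i, b.Psi z₀, b.memU _ hz₀, ?_, hrk b.i (b.src _ hz₀)⟩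
    rw [b.val _ hz₀]
    rw [← ball_prod_same] at hz₀
    exact hz₀.1
  exact key _ hfr Pp Qq hQ hX hli

end Inp

section QT

variable {K : Kah A} {κ R : ℝ}
variable [T2Space M] [ConnectedSpace M] [CompactSpace M] [Finite A.ι]

/-- **JETS**: a quantified tube gives sections of a power of `lb P` which are constant (as ratios)
on the fibres over a ball, of rank `n` at one point -/
theorem sections_of_qtube (PA : Part A) (q : QTube A K n κ R) {Lb : LB A}
    (h : HM Lb) {c : ℝ} (hc : 0 < c)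
    (hcur : ∀ i, ∀ y ∈ (A.e i).source, cur h i y = (c : ℂ) • K.g i y) (hκ : 0 ≤ κ)
    (hR : Crest.Agent.R281.Js_578.CS * κ ^ 2 ≤ R ^ 2) (P : ProjD A) {m0 : ℕ} (hm0 : 0 < m0)
    (hP : lb P = Lb ^ m0) {x₁ : M} (hx₁ : x₁ ∈ q.U) (hx₁' : ‖q.f x₁‖ < R / 2) :
    ∃ r : ℝ, 0 < r ∧ ∃ D : ℕ, 0 < D ∧ ∃ s : Fin (n + 1) → A.ι → M → ℂ,
      (∀ a, IsHS ((lb P) ^ D) univ (s a)) ∧
      (∀ a, ∀ x ∈ q.U, ∀ x' ∈ q.U, q.f x ∈ ball (q.f x₁) r → q.f x' = q.f x → ∀ i i',
        x ∈ (A.e i).source → x' ∈ (A.e i').source →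
          s a i x * s 0 i' x' = s a i' x' * s 0 i x) ∧
      ∃ i, ∃ x ∈ q.U, q.f x ∈ ball (q.f x₁) r ∧ Rk A s i x := by
  obtain ⟨E0, d0, mu, hI⟩ := Crest.Agent.R281.Js_578.exists_inp PA q h hc hcur hκ hR P hm0 hP
  refine sections_of_inp (fbn_of_qtube q) P (hI d0 le_rfl) (fun x hx => hx.1) ?_
  have h1 : ∀ᶠ x in 𝓝 x₁, x ∈ q.U := q.op.mem_nhds hx₁
  have h2 : ∀ᶠ x in 𝓝 x₁, ‖q.f x‖ < R / 2 := by
    have h3 : ContinuousAt q.f x₁ := q.cont.continuousAt (q.op.mem_nhds hx₁)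
    exact (h3.norm).eventually_lt continuousAt_const hx₁'
  filter_upwards [h1, h2] with x a b
  exact ⟨a, b⟩

end QT

end Crest.Agent.R281.Kas_975
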