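import Crest.Agent.R273.FIa0_597
import Crest.Agent.R273.GreenM_5
import Crest.Agent.R281.Glob2_484
import Crest.Agent.R273.AppA_834
import Crest.Agent.R273.CLinE_933
import Crest.Agent.R273.GreenG_5
import Crest.Agent.R281.Ti7_846

-- ▼ part R281/Mov2_625
section

/-!
# Row 281, task MOV (helper625), part 2: the form `tr(g⁻¹X) tr(g⁻¹Y) - tr(g⁻¹X g⁻¹Y)`

* `bl G X Y` : its real part; `bl_nonneg` for `X, Y ≥ 0`; `bl_self_right : bl G X G = (n-1) tr g⁻¹X`
* `bl_lower` : `R ≥ 0`, `θ + B g ≥ 0`, `c ≥ 0` ⟹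
  `bl (R + cθ) (R + cθ) ≥ - 2 c B (n-1) tr g⁻¹R + c² bl θ θ`
-/

set_option autoImplicit false
set_option linter.unusedSectionVars false

open Set Complex
open scoped Matrix ComplexConjugate ComplexOrder

namespace Crest.Agent.R281.Mov_625

open Crest.Agent.R273.FIa0_597
open Crest.Agent.R273.GreenM_5 (trace_real)

noncomputable section

variable {n : ℕ}

/-- the form -/
def bl (G X Y : Matrix (Fin n) (Fin n) ℂ) : ℝ :=
  ((G⁻¹ * X).trace * (G⁻¹ * Y).trace - (G⁻¹ * X * (G⁻¹ * Y)).trace).re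

theorem bl_comm (G X Y : Matrix (Fin n) (Fin n) ℂ) : bl G X Y = bl G Y X := by
  unfold bl
  rw [Matrix.trace_mul_comm (G⁻¹ * X) (G⁻¹ * Y), mul_comm (G⁻¹ * X).trace]

theorem bl_add_left (G X X' Y : Matrix (Fin n) (Fin n) ℂ) :
    bl G (X + X') Y = bl G X Y + bl G X' Y := by
  unfold bl
  simp only [Matrix.mul_add, Matrix.add_mul, Matrix.trace_add, ← Complex.add_re]
  congr 1
  ring

theorem bl_add_right (G X Y Y' : Matrix (Fin n) (Fin n) ℂ) :
    bl G X (Y + Y') = bl G X Y + bl G X Y' := by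
  rw [bl_comm, bl_add_left, bl_comm G Y, bl_comm G Y']

theorem bl_smul_left (G : Matrix (Fin n) (Fin n) ℂ) (c : ℝ) (X Y : Matrix (Fin n) (Fin n) ℂ) :
    bl G ((c : ℂ) • X) Y = c * bl G X Y := by
  unfold bl
  rw [← Complex.re_ofReal_mul]
  simp only [Matrix.mul_smul, Matrix.smul_mul, Matrix.trace_smul, smul_eq_mul]
  congr 1
  ring

theorem bl_smul_right (G : Matrix (Fin n) (Fin n) ℂ) (c : ℝ) (X Y : Matrix (Fin n) (Fin n) ℂ) :
    bl G X ((c : ℂ) • Y) = c * bl G X Y := by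
  rw [bl_comm, bl_smul_left, bl_comm]

theorem trace_sq (D : Matrix (Fin n) (Fin n) ℂ) :
    (Dᴴ * D).trace = ((∑ i, ∑ j, ‖D i j‖ ^ 2 : ℝ) : ℂ) := by
  rw [Matrix.trace]
  simp only [Matrix.diag, Matrix.mul_apply, Matrix.conjTranspose_apply]
  push_cast
  rw [Finset.sum_comm]
  refine Finset.sum_congr rfl fun i _ => Finset.sum_congr rfl fun j _ => ?_
  have := Complex.conj_mul' (D i j)
  simpa using this

theorem trace_mul_le {X Y : Matrix (Fin n) (Fin n) ℂ} (hX : X.PosSemidef) (hY : Y.PosSemidef) :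
    ((X * Y).trace).re ≤ (X.trace * Y.trace).re := by
  obtain ⟨D, rfl⟩ := exists_sq hX
  obtain ⟨E, rfl⟩ := exists_sq hY
  have e1 : (Dᴴ * D * (Eᴴ * E)).trace = ((E * Dᴴ)ᴴᴴ * (E * Dᴴ)ᴴ).trace := by
    rw [Matrix.conjTranspose_conjTranspose, Matrix.conjTranspose_mul,
      Matrix.conjTranspose_conjTranspose]
    calc (Dᴴ * D * (Eᴴ * E)).trace = (Dᴴ * D * Eᴴ * E).trace := by
          rw [Matrix.mul_assoc, Matrix.mul_assoc, Matrix.mul_assoc]
      _ = (E * (Dᴴ * D * Eᴴ)).trace := Matrix.trace_mul_comm _ _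
      _ = _ := by rw [Matrix.mul_assoc, Matrix.mul_assoc]
  rw [e1, trace_sq, trace_sq, trace_sq, ← Complex.ofReal_mul, Complex.ofReal_re,
    Complex.ofReal_re]
  have h1 : ∀ i j, ‖(E * Dᴴ)ᴴ i j‖ ^ 2 ≤ (∑ k, ‖D i k‖ ^ 2) * ∑ k, ‖E j k‖ ^ 2 := by
    intro i j
    rw [Matrix.conjTranspose_apply, norm_star, Matrix.mul_apply]
    have h2 : ‖∑ k, E j k * Dᴴ k i‖ ≤ ∑ k, ‖D i k‖ * ‖E j k‖ := by
      refine (norm_sum_le _ _).trans (le_of_eq (Finset.sum_congr rfl fun k _ => ?_))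
      rw [norm_mul, Matrix.conjTranspose_apply, norm_star, mul_comm]
    calc ‖∑ k, E j k * Dᴴ k i‖ ^ 2 ≤ (∑ k, ‖D i k‖ * ‖E j k‖) ^ 2 :=
          pow_le_pow_left₀ (norm_nonneg _) h2 2
      _ ≤ _ := Finset.sum_mul_sq_le_sq_mul_sq _ _ _
  calc ∑ i, ∑ j, ‖(E * Dᴴ)ᴴ i j‖ ^ 2 ≤ ∑ i, ∑ j, (∑ k, ‖D i k‖ ^ 2) * ∑ k, ‖E j k‖ ^ 2 :=
        Finset.sum_le_sum fun i _ => Finset.sum_le_sum fun j _ => h1 i j
    _ = _ := by rw [Finset.sum_mul_sum]

theorem bl_nonneg {G X Y : Matrix (Fin n) (Fin n) ℂ} (hG : G.PosDef) (hX : X.PosSemidef)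
    (hY : Y.PosSemidef) : 0 ≤ bl G X Y := by
  obtain ⟨C, hC⟩ := exists_sq hG.inv.posSemidef
  have h1 : ∀ X : Matrix (Fin n) (Fin n) ℂ, (G⁻¹ * X).trace = (C * X * Cᴴ).trace := by
    intro X
    rw [hC, Matrix.mul_assoc, Matrix.trace_mul_comm]
  have h2 : (G⁻¹ * X * (G⁻¹ * Y)).trace = (C * X * Cᴴ * (C * Y * Cᴴ)).trace := by
    rw [hC]
    calc (Cᴴ * C * X * (Cᴴ * C * Y)).trace = (Cᴴ * (C * X * Cᴴ * C * Y)).trace := by
          simp only [Matrix.mul_assoc]
      _ = ((C * X * Cᴴ * C * Y) * Cᴴ).trace := Matrix.trace_mul_comm _ _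
      _ = _ := by simp only [Matrix.mul_assoc]
  unfold bl
  rw [h1, h1, h2, Complex.sub_re, sub_nonneg]
  exact trace_mul_le (hX.mul_mul_conjTranspose_same C) (hY.mul_mul_conjTranspose_same C)


/-- `|tr XY| ≤ tr X · |Y|` for `X ≥ 0`, `Y` Hermitian -/
theorem trace_mul_abs {X Y : Matrix (Fin n) (Fin n) ℂ} (hX : X.PosSemidef) (hY : Y.IsHermitian) :
    |((X * Y).trace).re| ≤ X.trace.re * Real.sqrt ((Y * Y).trace).re := by
  have hfr : ∀ Z : Matrix (Fin n) (Fin n) ℂ, Z.IsHermitian →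
      ((Z * Z).trace).re = ∑ i, ∑ j, ‖Z i j‖ ^ 2 := by
    intro Z hZ
    have h1 : Z * Z = Zᴴ * Z := by rw [hZ.eq]
    rw [h1, trace_sq, Complex.ofReal_re]
  have hX0 : 0 ≤ X.trace.re := (Complex.le_def.1 hX.trace_nonneg).1
  have hXi : X.trace.im = 0 := by
    have := (Complex.le_def.1 hX.trace_nonneg).2
    simpa using this.symm
  have h1 : ∑ i, ∑ j, ‖X i j‖ ^ 2 ≤ X.trace.re ^ 2 := by
    rw [← hfr X hX.isHermitian]
    have := trace_mul_le hX hX
    rw [Complex.mul_re, hXi, mul_zero, sub_zero] at this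
    rw [sq]; exact this
  have h2 : |((X * Y).trace).re| ≤ ∑ i, ∑ j, ‖X i j‖ * ‖Y j i‖ := by
    refine (Complex.abs_re_le_norm _).trans ?_
    rw [Matrix.trace]
    refine (norm_sum_le _ _).trans (Finset.sum_le_sum fun i _ => ?_)
    rw [Matrix.diag_apply, Matrix.mul_apply]
    refine (norm_sum_le _ _).trans (le_of_eq (Finset.sum_congr rfl fun j _ => norm_mul _ _))
  have h3 : (∑ i, ∑ j, ‖X i j‖ * ‖Y j i‖) ^ 2 ≤ (∑ i, ∑ j, ‖X i j‖ ^ 2) *
      ∑ i, ∑ j, ‖Y j i‖ ^ 2 := by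
    have := Finset.sum_mul_sq_le_sq_mul_sq (Finset.univ : Finset (Fin n × Fin n))
      (fun p => ‖X p.1 p.2‖) (fun p => ‖Y p.2 p.1‖)
    simpa only [Fintype.sum_prod_type] using this
  have h4 : ∑ i, ∑ j, ‖Y j i‖ ^ 2 = ((Y * Y).trace).re := by
    rw [hfr Y hY, Finset.sum_comm]
  rw [h4] at h3
  have h5 : 0 ≤ ((Y * Y).trace).re := by
    rw [hfr Y hY]
    exact Finset.sum_nonneg fun _ _ => Finset.sum_nonneg fun _ _ => by positivity
  refine h2.trans ((sq_le_sq₀ (Finset.sum_nonneg fun _ _ => Finset.sum_nonneg fun _ _ =>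
    by positivity) (mul_nonneg hX0 (Real.sqrt_nonneg _))).1 (h3.trans ?_))
  rw [mul_pow, Real.sq_sqrt h5]
  exact mul_le_mul_of_nonneg_right h1 h5

/-- lower bound of `bl R θ` -/
theorem bl_ge {G R θ : Matrix (Fin n) (Fin n) ℂ} (hG : G.PosDef) (hR : R.PosSemidef)
    (hθ : θ.IsHermitian) :
    -(((G⁻¹ * R).trace).re * (|((G⁻¹ * θ).trace).re| +
      Real.sqrt ((G⁻¹ * θ * (G⁻¹ * θ)).trace).re)) ≤ bl G R θ := by
  obtain ⟨C, hC⟩ := exists_sq hG.inv.posSemidef
  have h1 : ∀ X : Matrix (Fin n) (Fin n) ℂ, (G⁻¹ * X).trace = (C * X * Cᴴ).trace := by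
    intro X
    rw [hC, Matrix.mul_assoc, Matrix.trace_mul_comm]
  have h2 : ∀ X Y : Matrix (Fin n) (Fin n) ℂ,
      (G⁻¹ * X * (G⁻¹ * Y)).trace = (C * X * Cᴴ * (C * Y * Cᴴ)).trace := by
    intro X Y
    rw [hC]
    calc (Cᴴ * C * X * (Cᴴ * C * Y)).trace = (Cᴴ * (C * X * Cᴴ * C * Y)).trace := by
          simp only [Matrix.mul_assoc]
      _ = ((C * X * Cᴴ * C * Y) * Cᴴ).trace := Matrix.trace_mul_comm _ _
      _ = _ := by simp only [Matrix.mul_assoc]
  have hR' : (C * R * Cᴴ).PosSemidef := hR.mul_mul_conjTranspose_same C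
  have hθ' : (C * θ * Cᴴ).IsHermitian := Matrix.isHermitian_mul_mul_conjTranspose C hθ
  have h3 := trace_mul_abs hR' hθ'
  have h4 := Complex.le_def.1 hR'.trace_nonneg
  have h5 : 0 ≤ (C * R * Cᴴ).trace.re := h4.1
  have h6 : (C * R * Cᴴ).trace.im = 0 := by simpa using h4.2.symm
  unfold bl
  rw [h1, h1, h2, h2, Complex.sub_re, Complex.mul_re, h6, zero_mul, sub_zero]
  have h7 := neg_abs_le ((C * θ * Cᴴ).trace).re
  have h8 := mul_le_mul_of_nonneg_left h7 h5
  have h9 := (abs_le.1 h3).2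
  linarith

/-- **lower bound** -/
theorem bl_lower {G R θ : Matrix (Fin n) (Fin n) ℂ} (hG : G.PosDef) (hR : R.PosSemidef)
    {B c : ℝ} (hB : -(((G⁻¹ * R).trace).re * B) ≤ bl G R θ) (hc : 0 ≤ c) :
    - (2 * c * B) * ((G⁻¹ * R).trace).re + c ^ 2 * bl G θ θ ≤
      bl G (R + (c : ℂ) • θ) (R + (c : ℂ) • θ) := by
  have h1 := bl_nonneg hG hR hR
  rw [bl_add_left, bl_add_right, bl_add_right, bl_smul_left, bl_smul_left, bl_smul_right,
    bl_smul_right, bl_comm G θ R]
  nlinarith [mul_le_mul_of_nonneg_left hB hc]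

end

end Crest.Agent.R281.Mov_625
end

-- ▼ part R281/Mov3_625
section

/-!
# Row 281, task MOV (helper625), part 3: `log (∑|C_j|² + ε)` on a compact Kaehler manifold

* `ue h C ε = log (∑|C_j|²_h + ε)`, `ct h C ε = N/(N+ε)`, `Rf = ∂∂̄ue + ct · cur h ≥ 0` (`Rf_psd`)
* `trM_Rf`, `int_Rf` : `∫ tr Rf = ∫ ct tr (cur h)`
* `int_symm` : symmetry of the Laplacian
* `int_abs_ue` : `∫ |ue ε| ≤ B` uniformly in `0 < ε ≤ 1`
-/

set_option autoImplicit false
set_option linter.unusedSectionVars false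

open Set Filter Topology Complex MeasureTheory
open scoped ContDiff Matrix ComplexConjugate ComplexOrder

namespace Crest.Agent.R281.Mov_625

open Crest.Agent.R275 Crest.Agent.R275.Geo Crest.Agent.R275.Core144 Crest.Agent.R275.EDR890
open Crest.Agent.R273.Defs_333 Crest.Agent.R273.Hess_333 Crest.Agent.R273.HessB_333
open Crest.Agent.R273.HM_333 Crest.Agent.R273.Kah_333 Crest.Agent.R273.Vol_333
open Crest.Agent.R273.Vm_333
open Crest.Agent.R273.Green_5 Crest.Agent.R273.FIa0_597 Crest.Agent.R273.FIb0_597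
open Crest.Agent.R273.FIc0_597 Crest.Agent.R273 Crest.Agent.R273.AppA_834
open Crest.Agent.R273.TLd_201
open Crest.Agent.R281.Glob1_484 Crest.Agent.R281.Glob2_484

noncomputable section

variable {n N : ℕ} {M : Type} [TopologicalSpace M] {A : Atl n M} {L : LB A} {h : HM L}
  {C : Fin N → A.ι → M → ℂ}

/-- `log (∑|C_j|² + ε)` -/
def ue (h : HM L) (C : Fin N → A.ι → M → ℂ) (ε : ℝ) (x : M) : ℝ := Real.log (nrm h C x + ε)

/-- `N / (N + ε)` -/
def ct (h : HM L) (C : Fin N → A.ι → M → ℂ) (ε : ℝ) (x : M) : ℝ := nrm h C x / (nrm h C x + ε)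

/-- `∂∂̄ ue + ct · cur` -/
def Rf (h : HM L) (C : Fin N → A.ι → M → ℂ) (ε : ℝ) (i : A.ι) (x : M) :
    Matrix (Fin n) (Fin n) ℂ :=
  hsf A (ue h C ε) i x + ((ct h C ε x : ℝ) : ℂ) • cur h i x

theorem sm_ue (hC : ∀ j, IsHS L univ (C j)) {ε : ℝ} (hε : 0 < ε) : A.Sm (ue h C ε) :=
  sm_log_add (sm_nrm hC) (nrm_nonneg hC) hε

theorem sm_ct (hC : ∀ j, IsHS L univ (C j)) {ε : ℝ} (hε : 0 < ε) : A.Sm (ct h C ε) := fun i =>
  (sm_nrm (h' := h) hC i).div ((sm_nrm (h' := h) hC i).add contDiffOn_const) fun _ _ =>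
    (add_pos_of_nonneg_of_pos (nrm_nonneg hC _) hε).ne'

theorem ct_nonneg (hC : ∀ j, IsHS L univ (C j)) {ε : ℝ} (hε : 0 < ε) (x : M) :
    0 ≤ ct h C ε x :=
  div_nonneg (nrm_nonneg hC x) (add_pos_of_nonneg_of_pos (nrm_nonneg hC _) hε).le

theorem one_sub_ct (hC : ∀ j, IsHS L univ (C j)) {ε : ℝ} (hε : 0 < ε) (x : M) :
    1 - ct h C ε x = ε / (nrm h C x + ε) := by
  have := add_pos_of_nonneg_of_pos (nrm_nonneg (h' := h) hC x) hε
  unfold ct
  field_simp
  ring

theorem one_sub_ct_nonneg (hC : ∀ j, IsHS L univ (C j)) {ε : ℝ} (hε : 0 < ε) (x : M) :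
    0 ≤ 1 - ct h C ε x := by
  rw [one_sub_ct hC hε]
  exact div_nonneg hε.le (add_pos_of_nonneg_of_pos (nrm_nonneg hC _) hε).le

theorem ct_le_one (hC : ∀ j, IsHS L univ (C j)) {ε : ℝ} (hε : 0 < ε) (x : M) :
    ct h C ε x ≤ 1 := by
  linarith [one_sub_ct_nonneg (h := h) hC hε x]

/-- where `N > 0` -/
theorem Rf_eq (hC : ∀ j, IsHS L univ (C j)) {ε : ℝ} (hε : 0 < ε) {i : A.ι} {x : M}
    (hx : x ∈ (A.e i).source) (hN : 0 < nrm h C x) :
    Rf h C ε i x = (ct h C ε x : ℝ) • hess (fun z => Real.log (FS_333.sq (rd C i) z)) (A.e i x) +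
      (ε / (nrm h C x * (nrm h C x + ε) ^ 2) : ℝ) • Matrix.vecMulVec
          (gr (fun z => nrm h C ((A.e i).symm z)) (A.e i x))
          (star (gr (fun z => nrm h C ((A.e i).symm z)) (A.e i x))) := by
  have hz := (A.e i).map_source hx
  have hUz : ContDiffAt ℝ ∞ (fun z => nrm h C ((A.e i).symm z)) (A.e i x) :=
    sm_contDiffAt (sm_nrm hC) i hz
  have hp' : 0 < (fun z => nrm h C ((A.e i).symm z)) (A.e i x) := by
    simpa only [(A.e i).left_inv hx] using hN
  have h1 := hess_log_cmp hε.le hUz hp'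
  simp only [(A.e i).left_inv hx] at h1
  have h2 : hsf A (ue h C ε) i x =
      (ct h C ε x : ℝ) • hsf A (fun y => Real.log (nrm h C y)) i x +
      (ε / (nrm h C x * (nrm h C x + ε) ^ 2) : ℝ) • Matrix.vecMulVec
        (gr (fun z => nrm h C ((A.e i).symm z)) (A.e i x))
        (star (gr (fun z => nrm h C ((A.e i).symm z)) (A.e i x))) := by
    unfold hsf
    exact h1
  have h3 : ((ct h C ε x : ℝ) : ℂ) • cur h i x = (ct h C ε x : ℝ) • cur h i x := by
    ext a b
    simp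
  unfold Rf
  rw [h2, hsf_log hC hx hN, smul_sub, h3]
  abel

theorem Rf_psd (hC : ∀ j, IsHS L univ (C j)) {ε : ℝ} (hε : 0 < ε) {i : A.ι} {x : M}
    (hx : x ∈ (A.e i).source) : (Rf h C ε i x).PosSemidef := by
  have hS := sm_ue (h := h) hC hε
  have hpos : ∀ y ∈ (A.e i).source, 0 < nrm h C y → (Rf h C ε i y).PosSemidef := by
    intro y hy hNy
    rw [Rf_eq hC hε hy hNy]
    have h4 : 0 ≤ ε / (nrm h C y * (nrm h C y + ε) ^ 2) := by positivity
    exact ((lev_log_sq_nonneg hC hy hNy).smul (ct_nonneg hC hε y)).add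
      ((Matrix.posSemidef_vecMulVec_self_star _).smul h4)
  by_cases hx' : ∃ᶠ y in 𝓝 x, 0 < nrm h C y
  · -- closure
    have hcont : ContinuousAt (fun y => Rf h C ε i y) x := by
      refine continuousAt_pi.2 fun a => continuousAt_pi.2 fun b => ?_
      have h1 : A.SmAt i (fun y => (Rf h C ε i y) a b) := by
        have h5 : A.SmAt i (fun y => ((ct h C ε y : ℝ) : ℂ)) := 
          Complex.ofRealCLM.contDiff.comp_contDiffOn (sm_ct hC hε i)
        exact ((hsf_cf hS).sm i a b).add (h5.mul (cur_smooth h i a b))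
      have h2 : ContinuousAt (fun z => (fun y => (Rf h C ε i y) a b) ((A.e i).symm z))
          (A.e i x) :=
        (ContDiffOn.continuousOn h1).continuousAt
          ((A.e i).open_target.mem_nhds ((A.e i).map_source hx))
      have h3 := ContinuousAt.comp (f := fun y => A.e i y) h2 ((A.e i).continuousAt hx)
      refine h3.congr ?_
      filter_upwards [(A.e i).open_source.mem_nhds hx] with y hy
      simp only [Function.comp, (A.e i).left_inv hy]
    have h5 : ∃ᶠ y in 𝓝 x, (Rf h C ε i y) ∈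
          {X : Matrix (Fin n) (Fin n) ℂ | X.PosSemidef} :=
      (hx'.and_eventually ((A.e i).open_source.mem_nhds hx)).mono
        fun y hy => hpos y hy.2 hy.1
    exact TVolA_332.isClosed_psd.mem_of_frequently_of_tendsto h5 hcont
  · rw [not_frequently] at hx'
    have h2 : hsf A (ue h C ε) i x = 0 := by
      unfold hsf
      have h3 : (fun z => ue h C ε ((A.e i).symm z)) =ᶠ[𝓝 (A.e i x)]
          fun _ => Real.log ε := by
        have hc : Tendsto (A.e i).symm (𝓝 (A.e i x)) (𝓝 x) := by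
          have := (A.e i).continuousAt_symm ((A.e i).map_source hx)
          rwa [ContinuousAt, (A.e i).left_inv hx] at this
        filter_upwards [hc.eventually hx'] with z hz
        unfold ue
        rw [le_antisymm (not_lt.1 hz) (nrm_nonneg hC _), zero_add]
      rw [hess_congr h3]
      ext a b
      rw [hess_apply]
      have h4 : wd (true, b) (cu fun _ : Cn n => Real.log ε) = fun _ => 0 := by
        funext w
        exact wd_const _ _ _
      rw [h4, wd_const]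
      rfl
    have h6 : ct h C ε x = 0 := by
      unfold ct
      rw [le_antisymm (not_lt.1 hx'.self_of_nhds) (nrm_nonneg hC _), zero_div]
    unfold Rf
    rw [h2, h6, zero_add, Complex.ofReal_zero, zero_smul]
    exact Matrix.PosSemidef.zero

theorem tf_Rf (hC : ∀ j, IsHS L univ (C j)) {ε : ℝ} (hε : 0 < ε) : TF A (Rf h C ε) where
  sm i a b := by
    have h5 : A.SmAt i (fun y => ((ct h C ε y : ℝ) : ℂ)) := 
          Complex.ofRealCLM.contDiff.comp_contDiffOn (sm_ct hC hε i)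
    exact ((hsf_cf (sm_ue hC hε)).sm i a b).add (h5.mul (cur_smooth h i a b))
  tr i j x hx := by
    unfold Rf
    rw [(tf_hsf (sm_ue hC hε)).tr i j x hx, (tf_cur h).tr i j x hx, Matrix.mul_add,
      Matrix.add_mul, Matrix.mul_smul, Matrix.smul_mul]

theorem trM_Rf (K : Kah A) (ε : ℝ) (x : M) :
    trM K (Rf h C ε) x = Lap K (ue h C ε) x + ct h C ε x * trM K (cur h) x := by
  unfold Lap trM trC Rf
  rw [Matrix.mul_add, Matrix.trace_add, Matrix.mul_smul, Matrix.trace_smul, smul_eq_mul,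
    Complex.add_re, Complex.re_ofReal_mul]

theorem grK_comm (K : Kah A) (φ u : M → ℝ) (x : M) :
    GreenM_5.grK K φ u x = GreenM_5.grK K u φ x := by
  unfold GreenM_5.grK GreenM_5.gc
  rw [← Complex.conj_re, map_sum, Finset.sum_congr rfl fun a _ => map_sum _ _ _,
    Finset.sum_comm]
  congr 1
  refine Finset.sum_congr rfl fun b _ => Finset.sum_congr rfl fun a _ => ?_
  have hH := ((K.pos _ x (GreenM_5.mem_ci (A := A) x)).inv).isHermitian
  have h1 : conj ((K.g (GreenM_5.ci A x) x)⁻¹ b a) = (K.g (GreenM_5.ci A x) x)⁻¹ a b :=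
    hH.apply a b
  rw [map_mul, map_mul, h1, GreenG_5.db_ofReal, GreenG_5.db_ofReal, Complex.conj_conj]
  ring

section int

variable [T2Space M] [CompactSpace M] [Fintype A.ι] [MeasurableSpace M] [BorelSpace M]

theorem Lap_eq_lapK (K : Kah A) {u : M → ℝ} (hu : A.Sm u) (x : M) :
    Lap K u x = GreenM_5.lapK K u x := by
  rw [Lap_read K hu (mem_ch A x), GreenM_5.lapK_eq K hu (mem_ch A x)]
  rfl

theorem int_symm (P : Part A) (K : Kah A) {φ u : M → ℝ} (hφ : A.Sm φ) (hu : A.Sm u) :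
    ∫ x, φ x * Lap K u x ∂(vm (volK K)) = ∫ x, u x * Lap K φ x ∂(vm (volK K)) := by
  have h1 := GreenM_5.integral_mul_lapK K P hφ hu
  have h2 := GreenM_5.integral_mul_lapK K P hu hφ
  simp only [Lap_eq_lapK K hu, Lap_eq_lapK K hφ]
  rw [h1, h2]
  simp only [grK_comm K φ u]


/-- bound of a continuous function -/
theorem exists_bd {f : M → ℝ} (hf : Continuous f) : ∃ B, 0 ≤ B ∧ ∀ x, |f x| ≤ B := by
  obtain ⟨B, hB⟩ := isCompact_univ.exists_bound_of_continuousOn hf.continuousOn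
  exact ⟨max B 0, le_max_right _ _, fun x => (hB x (mem_univ x)).trans (le_max_left _ _)⟩

/-- **abstract `L¹` bound**: `u ≤ U₀`, `Lap u ≥ -B₁`, `u ≥ -D` on `{c ≤ F}` -/
theorem l1_bound [ConnectedSpace M] (P : Part A) (K : Kah A) {F : M → ℝ} (hF : A.Sm F) {x₁ : M}
    {c : ℝ} (hc0 : 0 < c) (hx₁ : 2 * c ≤ F x₁) (U₀ B₁ D : ℝ) (hU₀ : 0 ≤ U₀) (hB₁ : 0 ≤ B₁) :
    ∃ B, ∀ u : M → ℝ, A.Sm u → (∀ x, u x ≤ U₀) → (∀ x, -B₁ ≤ Lap K u x) →
      (∀ x, c ≤ F x → -D ≤ u x) → ∫ x, |u x| ∂(vm (volK K)) ≤ B := by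
  have hfin := isFinite_vm (volK K)
  have hop := isOpenPos_vm (volK K)
  set μ := vm (volK K) with hμ
  have ic : ∀ {f : M → ℝ}, Continuous f → Integrable f μ := fun hf => integrable_cont _ hf
  -- the bump function
  set g : ℝ → ℝ := fun t => Real.smoothTransition (t / c - 1) with hg
  have hgs : ContDiff ℝ ∞ g :=
    Real.smoothTransition.contDiff.comp ((contDiff_id.div_const c).sub contDiff_const)
  set η : M → ℝ := fun x => g (F x) with hη
  have hηs : A.Sm η := sm_comp hgs hF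
  have hη0 : ∀ x, 0 ≤ η x := fun x => Real.smoothTransition.nonneg _
  have hη1 : ∀ x, η x ≤ 1 := fun x => Real.smoothTransition.le_one _
  have hηsup : ∀ x, F x ≤ c → η x = 0 := by
    intro x hx
    refine Real.smoothTransition.zero_of_nonpos ?_
    rw [sub_nonpos, div_le_one hc0]
    exact hx
  have cη : Continuous η := cont_sm hηs
  have hη1' : η x₁ = 1 := by
    refine Real.smoothTransition.one_of_one_le ?_
    have : 2 ≤ F x₁ / c := by rw [le_div_iff₀ hc0]; exact hx₁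
    linarith
  set m : ℝ := ∫ x, η x ∂μ with hm
  have hm0 : 0 < m := by
    rw [hm]
    refine cη.integral_pos_of_hasCompactSupport_nonneg_nonzero
      (HasCompactSupport.of_compactSpace _) hη0 (x := x₁) ?_
    rw [hη1']; exact one_ne_zero
  set V : ℝ := μ.real univ with hV
  have hV0 : 0 < V := by
    have h1 : m ≤ V := by
      have := integral_mono (ic cη) (integrable_const (μ := μ) (1 : ℝ)) hη1
      rw [integral_const, smul_eq_mul, mul_one] at this
      exact this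
    linarith
  -- the solution of `Δφ = η - m/V`
  have hF' : A.Sm (fun x => η x - m / V) := fun i => (hηs i).sub contDiffOn_const
  have hF0 : ∫ x, (η x - m / V) ∂μ = 0 := by
    rw [integral_sub (ic cη) (integrable_const _), integral_const, smul_eq_mul,
      ← hm, ← hV]
    field_simp
    ring
  obtain ⟨φ, hφs, hφ⟩ := CLin_933.lin_zero K P hF' hF0
  have cφ : Continuous φ := cont_sm hφs
  obtain ⟨Bφ, hBφ0, hBφ⟩ := exists_bd cφ
  have hφ' : ∀ x, Lap K φ x = η x - m / V := fun x => by rw [Lap_eq_lapK K hφs, hφ]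
  refine ⟨2 * U₀ * V + V / m * (D * m + 2 * Bφ * B₁ * V), fun u su hup hL hlow => ?_⟩
  have cu : Continuous u := cont_sm su
  have cL : Continuous (Lap K u) := cont_sm (sm_Lap K su)
  have e1 : ∫ x, φ x * Lap K u x ∂μ = ∫ x, u x * Lap K φ x ∂μ := int_symm P K hφs su
  have h5 : ∫ x, φ x * Lap K u x ∂μ ≤ 2 * Bφ * B₁ * V := by
    have h6 : ∀ x, φ x * Lap K u x ≤ Bφ * Lap K u x + 2 * Bφ * B₁ := by
      intro x
      have h7 := abs_le.1 (hBφ x)
      have h8 := hL x
      have h9 : 0 ≤ (Bφ - φ x) * (Lap K u x + B₁) :=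
        mul_nonneg (by linarith [h7.2]) (by linarith)
      have h10 : 0 ≤ (Bφ + φ x) * B₁ := mul_nonneg (by linarith [h7.1]) hB₁
      linarith
    have i1 : Integrable (fun x => φ x * Lap K u x) μ := ic (cφ.mul cL)
    have i2 : Integrable (fun x => Bφ * Lap K u x) μ := (ic cL).const_mul _
    have h11 := integral_mono i1 (i2.add (integrable_const (2 * Bφ * B₁))) h6
    have h12 : ∫ x, (Bφ * Lap K u x + 2 * Bφ * B₁) ∂μ = 2 * Bφ * B₁ * V := by
      rw [integral_add i2 (integrable_const _), integral_const_mul, int_lap P K su, mul_zero,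
        zero_add, integral_const, smul_eq_mul, ← hV, mul_comm V]
    exact h11.trans h12.le
  have i3 : Integrable (fun x => u x * η x) μ := ic (cu.mul cη)
  have e2 : ∫ x, u x * Lap K φ x ∂μ = (∫ x, u x * η x ∂μ) - m / V * ∫ x, u x ∂μ := by
    have e3 : (fun x => u x * Lap K φ x) = fun x => u x * η x - m / V * u x := by
      funext x
      rw [hφ' x]; ring
    rw [e3, integral_sub i3 ((ic cu).const_mul _), integral_const_mul]
  have h8 : -(D * m) ≤ ∫ x, u x * η x ∂μ := by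
    have h9 : ∀ x, -(D * η x) ≤ u x * η x := by
      intro x
      by_cases hx : F x ≤ c
      · rw [hηsup x hx]; simp
      · push Not at hx
        have h10 := hlow x hx.le
        have h11 := mul_nonneg (by linarith : 0 ≤ u x + D) (hη0 x)
        linarith
    have h10 := integral_mono ((ic cη).const_mul D).neg i3 h9
    have h11 : ∫ x, -(D * η x) ∂μ = -(D * m) := by
      rw [integral_neg, integral_const_mul, ← hm]
    exact h11.symm.le.trans h10
  have h12 : -(V / m * (D * m + 2 * Bφ * B₁ * V)) ≤ ∫ x, u x ∂μ := by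
    rw [e1, e2] at h5
    have h13 : m / V * -(V / m * (D * m + 2 * Bφ * B₁ * V)) ≤ m / V * ∫ x, u x ∂μ := by
      have : m / V * -(V / m * (D * m + 2 * Bφ * B₁ * V)) = -(D * m + 2 * Bφ * B₁ * V) := by
        field_simp
      rw [this]
      linarith
    exact le_of_mul_le_mul_left h13 (by positivity)
  have h14 : ∀ x, |u x| ≤ 2 * U₀ - u x := by
    intro x
    have h15 := hup x
    rcases abs_cases (u x) with h16 | h16 <;> linarith
  have h15 := integral_mono (ic cu.abs) ((integrable_const (2 * U₀)).sub (ic cu)) h14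
  have h16 : ∫ x, (2 * U₀ - u x) ∂μ = 2 * U₀ * V - ∫ x, u x ∂μ := by
    rw [integral_sub (integrable_const _) (ic cu), integral_const, smul_eq_mul, ← hV,
      mul_comm V]
  have h17 : ∫ x, |u x| ∂μ ≤ 2 * U₀ * V - ∫ x, u x ∂μ := h15.trans h16.le
  linarith

/-- **uniform `L¹` bound** -/
theorem int_abs_ue [ConnectedSpace M] (P : Part A) (K : Kah A) (hC : ∀ j, IsHS L univ (C j))
    (hne : ∃ x, 0 < nrm h C x) :
    ∃ B, ∀ ε : ℝ, 0 < ε → ε ≤ 1 → ∫ x, |ue h C ε x| ∂(vm (volK K)) ≤ B := by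
  obtain ⟨x₁, hx₁⟩ := hne
  obtain ⟨BN, hBN0, hBN⟩ := exists_bd (cont_sm (sm_nrm (h' := h) hC))
  obtain ⟨B1, hB10, hB1⟩ := exists_bd (cont_trM K (tf_cur h))
  obtain ⟨B, hB⟩ := l1_bound P K (sm_nrm (h' := h) hC) (c := nrm h C x₁ / 2) (x₁ := x₁)
    (by positivity) (by linarith) (Real.log (BN + 1)) B1 (-Real.log (nrm h C x₁ / 2))
    (Real.log_nonneg (by linarith)) hB10
  refine ⟨B, fun ε hε hε1 => hB _ (sm_ue hC hε) (fun x => ?_) (fun x => ?_) (fun x hx => ?_)⟩
  · refine Real.log_le_log (add_pos_of_nonneg_of_pos (nrm_nonneg hC _) hε) ?_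
    have := (abs_le.1 (hBN x)).2
    linarith
  · have h1 := trM_nonneg K (fun i x hx => Rf_psd (h := h) hC hε hx) x
    rw [trM_Rf] at h1
    have h2 := ct_nonneg (h := h) hC hε x
    have h3 := ct_le_one (h := h) hC hε x
    have h4 := abs_le.1 (hB1 x)
    nlinarith
  · rw [neg_neg]
    exact Real.log_le_log (by positivity) (by linarith)

end int

end

end Crest.Agent.R281.Mov_625
end

-- ▼ part R281/Mov4_625

/-!
# Row 281, task MOV (helper625), part 4: chart independence, null sets, `log ∑|C_j|² ∈ L¹`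

* `bl_indep`, `tr2_indep`, `bl_real`, `cont_q2`
* `setInt_chart`, `setLint_chart` : integrals over a chart with respect to `lc n`
* `Star A Z` : almost every complex line of `n` independent directions misses `Z`, locally
* `Star.ae` : `Z` is a null set; `integrable_log`
-/

set_option autoImplicit false
set_option linter.unusedSectionVars false

open Set Filter Topology Complex MeasureTheory Metric
open scoped ContDiff Matrix ComplexConjugate ComplexOrder ENNReal

namespace Crest.Agent.R281.Mov_625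

open Crest.Agent.R275 Crest.Agent.R275.Geo Crest.Agent.R275.Core144 Crest.Agent.R275.EDR890
open Crest.Agent.R275.C1d194 Crest.Agent.R275.Pai323
open Crest.Agent.R273.Defs_333 Crest.Agent.R273.Hess_333 Crest.Agent.R273.HessB_333
open Crest.Agent.R273.HM_333 Crest.Agent.R273.Kah_333 Crest.Agent.R273.Vol_333
open Crest.Agent.R273.Vm_333
open Crest.Agent.R273.Green_5 Crest.Agent.R273.FIa0_597 Crest.Agent.R273.FIb0_597
open Crest.Agent.R273.FIc0_597 Crest.Agent.R273 Crest.Agent.R273.AppA_834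
open Crest.Agent.R273.TLd_201
open Crest.Agent.R281.Glob1_484 Crest.Agent.R281.Glob2_484 Crest.Agent.R281.Ti_846

noncomputable section

variable {n N : ℕ} {M : Type} [TopologicalSpace M] {A : Atl n M} {L : LB A} {h : HM L}
  {C : Fin N → A.ι → M → ℂ}

/-! ### chart independence -/

/-- the endomorphism `g⁻¹ S` -/
def en (K : Kah A) (S : A.ι → M → Matrix (Fin n) (Fin n) ℂ) (i : A.ι) (x : M) :
    Matrix (Fin n) (Fin n) ℂ := (K.g i x)⁻¹ * S i x

theorem en_conj (K : Kah A) {S : A.ι → M → Matrix (Fin n) (Fin n) ℂ} (hS : TF A S) {i j : A.ι}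
    {x : M} (hx : x ∈ (A.e i).source ∩ (A.e j).source) :
    en K S i x = ((Jm A i j x).map conj)⁻¹ * en K S j x * (Jm A i j x).map conj := by
  unfold en
  rw [K.tr i j x hx, hS.tr i j x hx]
  set J := Jm A i j x with hJ
  have h1 : IsUnit (Jᵀ).det := by
    rw [Matrix.det_transpose]; exact (det_Jm_ne hx).isUnit
  rw [Matrix.mul_inv_rev, Matrix.mul_inv_rev]
  calc (J.map conj)⁻¹ * ((K.g j x)⁻¹ * (Jᵀ)⁻¹) * (Jᵀ * S j x * J.map conj)
      = (J.map conj)⁻¹ * ((K.g j x)⁻¹ * (((Jᵀ)⁻¹ * Jᵀ) * S j x)) * J.map conj := by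
        simp only [Matrix.mul_assoc]
    _ = _ := by rw [Matrix.nonsing_inv_mul _ h1, Matrix.one_mul]

theorem tr2_indep (K : Kah A) {S S' : A.ι → M → Matrix (Fin n) (Fin n) ℂ} (hS : TF A S)
    (hS' : TF A S') {i j : A.ι} {x : M} (hx : x ∈ (A.e i).source ∩ (A.e j).source) :
    (en K S i x * en K S' i x).trace = (en K S j x * en K S' j x).trace := by
  have h2 : IsUnit ((Jm A i j x).map conj).det := (det_conj_ne hx).isUnit
  rw [en_conj K hS hx, en_conj K hS' hx]
  set P := (Jm A i j x).map conj with hP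
  calc (P⁻¹ * en K S j x * P * (P⁻¹ * en K S' j x * P)).trace
      = (P⁻¹ * (en K S j x * (P * P⁻¹) * en K S' j x * P)).trace := by
        simp only [Matrix.mul_assoc]
    _ = (P⁻¹ * (en K S j x * en K S' j x * P)).trace := by
        rw [Matrix.mul_nonsing_inv _ h2, Matrix.mul_one]
    _ = ((en K S j x * en K S' j x * P) * P⁻¹).trace := Matrix.trace_mul_comm _ _
    _ = _ := by rw [Matrix.mul_assoc, Matrix.mul_nonsing_inv _ h2, Matrix.mul_one]

theorem bl_indep (K : Kah A) {S S' : A.ι → M → Matrix (Fin n) (Fin n) ℂ} (hS : TF A S)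
    (hS' : TF A S') {i j : A.ι} {x : M} (hx : x ∈ (A.e i).source ∩ (A.e j).source) :
    bl (K.g i x) (S i x) (S' i x) = bl (K.g j x) (S j x) (S' j x) := by
  have h1 := trC_indep K hS hx
  have h2 := trC_indep K hS' hx
  have h3 := tr2_indep K hS hS' hx
  unfold trC at h1 h2
  unfold en at h3
  unfold bl
  rw [h1, h2, h3]

theorem tr2_real (K : Kah A) {S S' : A.ι → M → Matrix (Fin n) (Fin n) ℂ} {i : A.ι} {x : M}
    (hx : x ∈ (A.e i).source) (hS : (S i x).IsHermitian) (hS' : (S' i x).IsHermitian) :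
    conj (en K S i x * en K S' i x).trace = (en K S i x * en K S' i x).trace := by
  have hg := ((K.pos i x hx).inv).isHermitian
  have h1 := Matrix.trace_conjTranspose (en K S i x * en K S' i x)
  have h2 : (en K S i x * en K S' i x)ᴴ = S' i x * (K.g i x)⁻¹ * (S i x * (K.g i x)⁻¹) := by
    unfold en
    rw [Matrix.conjTranspose_mul, Matrix.conjTranspose_mul, Matrix.conjTranspose_mul, hg.eq,
      hS.eq, hS'.eq]
  rw [starRingEnd_apply, ← h1, h2]
  unfold en
  calc (S' i x * (K.g i x)⁻¹ * (S i x * (K.g i x)⁻¹)).trace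
      = ((S i x * (K.g i x)⁻¹) * (S' i x * (K.g i x)⁻¹)).trace := Matrix.trace_mul_comm _ _
    _ = ((S i x * (K.g i x)⁻¹ * S' i x) * (K.g i x)⁻¹).trace := by simp only [Matrix.mul_assoc]
    _ = ((K.g i x)⁻¹ * (S i x * (K.g i x)⁻¹ * S' i x)).trace := Matrix.trace_mul_comm _ _
    _ = _ := by simp only [Matrix.mul_assoc]

theorem bl_real (K : Kah A) {S S' : A.ι → M → Matrix (Fin n) (Fin n) ℂ} {i : A.ι} {x : M}
    (hx : x ∈ (A.e i).source) (hS : (S i x).IsHermitian) (hS' : (S' i x).IsHermitian) :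
    ((K.g i x)⁻¹ * S i x).trace * ((K.g i x)⁻¹ * S' i x).trace -
      ((K.g i x)⁻¹ * S i x * ((K.g i x)⁻¹ * S' i x)).trace =
      ((bl (K.g i x) (S i x) (S' i x) : ℝ) : ℂ) := by
  have hg := (K.pos i x hx).isHermitian
  have h1 := GreenM_5.trace_real hg hS
  have h2 := GreenM_5.trace_real hg hS'
  have h3 := tr2_real K hx hS hS'
  unfold en at h3
  symm
  unfold bl
  refine Complex.conj_eq_iff_re.1 ?_
  rw [map_sub, map_mul, h3, ← h1, ← h2, Complex.conj_ofReal, Complex.conj_ofReal]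

/-- `tr (g⁻¹S g⁻¹S')` as a function on `M` -/
def tr2M (K : Kah A) (S S' : A.ι → M → Matrix (Fin n) (Fin n) ℂ) (x : M) : ℝ :=
  ((en K S (ch A x) x * en K S' (ch A x) x).trace).re

theorem cont_tr2M (K : Kah A) {S S' : A.ι → M → Matrix (Fin n) (Fin n) ℂ} (hS : TF A S)
    (hS' : TF A S') : Continuous (tr2M K S S') := by
  refine cont_sm (A := A) fun i => ?_
  have h1 : A.SmAt i (fun x => (en K S i x * en K S' i x).trace) := by
    have h2 : ∀ {S : A.ι → M → Matrix (Fin n) (Fin n) ℂ}, TF A S → ∀ a b,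
        A.SmAt i (fun x => en K S i x a b) := by
      intro S hS a b
      have h3 : (fun x => en K S i x a b) = fun x => ∑ c, (K.g i x)⁻¹ a c * S i x c b := by
        funext x
        simp only [en, Matrix.mul_apply]
      rw [h3]
      exact ContDiffOn.sum fun c _ => (smAt_inv K i a c).mul (hS.sm i c b)
    have h3 : (fun x => (en K S i x * en K S' i x).trace) =
        fun x => ∑ a, ∑ b, en K S i x a b * en K S' i x b a := by
      funext x
      simp only [Matrix.trace, Matrix.diag_apply, Matrix.mul_apply]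
    rw [h3]
    exact ContDiffOn.sum fun a _ => ContDiffOn.sum fun b _ => (h2 hS a b).mul (h2 hS' b a)
  refine (Complex.reCLM.contDiff.comp_contDiffOn h1).congr fun z hz => ?_
  show ((en K S _ _ * en K S' _ _).trace).re = ((en K S i _ * en K S' i _).trace).re
  rw [tr2_indep K hS hS' ⟨mem_ch A _, (A.e i).map_target hz⟩]

/-- `bl` as a function on `M` -/
def q2 (K : Kah A) (S S' : A.ι → M → Matrix (Fin n) (Fin n) ℂ) (x : M) : ℝ :=
  bl (K.g (ch A x) x) (S (ch A x) x) (S' (ch A x) x)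

theorem q2_eq (K : Kah A) {S S' : A.ι → M → Matrix (Fin n) (Fin n) ℂ} (hS : TF A S)
    (hS' : TF A S') {i : A.ι} {x : M} (hx : x ∈ (A.e i).source) :
    q2 K S S' x = bl (K.g i x) (S i x) (S' i x) :=
  bl_indep K hS hS' ⟨mem_ch A x, hx⟩

/-! ### integrals over charts -/

section chart

variable [CompactSpace M] [T2Space M] [MeasurableSpace M] [BorelSpace M] [Countable A.ι]

theorem emb_rc (n : ℕ) : MeasurableEmbedding ((rcE n).symm : (RI n → ℝ) → Cn n) :=
  (rcE n).symm.toContinuousLinearEquiv.toHomeomorph.measurableEmbedding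

theorem setLint_chart (v : HM (KB A)⁻¹) (i : A.ι) {f : M → ℝ≥0∞} (hf : Measurable f) :
    ∫⁻ x in (A.e i).source, f x ∂(vm v) =
      ∫⁻ z in (A.e i).target, ENNReal.ofReal (v.w i ((A.e i).symm z)) *
        f ((A.e i).symm z) ∂(lc n) := by
  rw [setLIntegral_vm v i hf]
  unfold lc
  rw [(emb_rc n).restrict_map, (emb_rc n).lintegral_map]
  rfl

theorem setInt_chart (v : HM (KB A)⁻¹) (i : A.ι) {f : M → ℝ} (hf : Continuous f) :
    ∫ x in (A.e i).source, f x ∂(vm v) =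
      ∫ z in (A.e i).target, v.w i ((A.e i).symm z) * f ((A.e i).symm z) ∂(lc n) := by
  rw [setIntegral_vm v i hf.aestronglyMeasurable, setIntegral_lc]
  rfl

/-- almost every complex line of `n` independent directions misses `Z`, locally -/
def Star (A : Atl n M) (Z : Set M) : Prop :=
  ∀ i, ∀ z₀ ∈ (A.e i).target, ∃ r > 0, ball z₀ r ⊆ (A.e i).target ∧
    ∃ w : Module.Basis (Fin n) ℂ (Cn n), ∀ a, ∀ᵐ z ∂(lc n), z ∈ ball z₀ r →
      ∀ s : ℂ, z + s • w a ∈ ball z₀ r → (A.e i).symm (z + s • w a) ∉ Z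

theorem Star.null {Z : Set M} (hS : Star A Z) (hn : 0 < n) (hZ : IsClosed Z)
    (v : HM (KB A)⁻¹) : vm v Z = 0 := by
  refine hZ.isCompact.measure_zero_of_nhdsWithin fun x hx => ?_
  have hxs := mem_ch A x
  set i := ch A x with hi
  obtain ⟨r, hr, hball, w, hw⟩ := hS i (A.e i x) ((A.e i).map_source hxs)
  set V : Set M := (A.e i).source ∩ (A.e i) ⁻¹' ball (A.e i x) r with hV
  have hVo : IsOpen V := (A.e i).isOpen_inter_preimage isOpen_ball
  have hVx : x ∈ V := ⟨hxs, mem_ball_self hr⟩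
  refine ⟨Z ∩ V, inter_mem_nhdsWithin _ (hVo.mem_nhds hVx), ?_⟩
  have hm : MeasurableSet (Z ∩ V) := hZ.measurableSet.inter hVo.measurableSet
  have h1 : vm v (Z ∩ V) = ∫⁻ x in (A.e i).source, (Z ∩ V).indicator 1 x ∂(vm v) := by
    rw [lintegral_indicator_one hm, Measure.restrict_apply hm]
    congr 1
    exact (inter_eq_left.2 fun y hy => hy.2.1).symm
  rw [h1, setLint_chart v i (measurable_one.indicator hm)]
  have h2 : ∀ᵐ z ∂(lc n).restrict (A.e i).target, ENNReal.ofReal (v.w i ((A.e i).symm z)) *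
      (Z ∩ V).indicator (1 : M → ℝ≥0∞) ((A.e i).symm z) = 0 := by
    rw [ae_restrict_iff' (A.e i).open_target.measurableSet]
    filter_upwards [hw ⟨0, hn⟩] with z hz hzt
    have h3 : (A.e i).symm z ∉ Z ∩ V := by
      rintro ⟨h4, h5⟩
      have h6 : z ∈ ball (A.e i x) r := by
        have := h5.2
        rwa [mem_preimage, (A.e i).right_inv hzt] at this
      have h7 := hz h6 0 (by simpa using h6)
      rw [zero_smul, add_zero] at h7
      exact h7 h4
    rw [indicator_of_notMem h3, mul_zero]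
  rw [lintegral_congr_ae h2, lintegral_zero]

theorem Star.ae_pos {Z : Set M} (hS : Star A Z) (hn : 0 < n) (hZ : IsClosed Z)
    (v : HM (KB A)⁻¹) : ∀ᵐ x ∂(vm v), x ∉ Z := by
  rw [ae_iff]
  simpa using hS.null hn hZ v

/-- the sequence of parameters -/
def ek (k : ℕ) : ℝ := 1 / ((k : ℝ) + 1)

theorem ek_pos (k : ℕ) : 0 < ek k := by unfold ek; positivity

theorem ek_le (k : ℕ) : ek k ≤ 1 := by
  unfold ek
  rw [div_le_one (by positivity)]
  linarith [(Nat.cast_nonneg k : (0 : ℝ) ≤ k)]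

theorem ek_tend : Tendsto ek atTop (𝓝 0) := tendsto_one_div_add_atTop_nhds_zero_nat

theorem ue_tend {x : M} (hx : 0 < nrm h C x) :
    Tendsto (fun k => ue h C (ek k) x) atTop (𝓝 (Real.log (nrm h C x))) := by
  have h1 : Tendsto (fun k => nrm h C x + ek k) atTop (𝓝 (nrm h C x + 0)) :=
    tendsto_const_nhds.add ek_tend
  rw [add_zero] at h1
  exact ((Real.continuousAt_log hx.ne').tendsto).comp h1

theorem lint_log {μ : Measure M} [IsFiniteMeasure μ] (hC : ∀ j, IsHS L univ (C j))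
    (hae : ∀ᵐ x ∂μ, 0 < nrm h C x) {B : ℝ}
    (hB : ∀ ε : ℝ, 0 < ε → ε ≤ 1 → ∫ x, |ue h C ε x| ∂μ ≤ B) :
    ∫⁻ x, ‖Real.log (nrm h C x)‖ₑ ∂μ ≤ ENNReal.ofReal B := by
  have cu : ∀ k, Continuous (ue h C (ek k)) := fun k => cont_sm (sm_ue hC (ek_pos k))
  have h1 : ∀ k, ∫⁻ x, ‖ue h C (ek k) x‖ₑ ∂μ ≤ ENNReal.ofReal B := by
    intro k
    have hi : Integrable (ue h C (ek k)) μ :=
      (cu k).integrable_of_hasCompactSupport (HasCompactSupport.of_compactSpace _)
    rw [← ofReal_integral_norm_eq_lintegral_enorm hi]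
    exact ENNReal.ofReal_le_ofReal (hB _ (ek_pos k) (ek_le k))
  calc ∫⁻ x, ‖Real.log (nrm h C x)‖ₑ ∂μ
      = ∫⁻ x, liminf (fun k => ‖ue h C (ek k) x‖ₑ) atTop ∂μ := by
        refine lintegral_congr_ae ?_
        filter_upwards [hae] with x hx
        exact ((continuous_enorm.tendsto _).comp (ue_tend hx)).liminf_eq.symm
    _ ≤ liminf (fun k => ∫⁻ x, ‖ue h C (ek k) x‖ₑ ∂μ) atTop :=
        lintegral_liminf_le fun k => (cu k).measurable.enorm
    _ ≤ ENNReal.ofReal B := by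
        refine liminf_le_of_le (by isBoundedDefault) fun b hb => ?_
        obtain ⟨k, hk⟩ := hb.exists
        exact hk.trans (h1 k)

/-- local integrability in a chart -/
theorem intOn_chart (v : HM (KB A)⁻¹) (i : A.ι) {f : M → ℝ} (hf : Measurable f) {B : ℝ}
    (hB : ∫⁻ x, ‖f x‖ₑ ∂(vm v) ≤ ENNReal.ofReal B) {Q : Set (Cn n)} (hQ : IsCompact Q)
    (hQt : Q ⊆ (A.e i).target) :
    IntegrableOn (fun z => f ((A.e i).symm z)) Q (lc n) := by
  have hw : ContinuousOn (fun z => v.w i ((A.e i).symm z)) Q :=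
    (ContDiffOn.continuousOn (v.sm i)).mono hQt
  obtain ⟨c, hc0, hc⟩ : ∃ c > 0, ∀ z ∈ Q, c ≤ v.w i ((A.e i).symm z) := by
    rcases Q.eq_empty_or_nonempty with hQe | hQe
    · exact ⟨1, one_pos, fun z hz => by rw [hQe] at hz; exact absurd hz (notMem_empty z)⟩
    · obtain ⟨z, hz, hmin⟩ := hQ.exists_isMinOn hQe hw
      exact ⟨_, v.pos i _ ((A.e i).map_target (hQt hz)), fun y hy => hmin hy⟩
  have hsm : AEStronglyMeasurable (fun z => f ((A.e i).symm z)) ((lc n).restrict Q) := by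
    have h1 : AEMeasurable (A.e i).symm ((lc n).restrict Q) :=
      ((A.e i).continuousOn_symm.mono hQt).aemeasurable hQ.measurableSet
    exact (hf.comp_aemeasurable h1).aestronglyMeasurable
  refine ⟨hsm, ?_⟩
  have h2 := setLint_chart v i hf.enorm
  have h3 : ∫⁻ x in (A.e i).source, ‖f x‖ₑ ∂(vm v) ≤ ENNReal.ofReal B :=
    (setLIntegral_le_lintegral _ _).trans hB
  rw [h2] at h3
  have h4 : ENNReal.ofReal c * ∫⁻ z in Q, ‖f ((A.e i).symm z)‖ₑ ∂(lc n) ≤ ENNReal.ofReal B := by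
    rw [← lintegral_const_mul' _ _ ENNReal.ofReal_ne_top]
    refine le_trans ?_ ((lintegral_mono_set hQt).trans h3)
    refine setLIntegral_mono' hQ.measurableSet fun z hz => ?_
    exact mul_le_mul_left (ENNReal.ofReal_le_ofReal (hc z hz)) _
  unfold HasFiniteIntegral
  by_contra hinf
  rw [not_lt, top_le_iff] at hinf
  rw [hinf, ENNReal.mul_top (by simpa using hc0)] at h4
  exact absurd h4 (by simp)

end chart

end

end Crest.Agent.R281.Mov_625
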