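import Crest.Agent.R281.Kd3_22
import Crest.Agent.R281.Per5_368
import Crest.Agent.R281.Fuj3_207
import Crest.Agent.R281.Sc3_413
import Crest.Agent.R281.Per1_368
import Crest.Agent.R281.Kd5_22
import Crest.Agent.R281.Kd6_22
import Crest.Agent.R281.HkR8_835
import Crest.Agent.R281.Mov4_625
import Crest.Agent.R281.TubT_831
import Crest.Agent.R281.HkM1_835

-- ▼ part R281/Kd7_22
section

/-!
# Row 281, KAPPA-1 glue, part 7 (helper22): the periods of the curvature over the tori

* `phi h s`  : `-log |s|²_h`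
* `tor_zero` : if a holomorphic section `s` of `N` has no zero on the image of the periodic
  holomorphic map `Φ`, all periods of `Φ^* (curK h).f2` vanish
-/

set_option autoImplicit false
set_option linter.unusedSectionVars false
set_option maxSynthPendingDepth 3

open Set Filter Topology Complex
open scoped ContDiff Matrix ComplexConjugate ComplexOrder

namespace Crest.Agent.R281.Kd_22

open Crest.Agent.R275 Crest.Agent.R275.Geo Crest.Agent.R275.Core144 Crest.Agent.R275.EDR890
open Crest.Agent.R273.Defs_333 Crest.Agent.R273.Kah_333 Crest.Agent.R273.HM_333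
open Crest.Agent.R273.Hess_333 Crest.Agent.R273.HessB_333
open Crest.Agent.R281.HkR_835 Crest.Agent.R281.Ti_846 Crest.Agent.R281.Fuj3_207
open Crest.Agent.R281.Per_368 Crest.Agent.R281.Sc_413
open Crest.Agent.R281.Cdr_234 (sh isOpen_sh)

noncomputable section

variable {n : ℕ} {M : Type} [TopologicalSpace M] {A : Atl n M} {N : LB A}

/-- `-log |s|²_h`, computed in a chosen chart -/
def phi (h : HM N) (s : A.ι → M → ℂ) (x : M) : ℝ :=
  - Real.log (nsq h s (A.cover x).choose x)

/-- the set where the section does not vanish -/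
def nz (A : Atl n M) (s : A.ι → M → ℂ) : Set M := {x | ∃ i, x ∈ (A.e i).source ∧ s i x ≠ 0}

variable {h : HM N} {s : A.ι → M → ℂ}

theorem nz_ne (hs : IsHS N univ s) {x : M} (hx : x ∈ nz A s) {i : A.ι}
    (hi : x ∈ (A.e i).source) : s i x ≠ 0 := by
  obtain ⟨j, hj, h0⟩ := hx
  have h1 := hs.tr j i x ⟨hj, hi⟩ (mem_univ _)
  intro h2
  rw [h2, mul_zero] at h1
  exact h0 h1

theorem an_sec (hs : IsHS N univ s) (i : A.ι) {z : Cn n} (hz : z ∈ (A.e i).target) :
    AnalyticAt ℂ (fun z => s i ((A.e i).symm z)) z := by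
  have h1 := hm_of_isHS hs ((A.e i).map_target hz) i ((A.e i).map_target hz)
  rwa [(A.e i).right_inv hz] at h1

theorem isOpen_nz (hs : IsHS N univ s) : IsOpen (nz A s) := by
  rw [isOpen_iff_mem_nhds]
  rintro x ⟨i, hi, h0⟩
  have h1 : ContinuousOn (fun z => s i ((A.e i).symm z)) (A.e i).target := by
    have := hs.hol i
    unfold HolAt at this
    simpa using this.continuousOn
  have h2 : ContinuousAt (fun y => s i ((A.e i).symm (A.e i y))) x := by
    have h3 : ContinuousAt (fun z => s i ((A.e i).symm z)) (A.e i x) :=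
      h1.continuousAt ((A.e i).open_target.mem_nhds ((A.e i).map_source hi))
    exact ContinuousAt.comp (g := fun z => s i ((A.e i).symm z)) h3 ((A.e i).continuousAt hi)
  have h4 : ∀ᶠ y in 𝓝 x, s i ((A.e i).symm (A.e i y)) ≠ 0 := by
    refine h2.eventually_ne ?_
    rw [(A.e i).left_inv hi]; exact h0
  filter_upwards [h4, (A.e i).open_source.mem_nhds hi] with y hy hy'
  refine ⟨i, hy', ?_⟩
  rwa [(A.e i).left_inv hy'] at hy

theorem phi_eq (hs : IsHS N univ s) {x : M} (hx : x ∈ nz A s) {i : A.ι}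
    (hi : x ∈ (A.e i).source) :
    phi h s x = h.wt i (A.e i x) - Real.log (‖s i x‖ ^ 2) := by
  have h0 := nz_ne hs hx hi
  have h1 := (A.cover x).choose_spec
  unfold phi
  rw [nsq_indep h hs ⟨h1, hi⟩ (mem_univ x), nsq, Real.log_mul (by positivity)
    (h.pos i x hi).ne', HM.wt, (A.e i).left_inv hi]
  ring

theorem phi_smooth (hs : IsHS N univ s) (i : A.ι) :
    ContDiffOn ℝ ∞ (fun z => phi h s ((A.e i).symm z)) (sh (ofAtl A) i (nz A s)) := by
  have h1 : ContDiffOn ℝ ∞ (fun z => h.wt i z - Real.log (‖s i ((A.e i).symm z)‖ ^ 2))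
      (sh (ofAtl A) i (nz A s)) := by
    refine ((wt_smooth h i).mono fun z hz => hz.1).sub ?_
    have h3 : ContDiffOn ℝ ∞ (fun z => s i ((A.e i).symm z)) (sh (ofAtl A) i (nz A s)) := by
      intro z hz
      exact ((an_sec hs i hz.1).restrictScalars (𝕜 := ℝ)).contDiffAt.contDiffWithinAt
    refine ContDiffOn.log (h3.norm_sq ℝ) fun z hz => ?_
    have h5 := nz_ne hs hz.2 ((A.e i).map_target hz.1)
    positivity
  refine h1.congr fun z hz => ?_
  have h5 : z ∈ (A.e i).target := hz.1
  have h6 : (A.e i).symm z ∈ nz A s := hz.2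
  have h7 := phi_eq (h := h) hs h6 ((A.e i).map_target h5)
  rw [(A.e i).right_inv h5] at h7
  exact h7

/-- the local primitives `-¼ dφ(i ·)` of the curvature -/
def th (h : HM N) (s : A.ι → M → ℂ) (i : A.ι) (z : Cn n) : Cn n →L[ℝ] ℝ :=
  (-(1 / 4 : ℝ)) • (fderiv ℝ (fun y => phi h s ((A.e i).symm y)) z).comp iL

theorem th_smooth (hs : IsHS N univ s) (i : A.ι) :
    ContDiffOn ℝ ∞ (th h s i) (sh (ofAtl A) i (nz A s)) := by
  have h1 : ContDiffOn ℝ ∞ (fderiv ℝ fun y => phi h s ((A.e i).symm y))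
      (sh (ofAtl A) i (nz A s)) :=
    (phi_smooth hs i).fderiv_of_isOpen (isOpen_sh (C := ofAtl A) i (isOpen_nz hs)) (by simp)
  exact (h1.clm_comp contDiffOn_const).const_smul _

theorem th_tr (hs : IsHS N univ s) (i j : A.ι) (z : Cn n) (hz : z ∈ (ofAtl A).ov i j)
    (hU : (A.e i).symm z ∈ nz A s) (v : Cn n) :
    th h s i z v = th h s j ((ofAtl A).t i j z) (fderiv ℝ ((ofAtl A).t i j) z v) := by
  have h1 : (fun y => phi h s ((A.e i).symm y)) =ᶠ[𝓝 z]
      fun y => phi h s ((A.e j).symm ((ofAtl A).t i j y)) := by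
    filter_upwards [(RCh.isOpen_ov (C := ofAtl A) i j).mem_nhds hz] with y hy
    congr 1
    exact ((A.e j).left_inv hy.2).symm
  have hz' : (ofAtl A).t i j z ∈ (A.e j).target := (RCh.t_mem hz).1
  have hz'' : (A.e j).symm ((ofAtl A).t i j z) = (A.e i).symm z := (A.e j).left_inv hz.2
  have hmem : (ofAtl A).t i j z ∈ sh (ofAtl A) j (nz A s) := ⟨hz', by
    show (A.e j).symm ((ofAtl A).t i j z) ∈ nz A s
    rw [hz'']; exact hU⟩
  have h2 : DifferentiableAt ℝ (fun y => phi h s ((A.e j).symm y)) ((ofAtl A).t i j z) :=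
    ((phi_smooth hs j).contDiffAt
      ((isOpen_sh (C := ofAtl A) j (isOpen_nz hs)).mem_nhds hmem)).differentiableAt (by simp)
  have h3 := (HasFDerivAt.comp (g := fun y => phi h s ((A.e j).symm y)) (f := (ofAtl A).t i j) z
    h2.hasFDerivAt (RCh.t_diff hz).hasFDerivAt).fderiv
  have h4 : ((fun y => phi h s ((A.e j).symm y)) ∘ (ofAtl A).t i j) =
      fun y => phi h s ((A.e j).symm ((ofAtl A).t i j y)) := rfl
  rw [h4, ← h1.fderiv_eq] at h3
  simp only [th, smul_apply, ContinuousLinearMap.comp_apply, h3, iL_apply, ofAtl_dt_I hz]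

theorem th_d (hs : IsHS N univ s) (i : A.ι) (z : Cn n) (hz : z ∈ sh (ofAtl A) i (nz A s))
    (v w : Cn n) :
    fderiv ℝ (th h s i) z v w - fderiv ℝ (th h s i) z w v = (curK h).f2.w i z v w := by
  have hzt : z ∈ (A.e i).target := hz.1
  have hO := (isOpen_sh (C := ofAtl A) i (isOpen_nz hs)).mem_nhds hz
  have hsm : ContDiffAt ℝ ∞ (fun y => phi h s ((A.e i).symm y)) z :=
    (phi_smooth hs i).contDiffAt hO
  have h1 : DifferentiableAt ℝ (fderiv ℝ (fun y => phi h s ((A.e i).symm y))) z :=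
    (hsm.fderiv_right (m := ∞) (by simp)).differentiableAt (by simp)
  have h2 : ∀ a b, fderiv ℝ (th h s i) z a b =
      -(1 / 4) * fderiv ℝ (fderiv ℝ (fun y => phi h s ((A.e i).symm y))) z a (I • b) := by
    intro a b
    have h3 := ((h1.hasFDerivAt.clm_comp (hasFDerivAt_const iL z)).const_smul
      (-(1 / 4 : ℝ))).fderiv
    have h4 : th h s i = fun z => (-(1 / 4 : ℝ)) •
      (fderiv ℝ (fun y => phi h s ((A.e i).symm y)) z).comp iL := rfl
    rw [h4]
    have h5 := congrArg (fun L => L a b) h3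
    refine h5.trans ?_
    simp
  -- the Hessian of `φ` is the curvature
  have h6 : hess (fun y => phi h s ((A.e i).symm y)) z = cur h i ((A.e i).symm z) := by
    have hev : ∀ᶠ w in 𝓝 z, DifferentiableAt ℂ (fun z => s i ((A.e i).symm z)) w := by
      filter_upwards [(A.e i).open_target.mem_nhds hzt] with w hw
      exact (an_sec hs i hw).differentiableAt
    have h0 := nz_ne hs hz.2 ((A.e i).map_target hzt)
    have h7 := hess_log_norm hev h0
    have h8 : (fun y => h.wt i y) =ᶠ[𝓝 z] fun y => phi h s ((A.e i).symm y) +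
        Real.log (‖s i ((A.e i).symm y)‖ ^ 2) := by
      filter_upwards [hO] with y hy
      have g1 : y ∈ (A.e i).target := hy.1
      have g2 : (A.e i).symm y ∈ nz A s := hy.2
      have g3 := phi_eq (h := h) hs g2 ((A.e i).map_target g1)
      rw [(A.e i).right_inv g1] at g3
      rw [g3]
      ring
    have h9 : ContDiffAt ℝ ∞ (fun y => Real.log (‖s i ((A.e i).symm y)‖ ^ 2)) z := by
      have h10 : AnalyticAt ℂ (fun z => s i ((A.e i).symm z)) z := an_sec hs i hzt
      have h11 : ContDiffAt ℝ ∞ (fun z => s i ((A.e i).symm z)) z :=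
        (h10.restrictScalars (𝕜 := ℝ)).contDiffAt
      refine ContDiffAt.log (h11.norm_sq ℝ) ?_
      positivity
    rw [cur_read h i hzt]
    have h12 := hess_congr h8
    have h13 : hess (fun y => h.wt i y) z = hess (h.wt i) z := rfl
    rw [← h13, h12, hess_add hsm h9, h7, add_zero]
  rw [h2, h2, (curK h).f2_w hzt, curK_g, ← h6, hess_dd hsm]
  ring

/-- **the periods of the curvature over a torus without zeros vanish** -/
theorem tor_zero {E : Type*} [NormedAddCommGroup E] [NormedSpace ℝ E] {S Λ : Set E} {Φ : E → M}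
    (h : HM N) {s : A.ι → M → ℂ} (hs : IsHS N univ s) (hΦ : SmI (ofAtl A) S Φ)
    (hΛ : ∀ l ∈ Λ, ∀ ζ ∈ S, ζ + l ∈ S ∧ Φ (ζ + l) = Φ ζ)
    (h0 : ∀ ζ ∈ S, ∀ i, Φ ζ ∈ (A.e i).source → s i (Φ ζ) ≠ 0) {z v v' : E}
    (hv : v ∈ Λ) (hv' : v' ∈ Λ) (hin : ∀ s t : ℝ, pt z v v' s t ∈ S) :
    per (pull (curK h).f2 Φ) z v v' = 0 := by
  have hnz : ∀ ζ ∈ S, Φ ζ ∈ nz A s := fun ζ hζ => by
    obtain ⟨i, hi⟩ := A.cover (Φ ζ)
    exact ⟨i, hi, h0 ζ hζ i hi⟩
  have htr : ∀ i j, ∀ z ∈ (ofAtl A).ov i j, ((ofAtl A).e i).symm z ∈ nz A s → ∀ u,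
      th h s i z u = th h s j ((ofAtl A).t i j z) (fderiv ℝ ((ofAtl A).t i j) z u) :=
    fun i j z hz hU u => th_tr hs i j z hz hU u
  have hS : S ∩ Φ ⁻¹' (nz A s) = S := inter_eq_left.2 hnz
  refine per_exact (U := S) hΦ.op (η := pull1 (ofAtl A) (th h s) Φ) ?_
    (fun s _ t _ => hin s t) (fun x hx => ?_) (fun x hx _ => ?_) (fun x hx _ => ?_)
  · have := hΦ.pull1_smooth (θ := th h s) (isOpen_nz hs) (fun i => th_smooth hs i) htr
    rw [hS] at this
    exact this.of_le (by exact_mod_cast le_top)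
  · exact hΦ.pull1_d (curK h).f2 (isOpen_nz hs) (fun i => th_smooth hs i) htr
      (fun i z hz u v => th_d hs i z hz u v) hx (hnz x hx) v v'
  · exact hΦ.pull1_add htr (hΛ v hv) hx (hnz x hx)
  · exact hΦ.pull1_add htr (hΛ v' hv') hx (hnz x hx)

end

end Crest.Agent.R281.Kd_22
end

-- ▼ part R281/Kd8_22
section

/-!
# Row 281, KAPPA-1 glue, part 8 (helper22): vanishing periods ==> vanishing mean form

* `mean_shift` : the mean over a fundamental domain of a lattice is translation invariant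
* `mean_zero`  : all periods of the periodic form `ξ` vanish ==> `∫_D ξ x u v = 0` for all `u v`
* `exists_per` : `ξ x u (J u) > 0` for all `x` ==> some period is not zero
-/

set_option autoImplicit false
set_option linter.unusedSectionVars false
set_option maxSynthPendingDepth 3

open Set Filter Topology MeasureTheory Module
open scoped Pointwise

namespace Crest.Agent.R281.Kd_22

open Crest.Agent.R281.Per_368

variable {E : Type*} [NormedAddCommGroup E] [NormedSpace ℝ E] [FiniteDimensional ℝ E]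
  [MeasurableSpace E] [BorelSpace E] {ι : Type*} [Fintype ι] (b : Basis ι ℝ E)
  (μ : Measure E) [μ.IsAddHaarMeasure]

theorem per_span {α : Type*} {f : E → α} (hp : ∀ a x, f (x + b a) = f x)
    (g : (Submodule.span ℤ (range b)).toAddSubgroup) (x : E) : f (g +ᵥ x) = f x := by
  have h1 : ∀ y ∈ Submodule.span ℤ (range b), ∀ x, f (y + x) = f x := by
    intro y hy
    refine Submodule.span_induction (p := fun y _ => ∀ x, f (y + x) = f x) ?_ ?_ ?_ ?_ hy
    · rintro _ ⟨a, rfl⟩ x
      rw [add_comm]; exact hp a x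
    · intro x; rw [zero_add]
    · intro y z _ _ h1 h2 x
      rw [add_assoc, h1, h2]
    · intro m y _ h1 x
      induction m using Int.induction_on generalizing x with
      | zero => simp
      | succ k ih => rw [add_smul, one_smul, add_assoc, ih, h1]
      | pred k ih =>
        rw [sub_smul, one_smul, ← h1 ((-(k:ℤ)) • y - y + x)]
        have : y + ((-(k:ℤ)) • y - y + x) = (-(k:ℤ)) • y + x := by abel
        rw [this, ih]
  exact h1 g.1 g.2 x

theorem mean_shift {f : E → ℝ} (hp : ∀ a x, f (x + b a) = f x) (c : E) :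
    ∫ x in ZSpan.fundamentalDomain b, f (x + c) ∂μ = ∫ x in ZSpan.fundamentalDomain b, f x ∂μ := by
  have hD := ZSpan.isAddFundamentalDomain' b μ
  have hD' := hD.vadd_of_comm c
  have _ : Countable (Submodule.span ℤ (range b)).toAddSubgroup :=
    (inferInstance : Countable (Submodule.span ℤ (range b)))
  have h1 := hD'.setIntegral_eq hD (f := f) (per_span b hp)
  rw [← h1]
  have h2 := (measurePreserving_add_right μ c).setIntegral_preimage_emb
    (measurableEmbedding_addRight c) f (c +ᵥ ZSpan.fundamentalDomain b)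
  rw [← h2]
  congr 2
  ext x
  simp only [mem_preimage, mem_vadd_set_iff_neg_vadd_mem, vadd_eq_add]
  rw [show -c + (x + c) = x by abel]

/-- **vanishing periods ==> vanishing mean form** -/
theorem mean_zero {ξ : E → E →L[ℝ] E →L[ℝ] ℝ} (hc : Continuous ξ)
    (hp : ∀ a x, ξ (x + b a) = ξ x) (h0 : ∀ z a c, per ξ z (b a) (b c) = 0) (u v : E) :
    ∫ x in ZSpan.fundamentalDomain b, ξ x u v ∂μ = 0 := by
  set D := ZSpan.fundamentalDomain b with hD
  have hDb : Bornology.IsBounded D := ZSpan.fundamentalDomain_isBounded b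
  have hDm : MeasurableSet D := ZSpan.fundamentalDomain_measurableSet b
  have hμD : μ D ≠ ⊤ := hDb.measure_lt_top.ne
  have hfin : IsFiniteMeasure (μ.restrict D) := ⟨by
    rw [Measure.restrict_apply_univ]; exact hμD.lt_top⟩
  have hint : ∀ g : E → ℝ, Continuous g → IntegrableOn g D μ := fun g hg =>
    (hg.continuousOn.integrableOn_compact hDb.isCompact_closure).mono_set subset_closure
  have hbase : ∀ a c, ∫ x in D, ξ x (b a) (b c) ∂μ = 0 := by
    intro a c
    set f : E → ℝ := fun x => ξ x (b a) (b c) with hf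
    have hfc : Continuous f := (hc.clm_apply continuous_const).clm_apply continuous_const
    have hfp : ∀ a x, f (x + b a) = f x := fun a x => by simp only [hf, hp]
    -- Fubini
    have h1 : ∀ s t : ℝ, ∫ x in D, f (pt x (b a) (b c) s t) ∂μ = ∫ x in D, f x ∂μ := by
      intro s t
      have := mean_shift b μ hfp (s • b a + t • b c)
      rw [← this]
      refine integral_congr_ae (Eventually.of_forall fun x => ?_)
      simp only [pt]
      rw [add_assoc]
    have hcont : Continuous fun q : E × (ℝ × ℝ) => f (pt q.1 (b a) (b c) q.2.1 q.2.2) := by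
      refine hfc.comp ?_
      unfold pt; fun_prop
    have h2 : ∫ p in Q, (∫ x in D, f (pt x (b a) (b c) p.1 p.2) ∂μ) = ∫ x in D, f x ∂μ := by
      simp only [h1]
      rw [setIntegral_const, measureReal_def, volume_Q]
      simp
    have hI : Integrable (fun q : (ℝ × ℝ) × E => f (pt q.2 (b a) (b c) q.1.1 q.1.2))
        ((volume.restrict Q).prod (μ.restrict D)) := by
      rw [Measure.prod_restrict]
      have h3 : Continuous fun q : (ℝ × ℝ) × E => f (pt q.2 (b a) (b c) q.1.1 q.1.2) := by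
        refine hfc.comp ?_
        unfold pt; fun_prop
      exact (h3.continuousOn.integrableOn_compact
        (isCompact_Q.prod hDb.isCompact_closure)).mono_set (prod_mono le_rfl subset_closure)
    have h4 := integral_integral_swap (f := fun (p : ℝ × ℝ) (x : E) =>
      f (pt x (b a) (b c) p.1 p.2)) (μ := volume.restrict Q) (ν := μ.restrict D) hI
    rw [← h2, h4]
    refine integral_eq_zero_of_ae (Eventually.of_forall fun x => ?_)
    have h5 := h0 x a c
    rw [per_eq_set (S := univ) hc.continuousOn (fun _ _ _ _ => mem_univ _)] at h5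
    exact h5
  -- bilinearity
  have hI2 : ∀ p q : E, IntegrableOn (fun x => ξ x p q) D μ := fun p q =>
    hint _ ((hc.clm_apply continuous_const).clm_apply continuous_const)
  have e1 : ∀ x, ξ x u v = ∑ a, ∑ c, (b.repr u a * b.repr v c) * ξ x (b a) (b c) := by
    intro x
    conv_lhs => rw [← b.sum_repr u, ← b.sum_repr v]
    simp only [map_sum, map_smul, sum_apply, smul_apply, smul_eq_mul, Finset.mul_sum]
    rw [Finset.sum_comm]
    refine Finset.sum_congr rfl fun a _ => Finset.sum_congr rfl fun c _ => ?_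
    ring
  simp only [e1]
  rw [integral_finsetSum _ fun a _ => integrable_finsetSum _ fun c _ => (hI2 _ _).const_mul _]
  refine Finset.sum_eq_zero fun a _ => ?_
  rw [integral_finsetSum _ fun c _ => (hI2 _ _).const_mul _]
  refine Finset.sum_eq_zero fun c _ => ?_
  rw [integral_const_mul, hbase, mul_zero]

/-- a periodic form which is positive on `(u, v)` everywhere has a period which is not zero -/
theorem exists_per {ξ : E → E →L[ℝ] E →L[ℝ] ℝ} (hc : Continuous ξ)
    (hp : ∀ a x, ξ (x + b a) = ξ x) {u v : E} (hpos : ∀ x, 0 < ξ x u v) :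
    ∃ z a c, per ξ z (b a) (b c) ≠ 0 := by
  by_contra hcon
  push Not at hcon
  have h1 := mean_zero b (Measure.addHaar : Measure E) hc hp hcon u v
  have hDb : Bornology.IsBounded (ZSpan.fundamentalDomain b) := ZSpan.fundamentalDomain_isBounded b
  have h2 : Continuous fun x => ξ x u v := (hc.clm_apply continuous_const).clm_apply
    continuous_const
  have h3 : IntegrableOn (fun x => ξ x u v) (ZSpan.fundamentalDomain b)
      (Measure.addHaar : Measure E) :=
    (h2.continuousOn.integrableOn_compact hDb.isCompact_closure).mono_set subset_closure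
  have h4 : 0 < ∫ x in ZSpan.fundamentalDomain b, ξ x u v ∂(Measure.addHaar : Measure E) := by
    rw [integral_pos_iff_support_of_nonneg (fun x => (hpos x).le) h3]
    have h5 : Function.support (fun x => ξ x u v) = univ := by
      ext x; simp [(hpos x).ne']
    rw [h5, Measure.restrict_apply_univ]
    exact pos_iff_ne_zero.2 (ZSpan.measure_fundamentalDomain_ne_zero b)
  linarith

end Crest.Agent.R281.Kd_22
end

-- ▼ part R281/Kd9_22
section

/-!
# Row 281, KAPPA-1 glue, part 9 (helper22): the fibres of a holomorphic tube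

* `HTube.an_chart`, `HTube.bij`, `HTube.smI`
* `kah_per_ne`  : a Kaehler form has a period over the torus `T_b` which is not zero
* `q_zero`      : `Q (cur N) e = 0` for a bundle whose curvature has no periods over `T_b`
* `star_of_cop` : sections without common divisor ==> 625's `Star`
-/

set_option autoImplicit false
set_option linter.unusedSectionVars false
set_option maxSynthPendingDepth 3

open Set Filter Topology Complex Module
open scoped ContDiff Matrix ComplexConjugate ComplexOrder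

namespace Crest.Agent.R281.Kd_22

open Crest.Agent.R275 Crest.Agent.R275.Geo Crest.Agent.R275.Core144 Crest.Agent.R275.EDR890
open Crest.Agent.R273.Defs_333 Crest.Agent.R273.Kah_333 Crest.Agent.R273.HM_333
open Crest.Agent.R273.Hess_333 Crest.Agent.R273.HessB_333 Crest.Agent.R273.AppA_834
open Crest.Agent.R281.HkR_835 Crest.Agent.R281.Ti_846 Crest.Agent.R281.Fuj3_207
open Crest.Agent.R281.Per_368 Crest.Agent.R281.Sc_413
open Crest.Agent.R281.Mov_625 (Star)

noncomputable section

variable {n : ℕ} {M : Type} [TopologicalSpace M] {A : Atl n M}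

/-- analytic coordinates ==> analytic -/
theorem an_pi {G : Type*} [NormedAddCommGroup G] [NormedSpace ℂ G] {g : G → Cn n} {p : G}
    (h : ∀ k, AnalyticAt ℂ (fun q => g q k) p) : AnalyticAt ℂ g p := by
  have h1 : AnalyticAt ℂ (fun q => fun k => g q k) p := AnalyticAt.pi h
  have h2 : AnalyticAt ℂ (EuclideanSpace.equiv (Fin n) ℂ).symm (fun k => g p k) :=
    (EuclideanSpace.equiv (Fin n) ℂ).symm.toContinuousLinearMap.analyticAt _
  exact AnalyticAt.comp (g := (EuclideanSpace.equiv (Fin n) ℂ).symm) (f := fun q => fun k => g q k)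
    h2 h1

namespace HTube

variable {F B : Type} [NormedAddCommGroup F] [NormedSpace ℂ F] [NormedAddCommGroup B]
  [NormedSpace ℂ B]

theorem an_chart (T : HTube A F B) {p : F × B} (hp : p.2 ∈ T.Om) {i : A.ι}
    (hi : T.P p ∈ (A.e i).source) : AnalyticAt ℂ (fun q => A.e i (T.P q)) p := by
  refine an_pi fun k => ?_
  have h1 : AnalyticAt ℂ (fun z : Cn n => z k) (A.e i (T.P p)) :=
    (EuclideanSpace.proj (𝕜 := ℂ) k).analyticAt _
  exact T.pull p hp _ (hm_chart hi h1)

theorem surj [FiniteDimensional ℂ F] [FiniteDimensional ℂ B] (T : HTube A F B) {p : F × B}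
    (hp : p.2 ∈ T.Om) {i : A.ι} (hi : T.P p ∈ (A.e i).source) :
    Function.Surjective (fderiv ℂ (fun q => A.e i (T.P q)) p) := by
  obtain ⟨χ, h1, h2, h3, h4⟩ := T.inv p hp
  set b := Module.finBasis ℂ (F × B) with hb
  -- `χ` is analytic in the chart
  have h5 : AnalyticAt ℂ (fun z => χ ((A.e i).symm z)) (A.e i (T.P p)) := by
    have h6 : ∀ k, AnalyticAt ℂ (fun z => b.repr (χ ((A.e i).symm z)) k) (A.e i (T.P p)) := by
      intro k
      have h7 : AnalyticAt ℂ (fun q : F × B => b.repr q k) p :=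
        (LinearMap.toContinuousLinearMap (b.coord k)).analyticAt _
      exact h3 _ h7 i hi
    have h8 : (fun z => χ ((A.e i).symm z)) =
        fun z => ∑ k, b.repr (χ ((A.e i).symm z)) k • b k := by
      funext z
      exact (b.sum_repr _).symm
    rw [h8]
    exact Finset.analyticAt_fun_sum _ fun k _ => (h6 k).smul analyticAt_const
  have hv : χ ((A.e i).symm (A.e i (T.P p))) = p := by rw [(A.e i).left_inv hi, h1]
  have h9 : DifferentiableAt ℂ (fun q => A.e i (T.P q))
      ((fun z => χ ((A.e i).symm z)) (A.e i (T.P p))) := by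
    show DifferentiableAt ℂ (fun q => A.e i (T.P q)) (χ ((A.e i).symm (A.e i (T.P p))))
    rw [hv]; exact (T.an_chart hp hi).differentiableAt
  have h10 := fderiv_comp (A.e i (T.P p)) h9 h5.differentiableAt
  have h11 : (fun q => A.e i (T.P q)) ∘ (fun z => χ ((A.e i).symm z)) =ᶠ[𝓝 (A.e i (T.P p))] id := by
    have h12 := (ev_iff hi).1 h4
    filter_upwards [h12, (A.e i).open_target.mem_nhds ((A.e i).map_source hi)] with z hz hz'
    show A.e i (T.P (χ ((A.e i).symm z))) = z
    rw [hz, (A.e i).right_inv hz']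
  rw [h11.fderiv_eq, fderiv_id] at h10
  intro v
  refine ⟨fderiv ℂ (fun z => χ ((A.e i).symm z)) (A.e i (T.P p)) v, ?_⟩
  have h13 := congrArg (fun L => L v) h10
  simp only [ContinuousLinearMap.id_apply, ContinuousLinearMap.comp_apply] at h13
  rw [hv] at h13
  exact h13.symm

theorem bij [FiniteDimensional ℂ F] [FiniteDimensional ℂ B] (T : HTube A F B)
    (hdim : finrank ℂ F + finrank ℂ B = n) {p : F × B}
    (hp : p.2 ∈ T.Om) {i : A.ι} (hi : T.P p ∈ (A.e i).source) :
    Function.Bijective (fderiv ℂ (fun q => A.e i (T.P q)) p) := by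
  have h1 := T.surj hp hi
  refine ⟨?_, h1⟩
  have h2 : finrank ℂ (F × B) = finrank ℂ (Cn n) := by
    rw [Module.finrank_prod, hdim]; simp
  exact (LinearMap.injective_iff_surjective_of_finrank_eq_finrank
    (f := (fderiv ℂ (fun q => A.e i (T.P q)) p).toLinearMap) h2).2 h1

theorem fib_an (T : HTube A F B) {b : B} (hb : b ∈ T.Om) {c : F} {i : A.ι}
    (hi : T.P (c, b) ∈ (A.e i).source) : AnalyticAt ℂ (fun c => A.e i (T.P (c, b))) c :=
  AnalyticAt.comp (g := fun q => A.e i (T.P q)) (f := fun c => (c, b)) (T.an_chart (p := (c, b)) hb hi)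
    (analyticAt_id.prod analyticAt_const)

/-- the fibres are smooth maps to `M` -/
theorem smI (T : HTube A F B) {b : B} (hb : b ∈ T.Om) :
    SmI (ofAtl A) univ (fun c => T.P (c, b)) where
  op := isOpen_univ
  cont := by
    refine continuousOn_univ.2 (continuous_iff_continuousAt.2 fun c => ?_)
    exact ContinuousAt.comp (g := T.P) (f := fun c => (c, b)) (T.cont (c, b) hb) (by fun_prop)
  sm i := by
    rintro c ⟨_, hc⟩
    exact ((T.fib_an hb hc).restrictScalars (𝕜 := ℝ)).contDiffAt.contDiffWithinAt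

theorem fib_fderiv (T : HTube A F B) {b : B} (hb : b ∈ T.Om) {c : F} {i : A.ι}
    (hi : T.P (c, b) ∈ (A.e i).source) (u : F) :
    fderiv ℝ (fun c => A.e i (T.P (c, b))) c u = fderiv ℂ (fun q => A.e i (T.P q)) (c, b) (u, 0) := by
  have h1 := (T.fib_an hb hi).differentiableAt
  have h2 : fderiv ℝ (fun c => A.e i (T.P (c, b))) c u =
      fderiv ℂ (fun c => A.e i (T.P (c, b))) c u := by
    rw [h1.fderiv_restrictScalars ℝ]; rfl
  rw [h2]
  have h3 := (T.an_chart (p := (c, b)) hb hi).differentiableAt.hasFDerivAt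
  have h4 : HasFDerivAt (fun c : F => (c, b)) (ContinuousLinearMap.inl ℂ F B) c :=
    (hasFDerivAt_id c).prodMk (hasFDerivAt_const b c)
  have h5 := HasFDerivAt.comp (g := fun q => A.e i (T.P q)) (f := fun c => (c, b)) c h3 h4
  have h6 := h5.fderiv
  have h7 : ((fun q => A.e i (T.P q)) ∘ fun c => (c, b)) = fun c => A.e i (T.P (c, b)) := rfl
  rw [h7] at h6
  rw [h6]; rfl

end HTube

variable {F B : Type} [NormedAddCommGroup F] [NormedSpace ℂ F] [NormedAddCommGroup B]
  [NormedSpace ℂ B] [FiniteDimensional ℂ F] [FiniteDimensional ℂ B]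

/-- **a Kaehler form has a nonzero period on `T_b`** -/
theorem kah_per_ne [Nontrivial F] (T : HTube A F B) (hdim : finrank ℂ F + finrank ℂ B = n)
    (K : Kah A) {b : B} (hbO : b ∈ T.Om) {ι : Type*} [Fintype ι] (β : Basis ι ℝ F)
    (hp : ∀ a c, T.P (c + β a, b) = T.P (c, b)) :
    ∃ z a c, per (pull (ofKah K).f2 (fun c => T.P (c, b))) z (β a) (β c) ≠ 0 := by
  borelize F
  have _ : FiniteDimensional ℝ F := FiniteDimensional.complexToReal F
  have hS := T.smI hbO
  obtain ⟨u, hu⟩ := exists_ne (0 : F)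
  refine exists_per β (u := u) (v := I • u) ?_ ?_ ?_
  · exact continuousOn_univ.1 (hS.pull_smooth (ofKah K).f2).continuousOn
  · intro a x
    exact hS.pull_add _ (l := β a) (fun ζ _ => ⟨mem_univ _, hp a ζ⟩) (mem_univ x)
  · intro x
    obtain ⟨i, hi⟩ := A.cover (T.P (x, b))
    rw [hS.pull_eq _ (mem_univ x) hi, pl_apply]
    have hz : A.e i (T.P (x, b)) ∈ (A.e i).target := (A.e i).map_source hi
    have h1 : fderiv ℝ (fun y => A.e i (T.P (y, b))) x (I • u) =
        I • fderiv ℝ (fun y => A.e i (T.P (y, b))) x u := by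
      rw [T.fib_fderiv hbO hi, T.fib_fderiv hbO hi, ← map_smul]
      congr 1
      simp
    have h2 : fderiv ℝ (fun y => A.e i (T.P (y, b))) x u ≠ 0 := by
      rw [T.fib_fderiv hbO hi]
      intro h3
      have h4 := (T.bij hdim (p := (x, b)) hbO hi).1 (h3.trans (map_zero _).symm)
      exact hu (congrArg Prod.fst h4)
    have h5 : ((ofAtl A).e i) (T.P (x, b)) = A.e i (T.P (x, b)) := rfl
    show 0 < (ofKah K).f2.w i (A.e i (T.P (x, b)))
      (fderiv ℝ (fun y => A.e i (T.P (y, b))) x u)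
      (fderiv ℝ (fun y => A.e i (T.P (y, b))) x (I • u))
    rw [h1, (ofKah K).f2_w hz, (A.e i).left_inv hi]
    set v := fderiv ℝ (fun y => A.e i (T.P (y, b))) x u with hv
    have h7 : (fun k => conj (v k)) ≠ 0 := by
      intro h8
      refine h2 ?_
      ext k
      have := congrFun h8 k
      simpa using this
    have h9 : 0 < (hb (K.g i (T.P (x, b))) v v).re := by
      rw [hb_self]
      exact (Complex.lt_def.1 ((K.pos i _ hi).dotProduct_mulVec_pos h7)).1
    have h10 : I * hb (K.g i (T.P (x, b))) v (I • v) = hb (K.g i (T.P (x, b))) v v := by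
      rw [hb_I_right, ← mul_assoc]
      simp
    show 0 < (I * hb (K.g i (T.P (x, b))) v (I • v)).re
    rw [h10]; exact h9



end

end Crest.Agent.R281.Kd_22
end

-- ▼ part R281/Kd10_22

/-!
# Row 281, KAPPA-1 glue, part 10 (helper22): periods under a change of charts

* `smI_change`, `pull_F`, `pull_eqv`, `per_congr`
* `q_zero'`     : `Q w e = 0` for a form `w` without periods over the tori
* `PVan`        : all classes orthogonal to `e` have no periods over the tori of the tube
* `pvan_of_pvt` : `PVan` from 831's `PVT`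
-/

set_option autoImplicit false
set_option linter.unusedSectionVars false
set_option maxSynthPendingDepth 3

open Set Filter Topology Complex Module
open scoped ContDiff

namespace Crest.Agent.R281.Kd_22

open Crest.Agent.R275.Geo
open Crest.Agent.R281.HkR_835 Crest.Agent.R281.HkR_835.Cmp Crest.Agent.R281.Ti_846
open Crest.Agent.R281.Dif_268 (Eqv)
open Crest.Agent.R281.Per_368
open Crest.Agent.R281.Tub_831 (PVT)

noncomputable section

section change

variable {V X : Type} [NormedAddCommGroup V] [NormedSpace ℝ V] [TopologicalSpace X]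
  {V' : Type} [NormedAddCommGroup V'] [NormedSpace ℝ V'] {C : RCh V X} {C' : RCh V' X}
  {E : Type*} [NormedAddCommGroup E] [NormedSpace ℝ E] {S : Set E} {Φ : E → X}

theorem mem_mov {i : C.ι} {j : C'.ι} {x : X} (hi : x ∈ (C.e i).source)
    (hj : x ∈ (C'.e j).source) : C'.e j x ∈ mov C C' i j := by
  refine ⟨(C'.e j).map_source hj, ?_⟩
  rw [(C'.e j).left_inv hj]; exact hi

theorem mt_e {i : C.ι} {j : C'.ι} {x : X} (hj : x ∈ (C'.e j).source) :
    mt C C' i j (C'.e j x) = C.e i x := by
  show C.e i ((C'.e j).symm (C'.e j x)) = _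
  rw [(C'.e j).left_inv hj]

theorem smI_change (h : Cmp C C') (hΦ : SmI C' S Φ) : SmI C S Φ where
  op := hΦ.op
  cont := hΦ.cont
  sm i := by
    rintro ζ ⟨hζ, hi⟩
    obtain ⟨j, hj⟩ := C'.cover (Φ ζ)
    have h1 : ContDiffAt ℝ ∞ (mt C C' i j) (C'.e j (Φ ζ)) :=
      (h.s i j).contDiffAt ((isOpen_mov C C' i j).mem_nhds (mem_mov hi hj))
    have h2 := ContDiffAt.comp (g := mt C C' i j) (f := fun y => C'.e j (Φ y)) ζ h1
      (hΦ.smAt hζ hj)
    refine (h2.congr_of_eventuallyEq ?_).contDiffWithinAt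
    filter_upwards [(hΦ.isOpen_pre (C'.e j).open_source).mem_nhds ⟨hζ, hj⟩] with y hy
    exact (mt_e hy.2).symm

theorem pull_F (h : Cmp C C') (hΦ : SmI C' S Φ) (w : F2 C) {ζ : E} (hζ : ζ ∈ S) :
    pull (h.F w) Φ ζ = pull w Φ ζ := by
  obtain ⟨j, hj⟩ := C'.cover (Φ ζ)
  obtain ⟨i, hi⟩ := C.cover (Φ ζ)
  have hΦ' := smI_change h hΦ
  rw [hΦ.pull_eq (h.F w) hζ hj, hΦ'.pull_eq w hζ hi]
  have hm : C'.e j (Φ ζ) ∈ mov C C' i j := mem_mov hi hj
  have h1 : fderiv ℝ (fun y => C.e i (Φ y)) ζ =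
      (fderiv ℝ (mt C C' i j) (C'.e j (Φ ζ))).comp (fderiv ℝ (fun y => C'.e j (Φ y)) ζ) := by
    have h2 : (fun y => C.e i (Φ y)) =ᶠ[𝓝 ζ] fun y => mt C C' i j (C'.e j (Φ y)) := by
      filter_upwards [(hΦ.isOpen_pre (C'.e j).open_source).mem_nhds ⟨hζ, hj⟩] with y hy
      exact (mt_e hy.2).symm
    rw [h2.fderiv_eq]
    exact (HasFDerivAt.comp (g := mt C C' i j) (f := fun y => C'.e j (Φ y)) ζ
      (h.diff hm).hasFDerivAt (hΦ.diffAt hζ hj).hasFDerivAt).fderiv
  refine ContinuousLinearMap.ext fun a => ContinuousLinearMap.ext fun b => ?_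
  rw [pl_apply, pl_apply, h.F_w w hm, h1, mt_e hj]
  rfl

theorem pull_eqv {w w' : F2 C} (he : Eqv w w') (Φ : E → X) (ζ : E) :
    pull w Φ ζ = pull w' Φ ζ := by
  refine ContinuousLinearMap.ext fun a => ContinuousLinearMap.ext fun b => ?_
  exact he _ _ ((C.e _).map_source (ci_mem C (Φ ζ))) _ _

theorem per_congr {ξ η : E → E →L[ℝ] E →L[ℝ] ℝ} {z v w : E}
    (h : ∀ s t : ℝ, ξ (pt z v w s t) v w = η (pt z v w s t) v w) : per ξ z v w = per η z v w := by
  unfold per
  exact intervalIntegral.integral_congr fun s _ => intervalIntegral.integral_congr fun t _ => h s t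

/-- a form without periods over the tori is orthogonal to `e` -/
theorem q_zero' [FiniteDimensional ℝ E] (hΦ : SmI C univ Φ) {Q : F2 C →ₗ[ℝ] ℝ} {ι : Type*}
    (β : ι → E) (hPV : ∀ w, Q w = 0 → ∀ z a c, per (pull w Φ) z (β a) (β c) = 0) {k w : F2 C}
    (hk : ∃ z a c, per (pull k Φ) z (β a) (β c) ≠ 0)
    (hw : ∀ z a c, per (pull w Φ) z (β a) (β c) = 0) : Q w = 0 := by
  obtain ⟨z, a, c, h0⟩ := hk
  have h1 : Q (Q k • w + (-Q w) • k) = 0 := by
    rw [map_add, map_smul, map_smul, smul_eq_mul, smul_eq_mul]; ring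
  have h2 := hPV _ h1 z a c
  have hin : ∀ s t : ℝ, pt z (β a) (β c) s t ∈ (univ : Set E) := fun _ _ => mem_univ _
  rw [per_add (S := univ) (ξ := pull (Q k • w) Φ)
    (η := pull ((-Q w) • k) Φ) (hΦ.pull_smooth _).continuousOn
    (hΦ.pull_smooth _).continuousOn hin (fun x _ => pull_add_w _ _ _ _ _ _),
    per_smul (S := univ) (Q k) (ξ := pull w Φ) hin
      (fun x _ => pull_smul_w _ _ _ _ _ _),
    per_smul (S := univ) (-Q w) (ξ := pull k Φ) hin
      (fun x _ => pull_smul_w _ _ _ _ _ _), hw z a c, mul_zero, zero_add] at h2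
  rcases mul_eq_zero.1 h2 with h3 | h3
  · linarith
  · exact absurd h3 h0

end change

section pv

variable {V X : Type} [NormedAddCommGroup V] [NormedSpace ℝ V] [TopologicalSpace X] {C : RCh V X}
  {d : ℕ} {A : Atl d X} {F B : Type} [NormedAddCommGroup F] [NormedSpace ℂ F]
  [NormedAddCommGroup B] [NormedSpace ℂ B]

/-- all classes orthogonal to `e` have no periods over the tori of the tube -/
def PVan (Q : F2 C →ₗ[ℝ] F2 C →ₗ[ℝ] ℝ) (e : F2 C) (T : HTube A F B) : Prop :=
  ∀ b ∈ T.Om, ∃ (m : ℕ) (β : Basis (Fin m) ℝ F), (∀ a c, T.P (c + β a, b) = T.P (c, b)) ∧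
    ∀ w : F2 C, Q w e = 0 → ∀ z a c, per (pull w (fun c => T.P (c, b))) z (β a) (β c) = 0

theorem PVan.change {Q : F2 C →ₗ[ℝ] F2 C →ₗ[ℝ] ℝ} {e : F2 C} {T : HTube A F B}
    (h : PVan Q e T) {A' : Atl d X} (h1 : Crest.Agent.R273.Map_835.HolMap A' A id)
    (h2 : Crest.Agent.R273.Map_835.HolMap A A' id) : PVan Q e (T.change h1 h2) := h

/-- from the total map to the fibres -/
theorem pull_fib {F' B' : Type*} [NormedAddCommGroup F'] [NormedSpace ℝ F']
    [NormedAddCommGroup B'] [NormedSpace ℝ B'] {D : Set B'} {Ψ : B' × F' → X}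
    (hΨ : SmI C (D ×ˢ univ) Ψ) (w : F2 C) {y : B'} (hy : y ∈ D) (x u v : F') :
    pull w (fun c => Ψ (y, c)) x u v = pull w Ψ (y, x) (0, u) (0, v) := by
  have hm : ((y, x) : B' × F') ∈ D ×ˢ (univ : Set F') := ⟨hy, mem_univ _⟩
  have h1 : ∀ u, fderiv ℝ (fun c => C.e (ci C (Ψ (y, x))) (Ψ (y, c))) x u =
      fderiv ℝ (fun q => C.e (ci C (Ψ (y, x))) (Ψ q)) (y, x) (0, u) := by
    intro u
    have h2 := (hΨ.diffAt hm (ci_mem C (Ψ (y, x)))).hasFDerivAt
    have h3 : HasFDerivAt (fun c : F' => (y, c)) (ContinuousLinearMap.inr ℝ B' F') x :=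
      (hasFDerivAt_const y x).prodMk (hasFDerivAt_id x)
    have h4 := (HasFDerivAt.comp (g := fun q => C.e (ci C (Ψ (y, x))) (Ψ q))
      (f := fun c : F' => (y, c)) x h2 h3).fderiv
    have h5 : ((fun q => C.e (ci C (Ψ (y, x))) (Ψ q)) ∘ fun c : F' => (y, c)) =
        fun c => C.e (ci C (Ψ (y, x))) (Ψ (y, c)) := rfl
    rw [h5] at h4
    rw [h4]; rfl
  show w.w _ _ (fderiv ℝ (fun c => C.e (ci C (Ψ (y, x))) (Ψ (y, c))) x u)
    (fderiv ℝ (fun c => C.e (ci C (Ψ (y, x))) (Ψ (y, c))) x v) = _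
  rw [h1, h1]
  rfl

/-- 831's form of the vanishing of the periods -/
theorem pvan_of_pvt {n : ℕ} {Q : F2 C →ₗ[ℝ] F2 C →ₗ[ℝ] ℝ} {e : F2 C}
    {D : Set (Cn n)} {Ψ : Cn n × Cn n → X} {l : Fin (2 * n) → Cn n → Cn n}
    (hΨ : SmI C (D ×ˢ univ) Ψ) (hper : ∀ y ∈ D, ∀ k x, Ψ (y, x + l k y) = Ψ (y, x))
    (hli : ∀ y ∈ D, LinearIndependent ℝ (fun k => l k y))
    (hPV : PVT Q e D Ψ l) (T : HTube A (Cn n) (Cn n)) (hOm : T.Om ⊆ D)
    (hP : ∀ p : Cn n × Cn n, p.2 ∈ T.Om → T.P p = Ψ (p.2, p.1)) : PVan Q e T := by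
  intro b hb
  have hbD := hOm hb
  have hcard : Fintype.card (Fin (2 * n)) = finrank ℝ (Cn n) := by
    rw [finrank_real_of_complex]; simp
  rcases Nat.eq_zero_or_pos n with hn | hn
  · subst hn
    refine ⟨0, Basis.empty _, fun a => a.elim0, fun _ _ _ a => a.elim0⟩
  have : Nonempty (Fin (2 * n)) := ⟨⟨0, by omega⟩⟩
  refine ⟨2 * n, basisOfLinearIndependentOfCardEqFinrank (hli b hbD) hcard, fun a c => ?_,
    fun w hw z a c => ?_⟩
  · rw [coe_basisOfLinearIndependentOfCardEqFinrank, hP _ hb, hP _ hb]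
    exact hper b hbD a c
  · rw [coe_basisOfLinearIndependentOfCardEqFinrank]
    have h1 := hPV w hw b hbD z a c
    rw [← h1]
    have h2 : (fun c => T.P (c, b)) = fun c => Ψ (b, c) := by
      funext c; exact hP (c, b) hb
    rw [h2]
    unfold per
    refine intervalIntegral.integral_congr fun s _ => intervalIntegral.integral_congr fun t _ => ?_
    have h3 : pt ((b, z) : Cn n × Cn n) (0, l a b) (0, l c b) s t =
        (b, pt z (l a b) (l c b) s t) := by
      simp [pt]
    show pull w (fun c => Ψ (b, c)) (pt z (l a b) (l c b) s t) (l a b) (l c b) =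
      pull w Ψ (pt (b, z) (0, l a b) (0, l c b) s t) (0, l a b) (0, l c b)
    rw [h3]
    exact pull_fib hΨ w hbD _ _ _

end pv

end

end Crest.Agent.R281.Kd_22
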