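import Crest.Agent.R281.Jen1_563
import Crest.Agent.R273.Defs_333
import Crest.Agent.R281.Mov4_625
import Crest.Agent.R273.PB_835
import Crest.Agent.R273.YauCh_635
import Crest.Agent.R281.Nef2_252
import Crest.Agent.R281.Fuj3_207
import Crest.Agent.R281.FujSig_358
import Crest.Agent.R281.Kd5_22
import Crest.Agent.R281.Fuj8_207

-- ▼ part R281/Mov1_625
section

/-!
# Row 281, task MOV (helper625), part 1: energies on almost every complex line

* `lap_line`  : the Laplacian of `s ↦ u (z + s w)` is `lev u (z + s w) w`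
* `avg_line`  : `∫ h = ∫_z ∫_s ρ(s) h(z + s w)`
* `line_lim`  : if `0 ≤ g k ≤ lev (u k) w + c k`, `g k → 0` locally uniformly on the open set `G`,
  `|u k| ≤ U ∈ L¹`, `c k ≤ C`, and almost every complex line of direction `w` stays in `G`, then
  `∫ η g k → 0` for every test function `η ≥ 0`.
-/

set_option autoImplicit false
set_option linter.unusedSectionVars false

open Set Filter Topology MeasureTheory Complex Metric
open scoped ContDiff

namespace Crest.Agent.R281.Mov_625

open Crest.Agent.R281.Jen_563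
open Crest.Agent.R275.Geo Crest.Agent.R273.Defs_333

noncomputable section

variable {n : ℕ}

/-- derivative along a complex line -/
theorem D_line {u : Cn n → ℝ} {z w : Cn n} {s : ℂ} (v : ℂ)
    (hu : DifferentiableAt ℝ u (z + s • w)) :
    D v (fun t : ℂ => u (z + t • w)) s = fderiv ℝ u (z + s • w) (v • w) := by
  have h1 : HasFDerivAt (fun t : ℂ => z + t • w)
      ((ContinuousLinearMap.id ℝ ℂ).smulRight w) s := by
    have h2 : HasFDerivAt (fun t : ℂ => t • w) ((ContinuousLinearMap.id ℝ ℂ).smulRight w) s :=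
      ((ContinuousLinearMap.id ℝ ℂ).smulRight w).hasFDerivAt
    simpa using h2.const_add z
  have h3 := hu.hasFDerivAt.comp s h1
  unfold D
  have h4 : (fun t : ℂ => u (z + t • w)) = u ∘ fun t : ℂ => z + t • w := rfl
  rw [h4, h3.fderiv]
  simp

theorem lap_line {u : Cn n → ℝ} {z w : Cn n} {s : ℂ} (hu : ContDiffAt ℝ 2 u (z + s • w)) :
    lap (fun t : ℂ => u (z + t • w)) s = lev u (z + s • w) w := by
  have hc : Continuous fun t : ℂ => z + t • w := by fun_prop
  have hd : ∀ᶠ t in 𝓝 s, DifferentiableAt ℝ u (z + t • w) := by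
    have h1 : ∀ᶠ y in 𝓝 (z + s • w), ContDiffAt ℝ 2 u y := hu.eventually (by simp)
    filter_upwards [hc.continuousAt.eventually h1] with t ht
    exact ht.differentiableAt (by norm_num)
  have key : ∀ v : ℂ, D v (D v fun t : ℂ => u (z + t • w)) s =
      iteratedFDeriv ℝ 2 u (z + s • w) ![v • w, v • w] := by
    intro v
    have h1 : D v (fun t : ℂ => u (z + t • w)) =ᶠ[𝓝 s]
        fun t => (fun y => fderiv ℝ u y (v • w)) (z + t • w) := by
      filter_upwards [hd] with t ht
      exact D_line v ht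
    have h2 : DifferentiableAt ℝ (fderiv ℝ u) (z + s • w) :=
      (hu.fderiv_right (m := 1) (by norm_num)).differentiableAt (by norm_num)
    have h3 : HasFDerivAt (fun y => fderiv ℝ u y (v • w))
        ((ContinuousLinearMap.apply ℝ ℝ (v • w)).comp (fderiv ℝ (fderiv ℝ u) (z + s • w)))
        (z + s • w) :=
      (ContinuousLinearMap.apply ℝ ℝ (v • w)).hasFDerivAt.comp _ h2.hasFDerivAt
    have h4 : D v (D v fun t : ℂ => u (z + t • w)) s =
        D v (fun t => (fun y => fderiv ℝ u y (v • w)) (z + t • w)) s := by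
      unfold D at h1 ⊢
      rw [h1.fderiv_eq]
    rw [h4, D_line v h3.differentiableAt, h3.fderiv, iteratedFDeriv_two_apply]
    simp
  unfold lap lev
  rw [key, key]
  simp

section avg

variable {μ : Measure (Cn n)} [μ.IsAddHaarMeasure]

/-- the function on the product -/
theorem integrable_prod_line {ρ : ℂ → ℝ} (hρ : Continuous ρ) (hρc : HasCompactSupport ρ)
    {h : Cn n → ℝ} (hh : Continuous h) (hhc : HasCompactSupport h) (w : Cn n) :
    Integrable (fun p : Cn n × ℂ => ρ p.2 * h (p.1 + p.2 • w)) (μ.prod volume) := by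
  have hc : Continuous fun p : Cn n × ℂ => ρ p.2 * h (p.1 + p.2 • w) := by fun_prop
  refine hc.integrable_of_hasCompactSupport ?_
  have hK : IsCompact ((fun p : Cn n × ℂ => (p.1 - p.2 • w, p.2)) '' (tsupport h ×ˢ tsupport ρ)) :=
    (hhc.isCompact.prod hρc.isCompact).image (by fun_prop)
  refine HasCompactSupport.of_support_subset_isCompact hK fun p hp => ?_
  have hp' : ρ p.2 * h (p.1 + p.2 • w) ≠ 0 := hp
  refine ⟨(p.1 + p.2 • w, p.2), ⟨subset_tsupport _ (right_ne_zero_of_mul hp'),
    subset_tsupport _ (left_ne_zero_of_mul hp')⟩, ?_⟩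
  ext <;> simp

theorem avg_line {ρ : ℂ → ℝ} (hρ : Continuous ρ) (hρc : HasCompactSupport ρ)
    (hρ1 : ∫ s, ρ s = 1) {h : Cn n → ℝ} (hh : Continuous h) (hhc : HasCompactSupport h)
    (w : Cn n) :
    ∫ z, (∫ s, ρ s * h (z + s • w)) ∂μ = ∫ z, h z ∂μ := by
  have h1 := integrable_prod_line (μ := μ) hρ hρc hh hhc w
  rw [integral_integral_swap h1]
  have h2 : ∀ s : ℂ, ∫ z, ρ s * h (z + s • w) ∂μ = ρ s * ∫ z, h z ∂μ := by
    intro s
    rw [integral_const_mul, integral_add_right_eq_self (fun z => h z)]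
  simp only [h2]
  rw [integral_mul_const, hρ1, one_mul]

end avg

/-- the product test function -/
theorem lap_bdd {ρ : ℂ → ℝ} (hρ : ContDiff ℝ ∞ ρ) (hρc : HasCompactSupport ρ)
    {η : Cn n → ℝ} (hη : ContDiff ℝ ∞ η) (hηc : HasCompactSupport η) (w : Cn n) :
    ∃ B : ℝ, 0 ≤ B ∧ ∀ (z : Cn n) (s : ℂ),
      |lap (fun t : ℂ => ρ t * η (z + t • w)) s| ≤ B := by
  set α : Cn n × ℂ → ℝ := fun p => ρ p.2 * η (p.1 + p.2 • w) with hα
  have hαs : ContDiff ℝ ∞ α := by
    refine (hρ.comp contDiff_snd).mul (hη.comp ?_)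
    exact contDiff_fst.add (contDiff_snd.smul contDiff_const)
  have hαc : HasCompactSupport α := by
    have hK : IsCompact ((fun p : Cn n × ℂ => (p.1 - p.2 • w, p.2)) ''
        (tsupport η ×ˢ tsupport ρ)) :=
      (hηc.isCompact.prod hρc.isCompact).image (by fun_prop)
    refine HasCompactSupport.of_support_subset_isCompact hK fun p hp => ?_
    have hp' : ρ p.2 * η (p.1 + p.2 • w) ≠ 0 := hp
    refine ⟨(p.1 + p.2 • w, p.2), ⟨subset_tsupport _ (right_ne_zero_of_mul hp'),
      subset_tsupport _ (left_ne_zero_of_mul hp')⟩, ?_⟩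
    ext <;> simp
  -- the directional derivatives
  have dir : ∀ {β : Cn n × ℂ → ℝ}, ContDiff ℝ ∞ β → ∀ (v : ℂ) (z : Cn n) (s : ℂ),
      D v (fun t => β (z, t)) s = fderiv ℝ β (z, s) (0, v) := by
    intro β hβ v z s
    have h1 : HasFDerivAt (fun t : ℂ => (z, t)) (ContinuousLinearMap.inr ℝ (Cn n) ℂ) s :=
      hasFDerivAt_prodMk_right z s
    have h2 := ((hβ.differentiable (by simp)) (z, s)).hasFDerivAt.comp s h1
    unfold D
    have h3 : (fun t => β (z, t)) = β ∘ fun t : ℂ => (z, t) := rfl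
    rw [h3, h2.fderiv]
    simp
  have sm1 : ∀ {β : Cn n × ℂ → ℝ}, ContDiff ℝ ∞ β → ∀ v : ℂ,
      ContDiff ℝ ∞ (fun p => fderiv ℝ β p (0, v)) := fun hβ v =>
    (hβ.fderiv_right (m := ∞) (by simp)).clm_apply contDiff_const
  have cs1 : ∀ {β : Cn n × ℂ → ℝ}, HasCompactSupport β → ∀ v : ℂ,
      HasCompactSupport (fun p => fderiv ℝ β p (0, v)) := fun hβ v =>
    hβ.fderiv_apply ℝ (0, v)
  have two : ∀ (v : ℂ) (z : Cn n) (s : ℂ), D v (D v fun t => α (z, t)) s =
      fderiv ℝ (fun p => fderiv ℝ α p (0, v)) (z, s) (0, v) := by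
    intro v z s
    have h1 : D v (fun t => α (z, t)) = fun t => (fun p => fderiv ℝ α p (0, v)) (z, t) :=
      funext fun t => dir hαs v z t
    rw [h1]
    exact dir (sm1 hαs v) v z s
  have bd : ∀ v : ℂ, ∃ B, ∀ p, ‖fderiv ℝ (fun p => fderiv ℝ α p (0, v)) p (0, v)‖ ≤ B := fun v =>
    (cs1 (cs1 hαc v) v).exists_bound_of_continuous (sm1 (sm1 hαs v) v).continuous
  obtain ⟨B1, hB1⟩ := bd 1
  obtain ⟨B2, hB2⟩ := bd Complex.I
  refine ⟨B1 + B2, add_nonneg ((norm_nonneg _).trans (hB1 (0, 0)))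
    ((norm_nonneg _).trans (hB2 (0, 0))), fun z s => ?_⟩
  have e : lap (fun t : ℂ => ρ t * η (z + t • w)) s =
      D 1 (D 1 fun t => α (z, t)) s + D Complex.I (D Complex.I fun t => α (z, t)) s := rfl
  rw [e, two, two]
  exact (abs_add_le _ _).trans (add_le_add (by simpa using hB1 (z, s)) (by simpa using hB2 (z, s)))

theorem lap_zero_off (a : ℂ → ℝ) {t : ℂ} (h : t ∉ tsupport a) : lap a t = 0 := by
  have h1 : ∀ v, D v (D v a) t = 0 := fun v =>
    image_eq_zero_of_notMem_tsupport fun h' => h ((tsupport_D a v) ((tsupport_D (D v a) v) h'))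
  unfold lap
  rw [h1, h1, add_zero]

theorem tsupport_lap (a : ℂ → ℝ) : tsupport (lap a) ⊆ tsupport a :=
  closure_minimal (fun t ht => by
    by_contra h'
    exact ht (lap_zero_off a h')) (isClosed_tsupport a)

section lim

variable {μ : Measure (Cn n)} [μ.IsAddHaarMeasure]

/-- integrability of the majorant -/
theorem integrable_maj {S : Set ℂ} (hS : IsCompact S) {V : Cn n → ℝ} (hVm : Measurable V)
    (hVi : Integrable V μ) (w : Cn n) :
    Integrable (fun p : Cn n × ℂ => S.indicator (fun _ => (1 : ℝ)) p.2 * V (p.1 + p.2 • w))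
      (μ.prod volume) := by
  have hm : Measurable fun p : Cn n × ℂ =>
      S.indicator (fun _ => (1 : ℝ)) p.2 * V (p.1 + p.2 • w) := by
    refine ((measurable_const.indicator hS.measurableSet).comp measurable_snd).mul
      (hVm.comp ?_)
    have : Continuous fun p : Cn n × ℂ => p.1 + p.2 • w := by fun_prop
    exact this.measurable
  rw [integrable_prod_iff' hm.aestronglyMeasurable]
  have h0 : ∀ s : ℂ, Integrable (fun z => V (z + s • w)) μ := fun s => hVi.comp_add_right _
  refine ⟨Eventually.of_forall fun s => (h0 s).const_mul (S.indicator (fun _ => (1 : ℝ)) s), ?_⟩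
  have h1 : (fun s : ℂ => ∫ z, ‖S.indicator (fun _ => (1 : ℝ)) s * V (z + s • w)‖ ∂μ) =
      fun s => S.indicator (fun _ => ∫ z, ‖V z‖ ∂μ) s := by
    funext s
    by_cases hs : s ∈ S
    · simp only [indicator_of_mem hs, one_mul]
      exact integral_add_right_eq_self (fun z => ‖V z‖) _
    · simp [indicator_of_notMem hs]
  rw [h1]
  refine (integrable_indicator_iff hS.measurableSet).2 ?_
  exact integrableOn_const (hS.measure_lt_top.ne)

/-- **energies on almost every complex line** -/
theorem line_lim {Ω G : Set (Cn n)} (hΩ : IsOpen Ω) {w z₀ : Cn n} {r : ℝ}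
    (hball : ball z₀ r ⊆ Ω) {u c g : ℕ → Cn n → ℝ} (hu : ∀ k, ContDiffOn ℝ 2 (u k) Ω)
    (hc : ∀ k, ContinuousOn (c k) Ω) (hg : ∀ k, ContinuousOn (g k) Ω)
    (hg0 : ∀ k, ∀ z ∈ Ω, 0 ≤ g k z) (hgp : ∀ k, ∀ z ∈ Ω, g k z ≤ lev (u k) z w + c k z)
    {η : Cn n → ℝ} (hη : ContDiff ℝ ∞ η) (hηc : HasCompactSupport η)
    (hηs : tsupport η ⊆ ball z₀ r) (hη0 : ∀ z, 0 ≤ η z)
    {U : Cn n → ℝ} (hUm : Measurable U) (hUi : Integrable U μ) (hU0 : ∀ z, 0 ≤ U z)
    (hU : ∀ k, ∀ z ∈ G ∩ tsupport η, |u k z| ≤ U z)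
    {C : ℝ} (hC : ∀ k, ∀ z ∈ tsupport η, c k z ≤ C)
    (hline : ∀ᵐ z ∂μ, z ∈ ball z₀ r → ∀ s : ℂ, z + s • w ∈ ball z₀ r → z + s • w ∈ G)
    (hlim : ∀ K ⊆ G ∩ Ω, IsCompact K → ∀ δ > (0 : ℝ), ∀ᶠ k in atTop, ∀ z ∈ K, g k z ≤ δ) :
    Tendsto (fun k => ∫ z, η z * g k z ∂μ) atTop (𝓝 0) := by
  -- the radius
  obtain ⟨δ, hδ, hthick⟩ := hηc.isCompact.exists_thickening_subset_open isOpen_ball hηs
  set R : ℝ := δ / (‖w‖ + 1) with hR
  have hR0 : 0 < R := div_pos hδ (by positivity)
  have hRw : ∀ s : ℂ, ‖s‖ < R → ‖s • w‖ < δ := by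
    intro s hs
    rw [norm_smul]
    have h1 : 0 < ‖w‖ + 1 := by positivity
    have h2 : ‖s‖ * (‖w‖ + 1) < δ := by
      have := mul_lt_mul_of_pos_right hs h1
      rwa [hR, div_mul_cancel₀ _ h1.ne'] at this
    nlinarith [norm_nonneg s, norm_nonneg w]
  let f : ContDiffBump (0 : ℂ) := ⟨R / 4, R / 2, by positivity, by linarith⟩
  set ρ : ℂ → ℝ := f.normed volume with hρd
  have hρ : ContDiff ℝ ∞ ρ := f.contDiff_normed
  have hρ0 : ∀ s, 0 ≤ ρ s := fun s => f.nonneg_normed s
  have hρ1 : ∫ s, ρ s = 1 := f.integral_normed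
  have hρt : tsupport ρ = closedBall 0 (R / 2) := f.tsupport_normed_eq
  have hρc : HasCompactSupport ρ := f.hasCompactSupport_normed
  have hρb : ∀ s ∈ tsupport ρ, ‖s‖ < R := by
    intro s hs
    rw [hρt, mem_closedBall_zero_iff] at hs
    linarith
  -- centres of the lines are in the ball
  have hcen : ∀ (z : Cn n) (s : ℂ), s ∈ tsupport ρ → z + s • w ∈ tsupport η → z ∈ ball z₀ r := by
    intro z s hs hz
    refine hthick (Metric.mem_thickening_iff.2 ⟨z + s • w, hz, ?_⟩)
    rw [dist_eq_norm]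
    have : z - (z + s • w) = -(s • w) := by abel
    rw [this, norm_neg]
    exact hRw s (hρb s hs)
  set h : ℕ → Cn n → ℝ := fun k z => η z * g k z with hh
  have hhts : ∀ k, tsupport (h k) ⊆ tsupport η := fun k =>
    tsupport_mul_subset_left
  have hhc : ∀ k, Continuous (h k) := fun k =>
    ContinuousOn.continuous_of_tsupport_subset (s := Ω) (hη.continuous.continuousOn.mul (hg k)) hΩ
      ((hhts k).trans (hηs.trans hball))
  have hhcs : ∀ k, HasCompactSupport (h k) := fun k =>
    IsCompact.of_isClosed_subset hηc (isClosed_tsupport _) (hhts k)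
  have hh0 : ∀ k z, 0 ≤ h k z := by
    intro k z
    by_cases hz : z ∈ tsupport η
    · exact mul_nonneg (hη0 z) (hg0 k z (hball (hηs hz)))
    · simp [hh, image_eq_zero_of_notMem_tsupport hz]
  have e1 : ∀ k, ∫ z, η z * g k z ∂μ = ∫ z, (∫ s, ρ s * h k (z + s • w)) ∂μ := fun k =>
    (avg_line hρ.continuous hρc hρ1 (hhc k) (hhcs k) w).symm
  simp only [e1]
  obtain ⟨B, hB0, hB⟩ := lap_bdd hρ hρc hη hηc w
  obtain ⟨Bρ, hBρ⟩ := hρc.exists_bound_of_continuous hρ.continuous
  obtain ⟨Bη, hBη⟩ := hηc.exists_bound_of_continuous hη.continuous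
  have hBρ0 : 0 ≤ Bρ := (norm_nonneg _).trans (hBρ 0)
  have hBη0 : 0 ≤ Bη := (norm_nonneg _).trans (hBη 0)
  set S : Set ℂ := tsupport ρ with hS
  have hSc : IsCompact S := hρc
  -- majorant
  set V : Cn n → ℝ := (tsupport η).indicator fun z => B * U z + Bρ * Bη * |C| with hV
  have hVm : Measurable V :=
    ((measurable_const.mul hUm).add measurable_const).indicator (isClosed_tsupport η).measurableSet
  have hVi : Integrable V μ := by
    rw [hV, integrable_indicator_iff (isClosed_tsupport η).measurableSet]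
    exact ((hUi.const_mul B).integrableOn).add (integrableOn_const hηc.isCompact.measure_lt_top.ne)
  have hV0 : ∀ z, 0 ≤ V z := fun z => indicator_nonneg (fun z _ => by
    have := hU0 z
    positivity) z
  have hmaj := integrable_maj (μ := μ) hSc hVm hVi w
  have key := tendsto_integral_of_dominated_convergence (μ := μ)
    (F := fun k z => ∫ s, ρ s * h k (z + s • w)) (f := fun _ => (0 : ℝ))
    (fun z => ∫ s, S.indicator (fun _ => (1 : ℝ)) s * V (z + s • w)) ?_ ?_ ?_ ?_
  · simpa using key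
  · intro k
    exact (integrable_prod_line (μ := μ) hρ.continuous hρc (hhc k) (hhcs k)
      w).integral_prod_left.aestronglyMeasurable
  · exact hmaj.integral_prod_left
  · intro k
    have hi2 := hmaj.prod_right_ae
    filter_upwards [hline, hi2] with z hz hiz
    have hn : 0 ≤ ∫ s, ρ s * h k (z + s • w) :=
      integral_nonneg fun s => mul_nonneg (hρ0 s) (hh0 k _)
    rw [Real.norm_of_nonneg hn]
    by_cases hzb : z ∈ ball z₀ r
    swap
    · have : ∀ s, ρ s * h k (z + s • w) = 0 := by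
        intro s
        by_cases hs : s ∈ S
        · have : z + s • w ∉ tsupport η := fun h' => hzb (hcen z s hs h')
          simp [hh, image_eq_zero_of_notMem_tsupport this]
        · simp [image_eq_zero_of_notMem_tsupport hs]
      simp only [this, integral_zero]
      exact integral_nonneg fun s => mul_nonneg (indicator_nonneg (fun _ _ => zero_le_one) s)
        (hV0 _)
    set a : ℂ → ℝ := fun t => ρ t * η (z + t • w) with ha
    have has : ContDiff ℝ ∞ a := hρ.mul (hη.comp (contDiff_const.add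
      (contDiff_id.smul contDiff_const)))
    have hats : tsupport a ⊆ S := tsupport_mul_subset_left
    have hac : HasCompactSupport a :=
      IsCompact.of_isClosed_subset hρc (isClosed_tsupport _) hats
    have hats2 : ∀ s ∈ tsupport a, z + s • w ∈ tsupport η := by
      intro s hs
      have hcl : IsClosed {t : ℂ | z + t • w ∈ tsupport η} :=
        (isClosed_tsupport η).preimage (by fun_prop)
      refine (closure_minimal (fun t ht => ?_) hcl) hs
      have ht' : ρ t * η (z + t • w) ≠ 0 := ht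
      exact subset_tsupport _ (right_ne_zero_of_mul ht')
    set O : Set ℂ := {t | z + t • w ∈ Ω} with hO
    have hOo : IsOpen O := hΩ.preimage (by fun_prop)
    have hbs : ContDiffOn ℝ 2 (fun t : ℂ => u k (z + t • w)) O :=
      (hu k).comp ((contDiff_const.add (contDiff_id.smul contDiff_const)).contDiffOn)
        fun t ht => ht
    have hasO : tsupport a ⊆ O := fun s hs => hball (hηs (hats2 s hs))
    have has2 : ContDiff ℝ 2 a := has.of_le (WithTop.coe_le_coe.2 le_top)
    have hgreen := green hOo hbs has2 hac hasO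
    have cc : ContinuousOn (fun t : ℂ => c k (z + t • w)) O :=
      (hc k).comp (by fun_prop) fun t ht => ht
    have i1 : Integrable fun s => lap (fun t : ℂ => u k (z + t • w)) s * a s := by
      refine Continuous.integrable_of_hasCompactSupport ?_ (hac.mul_left)
      exact ContinuousOn.continuous_of_tsupport_subset
        ((lap_continuousOn hOo hbs).mul has.continuous.continuousOn) hOo
        (tsupport_mul_subset_right.trans hasO)
    have i2 : Integrable fun s => c k (z + s • w) * a s := by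
      refine Continuous.integrable_of_hasCompactSupport ?_ (hac.mul_left)
      exact ContinuousOn.continuous_of_tsupport_subset
        (cc.mul has.continuous.continuousOn) hOo (tsupport_mul_subset_right.trans hasO)
    have i3 : Integrable fun s => u k (z + s • w) * lap a s := by
      refine Continuous.integrable_of_hasCompactSupport ?_ ?_
      · refine ContinuousOn.continuous_of_tsupport_subset (s := O)
          (hbs.continuousOn.mul (lap_continuousOn isOpen_univ has2.contDiffOn |>.mono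
            (subset_univ _))) hOo ?_
        exact tsupport_mul_subset_right.trans ((tsupport_lap a).trans hasO)
      · exact HasCompactSupport.mul_left
          (IsCompact.of_isClosed_subset hac (isClosed_tsupport _) (tsupport_lap a))
    have i0 : Integrable fun s => ρ s * h k (z + s • w) := by
      refine Continuous.integrable_of_hasCompactSupport ?_ (hρc.mul_right)
      exact hρ.continuous.mul ((hhc k).comp (by fun_prop))
    calc ∫ s, ρ s * h k (z + s • w)
        ≤ ∫ s, (lap (fun t : ℂ => u k (z + t • w)) s * a s + c k (z + s • w) * a s) := by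
          refine integral_mono i0 (i1.add i2) fun s => ?_
          show ρ s * (η (z + s • w) * g k (z + s • w)) ≤ _
          by_cases hs : z + s • w ∈ Ω
          · have hk := hgp k _ hs
            have h2 : lap (fun t : ℂ => u k (z + t • w)) s = lev (u k) (z + s • w) w :=
              lap_line ((hu k).contDiffAt (hΩ.mem_nhds hs))
            have h3 : 0 ≤ a s := mul_nonneg (hρ0 s) (hη0 _)
            calc ρ s * (η (z + s • w) * g k (z + s • w)) = g k (z + s • w) * a s := by
                  simp only [ha]; ring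
              _ ≤ (lev (u k) (z + s • w) w + c k (z + s • w)) * a s :=
                  mul_le_mul_of_nonneg_right hk h3
              _ = _ := by simp only [h2]; ring
          · have h0 : η (z + s • w) = 0 :=
              image_eq_zero_of_notMem_tsupport fun h' => hs (hball (hηs h'))
            simp [ha, h0]
      _ = (∫ s, u k (z + s • w) * lap a s) + ∫ s, c k (z + s • w) * a s := by
          rw [integral_add i1 i2, hgreen]
      _ = ∫ s, (u k (z + s • w) * lap a s + c k (z + s • w) * a s) := by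
          rw [integral_add i3 i2]
      _ ≤ ∫ s, S.indicator (fun _ => (1 : ℝ)) s * V (z + s • w) := by
          refine integral_mono (i3.add i2) hiz fun s => ?_
          by_cases hs : s ∈ tsupport a
          · have hsη := hats2 s hs
            have hsG : z + s • w ∈ G := hz hzb s (hηs hsη)
            have hVs : V (z + s • w) = B * U (z + s • w) + Bρ * Bη * |C| :=
              indicator_of_mem hsη _
            have h1 : u k (z + s • w) * lap a s ≤ B * U (z + s • w) := by
              calc u k (z + s • w) * lap a s ≤ |u k (z + s • w) * lap a s| := le_abs_self _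
                _ = |u k (z + s • w)| * |lap a s| := abs_mul _ _
                _ ≤ U (z + s • w) * B :=
                    mul_le_mul (hU k _ ⟨hsG, hsη⟩) (hB z s) (abs_nonneg _) (hU0 _)
                _ = _ := mul_comm _ _
            have h2 : c k (z + s • w) * a s ≤ Bρ * Bη * |C| := by
              have h3 : 0 ≤ a s := mul_nonneg (hρ0 s) (hη0 _)
              have h4 : a s ≤ Bρ * Bη :=
                mul_le_mul ((le_abs_self _).trans (hBρ s)) ((le_abs_self _).trans (hBη _))
                  (hη0 _) hBρ0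
              calc c k (z + s • w) * a s ≤ |C| * a s :=
                    mul_le_mul_of_nonneg_right ((hC k _ hsη).trans (le_abs_self _)) h3
                _ ≤ |C| * (Bρ * Bη) := mul_le_mul_of_nonneg_left h4 (abs_nonneg _)
                _ = _ := mul_comm _ _
            show u k (z + s • w) * lap a s + c k (z + s • w) * a s ≤
              S.indicator (fun _ => (1 : ℝ)) s * V (z + s • w)
            rw [indicator_of_mem (hats hs), one_mul, hVs]
            exact add_le_add h1 h2
          · show u k (z + s • w) * lap a s + c k (z + s • w) * a s ≤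
              S.indicator (fun _ => (1 : ℝ)) s * V (z + s • w)
            rw [lap_zero_off a hs, image_eq_zero_of_notMem_tsupport hs, mul_zero, mul_zero,
              add_zero]
            exact mul_nonneg (indicator_nonneg (fun _ _ => zero_le_one) s) (hV0 _)
  · filter_upwards [hline] with z hz
    by_cases hzb : z ∈ ball z₀ r
    swap
    · have : ∀ k s, ρ s * h k (z + s • w) = 0 := by
        intro k s
        by_cases hs : s ∈ S
        · have : z + s • w ∉ tsupport η := fun h' => hzb (hcen z s hs h')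
          simp [hh, image_eq_zero_of_notMem_tsupport this]
        · simp [image_eq_zero_of_notMem_tsupport hs]
      simp only [this, integral_zero]
      exact tendsto_const_nhds
    set K : Set (Cn n) := (fun s : ℂ => z + s • w) '' S ∩ tsupport η with hK
    have hKc : IsCompact K :=
      (hSc.image (by fun_prop)).inter_right (isClosed_tsupport η)
    have hKG : K ⊆ G ∩ Ω := by
      rintro _ ⟨⟨s, hs, rfl⟩, hy⟩
      exact ⟨hz hzb s (hηs hy), hball (hηs hy)⟩
    refine tendsto_order.2 ⟨fun b hb => Eventually.of_forall fun k => hb.trans_le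
      (integral_nonneg fun s => mul_nonneg (hρ0 s) (hh0 k _)), fun b hb => ?_⟩
    set δ' : ℝ := b / (2 * (Bη + 1)) with hδ'
    have hδ0 : 0 < δ' := by positivity
    filter_upwards [hlim K hKG hKc δ' hδ0] with k hk
    have i0 : Integrable fun s => ρ s * h k (z + s • w) := by
      refine Continuous.integrable_of_hasCompactSupport ?_ (hρc.mul_right)
      exact hρ.continuous.mul ((hhc k).comp (by fun_prop))
    have i5 : Integrable fun s => ρ s * (Bη * δ') :=
      (hρ.continuous.integrable_of_hasCompactSupport hρc).mul_const _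
    have h6 : ∫ s, ρ s * h k (z + s • w) ≤ ∫ s, ρ s * (Bη * δ') := by
      refine integral_mono i0 i5 fun s => ?_
      by_cases hs : s ∈ S
      · refine mul_le_mul_of_nonneg_left ?_ (hρ0 s)
        by_cases hy : z + s • w ∈ tsupport η
        · exact mul_le_mul ((le_abs_self _).trans (hBη _)) (hk _ ⟨⟨s, hs, rfl⟩, hy⟩)
            (hg0 k _ (hball (hηs hy))) hBη0
        · show h k (z + s • w) ≤ _
          have : h k (z + s • w) = 0 := by
            simp [hh, image_eq_zero_of_notMem_tsupport hy]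
          rw [this]; positivity
      · simp [image_eq_zero_of_notMem_tsupport hs]
    rw [integral_mul_const, hρ1, one_mul] at h6
    refine h6.trans_lt ?_
    have h7 : Bη * δ' ≤ (Bη + 1) * δ' := by nlinarith
    have h8 : (Bη + 1) * δ' = b / 2 := by
      rw [hδ']; field_simp
    linarith

end lim

end

end Crest.Agent.R281.Mov_625
end

-- ▼ part R281/Mov5_625
section

/-!
# Row 281, task MOV (helper625), part 5: the local limit

* `qf X v = Re ∑ X_ab v_a conj v_b`; `trace_le_qf`
* `qf_Rf` : `4 qf (Rf ..) w = lev (ue ..) w + ct lev (wt) w`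
* `local_lim` : `∫ η (1 - ct) tr g⁻¹Rf → 0`
-/

set_option autoImplicit false
set_option linter.unusedSectionVars false

open Set Filter Topology Complex MeasureTheory Metric
open scoped ContDiff Matrix ComplexConjugate ComplexOrder

namespace Crest.Agent.R281.Mov_625

open Crest.Agent.R275 Crest.Agent.R275.Geo Crest.Agent.R275.Core144 Crest.Agent.R275.EDR890
open Crest.Agent.R275.C1d194 Crest.Agent.R275.Pai323
open Crest.Agent.R273.Defs_333 Crest.Agent.R273.Hess_333 Crest.Agent.R273.HessB_333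
open Crest.Agent.R273.HM_333 Crest.Agent.R273.Kah_333 Crest.Agent.R273.Vol_333
open Crest.Agent.R273.Vm_333
open Crest.Agent.R273.Green_5 Crest.Agent.R273.FIa0_597 Crest.Agent.R273.FIb0_597
open Crest.Agent.R273.FIc0_597 Crest.Agent.R273 Crest.Agent.R273.AppA_834
open Crest.Agent.R273.TLd_201
open Crest.Agent.R281.Glob1_484 Crest.Agent.R281.Glob2_484 Crest.Agent.R281.Ti_846

noncomputable section

variable {n N : ℕ} {M : Type} [TopologicalSpace M] {A : Atl n M} {L : LB A} {h : HM L}
  {C : Fin N → A.ι → M → ℂ}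

/-- the quadratic form of a Hermitian matrix -/
def qf (X : Matrix (Fin n) (Fin n) ℂ) (v : Cn n) : ℝ := (∑ a, ∑ b, X a b * v a * conj (v b)).re

theorem qf_sq (D : Matrix (Fin n) (Fin n) ℂ) (v : Cn n) :
    qf (Dᴴ * D) v = ∑ k, ‖∑ a, conj (D k a) * v a‖ ^ 2 := by
  unfold qf
  have h1 : ∑ a, ∑ b, (Dᴴ * D) a b * v a * conj (v b) =
      ((∑ k, ‖∑ a, conj (D k a) * v a‖ ^ 2 : ℝ) : ℂ) := by
    push_cast
    have h2 : ∀ k, ((‖∑ a, conj (D k a) * v a‖ : ℂ)) ^ 2 =
        ∑ a, ∑ b, (conj (D k a) * D k b) * v a * conj (v b) := by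
      intro k
      rw [← Complex.mul_conj', map_sum, Finset.sum_mul_sum]
      refine Finset.sum_congr rfl fun a _ => Finset.sum_congr rfl fun b _ => ?_
      rw [map_mul, Complex.conj_conj]
      ring
    simp only [h2]
    symm
    rw [Finset.sum_comm]
    refine Finset.sum_congr rfl fun a _ => ?_
    rw [Finset.sum_comm]
    refine Finset.sum_congr rfl fun b _ => ?_
    rw [Matrix.mul_apply, Finset.sum_mul, Finset.sum_mul]
    refine Finset.sum_congr rfl fun k _ => ?_
    rw [Matrix.conjTranspose_apply]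
    rfl
  rw [h1, Complex.ofReal_re]

theorem qf_nonneg {X : Matrix (Fin n) (Fin n) ℂ} (hX : X.PosSemidef) (v : Cn n) : 0 ≤ qf X v := by
  obtain ⟨D, rfl⟩ := exists_sq hX
  rw [qf_sq]
  positivity

theorem trace_qf (X : Matrix (Fin n) (Fin n) ℂ) :
    X.trace.re = ∑ a, qf X (EuclideanSpace.single a 1) := by
  unfold qf
  rw [Matrix.trace, Complex.re_sum]
  refine Finset.sum_congr rfl fun a _ => ?_
  congr 1
  rw [Finset.sum_eq_single a, Finset.sum_eq_single a]
  · simp
  · intro b _ hb
    simp [hb]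
  · simp
  · intro b _ hb
    simp [hb]
  · simp

theorem sum_app (r : Fin n → ℂ) (w : Fin n → Cn n) (d : Fin n) :
    (∑ i, r i • w i : Cn n) d = ∑ i, r i * w i d := by
  simp

/-- the trace is controlled by the values on a basis -/
theorem trace_le_qf (w : Module.Basis (Fin n) ℂ (Cn n)) : ∃ T : ℝ, 0 ≤ T ∧
    ∀ X : Matrix (Fin n) (Fin n) ℂ, X.PosSemidef → X.trace.re ≤ T * ∑ a, qf X (w a) := by
  refine ⟨∑ a, ∑ c, ‖w.repr (EuclideanSpace.single a (1 : ℂ)) c‖ ^ 2, by positivity,
    fun X hX => ?_⟩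
  rw [trace_qf, Finset.sum_mul]
  refine Finset.sum_le_sum fun a _ => ?_
  obtain ⟨D, rfl⟩ := exists_sq hX
  set r : Fin n → ℂ := fun c => w.repr (EuclideanSpace.single a (1 : ℂ)) c with hr
  simp only [qf_sq]
  rw [Finset.sum_comm, Finset.mul_sum]
  refine Finset.sum_le_sum fun k _ => ?_
  have h1 : ∀ d, (EuclideanSpace.single a (1 : ℂ) : Cn n) d = ∑ c, r c * w c d := by
    intro d
    have h2 := w.sum_repr (EuclideanSpace.single a (1 : ℂ))
    have h3 := congrArg (fun v : Cn n => v d) h2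
    exact h3.symm.trans (sum_app r (fun c => w c) d)
  have h4 : ∑ d, conj (D k d) * (EuclideanSpace.single a (1 : ℂ) : Cn n) d =
      ∑ c, r c * ∑ d, conj (D k d) * w c d := by
    simp only [h1, Finset.mul_sum]
    rw [Finset.sum_comm]
    exact Finset.sum_congr rfl fun c _ => Finset.sum_congr rfl fun d _ => by ring
  rw [h4]
  have h5 : ‖∑ c, r c * ∑ d, conj (D k d) * w c d‖ ≤ ∑ c, ‖r c‖ * ‖∑ d, conj (D k d) * w c d‖ :=
    (norm_sum_le _ _).trans (le_of_eq (Finset.sum_congr rfl fun c _ => norm_mul _ _))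
  calc _ ≤ (∑ c, ‖r c‖ * ‖∑ d, conj (D k d) * w c d‖) ^ 2 :=
        pow_le_pow_left₀ (norm_nonneg _) h5 2
    _ ≤ _ := Finset.sum_mul_sq_le_sq_mul_sq _ _ _

theorem qf_hess {u : Cn n → ℝ} {z : Cn n} (hu : ContDiffAt ℝ ∞ u z) (v : Cn n) :
    lev u z v = 4 * qf (hess u z) v := by
  have h1 := congrArg Complex.re (lev_eq hu v)
  rw [Complex.ofReal_re] at h1
  rw [h1]
  unfold hq qf
  rw [show (4 : ℂ) = ((4 : ℝ) : ℂ) by norm_num, Complex.re_ofReal_mul]

theorem qf_add (X Y : Matrix (Fin n) (Fin n) ℂ) (v : Cn n) : qf (X + Y) v = qf X v + qf Y v := by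
  unfold qf
  rw [← Complex.add_re, ← Finset.sum_add_distrib]
  congr 1
  refine Finset.sum_congr rfl fun a _ => ?_
  rw [← Finset.sum_add_distrib]
  refine Finset.sum_congr rfl fun b _ => ?_
  rw [Matrix.add_apply]; ring

theorem qf_smul (c : ℝ) (X : Matrix (Fin n) (Fin n) ℂ) (v : Cn n) :
    qf ((c : ℂ) • X) v = c * qf X v := by
  unfold qf
  rw [← Complex.re_ofReal_mul, Finset.mul_sum]
  congr 1
  refine Finset.sum_congr rfl fun a _ => ?_
  rw [Finset.mul_sum]
  refine Finset.sum_congr rfl fun b _ => ?_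
  rw [Matrix.smul_apply, smul_eq_mul]; ring

/-- the form of `Rf` in the direction `v` -/
theorem qf_Rf (hC : ∀ j, IsHS L univ (C j)) {ε : ℝ} (hε : 0 < ε) {i : A.ι} {z : Cn n}
    (hz : z ∈ (A.e i).target) (v : Cn n) :
    lev (fun y => ue h C ε ((A.e i).symm y)) z v + ct h C ε ((A.e i).symm z) * lev (h.wt i) z v =
      4 * qf (Rf h C ε i ((A.e i).symm z)) v := by
  have h1 : ContDiffAt ℝ ∞ (fun y => ue h C ε ((A.e i).symm y)) z :=
    sm_contDiffAt (sm_ue hC hε) i hz
  have h2 : hsf A (ue h C ε) i ((A.e i).symm z) =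
      hess (fun y => ue h C ε ((A.e i).symm y)) z := by
    unfold hsf
    rw [(A.e i).right_inv hz]
  rw [qf_hess h1, qf_hess (wt_contDiffAt h i hz)]
  unfold Rf
  rw [qf_add, qf_smul, h2, cur_read h i hz]
  ring

/-- upper bound where `N > 0` -/
theorem lev_ue_le (hC : ∀ j, IsHS L univ (C j)) {ε : ℝ} (hε : 0 < ε) {i : A.ι} {z : Cn n}
    (hz : z ∈ (A.e i).target) (v : Cn n) :
    lev (fun y => ue h C ε ((A.e i).symm y)) z v ≤
      lev (fun y => nrm h C ((A.e i).symm y)) z v / (nrm h C ((A.e i).symm z) + ε) := by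
  set u : Cn n → ℝ := fun y => nrm h C ((A.e i).symm y) with hu
  have h1 : ContDiffAt ℝ 2 u z :=
    (sm_contDiffAt (sm_nrm hC) i hz).of_le (WithTop.coe_le_coe.2 le_top)
  have h0 : 0 < u z + ε := add_pos_of_nonneg_of_pos (nrm_nonneg hC _) hε
  have h2 : ContDiffAt ℝ 2 (fun y => u y + ε) z := h1.add contDiffAt_const
  have h3 := Levi_145.lev_log h2 h0 v
  have h4 : Levi_145.lev (fun y => u y + ε) z v = Levi_145.lev u z v := by
    have := Levi_145.lev_add h1 (contDiffAt_const (c := ε)) v
    rw [Levi_145.lev_const, add_zero] at this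
    exact this
  rw [PB_835.lev_bridge, PB_835.lev_bridge]
  have h5 : (fun y => ue h C ε ((A.e i).symm y)) = fun y => Real.log (u y + ε) := rfl
  rw [h5, h3, h4]
  have h6 : 0 ≤ ‖Levi_145.gr (fun y => u y + ε) z v‖ ^ 2 / (u z + ε) ^ 2 := by positivity
  have h7 : 4 * Levi_145.lev u z v / (u z + ε) = 4 * (Levi_145.lev u z v / (u z + ε)) := by ring
  rw [h7]
  linarith

theorem two_le_inf' : (2 : WithTop ℕ∞) ≤ ∞ := WithTop.coe_le_coe.2 le_top

theorem cont_lev {u : Cn n → ℝ} {U : Set (Cn n)} (hU : IsOpen U) (hu : ContDiffOn ℝ ∞ u U)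
    (v : Cn n) : ContinuousOn (fun z => lev u z v) U := by
  have h1 := YauCh_635.continuousOn_lev hU (hu.of_le two_le_inf')
  have h2 : ContinuousOn (fun z : Cn n => (z, v)) U :=
    (continuous_id.prodMk continuous_const).continuousOn
  exact ContinuousOn.comp (g := fun p : Cn n × Cn n => lev u p.1 p.2)
    (f := fun z : Cn n => (z, v)) h1 h2 fun z hz => ⟨hz, mem_univ _⟩

section lim

variable [T2Space M] [CompactSpace M] [Fintype A.ι] [MeasurableSpace M] [BorelSpace M]

/-- the limit in one direction -/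
theorem dir_lim (hC : ∀ j, IsHS L univ (C j)) (i : A.ι) {z₀ v : Cn n} {r : ℝ}
    (hball : ball z₀ r ⊆ (A.e i).target)
    (hw : ∀ᵐ z ∂(lc n), z ∈ ball z₀ r → ∀ s : ℂ, z + s • v ∈ ball z₀ r →
      nrm h C ((A.e i).symm (z + s • v)) ≠ 0)
    (hlog : ∀ Q : Set (Cn n), IsCompact Q → Q ⊆ (A.e i).target →
      IntegrableOn (fun z => Real.log (nrm h C ((A.e i).symm z))) Q (lc n))
    {η : Cn n → ℝ} (hη : ContDiff ℝ ∞ η) (hηc : HasCompactSupport η)
    (hηs : tsupport η ⊆ ball z₀ r) (hη0 : ∀ z, 0 ≤ η z) :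
    Tendsto (fun k => ∫ z, η z * ((1 - ct h C (ek k) ((A.e i).symm z)) *
      (4 * qf (Rf h C (ek k) i ((A.e i).symm z)) v)) ∂(lc n)) atTop (𝓝 0) := by
  classical
  have hΩ := (A.e i).open_target
  have hηt : tsupport η ⊆ (A.e i).target := hηs.trans hball
  set Nz : Cn n → ℝ := fun z => nrm h C ((A.e i).symm z) with hNz
  have sN : ContDiffOn ℝ ∞ Nz (A.e i).target := sm_nrm hC i
  have cN : ContinuousOn Nz (A.e i).target := sN.continuousOn
  have hN0 : ∀ z, 0 ≤ Nz z := fun z => nrm_nonneg hC _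
  have sw : ContDiffOn ℝ ∞ (h.wt i) (A.e i).target := wt_smooth h i
  set u : ℕ → Cn n → ℝ := fun k z => ue h C (ek k) ((A.e i).symm z) with hu
  have su : ∀ k, ContDiffOn ℝ ∞ (u k) (A.e i).target := fun k => sm_ue hC (ek_pos k) i
  set c : ℕ → Cn n → ℝ := fun k z => ct h C (ek k) ((A.e i).symm z) * lev (h.wt i) z v with hc
  have cc : ∀ k, ContinuousOn (c k) (A.e i).target := fun k =>
    (ContDiffOn.continuousOn (sm_ct (h := h) hC (ek_pos k) i)).mul (cont_lev hΩ sw v)
  set g : ℕ → Cn n → ℝ := fun k z =>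
    (1 - ct h C (ek k) ((A.e i).symm z)) * (lev (u k) z v + c k z) with hg
  have cg : ∀ k, ContinuousOn (g k) (A.e i).target := fun k =>
    (continuousOn_const.sub (ContDiffOn.continuousOn (sm_ct (h := h) hC (ek_pos k) i))).mul
      ((cont_lev hΩ (su k) v).add (cc k))
  have hq : ∀ k, ∀ z ∈ (A.e i).target, lev (u k) z v + c k z =
      4 * qf (Rf h C (ek k) i ((A.e i).symm z)) v := fun k z hz => qf_Rf hC (ek_pos k) hz v
  have hp0 : ∀ k, ∀ z ∈ (A.e i).target, 0 ≤ lev (u k) z v + c k z := by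
    intro k z hz
    rw [hq k z hz]
    have := qf_nonneg (Rf_psd (h := h) hC (ek_pos k) ((A.e i).map_target hz)) v
    linarith
  have hg0 : ∀ k, ∀ z ∈ (A.e i).target, 0 ≤ g k z := fun k z hz =>
    mul_nonneg (one_sub_ct_nonneg hC (ek_pos k) _) (hp0 k z hz)
  have hgp : ∀ k, ∀ z ∈ (A.e i).target, g k z ≤ lev (u k) z v + c k z := by
    intro k z hz
    have h1 := ct_nonneg (h := h) hC (ek_pos k) ((A.e i).symm z)
    have h2 := hp0 k z hz
    show (1 - ct h C (ek k) ((A.e i).symm z)) * (lev (u k) z v + c k z) ≤ _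
    nlinarith
  -- bounds
  obtain ⟨BN, hBN0, hBN⟩ := exists_bd (cont_sm (sm_nrm (h' := h) hC))
  set C1 : ℝ := Real.log (BN + 1) with hC1
  have hC10 : 0 ≤ C1 := Real.log_nonneg (by linarith)
  obtain ⟨Bw, hBw⟩ := hηc.isCompact.exists_bound_of_continuousOn
    ((cont_lev hΩ sw v).mono hηt)
  -- the majorant
  have hNm : Measurable ((tsupport η).piecewise Nz fun _ => 0) :=
    (cN.mono hηt).measurable_piecewise continuousOn_const (isClosed_tsupport η).measurableSet
  set U : Cn n → ℝ := (tsupport η).indicator fun z => |Real.log (Nz z)| + C1 with hU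
  have hUe : U = (tsupport η).indicator fun z =>
      |Real.log ((tsupport η).piecewise Nz (fun _ => 0) z)| + C1 := by
    funext z
    by_cases hz : z ∈ tsupport η
    · rw [hU, indicator_of_mem hz, indicator_of_mem hz, piecewise_eq_of_mem _ _ _ hz]
    · rw [hU, indicator_of_notMem hz, indicator_of_notMem hz]
  have hUm : Measurable U := by
    rw [hUe]
    refine Measurable.indicator ?_ (isClosed_tsupport η).measurableSet
    exact (Real.measurable_log.comp hNm).norm.add measurable_const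
  have hUi : Integrable U (lc n) := by
    rw [hU, integrable_indicator_iff (isClosed_tsupport η).measurableSet]
    exact (hlog _ hηc hηt).norm.add (integrableOn_const hηc.isCompact.measure_lt_top.ne)
  have hU0 : ∀ z, 0 ≤ U z := fun z => indicator_nonneg (fun z _ => by positivity) z
  set G : Set (Cn n) := {z | z ∈ (A.e i).target ∧ Nz z ≠ 0} with hG
  have hUu : ∀ k, ∀ z ∈ G ∩ tsupport η, |u k z| ≤ U z := by
    rintro k z ⟨⟨hz, hNz0⟩, hzη⟩
    have hpos : 0 < Nz z := lt_of_le_of_ne (hN0 z) (Ne.symm hNz0)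
    rw [hU, indicator_of_mem hzη]
    have h1 : Real.log (Nz z) ≤ u k z := Real.log_le_log hpos (by linarith [ek_pos k])
    have h2 : u k z ≤ C1 := by
      refine Real.log_le_log (add_pos_of_nonneg_of_pos (hN0 z) (ek_pos k)) ?_
      have := (abs_le.1 (hBN ((A.e i).symm z))).2
      have := ek_le k
      linarith
    rw [abs_le]
    constructor
    · have := neg_abs_le (Real.log (Nz z))
      linarith
    · have := abs_nonneg (Real.log (Nz z))
      linarith
  have hCb : ∀ k, ∀ z ∈ tsupport η, c k z ≤ Bw := by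
    intro k z hz
    have h1 := hBw z hz
    have h2 := ct_nonneg (h := h) hC (ek_pos k) ((A.e i).symm z)
    have h3 := ct_le_one (h := h) hC (ek_pos k) ((A.e i).symm z)
    rw [Real.norm_eq_abs] at h1
    calc c k z ≤ |c k z| := le_abs_self _
      _ = ct h C (ek k) ((A.e i).symm z) * |lev (h.wt i) z v| := by
          rw [hc, abs_mul, abs_of_nonneg h2]
      _ ≤ 1 * |lev (h.wt i) z v| := mul_le_mul_of_nonneg_right h3 (abs_nonneg _)
      _ ≤ Bw := by rw [one_mul]; exact h1
  have hline : ∀ᵐ z ∂(lc n), z ∈ ball z₀ r → ∀ s : ℂ, z + s • v ∈ ball z₀ r →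
      z + s • v ∈ G := by
    filter_upwards [hw] with z hz hzb s hs
    exact ⟨hball hs, hz hzb s hs⟩
  have hlim : ∀ Q ⊆ G ∩ (A.e i).target, IsCompact Q → ∀ δ > (0 : ℝ), ∀ᶠ k in atTop,
      ∀ z ∈ Q, g k z ≤ δ := by
    intro Q hQ hQc δ hδ
    have hQt : Q ⊆ (A.e i).target := fun z hz => (hQ hz).2
    obtain ⟨c0, hc0, hc0'⟩ : ∃ c0 > 0, ∀ z ∈ Q, c0 ≤ Nz z := by
      rcases Q.eq_empty_or_nonempty with hQe | hQe
      · exact ⟨1, one_pos, fun z hz => by rw [hQe] at hz; exact absurd hz (notMem_empty z)⟩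
      · obtain ⟨z, hz, hmin⟩ := hQc.exists_isMinOn hQe (cN.mono hQt)
        exact ⟨_, lt_of_le_of_ne (hN0 z) (Ne.symm (hQ hz).1.2), fun y hy => hmin hy⟩
    obtain ⟨B1, hB1⟩ := hQc.exists_bound_of_continuousOn ((cont_lev hΩ sN v).mono hQt)
    obtain ⟨B2, hB2⟩ := hQc.exists_bound_of_continuousOn ((cont_lev hΩ sw v).mono hQt)
    set B : ℝ := |B1| / c0 + |B2| with hB
    have hB0 : 0 ≤ B := by positivity
    have h1 : Tendsto (fun k => ek k / c0 * B) atTop (𝓝 (0 / c0 * B)) :=
      (ek_tend.div_const c0).mul_const B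
    rw [zero_div, zero_mul] at h1
    filter_upwards [h1.eventually (gt_mem_nhds hδ)] with k hk z hz
    have hzt := hQt hz
    have hz0 := hc0' z hz
    have he := ek_pos k
    have h2 : 1 - ct h C (ek k) ((A.e i).symm z) ≤ ek k / c0 := by
      rw [one_sub_ct hC he]
      exact div_le_div_of_nonneg_left he.le hc0 (by
        show c0 ≤ Nz z + ek k
        linarith)
    have h3 : lev (u k) z v + c k z ≤ B := by
      have h4 := lev_ue_le (h := h) hC he hzt v
      have h5 := hB1 z hz
      have h6 := hB2 z hz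
      rw [Real.norm_eq_abs] at h5 h6
      have h7 : lev Nz z v / (Nz z + ek k) ≤ |B1| / c0 := by
        calc lev Nz z v / (Nz z + ek k) ≤ |B1| / (Nz z + ek k) :=
              div_le_div_of_nonneg_right ((le_abs_self _).trans (h5.trans (le_abs_self _)))
                (by linarith [hN0 z])
          _ ≤ |B1| / c0 := div_le_div_of_nonneg_left (abs_nonneg _) hc0 (by linarith)
      have h8 : c k z ≤ |B2| := by
        have h9 := ct_nonneg (h := h) hC he ((A.e i).symm z)
        have h10 := ct_le_one (h := h) hC he ((A.e i).symm z)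
        calc c k z ≤ |c k z| := le_abs_self _
          _ = ct h C (ek k) ((A.e i).symm z) * |lev (h.wt i) z v| := by
              rw [hc, abs_mul, abs_of_nonneg h9]
          _ ≤ 1 * |lev (h.wt i) z v| := mul_le_mul_of_nonneg_right h10 (abs_nonneg _)
          _ ≤ |B2| := by rw [one_mul]; exact h6.trans (le_abs_self _)
      exact add_le_add (h4.trans h7) h8
    calc g k z = (1 - ct h C (ek k) ((A.e i).symm z)) * (lev (u k) z v + c k z) := rfl
      _ ≤ (ek k / c0) * B := mul_le_mul h2 h3 (hp0 k z hzt) (by positivity)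
      _ ≤ δ := hk.le
  have key := line_lim (μ := lc n) hΩ hball (fun k => (su k).of_le two_le_inf') cc cg hg0 hgp
    hη hηc hηs hη0 hUm hUi hU0 hUu hCb hline hlim
  refine key.congr fun k => integral_congr_ae (Eventually.of_forall fun z => ?_)
  by_cases hz : z ∈ tsupport η
  · show η z * ((1 - ct h C (ek k) ((A.e i).symm z)) * (lev (u k) z v + c k z)) = _
    rw [hq k z (hηt hz)]
  · simp only [image_eq_zero_of_notMem_tsupport hz, zero_mul]

theorem int_cs {U : Set (Cn n)} (hU : IsOpen U) {η f : Cn n → ℝ} (hη : Continuous η)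
    (hηc : HasCompactSupport η) (hηU : tsupport η ⊆ U) (hf : ContinuousOn f U) :
    Integrable (fun z => η z * f z) (lc n) := by
  refine Continuous.integrable_of_hasCompactSupport ?_ hηc.mul_right
  exact ContinuousOn.continuous_of_tsupport_subset (hη.continuousOn.mul hf) hU
    (tsupport_mul_subset_left.trans hηU)

theorem cont_qf (hC : ∀ j, IsHS L univ (C j)) {ε : ℝ} (hε : 0 < ε) (i : A.ι) (v : Cn n) :
    ContinuousOn (fun z => qf (Rf h C ε i ((A.e i).symm z)) v) (A.e i).target := by
  have h1 : ContinuousOn (fun z => (1 / 4 : ℝ) * (lev (fun y => ue h C ε ((A.e i).symm y)) z v +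
      ct h C ε ((A.e i).symm z) * lev (h.wt i) z v)) (A.e i).target :=
    continuousOn_const.mul ((cont_lev (A.e i).open_target (sm_ue hC hε i) v).add
      ((ContDiffOn.continuousOn (sm_ct (h := h) hC hε i)).mul
        (cont_lev (A.e i).open_target (wt_smooth h i) v)))
  refine h1.congr fun z hz => ?_
  simp only [qf_Rf hC hε hz v]
  ring

/-- **the local limit** -/
theorem tr_lim (K : Kah A) (hC : ∀ j, IsHS L univ (C j)) (i : A.ι) {z₀ : Cn n} {r : ℝ}
    (hball : ball z₀ r ⊆ (A.e i).target) (w : Module.Basis (Fin n) ℂ (Cn n))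
    (hw : ∀ a, ∀ᵐ z ∂(lc n), z ∈ ball z₀ r → ∀ s : ℂ, z + s • w a ∈ ball z₀ r →
      nrm h C ((A.e i).symm (z + s • w a)) ≠ 0)
    (hlog : ∀ Q : Set (Cn n), IsCompact Q → Q ⊆ (A.e i).target →
      IntegrableOn (fun z => Real.log (nrm h C ((A.e i).symm z))) Q (lc n))
    {η : Cn n → ℝ} (hη : ContDiff ℝ ∞ η) (hηc : HasCompactSupport η)
    (hηs : tsupport η ⊆ ball z₀ r) (hη0 : ∀ z, 0 ≤ η z) :
    Tendsto (fun k => ∫ z, η z * ((1 - ct h C (ek k) ((A.e i).symm z)) *
      (trC K (Rf h C (ek k)) i ((A.e i).symm z)).re) ∂(lc n)) atTop (𝓝 0) := by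
  have hΩ := (A.e i).open_target
  have hηt : tsupport η ⊆ (A.e i).target := hηs.trans hball
  have hdir := fun a => dir_lim hC i hball (hw a) hlog hη hηc hηs hη0
  obtain ⟨T, hT0, hT⟩ := trace_le_qf w
  -- bound of the inverse metric
  have hinv : ContinuousOn (fun z => ((K.g i ((A.e i).symm z))⁻¹).trace.re)
      (A.e i).target := by
    have h1 : A.SmAt i (fun x => ((K.g i x)⁻¹).trace) := by
      unfold Matrix.trace
      exact ContDiffOn.sum fun a _ => smAt_inv K i a a
    exact Complex.continuous_re.comp_continuousOn (ContDiffOn.continuousOn h1)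
  obtain ⟨T1, hT1⟩ := hηc.isCompact.exists_bound_of_continuousOn (hinv.mono hηt)
  have hT1' : ∀ z ∈ tsupport η, ((K.g i ((A.e i).symm z))⁻¹).trace.re ≤ |T1| := fun z hz =>
    (le_abs_self _).trans ((hT1 z hz).trans (le_abs_self _))
  have cct : ∀ k, ContinuousOn (fun z => 1 - ct h C (ek k) ((A.e i).symm z)) (A.e i).target :=
    fun k => continuousOn_const.sub (ContDiffOn.continuousOn (sm_ct (h := h) hC (ek_pos k) i))
  have ctr : ∀ k, ContinuousOn (fun z => (trC K (Rf h C (ek k)) i ((A.e i).symm z)).re)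
      (A.e i).target := fun k => Complex.continuous_re.comp_continuousOn
    (ContDiffOn.continuousOn (smAt_trC K (S := Rf h C (ek k))
      ((tf_Rf (h := h) hC (ek_pos k)).sm i)))
  have ilhs : ∀ k, Integrable (fun z => η z * ((1 - ct h C (ek k) ((A.e i).symm z)) *
      (trC K (Rf h C (ek k)) i ((A.e i).symm z)).re)) (lc n) := fun k =>
    int_cs hΩ hη.continuous hηc hηt ((cct k).mul (ctr k))
  have irhs : ∀ k a, Integrable (fun z => η z * ((1 - ct h C (ek k) ((A.e i).symm z)) *
      (4 * qf (Rf h C (ek k) i ((A.e i).symm z)) (w a)))) (lc n) := fun k a =>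
    int_cs hΩ hη.continuous hηc hηt ((cct k).mul (continuousOn_const.mul
      (cont_qf hC (ek_pos k) i (w a))))
  have hlimR : Tendsto (fun k => |T1| * T / 4 * ∑ a, ∫ z, η z *
      ((1 - ct h C (ek k) ((A.e i).symm z)) *
      (4 * qf (Rf h C (ek k) i ((A.e i).symm z)) (w a))) ∂(lc n)) atTop (𝓝 0) := by
    have h1 := (tendsto_finsetSum Finset.univ fun a _ => hdir a).const_mul (|T1| * T / 4)
    simpa using h1
  refine tendsto_of_tendsto_of_tendsto_of_le_of_le tendsto_const_nhds hlimR (fun k => ?_)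
    (fun k => ?_)
  · refine integral_nonneg fun z => ?_
    by_cases hz : z ∈ tsupport η
    · refine mul_nonneg (hη0 z) (mul_nonneg (one_sub_ct_nonneg hC (ek_pos k) _) ?_)
      have hx := (A.e i).map_target (hηt hz)
      exact tr_re_nonneg (K.pos i _ hx) (Rf_psd hC (ek_pos k) hx)
    · simp [image_eq_zero_of_notMem_tsupport hz]
  · show ∫ z, η z * ((1 - ct h C (ek k) ((A.e i).symm z)) *
      (trC K (Rf h C (ek k)) i ((A.e i).symm z)).re) ∂(lc n) ≤ _
    rw [← integral_finsetSum _ fun a _ => irhs k a, ← integral_const_mul]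
    refine integral_mono (ilhs k) ((integrable_finsetSum _ fun a _ => irhs k a).const_mul _)
      fun z => ?_
    by_cases hz : z ∈ tsupport η
    · have hx := (A.e i).map_target (hηt hz)
      set X := Rf h C (ek k) i ((A.e i).symm z) with hX
      have hXp : X.PosSemidef := Rf_psd hC (ek_pos k) hx
      have hg : ((K.g i ((A.e i).symm z))⁻¹).PosSemidef := (K.pos i _ hx).inv.posSemidef
      have h1 : (trC K (Rf h C (ek k)) i ((A.e i).symm z)).re ≤ |T1| * (T * ∑ a, qf X (w a)) := by
        have h2 := trace_mul_le hg hXp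
        have h3 : (((K.g i ((A.e i).symm z))⁻¹).trace * X.trace).re =
            ((K.g i ((A.e i).symm z))⁻¹).trace.re * X.trace.re := by
          have h4 : X.trace.im = 0 := by
            have := (Complex.le_def.1 hXp.trace_nonneg).2
            simpa using this.symm
          rw [Complex.mul_re, h4, mul_zero, sub_zero]
        rw [h3] at h2
        refine h2.trans ?_
        have h5 : 0 ≤ X.trace.re := (Complex.le_def.1 hXp.trace_nonneg).1
        exact mul_le_mul (hT1' z hz) (hT X hXp) h5 (abs_nonneg _)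
      have h6 : 0 ≤ η z * (1 - ct h C (ek k) ((A.e i).symm z)) :=
        mul_nonneg (hη0 z) (one_sub_ct_nonneg hC (ek_pos k) _)
      calc η z * ((1 - ct h C (ek k) ((A.e i).symm z)) *
            (trC K (Rf h C (ek k)) i ((A.e i).symm z)).re)
          = η z * (1 - ct h C (ek k) ((A.e i).symm z)) *
            (trC K (Rf h C (ek k)) i ((A.e i).symm z)).re := by ring
        _ ≤ η z * (1 - ct h C (ek k) ((A.e i).symm z)) * (|T1| * (T * ∑ a, qf X (w a))) :=
            mul_le_mul_of_nonneg_left h1 h6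
        _ = |T1| * T / 4 * ∑ a, η z * ((1 - ct h C (ek k) ((A.e i).symm z)) *
            (4 * qf X (w a))) := by
            simp only [Finset.mul_sum]
            refine Finset.sum_congr rfl fun a _ => by ring
    · simp only [image_eq_zero_of_notMem_tsupport hz, zero_mul, Finset.sum_const_zero, mul_zero,
        le_refl]

end lim

end

end Crest.Agent.R281.Mov_625
end

-- ▼ part R281/Mov6_625
section

/-!
# Row 281, task MOV (helper625), part 6: `∫ θ² K^(n-2) ≥ 0` for a movable class

* `glob_lim` : `∫ (1 - ct) tr g⁻¹Rf → 0` on `M`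
* `int_q2_nonneg`, `II_mov` : `0 ≤ ∫ θ ∧ θ ∧ K^(n-2)` for sections with `Star`
-/

set_option autoImplicit false
set_option linter.unusedSectionVars false

open Set Filter Topology Complex MeasureTheory Metric
open scoped ContDiff Matrix ComplexConjugate ComplexOrder

namespace Crest.Agent.R281.Mov_625

open Crest.Agent.R275 Crest.Agent.R275.Geo Crest.Agent.R275.Core144 Crest.Agent.R275.EDR890
open Crest.Agent.R275.C1d194 Crest.Agent.R275.Pai323
open Crest.Agent.R273.Defs_333 Crest.Agent.R273.Hess_333 Crest.Agent.R273.HessB_333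
open Crest.Agent.R273.HM_333 Crest.Agent.R273.Kah_333 Crest.Agent.R273.Vol_333
open Crest.Agent.R273.Vm_333
open Crest.Agent.R273.Green_5 Crest.Agent.R273.FIa0_597 Crest.Agent.R273.FIb0_597
open Crest.Agent.R273.FIc0_597 Crest.Agent.R273 Crest.Agent.R273.AppA_834
open Crest.Agent.R273.TLd_201
open Crest.Agent.R281.Glob1_484 Crest.Agent.R281.Glob2_484 Crest.Agent.R281.Ti_846
open Crest.Agent.R281.HkR_835 Crest.Agent.R281.Nef_252

noncomputable section

variable {n N : ℕ} {M : Type} [TopologicalSpace M] {A : Atl n M} {L : LB A} {h : HM L}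
  {C : Fin N → A.ι → M → ℂ}

section glob

variable [T2Space M] [CompactSpace M] [Fintype A.ι] [MeasurableSpace M] [BorelSpace M]

/-- the function which tends to zero in `L¹` -/
def fk (K : Kah A) (h : HM L) (C : Fin N → A.ι → M → ℂ) (k : ℕ) (x : M) : ℝ :=
  (1 - ct h C (ek k) x) * trM K (Rf h C (ek k)) x

theorem fk_nonneg (K : Kah A) (hC : ∀ j, IsHS L univ (C j)) (k : ℕ) (x : M) :
    0 ≤ fk K h C k x :=
  mul_nonneg (one_sub_ct_nonneg hC (ek_pos k) x)
    (trM_nonneg K (fun _ _ hx => Rf_psd hC (ek_pos k) hx) x)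

theorem cont_fk (K : Kah A) (hC : ∀ j, IsHS L univ (C j)) (k : ℕ) :
    Continuous (fk K h C k) :=
  (continuous_const.sub (cont_sm (sm_ct hC (ek_pos k)))).mul
    (cont_trM K (tf_Rf hC (ek_pos k)))

theorem loc_glob (K : Kah A) (hC : ∀ j, IsHS L univ (C j))
    (hS : Star A {x | nrm h C x = 0}) {B : ℝ}
    (hlog : ∫⁻ x, ‖Real.log (nrm h C x)‖ₑ ∂(vm (volK K)) ≤ ENNReal.ofReal B) (x₀ : M) :
    ∃ V ∈ 𝓝 x₀, ∃ θ : M → ℝ, Continuous θ ∧ (∀ x, 0 ≤ θ x) ∧ (∀ x ∈ V, 1 ≤ θ x) ∧
      Tendsto (fun k => ∫ x, θ x * fk K h C k x ∂(vm (volK K))) atTop (𝓝 0) := by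
  set i := ch A x₀ with hi
  have hx₀ : x₀ ∈ (A.e i).source := mem_ch A x₀
  obtain ⟨r, hr, hball, w, hw⟩ := hS i (A.e i x₀) ((A.e i).map_source hx₀)
  set z₀ := A.e i x₀ with hz₀
  let φ : ContDiffBump z₀ := ⟨r / 4, r / 2, by positivity, by linarith⟩
  have hφs : ContDiff ℝ ∞ φ := φ.contDiff
  have hφc : HasCompactSupport φ := φ.hasCompactSupport
  have hφt : tsupport φ ⊆ ball z₀ r := by
    rw [φ.tsupport_eq]
    exact closedBall_subset_ball (by show r / 2 < r; linarith)
  have hφtt : tsupport φ ⊆ (A.e i).target := hφt.trans hball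
  have hφ0 : ∀ z, 0 ≤ φ z := fun z => φ.nonneg
  set θ : M → ℝ := CLin_933.ext0 A i φ with hθ
  have hθs : A.Sm θ := CLin_933.ext0_sm hφs hφc hφtt
  have cθ : Continuous θ := cont_sm hθs
  have hθ0 : ∀ x, 0 ≤ θ x := by
    intro x
    by_cases hx : x ∈ (A.e i).source
    · rw [hθ, CLin_933.ext0_mem hx]; exact hφ0 _
    · rw [hθ, CLin_933.ext0_off hx]
  set V : Set M := (A.e i).source ∩ (A.e i) ⁻¹' ball z₀ (r / 4) with hV
  have hVo : IsOpen V := (A.e i).isOpen_inter_preimage isOpen_ball
  refine ⟨V, hVo.mem_nhds ⟨hx₀, mem_ball_self (by positivity)⟩, θ, cθ, hθ0, ?_, ?_⟩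
  · rintro x ⟨hx, hxb⟩
    rw [hθ, CLin_933.ext0_mem hx]
    exact (φ.one_of_mem_closedBall (ball_subset_closedBall hxb)).ge
  -- reading in the chart
  have hread : ∀ k, ∫ x, θ x * fk K h C k x ∂(vm (volK K)) =
      ∫ z, φ z * ((volK K).w i ((A.e i).symm z) * fk K h C k ((A.e i).symm z)) ∂(lc n) := by
    intro k
    have h1 : ∫ x, θ x * fk K h C k x ∂(vm (volK K)) =
        ∫ x in (A.e i).source, θ x * fk K h C k x ∂(vm (volK K)) := by
      symm
      refine setIntegral_eq_integral_of_forall_compl_eq_zero fun x hx => ?_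
      rw [hθ, CLin_933.ext0_off hx, zero_mul]
    have h2 := setInt_chart (volK K) i (cθ.mul (cont_fk (h := h) K hC k))
    rw [h1]
    refine h2.trans ?_
    have h3 : ∫ z in (A.e i).target, (volK K).w i ((A.e i).symm z) *
        (θ ((A.e i).symm z) * fk K h C k ((A.e i).symm z)) ∂(lc n) =
        ∫ z in (A.e i).target, φ z * ((volK K).w i ((A.e i).symm z) *
          fk K h C k ((A.e i).symm z)) ∂(lc n) := by
      refine setIntegral_congr_fun (A.e i).open_target.measurableSet fun z hz => ?_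
      simp only [hθ, CLin_933.ext0_read hz]
      ring
    refine h3.trans (setIntegral_eq_integral_of_forall_compl_eq_zero fun z hz => ?_)
    rw [image_eq_zero_of_notMem_tsupport fun h' => hz (hφtt h'), zero_mul]
  -- bound of the density
  have cw : ContinuousOn (fun z => (volK K).w i ((A.e i).symm z)) (A.e i).target :=
    ContDiffOn.continuousOn ((volK K).sm i)
  obtain ⟨W, hW⟩ := hφc.isCompact.exists_bound_of_continuousOn (cw.mono hφtt)
  have hlog' : ∀ Q : Set (Cn n), IsCompact Q → Q ⊆ (A.e i).target →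
      IntegrableOn (fun z => Real.log (nrm h C ((A.e i).symm z))) Q (lc n) := fun Q hQ hQt =>
    intOn_chart (volK K) i (f := fun x => Real.log (nrm h C x))
      (Real.measurable_log.comp (cont_sm (sm_nrm hC)).measurable) hlog hQ hQt
  have hT := tr_lim K hC i hball w (fun a => by
    filter_upwards [hw a] with z hz hzb s hs
    exact hz hzb s hs) hlog' hφs hφc hφt hφ0
  have hT' := hT.const_mul |W|
  rw [mul_zero] at hT'
  have cfk : ∀ k, ContinuousOn (fun z => fk K h C k ((A.e i).symm z)) (A.e i).target := fun k =>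
    (cont_fk (h := h) K hC k).comp_continuousOn (A.e i).continuousOn_symm
  have hfe : ∀ k, ∀ z ∈ (A.e i).target, fk K h C k ((A.e i).symm z) =
      (1 - ct h C (ek k) ((A.e i).symm z)) *
        (trC K (Rf h C (ek k)) i ((A.e i).symm z)).re := by
    intro k z hz
    unfold fk
    rw [trM_eq K (tf_Rf hC (ek_pos k)) ((A.e i).map_target hz)]
  refine tendsto_of_tendsto_of_tendsto_of_le_of_le tendsto_const_nhds hT'
    (fun k => integral_nonneg fun x => mul_nonneg (hθ0 x) (fk_nonneg K hC k x)) (fun k => ?_)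
  show ∫ x, θ x * fk K h C k x ∂(vm (volK K)) ≤ _
  rw [hread k, ← integral_const_mul]
  have i1 := int_cs (A.e i).open_target hφs.continuous hφc hφtt (cw.mul (cfk k))
  have i2 : Integrable (fun z => φ z * ((1 - ct h C (ek k) ((A.e i).symm z)) *
      (trC K (Rf h C (ek k)) i ((A.e i).symm z)).re)) (lc n) :=
    int_cs (A.e i).open_target hφs.continuous hφc hφtt
      ((cfk k).congr fun z hz => (hfe k z hz).symm)
  refine integral_mono i1 (i2.const_mul _) fun z => ?_
  by_cases hz : z ∈ tsupport φ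
  · have h1 := hW z hz
    rw [Real.norm_eq_abs] at h1
    have h2 : (volK K).w i ((A.e i).symm z) ≤ |W| := (le_abs_self _).trans (h1.trans
      (le_abs_self _))
    have h3 : 0 ≤ φ z * fk K h C k ((A.e i).symm z) := mul_nonneg (hφ0 z) (fk_nonneg K hC k _)
    calc φ z * ((volK K).w i ((A.e i).symm z) * fk K h C k ((A.e i).symm z))
        = (volK K).w i ((A.e i).symm z) * (φ z * fk K h C k ((A.e i).symm z)) := by ring
      _ ≤ |W| * (φ z * fk K h C k ((A.e i).symm z)) := mul_le_mul_of_nonneg_right h2 h3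
      _ = |W| * (φ z * ((1 - ct h C (ek k) ((A.e i).symm z)) *
          (trC K (Rf h C (ek k)) i ((A.e i).symm z)).re)) := by rw [hfe k z (hφtt hz)]
  · simp only [image_eq_zero_of_notMem_tsupport hz, zero_mul, mul_zero, le_refl]

/-- **the global limit** -/
theorem glob_lim (K : Kah A) (hC : ∀ j, IsHS L univ (C j))
    (hS : Star A {x | nrm h C x = 0}) {B : ℝ}
    (hlog : ∫⁻ x, ‖Real.log (nrm h C x)‖ₑ ∂(vm (volK K)) ≤ ENNReal.ofReal B) :
    Tendsto (fun k => ∫ x, fk K h C k x ∂(vm (volK K))) atTop (𝓝 0) := by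
  have := isFinite_vm (volK K)
  choose V hV θ hθc hθ0 hθ1 hθl using loc_glob K hC hS hlog
  obtain ⟨t, ht⟩ := CompactSpace.elim_nhds_subcover V hV
  have h1 : Tendsto (fun k => ∑ y ∈ t, ∫ x, θ y x * fk K h C k x ∂(vm (volK K))) atTop
      (𝓝 0) := by
    have := tendsto_finsetSum t fun y _ => hθl y
    simpa using this
  refine tendsto_of_tendsto_of_tendsto_of_le_of_le tendsto_const_nhds h1
    (fun k => integral_nonneg fun x => fk_nonneg K hC k x) (fun k => ?_)
  have hi : ∀ y ∈ t, Integrable (fun x => θ y x * fk K h C k x) (vm (volK K)) := fun y _ =>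
    integrable_cont _ ((hθc y).mul (cont_fk K hC k))
  show ∫ x, fk K h C k x ∂(vm (volK K)) ≤ _
  rw [← integral_finsetSum t hi]
  refine integral_mono (integrable_cont _ (cont_fk K hC k)) (integrable_finsetSum t hi)
    fun x => ?_
  have hx : x ∈ ⋃ y ∈ t, V y := by rw [ht]; trivial
  simp only [mem_iUnion, exists_prop] at hx
  obtain ⟨y, hy, hxy⟩ := hx
  have h2 : fk K h C k x ≤ θ y x * fk K h C k x := by
    have := mul_le_mul_of_nonneg_right (hθ1 y x hxy) (fk_nonneg (h := h) K hC k x)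
    rwa [one_mul] at this
  refine h2.trans (Finset.single_le_sum (f := fun y => θ y x * fk K h C k x)
    (fun y _ => mul_nonneg (hθ0 y x) (fk_nonneg K hC k x)) hy)

/-! ### the form -/

/-- `G + i∂∂̄u` -/
def addU (G : K11 A) (u : M → ℝ) (hu : A.Sm u) : K11 A where
  g i x := G.g i x + hsf A u i x
  sm i a b := (G.sm i a b).add ((hsf_cf hu).sm i a b)
  herm i x hx := (G.herm i x hx).add (hess_herm (sm_contDiffAt hu i ((A.e i).map_source hx)))
  tr i j x hx := by
    rw [G.tr i j x hx, (tf_hsf hu).tr i j x hx, Matrix.mul_add, Matrix.add_mul]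
  closed := (CF.add (g := G.g) ⟨G.sm, G.tr, G.closed⟩ (hsf_cf hu)).closed

theorem ct_tend {x : M} (hx : 0 < nrm h C x) :
    Tendsto (fun k => 1 - ct h C (ek k) x) atTop (𝓝 0) := by
  have h1 : Tendsto (fun k => nrm h C x + ek k) atTop (𝓝 (nrm h C x + 0)) :=
    tendsto_const_nhds.add ek_tend
  rw [add_zero] at h1
  have h2 : Tendsto (fun k => nrm h C x / (nrm h C x + ek k)) atTop (𝓝 1) := by
    have := (tendsto_const_nhds (x := nrm h C x)).div h1 hx.ne'
    rwa [div_self hx.ne'] at this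
  have h3 := (tendsto_const_nhds (x := (1 : ℝ))).sub h2
  rwa [sub_self] at h3

theorem sq_lim (K : Kah A) (hC : ∀ j, IsHS L univ (C j))
    (hae : ∀ᵐ x ∂(vm (volK K)), 0 < nrm h C x) :
    Tendsto (fun k => ∫ x, (1 - ct h C (ek k) x) ^ 2 ∂(vm (volK K))) atTop (𝓝 0) := by
  have := isFinite_vm (volK K)
  have key := tendsto_integral_of_dominated_convergence (μ := vm (volK K))
    (F := fun k x => (1 - ct h C (ek k) x) ^ 2) (f := fun _ => (0 : ℝ)) (fun _ => (1 : ℝ))
    (fun k => ((continuous_const.sub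
      (cont_sm (sm_ct hC (ek_pos k)))).pow 2).aestronglyMeasurable)
    (integrable_const _) (fun k => Eventually.of_forall fun x => ?_) ?_
  · simpa using key
  · have h1 := one_sub_ct_nonneg (h := h) hC (ek_pos k) x
    have h2 := ct_nonneg (h := h) hC (ek_pos k) x
    rw [Real.norm_of_nonneg (sq_nonneg _)]
    exact pow_le_one₀ h1 (by linarith)
  · filter_upwards [hae] with x hx
    have := (ct_tend hx).pow 2
    simpa using this

/-- pointwise lower bound -/
theorem q2_lower (K : Kah A) (hC : ∀ j, IsHS L univ (C j)) :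
    ∃ B C₁ : ℝ, ∀ k, ∀ x, -(2 * B) * fk K h C k x - C₁ * (1 - ct h C (ek k) x) ^ 2 ≤
      q2 K (addU (curK h) (ue h C (ek k)) (sm_ue hC (ek_pos k))).g
        (addU (curK h) (ue h C (ek k)) (sm_ue hC (ek_pos k))).g x := by
  have c1 : Continuous (tr2M K (cur h) (cur h)) := cont_tr2M K (tf_cur h) (tf_cur h)
  have c2 : Continuous (trM K (cur h)) := cont_trM K (tf_cur h)
  obtain ⟨B1, hB10, hB1⟩ := exists_bd c2
  obtain ⟨B2, hB20, hB2⟩ := exists_bd c1
  refine ⟨B1 + Real.sqrt B2, B1 ^ 2 + B2, fun k x => ?_⟩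
  set i := ch A x with hi
  have hx : x ∈ (A.e i).source := mem_ch A x
  have hG := K.pos i x hx
  have hR := Rf_psd (h := h) hC (ek_pos k) hx
  have hθ := cur_herm h i hx
  set c : ℝ := 1 - ct h C (ek k) x with hc
  have hc0 : 0 ≤ c := one_sub_ct_nonneg hC (ek_pos k) x
  have e1 : (addU (curK h) (ue h C (ek k)) (sm_ue hC (ek_pos k))).g i x =
      Rf h C (ek k) i x + (c : ℂ) • cur h i x := by
    show cur h i x + hsf A (ue h C (ek k)) i x = _
    unfold Rf
    rw [hc, Complex.ofReal_sub, Complex.ofReal_one, sub_smul, one_smul]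
    abel
  have hB : -((((K.g i x)⁻¹ * Rf h C (ek k) i x).trace).re * (B1 + Real.sqrt B2)) ≤
      bl (K.g i x) (Rf h C (ek k) i x) (cur h i x) := by
    refine le_trans ?_ (bl_ge hG hR hθ)
    have h1 : 0 ≤ (((K.g i x)⁻¹ * Rf h C (ek k) i x).trace).re := tr_re_nonneg hG hR
    have h2 : |((K.g i x)⁻¹ * cur h i x).trace.re| ≤ B1 := hB1 x
    have h3 : Real.sqrt (((K.g i x)⁻¹ * cur h i x * ((K.g i x)⁻¹ * cur h i x)).trace).re ≤
        Real.sqrt B2 := Real.sqrt_le_sqrt ((le_abs_self _).trans (hB2 x))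
    have := mul_le_mul_of_nonneg_left (add_le_add h2 h3) h1
    linarith
  have h4 := bl_lower hG hR hB hc0
  have h5 : -(B1 ^ 2 + B2) ≤ bl (K.g i x) (cur h i x) (cur h i x) := by
    have h6 := bl_real K hx hθ hθ
    have h7 : bl (K.g i x) (cur h i x) (cur h i x) =
        ((K.g i x)⁻¹ * cur h i x).trace.re ^ 2 - tr2M K (cur h) (cur h) x := by
      have h8 := GreenM_5.trace_real hG.isHermitian hθ
      unfold bl
      rw [Complex.sub_re, ← h8, Complex.re_ofReal_mul, Complex.ofReal_re, sq]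
      rfl
    rw [h7]
    have h9 := (abs_le.1 (hB2 x)).2
    have h10 := sq_nonneg (((K.g i x)⁻¹ * cur h i x).trace.re)
    nlinarith [sq_nonneg B1]
  have h11 : fk K h C k x = c * (((K.g i x)⁻¹ * Rf h C (ek k) i x).trace).re := rfl
  unfold q2
  rw [← hi, e1, h11]
  have h12 := mul_le_mul_of_nonneg_left h5 (sq_nonneg c)
  linarith

/-- the form as an integral -/
theorem IM_two (K : Kah A) (P : RPart (ofAtl A)) (hn : 2 ≤ n) (G : K11 A) :
    IM (lc n) (bc n) P (FujP_513.mixv n 2 (ofKah K).f2 G.f2) =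
      2 ^ n * (n - 2).factorial * ∫ x, q2 K G.g G.g x ∂(vm (volK K)) := by
  classical
  have h01 : (⟨0, by omega⟩ : Fin n) ≠ ⟨1, by omega⟩ := by
    intro h; simpa using congrArg Fin.val h
  set X : Fin n → K11 A := fun j => if (j : ℕ) < 2 then G else ofKah K with hX
  have h1 : FujP_513.mixv n 2 (ofKah K).f2 G.f2 = fun j => (X j).f2 := by
    funext j
    unfold FujP_513.mixv
    by_cases hj : (j : ℕ) < 2
    · rw [if_pos hj, hX]
      exact congrArg K11.f2 (if_pos hj).symm
    · rw [if_neg hj, hX]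
      exact congrArg K11.f2 (if_neg hj).symm
  rw [h1, IM_apply]
  have hTG : TF A G.g := ⟨G.sm, G.tr⟩
  refine II_two K P h01 X (fun j hj0 hj1 => ?_) (f := q2 K G.g G.g) fun i x hx => ?_
  · have : ¬ (j : ℕ) < 2 := by
      intro h2
      have h3 : (j : ℕ) ≠ 0 := fun h => hj0 (Fin.ext h)
      have h4 : (j : ℕ) ≠ 1 := fun h => hj1 (Fin.ext h)
      omega
    exact if_neg this
  · have h2 : X ⟨0, by omega⟩ = G := if_pos (by show 0 < 2; omega)
    have h3 : X ⟨1, by omega⟩ = G := if_pos (by show 1 < 2; omega)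
    rw [h2, h3, q2_eq K hTG hTG hx]
    exact bl_real K hx (G.herm i x hx) (G.herm i x hx)

theorem IM_add (K : Kah A) (P : RPart (ofAtl A)) (G : K11 A) (u : M → ℝ)
    (hu : A.Sm u) : IM (lc n) (bc n) P (FujP_513.mixv n 2 (ofKah K).f2 (addU G u hu).f2) =
      IM (lc n) (bc n) P (FujP_513.mixv n 2 (ofKah K).f2 G.f2) := by
  refine IM_coh (lc n) (bc n) P (ori_ofAtl A) fun j => ?_
  unfold FujP_513.mixv
  by_cases hj : (j : ℕ) < 2
  · rw [if_pos hj, if_pos hj]
    exact Fuj3_207.ex_sub u hu _ _ fun _ _ _ => rfl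
  · rw [if_neg hj, if_neg hj, sub_self]
    exact (Ti_846.exS (ofAtl A)).zero_mem

/-- **`∫ θ² K^(n-2) ≥ 0` for a movable class** -/
theorem IM_mov [ConnectedSpace M] (P' : Geo.Part A) (K : Kah A) (P : RPart (ofAtl A))
    (hn : 2 ≤ n) (hC : ∀ j, IsHS L univ (C j)) (hS : Star A {x | nrm h C x = 0}) :
    0 ≤ IM (lc n) (bc n) P (FujP_513.mixv n 2 (ofKah K).f2 (curK h).f2) := by
  have hfin := isFinite_vm (volK K)
  have hop := isOpenPos_vm (volK K)
  have cN : Continuous (nrm h C) := cont_sm (sm_nrm hC)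
  have hZ : IsClosed {x | nrm h C x = 0} := isClosed_eq cN continuous_const
  have hae : ∀ᵐ x ∂(vm (volK K)), 0 < nrm h C x := by
    filter_upwards [hS.ae_pos (by omega) hZ (volK K)] with x hx
    exact lt_of_le_of_ne (nrm_nonneg hC x) (Ne.symm hx)
  obtain ⟨B, hB⟩ := int_abs_ue P' K hC (h := h) (by
    have : (ae (vm (volK K))).NeBot := by
      rw [ae_neBot]
      intro h0
      have := IsOpen.measure_pos (vm (volK K)) (isOpen_univ (X := M)) univ_nonempty
      rw [h0] at this
      simp at this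
    exact hae.exists)
  have hlog := lint_log hC hae hB
  have hl1 := glob_lim K hC hS hlog
  have hl2 := sq_lim K hC hae
  obtain ⟨B', C₁, hq⟩ := q2_lower (h := h) (C := C) K hC
  have hlim : Tendsto (fun k => 2 ^ n * ((n - 2).factorial : ℝ) *
      (-(2 * B') * ∫ x, fk K h C k x ∂(vm (volK K)) -
        C₁ * ∫ x, (1 - ct h C (ek k) x) ^ 2 ∂(vm (volK K)))) atTop (𝓝 0) := by
    have := ((hl1.const_mul (-(2 * B'))).sub (hl2.const_mul C₁)).const_mul
      (2 ^ n * ((n - 2).factorial : ℝ))
    simpa using this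
  refine le_of_tendsto hlim (Eventually.of_forall fun k => ?_)
  rw [← IM_add K P (curK h) (ue h C (ek k)) (sm_ue hC (ek_pos k)), IM_two K P hn]
  refine mul_le_mul_of_nonneg_left ?_ (by positivity)
  have i1 : Integrable (fun x => fk K h C k x) (vm (volK K)) :=
    integrable_cont _ (cont_fk K hC k)
  have i2 : Integrable (fun x => (1 - ct h C (ek k) x) ^ 2) (vm (volK K)) :=
    integrable_cont _ ((continuous_const.sub (cont_sm (sm_ct hC (ek_pos k)))).pow 2)
  rw [← integral_const_mul, ← integral_const_mul, ← integral_sub (i1.const_mul _)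
    (i2.const_mul _)]
  refine integral_mono ((i1.const_mul _).sub (i2.const_mul _)) ?_ (hq k)
  refine integrable_cont _ ?_
  set G := addU (curK h) (ue h C (ek k)) (sm_ue hC (ek_pos k)) with hGd
  have hTG : TF A G.g := ⟨G.sm, G.tr⟩
  have h1 : q2 K G.g G.g = fun x => trM K G.g x ^ 2 - tr2M K G.g G.g x := by
    funext x
    have hx := mem_ch A x
    have h8 := GreenM_5.trace_real (K.pos _ x hx).isHermitian (G.herm _ x hx)
    unfold q2 bl trM trC tr2M en
    rw [Complex.sub_re, ← h8, Complex.re_ofReal_mul, Complex.ofReal_re, sq]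
  rw [h1]
  exact ((cont_trM K hTG).pow 2).sub (cont_tr2M K hTG hTG)

end glob

end

end Crest.Agent.R281.Mov_625
end

-- ▼ part R281/Mov7_625

/-!
# Row 281, task MOV (helper625), part 7: the class of a movable bundle orthogonal to an isotropic
nef class is proportional to it

* `Ray.q_nonneg`, `Ray.prop` : the algebra on 358's signature package `Sig`
* `star_of_cop`              : 22's `Cop` (no common divisor) gives `Star`
* `IM_mov_bcr`               : `∫ θ² K^(n-2) ≥ 0` in any numbering of the basis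
* `mov_prop`                 : **`q (c₁ N) ≥ 0` and `c₁ N = t • w` modulo exact forms** for a movable
                               bundle `N` orthogonal to the isotropic nef class `w`
-/

set_option autoImplicit false
set_option linter.unusedSectionVars false
set_option maxSynthPendingDepth 3

open Set Filter Topology Complex MeasureTheory Metric
open scoped ContDiff Matrix ComplexConjugate ComplexOrder

namespace Crest.Agent.R281.Mov_625

open Crest.Agent.R275 Crest.Agent.R275.Geo Crest.Agent.R275.Core144 Crest.Agent.R275.EDR890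
open Crest.Agent.R275.C1d194 Crest.Agent.R275.Pai323
open Crest.Agent.R273.Defs_333 Crest.Agent.R273.Hess_333 Crest.Agent.R273.HessB_333
open Crest.Agent.R273.HM_333 Crest.Agent.R273.Kah_333 Crest.Agent.R273.Vol_333
open Crest.Agent.R273.Vm_333
open Crest.Agent.R273.AppA_834
open Crest.Agent.R281.HkR_835 Crest.Agent.R281.Ti_846
open Crest.Agent.R281.Nef_252 (jA NefC KCls_jA curK)
open Crest.Agent.R281.FujP_513 (Symm mixv)
open Crest.Agent.R281.FujSig_358 (Sig second_polar q_line)
open Crest.Agent.R281.Fuj5_207 (E11 f2_mem)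
open Crest.Agent.R281.Fuj7_207 (Tn bn Tn_eq)

noncomputable section

namespace Ray

section

variable {H : Type*} [AddCommGroup H] [Module ℝ H] {n : ℕ}
  {T : MultilinearMap ℝ (fun _ : Fin (n + n) => H) ℝ}
  {q : QuadraticForm ℝ H} {Ex E11 : Submodule ℝ H} {r s K : H}

/-- **`q x ≥ 0`** if `∫ x² K_m^(n-2) ≥ 0` along a ray of Kaehler classes `om + m w`, `q w = 0`,
`q(om, w) > 0`, `q(x, w) = 0` -/
theorem q_nonneg (h : Sig T q Ex E11 r s K) {om w x : H} (hw : q w = 0)
    (how : 0 < QuadraticMap.polar q om w) (hxw : QuadraticMap.polar q x w = 0)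
    (hray : ∀ m : ℕ, ∃ y, y - (om + (m : ℝ) • w) ∈ Ex ∧ 0 ≤ T (mixv (n + n) 2 y x)) :
    0 ≤ q x := by
  set γ := QuadraticMap.polar q om w with hγ
  set β := QuadraticMap.polar q om x with hβ
  have hqk : ∀ y, ∀ m : ℕ, y - (om + (m : ℝ) • w) ∈ Ex → q y = q om + m * γ := by
    intro y m hy
    have h1 : y = (om + (m : ℝ) • w) + (y - (om + (m : ℝ) • w)) := by abel
    rw [h1, Sig.q_add, h.qex _ hy, h.ex _ _ hy, q_line, hw]
    ring
  have hpk : ∀ y, ∀ m : ℕ, y - (om + (m : ℝ) • w) ∈ Ex → QuadraticMap.polar q y x = β := by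
    intro y m hy
    have h1 : y = (om + (m : ℝ) • w) + (y - (om + (m : ℝ) • w)) := by abel
    rw [h1, QuadraticMap.polar_add_left, QuadraticMap.polar_add_left,
      QuadraticMap.polar_smul_left, QuadraticMap.polar_comm q w x, hxw,
      QuadraticMap.polar_comm q (y - (om + (m : ℝ) • w)) x, h.ex _ _ hy, smul_zero, add_zero,
      add_zero]
  have hn := h.pos
  have hn1 : (1 : ℝ) ≤ n := by exact_mod_cast hn
  -- the inequality along the ray
  have key : ∀ m : ℕ, 0 < q om + m * γ → 0 ≤ 2 * (q om + m * γ) * q x + (n - 1) * β ^ 2 := by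
    intro m hm
    obtain ⟨y, hy, hT⟩ := hray m
    have h1 := second_polar hn h.symm h.fuj y x
    rw [hqk y m hy, hpk y m hy] at h1
    set Q := q om + m * γ with hQ
    have h2 : 0 ≤ 2 * Q ^ (n - 1) * q x + (n - 1) * Q ^ (n - 2) * β ^ 2 := by
      rw [← h1]
      exact mul_nonneg (by linarith) hT
    rcases Nat.lt_or_ge n 2 with h3 | h3
    · have h4 : n = 1 := by omega
      subst h4
      simp only [Nat.sub_self, pow_zero, mul_one, Nat.cast_one, sub_self, zero_mul, add_zero]
        at h2 ⊢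
      have h5 : 0 ≤ q x := by linarith
      positivity
    · obtain ⟨j, rfl⟩ : ∃ j, n = j + 2 := ⟨n - 2, by omega⟩
      have e1 : j + 2 - 1 = j + 1 := rfl
      have e2 : j + 2 - 2 = j := rfl
      rw [e1, e2] at h2
      have h4 : 2 * Q ^ (j + 1) * q x + (((j + 2 : ℕ) : ℝ) - 1) * Q ^ j * β ^ 2 =
          Q ^ j * (2 * Q * q x + (((j + 2 : ℕ) : ℝ) - 1) * β ^ 2) := by ring
      rw [h4] at h2
      exact nonneg_of_mul_nonneg_right h2 (pow_pos hm j)
  by_contra hc
  push Not at hc
  -- choose `m` large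
  set D : ℝ := (n - 1) * β ^ 2 / (-(2 * q x)) with hD
  have hqx : 0 < -(2 * q x) := by linarith
  obtain ⟨m, hm⟩ := exists_nat_gt ((|q om| + |D| + 1) / γ)
  rw [div_lt_iff₀ how] at hm
  have h1 : |D| + 1 < q om + m * γ := by
    have := neg_abs_le (q om)
    linarith
  have h2 := key m (by have := abs_nonneg D; linarith)
  have h3 : D < q om + m * γ := by have := le_abs_self D; linarith
  rw [hD, div_lt_iff₀ hqx] at h3
  nlinarith

/-- **proportionality** -/
theorem prop (h : Sig T q Ex E11 r s K) {w x : H} (hw : q w = 0) (hwn : w ∉ Ex)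
    (hw11 : w ∈ E11) (hx11 : x ∈ E11) (hxw : QuadraticMap.polar q x w = 0) (hx : 0 ≤ q x) :
    ∃ t : ℝ, x - t • w ∈ Ex := by
  have hwr : QuadraticMap.polar q w r = 0 := by rw [QuadraticMap.polar_comm]; exact h.r11 w hw11
  have hws : QuadraticMap.polar q w s = 0 := by rw [QuadraticMap.polar_comm]; exact h.s11 w hw11
  have hxr : QuadraticMap.polar q x r = 0 := by rw [QuadraticMap.polar_comm]; exact h.r11 x hx11
  have hxs : QuadraticMap.polar q x s = 0 := by rw [QuadraticMap.polar_comm]; exact h.s11 x hx11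
  set α := QuadraticMap.polar q w K with hα
  have hα0 : α ≠ 0 := by
    intro h0
    exact hwn ((h.neg hwr hws h0).2 hw)
  set β := QuadraticMap.polar q x K with hβ
  set t : ℝ := β / α with ht
  refine ⟨t, ?_⟩
  have h1 : QuadraticMap.polar q (x - t • w) r = 0 := by
    rw [QuadraticMap.polar_sub_left, QuadraticMap.polar_smul_left, hxr, hwr]; simp
  have h2 : QuadraticMap.polar q (x - t • w) s = 0 := by
    rw [QuadraticMap.polar_sub_left, QuadraticMap.polar_smul_left, hxs, hws]; simp
  have h3 : QuadraticMap.polar q (x - t • w) K = 0 := by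
    rw [QuadraticMap.polar_sub_left, QuadraticMap.polar_smul_left, ← hβ, ← hα, ht, smul_eq_mul,
      div_mul_cancel₀ _ hα0, sub_self]
  have h4 := h.neg h1 h2 h3
  have h5 : q (x - t • w) = q x := by
    have := q_line q x w (-t)
    rw [neg_smul, ← sub_eq_add_neg] at this
    rw [this, hxw, hw]
    ring
  refine h4.2 (le_antisymm h4.1 ?_)
  rw [h5]
  exact hx

end

end Ray

/-! ### the geometric statement -/

variable {d : ℕ} {M : Type} [TopologicalSpace M] {A : Atl d M}

/-- sections without common divisor satisfy `Star` -/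
theorem star_of_cop {N : LB A} (h : HM N) {m : ℕ} {t : Fin m → A.ι → M → ℂ}
    (ht : ∀ j, IsHS N univ (t j))
    (hcop : ∀ i, ∀ x ∈ (A.e i).source, Kd_22.Cop A (fun j => t j i) x) :
    Star A {x | nrm h t x = 0} := by
  intro i z₀ hz₀
  obtain ⟨r, hr, hb, w, hw⟩ := Kd_22.star_chart (lc d) ht hcop i hz₀
  refine ⟨r, hr, hb, w, fun a => ?_⟩
  filter_upwards [hw a] with z hz hzb s hs
  obtain ⟨j, hj⟩ := hz hzb s hs
  have hzt := hb hs
  have hx := (A.e i).map_target hzt
  have h1 : 0 < nrm h t ((A.e i).symm (z + s • w a)) := (nrm_pos_iff ht hx).2 ⟨j, hj⟩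
  exact fun h0 => h1.ne' h0

variable [T2Space M] [CompactSpace M] [ConnectedSpace M] [Finite A.ι]

/-- **`∫ θ² K^(d-2) ≥ 0`** without measure-theoretic instances -/
theorem IM_mov' (P' : Geo.Part A) (K : Kah A) (P : RPart (ofAtl A)) (hd : 2 ≤ d) {N : LB A}
    (h : HM N) {m : ℕ} {t : Fin m → A.ι → M → ℂ} (ht : ∀ j, IsHS N univ (t j))
    (hS : Star A {x | nrm h t x = 0}) :
    0 ≤ IM (lc d) (bc d) P (mixv d 2 (ofKah K).f2 (curK h).f2) := by
  classical
  have := Fintype.ofFinite A.ι
  let _ : MeasurableSpace M := borel M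
  have : BorelSpace M := ⟨rfl⟩
  exact IM_mov P' K P hd ht hS

theorem Tn_mov {ν : ℕ} (hd : d = ν + ν) (hν : 1 ≤ ν) (P : Geo.Part A) (K : Kah A) {N : LB A}
    (h : HM N) {m : ℕ} {t : Fin m → A.ι → M → ℂ} (ht : ∀ j, IsHS N univ (t j))
    (hS : Star A {x | nrm h t x = 0}) :
    0 ≤ Tn hd P (mixv (ν + ν) 2 (ofKah K).f2 (curK h).f2) := by
  subst hd
  have h1 := IM_mov' P K (RPart.ofPart P) (by omega) h ht hS
  have e : Tn rfl P = IM (lc (ν + ν)) (bc (ν + ν)) (RPart.ofPart P) := by
    unfold Tn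
    rw [Crest.Agent.R281.Fuj7_207.bn_rfl]
  rw [e]
  exact h1

/-- **MOV**: the class of a movable line bundle `N` (sections `t j` without common divisor) which is
orthogonal to the isotropic nef class `w` is nonnegative and proportional to `w` -/
theorem mov_star {ν : ℕ} (hd : d = ν + ν) (P : Geo.Part A) {q : QuadraticForm ℝ (F2 (ofAtl A))}
    {r s k : F2 (ofAtl A)} (S : Sig (Tn hd P) q (exS (ofAtl A)) (E11 A) r s k)
    {om w : F2 (ofAtl A)} (hw : NefC (jA A) om w) (h11 : w ∈ E11 A) (hww : q w = 0)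
    (how : 0 < QuadraticMap.polar q om w) {N : LB A} (h : HM N)
    (hNw : QuadraticMap.polar q (curK h).f2 w = 0) {m : ℕ} {t : Fin m → A.ι → M → ℂ}
    (ht : ∀ j, IsHS N univ (t j)) (hS : Star A {x | nrm h t x = 0}) :
    0 ≤ q (curK h).f2 ∧ ∃ a : ℝ, Ex ((curK h).f2 - a • w) := by
  have h1 : 0 ≤ q (curK h).f2 := by
    refine Ray.q_nonneg S hww how hNw fun m => ?_
    obtain ⟨K', hK'⟩ := (KCls_jA _).1 (hw m)
    exact ⟨(ofKah K').f2, hK', Tn_mov hd S.pos P K' h ht hS⟩
  refine ⟨h1, ?_⟩
  obtain ⟨a, ha⟩ := Ray.prop S hww (fun hx => how.ne' (S.ex om w hx)) h11 (f2_mem (curK h)) hNw h1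
  exact ⟨a, ha⟩

/-- **MOV** with 22's `Cop` -/
theorem mov_prop {ν : ℕ} (hd : d = ν + ν) (P : Geo.Part A) {q : QuadraticForm ℝ (F2 (ofAtl A))}
    {r s k : F2 (ofAtl A)} (S : Sig (Tn hd P) q (exS (ofAtl A)) (E11 A) r s k)
    {om w : F2 (ofAtl A)} (hw : NefC (jA A) om w) (h11 : w ∈ E11 A) (hww : q w = 0)
    (how : 0 < QuadraticMap.polar q om w) {N : LB A} (h : HM N)
    (hNw : QuadraticMap.polar q (curK h).f2 w = 0) {m : ℕ} {t : Fin m → A.ι → M → ℂ}
    (ht : ∀ j, IsHS N univ (t j))
    (hcop : ∀ i, ∀ x ∈ (A.e i).source, Kd_22.Cop A (fun j => t j i) x) :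
    0 ≤ q (curK h).f2 ∧ ∃ a : ℝ, Ex ((curK h).f2 - a • w) :=
  mov_star hd P S hw h11 hww how h hNw ht (star_of_cop h ht hcop)

end

end Crest.Agent.R281.Mov_625
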