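import Crest.Agent.R281.Pjx1_648
import Crest.Agent.R281.Cdr6_234
import Crest.Agent.R281.HkR9_835
import Crest.Agent.R272.Kod8_410

/-!
# R281 (S0424), G26 PROJ-x (helper648), part 2: an integral Kaehler form of a hyperkaehler triple

* `cp_of_hol`  : holomorphic charts for an almost complex structure, change of atlas
* `hol_of_cp`  : two holomorphic atlases for the same almost complex structure
* `met H hA`   : the Kaehler metric of the triple `H` on a holomorphic atlas `A` of `J 0`
* `met_tr`     : its law under a change of atlas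
* `proj_on`    : `IntF (c • H.om 0)`, `c > 0` ==> on a refinement `A'` of `A` there is a line bundle
                 with a metric of curvature exactly `π c (met H hA')`, hence positive
* `proj_of_int`: the same without a given atlas, + `ProjD`
-/

set_option autoImplicit false
set_option linter.unusedSectionVars false
set_option maxSynthPendingDepth 3

open Set Filter Topology Complex
open scoped ContDiff Matrix ComplexConjugate ComplexOrder

namespace Crest.Agent.R281.Pjx_648

open Crest.Agent.R281.HkR_835 Crest.Agent.R281.Dif_268 Crest.Agent.R281.Cdr_234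
open Crest.Agent.R281.Ti_846 (Ex)
open Crest.Agent.R275.Geo Crest.Agent.R275.Core144 Crest.Agent.R275.GC293 Crest.Agent.R275.EDR890
open Crest.Agent.R273
open Crest.Agent.R273.Defs_333 Crest.Agent.R273.Hess_333 Crest.Agent.R273.HessB_333
open Crest.Agent.R273.Map_835 (HolMap dm Jp mem_dm holMap_id Jp_comp)
open Crest.Agent.R273.PB_835 (LBih Ref)
open Crest.Agent.R273.Kah_333 (Kah cur)
open Crest.Agent.R273.FS_333 (lb)
open Crest.Agent.R260.ACM_580 Crest.Agent.R260.NNB_580

noncomputable section

variable {d : ℕ} {X V : Type} [TopologicalSpace X] [NormedAddCommGroup V] [NormedSpace ℝ V]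
  {A A' : Atl d X}

/-! ### holomorphic atlases of an almost complex structure -/

/-- two holomorphic atlases of the same almost complex structure -/
theorem hol_of_cp {Cm : ACM V X} (hA : Cp Cm A) (hA' : Cp Cm A') : HolMap A' A id :=
  ⟨continuous_id, fun i j => (hA' i).holo (hA j)⟩

/-- a holomorphically compatible atlas is a holomorphic atlas -/
theorem cp_of_hol {Cm : ACM V X} (hA : Cp Cm A) (h : HolMap A' A id) (h' : HolMap A A' id) :
    Cp Cm A' := by
  intro a
  have key : ∀ i, ∀ z ∈ ovr Cm i (A'.e a), ∃ b : A.ι, z ∈ ovr Cm i (A.e b) ∧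
      A.e b ((Cm.e i).symm z) ∈ dm A A' id b a ∧
      (fun z => A'.e a ((Cm.e i).symm z)) =ᶠ[𝓝 z]
        (Map_835.rd A A' id b a) ∘ (fun z => A.e b ((Cm.e i).symm z)) := by
    intro i z hz
    obtain ⟨b, hb⟩ := A.cover ((Cm.e i).symm z)
    refine ⟨b, ⟨hz.1, hb⟩, mem_dm hb hz.2, ?_⟩
    filter_upwards [(isOpen_ovr i (A.e b)).mem_nhds (show z ∈ ovr Cm i (A.e b) from ⟨hz.1, hb⟩)]
      with w hw
    simp only [Function.comp, Map_835.rd, id]
    rw [(A.e b).left_inv hw.2]
  refine ⟨fun i z hz => ?_, fun i z hz => ?_, fun i z hz v => ?_⟩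
  · obtain ⟨b, hb, hd, he⟩ := key i z hz
    have h1 : ContDiffAt ℝ ∞ (fun z => A.e b ((Cm.e i).symm z)) z :=
      ((hA b).sm i).contDiffAt ((isOpen_ovr i (A.e b)).mem_nhds hb)
    have h2 := KpK_487.rd_smooth h' hd
    exact ((h2.comp z h1).congr_of_eventuallyEq he).contDiffWithinAt
  · obtain ⟨b, hb⟩ := A.cover ((A'.e a).symm z)
    have hd : z ∈ dm A' A id a b := ⟨hz.1, hb⟩
    have h1 := KpK_487.rd_smooth h hd
    have h2 : A.e b ((A'.e a).symm z) ∈ ovc Cm i (A.e b) := mem_ovc_of_source hb hz.2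
    have h3 : ContDiffAt ℝ ∞ (fun z => Cm.e i ((A.e b).symm z))
        (Map_835.rd A' A id a b z) :=
      ((hA b).sm' i).contDiffAt ((isOpen_ovc i (A.e b)).mem_nhds h2)
    have he : (fun z => Cm.e i ((A'.e a).symm z)) =ᶠ[𝓝 z]
        (fun z => Cm.e i ((A.e b).symm z)) ∘ (Map_835.rd A' A id a b) := by
      filter_upwards [(h.isOpen_dm a b).mem_nhds hd] with w hw
      have hw2 : (A'.e a).symm w ∈ (A.e b).source := hw.2
      simp only [Function.comp, Map_835.rd, id]
      rw [(A.e b).left_inv hw2]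
    exact ((h3.comp z h1).congr_of_eventuallyEq he).contDiffWithinAt
  · obtain ⟨b, hb, hd, he⟩ := key i z hz
    have h1 : DifferentiableAt ℝ (fun z => A.e b ((Cm.e i).symm z)) z := (hA b).diffAt hb
    have h2 := h'.diffAt hd
    have h3 : HasFDerivAt (fun z => A'.e a ((Cm.e i).symm z))
        ((fderiv ℝ (Map_835.rd A A' id b a) (A.e b ((Cm.e i).symm z))).comp
          (fderiv ℝ (fun z => A.e b ((Cm.e i).symm z)) z)) z :=
      (HasFDerivAt.comp z (g := Map_835.rd A A' id b a)
        (f := fun z => A.e b ((Cm.e i).symm z))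
        (h2.restrictScalars ℝ).hasFDerivAt h1.hasFDerivAt).congr_of_eventuallyEq he
    rw [h3.fderiv, ContinuousLinearMap.comp_apply, ContinuousLinearMap.comp_apply,
      (hA b).lin i z hb v]
    exact fderiv_real_I h2 _

/-! ### the Kaehler metric of a triple -/

variable {C : RCh V X}

/-- the Kaehler metric of the triple on a holomorphic atlas of its first complex structure -/
def met (H : HkT C) (hA : Cp (H.acm 0) A) : Kah A :=
  ((cmp_of_cp hA).hk H).K0 fun i _ hz v => hk_J_I hA i hz v

/-- change of the complex charts for the transported forms -/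
theorem F_rd (hc : Cmp C (ofAtl A)) (hc' : Cmp C (ofAtl A')) (h : HolMap A' A id) (w : F2 C)
    {k : A'.ι} {i : A.ι} {z : Cn d} (hz : z ∈ dm A' A id k i) (u v : Cn d) :
    (hc'.F w).w k z u v = (hc.F w).w i (Map_835.rd A' A id k i z)
      (fderiv ℝ (Map_835.rd A' A id k i) z u) (fderiv ℝ (Map_835.rd A' A id k i) z v) := by
  have hzi : (A'.e k).symm z ∈ (A.e i).source := hz.2
  obtain ⟨j, hj⟩ := C.cover ((A'.e k).symm z)
  have h1 : z ∈ mov C (ofAtl A') j k := ⟨hz.1, hj⟩
  have h2 : Map_835.rd A' A id k i z ∈ mov C (ofAtl A) j i := by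
    refine ⟨(A.e i).map_source hzi, ?_⟩
    show (A.e i).symm (A.e i ((A'.e k).symm z)) ∈ (C.e j).source
    rw [(A.e i).left_inv hzi]
    exact hj
  have h3 : DifferentiableAt ℝ (Map_835.rd A' A id k i) z := (h.diffAt hz).restrictScalars ℝ
  have h4 : DifferentiableAt ℝ (mt C (ofAtl A) j i) (Map_835.rd A' A id k i z) := hc.diff h2
  have h5 : mt C (ofAtl A') j k =ᶠ[𝓝 z]
      (mt C (ofAtl A) j i) ∘ (Map_835.rd A' A id k i) := by
    filter_upwards [(h.isOpen_dm k i).mem_nhds hz] with y hy
    have hy2 : (A'.e k).symm y ∈ (A.e i).source := hy.2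
    show C.e j ((A'.e k).symm y) = C.e j ((A.e i).symm (A.e i ((A'.e k).symm y)))
    rw [(A.e i).left_inv hy2]
  have h6 : HasFDerivAt (mt C (ofAtl A') j k)
      ((fderiv ℝ (mt C (ofAtl A) j i) (Map_835.rd A' A id k i z)).comp
        (fderiv ℝ (Map_835.rd A' A id k i) z)) z :=
    (HasFDerivAt.comp z (g := mt C (ofAtl A) j i) (f := Map_835.rd A' A id k i)
      h4.hasFDerivAt h3.hasFDerivAt).congr_of_eventuallyEq h5
  rw [hc'.F_w w h1, hc.F_w w h2, h6.fderiv, h5.eq_of_nhds]
  rfl



/-! ### an integral Kaehler form is a curvature -/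

theorem GB_smul (c : ℝ) (B : Bil (Cn d)) : GB (c • B) = (c : ℂ) • GB B := by
  ext a b
  simp only [GB, Matrix.of_apply, hw, Matrix.smul_apply, smul_eq_mul]
  show ((c * B _ _ : ℝ) : ℂ) - I * ((c * B _ _ : ℝ) : ℂ) = _
  push_cast
  ring



end

end Crest.Agent.R281.Pjx_648
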