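import Crest.Agent.R281.HKMovC_478
import Crest.Agent.R281.HKMovE_478
import Crest.Agent.R281.HKMovD_478
import Crest.Agent.R281.HKMovK_478

-- ▼ part R281/LAn1_508
section

/-!
# R281 (S0424), LAP-AN (helper508), file 1: the inverse power series

* `Hn Z` : coefficients of `(1 + ∑_{j≥1} s^j Z_j)⁻¹`; `Hn_similar`, `Hn_conv`
* `conv_sum` : Cauchy products of nonnegative sequences
* `inv_sum`  : `(1 + Z_s) * H_s = 1` for the sums
-/

set_option autoImplicit false
set_option linter.unusedSectionVars false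

open Set Metric Finset
open scoped ContDiff Matrix

namespace Crest.Agent.R281.LAn_508

noncomputable section

section alg

variable {m : Type*} [Fintype m] [DecidableEq m]

/-- coefficients of `(1 + ∑_{j ≥ 1} s^j Z_j)⁻¹` -/
def Hn (Z : ℕ → Matrix m m ℂ) : ℕ → Matrix m m ℂ
  | 0 => 1
  | (j + 1) => -∑ i : Fin (j + 1), Z (i.1 + 1) * Hn Z (j - i.1)
termination_by j => j
decreasing_by omega

theorem Hn_zero (Z : ℕ → Matrix m m ℂ) : Hn Z 0 = 1 := by rw [Hn]

theorem Hn_succ (Z : ℕ → Matrix m m ℂ) (j : ℕ) :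
    Hn Z (j + 1) = -∑ i ∈ range (j + 1), Z (i + 1) * Hn Z (j - i) := by
  rw [Hn, Finset.sum_range]

theorem Hn_congr {Z Z' : ℕ → Matrix m m ℂ} (h : ∀ j, 1 ≤ j → Z j = Z' j) :
    ∀ j, Hn Z j = Hn Z' j := by
  intro j
  induction j using Nat.strong_induction_on with
  | _ j ih =>
    rcases j with _ | j
    · rw [Hn_zero, Hn_zero]
    · rw [Hn_succ, Hn_succ]
      congr 1
      refine Finset.sum_congr rfl fun i hi => ?_
      rw [h (i + 1) (by omega), ih (j - i) (by have := Finset.mem_range.1 hi; omega)]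

theorem Hn_similar {Z : ℕ → Matrix m m ℂ} {P : Matrix m m ℂ} (hP : P.det ≠ 0) :
    ∀ j, Hn (fun k => P⁻¹ * Z k * P) j = P⁻¹ * Hn Z j * P := by
  have hu : IsUnit P.det := isUnit_iff_ne_zero.2 hP
  intro j
  induction j using Nat.strong_induction_on with
  | _ j ih =>
    rcases j with _ | j
    · rw [Hn_zero, Hn_zero, Matrix.mul_one, Matrix.nonsing_inv_mul _ hu]
    · rw [Hn_succ, Hn_succ, Matrix.mul_neg, Matrix.neg_mul, Matrix.mul_sum, Matrix.sum_mul]
      congr 1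
      refine Finset.sum_congr rfl fun i hi => ?_
      rw [ih (j - i) (by have := Finset.mem_range.1 hi; omega)]
      calc _ = P⁻¹ * Z (i + 1) * (P * P⁻¹) * Hn Z (j - i) * P := by
            simp only [Matrix.mul_assoc]
        _ = _ := by rw [Matrix.mul_nonsing_inv _ hu, Matrix.mul_one]; simp only [Matrix.mul_assoc]

/-- the Cauchy product vanishes -/
theorem Hn_conv (Z : ℕ → Matrix m m ℂ) (j : ℕ) :
    Hn Z (j + 1) + ∑ i ∈ range (j + 1), Z (i + 1) * Hn Z (j - i) = 0 := by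
  rw [Hn_succ, neg_add_cancel]

end alg

/-! ### Cauchy products -/

theorem conv_eq (u v : ℕ → ℝ) (r : ℝ) (J : ℕ) :
    ∑ j ∈ range J, (∑ i ∈ range (j + 1), u (i + 1) * v (j - i)) * r ^ (j + 1) =
      ∑ i ∈ range J, (u (i + 1) * r ^ (i + 1)) * ∑ l ∈ range (J - i), v l * r ^ l := by
  have h := Finset.sum_range_diag_flip J fun i l => (u (i + 1) * r ^ (i + 1)) * (v l * r ^ l)
  simp only [Finset.mul_sum]
  rw [← h]
  refine Finset.sum_congr rfl fun j _ => ?_
  rw [Finset.sum_mul]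
  refine Finset.sum_congr rfl fun i hi => ?_
  have hi' := Finset.mem_range.1 hi
  have e : r ^ (j + 1) = r ^ (i + 1) * r ^ (j - i) := by
    rw [← pow_add]
    congr 1
    omega
  rw [e]
  ring

theorem conv_sum {u v : ℕ → ℝ} {r : ℝ} (hr : 0 ≤ r) (hu : ∀ j, 0 ≤ u j) (hv : ∀ j, 0 ≤ v j)
    (J : ℕ) :
    ∑ j ∈ range J, (∑ i ∈ range (j + 1), u (i + 1) * v (j - i)) * r ^ (j + 1) ≤
      (∑ i ∈ range J, u (i + 1) * r ^ (i + 1)) * ∑ l ∈ range J, v l * r ^ l := by
  rw [conv_eq, Finset.sum_mul]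
  refine Finset.sum_le_sum fun i _ => mul_le_mul_of_nonneg_left ?_
    (mul_nonneg (hu _) (pow_nonneg hr _))
  exact Finset.sum_le_sum_of_subset_of_nonneg (Finset.range_mono (Nat.sub_le _ _))
    fun l _ _ => mul_nonneg (hv l) (pow_nonneg hr l)

/-- **Volterra majorant** : `x_0 ≤ b_0`, `x_{j+1} ≤ b_{j+1} + ∑ u_{i+1} x_{j-i}`, `∑ u r^i ≤ 1/2` -/
theorem volt {u x b : ℕ → ℝ} {r U W : ℝ} (hr : 0 ≤ r) (hu : ∀ j, 0 ≤ u j) (hx : ∀ j, 0 ≤ x j)
    (hU : ∀ J, ∑ i ∈ range J, u (i + 1) * r ^ (i + 1) ≤ U) (hU2 : U ≤ 1 / 2)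
    (h0 : x 0 ≤ b 0) (hs : ∀ j, x (j + 1) ≤ b (j + 1) + ∑ i ∈ range (j + 1), u (i + 1) * x (j - i))
    (hW : ∀ J, ∑ j ∈ range J, b j * r ^ j ≤ W) (J : ℕ) :
    ∑ j ∈ range J, x j * r ^ j ≤ 2 * W := by
  have hW0 : 0 ≤ W := by simpa using hW 0
  have hxs : ∀ J, 0 ≤ ∑ j ∈ range J, x j * r ^ j := fun J =>
    Finset.sum_nonneg fun j _ => mul_nonneg (hx j) (pow_nonneg hr j)
  rcases J with _ | J
  · simpa using hW0
  · have h1 : ∑ j ∈ range (J + 1), x j * r ^ j ≤
        ∑ j ∈ range (J + 1), b j * r ^ j +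
          ∑ j ∈ range J, (∑ i ∈ range (j + 1), u (i + 1) * x (j - i)) * r ^ (j + 1) := by
      rw [Finset.sum_range_succ' _ J, Finset.sum_range_succ' _ J]
      have h2 : ∑ k ∈ range J, x (k + 1) * r ^ (k + 1) ≤
          ∑ k ∈ range J, b (k + 1) * r ^ (k + 1) +
            ∑ j ∈ range J, (∑ i ∈ range (j + 1), u (i + 1) * x (j - i)) * r ^ (j + 1) := by
        rw [← Finset.sum_add_distrib]
        refine Finset.sum_le_sum fun j _ => ?_
        rw [← add_mul]
        exact mul_le_mul_of_nonneg_right (hs j) (pow_nonneg hr _)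
      have h3 : x 0 * r ^ 0 ≤ b 0 * r ^ 0 := mul_le_mul_of_nonneg_right h0 (pow_nonneg hr _)
      linarith
    have h4 := conv_sum hr hu hx J
    have h5 : ∑ l ∈ range J, x l * r ^ l ≤ ∑ j ∈ range (J + 1), x j * r ^ j :=
      Finset.sum_le_sum_of_subset_of_nonneg (Finset.range_mono (Nat.le_succ _))
        fun l _ _ => mul_nonneg (hx l) (pow_nonneg hr l)
    have h6 : (∑ i ∈ range J, u (i + 1) * r ^ (i + 1)) * ∑ l ∈ range J, x l * r ^ l ≤
        1 / 2 * ∑ j ∈ range (J + 1), x j * r ^ j :=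
      mul_le_mul ((hU J).trans hU2) h5 (hxs J) (by norm_num)
    have h7 := hW (J + 1)
    linarith

/-- sequences given by a Volterra recursion exist -/
theorem exists_volt (b : ℕ → ℝ) (u : ℕ → ℝ) : ∃ x : ℕ → ℝ, x 0 = b 0 ∧
    ∀ j, x (j + 1) = b (j + 1) + ∑ i ∈ range (j + 1), u (i + 1) * x (j - i) := by
  obtain ⟨x, h0, h⟩ := HKMov_478.exists_seq (α := ℝ) (b 0)
    (fun x J a => a = b (J + 1) + ∑ i ∈ range (J + 1), u (i + 1) * x (J - i))
    (fun f f' J a h ha => by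
      rw [ha]
      congr 1
      refine Finset.sum_congr rfl fun i _ => ?_
      rw [h (J - i) (Nat.sub_le _ _)])
    (fun f J => ⟨_, rfl⟩)
  exact ⟨x, h0, h⟩

theorem volt_nonneg {b u x : ℕ → ℝ} (hb : ∀ j, 0 ≤ b j) (hu : ∀ j, 0 ≤ u j) (h0 : x 0 = b 0)
    (h : ∀ j, x (j + 1) = b (j + 1) + ∑ i ∈ range (j + 1), u (i + 1) * x (j - i)) :
    ∀ j, 0 ≤ x j := by
  intro j
  induction j using Nat.strong_induction_on with
  | _ j ih =>
    rcases j with _ | j
    · rw [h0]; exact hb 0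
    · rw [h]
      refine add_nonneg (hb _) (Finset.sum_nonneg fun i hi => mul_nonneg (hu _) (ih _ ?_))
      omega

end

end Crest.Agent.R281.LAn_508
private theorem rz_1225cd543b : type_of% @_root_.Crest.Agent.R281.LAn_508.Hn.eq_1 := @_root_.Crest.Agent.R281.LAn_508.Hn.eq_1 -- L27
end

-- ▼ part R281/LAn2_508
section

/-!
# R281 (S0424), LAP-AN (helper508), file 2: the linear recursion and its bounds

For a power series of Hermitian forms `G_s = K + ∑_{j≥1} s^j Y_j` and `q_s = ∑ s^j q_j`: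
the power series solution of `tr (G_s⁻¹ (q_s + ∂∂̄ ψ_s)) = c_s`.
-/

set_option autoImplicit false
set_option linter.unusedSectionVars false

open Set Metric
open scoped ContDiff Matrix ComplexConjugate ComplexOrder

namespace Crest.Agent.R281.LAn_508

open Crest.Agent.R275.Geo Crest.Agent.R275.Core144 Crest.Agent.R275.GC293
open Crest.Agent.R273.Defs_333 Crest.Agent.R273.YauDefs_635 Crest.Agent.R273.HM_333
open Crest.Agent.R273.YauCh_635 Crest.Agent.R273.Hess_333 Crest.Agent.R273.HessB_333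
open Crest.Agent.R273.Kah_333 Crest.Agent.R273.YauMax_635 Crest.Agent.R273.YauLoc_635
open Crest.Agent.R273.SchA_152 Crest.Agent.R273.SchD_152 Crest.Agent.R273.YauQ_635
open Crest.Agent.R273.Green_5 Crest.Agent.R273.GreenM_5 Crest.Agent.R273.FIb0_597
open Crest.Agent.R273.SchG_152 Crest.Agent.R273.SchF_152 Crest.Agent.R273.SchH_152
open Crest.Agent.R273.YauSchF_635 Crest.Agent.R273.YauOpA_635
open Crest.Agent.R273.YauPf_635 hiding ch
open Crest.Agent.R273.SchJ_152
open HKMov_478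

noncomputable section

variable {n : ℕ} {M : Type} [TopologicalSpace M] {A : Atl n M}

/-! ### smoothness of the coefficients -/

theorem Hn_sm {E : Type*} [NormedAddCommGroup E] [NormedSpace ℝ E] {U : Set E}
    {Z : ℕ → E → Matrix (Fin n) (Fin n) ℂ}
    (hZ : ∀ j, 1 ≤ j → ∀ b c, ContDiffOn ℝ ∞ (fun z => Z j z b c) U) :
    ∀ j b c, ContDiffOn ℝ ∞ (fun z => Hn (fun k => Z k z) j b c) U := by
  intro j
  induction j using Nat.strong_induction_on with
  | _ j ih =>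
    intro b c
    rcases j with _ | j
    · simp only [Hn_zero]
      exact contDiffOn_const
    · have e : (fun z => Hn (fun k => Z k z) (j + 1) b c) = fun z =>
          -∑ i ∈ Finset.range (j + 1), ∑ l, Z (i + 1) z b l * Hn (fun k => Z k z) (j - i) l c := by
        funext z
        rw [Hn_succ, Matrix.neg_apply, Matrix.sum_apply]
        congr 1
      rw [e]
      refine (ContDiffOn.sum fun i hi => ContDiffOn.sum fun l _ => ?_).neg
      exact (hZ (i + 1) (by omega) b l).mul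
        (ih (j - i) (by have := Finset.mem_range.1 hi; omega) l c)

/-- Hölder bounds of the inverse series -/
theorem Hn_ho {E : Type*} [NormedAddCommGroup E] {s : Set E} {al : ℝ}
    {Z : ℕ → E → Matrix (Fin n) (Fin n) ℂ} {a h : ℕ → ℝ} (ha : ∀ j, 0 ≤ a j)
    (hh : ∀ j, 0 ≤ h j) (h0 : h 0 = 1)
    (hs : ∀ j, h (j + 1) = ∑ i ∈ Finset.range (j + 1), (2 * n * a (i + 1)) * h (j - i))
    (hZ : ∀ j, 1 ≤ j → ∀ b c, HO al (a j) s (fun z => Z j z b c)) :
    ∀ j b c, HO al (h j) s (fun z => Hn (fun k => Z k z) j b c) := by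
  intro j
  induction j using Nat.strong_induction_on with
  | _ j ih =>
    intro b c
    rcases j with _ | j
    · simp only [Hn_zero, h0]
      refine ho_const ?_
      rw [Matrix.one_apply]
      split_ifs <;> simp
    · have e : (fun z => Hn (fun k => Z k z) (j + 1) b c) = fun z =>
          -∑ i ∈ Finset.range (j + 1), ∑ l, Z (i + 1) z b l * Hn (fun k => Z k z) (j - i) l c := by
        funext z
        rw [Hn_succ, Matrix.neg_apply, Matrix.sum_apply]
        congr 1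
      rw [e, hs]
      refine (ho_fsum _ fun i hi => ?_).neg
      have h1 := ho_sum (Finset.univ : Finset (Fin n)) (a := al)
        (M := 2 * a (i + 1) * h (j - i)) (s := s)
        (f := fun l z => Z (i + 1) z b l * Hn (fun k => Z k z) (j - i) l c)
        (fun l _ => ho_mul (ha _) (hh _) (hZ (i + 1) (by omega) b l)
          (ih (j - i) (by have := Finset.mem_range.1 hi; omega) l c))
      rw [Finset.card_univ, Fintype.card_fin] at h1
      exact h1.mono (le_of_eq (by ring))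

/-! ### the known part of the equation -/

/-- the part of order `J + 1` with `G_s⁻¹` differentiated -/
def Lf (K : Kah A) (Y T : ℕ → A.ι → M → Matrix (Fin n) (Fin n) ℂ) (J : ℕ) (x : M) : ℝ :=
  (∑ i ∈ Finset.range (J + 1), (Hn (Zf K Y (ch A x) x) (i + 1) *
    Zf K T (ch A x) x (J - i)).trace).re

theorem Hn_tr (K : Kah A) {Y : ℕ → A.ι → M → Matrix (Fin n) (Fin n) ℂ}
    (hY : ∀ j, 1 ≤ j → HF A (Y j)) {i j : A.ι}
    {x : M} (hx : x ∈ (A.e i).source ∩ (A.e j).source) (k : ℕ) :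
    Hn (Zf K Y i x) k = ((Jm A i j x).map conj)⁻¹ * Hn (Zf K Y j x) k *
      (Jm A i j x).map conj := by
  rw [← Hn_similar (det_Jbar hx)]
  exact Hn_congr (fun l hl => Zf_tr K (hY l hl).toTF hx) k

theorem Lf_eq (K : Kah A) {Y T : ℕ → A.ι → M → Matrix (Fin n) (Fin n) ℂ}
    (hY : ∀ j, 1 ≤ j → HF A (Y j)) (hT : ∀ j, HF A (T j)) (J : ℕ) {i : A.ι} {x : M}
    (hx : x ∈ (A.e i).source) : Lf K Y T J x =
      (∑ l ∈ Finset.range (J + 1), (Hn (Zf K Y i x) (l + 1) * Zf K T i x (J - l)).trace).re := by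
  unfold Lf
  refine congrArg Complex.re (Finset.sum_congr rfl fun l _ => ?_)
  have hx' : x ∈ (A.e (ch A x)).source ∩ (A.e i).source := ⟨mem_ch A x, hx⟩
  have hu : IsUnit ((Jm A (ch A x) i x).map conj).det := isUnit_iff_ne_zero.2 (det_Jbar hx')
  rw [Hn_tr K hY hx', Zf, Zf, Zf_tr K (hT (J - l)).toTF hx']
  set Q := (Jm A (ch A x) i x).map conj with hQ
  have e : Q⁻¹ * Hn (Zf K Y i x) (l + 1) * Q * (Q⁻¹ * ((K.g i x)⁻¹ * T (J - l) i x) * Q) =
      Q⁻¹ * ((Hn (Zf K Y i x) (l + 1) * ((K.g i x)⁻¹ * T (J - l) i x)) * Q) := by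
    calc _ = Q⁻¹ * Hn (Zf K Y i x) (l + 1) * (Q * Q⁻¹) * ((K.g i x)⁻¹ * T (J - l) i x) * Q := by
          simp only [Matrix.mul_assoc]
      _ = _ := by rw [Matrix.mul_nonsing_inv _ hu, Matrix.mul_one]; simp only [Matrix.mul_assoc]
  rw [e, Matrix.trace_mul_comm, Matrix.mul_assoc, Matrix.mul_nonsing_inv _ hu, Matrix.mul_one]

theorem Lf_sm (K : Kah A) {Y T : ℕ → A.ι → M → Matrix (Fin n) (Fin n) ℂ}
    (hY : ∀ j, 1 ≤ j → HF A (Y j)) (hT : ∀ j, HF A (T j)) (J : ℕ) : A.Sm (Lf K Y T J) := by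
  intro i
  have h1 : ContDiffOn ℝ ∞ (fun z => ∑ l ∈ Finset.range (J + 1),
      (Hn (Zf K Y i ((A.e i).symm z)) (l + 1) * Zf K T i ((A.e i).symm z) (J - l)).trace)
      (A.e i).target := by
    refine ContDiffOn.sum fun l _ => ?_
    simp only [Matrix.trace, Matrix.diag_apply, Matrix.mul_apply]
    refine ContDiffOn.sum fun a _ => ContDiffOn.sum fun b _ => ContDiffOn.mul ?_ ?_
    · have h3 := Hn_sm (Z := fun k z => Zf K Y i ((A.e i).symm z) k)
        (fun k hk b c => Zf_sm K (hY k hk).toTF i b c) (l + 1) a b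
      exact h3
    · exact Zf_sm K (hT (J - l)).toTF i b a
  refine (Complex.reCLM.contDiff.comp_contDiffOn h1).congr fun z hz => ?_
  have h4 := Lf_eq K hY hT J ((A.e i).map_target hz)
  rw [h4]
  simp only [Function.comp_apply, Complex.reCLM_apply]

theorem Lf_congr (K : Kah A) (Y q : ℕ → A.ι → M → Matrix (Fin n) (Fin n) ℂ) {ψ ψ' : ℕ → M → ℝ}
    {J : ℕ} (h : ∀ j ≤ J, ψ j = ψ' j) : Lf K Y (Yf A q ψ) J = Lf K Y (Yf A q ψ') J := by
  funext x
  unfold Lf
  refine congrArg Complex.re (Finset.sum_congr rfl fun l _ => ?_)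
  have e : Zf K (Yf A q ψ) (ch A x) x (J - l) = Zf K (Yf A q ψ') (ch A x) x (J - l) := by
    simp only [Zf, Yf, h (J - l) (Nat.sub_le _ _)]
  rw [e]

/-- **the linear recursion** -/
theorem exists_lrec [T2Space M] [CompactSpace M] [ConnectedSpace M] [Finite A.ι] (P : Part A)
    (K : Kah A) (x0 : M) {Y q : ℕ → A.ι → M → Matrix (Fin n) (Fin n) ℂ}
    (hY : ∀ j, 1 ≤ j → HF A (Y j)) (hq : ∀ j, HF A (q j)) :
    ∃ (ψ : ℕ → M → ℝ) (c : ℕ → ℝ), (∀ j, A.Sm (ψ j)) ∧ (∀ j, ψ j x0 = 0) ∧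
      (∀ x, lapK K (ψ 0) x = c 0 - (trK K (q 0) x).re) ∧
      ∀ J x, lapK K (ψ (J + 1)) x =
        c (J + 1) - (Lf K Y (Yf A q ψ) J x + (trK K (q (J + 1)) x).re) := by
  have hsolve : ∀ {R : M → ℝ}, A.Sm R → ∃ a : {v : M → ℝ // A.Sm v ∧ v x0 = 0} × ℝ,
      ∀ x, lapK K a.1.1 x = a.2 - R x := by
    intro R hR
    have hR' : A.Sm (fun x => -R x) := fun i => (hR i).neg
    obtain ⟨v, μ, hv, hlap⟩ := Crest.Agent.R273.CLin_933.lin_kah K P hR'
    refine ⟨⟨⟨fun y => v y - v x0, fun i => (hv i).sub contDiffOn_const, sub_self _⟩, -μ⟩,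
      fun x => ?_⟩
    simp only
    rw [lapK_sub_const K hv, hlap x]
    ring
  obtain ⟨a0, ha0⟩ := hsolve (trK_sm K (hq 0))
  obtain ⟨f, hf0, hf⟩ := exists_seq
    (α := {v : M → ℝ // A.Sm v ∧ v x0 = 0} × ℝ) a0
    (fun f J a => ∀ x, lapK K a.1.1 x = a.2 - (Lf K Y (Yf A q (fun j => (f j).1.1)) J x +
      (trK K (q (J + 1)) x).re))
    (fun f f' J a h ha x => by
      have e := Lf_congr K Y q (J := J) (ψ := fun j => (f j).1.1) (ψ' := fun j => (f' j).1.1)
        (fun j hj => by simp only [h j hj])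
      rw [ha x, e])
    (fun f J => hsolve (R := fun x => Lf K Y (Yf A q (fun j => (f j).1.1)) J x +
        (trK K (q (J + 1)) x).re) fun i =>
      (Lf_sm K hY (fun j => (hq j).add (hf_hsf (f j).1.2.1)) J i).add (trK_sm K (hq (J + 1)) i))
  refine ⟨fun j => (f j).1.1, fun j => (f j).2, fun j => (f j).1.2.1,
    fun j => (f j).1.2.2, fun x => ?_, fun J x => hf J x⟩
  simp only [hf0]
  exact ha0 x

/-! ### bounds -/

/-- the bounded power series solution of the linear equation -/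
structure LnS (K : Kah A) (Bc : Cb A) (Y q : ℕ → A.ι → M → Matrix (Fin n) (Fin n) ℂ) (x0 : M)
    (r W : ℝ) (w : ℕ → ℝ) where
  ψ : ℕ → M → ℝ
  c : ℕ → ℝ
  b : ℕ → ℝ
  sm : ∀ j, A.Sm (ψ j)
  nrm : ∀ j, ψ j x0 = 0
  b_nn : ∀ j, 0 ≤ b j
  b_sum : ∀ J, ∑ j ∈ Finset.range J, b j * r ^ j ≤ W
  w_le : ∀ j, w j ≤ b j
  n2 : ∀ j, Bc.N2 (1 / 2) (b j) (ψ j)
  hc : ∀ j, |c j| ≤ b j
  hoT : ∀ j, ∀ k b' c', HO (1 / 2) (b j) (closedBall (Bc.z k) (Bc.r k / 2))
    (fun z => Yf A q ψ j (Bc.i k) ((A.e (Bc.i k)).symm z) b' c')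
  hoW : ∀ j, ∀ k b' c', HO (1 / 2) (b j) (closedBall (Bc.z k) (Bc.r k / 2))
    (fun z => Zf K (Yf A q ψ) (Bc.i k) ((A.e (Bc.i k)).symm z) j b' c')
  eqn0 : ∀ i, ∀ x ∈ (A.e i).source, ((Zf K (Yf A q ψ) i x 0).trace).re = c 0
  eqn : ∀ J, ∀ i, ∀ x ∈ (A.e i).source, ((Zf K (Yf A q ψ) i x (J + 1)).trace).re +
    (∑ l ∈ Finset.range (J + 1), (Hn (Zf K Y i x) (l + 1) *
      Zf K (Yf A q ψ) i x (J - l)).trace).re = c (J + 1)

end

end Crest.Agent.R281.LAn_508
end

-- ▼ part R281/LAn3_508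
section

/-!
# R281 (S0424), LAP-AN (helper508), file 3: existence with bounds

`ln_bound` : uniform `η0`, `C`; for every family `Y` with `∑ a_j r^j ≤ η0` and every `q` with
`∑ w_j r^j ≤ W` there is `LnS K Bc Y q x0 r (C * W) w`.
-/

set_option autoImplicit false
set_option linter.unusedSectionVars false

open Set Metric
open scoped ContDiff Matrix ComplexConjugate ComplexOrder

namespace Crest.Agent.R281.LAn_508

open Crest.Agent.R275.Geo Crest.Agent.R275.Core144 Crest.Agent.R275.GC293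
open Crest.Agent.R273.Defs_333 Crest.Agent.R273.YauDefs_635 Crest.Agent.R273.HM_333
open Crest.Agent.R273.YauCh_635 Crest.Agent.R273.Hess_333 Crest.Agent.R273.HessB_333
open Crest.Agent.R273.Kah_333 Crest.Agent.R273.YauMax_635 Crest.Agent.R273.YauLoc_635
open Crest.Agent.R273.SchA_152 Crest.Agent.R273.SchD_152 Crest.Agent.R273.YauQ_635
open Crest.Agent.R273.Green_5 Crest.Agent.R273.GreenM_5 Crest.Agent.R273.FIb0_597
open Crest.Agent.R273.SchG_152 Crest.Agent.R273.SchF_152 Crest.Agent.R273.SchH_152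
open Crest.Agent.R273.YauSchF_635 Crest.Agent.R273.YauOpA_635
open Crest.Agent.R273.YauPf_635 hiding ch
open Crest.Agent.R273.SchJ_152
open HKMov_478

noncomputable section

variable {n : ℕ} {M : Type} [TopologicalSpace M] {A : Atl n M}

/-- Hölder bound of the trace of a product -/
theorem ho_tr_mul {E : Type*} [NormedAddCommGroup E] {s : Set E} {al p q : ℝ} (hp : 0 ≤ p)
    (hq : 0 ≤ q) {U V : E → Matrix (Fin n) (Fin n) ℂ}
    (hU : ∀ b c, HO al p s (fun z => U z b c)) (hV : ∀ b c, HO al q s (fun z => V z b c)) :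
    HO al (2 * n ^ 2 * p * q) s (fun z => (U z * V z).trace) := by
  simp only [Matrix.trace, Matrix.diag_apply, Matrix.mul_apply]
  have h1 : ∀ b : Fin n, HO al (n * (2 * p * q)) s (fun z => ∑ c, U z b c * V z c b) := by
    intro b
    have h := ho_sum (Finset.univ : Finset (Fin n)) (a := al) (M := 2 * p * q) (s := s)
      (f := fun c z => U z b c * V z c b) (fun c _ => ho_mul hp hq (hU b c) (hV c b))
    rwa [Finset.card_univ, Fintype.card_fin] at h
  have h2 := ho_sum (Finset.univ : Finset (Fin n)) (a := al) (M := n * (2 * p * q)) (s := s)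
    (f := fun b z => ∑ c, U z b c * V z c b) (fun b _ => h1 b)
  rw [Finset.card_univ, Fintype.card_fin] at h2
  exact h2.mono (le_of_eq (by ring))

/-- **existence with bounds, uniform smallness** -/
theorem ln_bound [T2Space M] [CompactSpace M] [ConnectedSpace M] [Finite A.ι] (P : Part A)
    (K : Kah A) (Bc : Cb A) (x0 : M) : ∃ η0 C : ℝ, 0 < η0 ∧ 0 < C ∧
    ∀ (r : ℝ) (a w : ℕ → ℝ) (W : ℝ) (Y q : ℕ → A.ι → M → Matrix (Fin n) (Fin n) ℂ), 0 < r →
      (∀ j, 0 ≤ a j) → (∀ J, ∑ j ∈ Finset.range J, a (j + 1) * r ^ (j + 1) ≤ η0) →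
      (∀ j, 1 ≤ j → HF A (Y j)) →
      (∀ j, 1 ≤ j → ∀ k b c, HO (1 / 2) (a j) (closedBall (Bc.z k) (Bc.r k / 2))
        (fun z => Zf K Y (Bc.i k) ((A.e (Bc.i k)).symm z) j b c)) →
      (∀ j, 0 ≤ w j) → (∀ J, ∑ j ∈ Finset.range J, w j * r ^ j ≤ W) →
      (∀ j, HF A (q j)) →
      (∀ j k b c, HO (1 / 2) (w j) (closedBall (Bc.z k) (Bc.r k / 2))
        (fun z => q j (Bc.i k) ((A.e (Bc.i k)).symm z) b c)) →
      Nonempty (LnS K Bc Y q x0 r (C * W) w) := by
  obtain ⟨V, hV0, hV⟩ := hf_inv_bound K Bc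
  obtain ⟨CS, hCS, hlin⟩ := lin_boundK P K Bc
  set CT : ℝ := max CS 1 with hCT
  have hCT1 : 1 ≤ CT := le_max_right _ _
  have hCT0 : 0 ≤ CT := by linarith
  set c1 : ℝ := n * (2 * V) + 1 with hc1
  have hn0 : (0 : ℝ) ≤ n := Nat.cast_nonneg n
  have hc11 : 1 ≤ c1 := by
    rw [hc1]
    have : (0 : ℝ) ≤ n * (2 * V) := by positivity
    linarith
  have hc10 : 0 ≤ c1 := by linarith
  set e1 : ℝ := 1 + CT * (n * c1) with he1
  have he10 : 0 ≤ e1 := by positivity
  set N1 : ℝ := n + 1 with hN1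
  have hN1p : 1 ≤ N1 := by rw [hN1]; linarith
  have hnN : (n : ℝ) ≤ N1 := by rw [hN1]; linarith
  set D0 : ℝ := 16 * N1 ^ 3 * c1 * CT with hD0
  have hD0p : 0 < D0 := by positivity
  refine ⟨1 / D0, c1 * (2 * e1), by positivity, by positivity, ?_⟩
  intro r a w W Y q hr ha hsum hY hZ hw hW hq hqw
  -- the majorant of the inverse
  obtain ⟨h, hh0, hhs⟩ := exists_volt (fun j => if j = 0 then (1 : ℝ) else 0)
    (fun j => 2 * n * a j)
  have hun : ∀ j, 0 ≤ 2 * n * a j := fun j => by have := ha j; positivity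
  have hhn : ∀ j, 0 ≤ h j := volt_nonneg (b := fun j => if j = 0 then (1 : ℝ) else 0)
    (fun j => by split_ifs <;> norm_num) hun hh0 hhs
  have hh0' : h 0 = 1 := by rw [hh0]; simp
  have hhs' : ∀ j, h (j + 1) = ∑ i ∈ Finset.range (j + 1), (2 * n * a (i + 1)) * h (j - i) := by
    intro j
    rw [hhs j, if_neg (by omega), zero_add]
  have hU1 : ∀ J, ∑ i ∈ Finset.range J, (2 * n * a (i + 1)) * r ^ (i + 1) ≤
      2 * n * (1 / D0) := by
    intro J
    have e : ∑ i ∈ Finset.range J, (2 * n * a (i + 1)) * r ^ (i + 1) =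
        2 * n * ∑ i ∈ Finset.range J, a (i + 1) * r ^ (i + 1) := by
      rw [Finset.mul_sum]
      exact Finset.sum_congr rfl fun i _ => by ring
    rw [e]
    exact mul_le_mul_of_nonneg_left (hsum J) (by positivity)
  have hc1C : 1 ≤ c1 * CT := by nlinarith
  have hN3 : N1 ≤ N1 ^ 3 := by
    have : N1 ^ 3 = N1 * N1 ^ 2 := by ring
    rw [this]
    have : 1 ≤ N1 ^ 2 := one_le_pow₀ hN1p
    nlinarith
  have hbig : 16 * N1 ≤ D0 := by
    rw [hD0]
    have h1 : 16 * N1 ^ 3 * c1 * CT = 16 * N1 ^ 3 * (c1 * CT) := by ring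
    rw [h1]
    have h2 : 0 ≤ N1 ^ 3 := by positivity
    nlinarith
  have hU2 : 2 * n * (1 / D0) ≤ 1 / 2 := by
    rw [mul_one_div, div_le_div_iff₀ hD0p (by norm_num)]
    linarith
  have hhsum : ∀ J, ∑ j ∈ Finset.range J, h j * r ^ j ≤ 2 * 1 := by
    refine volt hr.le hun hhn hU1 hU2 (b := fun j => if j = 0 then (1 : ℝ) else 0) hh0.le
      (fun j => (hhs j).le) ?_
    intro J
    rcases J with _ | J
    · simp
    · rw [Finset.sum_range_succ']
      simp
  have hhsum1 : ∀ J, ∑ j ∈ Finset.range J, h (j + 1) * r ^ (j + 1) ≤ 2 * (2 * n * (1 / D0)) := by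
    intro J
    have h1 := conv_sum hr.le hun hhn J
    have e : ∑ j ∈ Finset.range J, h (j + 1) * r ^ (j + 1) =
        ∑ j ∈ Finset.range J, (∑ i ∈ Finset.range (j + 1), 2 * n * a (i + 1) * h (j - i)) *
          r ^ (j + 1) := Finset.sum_congr rfl fun j _ => by rw [hhs' j]
    rw [e]
    refine h1.trans ?_
    have h2 := mul_le_mul (hU1 J) (hhsum J)
      (Finset.sum_nonneg fun j _ => mul_nonneg (hhn j) (pow_nonneg hr.le j)) (by positivity)
    linarith
  -- the majorant of the solution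
  set u : ℕ → ℝ := fun i => CT * (2 * n ^ 2 * c1 * h i) with hu
  have hun' : ∀ i, 0 ≤ u i := fun i => by have := hhn i; positivity
  obtain ⟨p, hp0, hps⟩ := exists_volt (fun j => e1 * w j) u
  have hpn : ∀ j, 0 ≤ p j := volt_nonneg (fun j => mul_nonneg he10 (hw j)) hun' hp0 hps
  have hU3 : ∀ J, ∑ i ∈ Finset.range J, u (i + 1) * r ^ (i + 1) ≤
      CT * (2 * n ^ 2 * c1) * (2 * (2 * n * (1 / D0))) := by
    intro J
    have e : ∑ i ∈ Finset.range J, u (i + 1) * r ^ (i + 1) =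
        CT * (2 * n ^ 2 * c1) * ∑ i ∈ Finset.range J, h (i + 1) * r ^ (i + 1) := by
      rw [Finset.mul_sum]
      exact Finset.sum_congr rfl fun i _ => by rw [hu]; ring
    rw [e]
    exact mul_le_mul_of_nonneg_left (hhsum1 J) (by positivity)
  have hU4 : CT * (2 * n ^ 2 * c1) * (2 * (2 * n * (1 / D0))) ≤ 1 / 2 := by
    have e : CT * (2 * n ^ 2 * c1) * (2 * (2 * n * (1 / D0))) =
        8 * (n : ℝ) ^ 3 * c1 * CT / D0 := by ring
    rw [e, div_le_div_iff₀ hD0p (by norm_num), hD0]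
    have h3 : (n : ℝ) ^ 3 ≤ N1 ^ 3 := pow_le_pow_left₀ hn0 hnN 3
    have h4 : (n : ℝ) ^ 3 * (c1 * CT) ≤ N1 ^ 3 * (c1 * CT) :=
      mul_le_mul_of_nonneg_right h3 (by positivity)
    nlinarith
  have hpsum : ∀ J, ∑ j ∈ Finset.range J, p j * r ^ j ≤ 2 * (e1 * W) := by
    refine volt hr.le hun' hpn hU3 hU4 (b := fun j => e1 * w j) hp0.le (fun j => (hps j).le) ?_
    intro J
    have e : ∑ j ∈ Finset.range J, e1 * w j * r ^ j = e1 * ∑ j ∈ Finset.range J, w j * r ^ j := by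
      rw [Finset.mul_sum]
      exact Finset.sum_congr rfl fun i _ => by ring
    rw [e]
    exact mul_le_mul_of_nonneg_left (hW J) he10
  -- the solution
  obtain ⟨ψ, c, hψ, hnrm, hr0, hrec⟩ := exists_lrec P K x0 hY hq
  have hT : ∀ j, HF A (Yf A q ψ j) := fun j => (hq j).add (hf_hsf (hψ j))
  -- bounds of the right hand side
  have hHn : ∀ j k b c', HO (1 / 2) (h j) (closedBall (Bc.z k) (Bc.r k / 2))
      (fun z => Hn (Zf K Y (Bc.i k) ((A.e (Bc.i k)).symm z)) j b c') := fun j k =>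
    Hn_ho (Z := fun l z => Zf K Y (Bc.i k) ((A.e (Bc.i k)).symm z) l) ha hhn hh0' hhs'
      (fun l hl b c' => hZ l hl k b c') j
  have hqtr : ∀ j, Bc.NH (1 / 2) (n * (c1 * w j)) (fun x => (trK K (q j) x).re) := by
    intro j k
    have h3 : HO (1 / 2) (n * (c1 * w j))
        (closedBall (Bc.z k) (Bc.r k / 2)) (fun z => (((K.g (Bc.i k) ((A.e (Bc.i k)).symm z))⁻¹ *
          q j (Bc.i k) ((A.e (Bc.i k)).symm z)).trace).re) := by
      refine ho_re ?_
      simp only [Matrix.trace, Matrix.diag_apply]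
      have h4 := ho_sum (Finset.univ : Finset (Fin n)) (a := 1 / 2) (M := c1 * w j)
        (s := closedBall (Bc.z k) (Bc.r k / 2))
        (f := fun l z => ((K.g (Bc.i k) ((A.e (Bc.i k)).symm z))⁻¹ *
          q j (Bc.i k) ((A.e (Bc.i k)).symm z)) l l)
        (fun l _ => ho_inv_mul hV0 (hw _) (hV k) (Y := q j) (fun b c => hqw j k b c) l l)
      rw [Finset.card_univ, Fintype.card_fin] at h4
      exact h4
    refine h3.congr fun z hz => ?_
    have h6 := congrArg Complex.re (trK_hf K (hq j) ((A.e (Bc.i k)).map_target (Bc.sub' k hz)))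
    rw [Complex.ofReal_re] at h6
    simp only [inC, h6]
  -- the induction
  have key : ∀ j, ∃ F : ℝ, 0 ≤ F ∧ w j + CT * F ≤ p j ∧ Bc.N2 (1 / 2) (CT * F) (ψ j) ∧
      |c j| ≤ F := by
    intro j
    induction j using Nat.strong_induction_on with
    | _ j ih =>
      rcases j with _ | J
      · have h7 := hlin x0 (ψ 0) _ (c 0) _ (hψ _) hr0 (hqtr 0) (hnrm _)
        have hF0 : 0 ≤ n * (c1 * w 0) := by have := hw 0; positivity
        refine ⟨n * (c1 * w 0), hF0, le_of_eq ?_,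
          h7.1.mono (mul_le_mul_of_nonneg_right (le_max_left _ _) hF0), h7.2⟩
        rw [hp0, he1]
        ring
      · have hW' : ∀ l ≤ J, ∀ k b c', HO (1 / 2) (c1 * p l) (closedBall (Bc.z k) (Bc.r k / 2))
            (fun z => Zf K (Yf A q ψ) (Bc.i k) ((A.e (Bc.i k)).symm z) l b c') := by
          intro l hl k b c'
          obtain ⟨F, hF, hFp, hF2, -⟩ := ih l (by omega)
          refine ho_inv_mul hV0 (hpn l) (hV k) (Y := Yf A q ψ l) (fun b c' => ?_) b c'
          exact (((hqw l k b c').add (n2_hsf (hψ _) hF2 k b c')).mono hFp).congr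
            fun z _ => rfl
        have hL : Bc.NH (1 / 2) (∑ i ∈ Finset.range (J + 1),
            2 * n ^ 2 * h (i + 1) * (c1 * p (J - i))) (Lf K Y (Yf A q ψ) J) := by
          intro k
          have h1 : HO (1 / 2) (∑ i ∈ Finset.range (J + 1),
              2 * n ^ 2 * h (i + 1) * (c1 * p (J - i)))
              (closedBall (Bc.z k) (Bc.r k / 2)) (fun z => (∑ i ∈ Finset.range (J + 1),
                (Hn (Zf K Y (Bc.i k) ((A.e (Bc.i k)).symm z)) (i + 1) *
                  Zf K (Yf A q ψ) (Bc.i k) ((A.e (Bc.i k)).symm z) (J - i)).trace).re) := by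
            refine ho_re (ho_fsum _ fun i hi => ?_)
            exact ho_tr_mul (hhn _) (mul_nonneg hc10 (hpn _)) (fun b c' => hHn (i + 1) k b c')
              (fun b c' => hW' (J - i) (Nat.sub_le _ _) k b c')
          refine h1.congr fun z hz => ?_
          exact Lf_eq K hY hT J ((A.e (Bc.i k)).map_target (Bc.sub' k hz))
        have hF0 : 0 ≤ ∑ i ∈ Finset.range (J + 1), 2 * n ^ 2 * h (i + 1) * (c1 * p (J - i)) :=
          Finset.sum_nonneg fun i _ => by
            have h8 := hhn (i + 1)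
            have h9 := hpn (J - i)
            positivity
        have hF1 : 0 ≤ n * (c1 * w (J + 1)) := by have := hw (J + 1); positivity
        have hN : Bc.NH (1 / 2) ((∑ i ∈ Finset.range (J + 1),
            2 * n ^ 2 * h (i + 1) * (c1 * p (J - i))) + n * (c1 * w (J + 1)))
            (fun x => Lf K Y (Yf A q ψ) J x + (trK K (q (J + 1)) x).re) := fun k =>
          ((hL k).add (hqtr (J + 1) k)).congr fun z _ => rfl
        have h7 := hlin x0 (ψ (J + 1)) _ (c (J + 1)) _ (hψ _) (hrec J) hN (hnrm _)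
        refine ⟨_, add_nonneg hF0 hF1, le_of_eq ?_,
          h7.1.mono (mul_le_mul_of_nonneg_right (le_max_left _ _) (add_nonneg hF0 hF1)), h7.2⟩
        rw [hps J, hu, he1, mul_add, Finset.mul_sum]
        have e : ∑ i ∈ Finset.range (J + 1), CT * (2 * n ^ 2 * h (i + 1) * (c1 * p (J - i))) =
            ∑ i ∈ Finset.range (J + 1), CT * (2 * n ^ 2 * c1 * h (i + 1)) * p (J - i) :=
          Finset.sum_congr rfl fun i _ => by ring
        rw [e]
        ring
  have hb : ∀ j, p j ≤ c1 * p j := fun j => by nlinarith [hpn j]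
  have hoT : ∀ j, ∀ k b' c', HO (1 / 2) (p j) (closedBall (Bc.z k) (Bc.r k / 2))
      (fun z => Yf A q ψ j (Bc.i k) ((A.e (Bc.i k)).symm z) b' c') := by
    intro j k b' c'
    obtain ⟨F, hF, hFp, hF2, -⟩ := key j
    exact (((hqw j k b' c').add (n2_hsf (hψ _) hF2 k b' c')).mono hFp).congr fun z _ => rfl
  refine ⟨⟨ψ, c, fun j => c1 * p j, hψ, hnrm, fun j => mul_nonneg hc10 (hpn j), ?_, ?_, ?_, ?_,
    ?_, ?_, ?_, ?_⟩⟩
  · intro J
    have e : ∑ j ∈ Finset.range J, c1 * p j * r ^ j = c1 * ∑ j ∈ Finset.range J, p j * r ^ j := by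
      rw [Finset.mul_sum]
      exact Finset.sum_congr rfl fun i _ => by ring
    rw [e]
    calc _ ≤ c1 * (2 * (e1 * W)) := mul_le_mul_of_nonneg_left (hpsum J) hc10
      _ = _ := by ring
  · intro j
    obtain ⟨F, hF, hFp, -, -⟩ := key j
    have := mul_nonneg hCT0 hF
    linarith [hb j]
  · intro j
    obtain ⟨F, hF, hFp, hF2, -⟩ := key j
    exact hF2.mono (by linarith [hb j, hw j])
  · intro j
    obtain ⟨F, hF, hFp, -, hc⟩ := key j
    have : F ≤ CT * F := by nlinarith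
    linarith [hb j, hw j]
  · intro j k b' c'
    exact (hoT j k b' c').mono (hb j)
  · intro j k b' c'
    exact ho_inv_mul hV0 (hpn j) (hV k) (Y := Yf A q ψ j) (fun b c => hoT j k b c) b' c'
  · intro i x hx
    have h1 : (Zf K (Yf A q ψ) i x 0).trace =
        ((K.g i x)⁻¹ * q 0 i x).trace + ((K.g i x)⁻¹ * hsf A (ψ 0) i x).trace := by
      rw [Zf, Yf, Matrix.mul_add, Matrix.trace_add]
    have h3 := congrArg Complex.re (trK_hf K (hq 0) hx)
    have h4 := congrArg Complex.re (trK_hf K (hf_hsf (hψ 0)) hx)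
    rw [Complex.ofReal_re] at h3 h4
    have h5 := hr0 x
    have h6 : (trK K (hsf A (ψ 0)) x).re = lapK K (ψ 0) x := rfl
    rw [h1, Complex.add_re, ← h3, ← h4, h6, h5]
    ring
  · intro J i x hx
    have h1 : (Zf K (Yf A q ψ) i x (J + 1)).trace =
        ((K.g i x)⁻¹ * q (J + 1) i x).trace + ((K.g i x)⁻¹ * hsf A (ψ (J + 1)) i x).trace := by
      rw [Zf, Yf, Matrix.mul_add, Matrix.trace_add]
    have h3 := congrArg Complex.re (trK_hf K (hq (J + 1)) hx)
    have h4 := congrArg Complex.re (trK_hf K (hf_hsf (hψ (J + 1))) hx)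
    rw [Complex.ofReal_re] at h3 h4
    have h5 := hrec J x
    have h6 : (trK K (hsf A (ψ (J + 1))) x).re = lapK K (ψ (J + 1)) x := rfl
    rw [h1, Complex.add_re, ← h3, ← h4, h6, h5, ← Lf_eq K hY hT J hx]
    ring

end

end Crest.Agent.R281.LAn_508
end

-- ▼ part R281/LAn5_508
section

/-!
# R281 (S0424), LAP-AN (helper508), file 5: power series of matrices

* `Ms P s = ∑ s^j P_j` (entrywise); `Ms_mul` : Cauchy product
* `Ms_inv` : `(∑ s^j Zt_j) * (∑ s^j Hn Z j) = 1`, `Zt_0 = 1`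
-/

set_option autoImplicit false
set_option linter.unusedSectionVars false

open Set Metric Finset
open scoped ContDiff Matrix

namespace Crest.Agent.R281.LAn_508

noncomputable section

variable {n : ℕ}

/-- the sum of a power series of matrices -/
def Ms (P : ℕ → Matrix (Fin n) (Fin n) ℂ) (s : ℂ) : Matrix (Fin n) (Fin n) ℂ :=
  Matrix.of fun b c => ∑' j, s ^ j * P j b c

theorem Ms_apply (P : ℕ → Matrix (Fin n) (Fin n) ℂ) (s : ℂ) (b c : Fin n) :
    Ms P s b c = ∑' j, s ^ j * P j b c := rfl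

/-- entrywise summability -/
def Sb (P : ℕ → Matrix (Fin n) (Fin n) ℂ) (s : ℂ) : Prop :=
  ∀ b c, Summable fun j => ‖s ^ j * P j b c‖

theorem Sb.of_bd {P : ℕ → Matrix (Fin n) (Fin n) ℂ} {p : ℕ → ℝ} {r : ℝ}
    (hp : Summable fun j => p j * r ^ j) (h : ∀ j b c, ‖P j b c‖ ≤ p j) {s : ℂ}
    (hs : ‖s‖ ≤ r) : Sb P s := fun b c => by
  refine Summable.of_nonneg_of_le (fun j => norm_nonneg _) (fun j => ?_) hp
  rw [norm_mul, norm_pow, mul_comm]
  exact mul_le_mul (h j b c) (pow_le_pow_left₀ (norm_nonneg _) hs _) (by positivity)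
    ((norm_nonneg _).trans (h j b c))

theorem Sb.hasSum {P : ℕ → Matrix (Fin n) (Fin n) ℂ} {s : ℂ} (h : Sb P s) (b c : Fin n) :
    HasSum (fun j => s ^ j * P j b c) (Ms P s b c) := (h b c).of_norm.hasSum

/-- the coefficients of the product -/
def cv (P Q : ℕ → Matrix (Fin n) (Fin n) ℂ) (N : ℕ) : Matrix (Fin n) (Fin n) ℂ :=
  ∑ k ∈ range (N + 1), P k * Q (N - k)

theorem cv_apply (P Q : ℕ → Matrix (Fin n) (Fin n) ℂ) (N : ℕ) (s : ℂ) (b c : Fin n) :
    s ^ N * cv P Q N b c =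
      ∑ d, ∑ k ∈ range (N + 1), (s ^ k * P k b d) * (s ^ (N - k) * Q (N - k) d c) := by
  rw [cv, Matrix.sum_apply, Finset.mul_sum, Finset.sum_comm]
  refine Finset.sum_congr rfl fun k hk => ?_
  rw [Matrix.mul_apply, Finset.mul_sum]
  refine Finset.sum_congr rfl fun d _ => ?_
  have e : s ^ N = s ^ k * s ^ (N - k) := by
    rw [← pow_add]
    congr 1
    have := Finset.mem_range.1 hk
    omega
  rw [e]
  ring

theorem Sb.cv {P Q : ℕ → Matrix (Fin n) (Fin n) ℂ} {s : ℂ} (hP : Sb P s) (hQ : Sb Q s) :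
    Sb (LAn_508.cv P Q) s := fun b c => by
  have h : ∀ d, Summable fun N => ‖∑ k ∈ range (N + 1),
      (s ^ k * P k b d) * (s ^ (N - k) * Q (N - k) d c)‖ := fun d =>
    summable_norm_sum_mul_range_of_summable_norm (f := fun j => s ^ j * P j b d)
      (g := fun j => s ^ j * Q j d c) (hP b d) (hQ d c)
  have hS : Summable fun N => ∑ d, ‖∑ k ∈ range (N + 1),
      (s ^ k * P k b d) * (s ^ (N - k) * Q (N - k) d c)‖ := summable_sum fun d _ => h d
  refine Summable.of_nonneg_of_le (fun j => norm_nonneg _) (fun N => ?_) hS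
  rw [cv_apply]
  exact norm_sum_le _ _

theorem Ms_mul {P Q : ℕ → Matrix (Fin n) (Fin n) ℂ} {s : ℂ} (hP : Sb P s) (hQ : Sb Q s) :
    Ms P s * Ms Q s = Ms (cv P Q) s := by
  ext b c
  rw [Matrix.mul_apply, Ms_apply]
  simp only [cv_apply]
  have h : ∀ d, Summable fun N => ∑ k ∈ range (N + 1),
      (s ^ k * P k b d) * (s ^ (N - k) * Q (N - k) d c) := fun d =>
    (summable_norm_sum_mul_range_of_summable_norm (f := fun j => s ^ j * P j b d)
      (g := fun j => s ^ j * Q j d c) (hP b d) (hQ d c)).of_norm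
  rw [Summable.tsum_finsetSum fun d _ => h d]
  refine Finset.sum_congr rfl fun d _ => ?_
  exact tsum_mul_tsum_eq_tsum_sum_range_of_summable_norm (f := fun j => s ^ j * P j b d)
    (g := fun j => s ^ j * Q j d c) (hP b d) (hQ d c)

/-- the series `1 + ∑_{j≥1} s^j Z_j` -/
def Zt (Z : ℕ → Matrix (Fin n) (Fin n) ℂ) (j : ℕ) : Matrix (Fin n) (Fin n) ℂ :=
  if j = 0 then 1 else Z j

theorem cv_Zt (Z : ℕ → Matrix (Fin n) (Fin n) ℂ) (N : ℕ) :
    cv (Zt Z) (Hn Z) N = if N = 0 then 1 else 0 := by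
  rcases N with _ | N
  · simp [cv, Zt, Hn_zero]
  · rw [if_neg (by omega), cv, Finset.sum_range_succ']
    simp only [Zt, if_pos, Nat.sub_zero, Matrix.one_mul]
    rw [← Hn_conv Z N, add_comm]
    congr 1
    refine Finset.sum_congr rfl fun k _ => ?_
    rw [if_neg (by omega), Nat.add_sub_add_right]

theorem Ms_single (s : ℂ) :
    Ms (fun N => if N = 0 then (1 : Matrix (Fin n) (Fin n) ℂ) else 0) s = 1 := by
  ext b c
  rw [Ms_apply, tsum_eq_single 0]
  · simp
  · intro j hj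
    simp [hj]

/-- **the inverse series** -/
theorem Ms_inv {Z : ℕ → Matrix (Fin n) (Fin n) ℂ} {s : ℂ} (hZ : Sb (Zt Z) s)
    (hH : Sb (Hn Z) s) : Ms (Zt Z) s * Ms (Hn Z) s = 1 := by
  rw [Ms_mul hZ hH, show cv (Zt Z) (Hn Z) = _ from funext (cv_Zt Z), Ms_single]

theorem Ms_trace {P : ℕ → Matrix (Fin n) (Fin n) ℂ} {s : ℂ} (hP : Sb P s) :
    HasSum (fun j => s ^ j * (P j).trace) (Ms P s).trace := by
  have h := hasSum_sum fun b (_ : b ∈ (Finset.univ : Finset (Fin n))) => hP.hasSum b b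
  refine h.congr_fun ?_
  intro j
  simp only [Matrix.trace, Matrix.diag_apply, Finset.mul_sum]

/-- the trace of `H_s W_s` -/
theorem trace_cv_succ (Z W : ℕ → Matrix (Fin n) (Fin n) ℂ) (J : ℕ) :
    (cv (Hn Z) W (J + 1)).trace = (W (J + 1)).trace +
      ∑ l ∈ range (J + 1), (Hn Z (l + 1) * W (J - l)).trace := by
  rw [cv, Finset.sum_range_succ', Hn_zero, Matrix.one_mul, Nat.sub_zero, Matrix.trace_add,
    Matrix.trace_sum, add_comm]
  congr 1
  refine Finset.sum_congr rfl fun l _ => ?_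
  rw [Nat.add_sub_add_right]

theorem trace_cv_zero (Z W : ℕ → Matrix (Fin n) (Fin n) ℂ) :
    (cv (Hn Z) W 0).trace = (W 0).trace := by
  simp [cv, Hn_zero]

/-- **the equation of the sums** -/
theorem trace_limit {Z W : ℕ → Matrix (Fin n) (Fin n) ℂ} {c : ℕ → ℝ} {s : ℝ}
    (hZ : Sb (Zt Z) s) (hH : Sb (Hn Z) s) (hW : Sb W s)
    (h0 : (W 0).trace.re = c 0)
    (hs : ∀ J, (W (J + 1)).trace.re + (∑ l ∈ range (J + 1),
      (Hn Z (l + 1) * W (J - l)).trace).re = c (J + 1)) :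
    (((Ms (Zt Z) s)⁻¹ * Ms W s).trace).re = ∑' j, s ^ j * c j := by
  have h1 : (Ms (Zt Z) s)⁻¹ = Ms (Hn Z) s := Matrix.inv_eq_right_inv (Ms_inv hZ hH)
  rw [h1, Ms_mul hH hW]
  have h2 := Complex.hasSum_re (Ms_trace (hH.cv hW))
  refine (h2.congr_fun fun j => ?_).tsum_eq.symm
  have e : ((s : ℂ) ^ j * (cv (Hn Z) W j).trace).re = s ^ j * ((cv (Hn Z) W j).trace).re := by
    rw [← Complex.ofReal_pow, Complex.re_ofReal_mul]
  rw [e]
  rcases j with _ | J
  · rw [trace_cv_zero, h0]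
  · rw [trace_cv_succ, Complex.add_re, hs]

/-- pointwise summability of the inverse series -/
theorem sb_Hn {Z : ℕ → Matrix (Fin n) (Fin n) ℂ} {a : ℕ → ℝ} {r : ℝ} (hr : 0 ≤ r)
    (ha : ∀ j, 0 ≤ a j)
    (hsum : ∀ J, ∑ i ∈ range J, (2 * n * a (i + 1)) * r ^ (i + 1) ≤ 1 / 2)
    (hZ : ∀ j, 1 ≤ j → ∀ b c, ‖Z j b c‖ ≤ a j) {s : ℂ} (hs : ‖s‖ ≤ r) : Sb (Hn Z) s := by
  obtain ⟨h, hh0, hhs⟩ := exists_volt (fun j => if j = 0 then (1 : ℝ) else 0)
    (fun j => 2 * n * a j)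
  have hun : ∀ j, 0 ≤ 2 * n * a j := fun j => by have := ha j; positivity
  have hhn : ∀ j, 0 ≤ h j := volt_nonneg (b := fun j => if j = 0 then (1 : ℝ) else 0)
    (fun j => by split_ifs <;> norm_num) hun hh0 hhs
  have hh0' : h 0 = 1 := by rw [hh0]; simp
  have hhs' : ∀ j, h (j + 1) = ∑ i ∈ Finset.range (j + 1), (2 * n * a (i + 1)) * h (j - i) := by
    intro j
    rw [hhs j, if_neg (by omega), zero_add]
  have hhsum : ∀ J, ∑ j ∈ Finset.range J, h j * r ^ j ≤ 2 * 1 := by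
    refine volt hr hun hhn hsum le_rfl (b := fun j => if j = 0 then (1 : ℝ) else 0) hh0.le
      (fun j => (hhs j).le) ?_
    intro J
    rcases J with _ | J
    · simp
    · rw [Finset.sum_range_succ']
      simp
  have hbd : ∀ j b c, ‖Hn Z j b c‖ ≤ h j := fun j b c =>
    (Hn_ho (E := ℂ) (s := {0}) (al := 1) (Z := fun j _ => Z j) ha hhn hh0' hhs'
      (fun j hj b c => HKMov_478.ho_const (hZ j hj b c)) j b c).bdd 0 rfl
  refine Sb.of_bd ?_ hbd hs
  exact summable_of_sum_range_le (fun j => mul_nonneg (hhn j) (pow_nonneg hr j)) hhsum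

end

end Crest.Agent.R281.LAn_508
end

-- ▼ part R281/LapReg_365
section

/-!
# R281 (S0424), LAP-REG (helper365): smoothness of the sum of the LAP-AN series

* `lin_limit` : approximate solutions of `Δ v = f + c` converge to the smooth solution
* `lap_reg`   : `ψ_s = ∑ s^j ψ_j` is smooth and `tr (G_s⁻¹ (Q_s + ∂∂̄ ψ_s)) = c`
-/

set_option autoImplicit false
set_option linter.unusedSectionVars false

open Set Metric Filter Topology
open scoped ContDiff Matrix ComplexConjugate ComplexOrder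

namespace Crest.Agent.R281.LapAn_365

open Crest.Agent.R275.Geo Crest.Agent.R275.Core144 Crest.Agent.R275.GC293
open Crest.Agent.R273.Defs_333 Crest.Agent.R273.YauDefs_635 Crest.Agent.R273.HM_333
open Crest.Agent.R273.YauCh_635 Crest.Agent.R273.Hess_333 Crest.Agent.R273.HessB_333
open Crest.Agent.R273.Kah_333 Crest.Agent.R273.YauMax_635 Crest.Agent.R273.YauLoc_635
open Crest.Agent.R273.SchA_152 Crest.Agent.R273.SchD_152 Crest.Agent.R273.YauQ_635
open Crest.Agent.R273.Green_5 Crest.Agent.R273.GreenM_5 Crest.Agent.R273.FIb0_597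
open Crest.Agent.R273.SchG_152 Crest.Agent.R273.SchF_152 Crest.Agent.R273.SchH_152
open Crest.Agent.R273.YauSchF_635 Crest.Agent.R273.YauPf_635 Crest.Agent.R273.YauOpA_635
open Crest.Agent.R273.SchJ_152 Crest.Agent.R281.HKMov_478

noncomputable section

variable {n : ℕ} {M : Type} [TopologicalSpace M] {A : Atl n M}

theorem lapK_sub (K : Kah A) {u v : M → ℝ} (hu : A.Sm u) (hv : A.Sm v) (x : M) :
    lapK K (fun x => u x - v x) x = lapK K u x - lapK K v x := by
  have h1 : (fun x => u x - v x) = fun x => u x + (-1) * v x := by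
    funext y
    ring
  rw [h1, Crest.Agent.R273.CLin_933.lapK_add K hu (Crest.Agent.R273.CLin_933.sm_smul (-1) hv) x,
    Crest.Agent.R273.CLin_933.lapK_smul K (-1) hv x]
  ring

theorem nh_neg {Bc : Cb A} {a N : ℝ} {f : M → ℝ} (h : Bc.NH a N f) : Bc.NH a N (fun x => -f x) :=
  fun k => (h k).neg.congr fun _ _ => rfl

/-- **approximate solutions converge to the smooth solution** -/
theorem lin_limit [T2Space M] [CompactSpace M] [ConnectedSpace M] [Finite A.ι] (P : Part A)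
    (K : Kah A) (Bc : Cb A) (x0 : M) {f : M → ℝ} (hf : A.Sm f) :
    ∃ (w : M → ℝ) (m C : ℝ), A.Sm w ∧ w x0 = 0 ∧ (∀ x, lapK K w x = f x - m) ∧ 0 < C ∧
      ∀ (v : M → ℝ) (c ε : ℝ), A.Sm v → v x0 = 0 →
        Bc.NH (1 / 2) ε (fun x => lapK K v x - f x - c) →
        Bc.N2 (1 / 2) (C * ε) (fun x => v x - w x) ∧ |c + m| ≤ ε := by
  obtain ⟨C, hC, H⟩ := lin_boundK P K Bc
  obtain ⟨w, m, hw, hlap⟩ := Crest.Agent.R273.CLin_933.lin_kah K P hf
  have hw' : A.Sm (fun y => w y - w x0) := fun i => (hw i).sub contDiffOn_const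
  refine ⟨fun y => w y - w x0, m, C, hw', sub_self _, fun x => ?_, hC, fun v c ε hv hv0 he => ?_⟩
  · rw [lapK_sub_const K hw, hlap x]
  · refine H x0 (fun x => v x - (w x - w x0)) (fun x => -(lapK K v x - f x - c)) (c + m) ε
      (fun i => (hv i).sub (hw' i)) (fun x => ?_) (nh_neg he) (by simp [hv0])
    rw [lapK_sub K hv hw', lapK_sub_const K hw, hlap x]
    ring

/-- tails of series in Hölder classes -/
theorem ho_tail {E : Type*} [NormedAddCommGroup E] {al : ℝ} {t : Set E} {f : ℕ → E → ℂ}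
    {a : ℕ → ℝ} (ha : Summable a) (hf : ∀ j, HO al (a j) t (f j)) (J : ℕ) :
    HO al (∑' j, a (j + J)) t (fun z => ∑' j, f (j + J) z) :=
  ho_tsum ((summable_nat_add_iff J).2 ha) le_rfl fun j => hf (j + J)

/-- the partial sums -/
def vs (ψ : ℕ → M → ℝ) (s : ℝ) (J : ℕ) (x : M) : ℝ := ∑ j ∈ Finset.range J, s ^ j * ψ j x

theorem vs_succ (ψ : ℕ → M → ℝ) (s : ℝ) (J : ℕ) :
    vs ψ s (J + 1) = fun x => vs ψ s J x + s ^ J * ψ J x := by
  funext x
  rw [vs, Finset.sum_range_succ]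
  rfl

theorem vs_sm {ψ : ℕ → M → ℝ} (hψ : ∀ j, A.Sm (ψ j)) (s : ℝ) (J : ℕ) : A.Sm (vs ψ s J) := by
  induction J with
  | zero =>
    have : vs ψ s 0 = fun _ => (0 : ℝ) := by
      funext x
      simp [vs]
    rw [this]
    exact Crest.Agent.R273.CLin_933.sm_const' 0
  | succ J ih =>
    rw [vs_succ]
    exact Crest.Agent.R273.CLin_933.sm_add ih (Crest.Agent.R273.CLin_933.sm_smul _ (hψ J))

theorem vs_hsf {ψ : ℕ → M → ℝ} (hψ : ∀ j, A.Sm (ψ j)) (s : ℝ) (J : ℕ) {i : A.ι} {x : M}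
    (hx : x ∈ (A.e i).source) :
    hsf A (vs ψ s J) i x = ∑ j ∈ Finset.range J, ((s ^ j : ℝ) : ℂ) • hsf A (ψ j) i x := by
  induction J with
  | zero =>
    have : vs ψ s 0 = fun _ => (0 : ℝ) := by
      funext x
      simp [vs]
    rw [this, Finset.range_zero, Finset.sum_empty, hsf_zero]
  | succ J ih =>
    rw [vs_succ, Finset.sum_range_succ, ← ih]
    have h1 : hsf A (fun x => vs ψ s J x + s ^ J * ψ J x) i x =
        hsf A (vs ψ s J) i x + hsf A (fun x => s ^ J * ψ J x) i x :=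
      hess_add (sm_contDiffAt (vs_sm hψ s J) _ ((A.e i).map_source hx))
        (sm_contDiffAt (Crest.Agent.R273.CLin_933.sm_smul _ (hψ J)) _ ((A.e i).map_source hx))
    have h2 : hsf A (fun x => s ^ J * ψ J x) i x = ((s ^ J : ℝ) : ℂ) • hsf A (ψ J) i x :=
      hess_const_mul _ (sm_contDiffAt (hψ J) _ ((A.e i).map_source hx))
    rw [h1, h2]

/-- **regularity of the sum of the LAP-AN series** -/
theorem lap_reg [T2Space M] [CompactSpace M] [ConnectedSpace M] [Finite A.ι] (P : Part A)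
    (K : Kah A) (Bc : Cb A) (x0 : M) {ψ : ℕ → M → ℝ} {p : ℕ → ℝ} {s : ℝ} (hψ : ∀ j, A.Sm (ψ j))
    (hψ0 : ∀ j, ψ j x0 = 0) (hn : ∀ j, Bc.N2 (1 / 2) (p j) (ψ j))
    (hs : Summable fun j => |s| ^ j * p j)
    {Q : A.ι → M → Matrix (Fin n) (Fin n) ℂ} (hQ : HF A Q) {c : ℝ}
    (heq : ∀ k, ∀ z ∈ closedBall (Bc.z k) (Bc.r k / 2),
      (((K.g (Bc.i k) ((A.e (Bc.i k)).symm z))⁻¹ * (Q (Bc.i k) ((A.e (Bc.i k)).symm z) +
        Matrix.of fun b d => ∑' j, ((s ^ j : ℝ) : ℂ) *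
          hsf A (ψ j) (Bc.i k) ((A.e (Bc.i k)).symm z) b d)).trace).re = c) :
    A.Sm (fun x => ∑' j, s ^ j * ψ j x) ∧ (∑' j, s ^ j * ψ j x0) = 0 ∧
    (∀ x, (trK K (fun i y => Q i y + hsf A (fun x => ∑' j, s ^ j * ψ j x) i y) x).re = c) ∧
    ∃ C, 0 ≤ C ∧ ∀ J, Bc.N2 (1 / 2) (C * ∑' j, |s| ^ (j + J) * p (j + J))
      (fun x => vs ψ s J x - ∑' j, s ^ j * ψ j x) := by
  set T : ℕ → ℝ := fun J => ∑' j, |s| ^ (j + J) * p (j + J) with hT
  have hT0 : Tendsto T atTop (𝓝 0) := tendsto_sum_nat_add fun j => |s| ^ j * p j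
  have hp0 : ∀ j, 0 ≤ p j := fun j => by
    obtain ⟨k, -, hk⟩ := Bc.cover x0
    exact (hn j k).h0.nonneg (ball_subset_closedBall hk)
  have hTn : ∀ J, 0 ≤ T J := fun J =>
    tsum_nonneg fun j => mul_nonneg (by positivity) (hp0 _)
  obtain ⟨V, hV0, hV⟩ := hf_inv_bound K Bc
  set f : M → ℝ := fun x => -(trK K Q x).re with hf
  have hfs : A.Sm f := fun i => (trK_sm K hQ i).neg
  obtain ⟨w, m, C, hw, hw0, hlap, hC, H⟩ := lin_limit P K Bc x0 hfs
  set C1 : ℝ := n * (n * (2 * V) + 1) with hC1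
  have hC10 : 0 ≤ C1 := by positivity
  -- the residual
  have hres : ∀ J, Bc.NH (1 / 2) (C1 * T J) (fun x => lapK K (vs ψ s J) x - f x - c) := by
    intro J k
    -- the tail field
    set Y : A.ι → M → Matrix (Fin n) (Fin n) ℂ := fun i x => Matrix.of fun b d =>
      ∑' j, ((s ^ (j + J) : ℝ) : ℂ) * hsf A (ψ (j + J)) i x b d with hY
    have hYb : ∀ b d, HO (1 / 2) (T J) (closedBall (Bc.z k) (Bc.r k / 2))
        (fun z => Y (Bc.i k) ((A.e (Bc.i k)).symm z) b d) := by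
      intro b d
      refine ho_tail (f := fun j z => ((s ^ j : ℝ) : ℂ) *
        hsf A (ψ j) (Bc.i k) ((A.e (Bc.i k)).symm z) b d) hs (fun j => ?_) J
      have h1 := n2_hsf (hψ j) (hn j) k b d
      refine ⟨fun z hz => ?_, fun z hz z' hz' => ?_⟩
      · rw [norm_mul, Complex.norm_real, norm_pow, Real.norm_eq_abs]
        exact mul_le_mul_of_nonneg_left (h1.bdd z hz) (by positivity)
      · rw [← mul_sub, norm_mul, Complex.norm_real, norm_pow, Real.norm_eq_abs, mul_assoc]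
        exact mul_le_mul_of_nonneg_left (h1.hol z hz z' hz') (by positivity)
    have h2 : ∀ l, HO (1 / 2) ((n * (2 * V) + 1) * T J) (closedBall (Bc.z k) (Bc.r k / 2))
        (fun z => ((K.g (Bc.i k) ((A.e (Bc.i k)).symm z))⁻¹ *
          Y (Bc.i k) ((A.e (Bc.i k)).symm z)) l l) := fun l =>
      ho_inv_mul hV0 (hTn J) (hV k) hYb l l
    have h3 := ho_sum (Finset.univ : Finset (Fin n)) (fun l _ => h2 l)
    rw [Finset.card_univ, Fintype.card_fin, ← mul_assoc] at h3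
    refine (ho_re h3).neg.congr fun z hz => ?_
    have hzt := Bc.sub' k hz
    have hx' := (A.e (Bc.i k)).map_target hzt
    have h4 := heq k z hz
    have hsum : ∀ b d, Summable fun j => ((s ^ j : ℝ) : ℂ) *
        hsf A (ψ j) (Bc.i k) ((A.e (Bc.i k)).symm z) b d := by
      intro b d
      refine Summable.of_norm_bounded hs fun j => ?_
      rw [norm_mul, Complex.norm_real, norm_pow, Real.norm_eq_abs]
      exact mul_le_mul_of_nonneg_left ((n2_hsf (hψ j) (hn j) k b d).bdd z hz) (by positivity)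
    have h5 : (Matrix.of fun b d => ∑' j, ((s ^ j : ℝ) : ℂ) *
        hsf A (ψ j) (Bc.i k) ((A.e (Bc.i k)).symm z) b d) =
        hsf A (vs ψ s J) (Bc.i k) ((A.e (Bc.i k)).symm z) +
          Y (Bc.i k) ((A.e (Bc.i k)).symm z) := by
      ext b d
      rw [Matrix.add_apply, vs_hsf hψ s J hx', Matrix.sum_apply, Matrix.of_apply,
        ← (hsum b d).sum_add_tsum_nat_add J]
      rfl
    have h6 : lapK K (vs ψ s J) ((A.e (Bc.i k)).symm z) =
        (((K.g (Bc.i k) ((A.e (Bc.i k)).symm z))⁻¹ *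
          hsf A (vs ψ s J) (Bc.i k) ((A.e (Bc.i k)).symm z)).trace).re :=
      lapK_eq K (vs_sm hψ s J) hx'
    have h7 : f ((A.e (Bc.i k)).symm z) = -(((K.g (Bc.i k) ((A.e (Bc.i k)).symm z))⁻¹ *
          Q (Bc.i k) ((A.e (Bc.i k)).symm z)).trace).re := by
      rw [hf]
      simp only
      rw [trK_eq K hQ.tr hx']
    rw [h5, Matrix.mul_add, Matrix.mul_add, Matrix.trace_add, Matrix.trace_add, Complex.add_re,
      Complex.add_re] at h4
    show lapK K (vs ψ s J) ((A.e (Bc.i k)).symm z) - f ((A.e (Bc.i k)).symm z) - c = _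
    rw [h6, h7]
    have h8 : ((∑ l, ((K.g (Bc.i k) ((A.e (Bc.i k)).symm z))⁻¹ *
          Y (Bc.i k) ((A.e (Bc.i k)).symm z)) l l)).re =
        (((K.g (Bc.i k) ((A.e (Bc.i k)).symm z))⁻¹ *
          Y (Bc.i k) ((A.e (Bc.i k)).symm z)).trace).re := rfl
    rw [h8]
    linarith
  have hvs0 : ∀ J, vs ψ s J x0 = 0 := fun J => by simp [vs, hψ0]
  have key := fun J => H (vs ψ s J) c (C1 * T J) (vs_sm hψ s J) (hvs0 J) (hres J)
  have hεt : Tendsto (fun J => C1 * T J) atTop (𝓝 0) := by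
    have := hT0.const_mul C1
    rwa [mul_zero] at this
  have hm : c + m = 0 := by
    have h1 : Tendsto (fun _ : ℕ => |c + m|) atTop (𝓝 0) :=
      squeeze_zero (fun _ => abs_nonneg _) (fun J => (key J).2) hεt
    exact abs_eq_zero.1 (tendsto_nhds_unique tendsto_const_nhds h1)
  have hsumx : ∀ x, Summable fun j => s ^ j * ψ j x := by
    intro x
    refine Summable.of_norm_bounded hs fun j => ?_
    rw [norm_mul, norm_pow, Real.norm_eq_abs, Real.norm_eq_abs]
    exact mul_le_mul_of_nonneg_left ((hn j).nh.bdd x) (by positivity)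
  have hw' : (fun x => ∑' j, s ^ j * ψ j x) = w := by
    funext x
    have h1 : Tendsto (fun J => vs ψ s J x) atTop (𝓝 (∑' j, s ^ j * ψ j x)) :=
      (hsumx x).hasSum.tendsto_sum_nat
    have h2 : Tendsto (fun J => vs ψ s J x) atTop (𝓝 (w x)) := by
      rw [tendsto_iff_norm_sub_tendsto_zero]
      refine squeeze_zero (fun _ => norm_nonneg _) (fun J => (key J).1.nh.bdd x) ?_
      have := hεt.const_mul C
      rwa [mul_zero] at this
    exact tendsto_nhds_unique h1 h2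
  refine ⟨by rw [hw']; exact hw, ?_, ?_, C * C1, by positivity, fun J => ?_⟩
  · have := congrFun hw' x0
    simpa only [hw0] using this
  · intro x
    rw [hw']
    have h1 : (trK K (fun i y => Q i y + hsf A w i y) x) = trK K Q x + trK K (hsf A w) x := by
      unfold trK
      rw [Matrix.mul_add, Matrix.trace_add]
    rw [h1, Complex.add_re]
    have h2 : (trK K (hsf A w) x).re = lapK K w x := rfl
    rw [h2, hlap x, hf]
    simp only
    linarith
  · have h1 := (key J).1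
    rw [mul_assoc]
    rw [show (fun x => vs ψ s J x - ∑' j, s ^ j * ψ j x) = fun x => vs ψ s J x - w x by
      funext x
      rw [congrFun hw' x]]
    exact h1

end

end Crest.Agent.R281.LapAn_365
end

-- ▼ part R281/LAn6_508
section

/-!
# R281 (S0424), LAP-AN (helper508), file 6: the theorem in the language of HKMovJ

* `exists_lap` : for `K : Kah A`, `Q : K11 A` there is a smooth normalised `f` with
  `tr_K (Q + ∂∂̄ f) = const`
* `lap_unique` : uniqueness
* **`lap_move`** : along a `Ps11` family of Kähler metrics and a `Ps11` family of forms the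
  normalised solutions form a `PsF` family, the trace free representatives a `Ps11` family
-/

set_option autoImplicit false
set_option linter.unusedSectionVars false

open Set Filter Metric
open scoped ContDiff Matrix ComplexConjugate ComplexOrder Topology

namespace Crest.Agent.R281.LAn_508

open Crest.Agent.R275.Geo Crest.Agent.R275.Core144 Crest.Agent.R275.GC293
open Crest.Agent.R273.Defs_333 Crest.Agent.R273.YauDefs_635 Crest.Agent.R273.HM_333
open Crest.Agent.R273.YauCh_635 Crest.Agent.R273.Hess_333 Crest.Agent.R273.HessB_333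
open Crest.Agent.R273.Kah_333 Crest.Agent.R273.YauMax_635 Crest.Agent.R273.YauLoc_635
open Crest.Agent.R273.SchA_152 Crest.Agent.R273.SchD_152 Crest.Agent.R273.YauQ_635
open Crest.Agent.R273.Green_5 Crest.Agent.R273.GreenM_5 Crest.Agent.R273.FIb0_597
open Crest.Agent.R273.SchG_152 Crest.Agent.R273.SchF_152 Crest.Agent.R273.SchH_152
open Crest.Agent.R273.YauSchF_635 Crest.Agent.R273.YauOpA_635
open Crest.Agent.R273.YauPf_635 hiding ch
open Crest.Agent.R273.SchJ_152
open Crest.Agent.R281.HkR_835 (K11 ofKah)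
open HKMov_478 LapAn_365

noncomputable section

variable {n : ℕ} {M : Type} [TopologicalSpace M] {A : Atl n M}

/-- `tr_K (Q + ∂∂̄ f)` -/
def trQ (K : Kah A) (Q : K11 A) (f : M → ℝ) (x : M) : ℝ :=
  (trK K (fun i y => Q.g i y + hsf A f i y) x).re

theorem trQ_eq (K : Kah A) (Q : K11 A) {f : M → ℝ} (hf : A.Sm f) (x : M) :
    trQ K Q f x = (trK K Q.g x).re + lapK K f x := by
  have hx := mem_ch A x
  have h1 := congrArg Complex.re (trK_hf K ((k11_hf Q).add (hf_hsf hf)) hx)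
  have h2 := congrArg Complex.re (trK_hf K (k11_hf Q) hx)
  have h3 := congrArg Complex.re (trK_hf K (hf_hsf hf) hx)
  rw [Complex.ofReal_re] at h1 h2 h3
  have h4 : lapK K f x = (trK K (hsf A f) x).re := rfl
  rw [trQ, h4, h1, h2, h3, Matrix.mul_add, Matrix.trace_add, Complex.add_re]

/-- **existence** of the normalised solution -/
theorem exists_lap [T2Space M] [CompactSpace M] [ConnectedSpace M] [Finite A.ι] (P : Part A)
    (K : Kah A) (Q : K11 A) (x0 : M) : ∃ (f : M → ℝ) (c : ℝ), A.Sm f ∧ f x0 = 0 ∧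
      ∀ x, trQ K Q f x = c := by
  have hR' : A.Sm (fun x => -(trK K Q.g x).re) := fun i => (trK_sm K (k11_hf Q) i).neg
  obtain ⟨v, μ, hv, hlap⟩ := Crest.Agent.R273.CLin_933.lin_kah K P hR'
  have hv' : A.Sm (fun y => v y - v x0) := fun i => (hv i).sub contDiffOn_const
  refine ⟨fun y => v y - v x0, -μ, hv', sub_self _, fun x => ?_⟩
  rw [trQ_eq K Q hv', lapK_sub_const K hv, hlap x]
  ring

/-- **uniqueness** -/
theorem lap_unique [T2Space M] [CompactSpace M] [ConnectedSpace M] [Finite A.ι] (P : Part A)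
    (K : Kah A) (Q : K11 A) {x0 : M} {f g : M → ℝ} {c d : ℝ} (hf : A.Sm f) (hg : A.Sm g)
    (hf0 : f x0 = 0) (hg0 : g x0 = 0) (hfe : ∀ x, trQ K Q f x = c) (hge : ∀ x, trQ K Q g x = d)
    (Bc : Cb A) : f = g ∧ c = d := by
  obtain ⟨C, hC, H⟩ := lin_boundK P K Bc
  have hv : A.Sm (fun x => f x - g x) := fun i => (hf i).sub (hg i)
  have hlap : ∀ x, lapK K (fun x => f x - g x) x = (c - d) - (fun _ : M => (0 : ℝ)) x := by
    intro x
    have e : lapK K (fun x => f x - g x) x = lapK K f x - lapK K g x := LapAn_365.lapK_sub K hf hg x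
    have h1 := hfe x
    have h2 := hge x
    rw [trQ_eq K Q hf] at h1
    rw [trQ_eq K Q hg] at h2
    rw [e]
    linarith
  have h0 : Bc.NH (1 / 2) 0 (fun _ : M => (0 : ℝ)) := fun k =>
    HKMov_478.ho_const (le_of_eq norm_zero)
  obtain ⟨h1, h2⟩ := H x0 _ _ (c - d) 0 hv hlap h0 (by rw [hf0, hg0, sub_zero])
  refine ⟨?_, ?_⟩
  · funext x
    obtain ⟨k, hk, hxk⟩ := Bc.cover x
    have h3 := (h1 k).h0.bdd _ (ball_subset_closedBall hxk)
    simp only [inC, (A.e (Bc.i k)).left_inv hk, mul_zero, Real.norm_eq_abs] at h3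
    have h4 := abs_nonpos_iff.1 h3
    linarith
  · have h4 := abs_nonpos_iff.1 h2
    linarith

/-- shrinking the radius makes the tail small -/
theorem exists_radius {a : ℕ → ℝ} {r ε : ℝ} (hr : 0 < r) (ha : ∀ j, 0 ≤ a j)
    (hs : Summable fun j => a j * r ^ j) (hε : 0 < ε) : ∃ ρ, 0 < ρ ∧ ρ ≤ r ∧ ∀ ρ', 0 ≤ ρ' → ρ' ≤ ρ →
      ∀ J, ∑ j ∈ Finset.range J, a (j + 1) * ρ' ^ (j + 1) ≤ ε := by
  set S : ℝ := ∑' j, a j * r ^ j with hS
  have hS0 : 0 ≤ S := tsum_nonneg fun j => mul_nonneg (ha j) (pow_nonneg hr.le j)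
  set θ : ℝ := min 1 (ε / (S + 1)) with hθ
  have hθ0 : 0 < θ := lt_min one_pos (by positivity)
  have hθ1 : θ ≤ 1 := min_le_left _ _
  refine ⟨r * θ, by positivity, by nlinarith, fun ρ' hρ0 hρ' J => ?_⟩
  have h1 : ∀ j, a (j + 1) * ρ' ^ (j + 1) ≤ θ * (a (j + 1) * r ^ (j + 1)) := by
    intro j
    have h2 : ρ' ^ (j + 1) ≤ (r * θ) ^ (j + 1) := pow_le_pow_left₀ hρ0 hρ' _
    have h3 : θ ^ (j + 1) ≤ θ := by
      calc θ ^ (j + 1) ≤ θ ^ 1 := pow_le_pow_of_le_one hθ0.le hθ1 (by omega)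
        _ = θ := pow_one _
    have h4 : (r * θ) ^ (j + 1) ≤ r ^ (j + 1) * θ := by
      rw [mul_pow]
      exact mul_le_mul_of_nonneg_left h3 (by positivity)
    calc _ ≤ a (j + 1) * (r ^ (j + 1) * θ) := mul_le_mul_of_nonneg_left (h2.trans h4) (ha _)
      _ = _ := by ring
  calc _ ≤ ∑ j ∈ Finset.range J, θ * (a (j + 1) * r ^ (j + 1)) :=
        Finset.sum_le_sum fun j _ => h1 j
    _ = θ * ∑ j ∈ Finset.range J, a (j + 1) * r ^ (j + 1) := by rw [Finset.mul_sum]
    _ ≤ θ * S := by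
        refine mul_le_mul_of_nonneg_left ?_ hθ0.le
        have h5 : ∑ j ∈ Finset.range J, a (j + 1) * r ^ (j + 1) ≤
            ∑ j ∈ Finset.range (J + 1), a j * r ^ j := by
          rw [Finset.sum_range_succ' (fun j => a j * r ^ j)]
          have : 0 ≤ a 0 * r ^ 0 := mul_nonneg (ha 0) (by positivity)
          linarith
        exact h5.trans (hs.sum_le_tsum _ fun j _ => mul_nonneg (ha j) (pow_nonneg hr.le _))
    _ ≤ (ε / (S + 1)) * S := mul_le_mul_of_nonneg_right (min_le_right _ _) hS0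
    _ ≤ ε := by
        rw [div_mul_eq_mul_div, div_le_iff₀ (by positivity)]
        nlinarith

theorem inv_cancel {K : Matrix (Fin n) (Fin n) ℂ} (h : IsUnit K.det)
    (G T : Matrix (Fin n) (Fin n) ℂ) : (K⁻¹ * G)⁻¹ * (K⁻¹ * T) = G⁻¹ * T := by
  rw [Matrix.mul_inv_rev, Matrix.nonsing_inv_nonsing_inv _ h, Matrix.mul_assoc,
    ← Matrix.mul_assoc K, Matrix.mul_nonsing_inv _ h, Matrix.one_mul]

/-- **LAP-AN along a move** -/
theorem lap_move [T2Space M] [CompactSpace M] [ConnectedSpace M] [Finite A.ι] (P : Part A)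
    (Bc : Cb A) (x0 : M) {K : ℝ → Kah A} {Q : ℝ → K11 A} {f : ℝ → M → ℝ} {c : ℝ → ℝ}
    {s0 r r' δ : ℝ} {Y q : ℕ → K11 A} {a w : ℕ → ℝ}
    (hK : Ps11 Bc (fun s => ofKah (K s)) s0 r Y a) (hQ : Ps11 Bc Q s0 r' q w) (hδ : 0 < δ)
    (hf : ∀ s, |s - s0| < δ → A.Sm (f s)) (hf0 : ∀ s, |s - s0| < δ → f s x0 = 0)
    (heq : ∀ s, |s - s0| < δ → ∀ x, trQ (K s) (Q s) (f s) x = c s) :
    ∃ (ρ : ℝ) (ψ : ℕ → M → ℝ) (b m : ℕ → ℝ) (Q' : ℕ → K11 A), ρ ≤ δ ∧ ρ ≤ r ∧ ρ ≤ r' ∧
      PsF Bc f s0 ρ ψ b ∧ (∀ j i x, (Q' j).g i x = (q j).g i x + hsf A (ψ j) i x) ∧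
      (∀ E : ℝ → K11 A, (∀ s, |s - s0| < δ → ∀ i, ∀ x ∈ (A.e i).source,
        (E s).g i x = (Q s).g i x + hsf A (f s) i x) → Ps11 Bc E s0 ρ Q' b) ∧
      (∀ j, |m j| ≤ b j) ∧ ∀ s, |s - s0| < ρ → c s = ∑' j, (s - s0) ^ j * m j := by
  obtain ⟨η0, C, hη0, hC, H⟩ := ln_bound P (K s0) Bc x0
  obtain ⟨V, hV0, hV⟩ := hf_inv_bound (K s0) Bc
  set c1 : ℝ := n * (2 * V) + 1 with hc1
  have hn0 : (0 : ℝ) ≤ n := Nat.cast_nonneg n
  have hc11 : 1 ≤ c1 := by
    rw [hc1]
    have : (0 : ℝ) ≤ n * (2 * V) := by positivity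
    linarith
  have hc10 : 0 ≤ c1 := by linarith
  set az : ℕ → ℝ := fun j => c1 * a j with haz
  have haz0 : ∀ j, 0 ≤ az j := fun j => mul_nonneg hc10 (hK.a0 j)
  have hazs : Summable fun j => az j * r ^ j := by
    refine (hK.sum.mul_left c1).congr fun j => ?_
    rw [haz]
    ring
  set ε : ℝ := min η0 (1 / (4 * (n + 1))) with hε
  have hε0 : 0 < ε := lt_min hη0 (by positivity)
  obtain ⟨ρ0, hρ00, hρ0r, hρ0⟩ := exists_radius hK.r0 haz0 hazs hε0
  set ρ : ℝ := min (min ρ0 r') δ with hρ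
  have hρp : 0 < ρ := lt_min (lt_min hρ00 hQ.r0) hδ
  have hρρ0 : ρ ≤ ρ0 := (min_le_left _ _).trans (min_le_left _ _)
  have hρr : ρ ≤ r := hρρ0.trans hρ0r
  have hρr' : ρ ≤ r' := (min_le_left _ _).trans (min_le_right _ _)
  have hρδ : ρ ≤ δ := min_le_right _ _
  have hsm := hρ0 ρ hρp.le hρρ0
  set Yg : ℕ → A.ι → M → Matrix (Fin n) (Fin n) ℂ := fun j => (Y j).g with hYg
  set qg : ℕ → A.ι → M → Matrix (Fin n) (Fin n) ℂ := fun j => (q j).g with hqg
  have hZho : ∀ j, 1 ≤ j → ∀ k b c, HO (1 / 2) (az j) (closedBall (Bc.z k) (Bc.r k / 2))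
      (fun z => Zf (K s0) Yg (Bc.i k) ((A.e (Bc.i k)).symm z) j b c) := fun j _ k b c =>
    ho_inv_mul hV0 (hK.a0 j) (hV k) (Y := Yg j) (fun b c => hK.ho j k b c) b c
  have hwsum : Summable fun j => w j * ρ ^ j :=
    Summable.of_nonneg_of_le (fun j => mul_nonneg (hQ.a0 j) (by positivity))
      (fun j => mul_le_mul_of_nonneg_left (pow_le_pow_left₀ hρp.le hρr' _) (hQ.a0 j)) hQ.sum
  obtain ⟨S⟩ := H ρ az w (∑' j, w j * ρ ^ j) Yg qg hρp haz0
    (fun J => (hsm J).trans (min_le_left _ _)) (fun j _ => k11_hf (Y j)) hZho hQ.a0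
    (fun J => hwsum.sum_le_tsum _ fun j _ => mul_nonneg (hQ.a0 j) (by positivity))
    (fun j => k11_hf (q j)) hQ.ho
  have hSb : Summable fun j => S.b j * ρ ^ j :=
    summable_of_sum_range_le (fun j => mul_nonneg (S.b_nn j) (by positivity)) S.b_sum
  have hazρ : Summable fun j => az j * ρ ^ j :=
    Summable.of_nonneg_of_le (fun j => mul_nonneg (haz0 j) (by positivity))
      (fun j => mul_le_mul_of_nonneg_left (pow_le_pow_left₀ hρp.le hρr _) (haz0 j)) hazs
  have hK0 : ∀ i, ∀ x ∈ (A.e i).source, (Y 0).g i x = (K s0).g i x := by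
    intro i x hx
    ext b c
    exact hK.zero_eq hx b c
  -- the sum
  have key : ∀ s, |s - s0| < ρ → A.Sm (fun x => ∑' j, (s - s0) ^ j * S.ψ j x) ∧
      f s = (fun x => ∑' j, (s - s0) ^ j * S.ψ j x) ∧ c s = ∑' j, (s - s0) ^ j * S.c j := by
    intro s hs
    have hsδ := hs.trans_le hρδ
    set t : ℝ := s - s0 with ht
    have htn : ‖(t : ℂ)‖ ≤ ρ := by rw [Complex.norm_real, Real.norm_eq_abs]; exact hs.le
    have hSs : Summable fun j => |t| ^ j * S.b j := smb S.b_nn hSb hs.le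
    obtain ⟨g1, g2, g3, -⟩ := lap_reg P (K s) Bc x0 (ψ := S.ψ) (p := S.b) (s := t) S.sm S.nrm S.n2
      hSs (k11_hf (Q s)) (c := ∑' j, t ^ j * S.c j) (fun k z hz => by
        have hx := (A.e (Bc.i k)).map_target (Bc.sub' k hz)
        set x := (A.e (Bc.i k)).symm z with hxd
        have hZb : ∀ j, 1 ≤ j → ∀ b c, ‖Zf (K s0) Yg (Bc.i k) x j b c‖ ≤ az j :=
          fun j hj b c => (hZho j hj k b c).bdd z hz
        have hZ : Sb (Zt (Zf (K s0) Yg (Bc.i k) x)) (t : ℂ) := by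
          refine Sb.of_bd (p := fun j => if j = 0 then 1 else az j) (r := ρ) ?_ ?_ htn
          · refine (summable_nat_add_iff 1).1 ?_
            simpa using (summable_nat_add_iff (f := fun j => az j * ρ ^ j) 1).2 hazρ
          · intro j b c
            rcases j with _ | j
            · simp only [Zt, if_true, Matrix.one_apply]
              split_ifs <;> simp
            · simp only [Zt, Nat.add_one_ne_zero, if_false]
              exact hZb (j + 1) (by omega) b c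
        have hH : Sb (Hn (Zf (K s0) Yg (Bc.i k) x)) (t : ℂ) := by
          refine sb_Hn hρp.le haz0 (fun J => ?_) hZb htn
          have e : ∑ i ∈ Finset.range J, (2 * n * az (i + 1)) * ρ ^ (i + 1) =
              2 * n * ∑ i ∈ Finset.range J, az (i + 1) * ρ ^ (i + 1) := by
            rw [Finset.mul_sum]
            exact Finset.sum_congr rfl fun i _ => by ring
          rw [e]
          have h1 := (hsm J).trans (min_le_right _ _)
          have h2 : (2 : ℝ) * n * (1 / (4 * (n + 1))) ≤ 1 / 2 := by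
            rw [mul_one_div, div_le_div_iff₀ (by positivity) (by norm_num)]
            linarith
          exact (mul_le_mul_of_nonneg_left h1 (by positivity)).trans h2
        have hW : Sb (Zf (K s0) (Yf A qg S.ψ) (Bc.i k) x) (t : ℂ) :=
          Sb.of_bd (p := S.b) hSb (fun j b c => (S.hoW j k b c).bdd z hz) htn
        have hlim := trace_limit hZ hH hW (S.eqn0 _ x hx) (fun J => S.eqn J _ x hx)
        -- identification of the sums
        have hK0d : IsUnit ((K s0).g (Bc.i k) x).det :=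
          isUnit_iff_ne_zero.2 ((K s0).pos _ x hx).det_pos.ne'
        have e1 : Ms (Zt (Zf (K s0) Yg (Bc.i k) x)) (t : ℂ) =
            ((K s0).g (Bc.i k) x)⁻¹ * (K s).g (Bc.i k) x := by
          ext b d
          rw [Ms_apply, Matrix.mul_apply]
          have h1 : HasSum (fun j => ∑ l, ((K s0).g (Bc.i k) x)⁻¹ b l *
              ((t : ℂ) ^ j * (Y j).g (Bc.i k) x l d))
              (∑ l, ((K s0).g (Bc.i k) x)⁻¹ b l * (K s).g (Bc.i k) x l d) :=
            hasSum_sum fun l _ => (hK.hs s (hs.trans_le hρr) _ x hx l d).mul_left _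
          refine (h1.congr_fun fun j => ?_).tsum_eq
          rcases j with _ | j
          · simp only [Zt, if_true, pow_zero, one_mul]
            rw [← Matrix.nonsing_inv_mul _ hK0d, Matrix.mul_apply]
            exact Finset.sum_congr rfl fun l _ => by rw [hK0 _ x hx]
          · simp only [Zt, Nat.add_one_ne_zero, if_false, Zf, Matrix.mul_apply, Finset.mul_sum]
            exact Finset.sum_congr rfl fun l _ => by ring
        have e2 : Ms (Zf (K s0) (Yf A qg S.ψ) (Bc.i k) x) (t : ℂ) =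
            ((K s0).g (Bc.i k) x)⁻¹ * ((Q s).g (Bc.i k) x + Matrix.of fun b d => ∑' j,
              ((t ^ j : ℝ) : ℂ) * hsf A (S.ψ j) (Bc.i k) x b d) := by
          ext b d
          rw [Ms_apply, Matrix.mul_apply]
          have hhs : ∀ l, Summable fun j => ((t ^ j : ℝ) : ℂ) * hsf A (S.ψ j) (Bc.i k) x l d := by
            intro l
            refine Summable.of_norm_bounded hSs fun j => ?_
            rw [norm_mul, Complex.norm_real, norm_pow, Real.norm_eq_abs]
            exact mul_le_mul_of_nonneg_left ((n2_hsf (S.sm j) (S.n2 j) k l d).bdd z hz)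
              (by positivity)
          have h1 : HasSum (fun j => ∑ l, ((K s0).g (Bc.i k) x)⁻¹ b l *
              ((t : ℂ) ^ j * (q j).g (Bc.i k) x l d +
                ((t ^ j : ℝ) : ℂ) * hsf A (S.ψ j) (Bc.i k) x l d))
              (∑ l, ((K s0).g (Bc.i k) x)⁻¹ b l * ((Q s).g (Bc.i k) x + Matrix.of fun b d => ∑' j,
              ((t ^ j : ℝ) : ℂ) * hsf A (S.ψ j) (Bc.i k) x b d) l d) :=
            hasSum_sum fun l _ => ((hQ.hs s (hs.trans_le hρr') _ x hx l d).add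
              (hhs l).hasSum).mul_left _
          refine (h1.congr_fun fun j => ?_).tsum_eq
          simp only [Zf, Yf, Matrix.mul_apply, Matrix.add_apply, Finset.mul_sum, hqg]
          push_cast
          exact Finset.sum_congr rfl fun l _ => by ring
        rw [e1, e2] at hlim
        have e3 : (((K s0).g (Bc.i k) x)⁻¹ * (K s).g (Bc.i k) x)⁻¹ *
            (((K s0).g (Bc.i k) x)⁻¹ * ((Q s).g (Bc.i k) x + Matrix.of fun b d => ∑' j,
              ((t ^ j : ℝ) : ℂ) * hsf A (S.ψ j) (Bc.i k) x b d)) =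
            ((K s).g (Bc.i k) x)⁻¹ * ((Q s).g (Bc.i k) x + Matrix.of fun b d => ∑' j,
              ((t ^ j : ℝ) : ℂ) * hsf A (S.ψ j) (Bc.i k) x b d) := by
          exact inv_cancel hK0d _ _
        rw [e3] at hlim
        exact hlim)
    obtain ⟨h1, h2⟩ := lap_unique P (K s) (Q s) (hf s hsδ) g1 (hf0 s hsδ) g2 (heq s hsδ) g3 Bc
    exact ⟨g1, h1, h2⟩
  have hF : PsF Bc f s0 ρ S.ψ S.b := by
    refine ⟨hρp, S.b_nn, hSb, S.sm, S.n2, fun s hs x => ?_⟩
    rw [(key s hs).2.1]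
    refine (Summable.of_norm_bounded (smb S.b_nn hSb hs.le) fun j => ?_).hasSum
    rw [norm_mul, norm_pow, Real.norm_eq_abs]
    refine mul_le_mul_of_nonneg_left ?_ (by positivity)
    obtain ⟨k, hk, hxk⟩ := Bc.cover x
    have h1 := (S.n2 j k).h0.bdd _ (ball_subset_closedBall hxk)
    simpa [inC, (A.e (Bc.i k)).left_inv hk] using h1
  refine ⟨ρ, S.ψ, S.b, S.c, fun j => addH (q j) (S.ψ j) (S.sm j), hρδ, hρr, hρr', hF,
    fun j i x => rfl, fun E hE => ?_, S.hc, fun s hs => (key s hs).2.2⟩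
  refine ⟨hρp, S.b_nn, hSb, fun j k b d => S.hoT j k b d, fun s hs i x hx p d => ?_⟩
  have hsδ := hs.trans_le hρδ
  have h1 := (hQ.hs s (hs.trans_le hρr') i x hx p d).add (hF.hsf_sum hs (hf s hsδ) hx p d)
  have e : (E s).g i x p d = (Q s).g i x p d + hsf A (f s) i x p d := by
    rw [hE s hsδ i x hx, Matrix.add_apply]
  rw [e]
  refine h1.congr_fun fun j => ?_
  show _ * ((q j).g i x + hsf A (S.ψ j) i x) p d = _
  rw [Matrix.add_apply]
  ring

end

end Crest.Agent.R281.LAn_508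
end

-- ▼ part R281/Sem1_323

/-!
# R281 (S0424), SEMI-P (helper323), part 1: the family of metrics over a neighbourhood of `[0,1]`

* `SegK K0 B x0 T K u` : `K s = K0 + s B + i∂∂̄ (u s)`, `u s x0 = 0`, `det (K s) = c_s det K0`, `s ∈ T`
* `SegK.near`    : solutions near every point
* `SegK.extend`  : from `[0,1]` to `(-δ, 1+δ)`
* `SegK.ps`      : local power series at every point of an open `T` (478's `yau_move`)
* `SegF`, `SegF.extend` : the same for the linear equation `tr (E + i∂∂̄ (f s)) = c_s`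
-/

set_option autoImplicit false
set_option linter.unusedSectionVars false

open Set Filter Topology Complex Metric
open scoped ContDiff Matrix ComplexConjugate ComplexOrder

namespace Crest.Agent.R281.Sem_323

open Crest.Agent.R275.Geo Crest.Agent.R275.Core144 Crest.Agent.R275.GC293
open Crest.Agent.R275.EDR890
open Crest.Agent.R273.Defs_333 Crest.Agent.R273.YauDefs_635 Crest.Agent.R273.HM_333
open Crest.Agent.R273.YauCh_635 Crest.Agent.R273.Hess_333 Crest.Agent.R273.HessB_333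
open Crest.Agent.R273.Kah_333 Crest.Agent.R273.YauMax_635 Crest.Agent.R273.YauLoc_635
open Crest.Agent.R273.SchA_152 Crest.Agent.R273.SchD_152 Crest.Agent.R273.YauQ_635
open Crest.Agent.R273.YauSchF_635 Crest.Agent.R273.YauPf_635 Crest.Agent.R273.YauOpA_635
open Crest.Agent.R273.SchF_152 Crest.Agent.R273.SchE_152 Crest.Agent.R273.SchG_152
open Crest.Agent.R273.GreenM_5
open Crest.Agent.R281.HkR_835 (K11 ofKah)
open Crest.Agent.R281.KpU_487 (C2f unique_gen)
open Crest.Agent.R281.HKMov_478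
open Crest.Agent.R281.LAn_508 (trQ exists_lap lap_unique lap_move)

noncomputable section

variable {n : ℕ} {M : Type} [TopologicalSpace M] {A : Atl n M}

/-! ### algebra of `K11` -/

/-- the zero form -/
def zK (A : Atl n M) : K11 A where
  g _ _ := 0
  sm _ _ _ := contDiffOn_const
  herm _ _ _ := Matrix.isHermitian_zero
  tr _ _ _ _ := by simp
  closed _ _ _ _ _ _ := (wd_const (0 : ℂ) _ _).trans (wd_const (0 : ℂ) _ _).symm

/-- `B` in degree one -/
def oneK (B : K11 A) (j : ℕ) : K11 A := if j = 1 then B else zK A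

theorem oneK_one (B : K11 A) : oneK B 1 = B := if_pos rfl
theorem oneK_ne (B : K11 A) {j : ℕ} (hj : j ≠ 1) : oneK B j = zK A := if_neg hj

theorem isSum_one (K : Kah A) (B : K11 A) (s : ℝ) : IsSum K (oneK B) s (linK K B s) := by
  intro i x hx b c
  have h1 : (linK K B s).g i x b c - K.g i x b c = (s : ℂ) * B.g i x b c := by
    show (K.g i x + (s : ℂ) • B.g i x) b c - K.g i x b c = _
    rw [Matrix.add_apply, Matrix.smul_apply, smul_eq_mul]
    ring
  rw [h1]
  have h2 := hasSum_single (f := fun j => (s : ℂ) ^ (j + 1) * (oneK B (j + 1)).g i x b c) 0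
    (fun j hj => by
      rw [oneK_ne B (by omega)]
      show _ * (0 : Matrix (Fin n) (Fin n) ℂ) b c = 0
      simp)
  simpa [oneK_one] using h2

/-- local existence along a line -/
theorem near [T2Space M] [CompactSpace M] [ConnectedSpace M] [Finite A.ι] (P : Part A) (Bc : Cb A)
    (K : Kah A) (B : K11 A) (x0 : M) : ∃ δ : ℝ, 0 < δ ∧ ∀ s, |s| < δ → ∃ (K' : Kah A) (u : M → ℝ)
      (c : ℝ), IsAdd K' (linK K B s) u ∧ u x0 = 0 ∧
        ∀ i, ∀ x ∈ (A.e i).source, (K'.g i x).det = (c : ℂ) * (K.g i x).det := by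
  obtain ⟨V, hV0, hV⟩ := k11_ho B Bc
  obtain ⟨r, η', hr, -, -, -, H⟩ := yau_an P K Bc x0 (w := fun j => if j = 1 then V else 0)
    (fun j => by split_ifs <;> simp [hV0]) (ρ := 1) (W := V) one_pos (fun J => by
      calc ∑ j ∈ Finset.range J, (if j + 1 = 1 then V else 0) * (1 : ℝ) ^ (j + 1)
          = ∑ j ∈ Finset.range J, (if j = 0 then V else 0) := by
            refine Finset.sum_congr rfl fun j _ => ?_
            simp
        _ ≤ V := by
            rw [Finset.sum_ite_eq' (Finset.range J) 0 fun _ => V]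
            split_ifs
            · exact le_rfl
            · exact hV0) one_pos
  obtain ⟨S, hS⟩ := H (oneK B) (fun j hj k b c => by
    by_cases h1 : j = 1
    · subst h1
      simp only [if_true, oneK_one]
      exact hV k b c
    · rw [oneK_ne B h1, if_neg h1]
      refine ⟨fun z _ => ?_, fun z _ w _ => ?_⟩
      · show ‖(0 : Matrix (Fin n) (Fin n) ℂ) b c‖ ≤ 0
        simp
      · show ‖(0 : Matrix (Fin n) (Fin n) ℂ) b c - (0 : Matrix (Fin n) (Fin n) ℂ) b c‖ ≤ _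
        simp)
  refine ⟨r, hr, fun s hs => ?_⟩
  obtain ⟨K', h1, h2⟩ := hS s hs (linK K B s) (isSum_one K B s)
  refine ⟨K', S.ps s, 1 + S.ms s, h1, ?_, h2⟩
  unfold AnS.ps
  simp [S.nrm]

/-- a family of Monge-Ampere metrics over a part of a line -/
structure SegK (K0 : Kah A) (B : K11 A) (x0 : M) (T : Set ℝ) (K : ℝ → Kah A) (u : ℝ → M → ℝ) :
    Prop where
  add : ∀ s ∈ T, IsAdd (K s) (linK K0 B s) (u s)
  nrm : ∀ s ∈ T, u s x0 = 0
  det : ∀ s ∈ T, ∃ c : ℝ, ∀ i, ∀ x ∈ (A.e i).source,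
    ((K s).g i x).det = (c : ℂ) * (K0.g i x).det

/-- composition of two steps -/
theorem isAdd_step {K0 K K' : Kah A} {B : K11 A} {u v : M → ℝ} {s t : ℝ}
    (h : IsAdd K (linK K0 B s) u) (h' : IsAdd K' (linK K B t) v) :
    IsAdd K' (linK K0 B (s + t)) (fun x => u x + v x) := by
  refine ⟨fun i => (h.sm i).add (h'.sm i), fun i x hx => ?_⟩
  rw [h'.eq i x hx, hsf_addf h.sm h'.sm hx]
  show K.g i x + (t : ℂ) • B.g i x + hsf A v i x =
    K0.g i x + ((s + t : ℝ) : ℂ) • B.g i x + (hsf A u i x + hsf A v i x)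
  rw [h.eq i x hx]
  show K0.g i x + (s : ℂ) • B.g i x + hsf A u i x + (t : ℂ) • B.g i x + hsf A v i x = _
  rw [Complex.ofReal_add, add_smul]
  abel

namespace SegK

variable {K0 : Kah A} {B : K11 A} {x0 : M} {T : Set ℝ} {K : ℝ → Kah A} {u : ℝ → M → ℝ}

theorem mono (h : SegK K0 B x0 T K u) {T' : Set ℝ} (hT : T' ⊆ T) : SegK K0 B x0 T' K u :=
  ⟨fun s hs => h.add s (hT hs), fun s hs => h.nrm s (hT hs), fun s hs => h.det s (hT hs)⟩

/-- solutions near every point -/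
theorem near [T2Space M] [CompactSpace M] [ConnectedSpace M] [Finite A.ι] (P : Part A) (Bc : Cb A)
    (h : SegK K0 B x0 T K u) {s0 : ℝ} (hs0 : s0 ∈ T) :
    ∃ δ : ℝ, 0 < δ ∧ ∀ s, |s - s0| < δ → ∃ (K' : Kah A) (v : M → ℝ) (c : ℝ),
      IsAdd K' (linK K0 B s) v ∧ v x0 = 0 ∧
        ∀ i, ∀ x ∈ (A.e i).source, (K'.g i x).det = (c : ℂ) * (K0.g i x).det := by
  obtain ⟨δ, hδ, H⟩ := Sem_323.near P Bc (K s0) B x0
  refine ⟨δ, hδ, fun s hs => ?_⟩
  obtain ⟨K', v, c, h1, h2, h3⟩ := H (s - s0) hs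
  obtain ⟨c0, hc0⟩ := h.det s0 hs0
  have h4 := isAdd_step (h.add s0 hs0) h1
  rw [add_sub_cancel] at h4
  refine ⟨K', _, c * c0, h4, ?_, fun i x hx => ?_⟩
  · rw [h.nrm s0 hs0, h2, add_zero]
  · rw [h3 i x hx, hc0 i x hx]
    push_cast
    ring

open Classical in
/-- **extension from `[0,1]` to a neighbourhood** -/
theorem extend [T2Space M] [CompactSpace M] [ConnectedSpace M] [Finite A.ι] (P : Part A)
    (Bc : Cb A) (h : SegK K0 B x0 (Icc 0 1) K u) :
    ∃ (δ : ℝ) (K' : ℝ → Kah A) (u' : ℝ → M → ℝ), 0 < δ ∧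
      SegK K0 B x0 (Ioo (-δ) (1 + δ)) K' u' ∧ ∀ s ∈ Icc (0 : ℝ) 1, K' s = K s ∧ u' s = u s := by
  obtain ⟨δ0, hδ0, H0⟩ := h.near P Bc (s0 := 0) ⟨le_rfl, zero_le_one⟩
  obtain ⟨δ1, hδ1, H1⟩ := h.near P Bc (s0 := 1) ⟨zero_le_one, le_rfl⟩
  set δ := min δ0 δ1 with hδ
  have hδp : 0 < δ := lt_min hδ0 hδ1
  have key : ∀ s, s ∈ Ioo (-δ) (1 + δ) → ∃ (K' : Kah A) (v : M → ℝ),
      (IsAdd K' (linK K0 B s) v ∧ v x0 = 0 ∧ ∃ c : ℝ,
        ∀ i, ∀ x ∈ (A.e i).source, (K'.g i x).det = (c : ℂ) * (K0.g i x).det) ∧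
      (s ∈ Icc (0 : ℝ) 1 → K' = K s ∧ v = u s) := by
    intro s hs
    by_cases h1 : s ∈ Icc (0 : ℝ) 1
    · exact ⟨K s, u s, ⟨h.add s h1, h.nrm s h1, h.det s h1⟩, fun _ => ⟨rfl, rfl⟩⟩
    · rcases lt_or_ge s 0 with h2 | h2
      · obtain ⟨K', v, c, a1, a2, a3⟩ := H0 s (by
          rw [sub_zero, abs_of_neg h2]
          have := hs.1
          have := min_le_left δ0 δ1
          linarith)
        exact ⟨K', v, ⟨a1, a2, c, a3⟩, fun h3 => absurd h3 h1⟩
      · have h3 : 1 < s := by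
          by_contra h3
          exact h1 ⟨h2, not_lt.1 h3⟩
        obtain ⟨K', v, c, a1, a2, a3⟩ := H1 s (by
          rw [abs_of_pos (by linarith)]
          have := hs.2
          have := min_le_right δ0 δ1
          linarith)
        exact ⟨K', v, ⟨a1, a2, c, a3⟩, fun h3 => absurd h3 h1⟩
  have key' : ∀ s, ∃ p : Kah A × (M → ℝ), s ∈ Ioo (-δ) (1 + δ) →
      (IsAdd p.1 (linK K0 B s) p.2 ∧ p.2 x0 = 0 ∧ ∃ c : ℝ,
        ∀ i, ∀ x ∈ (A.e i).source, (p.1.g i x).det = (c : ℂ) * (K0.g i x).det) ∧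
      (s ∈ Icc (0 : ℝ) 1 → p.1 = K s ∧ p.2 = u s) := by
    intro s
    by_cases hs : s ∈ Ioo (-δ) (1 + δ)
    · obtain ⟨K', v, hv⟩ := key s hs
      exact ⟨(K', v), fun _ => hv⟩
    · exact ⟨(K0, 0), fun h => absurd h hs⟩
  choose p hp using key'
  refine ⟨δ, fun s => (p s).1, fun s => (p s).2, hδp, ⟨fun s hs => (hp s hs).1.1,
    fun s hs => (hp s hs).1.2.1, fun s hs => (hp s hs).1.2.2⟩, fun s hs => ?_⟩
  exact (hp s ⟨by linarith [hs.1], by linarith [hs.2]⟩).2 hs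

/-- the local power series of the line -/
theorem ps_lin (Bc : Cb A) (K0 : Kah A) (B : K11 A) (s0 : ℝ) :
    ∃ a : ℕ → ℝ, Ps11 Bc (linK K0 B) s0 1 (fun j => if j = 0 then linK K0 B s0 else oneK B j) a := by
  obtain ⟨V, hV0, hV⟩ := k11_ho B Bc
  obtain ⟨V', hV0', hV'⟩ := k11_ho (linK K0 B s0) Bc
  refine ⟨fun j => if j = 0 then V' else if j = 1 then V else 0, one_pos, fun j => ?_, ?_, ?_, ?_⟩
  · split_ifs
    · exact hV0'
    · exact hV0
    · exact le_rfl
  · refine summable_of_ne_finset_zero (s := {0, 1}) fun j hj => ?_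
    simp only [Finset.mem_insert, Finset.mem_singleton, not_or] at hj
    rw [if_neg hj.1, if_neg hj.2, zero_mul]
  · intro j k b c
    by_cases h0 : j = 0
    · subst h0
      simp only [if_true]
      exact hV' k b c
    · simp only [if_neg h0]
      by_cases h1 : j = 1
      · subst h1
        simp only [if_true, oneK_one]
        exact hV k b c
      · rw [oneK_ne B h1, if_neg h1]
        refine ⟨fun z _ => ?_, fun z _ w _ => ?_⟩
        · show ‖(0 : Matrix (Fin n) (Fin n) ℂ) b c‖ ≤ 0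
          simp
        · show ‖(0 : Matrix (Fin n) (Fin n) ℂ) b c - (0 : Matrix (Fin n) (Fin n) ℂ) b c‖ ≤ _
          simp
  · intro s hs i x hx b c
    have h1 : HasSum (fun j => ((s - s0 : ℝ) : ℂ) ^ j *
        ((fun j => if j = 0 then linK K0 B s0 else oneK B j) j : K11 A).g i x b c)
        (∑ j ∈ ({0, 1} : Finset ℕ), ((s - s0 : ℝ) : ℂ) ^ j *
          ((fun j => if j = 0 then linK K0 B s0 else oneK B j) j : K11 A).g i x b c) := by
      refine hasSum_sum_of_ne_finset_zero fun j hj => ?_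
      simp only [Finset.mem_insert, Finset.mem_singleton, not_or] at hj
      simp only [if_neg hj.1]
      rw [oneK_ne B hj.2]
      show _ * (0 : Matrix (Fin n) (Fin n) ℂ) b c = 0
      simp
    have h2 : (linK K0 B s).g i x b c = ∑ j ∈ ({0, 1} : Finset ℕ), ((s - s0 : ℝ) : ℂ) ^ j *
          ((fun j => if j = 0 then linK K0 B s0 else oneK B j) j : K11 A).g i x b c := by
      rw [Finset.sum_pair zero_ne_one]
      simp only [if_true, one_ne_zero, if_false, oneK_one, pow_zero, pow_one, one_mul]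
      show (K0.g i x + (s : ℂ) • B.g i x) b c = (K0.g i x + (s0 : ℂ) • B.g i x) b c + _
      rw [Matrix.add_apply, Matrix.add_apply, Matrix.smul_apply, Matrix.smul_apply, smul_eq_mul,
        smul_eq_mul]
      push_cast
      ring
    rw [h2]
    exact h1

/-- **the family and its potentials have local power series at every point of an open set** -/
theorem ps [T2Space M] [CompactSpace M] [ConnectedSpace M] [Finite A.ι] (P : Part A)
    (Bc : Cb A) (h : SegK K0 B x0 T K u) (hT : IsOpen T) {s0 : ℝ} (hs0 : s0 ∈ T) :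
    ∃ (r : ℝ) (φ : ℕ → M → ℝ) (Y : ℕ → K11 A) (m b : ℕ → ℝ), (∀ s, |s - s0| < r → s ∈ T) ∧
      PsF Bc u s0 r φ b ∧ Ps11 Bc (fun s => ofKah (K s)) s0 r Y b ∧ (∀ j, |m j| ≤ b j) ∧
      ∀ s, |s - s0| < r → ∀ i, ∀ x ∈ (A.e i).source,
        ((K s).g i x).det = ((∑' j, (s - s0) ^ j * m j : ℝ) : ℂ) * ((K s0).g i x).det := by
  obtain ⟨δ, hδ, hδT⟩ := Metric.isOpen_iff.1 hT s0 hs0
  have hb : ∀ s, |s - s0| < δ → s ∈ T := fun s hs => hδT (by rwa [mem_ball, Real.dist_eq])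
  obtain ⟨a, ha⟩ := ps_lin Bc K0 B s0
  obtain ⟨c0, hc0⟩ := h.det s0 hs0
  have hc0' : c0 ≠ 0 := by
    rintro rfl
    obtain ⟨i, hi⟩ := A.cover x0
    have h1 := hc0 i x0 hi
    rw [Complex.ofReal_zero, zero_mul] at h1
    exact ((K s0).pos i x0 hi).det_pos.ne' h1
  obtain ⟨r', φ, Y', m, b, h1, -, h3, h4, h5, h6⟩ := yau_move P Bc x0 (K := K) (u := u) ha hδ
    (fun s hs => h.add s (hb s hs)) (fun s hs => h.nrm s (hb s hs)) (fun s hs => by
      obtain ⟨c, hc⟩ := h.det s (hb s hs)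
      refine ⟨c / c0, fun i x hx => ?_⟩
      rw [hc i x hx, hc0 i x hx]
      push_cast
      have : (c0 : ℂ) ≠ 0 := Complex.ofReal_ne_zero.2 hc0'
      field_simp)
  exact ⟨r', φ, Y', m, b, fun s hs => hb s (hs.trans_le h1), h3, h4, h5, h6⟩

end SegK

/-! ### the linear equation -/

/-- the normalised solutions of `tr_{K s} (E + i∂∂̄ (f s)) = c_s` -/
structure SegF (K : ℝ → Kah A) (E : K11 A) (x0 : M) (T : Set ℝ) (f : ℝ → M → ℝ) : Prop where
  sm : ∀ s ∈ T, A.Sm (f s)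
  nrm : ∀ s ∈ T, f s x0 = 0
  tr : ∀ s ∈ T, ∃ c : ℝ, ∀ x, trQ (K s) E (f s) x = c

namespace SegF

variable {K K' : ℝ → Kah A} {E : K11 A} {x0 : M} {T T' : Set ℝ} {f f' : ℝ → M → ℝ}

theorem mono (h : SegF K E x0 T f) (hT : T' ⊆ T) : SegF K E x0 T' f :=
  ⟨fun s hs => h.sm s (hT hs), fun s hs => h.nrm s (hT hs), fun s hs => h.tr s (hT hs)⟩

/-- existence -/
theorem exists_all [T2Space M] [CompactSpace M] [ConnectedSpace M] [Finite A.ι] (P : Part A)
    (K : ℝ → Kah A) (E : K11 A) (x0 : M) : ∃ f : ℝ → M → ℝ, SegF K E x0 univ f := by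
  choose f c h using fun s => exists_lap P (K s) E x0
  exact ⟨f, fun s _ => (h s).1, fun s _ => (h s).2.1, fun s _ => ⟨c s, (h s).2.2⟩⟩

/-- uniqueness -/
theorem eq [T2Space M] [CompactSpace M] [ConnectedSpace M] [Finite A.ι] (P : Part A)
    (Bc : Cb A) (h : SegF K E x0 T f) (h' : SegF K' E x0 T' f') {s : ℝ} (hs : s ∈ T)
    (hs' : s ∈ T') (hK : K' s = K s) : f' s = f s := by
  obtain ⟨c, hc⟩ := h.tr s hs
  obtain ⟨c', hc'⟩ := h'.tr s hs'
  rw [hK] at hc'
  exact (lap_unique P (K s) E (h'.sm s hs') (h.sm s hs) (h'.nrm s hs') (h.nrm s hs) hc' hc Bc).1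

/-- the constant family of forms has a power series -/
theorem ps_const (Bc : Cb A) (E : K11 A) (s0 : ℝ) :
    ∃ w : ℕ → ℝ, Ps11 Bc (fun _ => E) s0 1 (fun j => if j = 0 then E else zK A) w := by
  obtain ⟨V, hV0, hV⟩ := k11_ho E Bc
  refine ⟨fun j => if j = 0 then V else 0, one_pos, fun j => ?_, ?_, ?_, ?_⟩
  · split_ifs
    · exact hV0
    · exact le_rfl
  · refine summable_of_ne_finset_zero (s := {0}) fun j hj => ?_
    rw [Finset.mem_singleton] at hj
    rw [if_neg hj, zero_mul]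
  · intro j k b c
    by_cases h0 : j = 0
    · subst h0
      simp only [if_true]
      exact hV k b c
    · simp only [if_neg h0]
      refine ⟨fun z _ => ?_, fun z _ w _ => ?_⟩
      · show ‖(0 : Matrix (Fin n) (Fin n) ℂ) b c‖ ≤ 0
        simp
      · show ‖(0 : Matrix (Fin n) (Fin n) ℂ) b c - (0 : Matrix (Fin n) (Fin n) ℂ) b c‖ ≤ _
        simp
  · intro s hs i x hx b c
    have h1 := hasSum_single (f := fun j => ((s - s0 : ℝ) : ℂ) ^ j *
        ((fun j => if j = 0 then E else zK A) j : K11 A).g i x b c) 0 (fun j hj => by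
      simp only [if_neg hj]
      show _ * (0 : Matrix (Fin n) (Fin n) ℂ) b c = 0
      simp)
    simpa using h1

/-- **local power series** -/
theorem ps [T2Space M] [CompactSpace M] [ConnectedSpace M] [Finite A.ι] (P : Part A)
    (Bc : Cb A) {K0 : Kah A} {B : K11 A} {u : ℝ → M → ℝ} (hK : SegK K0 B x0 T K u)
    (h : SegF K E x0 T f) (hT : IsOpen T) {s0 : ℝ} (hs0 : s0 ∈ T) :
    ∃ (r : ℝ) (φ ψ : ℕ → M → ℝ) (Y : ℕ → K11 A) (b b' : ℕ → ℝ), (∀ s, |s - s0| < r → s ∈ T) ∧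
      PsF Bc u s0 r φ b ∧ Ps11 Bc (fun s => ofKah (K s)) s0 r Y b ∧ PsF Bc f s0 r ψ b' := by
  obtain ⟨r, φ, Y, m, b, h1, h2, h3, -, -⟩ := hK.ps P Bc hT hs0
  obtain ⟨w, hw⟩ := ps_const Bc E s0
  have hc : ∃ c : ℝ → ℝ, ∀ s, |s - s0| < r → ∀ x, trQ (K s) E (f s) x = c s := by
    refine ⟨fun s => trQ (K s) E (f s) x0, fun s hs x => ?_⟩
    obtain ⟨c, hc⟩ := h.tr s (h1 s hs)
    exact (hc x).trans (hc x0).symm
  obtain ⟨c, hc⟩ := hc
  obtain ⟨ρ, ψ, b', m', Q', g1, g2, g3, g4, -⟩ := lap_move P Bc x0 (K := K) (Q := fun _ => E)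
    (f := f) (c := c) h3 hw h2.r0 (fun s hs => h.sm s (h1 s hs)) (fun s hs => h.nrm s (h1 s hs)) hc
  have hρ := g4.r0
  refine ⟨ρ, φ, ψ, Y, b, b', fun s hs => h1 s (hs.trans_le g1), ?_, ?_, g4⟩
  · exact ⟨hρ, h2.a0, Summable.of_nonneg_of_le (fun j => mul_nonneg (h2.a0 j) (by positivity))
      (fun j => mul_le_mul_of_nonneg_left (pow_le_pow_left₀ hρ.le g1 _) (h2.a0 j)) h2.sum,
      h2.sm, h2.n2, fun s hs => h2.hs s (hs.trans_le g1)⟩
  · exact ⟨hρ, h3.a0, Summable.of_nonneg_of_le (fun j => mul_nonneg (h3.a0 j) (by positivity))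
      (fun j => mul_le_mul_of_nonneg_left (pow_le_pow_left₀ hρ.le g1 _) (h3.a0 j)) h3.sum,
      h3.ho, fun s hs => h3.hs s (hs.trans_le g1)⟩

end SegF

end

end Crest.Agent.R281.Sem_323
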