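import Crest.Agent.R281.Hz1_286
import Crest.Agent.R281.OpZ_450
import Crest.Agent.R281.Hy5_409
import Crest.Agent.R271.Weyl_399
import Mathlib.Analysis.Calculus.LineDeriv.IntegrationByParts
import Mathlib.MeasureTheory.Function.LocallyIntegrable
import Mathlib.MeasureTheory.Integral.MeanInequalities
import Mathlib.MeasureTheory.Function.LpSpace.Complete
import Crest.Agent.R281.PL4_713
import Crest.Agent.R281.HKMovK_478
import Crest.Agent.R281.Hz0_286
import Crest.Agent.R281.HkR5_835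
import Crest.Agent.R281.Sem1_323
import Mathlib
import Crest.Agent.R281.MvsD_713
import Crest.Agent.R281.Rkd4_386

-- ▼ part R281/Hz2_286
section

/-!
# R281 (S0424), H0-OP (helper286), part 2: one structure

* abstract part: `S` a space of smooth objects, `j : S →ₗ H`, `E` = closure of the range;
  from Garding, Rellich and regularity: `LP`, kernel = smooth kernel
* `Gard`, `Rell`, `Regu` : the three analytic inputs for `L : PL C` and `J`
* `lp_PE`, `ker_PE_iff` : `LP (PE ..)`, `Ker (PE ..) N ↔ L.HasN J N`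
-/

set_option autoImplicit false
set_option linter.unusedSectionVars false

open Set Filter Topology Complex MeasureTheory Metric
open scoped ContDiff ENNReal

namespace Crest.Agent.R281.Hz_286

open Crest.Agent.R281.HkR_835 Crest.Agent.R281.PL_713 Crest.Agent.R281.Semi_450
  Crest.Agent.R281.OpZ_450

noncomputable section

/-! ### abstract part -/

section abs

variable {S H F G : Type} [AddCommGroup S] [Module ℂ S]
  [NormedAddCommGroup H] [InnerProductSpace ℂ H] [CompleteSpace H]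
  [NormedAddCommGroup F] [InnerProductSpace ℂ F] [CompleteSpace F]
  [NormedAddCommGroup G] [InnerProductSpace ℂ G] [CompleteSpace G]
  (j : S →ₗ[ℂ] H) (P : H →L[ℂ] F) (T : H →L[ℂ] G)

/-- closure of the smooth objects -/
def ES : Submodule ℂ H := (LinearMap.range j).topologicalClosure

theorem mem_ES (u : S) : j u ∈ ES j := Submodule.le_topologicalClosure _ ⟨u, rfl⟩

instance : CompleteSpace (ES j) :=
  (Submodule.isClosed_topologicalClosure (LinearMap.range j)).completeSpace_coe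

/-- a smooth object close to a given element of `ES` -/
theorem exists_near {x : H} (hx : x ∈ ES j) {ε : ℝ} (hε : 0 < ε) : ∃ u : S, ‖j u - x‖ < ε := by
  have h1 : x ∈ closure (LinearMap.range j : Set H) := hx
  obtain ⟨y, ⟨u, rfl⟩, hy⟩ := Metric.mem_closure_iff.1 h1 ε hε
  refine ⟨u, ?_⟩
  rw [← dist_eq_norm, dist_comm]
  exact hy

/-- Garding extends to the closure -/
theorem gard_ES {C : ℝ} (hG : ∀ u, ‖j u‖ ^ 2 ≤ C * (‖P (j u)‖ ^ 2 + ‖T (j u)‖ ^ 2)) :
    ∀ x : ES j, ‖x‖ ≤ √(max C 0) * (‖(P.comp (ES j).subtypeL) x‖ + ‖(T.comp (ES j).subtypeL) x‖) := by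
  have h1 : ∀ x ∈ closure (LinearMap.range j : Set H), ‖x‖ ≤ √(max C 0) * (‖P x‖ + ‖T x‖) := by
    have hcl : IsClosed {x : H | ‖x‖ ≤ √(max C 0) * (‖P x‖ + ‖T x‖)} :=
      isClosed_le continuous_norm (continuous_const.mul (P.continuous.norm.add T.continuous.norm))
    refine closure_minimal ?_ hcl
    rintro _ ⟨u, rfl⟩
    have h2 := hG u
    have h3 : ‖j u‖ ^ 2 ≤ max C 0 * (‖P (j u)‖ + ‖T (j u)‖) ^ 2 := by
      refine h2.trans ?_
      have h4 : C * (‖P (j u)‖ ^ 2 + ‖T (j u)‖ ^ 2) ≤ max C 0 * (‖P (j u)‖ ^ 2 + ‖T (j u)‖ ^ 2) :=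
        mul_le_mul_of_nonneg_right (le_max_left _ _) (by positivity)
      refine h4.trans (mul_le_mul_of_nonneg_left ?_ (le_max_right _ _))
      nlinarith [mul_nonneg (norm_nonneg (P (j u))) (norm_nonneg (T (j u)))]
    have h5 : ‖j u‖ ^ 2 ≤ (√(max C 0) * (‖P (j u)‖ + ‖T (j u)‖)) ^ 2 := by
      rw [mul_pow, Real.sq_sqrt (le_max_right _ _)]
      exact h3
    exact (pow_le_pow_iff_left₀ (norm_nonneg _) (by positivity) two_ne_zero).1 h5
  intro x
  exact h1 x.1 x.2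

/-- Rellich gives a compact operator -/
theorem compact_ES (hK : ∀ u : ℕ → S, (∃ D, ∀ m, ‖j (u m)‖ ^ 2 ≤ D) → ∃ φ : ℕ → ℕ, StrictMono φ ∧
      ∀ ε > 0, ∃ N, ∀ m ≥ N, ∀ k ≥ N, ‖T (j (u (φ m) - u (φ k)))‖ ^ 2 < ε) :
    IsCompactOperator (T.comp (ES j).subtypeL) := by
  set K : ES j →L[ℂ] G := T.comp (ES j).subtypeL with hKd
  have hKx : ∀ x : ES j, K x = T x.1 := fun x => rfl
  refine (isCompactOperator_iff_isCompact_closure_image_ball (K : ES j →ₗ[ℂ] G) one_pos).2 ?_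
  refine IsSeqCompact.isCompact fun y hy => ?_
  have h1 : ∀ n : ℕ, ∃ u : S, ‖j u‖ ≤ 2 ∧ ‖T (j u) - y n‖ ≤ (1 + ‖T‖) * (1 / ((n : ℝ) + 1)) := by
    intro n
    have hn : (0 : ℝ) < 1 / ((n : ℝ) + 1) := by positivity
    have hn1 : 1 / ((n : ℝ) + 1) ≤ 1 := by
      rw [div_le_one (by positivity)]
      have : (0 : ℝ) ≤ n := Nat.cast_nonneg n
      linarith
    obtain ⟨_, ⟨x, hx, rfl⟩, hxy⟩ := Metric.mem_closure_iff.1 (hy n) _ hn
    obtain ⟨u, hu⟩ := exists_near j x.2 hn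
    have hx1 : ‖x.1‖ < 1 := by
      have := mem_ball_zero_iff.1 hx
      exact this
    refine ⟨u, ?_, ?_⟩
    · have : j u = (j u - x.1) + x.1 := by abel
      rw [this]
      refine (norm_add_le _ _).trans ?_
      linarith
    · have h2 : T (j u) - y n = T (j u - x.1) + (T x.1 - y n) := by rw [map_sub]; abel
      rw [h2]
      refine (norm_add_le _ _).trans ?_
      have h3 : ‖T (j u - x.1)‖ ≤ ‖T‖ * (1 / ((n : ℝ) + 1)) :=
        (T.le_opNorm _).trans (mul_le_mul_of_nonneg_left hu.le (norm_nonneg _))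
      have h4 : ‖T x.1 - y n‖ ≤ 1 / ((n : ℝ) + 1) := by
        rw [← dist_eq_norm, dist_comm]
        exact hxy.le
      linarith
  choose u hu1 hu2 using h1
  obtain ⟨φ, hφ, hc⟩ := hK u ⟨2 ^ 2, fun m => pow_le_pow_left₀ (norm_nonneg _) (hu1 m) 2⟩
  have h5 : CauchySeq fun m => T (j (u (φ m))) := by
    rw [Metric.cauchySeq_iff]
    intro ε hε
    obtain ⟨N, hN⟩ := hc (ε ^ 2) (by positivity)
    refine ⟨N, fun m hm k hk => ?_⟩
    have h6 := hN m hm k hk
    rw [dist_eq_norm, ← map_sub, ← map_sub]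
    exact (pow_lt_pow_iff_left₀ (norm_nonneg _) hε.le two_ne_zero).1 h6
  obtain ⟨a, ha⟩ := cauchySeq_tendsto_of_complete h5
  have h7 : Tendsto (fun m => y (φ m)) atTop (𝓝 a) := by
    have h8 : Tendsto (fun m => T (j (u (φ m))) - y (φ m)) atTop (𝓝 0) := by
      rw [tendsto_zero_iff_norm_tendsto_zero]
      have h9 : Tendsto (fun m : ℕ => (1 + ‖T‖) * (1 / ((φ m : ℝ) + 1))) atTop (𝓝 0) := by
        have := (tendsto_one_div_add_atTop_nhds_zero_nat (𝕜 := ℝ)).comp hφ.tendsto_atTop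
        simpa using this.const_mul (1 + ‖T‖)
      exact squeeze_zero (fun _ => norm_nonneg _) (fun m => hu2 (φ m)) h9
    have h10 := ha.sub h8
    simpa using h10
  refine ⟨a, ?_, φ, hφ, h7⟩
  exact isClosed_closure.mem_of_tendsto h7 (Eventually.of_forall fun m => hy (φ m))

/-- **left parametrix** -/
theorem lp_ES {C : ℝ} (hG : ∀ u, ‖j u‖ ^ 2 ≤ C * (‖P (j u)‖ ^ 2 + ‖T (j u)‖ ^ 2))
    (hK : ∀ u : ℕ → S, (∃ D, ∀ m, ‖j (u m)‖ ^ 2 ≤ D) → ∃ φ : ℕ → ℕ, StrictMono φ ∧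
      ∀ ε > 0, ∃ N, ∀ m ≥ N, ∀ k ≥ N, ‖T (j (u (φ m) - u (φ k)))‖ ^ 2 < ε) :
    LP (P.comp (ES j).subtypeL) :=
  lp_of_garding (compact_ES j T hK) (gard_ES j P T hG)

/-- **the kernel consists of smooth objects** -/
theorem ker_ES {C : ℝ} (hG : ∀ u, ‖j u‖ ^ 2 ≤ C * (‖P (j u)‖ ^ 2 + ‖T (j u)‖ ^ 2))
    {S0 : Submodule ℂ S} (h0 : ∀ w ∈ S0, P (j w) = 0)
    (hR : ∀ u : ℕ → S, (∀ ε > 0, ∃ N, ∀ m ≥ N, ∀ k ≥ N, ‖T (j (u m - u k))‖ ^ 2 < ε) →
      Tendsto (fun m => ‖P (j (u m))‖ ^ 2) atTop (𝓝 0) →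
      ∃ w ∈ S0, Tendsto (fun m => ‖T (j (u m - w))‖ ^ 2) atTop (𝓝 0))
    {x : H} (hx : x ∈ ES j) (hPx : P x = 0) : ∃ w ∈ S0, j w = x := by
  have h1 : ∀ n : ℕ, ∃ u : S, ‖j u - x‖ < 1 / ((n : ℝ) + 1) := fun n =>
    exists_near j hx (by positivity)
  choose u hu using h1
  have h2 : Tendsto (fun n => j (u n)) atTop (𝓝 x) := by
    rw [tendsto_iff_norm_sub_tendsto_zero]
    exact squeeze_zero (fun _ => norm_nonneg _) (fun n => (hu n).le)
      tendsto_one_div_add_atTop_nhds_zero_nat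
  have h3 : Tendsto (fun n => ‖P (j (u n))‖ ^ 2) atTop (𝓝 0) := by
    have h4 := ((P.continuous.tendsto x).comp h2).norm.pow 2
    rw [hPx] at h4
    simpa using h4
  have h5 : ∀ ε > 0, ∃ N, ∀ m ≥ N, ∀ k ≥ N, ‖T (j (u m - u k))‖ ^ 2 < ε := by
    intro ε hε
    have h6 : CauchySeq fun n => T (j (u n)) := ((T.continuous.tendsto x).comp h2).cauchySeq
    obtain ⟨N, hN⟩ := Metric.cauchySeq_iff.1 h6 (√ε) (Real.sqrt_pos.2 hε)
    refine ⟨N, fun m hm k hk => ?_⟩
    have h7 := hN m hm k hk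
    rw [dist_eq_norm, ← map_sub, ← map_sub] at h7
    have h8 := pow_lt_pow_left₀ h7 (norm_nonneg _) two_ne_zero
    rwa [Real.sq_sqrt hε.le] at h8
  obtain ⟨w, hw, h9⟩ := hR u h5 h3
  refine ⟨w, hw, ?_⟩
  have h10 : Tendsto (fun n => ‖j (u n - w)‖ ^ 2) atTop (𝓝 0) := by
    have h11 : Tendsto (fun n => C * (‖P (j (u n - w))‖ ^ 2 + ‖T (j (u n - w))‖ ^ 2)) atTop (𝓝 0) := by
      have h12 : ∀ n, P (j (u n - w)) = P (j (u n)) := fun n => by
        rw [map_sub, map_sub, h0 w hw, sub_zero]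
      simp only [h12]
      simpa using (h3.add h9).const_mul C
    exact squeeze_zero (fun _ => sq_nonneg _) (fun n => hG (u n - w)) h11
  have h13 : Tendsto (fun n => ‖j (u n) - j w‖) atTop (𝓝 0) := by
    have h14 := h10.sqrt
    simp only [Real.sqrt_zero, map_sub] at h14
    refine h14.congr fun n => ?_
    rw [Real.sqrt_sq (norm_nonneg _)]
  have h15 : Tendsto (fun n => j (u n)) atTop (𝓝 (j w)) := tendsto_iff_norm_sub_tendsto_zero.2 h13
  exact tendsto_nhds_unique h15 h2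

/-- kernel count -/
theorem ker_ES_iff (hj : Function.Injective j) {C : ℝ}
    (hG : ∀ u, ‖j u‖ ^ 2 ≤ C * (‖P (j u)‖ ^ 2 + ‖T (j u)‖ ^ 2))
    {S0 : Submodule ℂ S} (h0 : ∀ w ∈ S0, P (j w) = 0)
    (hR : ∀ u : ℕ → S, (∀ ε > 0, ∃ N, ∀ m ≥ N, ∀ k ≥ N, ‖T (j (u m - u k))‖ ^ 2 < ε) →
      Tendsto (fun m => ‖P (j (u m))‖ ^ 2) atTop (𝓝 0) →
      ∃ w ∈ S0, Tendsto (fun m => ‖T (j (u m - w))‖ ^ 2) atTop (𝓝 0)) (N : ℕ) :
    Ker (P.comp (ES j).subtypeL) N ↔ ∃ f : Fin N → S, LinearIndependent ℂ f ∧ ∀ k, f k ∈ S0 := by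
  constructor
  · rintro ⟨v, hv, hv0⟩
    choose f hf hjf using fun k => ker_ES j P T hG h0 hR (v k).2 (hv0 k)
    refine ⟨f, ?_, hf⟩
    have h1 : LinearIndependent ℂ (fun k => ((v k : ES j) : H)) :=
      hv.map' (ES j).subtype (Submodule.ker_subtype _)
    have h2 : (fun k => ((v k : ES j) : H)) = j ∘ f := by
      funext k
      exact (hjf k).symm
    rw [h2] at h1
    exact h1.of_comp j
  · rintro ⟨f, hf, hf0⟩
    refine ⟨fun k => ⟨j (f k), mem_ES j (f k)⟩, ?_, fun k => h0 _ (hf0 k)⟩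
    have h1 : LinearIndependent ℂ (j ∘ f) := hf.map' j (LinearMap.ker_eq_bot.2 hj)
    exact LinearIndependent.of_comp (ES j).subtype h1

end abs

/-! ### sections -/

variable {V X : Type} [NormedAddCommGroup V] [NormedSpace ℝ V] [TopologicalSpace X]
  {C : RCh V X} [FiniteDimensional ℝ V] [MeasurableSpace V] [BorelSpace V]
  (μ : Measure V) [μ.IsAddHaarMeasure] {σ' : Type} [Fintype σ'] (b : Module.Basis σ' ℝ V)
  (Z : Cells C)

/-- Garding's inequality -/
def Gard (L : PL C) (J : C.ι → V → V →L[ℝ] V) : Prop :=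
  ∃ Cst, ∀ u : Sec L, N1 μ b Z u ≤ Cst * (ND μ b Z J u + N0 μ Z u)

/-- Rellich -/
def Rell (L : PL C) : Prop :=
  ∀ u : ℕ → Sec L, (∃ D, ∀ m, N1 μ b Z (u m) ≤ D) → ∃ φ : ℕ → ℕ, StrictMono φ ∧
    ∀ ε > 0, ∃ N, ∀ m ≥ N, ∀ k ≥ N, N0 μ Z (u (φ m) - u (φ k)) < ε

/-- regularity of `L²` limits -/
def Regu (L : PL C) (J : C.ι → V → V →L[ℝ] V) : Prop :=
  ∀ u : ℕ → Sec L, (∀ ε > 0, ∃ N, ∀ m ≥ N, ∀ k ≥ N, N0 μ Z (u m - u k) < ε) →
    Tendsto (fun m => ND μ b Z J (u m)) atTop (𝓝 0) →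
    ∃ w ∈ L.H0 J, Tendsto (fun m => N0 μ Z (u m - w)) atTop (𝓝 0)

variable {L : PL C} {J : C.ι → V → V →L[ℝ] V}
  {c : ∀ k : Z.σ, C(Z.B k, FJ σ' →L[ℂ] FO σ')}

/-- `c` is the coefficient of `(L, J)` -/
def IsCf (L : PL C) (J : C.ι → V → V →L[ℝ] V) (c : ∀ k : Z.σ, C(Z.B k, FJ σ' →L[ℂ] FO σ')) :
    Prop :=
  ∀ k (z : Z.B k), c k z = cf b (L.th (Z.i k) z) (J (Z.i k) z)

theorem norm_Pop_sq (hc : IsCf b Z L J c) (u : Sec L) :
    ‖Pop μ Z c (jet μ b Z L u)‖ ^ 2 = ND μ b Z J u := by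
  rw [norm_Pop_jet_sq]
  unfold ND
  refine Finset.sum_congr rfl fun k _ => ?_
  have h1 : ∀ z : Z.B k, ‖c k z (jetC b Z u k z)‖ ^ 2 =
      (fun y : V => ∑ l, ‖u.db J (Z.i k) y (b l)‖ ^ 2) z := by
    intro z
    rw [hc k z, EuclideanSpace.norm_sq_eq]
    exact Finset.sum_congr rfl fun l _ => by rw [cf_jet]
  have hcpt : IsCompact (Z.B k) :=
    have := FiniteDimensional.proper_real V
    isCompact_closedBall _ _
  have hcont : ∀ l, IntegrableOn (fun y : V => ‖u.db J (Z.i k) y (b l)‖ ^ 2) (Z.B k) μ := by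
    intro l
    have h2 : Continuous fun z : Z.B k => ‖u.db J (Z.i k) z (b l)‖ ^ 2 := by
      have h3 : ∀ z : Z.B k, u.db J (Z.i k) z (b l) = c k z (jetC b Z u k z) l := fun z => by
        rw [hc k z, cf_jet]
      simp only [h3]
      have h4 : Continuous fun z : Z.B k => c k z (jetC b Z u k z) :=
        (c k).continuous.clm_apply (jetC b Z u k).continuous
      exact ((EuclideanSpace.proj (𝕜 := ℂ) l).continuous.comp h4).norm.pow 2
    have h5 : ContinuousOn (fun y : V => ‖u.db J (Z.i k) y (b l)‖ ^ 2) (Z.B k) :=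
      continuousOn_iff_continuous_domRestrict.2 h2
    exact h5.integrableOn_compact hcpt
  simp only [h1]
  rw [int_nu μ Z k (fun y : V => ∑ l, ‖u.db J (Z.i k) y (b l)‖ ^ 2),
    integral_finsetSum _ fun l _ => hcont l]

/-- the space of `H¹` sections -/
abbrev EL (L : PL C) : Submodule ℂ (HJ μ Z σ') := ES (jet μ b Z L)

/-- the operator on `H¹` sections -/
def PE (L : PL C) (c : ∀ k : Z.σ, C(Z.B k, FJ σ' →L[ℂ] FO σ')) : EL μ b Z L →L[ℂ] HF μ Z σ' :=
  (Pop μ Z c).comp (EL μ b Z L).subtypeL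

theorem lp_PE (hc : IsCf b Z L J c) (hG : Gard μ b Z L J) (hK : Rell μ b Z L) :
    LP (PE μ b Z L c) := by
  obtain ⟨Cst, hG⟩ := hG
  refine lp_ES (jet μ b Z L) (Pop μ Z c) (T0 μ Z σ') (C := Cst) (fun u => ?_) fun u hu => ?_
  · rw [norm_jet_sq, norm_Pop_sq μ b Z hc, norm_T0_jet_sq]
    exact hG u
  · simp only [norm_jet_sq] at hu
    simp only [norm_T0_jet_sq]
    exact hK u hu

theorem ker_PE_iff (hc : IsCf b Z L J c) (hG : Gard μ b Z L J) (hR : Regu μ b Z L J) (N : ℕ) :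
    Ker (PE μ b Z L c) N ↔ L.HasN J N := by
  obtain ⟨Cst, hG⟩ := hG
  refine ker_ES_iff (jet μ b Z L) (Pop μ Z c) (T0 μ Z σ') (jet_inj μ b Z) (C := Cst) (fun u => ?_)
    (S0 := L.H0 J) (fun w hw => ?_) (fun u hu1 hu2 => ?_) N
  · rw [norm_jet_sq, norm_Pop_sq μ b Z hc, norm_T0_jet_sq]
    exact hG u
  · have h1 : ‖Pop μ Z c (jet μ b Z L w)‖ ^ 2 = 0 := by
      rw [norm_Pop_sq μ b Z hc]
      unfold ND
      refine Finset.sum_eq_zero fun k _ => Finset.sum_eq_zero fun l _ => ?_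
      rw [setIntegral_congr_fun (s := Z.B k) (g := fun _ => (0 : ℝ)) measurableSet_closedBall
        fun z hz => ?_]
      · simp
      · show ‖w.db J (Z.i k) z (b l)‖ ^ 2 = 0
        rw [hw (Z.i k) z (Z.sub k hz)]
        simp
    exact norm_eq_zero.1 (by simpa using h1)
  · simp only [norm_T0_jet_sq] at hu1 ⊢
    simp only [norm_Pop_sq μ b Z hc] at hu2
    exact hR u hu1 hu2

end

end Crest.Agent.R281.Hz_286
end

-- ▼ part R281/Rg2_676
section

/-!
# R281 (S0424), H0-OP (helper676), part 2: 409's estimates in 286's form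

* `toBc` : cells of `Hz` as cells of `Hy`; the `ℝ≥0∞` norms of `Hy` are `ENNReal.ofReal` of real
  integrals
* `gard` : `Hz_286.Gard`, `rell` : `Hz_286.Rell`
* `ReguY` : the regularity statement in the form of `Hy`; `regu_of` : `ReguY → Hz_286.Regu`
-/

set_option autoImplicit false
set_option linter.unusedSectionVars false
set_option maxSynthPendingDepth 3

open Set Filter Topology MeasureTheory Metric Complex
open scoped ContDiff ENNReal NNReal

namespace Crest.Agent.R281.Rg_676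

open Crest.Agent.R281.HkR_835 Crest.Agent.R281.Ti_846 Crest.Agent.R281.PL_713

noncomputable section

variable {V X : Type} [NormedAddCommGroup V] [NormedSpace ℝ V] [FiniteDimensional ℝ V]
  [MeasurableSpace V] [BorelSpace V] [TopologicalSpace X] {C : RCh V X}
  (μ : Measure V) [μ.IsAddHaarMeasure] {σ' : Type} [Fintype σ'] (b : Module.Basis σ' ℝ V)
  (Z : Hz_286.Cells C) {L : PL C}

/-- the cells of `Hz` as cells of `Hy` -/
def toBc (Z : Hz_286.Cells C) : Hy_409.Bc C := ⟨Z.σ, Z.fin, Z.i, Z.c, Z.r, Z.sub, Z.cover⟩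

theorem cpt_B (k : Z.σ) : IsCompact (Z.B k) :=
  have := FiniteDimensional.proper_real V
  isCompact_closedBall _ _

theorem lint_eq {E : Type*} [NormedAddCommGroup E] {f : V → E} {K : Set V} (hK : IsCompact K)
    (hf : ContinuousOn f K) :
    ∫⁻ z in K, ‖f z‖ₑ ^ 2 ∂μ = ENNReal.ofReal (∫ z in K, ‖f z‖ ^ 2 ∂μ) := by
  have i1 : IntegrableOn (fun z => ‖f z‖ ^ 2) K μ := (hf.norm.pow 2).integrableOn_compact hK
  rw [ofReal_integral_eq_lintegral_ofReal i1 (ae_of_all _ fun z => by positivity)]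
  refine lintegral_congr fun z => ?_
  rw [ENNReal.ofReal_pow (norm_nonneg _), ofReal_norm]

theorem sum_eq {E : Type*} [NormedAddCommGroup E] {f : C.ι → V → E}
    (hf : ∀ i, ContinuousOn (f i) (C.e i).target) :
    ∑ k, ∫⁻ z in Z.B k, ‖f (Z.i k) z‖ₑ ^ 2 ∂μ =
      ENNReal.ofReal (∑ k, ∫ z in Z.B k, ‖f (Z.i k) z‖ ^ 2 ∂μ) := by
  rw [ENNReal.ofReal_sum_of_nonneg fun k _ => integral_nonneg fun z => by positivity]
  exact Finset.sum_congr rfl fun k _ => lint_eq μ (cpt_B Z k) ((hf _).mono (Z.sub k))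

/-- real form of `Hy_409.N1` -/
def n1 (s : Sec L) : ℝ := ∑ k, ∫ z in Z.B k, ‖Hy_409.DL s (Z.i k) z‖ ^ 2 ∂μ

/-- real form of `Hy_409.NJ` -/
def nj (J : C.ι → V → V →L[ℝ] V) (s : Sec L) : ℝ :=
  ∑ k, ∫ z in Z.B k, ‖Hy_409.dbJ (Hy_409.DL s (Z.i k) z) (J (Z.i k) z)‖ ^ 2 ∂μ

theorem N0_eq (s : Sec L) : Hy_409.N0 (toBc Z) μ s = ENNReal.ofReal (Hz_286.N0 μ Z s) :=
  sum_eq μ Z (f := s.u) fun i => (s.sm i).continuousOn

theorem N1_eq (s : Sec L) : Hy_409.N1 (toBc Z) μ s = ENNReal.ofReal (n1 μ Z s) :=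
  sum_eq μ Z (f := Hy_409.DL s) fun i => Hy_409.DL_cont s i

theorem NJ_eq {J : C.ι → V → V →L[ℝ] V} (hJ : ∀ i, ContinuousOn (J i) (C.e i).target)
    (s : Sec L) : Hy_409.NJ (toBc Z) μ J s = ENNReal.ofReal (nj μ Z J s) :=
  sum_eq μ Z (f := fun i z => Hy_409.dbJ (Hy_409.DL s i z) (J i z)) fun i =>
    Hy_409.dbJ_cont (Hy_409.DL_cont s i) (hJ i)

theorem N0_nonneg (s : Sec L) : 0 ≤ Hz_286.N0 μ Z s :=
  Finset.sum_nonneg fun k _ => integral_nonneg fun z => by positivity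

theorem n1_nonneg (s : Sec L) : 0 ≤ n1 μ Z s :=
  Finset.sum_nonneg fun k _ => integral_nonneg fun z => by positivity

theorem nj_nonneg (J : C.ι → V → V →L[ℝ] V) (s : Sec L) : 0 ≤ nj μ Z J s :=
  Finset.sum_nonneg fun k _ => integral_nonneg fun z => by positivity

theorem ND_nonneg (J : C.ι → V → V →L[ℝ] V) (s : Sec L) : 0 ≤ Hz_286.ND μ b Z J s :=
  Finset.sum_nonneg fun k _ => Finset.sum_nonneg fun l _ => integral_nonneg fun z => by positivity

theorem N1_nonneg (s : Sec L) : 0 ≤ Hz_286.N1 μ b Z s :=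
  add_nonneg (N0_nonneg μ Z s) (Finset.sum_nonneg fun k _ => Finset.sum_nonneg fun l _ =>
    integral_nonneg fun z => by positivity)

/-! ### norms of covectors by a basis -/

theorem basis_le : ∃ c : ℝ, 0 ≤ c ∧ ∀ T : V →L[ℝ] ℂ, ‖T‖ ^ 2 ≤ c * ∑ l, ‖T (b l)‖ ^ 2 := by
  obtain ⟨c, hc, h⟩ := b.exists_opNorm_le (F := ℂ)
  refine ⟨c ^ 2, sq_nonneg _, fun T => ?_⟩
  have hM : 0 ≤ ∑ l, ‖T (b l)‖ ^ 2 := Finset.sum_nonneg fun l _ => by positivity
  have h1 := h (u := T) (M := √(∑ l, ‖T (b l)‖ ^ 2)) (Real.sqrt_nonneg _) fun l => by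
    refine Real.le_sqrt_of_sq_le ?_
    exact Finset.single_le_sum (f := fun l => ‖T (b l)‖ ^ 2) (fun l _ => by positivity)
      (Finset.mem_univ l)
  calc ‖T‖ ^ 2 ≤ (c * √(∑ l, ‖T (b l)‖ ^ 2)) ^ 2 := pow_le_pow_left₀ (norm_nonneg _) h1 2
    _ = c ^ 2 * ∑ l, ‖T (b l)‖ ^ 2 := by rw [mul_pow, Real.sq_sqrt hM]

theorem le_basis : ∃ c : ℝ, 0 ≤ c ∧ ∀ T : V →L[ℝ] ℂ, ∑ l, ‖T (b l)‖ ^ 2 ≤ c * ‖T‖ ^ 2 := by
  refine ⟨∑ l, ‖b l‖ ^ 2, Finset.sum_nonneg fun l _ => by positivity, fun T => ?_⟩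
  rw [Finset.sum_mul]
  refine Finset.sum_le_sum fun l _ => ?_
  rw [← mul_pow, mul_comm]
  exact pow_le_pow_left₀ (norm_nonneg _) (T.le_opNorm _) 2

/-! ### comparison of integrals -/

theorem int_mono {f g : V → ℝ} {K : Set V} (hK : IsCompact K) (hf : ContinuousOn f K)
    (hg : ContinuousOn g K) (h : ∀ z ∈ K, f z ≤ g z) : ∫ z in K, f z ∂μ ≤ ∫ z in K, g z ∂μ :=
  setIntegral_mono_on (hf.integrableOn_compact hK) (hg.integrableOn_compact hK)
    hK.isClosed.measurableSet h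

theorem sum_int {E : Type*} [NormedAddCommGroup E] [NormedSpace ℝ E] {T : V → V →L[ℝ] E}
    {K : Set V} (hK : IsCompact K) (hT : ContinuousOn T K) :
    ∑ l, ∫ z in K, ‖T z (b l)‖ ^ 2 ∂μ = ∫ z in K, ∑ l, ‖T z (b l)‖ ^ 2 ∂μ := by
  rw [integral_finsetSum _ fun l _ => ?_]
  exact ((hT.clm_apply continuousOn_const).norm.pow 2).integrableOn_compact hK

theorem nj_le {J : C.ι → V → V →L[ℝ] V} (hJ : ∀ i, ContinuousOn (J i) (C.e i).target) :
    ∃ c : ℝ, 0 ≤ c ∧ ∀ s : Sec L, nj μ Z J s ≤ c * Hz_286.ND μ b Z J s := by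
  obtain ⟨c, hc, h⟩ := basis_le b
  refine ⟨c, hc, fun s => ?_⟩
  unfold nj Hz_286.ND
  rw [Finset.mul_sum]
  refine Finset.sum_le_sum fun k _ => ?_
  have hT : ContinuousOn (fun z => Hy_409.dbJ (Hy_409.DL s (Z.i k) z) (J (Z.i k) z)) (Z.B k) :=
    (Hy_409.dbJ_cont (Hy_409.DL_cont s _) (hJ _)).mono (Z.sub k)
  have e : ∀ l, (fun z => ‖s.db J (Z.i k) z (b l)‖ ^ 2) =
      fun z => ‖(Hy_409.dbJ (Hy_409.DL s (Z.i k) z) (J (Z.i k) z)) (b l)‖ ^ 2 := fun l => by
    funext z; rw [Hy_409.db_eq]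
  simp only [e]
  rw [sum_int μ b (cpt_B Z k) hT, ← integral_const_mul]
  refine int_mono μ (cpt_B Z k) (hT.norm.pow 2) (continuousOn_const.mul
    (continuousOn_finsetSum _ fun l _ => (hT.clm_apply continuousOn_const).norm.pow 2)) ?_
  exact fun z _ => h _


theorem th_bd (L : PL C) : ∃ M : ℝ, 0 ≤ M ∧ ∀ k, ∀ z ∈ Z.B k, ‖Hy_409.cof (L.th (Z.i k) z)‖ ≤ M := by
  have h : ∀ k, ∃ M, ∀ z ∈ Z.B k, ‖Hy_409.cof (L.th (Z.i k) z)‖ ≤ M := fun k =>
    (cpt_B Z k).exists_bound_of_continuousOn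
      ((Hy_409.cof_cont (L.th_sm (Z.i k)).continuousOn).mono (Z.sub k))
  choose M hM using h
  refine ⟨∑ k, |M k|, Finset.sum_nonneg fun k _ => abs_nonneg _, fun k z hz => ?_⟩
  exact (hM k z hz).trans ((le_abs_self _).trans
    (Finset.single_le_sum (f := fun k => |M k|) (fun k _ => abs_nonneg _) (Finset.mem_univ k)))

theorem fderiv_cont (s : Sec L) (i : C.ι) : ContinuousOn (fderiv ℝ (s.u i)) (C.e i).target :=
  (s.sm i).continuousOn_fderiv_of_isOpen (C.e i).open_target (by simp)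

theorem N1_le (L : PL C) : ∃ c : ℝ, 0 ≤ c ∧ ∀ s : Sec L,
    Hz_286.N1 μ b Z s ≤ c * (Hz_286.N0 μ Z s + n1 μ Z s) := by
  obtain ⟨c, hc, h⟩ := le_basis b
  obtain ⟨M, hM, hth⟩ := th_bd Z L
  refine ⟨1 + c * (2 + 2 * M ^ 2), by positivity, fun s => ?_⟩
  have h1 : ∑ k, ∑ l, ∫ z in Z.B k, ‖fderiv ℝ (s.u (Z.i k)) z (b l)‖ ^ 2 ∂μ ≤
      c * (2 * n1 μ Z s + 2 * M ^ 2 * Hz_286.N0 μ Z s) := by
    unfold n1 Hz_286.N0
    rw [Finset.mul_sum, Finset.mul_sum, ← Finset.sum_add_distrib, Finset.mul_sum]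
    refine Finset.sum_le_sum fun k _ => ?_
    have hT := (fderiv_cont s (Z.i k)).mono (Z.sub k)
    have hD := (Hy_409.DL_cont s (Z.i k)).mono (Z.sub k)
    have hu : ContinuousOn (s.u (Z.i k)) (Z.B k) := (s.sm (Z.i k)).continuousOn.mono (Z.sub k)
    have i1 : IntegrableOn (fun z => ‖Hy_409.DL s (Z.i k) z‖ ^ 2) (Z.B k) μ :=
      (hD.norm.pow 2).integrableOn_compact (cpt_B Z k)
    have i2 : IntegrableOn (fun z => ‖s.u (Z.i k) z‖ ^ 2) (Z.B k) μ :=
      (hu.norm.pow 2).integrableOn_compact (cpt_B Z k)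
    rw [sum_int μ b (cpt_B Z k) hT, ← integral_const_mul, ← integral_const_mul,
      ← integral_add (i1.const_mul _) (i2.const_mul _), ← integral_const_mul]
    refine int_mono μ (cpt_B Z k) (continuousOn_finsetSum _ fun l _ =>
      (hT.clm_apply continuousOn_const).norm.pow 2) (continuousOn_const.mul
        ((continuousOn_const.mul (hD.norm.pow 2)).add (continuousOn_const.mul (hu.norm.pow 2)))) ?_
    intro z hz
    refine (h _).trans (mul_le_mul_of_nonneg_left ?_ hc)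
    have e : fderiv ℝ (s.u (Z.i k)) z = Hy_409.DL s (Z.i k) z -
        (Complex.I * s.u (Z.i k) z) • Hy_409.cof (L.th (Z.i k) z) := by
      unfold Hy_409.DL; abel
    have h2 : ‖fderiv ℝ (s.u (Z.i k)) z‖ ≤ ‖Hy_409.DL s (Z.i k) z‖ + M * ‖s.u (Z.i k) z‖ := by
      rw [e]
      refine (norm_sub_le _ _).trans (add_le_add_right ?_ _)
      refine (norm_smul_le _ _).trans ?_
      rw [norm_mul, norm_I, one_mul, mul_comm]
      exact mul_le_mul_of_nonneg_right (hth k z hz) (norm_nonneg _)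
    have h3 := pow_le_pow_left₀ (norm_nonneg _) h2 2
    nlinarith [sq_nonneg (‖Hy_409.DL s (Z.i k) z‖ - M * ‖s.u (Z.i k) z‖)]
  have h2 := N0_nonneg μ Z s
  have h3 := n1_nonneg μ Z s
  unfold Hz_286.N1
  nlinarith [mul_nonneg hc h2, mul_nonneg hc h3, mul_nonneg (mul_nonneg hc (sq_nonneg M)) h3,
    mul_nonneg (mul_nonneg hc (sq_nonneg M)) h2]

theorem n1_le (L : PL C) : ∃ c : ℝ, 0 ≤ c ∧ ∀ s : Sec L, n1 μ Z s ≤ c * Hz_286.N1 μ b Z s := by
  obtain ⟨c, hc, h⟩ := basis_le b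
  obtain ⟨M, hM, hth⟩ := th_bd Z L
  refine ⟨2 * c + 2 * M ^ 2, by positivity, fun s => ?_⟩
  have h1 : n1 μ Z s ≤ 2 * c * ∑ k, ∑ l, ∫ z in Z.B k, ‖fderiv ℝ (s.u (Z.i k)) z (b l)‖ ^ 2 ∂μ +
      2 * M ^ 2 * Hz_286.N0 μ Z s := by
    unfold n1 Hz_286.N0
    rw [Finset.mul_sum, Finset.mul_sum, ← Finset.sum_add_distrib]
    refine Finset.sum_le_sum fun k _ => ?_
    have hT := (fderiv_cont s (Z.i k)).mono (Z.sub k)
    have hD := (Hy_409.DL_cont s (Z.i k)).mono (Z.sub k)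
    have hu : ContinuousOn (s.u (Z.i k)) (Z.B k) := (s.sm (Z.i k)).continuousOn.mono (Z.sub k)
    have hS : ContinuousOn (fun z => ∑ l, ‖fderiv ℝ (s.u (Z.i k)) z (b l)‖ ^ 2) (Z.B k) :=
      continuousOn_finsetSum _ fun l _ => (hT.clm_apply continuousOn_const).norm.pow 2
    have i1 : IntegrableOn (fun z => ∑ l, ‖fderiv ℝ (s.u (Z.i k)) z (b l)‖ ^ 2) (Z.B k) μ :=
      hS.integrableOn_compact (cpt_B Z k)
    have i2 : IntegrableOn (fun z => ‖s.u (Z.i k) z‖ ^ 2) (Z.B k) μ :=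
      (hu.norm.pow 2).integrableOn_compact (cpt_B Z k)
    rw [sum_int μ b (cpt_B Z k) hT, ← integral_const_mul, ← integral_const_mul,
      ← integral_add (i1.const_mul _) (i2.const_mul _)]
    refine int_mono μ (cpt_B Z k) (hD.norm.pow 2) ((continuousOn_const.mul hS).add
      (continuousOn_const.mul (hu.norm.pow 2))) ?_
    intro z hz
    have h2 : ‖Hy_409.DL s (Z.i k) z‖ ≤ ‖fderiv ℝ (s.u (Z.i k)) z‖ + M * ‖s.u (Z.i k) z‖ := by
      unfold Hy_409.DL
      refine (norm_add_le _ _).trans (add_le_add_right ?_ _)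
      refine (norm_smul_le _ _).trans ?_
      rw [norm_mul, norm_I, one_mul, mul_comm]
      exact mul_le_mul_of_nonneg_right (hth k z hz) (norm_nonneg _)
    have h3 := pow_le_pow_left₀ (norm_nonneg _) h2 2
    have h4 := h (fderiv ℝ (s.u (Z.i k)) z)
    nlinarith [sq_nonneg (‖fderiv ℝ (s.u (Z.i k)) z‖ - M * ‖s.u (Z.i k) z‖)]
  have h2 := N0_nonneg μ Z s
  have h3 : 0 ≤ ∑ k, ∑ l, ∫ z in Z.B k, ‖fderiv ℝ (s.u (Z.i k)) z (b l)‖ ^ 2 ∂μ :=
    Finset.sum_nonneg fun k _ => Finset.sum_nonneg fun l _ => integral_nonneg fun z => by positivity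
  unfold Hz_286.N1
  nlinarith [mul_nonneg hc h2, mul_nonneg hc h3, mul_nonneg (sq_nonneg M) h3]

/-! ### the three inputs of `Hz` -/

section main

variable [CompactSpace X] [T2Space X]

/-- **Garding in the form of `Hz`** -/
theorem gard (L : PL C) {J : C.ι → V → V →L[ℝ] V}
    (hJ : ∀ i, ContinuousOn (J i) (C.e i).target) : Hz_286.Gard μ b Z L J := by
  obtain ⟨c, hc⟩ := Hy_409.garding μ (toBc Z) L hJ
  obtain ⟨c1, hc1, h1⟩ := nj_le μ b Z (L := L) hJ
  obtain ⟨c2, hc2, h2⟩ := N1_le μ b Z L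
  refine ⟨c2 * (1 + c * (1 + c1)), fun u => ?_⟩
  have h3 := hc u
  rw [N1_eq, N0_eq, NJ_eq μ Z hJ, ← ENNReal.ofReal_add (nj_nonneg μ Z J u) (N0_nonneg μ Z u)] at h3
  have h4 : n1 μ Z u ≤ c * (nj μ Z J u + Hz_286.N0 μ Z u) := by
    have e : (c : ℝ≥0∞) * ENNReal.ofReal (nj μ Z J u + Hz_286.N0 μ Z u) =
        ENNReal.ofReal (c * (nj μ Z J u + Hz_286.N0 μ Z u)) := by
      rw [ENNReal.ofReal_mul (p := (c : ℝ)) c.2, ENNReal.ofReal_coe_nnreal]
    rw [e] at h3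
    exact (ENNReal.ofReal_le_ofReal_iff (mul_nonneg c.2
      (add_nonneg (nj_nonneg μ Z J u) (N0_nonneg μ Z u)))).1 h3
  have h5 := h1 u
  have h6 := N0_nonneg μ Z u
  have h7 := ND_nonneg μ b Z J u
  have h8 : n1 μ Z u ≤ c * ((1 + c1) * (Hz_286.ND μ b Z J u + Hz_286.N0 μ Z u)) := by
    refine h4.trans (mul_le_mul_of_nonneg_left ?_ c.2)
    nlinarith [mul_nonneg hc1 h6]
  refine (h2 u).trans ?_
  have h9 : Hz_286.N0 μ Z u + n1 μ Z u ≤
      (1 + c * (1 + c1)) * (Hz_286.ND μ b Z J u + Hz_286.N0 μ Z u) := by nlinarith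
  calc c2 * (Hz_286.N0 μ Z u + n1 μ Z u) ≤
      c2 * ((1 + c * (1 + c1)) * (Hz_286.ND μ b Z J u + Hz_286.N0 μ Z u)) :=
        mul_le_mul_of_nonneg_left h9 hc2
    _ = _ := by ring

/-- **Rellich in the form of `Hz`** -/
theorem rell (L : PL C) : Hz_286.Rell μ b Z L := by
  rintro u ⟨D, hD⟩
  obtain ⟨c, hc, h⟩ := n1_le μ b Z L
  have hD0 : 0 ≤ D := (N1_nonneg μ b Z (u 0)).trans (hD 0)
  have hN : ∀ m, Hz_286.N0 μ Z (u m) ≤ D := fun m => by
    refine le_trans ?_ (hD m)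
    unfold Hz_286.N1
    exact le_add_of_nonneg_right (Finset.sum_nonneg fun k _ => Finset.sum_nonneg fun l _ =>
      integral_nonneg fun z => by positivity)
  obtain ⟨φ, hφ, h1⟩ := Hy_409.rellich_S μ (toBc Z) (L := L) (u := u) (D := (D + c * D).toNNReal)
    (fun m => by
      rw [N0_eq]
      refine ENNReal.ofReal_le_ofReal ((hN m).trans ?_)
      nlinarith [mul_nonneg hc hD0])
    (fun m => by
      rw [N1_eq]
      refine ENNReal.ofReal_le_ofReal ((h (u m)).trans ?_)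
      nlinarith [mul_le_mul_of_nonneg_left (hD m) hc])
  refine ⟨φ, hφ, fun ε hε => ?_⟩
  obtain ⟨N, hN⟩ := h1 (ε / 2).toNNReal (Real.toNNReal_pos.2 (by positivity))
  refine ⟨N, fun m hm k hk => ?_⟩
  have h2 := hN m hm k hk
  rw [N0_eq] at h2
  have h3 : Hz_286.N0 μ Z (u (φ m) - u (φ k)) ≤ ε / 2 :=
    (ENNReal.ofReal_le_ofReal_iff (by positivity)).1 h2
  linarith

/-- regularity of `L²` limits, in the form of `Hy` -/
def ReguY (L : PL C) (B : Hy_409.Bc C) (J : C.ι → V → V →L[ℝ] V) : Prop :=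
  ∀ u : ℕ → Sec L, (∀ ε : ℝ≥0, 0 < ε → ∃ N, ∀ m ≥ N, ∀ k ≥ N, Hy_409.N0 B μ (u m - u k) ≤ ε) →
    Tendsto (fun m => Hy_409.NJ B μ J (u m)) atTop (𝓝 0) →
    ∃ w ∈ L.H0 J, Tendsto (fun m => Hy_409.N0 B μ (u m - w)) atTop (𝓝 0)

/-- **regularity in the form of `Hz` from the form of `Hy`** -/
theorem regu_of {L : PL C} {J : C.ι → V → V →L[ℝ] V}
    (hJ : ∀ i, ContinuousOn (J i) (C.e i).target) (h : ReguY μ L (toBc Z) J) :
    Hz_286.Regu μ b Z L J := by
  intro u hC hD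
  obtain ⟨c1, hc1, h1⟩ := nj_le μ b Z (L := L) hJ
  obtain ⟨w, hw, h2⟩ := h u (fun ε hε => by
    obtain ⟨N, hN⟩ := hC ε (by exact_mod_cast hε)
    refine ⟨N, fun m hm k hk => ?_⟩
    rw [N0_eq]
    refine (ENNReal.ofReal_le_ofReal (hN m hm k hk).le).trans ?_
    rw [ENNReal.ofReal_coe_nnreal]) (by
    have h3 : Tendsto (fun m => c1 * Hz_286.ND μ b Z J (u m)) atTop (𝓝 0) := by
      simpa using hD.const_mul c1
    have h4 : Tendsto (fun m => nj μ Z J (u m)) atTop (𝓝 0) :=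
      squeeze_zero (fun m => nj_nonneg μ Z J (u m)) (fun m => h1 (u m)) h3
    have h5 := ENNReal.tendsto_ofReal h4
    rw [ENNReal.ofReal_zero] at h5
    refine h5.congr fun m => ?_
    rw [NJ_eq μ Z hJ])
  refine ⟨w, hw, ?_⟩
  have h3 := (ENNReal.tendsto_toReal ENNReal.zero_ne_top).comp h2
  rw [ENNReal.toReal_zero] at h3
  refine h3.congr fun m => ?_
  show (Hy_409.N0 (toBc Z) μ (u m - w)).toReal = _
  rw [N0_eq, ENNReal.toReal_ofReal (N0_nonneg μ Z _)]

end main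

end

end Crest.Agent.R281.Rg_676
end

-- ▼ part R281/Hy6_409
section

/-!
# R281 (S0424), H0-OP, second road (helper409), part 6: the WEYL LIMIT

* `hol_limit` : `F m` smooth on the open `O ⊆ ℂⁿ`, `L²`-Cauchy, `∂̄ (F m) → 0` in `L²(O)`
  ⟹ the `L²` limit is holomorphic on `O`
-/

set_option autoImplicit false
set_option linter.unusedSectionVars false

open Set Filter Topology MeasureTheory Metric Complex
open scoped ContDiff ENNReal NNReal

namespace Crest.Agent.R281.Hy_409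

open Crest.Agent.R271.Weyl399

section

variable {E : Type*} [NormedAddCommGroup E] [NormedSpace ℝ E]

theorem mul_cont {O : Set E} (hO : IsOpen O) {g φ : E → ℂ} (hg : ContinuousOn g O)
    (hφ : Continuous φ) (hs : tsupport φ ⊆ O) : Continuous fun x => g x * φ x := by
  rw [continuous_iff_continuousAt]
  intro x
  by_cases hx : x ∈ O
  · exact (hg.continuousAt (hO.mem_nhds hx)).mul hφ.continuousAt
  · have hx' : x ∉ tsupport φ := fun h => hx (hs h)
    have h1 : (fun x => g x * φ x) =ᶠ[𝓝 x] fun _ => 0 := by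
      filter_upwards [(isClosed_tsupport φ).isOpen_compl.mem_nhds hx'] with y hy
      rw [image_eq_zero_of_notMem_tsupport hy, mul_zero]
    exact (continuousAt_const).congr h1.symm

variable [MeasurableSpace E] [BorelSpace E] [FiniteDimensional ℝ E]

/-- integration by parts against a test function -/
theorem ibp (μ : Measure E) [μ.IsAddHaarMeasure] {O : Set E} (hO : IsOpen O) {F φ : E → ℂ}
    (hF : ContDiffOn ℝ ∞ F O) (hφ : ContDiff ℝ ∞ φ) (hc : HasCompactSupport φ)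
    (hs : tsupport φ ⊆ O) (v : E) :
    ∫ x, F x * fderiv ℝ φ x v ∂μ = - ∫ x, fderiv ℝ F x v * φ x ∂μ := by
  have c1 : Continuous fun x => fderiv ℝ φ x v := (hφ.continuous_fderiv (by simp)).clm_apply
    continuous_const
  have c2 : HasCompactSupport fun x => fderiv ℝ φ x v := hc.fderiv_apply ℝ v
  have c3 : tsupport (fun x => fderiv ℝ φ x v) ⊆ O := (tsupport_fderiv_apply_subset ℝ v).trans hs
  have c4 : ContinuousOn (fun x => fderiv ℝ F x v) O :=
    (hF.continuousOn_fderiv_of_isOpen hO (by simp)).clm_apply continuousOn_const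
  refine integral_mul_fderiv_eq_neg_fderiv_mul_of_integrable ?_ ?_ ?_ ?_ ?_
  · exact (mul_cont hO c4 hφ.continuous hs).integrable_of_hasCompactSupport hc.mul_left
  · exact (mul_cont hO hF.continuousOn c1 c3).integrable_of_hasCompactSupport c2.mul_left
  · exact (mul_cont hO hF.continuousOn hφ.continuous hs).integrable_of_hasCompactSupport
      hc.mul_left
  · intro x hx
    exact ((hF.contDiffAt (hO.mem_nhds (hs hx))).differentiableAt (by simp))
  · intro x _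
    exact (hφ.differentiable (by simp)) x

/-- Cauchy–Schwarz -/
theorem cs (μ : Measure E) {a b : E → ℂ} (ha : AEStronglyMeasurable a μ)
    (hb : AEStronglyMeasurable b μ) :
    ∫⁻ x, ‖a x * b x‖ₑ ∂μ ≤ (∫⁻ x, ‖a x‖ₑ ^ 2 ∂μ) ^ (1 / 2 : ℝ) *
      (∫⁻ x, ‖b x‖ₑ ^ 2 ∂μ) ^ (1 / 2 : ℝ) := by
  have h := ENNReal.lintegral_mul_le_Lp_mul_Lq μ Real.HolderConjugate.two_two ha.enorm hb.enorm
  simp only [Pi.mul_apply] at h
  simp only [enorm_mul]
  refine h.trans (le_of_eq ?_)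
  simp only [← ENNReal.rpow_natCast]
  norm_num

end

theorem sq_half {a : ℝ≥0∞} : (a ^ (1 / 2 : ℝ)) ^ 2 = a := by
  rw [← ENNReal.rpow_natCast, ← ENNReal.rpow_mul]
  norm_num

theorem eLp_two {α : Type*} [MeasurableSpace α] (μ : Measure α) (f : α → ℂ) :
    eLpNorm f 2 μ = (∫⁻ x, ‖f x‖ₑ ^ 2 ∂μ) ^ (1 / 2 : ℝ) := by
  rw [eLpNorm_eq_lintegral_rpow_enorm_toReal (by norm_num) (by norm_num)]
  simp only [ENNReal.toReal_ofNat, ← ENNReal.rpow_natCast]
  norm_num

variable {n : ℕ}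

theorem dbar_ibp {O : Set (Fin n → ℂ)} (hO : IsOpen O) {F φ : (Fin n → ℂ) → ℂ}
    (hF : ContDiffOn ℝ ∞ F O) (hφ : ContDiff ℝ ∞ φ) (hc : HasCompactSupport φ)
    (hs : tsupport φ ⊆ O) (j : Fin n) :
    ∫ x, F x * dbar j φ x = - ∫ x, dbar j F x * φ x := by
  have c1 : ∀ v, Continuous fun x => fderiv ℝ φ x v := fun v =>
    (hφ.continuous_fderiv (by simp)).clm_apply continuous_const
  have c2 : ∀ v, HasCompactSupport fun x => fderiv ℝ φ x v := fun v => hc.fderiv_apply ℝ v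
  have c3 : ∀ v, tsupport (fun x => fderiv ℝ φ x v) ⊆ O := fun v =>
    (tsupport_fderiv_apply_subset ℝ v).trans hs
  have c4 : ∀ v, ContinuousOn (fun x => fderiv ℝ F x v) O := fun v =>
    (hF.continuousOn_fderiv_of_isOpen hO (by simp)).clm_apply continuousOn_const
  have i1 : ∀ v, Integrable (fun x => F x * fderiv ℝ φ x v) := fun v =>
    (mul_cont hO hF.continuousOn (c1 v) (c3 v)).integrable_of_hasCompactSupport (c2 v).mul_left
  have i2 : ∀ v, Integrable (fun x => fderiv ℝ F x v * φ x) := fun v =>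
    (mul_cont hO (c4 v) hφ.continuous hs).integrable_of_hasCompactSupport hc.mul_left
  have e1 : ∀ x, F x * dbar j φ x = (1 / 2 : ℂ) * (F x * fderiv ℝ φ x (Pi.single j 1)) +
      (1 / 2 * I) * (F x * fderiv ℝ φ x (Pi.single j I)) := fun x => by unfold dbar; ring
  have e2 : ∀ x, dbar j F x * φ x = (1 / 2 : ℂ) * (fderiv ℝ F x (Pi.single j 1) * φ x) +
      (1 / 2 * I) * (fderiv ℝ F x (Pi.single j I) * φ x) := fun x => by unfold dbar; ring
  simp only [e1, e2]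
  rw [integral_add ((i1 _).const_mul _) ((i1 _).const_mul _),
    integral_add ((i2 _).const_mul _) ((i2 _).const_mul _), integral_const_mul,
    integral_const_mul, integral_const_mul, integral_const_mul,
    ibp volume hO hF hφ hc hs, ibp volume hO hF hφ hc hs]
  ring

/-- **the Weyl limit** -/
theorem hol_limit {O : Set (Fin n → ℂ)} (hO : IsOpen O) {F : ℕ → (Fin n → ℂ) → ℂ}
    (hF : ∀ m, ContDiffOn ℝ ∞ (F m) O) (hL : ∀ m, ∫⁻ z in O, ‖F m z‖ₑ ^ 2 < ⊤)
    (hC : ∀ ε : ℝ≥0, 0 < ε → ∃ N, ∀ m ≥ N, ∀ k ≥ N, ∫⁻ z in O, ‖F m z - F k z‖ₑ ^ 2 ≤ ε)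
    (hd : ∀ j : Fin n, Tendsto (fun m => ∫⁻ z in O, ‖dbar j (F m) z‖ₑ ^ 2) atTop (𝓝 0)) :
    ∃ h : (Fin n → ℂ) → ℂ, DifferentiableOn ℂ h O ∧
      Tendsto (fun m => ∫⁻ z in O, ‖F m z - h z‖ₑ ^ 2) atTop (𝓝 0) := by
  classical
  set ν : Measure (Fin n → ℂ) := volume.restrict O with hν
  have hme : ∀ m, AEStronglyMeasurable (F m) ν := fun m =>
    (hF m).continuousOn.aestronglyMeasurable hO.measurableSet
  have hML : ∀ m, MemLp (F m) 2 ν := fun m => by
    refine ⟨hme m, ?_⟩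
    rw [eLp_two]
    exact ENNReal.rpow_lt_top_of_nonneg (by norm_num) (hL m).ne
  set f : ℕ → Lp ℂ 2 ν := fun m => (hML m).toLp (F m) with hf
  have hed : ∀ m k, edist (f m) (f k) = (∫⁻ z, ‖F m z - F k z‖ₑ ^ 2 ∂ν) ^ (1 / 2 : ℝ) :=
    fun m k => by
    rw [hf, Lp.edist_toLp_toLp, eLp_two]
    rfl
  have hcau : CauchySeq f := by
    rw [EMetric.cauchySeq_iff]
    intro ε hε
    obtain ⟨δ, hδ0, hδ⟩ := ENNReal.lt_iff_exists_nnreal_btwn.1 hε
    have hδ0' : 0 < δ := by exact_mod_cast hδ0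
    obtain ⟨N, hN⟩ := hC (δ ^ 2) (by positivity)
    refine ⟨N, fun m hm k hk => ?_⟩
    rw [hed]
    refine lt_of_le_of_lt ?_ hδ
    refine (ENNReal.rpow_le_rpow (hN m hm k hk) (by norm_num)).trans ?_
    rw [ENNReal.coe_pow, ← ENNReal.rpow_natCast, ← ENNReal.rpow_mul]
    norm_num
  obtain ⟨g, hg⟩ := cauchySeq_tendsto_of_complete hcau
  have hgL : MemLp (g : (Fin n → ℂ) → ℂ) 2 ν := Lp.memLp g
  -- convergence to `g`
  have hlim : Tendsto (fun m => ∫⁻ z, ‖F m z - g z‖ₑ ^ 2 ∂ν) atTop (𝓝 0) := by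
    have h1 : Tendsto (fun m => edist (f m) g) atTop (𝓝 0) := tendsto_iff_edist_tendsto_0.1 hg
    have h2 : ∀ m, ∫⁻ z, ‖F m z - g z‖ₑ ^ 2 ∂ν = (edist (f m) g) ^ 2 := fun m => by
      have h3 : edist (f m) g = eLpNorm (fun z => F m z - g z) 2 ν := by
        rw [Lp.edist_def]
        refine eLpNorm_congr_ae ?_
        filter_upwards [(hML m).coeFn_toLp] with z hz
        simp only [Pi.sub_apply, hf, hz]
      rw [h3, eLp_two, sq_half]
    simp only [h2]
    have h3 := ENNReal.Tendsto.pow (n := 2) h1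
    simpa using h3
  have hloc : LocallyIntegrableOn (g : (Fin n → ℂ) → ℂ) O volume :=
    locallyIntegrableOn_of_locallyIntegrable_restrict (hgL.locallyIntegrable (by norm_num))
  have hweak : WeakHol (g : (Fin n → ℂ) → ℂ) O := by
    intro j φ hφ hc hs
    have c1 : Continuous (dbar j φ) := by
      unfold dbar
      have := fun v : Fin n → ℂ => ((hφ.continuous_fderiv (by simp)).clm_apply
        (continuous_const (y := v)))
      exact continuous_const.mul ((this _).add (continuous_const.mul (this _)))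
    have c3 : tsupport (dbar j φ) ⊆ O := by
      refine (closure_minimal ?_ (isClosed_tsupport φ)).trans hs
      intro x hx
      by_contra hx'
      apply hx
      have h1 : ∀ v, fderiv ℝ φ x v = 0 := fun v => by
        have : fderiv ℝ φ x = 0 := by
          by_contra h
          exact hx' (support_fderiv_subset ℝ h)
        rw [this]; rfl
      simp [dbar, h1]
    have c2 : HasCompactSupport (dbar j φ) := by
      refine hc.of_isClosed_subset (isClosed_tsupport _) (closure_minimal ?_ (isClosed_tsupport φ))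
      intro x hx
      by_contra hx'
      apply hx
      have h1 : ∀ v, fderiv ℝ φ x v = 0 := fun v => by
        have : fderiv ℝ φ x = 0 := by
          by_contra h
          exact hx' (support_fderiv_subset ℝ h)
        rw [this]; rfl
      simp [dbar, h1]
    have hA : ∫⁻ z, ‖dbar j φ z‖ₑ ^ 2 ∂ν ≠ ⊤ := by
      refine ((lintegral_mono' Measure.restrict_le_self le_rfl).trans_lt ?_).ne
      have h1 := (c1.memLp_of_hasCompactSupport (p := 2) (μ := volume) c2).eLpNorm_lt_top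
      rw [eLp_two] at h1
      exact (ENNReal.rpow_lt_top_iff_of_pos (by norm_num)).1 h1
    have hB : ∫⁻ z, ‖φ z‖ₑ ^ 2 ∂ν ≠ ⊤ := by
      refine ((lintegral_mono' Measure.restrict_le_self le_rfl).trans_lt ?_).ne
      have h1 := (hφ.continuous.memLp_of_hasCompactSupport (p := 2) (μ := volume)
        hc).eLpNorm_lt_top
      rw [eLp_two] at h1
      exact (ENNReal.rpow_lt_top_iff_of_pos (by norm_num)).1 h1
    have key : ∀ m, ‖∫ z, g z * dbar j φ z‖ₑ ≤
        (∫⁻ z, ‖F m z - g z‖ₑ ^ 2 ∂ν) ^ (1 / 2 : ℝ) * (∫⁻ z, ‖dbar j φ z‖ₑ ^ 2 ∂ν) ^ (1 / 2 : ℝ) +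
        (∫⁻ z, ‖dbar j (F m) z‖ₑ ^ 2 ∂ν) ^ (1 / 2 : ℝ) * (∫⁻ z, ‖φ z‖ₑ ^ 2 ∂ν) ^ (1 / 2 : ℝ) := by
      intro m
      have z1 : ∀ G : (Fin n → ℂ) → ℂ, ∫ z, G z * dbar j φ z = ∫ z, G z * dbar j φ z ∂ν :=
        fun G => by
        rw [hν]
        symm
        refine setIntegral_eq_integral_of_forall_compl_eq_zero fun z hz => ?_
        rw [image_eq_zero_of_notMem_tsupport fun h => hz (c3 h), mul_zero]
      have z2 : ∀ G : (Fin n → ℂ) → ℂ, ∫ z, G z * φ z = ∫ z, G z * φ z ∂ν := fun G => by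
        rw [hν]
        symm
        refine setIntegral_eq_integral_of_forall_compl_eq_zero fun z hz => ?_
        rw [image_eq_zero_of_notMem_tsupport fun h => hz (hs h), mul_zero]
      have mA : MemLp (dbar j φ) 2 ν :=
        (c1.memLp_of_hasCompactSupport (p := 2) (μ := volume) c2).restrict O
      have i1 : Integrable (fun z => g z * dbar j φ z) ν := hgL.integrable_mul mA
      have i2 : Integrable (fun z => F m z * dbar j φ z) ν := (hML m).integrable_mul mA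
      have e1 : ∫ z, g z * dbar j φ z =
          -(∫ z, (F m z - g z) * dbar j φ z ∂ν) - ∫ z, dbar j (F m) z * φ z ∂ν := by
        rw [z1, ← z2, ← sub_eq_zero]
        have e2 : ∫ z, (F m z - g z) * dbar j φ z ∂ν =
            ∫ z, F m z * dbar j φ z ∂ν - ∫ z, g z * dbar j φ z ∂ν := by
          rw [← integral_sub i2 i1]
          refine integral_congr_ae (Eventually.of_forall fun z => ?_)
          simp only [sub_mul]
        rw [e2, ← z1 (F m), dbar_ibp hO (hF m) hφ hc hs j]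
        ring
      have md : AEStronglyMeasurable (dbar j (F m)) ν := by
        have c4 : ∀ v, ContinuousOn (fun x => fderiv ℝ (F m) x v) O := fun v =>
          ((hF m).continuousOn_fderiv_of_isOpen hO (by simp)).clm_apply continuousOn_const
        have : ContinuousOn (dbar j (F m)) O := by
          unfold dbar
          exact continuousOn_const.mul ((c4 _).add (continuousOn_const.mul (c4 _)))
        exact this.aestronglyMeasurable hO.measurableSet
      rw [e1]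
      refine (enorm_sub_le).trans (add_le_add ?_ ?_)
      · rw [enorm_neg]
        refine (enorm_integral_le_lintegral_enorm _).trans ?_
        exact cs ν ((hme m).sub hgL.1) c1.aestronglyMeasurable
      · refine (enorm_integral_le_lintegral_enorm _).trans ?_
        exact cs ν md hφ.continuous.aestronglyMeasurable
    have hT : Tendsto (fun m => (∫⁻ z, ‖F m z - g z‖ₑ ^ 2 ∂ν) ^ (1 / 2 : ℝ) *
        (∫⁻ z, ‖dbar j φ z‖ₑ ^ 2 ∂ν) ^ (1 / 2 : ℝ) +
        (∫⁻ z, ‖dbar j (F m) z‖ₑ ^ 2 ∂ν) ^ (1 / 2 : ℝ) *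
        (∫⁻ z, ‖φ z‖ₑ ^ 2 ∂ν) ^ (1 / 2 : ℝ)) atTop (𝓝 0) := by
      have t1 := (ENNReal.continuous_rpow_const (y := (1 / 2 : ℝ))).tendsto 0 |>.comp hlim
      have t2 := (ENNReal.continuous_rpow_const (y := (1 / 2 : ℝ))).tendsto 0 |>.comp (hd j)
      rw [ENNReal.zero_rpow_of_pos (by norm_num)] at t1 t2
      have t3 := ENNReal.Tendsto.mul_const (b := (∫⁻ z, ‖dbar j φ z‖ₑ ^ 2 ∂ν) ^ (1 / 2 : ℝ)) t1
        (Or.inr (ENNReal.rpow_ne_top_of_nonneg (by norm_num) hA))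
      have t4 := ENNReal.Tendsto.mul_const (b := (∫⁻ z, ‖φ z‖ₑ ^ 2 ∂ν) ^ (1 / 2 : ℝ)) t2
        (Or.inr (ENNReal.rpow_ne_top_of_nonneg (by norm_num) hB))
      have t5 := t3.add t4
      rw [zero_mul, zero_mul, add_zero] at t5
      exact t5
    have h0 : ‖∫ z, g z * dbar j φ z‖ₑ ≤ 0 := ge_of_tendsto' hT key
    simpa using h0
  obtain ⟨h, hh, hae⟩ := weyl hO hloc hweak
  refine ⟨h, hh, ?_⟩
  refine hlim.congr fun m => lintegral_congr_ae ?_
  filter_upwards [hae] with z hz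
  rw [hz]

end Crest.Agent.R281.Hy_409
end

-- ▼ part R281/Hy7_409
section

/-!
# R281 (S0424), H0-OP, second road (helper409), part 7: the LOCAL SOLUTION

* `chg_le`    : change of variables on compact sets, inequality
* `Loc n J th`: local data: complex coordinates `σ`, inverse `τ`, frame `e`
* `Loc.solve` : `u m` `L²`-Cauchy, `D'' u m → 0` in `L²` on a closed ball ⟹ the limit is a smooth
                solution of `D'' g = 0` on the open ball
-/

set_option autoImplicit false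
set_option linter.unusedSectionVars false
set_option maxSynthPendingDepth 3

open Set Filter Topology MeasureTheory Metric
open scoped ContDiff ENNReal NNReal

namespace Crest.Agent.R281.Hy_409

open Crest.Agent.R281.HkR_835 Crest.Agent.R281.Ti_846 Crest.Agent.R281.PL_713
open Crest.Agent.R271.Weyl399

noncomputable section

variable {V W : Type} [NormedAddCommGroup V] [NormedSpace ℝ V] [FiniteDimensional ℝ V]
  [MeasurableSpace V] [BorelSpace V] [NormedAddCommGroup W] [NormedSpace ℝ W]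
  [FiniteDimensional ℝ W] [MeasurableSpace W] [BorelSpace W]

/-- change of variables on compact subsets -/
theorem chg_le (μ : Measure V) [μ.IsAddHaarMeasure] (ν : Measure W) [ν.IsAddHaarMeasure]
    (L : V ≃L[ℝ] W) {O : Set V} (hO : IsOpen O) {σ : V → W} (hσ : ContDiffOn ℝ ∞ σ O)
    (hinj : InjOn σ O) {K : Set V} (hK : IsCompact K) (hKO : K ⊆ O) :
    ∃ c : ℝ≥0, ∀ T : Set V, T ⊆ K → MeasurableSet T → ∀ f : W → ℝ≥0∞,
      ∫⁻ z in σ '' T, f z ∂ν ≤ c * ∫⁻ y in T, f (σ y) ∂μ := by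
  obtain ⟨c, hc⟩ := lintegral_image_le μ ν L
  have h1 : ContinuousOn (fderiv ℝ σ) O := hσ.continuousOn_fderiv_of_isOpen hO (by simp)
  have h2 : ContinuousOn (fun y => ((L.symm : W →L[ℝ] V).comp (fderiv ℝ σ y)).det) K := by
    have h3 : Continuous fun A : V →L[ℝ] W => ((L.symm : W →L[ℝ] V).comp A).det :=
      ContinuousLinearMap.continuous_det.comp
        (((ContinuousLinearMap.compL ℝ V W V) (L.symm : W →L[ℝ] V)).continuous)
    exact h3.comp_continuousOn (h1.mono hKO)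
  obtain ⟨b, hb⟩ := hK.exists_bound_of_continuousOn h2
  refine ⟨c * b.toNNReal, fun T hTK hT f => ?_⟩
  have := hc T σ b.toNNReal hT (fun y hy => (hσ.contDiffAt (hO.mem_nhds (hKO (hTK hy)))).differentiableAt
    (by simp)) (hinj.mono (hTK.trans hKO)) (fun y hy => by
      refine le_trans ?_ (Real.le_coe_toNNReal b)
      exact hb y (hTK hy)) f
  push_cast
  exact this

/-! ### covariant derivatives of functions -/

/-- covariant derivative of a function -/
def DT (th : V → V →L[ℝ] ℝ) (u : V → ℂ) (z : V) : V →L[ℝ] ℂ :=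
  fderiv ℝ u z + (Complex.I * u z) • cof (th z)

theorem DL_DT {X : Type} [TopologicalSpace X] {C : RCh V X} {L : PL C} (s : Sec L) (i : C.ι)
    (z : V) : DL s i z = DT (L.th i) (s.u i) z := rfl

theorem DT_congr {th : V → V →L[ℝ] ℝ} {u u' : V → ℂ} {z : V} (h : u =ᶠ[𝓝 z] u') :
    DT th u z = DT th u' z := by
  unfold DT
  rw [h.fderiv_eq, h.eq_of_nhds]

theorem DT_mul {th : V → V →L[ℝ] ℝ} {q e : V → ℂ} {z : V} (hq : DifferentiableAt ℝ q z)
    (he : DifferentiableAt ℝ e z) : DT th (fun z => q z * e z) z =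
      e z • fderiv ℝ q z + q z • DT th e z := by
  unfold DT
  have h : HasFDerivAt (fun z => q z * e z) _ z := hq.hasFDerivAt.mul he.hasFDerivAt
  rw [h.fderiv]
  ext v
  simp only [add_apply, smul_apply, smul_eq_mul, cof_apply]
  ring

/-- local data -/
structure Loc (n : ℕ) (J : V → V →L[ℝ] V) (th : V → V →L[ℝ] ℝ) where
  O : Set V
  O' : Set (Fin n → ℂ)
  hO : IsOpen O
  hO' : IsOpen O'
  σ : V → Fin n → ℂ
  τ : (Fin n → ℂ) → V
  hσ : ContDiffOn ℝ ∞ σ O
  hτ : ContDiffOn ℝ ∞ τ O'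
  mσ : MapsTo σ O O'
  mτ : MapsTo τ O' O
  l : ∀ z ∈ O, τ (σ z) = z
  r : ∀ y ∈ O', σ (τ y) = y
  lin : ∀ z ∈ O, ∀ v, fderiv ℝ σ z (J z v) = Complex.I • fderiv ℝ σ z v
  e : V → ℂ
  es : ContDiffOn ℝ ∞ e O
  e0 : ∀ z ∈ O, e z ≠ 0
  eJ : ∀ z ∈ O, dbJ (DT th e z) (J z) = 0

namespace Loc

variable {n : ℕ} {J : V → V →L[ℝ] V} {th : V → V →L[ℝ] ℝ} (P : Loc n J th)

theorem σd {z : V} (hz : z ∈ P.O) : DifferentiableAt ℝ P.σ z :=
  (P.hσ.contDiffAt (P.hO.mem_nhds hz)).differentiableAt (by simp)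

theorem τd {y : Fin n → ℂ} (hy : y ∈ P.O') : DifferentiableAt ℝ P.τ y :=
  (P.hτ.contDiffAt (P.hO'.mem_nhds hy)).differentiableAt (by simp)

theorem τσ {z : V} (hz : z ∈ P.O) (v : V) : fderiv ℝ P.τ (P.σ z) (fderiv ℝ P.σ z v) = v := by
  have h1 : HasFDerivAt (fun z => P.τ (P.σ z)) _ z :=
    HasFDerivAt.comp (g := P.τ) (f := P.σ) z (P.τd (P.mσ hz)).hasFDerivAt (P.σd hz).hasFDerivAt
  have h2 : (fun z => P.τ (P.σ z)) =ᶠ[𝓝 z] fun z => z := by
    filter_upwards [P.hO.mem_nhds hz] with y hy using P.l y hy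
  have h3 := h1.fderiv.symm.trans (h2.fderiv_eq.trans fderiv_fun_id)
  exact DFunLike.congr_fun h3 v

theorem στ {y : Fin n → ℂ} (hy : y ∈ P.O') (w : Fin n → ℂ) :
    fderiv ℝ P.σ (P.τ y) (fderiv ℝ P.τ y w) = w := by
  have h1 : HasFDerivAt (fun y => P.σ (P.τ y)) _ y :=
    HasFDerivAt.comp (g := P.σ) (f := P.τ) y (P.σd (P.mτ hy)).hasFDerivAt (P.τd hy).hasFDerivAt
  have h2 : (fun y => P.σ (P.τ y)) =ᶠ[𝓝 y] fun y => y := by
    filter_upwards [P.hO'.mem_nhds hy] with y hy using P.r y hy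
  have h3 := h1.fderiv.symm.trans (h2.fderiv_eq.trans fderiv_fun_id)
  exact DFunLike.congr_fun h3 w

theorem lin' {y : Fin n → ℂ} (hy : y ∈ P.O') (w : Fin n → ℂ) :
    fderiv ℝ P.τ y (Complex.I • w) = J (P.τ y) (fderiv ℝ P.τ y w) := by
  have h1 := P.lin (P.τ y) (P.mτ hy) (fderiv ℝ P.τ y w)
  rw [P.στ hy] at h1
  have h2 := P.τσ (P.mτ hy) (J (P.τ y) (fderiv ℝ P.τ y w))
  rw [h1, P.r y hy] at h2
  exact h2

/-- the linear equivalence of the model spaces -/
def eqv {z0 : V} (hz : z0 ∈ P.O) : V ≃L[ℝ] (Fin n → ℂ) :=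
  ContinuousLinearEquiv.equivOfInverse (fderiv ℝ P.σ z0) (fderiv ℝ P.τ (P.σ z0))
    (fun v => P.τσ hz v) (fun w => by
      have h := P.στ (P.mσ hz) w
      rwa [P.l z0 hz] at h)

theorem image_open {B : Set V} (hB : IsOpen B) (hBO : B ⊆ P.O) : IsOpen (P.σ '' B) := by
  have h1 : P.σ '' B = P.O' ∩ P.τ ⁻¹' B := by
    ext y
    constructor
    · rintro ⟨z, hz, rfl⟩
      refine ⟨P.mσ (hBO hz), ?_⟩
      show P.τ (P.σ z) ∈ B
      rw [P.l z (hBO hz)]
      exact hz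
    · rintro ⟨h1, h2⟩
      exact ⟨P.τ y, h2, P.r y h1⟩
  rw [h1]
  exact P.hτ.continuousOn.isOpen_inter_preimage P.hO' hB

/-- the `∂bar`-derivative of `(u / e) ∘ τ` -/
theorem dbar_eq {u : V → ℂ} {y : Fin n → ℂ} (hy : y ∈ P.O')
    (hu : DifferentiableAt ℝ u (P.τ y)) (j : Fin n) :
    dbar j (fun y => u (P.τ y) * (P.e (P.τ y))⁻¹) y =
      (1 / 2 : ℂ) * ((P.e (P.τ y))⁻¹ * dbJ (DT th u (P.τ y)) (J (P.τ y))
        (fderiv ℝ P.τ y (Pi.single j 1))) := by
  set z := P.τ y with hz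
  have hzO : z ∈ P.O := P.mτ hy
  have hed : DifferentiableAt ℝ P.e z :=
    (P.es.contDiffAt (P.hO.mem_nhds hzO)).differentiableAt (by simp)
  set q : V → ℂ := fun z => u z * (P.e z)⁻¹ with hq
  have hqd : DifferentiableAt ℝ q z := hu.mul (hed.inv (P.e0 z hzO))
  have h1 : HasFDerivAt (fun y => q (P.τ y)) _ y :=
    HasFDerivAt.comp (g := q) (f := P.τ) y hqd.hasFDerivAt (P.τd hy).hasFDerivAt
  have h2 : DT th u z = P.e z • fderiv ℝ q z + q z • DT th P.e z := by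
    rw [← DT_mul hqd hed]
    refine DT_congr ?_
    filter_upwards [P.hO.mem_nhds hzO] with x hx
    rw [hq]
    show u x = u x * (P.e x)⁻¹ * P.e x
    rw [mul_assoc, inv_mul_cancel₀ (P.e0 x hx), mul_one]
  have h3 : ∀ v, dbJ (DT th u z) (J z) v = P.e z * (fderiv ℝ q z v +
      Complex.I * fderiv ℝ q z (J z v)) := by
    intro v
    rw [h2, dbJ_add, dbJ_smul, dbJ_smul, P.eJ z hzO, smul_zero, add_zero, smul_apply, dbJ_apply,
      smul_eq_mul]
  have h4 : (Pi.single j Complex.I : Fin n → ℂ) = Complex.I • (Pi.single j 1 : Fin n → ℂ) := by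
    ext k
    by_cases hk : k = j
    · subst hk; simp
    · simp [Pi.single_eq_of_ne hk]
  have h5 : (fun y => u (P.τ y) * (P.e (P.τ y))⁻¹) = fun y => q (P.τ y) := rfl
  unfold dbar
  rw [h5, h1.fderiv, ContinuousLinearMap.comp_apply, ContinuousLinearMap.comp_apply, h4,
    P.lin' hy, ← hz, h3, ← mul_assoc (P.e z)⁻¹, inv_mul_cancel₀ (P.e0 z hzO), one_mul]

/-- the solution `e · (h ∘ σ)` -/
theorem sol {h : (Fin n → ℂ) → ℂ} {z : V} (hz : z ∈ P.O) (hh : DifferentiableAt ℂ h (P.σ z)) :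
    dbJ (DT th (fun z => h (P.σ z) * P.e z) z) (J z) = 0 := by
  have hed : DifferentiableAt ℝ P.e z :=
    (P.es.contDiffAt (P.hO.mem_nhds hz)).differentiableAt (by simp)
  have h1 : HasFDerivAt (fun z => h (P.σ z)) _ z :=
    HasFDerivAt.comp (g := h) (f := P.σ) z (hh.restrictScalars ℝ).hasFDerivAt
      (P.σd hz).hasFDerivAt
  rw [DT_mul h1.differentiableAt hed, dbJ_add, dbJ_smul, dbJ_smul, P.eJ z hz, smul_zero, add_zero,
    h1.fderiv]
  have h2 : dbJ ((fderiv ℝ h (P.σ z)).comp (fderiv ℝ P.σ z)) (J z) = 0 := by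
    ext v
    rw [dbJ_apply, ContinuousLinearMap.comp_apply, ContinuousLinearMap.comp_apply, P.lin z hz,
      hh.fderiv_restrictScalars ℝ]
    have h3 := (fderiv ℂ h (P.σ z)).map_smul Complex.I (fderiv ℝ P.σ z v)
    rw [smul_eq_mul] at h3
    simp only [ContinuousLinearMap.coe_restrictScalars', zero_apply]
    linear_combination (fderiv ℂ h (P.σ z) (fderiv ℝ P.σ z v)) * Complex.I_mul_I +
      Complex.I * h3
  rw [h2, smul_zero]

/-- bounds for multiplication by a continuous function on a compact set -/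
theorem mul_bd {E E' : Type*} [NormedAddCommGroup E] [TopologicalSpace E'] {a : E' → E}
    {K : Set E'} (hK : IsCompact K) (ha : ContinuousOn a K) : ∃ M : ℝ≥0, ∀ z ∈ K, ‖a z‖ₑ ≤ M := by
  obtain ⟨b, hb⟩ := hK.exists_bound_of_continuousOn ha
  refine ⟨b.toNNReal, fun z hz => ?_⟩
  rw [← ofReal_norm]
  exact ENNReal.ofReal_le_ofReal (hb z hz)

/-- **the local solution** -/
theorem solve (μ : Measure V) [μ.IsAddHaarMeasure] {z0 : V} {δ : ℝ} (hδ : 0 < δ)
    (hKO : closedBall z0 δ ⊆ P.O) {u : ℕ → V → ℂ} (hu : ∀ m, ContDiffOn ℝ ∞ (u m) P.O)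
    (hC : ∀ ε : ℝ≥0, 0 < ε → ∃ N, ∀ m ≥ N, ∀ k ≥ N,
      ∫⁻ z in closedBall z0 δ, ‖u m z - u k z‖ₑ ^ 2 ∂μ ≤ ε)
    (hd : Tendsto (fun m => ∫⁻ z in closedBall z0 δ, ‖dbJ (DT th (u m) z) (J z)‖ₑ ^ 2 ∂μ)
      atTop (𝓝 0)) :
    ∃ g : V → ℂ, ContDiffOn ℝ ∞ g (ball z0 δ) ∧ (∀ z ∈ ball z0 δ, dbJ (DT th g z) (J z) = 0) ∧
      Tendsto (fun m => ∫⁻ z in ball z0 δ, ‖u m z - g z‖ₑ ^ 2 ∂μ) atTop (𝓝 0) := by
  have hz0 : z0 ∈ P.O := hKO (mem_closedBall_self hδ.le)
  have hK : IsCompact (closedBall z0 δ) := isCompact_closedBall _ _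
  have hBK : ball z0 δ ⊆ closedBall z0 δ := ball_subset_closedBall
  have hBO : ball z0 δ ⊆ P.O := hBK.trans hKO
  set O'' := P.σ '' ball z0 δ with hO''
  have hop : IsOpen O'' := P.image_open isOpen_ball hBO
  have hO''O : O'' ⊆ P.O' := by
    rintro _ ⟨z, hz, rfl⟩
    exact P.mσ (hBO hz)
  have hτB : ∀ y ∈ O'', P.τ y ∈ ball z0 δ := by
    rintro _ ⟨z, hz, rfl⟩
    rw [P.l z (hBO hz)]
    exact hz
  have hinj : InjOn P.σ P.O := fun a ha b hb h => by rw [← P.l a ha, ← P.l b hb, h]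
  have hinj' : InjOn P.τ P.O' := fun a ha b hb h => by rw [← P.r a ha, ← P.r b hb, h]
  have hK' : IsCompact (P.σ '' closedBall z0 δ) :=
    hK.image_of_continuousOn (P.hσ.continuousOn.mono hKO)
  have hK'O : P.σ '' closedBall z0 δ ⊆ P.O' := by
    rintro _ ⟨z, hz, rfl⟩
    exact P.mσ (hKO hz)
  obtain ⟨c1, hc1⟩ := chg_le μ volume (P.eqv hz0) P.hO P.hσ hinj hK hKO
  obtain ⟨c2, hc2⟩ := chg_le volume μ (P.eqv hz0).symm P.hO' P.hτ hinj' hK' hK'O
  have c1' := hc1 (ball z0 δ) hBK measurableSet_ball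
  have c2' := hc2 O'' (image_mono hBK) hop.measurableSet
  have hτO'' : P.τ '' O'' = ball z0 δ := by
    ext z
    constructor
    · rintro ⟨y, hy, rfl⟩
      exact hτB y hy
    · intro hz
      exact ⟨P.σ z, ⟨z, hz, rfl⟩, P.l z (hBO hz)⟩
  rw [hτO''] at c2'
  -- bounds
  have hei : ContinuousOn (fun z => (P.e z)⁻¹) P.O :=
    P.es.continuousOn.inv₀ P.e0
  obtain ⟨M1, hM1⟩ := mul_bd hK (hei.mono hKO)
  obtain ⟨M2, hM2⟩ := mul_bd hK (P.es.continuousOn.mono hKO)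
  obtain ⟨M3, hM3⟩ := mul_bd hK'
    ((P.hτ.continuousOn_fderiv_of_isOpen P.hO' (by simp)).mono hK'O)
  set F : ℕ → (Fin n → ℂ) → ℂ := fun m y => u m (P.τ y) * (P.e (P.τ y))⁻¹ with hF
  have hFs : ∀ m, ContDiffOn ℝ ∞ (F m) O'' := fun m => by
    have h1 : ContDiffOn ℝ ∞ (fun z => u m z * (P.e z)⁻¹) P.O := (hu m).mul (P.es.inv P.e0)
    exact h1.comp (P.hτ.mono hO''O) fun y hy => hBO (hτB y hy)
  have hid : ∀ z ∈ ball z0 δ, P.τ (P.σ z) = z := fun z hz => P.l z (hBO hz)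
  have hL : ∀ m, ∫⁻ z in O'', ‖F m z‖ₑ ^ 2 < ⊤ := fun m => by
    obtain ⟨M4, hM4⟩ := mul_bd hK (((hu m).continuousOn.mono hKO).mul (hei.mono hKO))
    refine (c1' _).trans_lt (ENNReal.mul_lt_top ENNReal.coe_lt_top ?_)
    have h1 : ∫⁻ z in ball z0 δ, ‖F m (P.σ z)‖ₑ ^ 2 ∂μ ≤
        ∫⁻ z in ball z0 δ, (M4 : ℝ≥0∞) ^ 2 ∂μ := by
      refine setLIntegral_mono' measurableSet_ball fun z hz => ?_
      rw [hF]
      show ‖u m (P.τ (P.σ z)) * (P.e (P.τ (P.σ z)))⁻¹‖ₑ ^ 2 ≤ _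
      rw [hid z hz]
      exact pow_le_pow_left' (hM4 z (hBK hz)) 2
    refine h1.trans_lt ?_
    rw [setLIntegral_const]
    exact ENNReal.mul_lt_top (ENNReal.pow_lt_top ENNReal.coe_lt_top) measure_ball_lt_top
  have hCF : ∀ ε : ℝ≥0, 0 < ε → ∃ N, ∀ m ≥ N, ∀ k ≥ N, ∫⁻ z in O'', ‖F m z - F k z‖ₑ ^ 2 ≤ ε := by
    intro ε hε
    set c := c1 * M1 ^ 2 + 1 with hc
    have hcp : 0 < c := by positivity
    obtain ⟨N, hN⟩ := hC (ε / c) (by positivity)
    refine ⟨N, fun m hm k hk => (c1' _).trans ?_⟩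
    have h1 : ∫⁻ z in ball z0 δ, ‖F m (P.σ z) - F k (P.σ z)‖ₑ ^ 2 ∂μ ≤
        (M1 : ℝ≥0∞) ^ 2 * ∫⁻ z in closedBall z0 δ, ‖u m z - u k z‖ₑ ^ 2 ∂μ := by
      refine le_trans ?_ (mul_le_mul_right (lintegral_mono_set hBK) _)
      rw [← lintegral_const_mul' _ _ (ENNReal.pow_ne_top ENNReal.coe_ne_top)]
      refine setLIntegral_mono' measurableSet_ball fun z hz => ?_
      rw [hF]
      show ‖u m (P.τ (P.σ z)) * (P.e (P.τ (P.σ z)))⁻¹ -
        u k (P.τ (P.σ z)) * (P.e (P.τ (P.σ z)))⁻¹‖ₑ ^ 2 ≤ _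
      rw [hid z hz, ← sub_mul, enorm_mul, mul_pow, mul_comm]
      exact mul_le_mul_left (pow_le_pow_left' (hM1 z (hBK hz)) 2) _
    refine (mul_le_mul_right (h1.trans (mul_le_mul_right (hN m hm k hk) _)) _).trans ?_
    rw [← mul_assoc]
    have h2 : (c1 : ℝ≥0∞) * (M1 : ℝ≥0∞) ^ 2 * ((ε / c : ℝ≥0) : ℝ≥0∞) =
      ((c1 * M1 ^ 2 * (ε / c) : ℝ≥0) : ℝ≥0∞) := by push_cast; rfl
    rw [h2]
    refine ENNReal.coe_le_coe.2 ?_
    calc c1 * M1 ^ 2 * (ε / c) ≤ c * (ε / c) := by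
          gcongr
          exact le_self_add
      _ = ε := mul_div_cancel₀ ε hcp.ne'
  have hdF : ∀ j : Fin n, Tendsto (fun m => ∫⁻ z in O'', ‖dbar j (F m) z‖ₑ ^ 2) atTop (𝓝 0) := by
    intro j
    have h1 : ∀ m, ∫⁻ z in O'', ‖dbar j (F m) z‖ₑ ^ 2 ≤ (c1 * (M1 * M3) ^ 2 : ℝ≥0) *
        ∫⁻ z in closedBall z0 δ, ‖dbJ (DT th (u m) z) (J z)‖ₑ ^ 2 ∂μ := by
      intro m
      refine (c1' _).trans ?_
      push_cast
      rw [mul_assoc]
      refine mul_le_mul_right ?_ _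
      refine le_trans ?_ (mul_le_mul_right (lintegral_mono_set hBK) _)
      rw [← lintegral_const_mul' _ _ (ENNReal.pow_ne_top
        (ENNReal.mul_ne_top ENNReal.coe_ne_top ENNReal.coe_ne_top))]
      refine setLIntegral_mono' measurableSet_ball fun z hz => ?_
      have hy : P.σ z ∈ P.O' := P.mσ (hBO hz)
      have hud : DifferentiableAt ℝ (u m) (P.τ (P.σ z)) := by
        rw [hid z hz]
        exact ((hu m).contDiffAt (P.hO.mem_nhds (hBO hz))).differentiableAt (by simp)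
      rw [← mul_pow]
      refine pow_le_pow_left' ?_ 2
      have h2 := P.dbar_eq hy hud j
      rw [hF]
      show ‖dbar j (fun y => u m (P.τ y) * (P.e (P.τ y))⁻¹) (P.σ z)‖ₑ ≤ _
      rw [h2, hid z hz, enorm_mul, enorm_mul]
      have h3 : ‖(1 / 2 : ℂ)‖ₑ ≤ 1 := by
        rw [← ofReal_norm]
        have : ‖(1 / 2 : ℂ)‖ = 1 / 2 := by norm_num
        rw [this, ← ENNReal.ofReal_one]
        exact ENNReal.ofReal_le_ofReal (by norm_num)
      have h4 : ‖(Pi.single j 1 : Fin n → ℂ)‖ₑ ≤ 1 := by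
        rw [← ofReal_norm, ← ENNReal.ofReal_one]
        refine ENNReal.ofReal_le_ofReal ?_
        refine (pi_norm_le_iff_of_nonneg zero_le_one).2 fun k => ?_
        by_cases hk : k = j
        · subst hk; simp
        · simp [Pi.single_eq_of_ne hk]
      have h5 : ‖fderiv ℝ P.τ (P.σ z) (Pi.single j 1)‖ₑ ≤ M3 := by
        refine (ContinuousLinearMap.le_opENorm _ _).trans ?_
        calc _ ≤ (M3 : ℝ≥0∞) * 1 := mul_le_mul' (hM3 _ ⟨z, hBK hz, rfl⟩) h4
          _ = M3 := mul_one _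
      have h6 : ‖dbJ (DT th (u m) z) (J z) (fderiv ℝ P.τ (P.σ z) (Pi.single j 1))‖ₑ ≤
          ‖dbJ (DT th (u m) z) (J z)‖ₑ * M3 :=
        (ContinuousLinearMap.le_opENorm _ _).trans (mul_le_mul_right h5 _)
      calc _ ≤ 1 * ((M1 : ℝ≥0∞) * (‖dbJ (DT th (u m) z) (J z)‖ₑ * M3)) :=
            mul_le_mul' h3 (mul_le_mul' (hM1 z (hBK hz)) h6)
        _ = (M1 : ℝ≥0∞) * M3 * ‖dbJ (DT th (u m) z) (J z)‖ₑ := by ring
    refine tendsto_of_tendsto_of_tendsto_of_le_of_le tendsto_const_nhds ?_ (fun _ => zero_le) h1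
    have h2 := ENNReal.Tendsto.const_mul (a := ((c1 * (M1 * M3) ^ 2 : ℝ≥0) : ℝ≥0∞)) hd
      (Or.inr ENNReal.coe_ne_top)
    rwa [mul_zero] at h2
  obtain ⟨h, hh, hlim⟩ := hol_limit hop hFs hL hCF hdF
  have hhd : ∀ z ∈ ball z0 δ, DifferentiableAt ℂ h (P.σ z) := fun z hz =>
    hh.differentiableAt (hop.mem_nhds ⟨z, hz, rfl⟩)
  refine ⟨fun z => h (P.σ z) * P.e z, ?_, fun z hz => P.sol (hBO hz) (hhd z hz), ?_⟩
  · have h1 : ContDiffOn ℝ ∞ h O'' :=
      ((Crest.Agent.R266.SCV.contDiffOn_omega_of_differentiableOn hop hh).restrict_scalars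
        ℝ).of_le le_top
    exact (h1.comp (P.hσ.mono hBO) fun z hz => ⟨z, hz, rfl⟩).mul (P.es.mono hBO)
  · have h1 : ∀ m, ∫⁻ z in ball z0 δ, ‖u m z - h (P.σ z) * P.e z‖ₑ ^ 2 ∂μ ≤
        (c2 * M2 ^ 2 : ℝ≥0) * ∫⁻ z in O'', ‖F m z - h z‖ₑ ^ 2 := by
      intro m
      refine (c2' _).trans ?_
      push_cast
      rw [mul_assoc]
      refine mul_le_mul_right ?_ _
      rw [← lintegral_const_mul' _ _ (ENNReal.pow_ne_top ENNReal.coe_ne_top)]
      refine setLIntegral_mono' hop.measurableSet fun y hy => ?_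
      have hy1 := hτB y hy
      rw [P.r y (hO''O hy), ← mul_pow]
      refine pow_le_pow_left' ?_ 2
      have h2 : u m (P.τ y) - h y * P.e (P.τ y) = P.e (P.τ y) * (F m y - h y) := by
        rw [hF]
        show _ = P.e (P.τ y) * (u m (P.τ y) * (P.e (P.τ y))⁻¹ - h y)
        have h3 := P.e0 _ (hBO hy1)
        field_simp
      rw [h2, enorm_mul]
      exact mul_le_mul_left (hM2 _ (hBK hy1)) _
    refine tendsto_of_tendsto_of_tendsto_of_le_of_le tendsto_const_nhds ?_ (fun _ => zero_le) h1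
    have h2 := ENNReal.Tendsto.const_mul (a := ((c2 * M2 ^ 2 : ℝ≥0) : ℝ≥0∞)) hlim
      (Or.inr ENNReal.coe_ne_top)
    rwa [mul_zero] at h2

end Loc

end

end Crest.Agent.R281.Hy_409
end

-- ▼ part R281/Hy8_409
section

/-!
# R281 (S0424), H0-OP, second road (helper409), part 8: WEYL for sections

* `exists_loc` : local data of `Loc` at every point of a chart
* `uniq`       : `L²` limits are compatible with the transition functions
* `weyl_S`     : `u m` `L²`-Cauchy, `D'' u m → 0` in `L²` over the cells ⟹ the limit is a section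
                 `w ∈ L.H0 J`
-/

set_option autoImplicit false
set_option linter.unusedSectionVars false
set_option maxSynthPendingDepth 3

open Set Filter Topology MeasureTheory Metric
open scoped ContDiff ENNReal NNReal

namespace Crest.Agent.R281.Hy_409

open Crest.Agent.R281.HkR_835 Crest.Agent.R281.Ti_846 Crest.Agent.R281.PL_713
open Crest.Agent.R275.Geo

noncomputable section

section loc

variable {V X : Type} [NormedAddCommGroup V] [NormedSpace ℝ V] [TopologicalSpace X]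
  {C : RCh V X} {n : ℕ} {A : Atl n X} {J : C.ι → V → V →L[ℝ] V}

/-- the coordinates of `Cn n` -/
def cnE (n : ℕ) : Cn n ≃L[ℂ] (Fin n → ℂ) := EuclideanSpace.equiv (Fin n) ℂ

/-- real version -/
def cnR (n : ℕ) : Cn n →L[ℝ] (Fin n → ℂ) := (cnE n : Cn n →L[ℂ] (Fin n → ℂ)).restrictScalars ℝ

/-- real version of the inverse -/
def cnR' (n : ℕ) : (Fin n → ℂ) →L[ℝ] Cn n :=
  ((cnE n).symm : (Fin n → ℂ) →L[ℂ] Cn n).restrictScalars ℝ

theorem cnR_symm (n : ℕ) (w : Cn n) : cnR' n (cnR n w) = w := (cnE n).symm_apply_apply w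

theorem cnR_symm' (n : ℕ) (w : Fin n → ℂ) : cnR n (cnR' n w) = w := (cnE n).apply_symm_apply w

theorem cnR_I (n : ℕ) (w : Cn n) : cnR n (Complex.I • w) = Complex.I • cnR n w :=
  (cnE n).map_smul Complex.I w

theorem exists_loc [FiniteDimensional ℝ V] [MeasurableSpace V] [BorelSpace V]
    (hJ : JC C J A) {L : PL C} (hF : F11 J L) {i : C.ι} {z : V}
    (hz : z ∈ (C.e i).target) : ∃ P : Loc n (J i) (L.th i), z ∈ P.O ∧ P.O ⊆ (C.e i).target := by
  obtain ⟨U, hU, hzU, hUt, e, hes, he0, heJ⟩ := exists_frame hJ hF hz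
  obtain ⟨a, ha⟩ := A.cover ((C.e i).symm z)
  have hza : z ∈ mov (ofAtl A) C a i := ⟨hz, ha⟩
  have hO : IsOpen (U ∩ mov (ofAtl A) C a i) := hU.inter (Cmp.isOpen_mov _ _ _ _)
  have hO1 : IsOpen (mov C (ofAtl A) i a ∩ mt C (ofAtl A) i a ⁻¹' (U ∩ mov (ofAtl A) C a i)) :=
    (hJ.cmp.s i a).continuousOn.isOpen_inter_preimage (Cmp.isOpen_mov _ _ _ _) hO
  refine ⟨{ O := U ∩ mov (ofAtl A) C a i
            O' := cnR' n ⁻¹' (mov C (ofAtl A) i a ∩ mt C (ofAtl A) i a ⁻¹'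
              (U ∩ mov (ofAtl A) C a i))
            hO := hO
            hO' := hO1.preimage (cnR' n).continuous
            σ := fun z => cnR n (mt (ofAtl A) C a i z)
            τ := fun y => mt C (ofAtl A) i a (cnR' n y)
            hσ := ?_
            hτ := ?_
            mσ := ?_
            mτ := fun y hy => hy.2
            l := ?_
            r := ?_
            lin := ?_
            e := e
            es := hes.mono inter_subset_left
            e0 := fun z hz => he0 z hz.1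
            eJ := ?_ }, ⟨hzU, hza⟩, fun y hy => hUt hy.1⟩
  · exact (cnR n).contDiff.comp_contDiffOn ((hJ.cmp.s' i a).mono inter_subset_right)
  · exact ContDiffOn.comp (g := mt C (ofAtl A) i a) (f := cnR' n) (hJ.cmp.s i a)
      (cnR' n).contDiff.contDiffOn fun y hy => hy.1
  · intro y hy
    have h1 : mt (ofAtl A) C a i y ∈ mov C (ofAtl A) i a :=
      Cmp.mt_mem (C := ofAtl A) (C' := C) hy.2
    refine mem_preimage.2 ?_
    rw [cnR_symm]
    refine ⟨h1, mem_preimage.2 ?_⟩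
    rw [Cmp.mt_mt (C := ofAtl A) (C' := C) hy.2]
    exact hy
  · intro y hy
    show mt C (ofAtl A) i a (cnR' n (cnR n (mt (ofAtl A) C a i y))) = y
    rw [cnR_symm]
    exact Cmp.mt_mt (C := ofAtl A) (C' := C) hy.2
  · intro y hy
    show cnR n (mt (ofAtl A) C a i (mt C (ofAtl A) i a (cnR' n y))) = y
    rw [Cmp.mt_mt hy.1, cnR_symm']
  · intro y hy v
    have h1 : HasFDerivAt (fun z => cnR n (mt (ofAtl A) C a i z)) _ y :=
      (cnR n).hasFDerivAt.comp y (hJ.cmp.symm.diff hy.2).hasFDerivAt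
    rw [h1.fderiv, ContinuousLinearMap.comp_apply, ContinuousLinearMap.comp_apply, hJ.lin' hy.2,
      cnR_I]
  · intro y hy
    ext v
    have h1 := heJ y hy.1 v
    rw [dbJ_apply, zero_apply]
    unfold DT
    simp only [add_apply, smul_apply, smul_eq_mul, cof_apply]
    linear_combination h1

end loc

variable {V X : Type} [NormedAddCommGroup V] [NormedSpace ℝ V] [FiniteDimensional ℝ V]
  [MeasurableSpace V] [BorelSpace V] [TopologicalSpace X] [CompactSpace X] [T2Space X]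
  {C : RCh V X} (μ : Measure V) [μ.IsAddHaarMeasure] {L : PL C}

theorem t_comp {i j k : C.ι} {z : V} (hz : z ∈ C.ov i j) : C.t j k (C.t i j z) = C.t i k z := by
  show C.e k ((C.e j).symm (C.e j ((C.e i).symm z))) = C.e k ((C.e i).symm z)
  rw [(C.e j).left_inv hz.2]

theorem t_comp_mem {i j k : C.ι} {z : V} (hz : z ∈ C.ov i j) (hk : z ∈ C.ov i k) :
    C.t i j z ∈ C.ov j k := by
  refine ⟨(C.e j).map_source hz.2, ?_⟩
  show (C.e j).symm (C.e j ((C.e i).symm z)) ∈ (C.e k).source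
  rw [(C.e j).left_inv hz.2]
  exact hk.2

/-- **`L²` limits are compatible** -/
theorem uniq {i j : C.ι} {z0 z1 : V} {r0 r1 : ℝ} {u : ℕ → Sec L} {g0 g1 : V → ℂ}
    (c0 : ContinuousOn g0 (ball z0 r0)) (c1 : ContinuousOn g1 (ball z1 r1))
    (h0 : Tendsto (fun m => ∫⁻ z in ball z0 r0, ‖(u m).u i z - g0 z‖ₑ ^ 2 ∂μ) atTop (𝓝 0))
    (h1 : Tendsto (fun m => ∫⁻ z in ball z1 r1, ‖(u m).u j z - g1 z‖ₑ ^ 2 ∂μ) atTop (𝓝 0))
    {y : V} (hy : y ∈ C.ov i j) (hy0 : y ∈ ball z0 r0) (hy1 : C.t i j y ∈ ball z1 r1) :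
    g0 y = L.g i j y * g1 (C.t i j y) := by
  have hov := RCh.isOpen_ov (C := C) i j
  have hov' := RCh.isOpen_ov (C := C) j i
  have hΩ : IsOpen ((C.ov i j ∩ C.t i j ⁻¹' ball z1 r1) ∩ ball z0 r0) :=
    ((RCh.t_smooth i j).continuousOn.isOpen_inter_preimage hov isOpen_ball).inter isOpen_ball
  obtain ⟨ρ, hρ, hsub⟩ := nhds_basis_closedBall.mem_iff.1 (hΩ.mem_nhds ⟨⟨hy, hy1⟩, hy0⟩)
  set K := closedBall y ρ with hK
  have hKc : IsCompact K := isCompact_closedBall _ _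
  have hKov : K ⊆ C.ov i j := fun x hx => (hsub hx).1.1
  set T := C.t i j '' K with hT
  have hTc : IsCompact T := hKc.image_of_continuousOn ((RCh.t_smooth i j).continuousOn.mono hKov)
  have hTov : T ⊆ C.ov j i := by
    rintro _ ⟨x, hx, rfl⟩
    exact RCh.t_mem (hKov hx)
  have hTball : T ⊆ ball z1 r1 := by
    rintro _ ⟨x, hx, rfl⟩
    exact (hsub hx).1.2
  have hTK : C.t j i '' T = K := by
    ext x
    constructor
    · rintro ⟨_, ⟨x', hx', rfl⟩, rfl⟩
      rwa [RCh.t_t (hKov hx')]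
    · intro hx
      exact ⟨C.t i j x, ⟨x, hx, rfl⟩, RCh.t_t (hKov hx)⟩
  have hinj : InjOn (C.t j i) (C.ov j i) := fun a ha b hb h => by
    rw [← RCh.t_t ha, ← RCh.t_t hb, h]
  obtain ⟨c, hc⟩ := chg_le μ μ (ContinuousLinearEquiv.refl ℝ V) hov' (RCh.t_smooth j i) hinj
    hTc hTov
  have hc' := hc T subset_rfl hTc.isClosed.measurableSet
  rw [hTK] at hc'
  have a0 : ContinuousOn g0 K := c0.mono fun x hx => (hsub hx).2
  have a1 : ContinuousOn (fun x => L.g i j x * g1 (C.t i j x)) K :=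
    ((L.sm i j).continuousOn.mono hKov).mul
      (c1.comp ((RCh.t_smooth i j).continuousOn.mono hKov) fun x hx => (hsub hx).1.2)
  -- the integral of the difference is zero
  have b1 : ∀ m, ∫⁻ x in K, ‖(u m).u i x - L.g i j x * g1 (C.t i j x)‖ₑ ^ 2 ∂μ ≤
      c * ∫⁻ z in ball z1 r1, ‖(u m).u j z - g1 z‖ₑ ^ 2 ∂μ := by
    intro m
    have e1 : ∫⁻ x in K, ‖(u m).u i x - L.g i j x * g1 (C.t i j x)‖ₑ ^ 2 ∂μ =
        ∫⁻ x in K, ‖(u m).u j (C.t i j x) - g1 (C.t i j x)‖ₑ ^ 2 ∂μ := by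
      refine setLIntegral_congr_fun hKc.measurableSet fun x hx => ?_
      show ‖(u m).u i x - L.g i j x * g1 (C.t i j x)‖ₑ ^ 2 = _
      rw [(u m).tr i j x (hKov hx), ← mul_sub, enorm_mul]
      have e2 : ‖L.g i j x‖ₑ = 1 := by
        rw [← ofReal_norm, L.unit i j x (hKov hx), ENNReal.ofReal_one]
      rw [e2, one_mul]
    rw [e1]
    refine (hc' (fun x => ‖(u m).u j (C.t i j x) - g1 (C.t i j x)‖ₑ ^ 2)).trans ?_
    refine mul_le_mul_right ?_ _
    refine le_trans (le_of_eq ?_) (lintegral_mono_set hTball)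
    refine setLIntegral_congr_fun hTc.isClosed.measurableSet fun x hx => ?_
    show ‖(u m).u j (C.t i j (C.t j i x)) - g1 (C.t i j (C.t j i x))‖ₑ ^ 2 = _
    rw [RCh.t_t (hTov hx)]
  have b2 : ∀ m, ∫⁻ x in K, ‖g0 x - L.g i j x * g1 (C.t i j x)‖ₑ ^ 2 ∂μ ≤
      (2 : ℝ≥0) * ∫⁻ z in ball z0 r0, ‖(u m).u i z - g0 z‖ₑ ^ 2 ∂μ +
        (2 : ℝ≥0) * (c * ∫⁻ z in ball z1 r1, ‖(u m).u j z - g1 z‖ₑ ^ 2 ∂μ) := by
    intro m
    have a2 : ContinuousOn (fun x => (u m).u i x - L.g i j x * g1 (C.t i j x)) K :=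
      (((u m).sm i).continuousOn.mono fun x hx => (hKov hx).1).sub a1
    refine (int_le μ hKc a2 (g := fun x => ‖(u m).u i x - g0 x‖ₑ ^ 2) (a := 2) (b := 2)
      fun x _ => ?_).trans ?_
    · have e1 : g0 x - L.g i j x * g1 (C.t i j x) =
        -((u m).u i x - g0 x) + ((u m).u i x - L.g i j x * g1 (C.t i j x)) := by ring
      rw [e1]
      refine (pow_le_pow_left' (enorm_add_le _ _) 2).trans ((sq_add_le _ _).trans ?_)
      rw [enorm_neg]
      rfl
    · refine add_le_add (mul_le_mul_right (lintegral_mono_set fun x hx => (hsub hx).2) _)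
        (mul_le_mul_right (b1 m) _)
  have b3 : Tendsto (fun m => (2 : ℝ≥0) * ∫⁻ z in ball z0 r0, ‖(u m).u i z - g0 z‖ₑ ^ 2 ∂μ +
        (2 : ℝ≥0) * (c * ∫⁻ z in ball z1 r1, ‖(u m).u j z - g1 z‖ₑ ^ 2 ∂μ)) atTop (𝓝 0) := by
    have t1 := ENNReal.Tendsto.const_mul (a := ((2 : ℝ≥0) : ℝ≥0∞)) h0
      (Or.inr ENNReal.coe_ne_top)
    have t2 := ENNReal.Tendsto.const_mul (a := (c : ℝ≥0∞)) h1 (Or.inr ENNReal.coe_ne_top)
    have t3 := ENNReal.Tendsto.const_mul (a := ((2 : ℝ≥0) : ℝ≥0∞)) t2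
      (Or.inr ENNReal.coe_ne_top)
    have t4 := t1.add t3
    simpa using t4
  have b4 : ∫⁻ x in K, ‖g0 x - L.g i j x * g1 (C.t i j x)‖ₑ ^ 2 ∂μ = 0 :=
    le_antisymm (ge_of_tendsto' b3 b2) (zero_le)
  have a3 : ContinuousOn (fun x => g0 x - L.g i j x * g1 (C.t i j x)) K := a0.sub a1
  rw [lintegral_eq_zero_iff' (aem_sq μ hKc a3)] at b4
  have b5 : g0 =ᵐ[μ.restrict (ball y ρ)] fun x => L.g i j x * g1 (C.t i j x) := by
    have b6 := ae_restrict_of_ae_restrict_of_subset (ball_subset_closedBall (x := y) (ε := ρ)) b4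
    filter_upwards [b6] with x hx
    have h7 : ‖g0 x - L.g i j x * g1 (C.t i j x)‖ₑ ^ 2 = 0 := hx
    have h8 : ‖g0 x - L.g i j x * g1 (C.t i j x)‖ₑ = 0 := by
      exact pow_eq_zero_iff (by norm_num) |>.1 h7
    rw [enorm_eq_zero] at h8
    exact sub_eq_zero.1 h8
  exact Measure.eqOn_open_of_ae_eq b5 isOpen_ball (a0.mono ball_subset_closedBall)
    (a1.mono ball_subset_closedBall) (mem_ball_self hρ)

/-- **WEYL for sections** -/
theorem weyl_S {n : ℕ} {A : Atl n X} {J : C.ι → V → V →L[ℝ] V} (hJ : JC C J A) (hF : F11 J L)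
    (B : Bc C) (u : ℕ → Sec L)
    (hC : ∀ ε : ℝ≥0, 0 < ε → ∃ N, ∀ m ≥ N, ∀ k ≥ N, N0 B μ (u m - u k) ≤ ε)
    (hd : Tendsto (fun m => NJ B μ J (u m)) atTop (𝓝 0)) :
    ∃ w : Sec L, w ∈ L.H0 J ∧ Tendsto (fun m => N0 B μ (u m - w)) atTop (𝓝 0) := by
  classical
  -- local solutions
  obtain ⟨B', q, hi, hsub, hpos, hPP⟩ := refine_bc B (fun k z δ =>
    ∃ g : V → ℂ, ContDiffOn ℝ ∞ g (ball z (2 * δ)) ∧
      (∀ y ∈ ball z (2 * δ), dbJ (DT (L.th (B.i k)) g y) (J (B.i k) y) = 0) ∧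
      Tendsto (fun m => ∫⁻ y in ball z (2 * δ), ‖(u m).u (B.i k) y - g y‖ₑ ^ 2 ∂μ) atTop (𝓝 0))
    (fun k z hz => by
      obtain ⟨P, hzP, hPt⟩ := exists_loc hJ hF (B.sub k (ball_subset_closedBall hz))
      have ho : IsOpen (P.O ∩ ball (B.z k) (B.r k)) := P.hO.inter isOpen_ball
      obtain ⟨ρ, hρ, hs⟩ := nhds_basis_closedBall.mem_iff.1 (ho.mem_nhds ⟨hzP, hz⟩)
      refine ⟨ρ / 2, by positivity, ?_, ?_⟩
      · rw [mul_div_cancel₀ _ (two_ne_zero)]
        exact hs.trans inter_subset_right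
      · rw [mul_div_cancel₀ _ (two_ne_zero)]
        have hsB : closedBall z ρ ⊆ closedBall (B.z k) (B.r k) :=
          (hs.trans inter_subset_right).trans ball_subset_closedBall
        refine P.solve μ hρ (hs.trans inter_subset_left)
          (fun m => ((u m).sm (B.i k)).mono hPt) (fun ε hε => ?_) ?_
        · obtain ⟨N, hN⟩ := hC ε hε
          refine ⟨N, fun m hm k' hk' => le_trans ?_ (hN m hm k' hk')⟩
          exact cell_le μ B (fun k y => ‖(u m - u k').u (B.i k) y‖ₑ ^ 2) k hsB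
        · refine tendsto_of_tendsto_of_tendsto_of_le_of_le tendsto_const_nhds hd
            (fun _ => zero_le) fun m => ?_
          exact cell_le μ B (fun k y => ‖dbJ (DL (u m) (B.i k) y) (J (B.i k) y)‖ₑ ^ 2) k hsB)
  choose g hgs hgJ hgl using hPP
  set ι : B'.κ → C.ι := fun k => B.i (q k) with hι
  have hBt : ∀ k, ball (B'.z k) (2 * B'.r k) ⊆ (C.e (ι k)).target := fun k =>
    ball_subset_closedBall.trans ((hsub k).trans (ball_subset_closedBall.trans (B.sub (q k))))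
  have hcov := B'.cov
  choose kk hk1 hk2 using hcov
  have hk1' : ∀ x, x ∈ (C.e (ι (kk x))).source := fun x => by
    have := hk1 x
    rwa [hi] at this
  have hk2' : ∀ x, C.e (ι (kk x)) x ∈ ball (B'.z (kk x)) (2 * B'.r (kk x)) := fun x => by
    have h1 := hk2 x
    rw [hi] at h1
    exact ball_subset_ball (by linarith [hpos (kk x)]) h1
  -- compatibility
  have huq : ∀ k l, ∀ y ∈ C.ov (ι k) (ι l), y ∈ ball (B'.z k) (2 * B'.r k) →
      C.t (ι k) (ι l) y ∈ ball (B'.z l) (2 * B'.r l) →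
      g k y = L.g (ι k) (ι l) y * g l (C.t (ι k) (ι l) y) := fun k l y hy h0 h1 =>
    uniq μ (hgs k).continuousOn (hgs l).continuousOn (hgl k) (hgl l) hy h0 h1
  set W : C.ι → V → ℂ := fun i z => if z ∈ (C.e i).target then
    L.g i (ι (kk ((C.e i).symm z))) z * g (kk ((C.e i).symm z)) (C.t i (ι (kk ((C.e i).symm z))) z)
    else 0 with hW
  have hWeq : ∀ i k, ∀ z ∈ C.ov i (ι k), C.t i (ι k) z ∈ ball (B'.z k) (2 * B'.r k) →
      W i z = L.g i (ι k) z * g k (C.t i (ι k) z) := by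
    intro i k z hz hzb
    rw [hW]
    simp only [hz.1, if_true]
    set l := kk ((C.e i).symm z) with hl
    have hzl : z ∈ C.ov i (ι l) := ⟨hz.1, hk1' _⟩
    have h1 := huq l k (C.t i (ι l) z) (t_comp_mem hzl hz) (hk2' ((C.e i).symm z)) (by
      rw [t_comp hzl]; exact hzb)
    rw [h1, t_comp hzl, L.coc i (ι l) (ι k) z hzl hz, mul_assoc]
  -- the section
  let w : Sec L :=
    { u := W
      sm := fun i z hz => by
        set k := kk ((C.e i).symm z) with hk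
        have hzk : z ∈ C.ov i (ι k) := ⟨hz, hk1' _⟩
        have ho : IsOpen (C.ov i (ι k) ∩ C.t i (ι k) ⁻¹' ball (B'.z k) (2 * B'.r k)) :=
          (RCh.t_smooth i (ι k)).continuousOn.isOpen_inter_preimage (RCh.isOpen_ov _ _) isOpen_ball
        have hzo : z ∈ C.ov i (ι k) ∩ C.t i (ι k) ⁻¹' ball (B'.z k) (2 * B'.r k) :=
          ⟨hzk, hk2' ((C.e i).symm z)⟩
        have h1 : ContDiffOn ℝ ∞ (fun y => L.g i (ι k) y * g k (C.t i (ι k) y))
            (C.ov i (ι k) ∩ C.t i (ι k) ⁻¹' ball (B'.z k) (2 * B'.r k)) :=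
          ((L.sm i (ι k)).mono inter_subset_left).mul ((hgs k).comp
            ((RCh.t_smooth i (ι k)).mono inter_subset_left) fun y hy => hy.2)
        refine ((h1.contDiffAt (ho.mem_nhds hzo)).congr_of_eventuallyEq ?_).contDiffWithinAt
        filter_upwards [ho.mem_nhds hzo] with y hy
        exact hWeq i k y hy.1 hy.2
      tr := fun i j z hz => by
        set k := kk ((C.e i).symm z) with hk
        have hzk : z ∈ C.ov i (ι k) := ⟨hz.1, hk1' _⟩
        have h1 := hWeq i k z hzk (hk2' ((C.e i).symm z))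
        have h2 := hWeq j k (C.t i j z) (t_comp_mem hz hzk) (by
          rw [t_comp hz]; exact hk2' ((C.e i).symm z))
        rw [h1, h2, t_comp hz, L.coc i j (ι k) z hz hzk, mul_assoc]
      off := fun i z hz => by
        rw [hW]
        simp only [hz, if_false] }
  have hwu : ∀ k, ∀ y ∈ ball (B'.z k) (2 * B'.r k), w.u (ι k) y = g k y := by
    intro k y hy
    have hyt := hBt k hy
    have h1 := hWeq (ι k) k y (PL.mem_self hyt) (by rw [PL.t_self hyt]; exact hy)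
    rw [PL.g_self L hyt, PL.t_self hyt, one_mul] at h1
    exact h1
  refine ⟨w, ?_, ?_⟩
  · intro i z hz v
    set k := kk ((C.e i).symm z) with hk
    have hzk : z ∈ C.ov i (ι k) := ⟨hz, hk1' _⟩
    have hb : C.t i (ι k) z ∈ ball (B'.z k) (2 * B'.r k) := hk2' ((C.e i).symm z)
    have h1 : DL w (ι k) (C.t i (ι k) z) = DT (L.th (ι k)) (g k) (C.t i (ι k) z) := by
      rw [DL_DT]
      refine DT_congr ?_
      filter_upwards [isOpen_ball.mem_nhds hb] with y hy using hwu k y hy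
    have h2 := hgJ k _ hb
    have h3 : dbJ (DL w (ι k) (C.t i (ι k) z)) (J (ι k) (C.t i (ι k) z))
        (fderiv ℝ (C.t i (ι k)) z v) = 0 := by
      rw [h1, h2, zero_apply]
    rw [db_eq] at h3
    unfold Sec.db at h3 ⊢
    rw [w.D_tr hzk, w.D_tr hzk, hJ.J_tr hzk]
    linear_combination L.g i (ι k) z * h3
  · have h1 : Tendsto (fun m => N0 B' μ (u m - w)) atTop (𝓝 0) := by
      have h2 : Tendsto (fun m => ∑ k, ∫⁻ y in ball (B'.z k) (2 * B'.r k),
          ‖(u m).u (ι k) y - g k y‖ₑ ^ 2 ∂μ) atTop (𝓝 0) := by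
        have := tendsto_finsetSum (Finset.univ : Finset B'.κ) fun k _ => hgl k
        simpa using this
      refine tendsto_of_tendsto_of_tendsto_of_le_of_le tendsto_const_nhds h2
        (fun _ => zero_le) fun m => ?_
      refine Finset.sum_le_sum fun k _ => ?_
      have hs : closedBall (B'.z k) (B'.r k) ⊆ ball (B'.z k) (2 * B'.r k) :=
        closedBall_subset_ball (by linarith [hpos k])
      refine le_trans (le_of_eq ?_) (lintegral_mono_set hs)
      refine setLIntegral_congr_fun measurableSet_closedBall fun y hy => ?_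
      show ‖(u m - w).u (B'.i k) y‖ₑ ^ 2 = _
      rw [hi]
      show ‖(u m).u (ι k) y - w.u (ι k) y‖ₑ ^ 2 = _
      rw [hwu k y (hs hy)]
    obtain ⟨c, hc⟩ := N_tr μ B B'
    refine tendsto_of_tendsto_of_tendsto_of_le_of_le tendsto_const_nhds ?_
      (fun _ => zero_le) fun m => (hc L (u m - w)).1
    have h2 := ENNReal.Tendsto.const_mul (a := (c : ℝ≥0∞)) h1 (Or.inr ENNReal.coe_ne_top)
    rwa [mul_zero] at h2

end

end Crest.Agent.R281.Hy_409
end

-- ▼ part R281/Mca1_365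
section

/-!
# R281 (S0424), MOVE-COEF (MC1) + (MC3) (helper365), file 1: analytic families in `C(S, W)`

* `analyticAt_series` : a convergent power series in one real variable is analytic
* `toC S g`           : restriction of `g` to `S` as an element of `C(S, W)` (`0` if not continuous)
* `analyticAt_toC`    : term by term bounds on `S` ⟹ `s ↦ toC S (g s)` is analytic
* `geo`               : a compact part of a chart of `C` in the balls of `A`, transition maps bounded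
* **`analyticAt_fun`, `analyticAt_dfun`** : `PsF` ⟹ `s ↦ f s`, `D (f s)` analytic on compact parts
  of the charts of `C`
* **`analyticAt_f2`** : `Ps11` ⟹ the real 2-form of `G s`, read in the charts of `C`, is analytic
-/

set_option autoImplicit false
set_option linter.unusedSectionVars false

open Set Filter Topology Complex Metric
open scoped ContDiff Matrix ComplexConjugate ComplexOrder

namespace Crest.Agent.R281.Mca_365

noncomputable section

/-! ### series -/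

section series

variable {F : Type*} [NormedAddCommGroup F] [NormedSpace ℝ F]

/-- a convergent power series is analytic -/
theorem analyticAt_series {f : ℝ → F} {c : ℕ → F} {s0 r : ℝ} (hr : 0 < r)
    (h : ∀ s, |s - s0| < r → HasSum (fun j => (s - s0) ^ j • c j) (f s)) : AnalyticAt ℝ f s0 := by
  let p : FormalMultilinearSeries ℝ ℝ F :=
    fun j => ContinuousMultilinearMap.mkPiRing ℝ (Fin j) (c j)
  have hp : ∀ j, p.coeff j = c j := fun j => by
    simp [p, FormalMultilinearSeries.coeff]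
  refine ⟨p, hasFPowerSeriesAt_iff.2 ?_⟩
  filter_upwards [Metric.ball_mem_nhds (0 : ℝ) hr] with y hy
  have hy' : |s0 + y - s0| < r := by
    rw [add_sub_cancel_left]
    simpa [Real.dist_eq] using hy
  have h1 := h (s0 + y) hy'
  simp only [add_sub_cancel_left] at h1
  refine h1.congr_fun fun j => ?_
  rw [hp]

variable {V W : Type*} [TopologicalSpace V] [NormedAddCommGroup W] [NormedSpace ℝ W]

open Classical in
/-- restriction to `S` -/
def toC (S : Set V) (g : V → W) : C(S, W) :=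
  if h : ContinuousOn g S then ⟨S.domRestrict g, continuousOn_iff_continuous_domRestrict.1 h⟩ else 0

theorem toC_apply {S : Set V} {g : V → W} (h : ContinuousOn g S) (z : S) : toC S g z = g z := by
  unfold toC
  rw [dif_pos h]
  rfl

theorem toC_congr {S : Set V} {g g' : V → W} (h : EqOn g g' S) : toC S g = toC S g' := by
  by_cases hg : ContinuousOn g S
  · have hg' : ContinuousOn g' S := hg.congr h.symm
    ext z
    rw [toC_apply hg, toC_apply hg', h z.2]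
  · have hg' : ¬ ContinuousOn g' S := fun h' => hg (h'.congr h)
    unfold toC
    rw [dif_neg hg, dif_neg hg']

/-- **term by term bounds give analytic families of continuous functions** -/
theorem analyticAt_toC [CompleteSpace W] {S : Set V} [CompactSpace S] {g : ℝ → V → W}
    {G : ℕ → V → W} {a : ℕ → ℝ} {s0 r : ℝ} (hr : 0 < r) (a0 : ∀ j, 0 ≤ a j)
    (ha : Summable fun j => a j * r ^ j) (hc : ∀ j, ContinuousOn (G j) S)
    (hg : ∀ s, |s - s0| < r → ContinuousOn (g s) S) (hb : ∀ j, ∀ z ∈ S, ‖G j z‖ ≤ a j)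
    (hs : ∀ s, |s - s0| < r → ∀ z ∈ S, HasSum (fun j => (s - s0) ^ j • G j z) (g s z)) :
    AnalyticAt ℝ (fun s => toC S (g s)) s0 := by
  refine analyticAt_series (c := fun j => toC S (G j)) hr fun s hsr => ?_
  have hn : ∀ j, ‖toC S (G j)‖ ≤ a j := fun j => by
    refine (ContinuousMap.norm_le _ (a0 j)).2 fun z => ?_
    rw [toC_apply (hc j)]
    exact hb j z z.2
  have h1 : Summable fun j => (s - s0) ^ j • toC S (G j) := by
    refine Summable.of_norm_bounded (Crest.Agent.R281.HKMov_478.smb a0 ha hsr.le) fun j => ?_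
    rw [norm_smul, norm_pow, Real.norm_eq_abs]
    exact mul_le_mul_of_nonneg_left (hn j) (by positivity)
  have h2 : ∑' j, (s - s0) ^ j • toC S (G j) = toC S (g s) := by
    ext z
    have h3 := ContinuousMap.hasSum_apply h1.hasSum z
    have h4 := hs s hsr z z.2
    rw [toC_apply (hg s hsr)]
    refine HasSum.unique (f := fun j => (s - s0) ^ j • G j z) ?_ h4
    refine h3.congr_fun fun j => ?_
    rw [ContinuousMap.smul_apply, toC_apply (hc j)]
  rw [← h2]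
  exact h1.hasSum

end series

/-! ### geometry -/

open Crest.Agent.R275.Geo Crest.Agent.R275.Core144 Crest.Agent.R275.GC293
open Crest.Agent.R275.EDR890
open Crest.Agent.R273.Defs_333 Crest.Agent.R273.YauDefs_635 Crest.Agent.R273.HM_333
open Crest.Agent.R273.YauCh_635 Crest.Agent.R273.Hess_333 Crest.Agent.R273.HessB_333
open Crest.Agent.R273.Kah_333 Crest.Agent.R273.YauMax_635 Crest.Agent.R273.YauLoc_635
open Crest.Agent.R273.SchA_152 Crest.Agent.R273.SchD_152 Crest.Agent.R273.YauQ_635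
open Crest.Agent.R273.SchF_152
open Crest.Agent.R281.HkR_835 Crest.Agent.R281.HKMov_478

variable {n : ℕ} {V X : Type} [NormedAddCommGroup V] [NormedSpace ℝ V] [TopologicalSpace X]
  {A : Atl n X} {C : RCh V X}


/-! ### functions -/







end

end Crest.Agent.R281.Mca_365
end

-- ▼ part R281/Sem2_323
section

/-!
# R281 (S0424), SEMI-P (helper323), part 2: power series in the cells of the real charts

* `Qs`       : the part of the cell `k` of `C` in the half ball `l` of `A`, compact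
* `form_bd`, `fun_bd` : bounds in the cells from bounds in the half balls
* `ps_form`  : power series of `(h.symm.F (G s).f2).w` on the cells from `Ps11`
* `ps_fun`, `ps_dfun` : the same for functions and their differentials from `PsF`
-/

set_option autoImplicit false
set_option linter.unusedSectionVars false
set_option maxSynthPendingDepth 3

open Set Filter Topology Complex Metric
open scoped ContDiff Matrix ComplexConjugate ComplexOrder

namespace Crest.Agent.R281.Sem_323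

open Crest.Agent.R275.Geo Crest.Agent.R275.Core144 Crest.Agent.R275.GC293
open Crest.Agent.R273.Defs_333 Crest.Agent.R273.YauDefs_635
open Crest.Agent.R273.Hess_333
open Crest.Agent.R273.Kah_333
open Crest.Agent.R273.SchA_152 Crest.Agent.R273.SchD_152
open Crest.Agent.R273.SchF_152 Crest.Agent.R273.SchE_152 Crest.Agent.R273.SchG_152
open Crest.Agent.R273.YauSchF_635 Crest.Agent.R273.YauPf_635 Crest.Agent.R273.YauOpA_635
open Crest.Agent.R281.HkR_835 Crest.Agent.R281.Ti_846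
open Crest.Agent.R281.HKMov_478
open Crest.Agent.R281.Hz_286

noncomputable section

variable {d : ℕ} {X : Type} [TopologicalSpace X] {A : Atl d X}
variable {V : Type} [NormedAddCommGroup V] [NormedSpace ℝ V] {C : RCh V X}

/-! ### compact pieces -/

/-- points of the cell `k` in the half ball `l` -/
def Qs (Bc : Cb A) (Z : Cells C) (k : Z.σ) (l : Bc.κ) : Set V :=
  {z | z ∈ Z.B k ∧ z ∈ mov (ofAtl A) C (Bc.i l) (Z.i k) ∧
    mt (ofAtl A) C (Bc.i l) (Z.i k) z ∈ closedBall (Bc.z l) (Bc.r l / 2)}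

theorem exists_Qs (Bc : Cb A) (Z : Cells C) {k : Z.σ} {z : V} (hz : z ∈ Z.B k) :
    ∃ l, z ∈ Qs Bc Z k l := by
  obtain ⟨l, h1, h2⟩ := Bc.cover ((C.e (Z.i k)).symm z)
  exact ⟨l, hz, ⟨Z.sub k hz, h1⟩, ball_subset_closedBall h2⟩

theorem compact_Qs [T2Space X] [FiniteDimensional ℝ V] (Bc : Cb A) (Z : Cells C) (k : Z.σ)
    (l : Bc.κ) : IsCompact (Qs Bc Z k l) := by
  have := FiniteDimensional.proper_real V
  have hK : IsCompact ((A.e (Bc.i l)).symm '' closedBall (Bc.z l) (Bc.r l / 2)) :=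
    (isCompact_closedBall _ _).image_of_continuousOn
      ((A.e (Bc.i l)).continuousOn_symm.mono (Bc.sub' l))
  have hB : IsCompact (Z.B k) := isCompact_closedBall _ _
  have h1 : Qs Bc Z k l = Z.B k ∩ (C.e (Z.i k)).symm ⁻¹'
      ((A.e (Bc.i l)).symm '' closedBall (Bc.z l) (Bc.r l / 2)) := by
    ext z
    constructor
    · rintro ⟨h1, h2, h3⟩
      exact ⟨h1, _, h3, (A.e (Bc.i l)).left_inv h2.2⟩
    · rintro ⟨h1, y, hy, hyz⟩
      have hyt := Bc.sub' l hy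
      refine ⟨h1, ⟨Z.sub k h1, ?_⟩, ?_⟩
      · show (C.e (Z.i k)).symm z ∈ (A.e (Bc.i l)).source
        rw [← hyz]
        exact (A.e (Bc.i l)).map_target hyt
      · show A.e (Bc.i l) ((C.e (Z.i k)).symm z) ∈ _
        rw [← hyz, (A.e (Bc.i l)).right_inv hyt]
        exact hy
  rw [h1]
  refine hB.of_isClosed_subset ?_ inter_subset_left
  exact ((C.e (Z.i k)).continuousOn_symm.mono (Z.sub k)).preimage_isClosed_of_isClosed
    isClosed_closedBall hK.isClosed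

/-- a bound of the differentials of the transition maps -/
theorem exists_cst [T2Space X] [FiniteDimensional ℝ V] (h : Cmp C (ofAtl A)) (Bc : Cb A)
    (Z : Cells C) : ∃ c : ℝ, 0 ≤ c ∧ ∀ k l, ∀ z ∈ Qs Bc Z k l,
      ‖fderiv ℝ (mt (ofAtl A) C (Bc.i l) (Z.i k)) z‖ ≤ c := by
  have := Bc.fin
  have h1 : ∀ p : Z.σ × Bc.κ, ∃ c : ℝ, ∀ z ∈ Qs Bc Z p.1 p.2,
      ‖fderiv ℝ (mt (ofAtl A) C (Bc.i p.2) (Z.i p.1)) z‖ ≤ c := by
    intro p
    have h2 : ContinuousOn (fderiv ℝ (mt (ofAtl A) C (Bc.i p.2) (Z.i p.1)))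
        (mov (ofAtl A) C (Bc.i p.2) (Z.i p.1)) :=
      ((h.s' (Z.i p.1) (Bc.i p.2)).fderiv_of_isOpen (Cmp.isOpen_mov _ _ _ _)
        (m := ∞) (by simp)).continuousOn
    obtain ⟨c, hc⟩ := (compact_Qs Bc Z p.1 p.2).exists_bound_of_continuousOn
      (h2.mono fun z hz => hz.2.1)
    exact ⟨c, hc⟩
  choose c hc using h1
  obtain ⟨c', hc0, hc'⟩ := exists_ub c
  exact ⟨c', hc0, fun k l z hz => (hc (k, l) z hz).trans (hc' (k, l))⟩

/-! ### forms -/

theorem hb_bd {G : Matrix (Fin d) (Fin d) ℂ} {a : ℝ} (hG : ∀ b c, ‖G b c‖ ≤ a) (ha : 0 ≤ a)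
    (u v : Cn d) : |(I * hb G u v).re| ≤ (d : ℝ) ^ 2 * a * ‖u‖ * ‖v‖ := by
  refine (Complex.abs_re_le_norm _).trans ?_
  rw [norm_mul, Complex.norm_I, one_mul]
  unfold hb
  have h1 : ∀ b c, ‖G b c * u b * conj (v c)‖ ≤ a * ‖u‖ * ‖v‖ := by
    intro b c
    rw [norm_mul, norm_mul, RCLike.norm_conj]
    have e1 := PiLp.norm_apply_le u b
    have e2 := PiLp.norm_apply_le v c
    gcongr
    exact hG b c
  calc ‖∑ b, ∑ c, G b c * u b * conj (v c)‖ ≤ ∑ _b : Fin d, ∑ _c : Fin d, a * ‖u‖ * ‖v‖ :=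
        norm_sum_le_of_le _ fun b _ => norm_sum_le_of_le _ fun c _ => h1 b c
    _ = _ := by
        simp only [Finset.sum_const, Finset.card_univ, Fintype.card_fin, nsmul_eq_mul]
        ring

/-- the value of a (1,1)-form in the cells -/
theorem form_w (h : Cmp C (ofAtl A)) (Y : K11 A) (Bc : Cb A) (Z : Cells C) {k : Z.σ} {l : Bc.κ}
    {z : V} (hz : z ∈ Qs Bc Z k l) (u v : V) : (h.symm.F Y.f2).w (Z.i k) z u v =
      (I * hb (Y.g (Bc.i l) ((A.e (Bc.i l)).symm (mt (ofAtl A) C (Bc.i l) (Z.i k) z)))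
        (fderiv ℝ (mt (ofAtl A) C (Bc.i l) (Z.i k)) z u)
        (fderiv ℝ (mt (ofAtl A) C (Bc.i l) (Z.i k)) z v)).re := by
  rw [Cmp.F_w h.symm Y.f2 hz.2.1]
  exact K11.f2_w Y (Cmp.mt_mem hz.2.1).1 _ _

/-- **bounds in the cells from bounds in the half balls** -/
theorem form_bd [T2Space X] [FiniteDimensional ℝ V] (h : Cmp C (ofAtl A)) (Bc : Cb A)
    (Z : Cells C) : ∃ c : ℝ, 0 ≤ c ∧ ∀ (Y : K11 A) (a : ℝ), 0 ≤ a →
      (∀ l, ∀ z ∈ closedBall (Bc.z l) (Bc.r l / 2), ∀ p q,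
        ‖Y.g (Bc.i l) ((A.e (Bc.i l)).symm z) p q‖ ≤ a) →
      ∀ k, ∀ z ∈ Z.B k, ‖(h.symm.F Y.f2).w (Z.i k) z‖ ≤ c * a := by
  obtain ⟨c, hc0, hc⟩ := exists_cst h Bc Z
  refine ⟨(d : ℝ) ^ 2 * c * c, by positivity, fun Y a ha hY k z hz => ?_⟩
  obtain ⟨l, hl⟩ := exists_Qs Bc Z hz
  refine ContinuousLinearMap.opNorm_le_bound₂ _ (by positivity) fun u v => ?_
  rw [form_w h Y Bc Z hl, Real.norm_eq_abs]
  refine (hb_bd (hY l _ hl.2.2) ha _ _).trans ?_
  have h1 := (fderiv ℝ (mt (ofAtl A) C (Bc.i l) (Z.i k)) z).le_opNorm u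
  have h2 := (fderiv ℝ (mt (ofAtl A) C (Bc.i l) (Z.i k)) z).le_opNorm v
  have h3 := hc k l z hl
  have h4 : ‖fderiv ℝ (mt (ofAtl A) C (Bc.i l) (Z.i k)) z u‖ ≤ c * ‖u‖ :=
    h1.trans (mul_le_mul_of_nonneg_right h3 (norm_nonneg _))
  have h5 : ‖fderiv ℝ (mt (ofAtl A) C (Bc.i l) (Z.i k)) z v‖ ≤ c * ‖v‖ :=
    h2.trans (mul_le_mul_of_nonneg_right h3 (norm_nonneg _))
  calc _ ≤ (d : ℝ) ^ 2 * a * (c * ‖u‖) * (c * ‖v‖) := by gcongr
    _ = _ := by ring

theorem hb_sum {t : ℝ} {Y : ℕ → Matrix (Fin d) (Fin d) ℂ} {G : Matrix (Fin d) (Fin d) ℂ}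
    (hY : ∀ b c, HasSum (fun j => (t : ℂ) ^ j * Y j b c) (G b c)) (u v : Cn d) :
    HasSum (fun j => t ^ j * (I * hb (Y j) u v).re) ((I * hb G u v).re) := by
  have h1 : HasSum (fun j => (t : ℂ) ^ j * hb (Y j) u v) (hb G u v) := by
    have h2 : HasSum (fun j => ∑ b, ∑ c, (t : ℂ) ^ j * Y j b c * u b * conj (v c)) (hb G u v) := by
      unfold hb
      exact hasSum_sum fun b _ => hasSum_sum fun c _ => ((hY b c).mul_right (u b)).mul_right _
    refine h2.congr_fun fun j => ?_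
    unfold hb
    rw [Finset.mul_sum]
    refine Finset.sum_congr rfl fun b _ => ?_
    rw [Finset.mul_sum]
    exact Finset.sum_congr rfl fun c _ => by ring
  have h3 := (Complex.hasSum_re (h1.mul_left I))
  refine h3.congr_fun fun j => ?_
  have : I * ((t : ℂ) ^ j * hb (Y j) u v) = ((t ^ j : ℝ) : ℂ) * (I * hb (Y j) u v) := by
    push_cast
    ring
  rw [this, Complex.re_ofReal_mul]

/-- a power series on the cells -/
structure CSer (Z : Cells C) (W : Type) [NormedAddCommGroup W] [NormedSpace ℝ W]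
    (F : ℝ → C.ι → V → W) (s0 r : ℝ) (c : ℕ → C.ι → V → W) (a : ℕ → ℝ) : Prop where
  r0 : 0 < r
  a0 : ∀ j, 0 ≤ a j
  sum : Summable fun j => a j * r ^ j
  cont : ∀ j k, ContinuousOn (c j (Z.i k)) (Z.B k)
  bd : ∀ j k, ∀ z ∈ Z.B k, ‖c j (Z.i k) z‖ ≤ a j
  hs : ∀ s, |s - s0| < r → ∀ k, ∀ z ∈ Z.B k,
    HasSum (fun j => (s - s0) ^ j • c j (Z.i k) z) (F s (Z.i k) z)

/-- **power series of the forms on the cells** -/
theorem ps_form [T2Space X] [FiniteDimensional ℝ V] (h : Cmp C (ofAtl A)) (Bc : Cb A)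
    (Z : Cells C) {G : ℝ → K11 A} {s0 r : ℝ} {Y : ℕ → K11 A} {a : ℕ → ℝ}
    (S : Ps11 Bc G s0 r Y a) :
    ∃ a' : ℕ → ℝ, CSer Z (V →L[ℝ] V →L[ℝ] ℝ) (fun s => (h.symm.F (G s).f2).w) s0 r
      (fun j => (h.symm.F (Y j).f2).w) a' := by
  obtain ⟨c, hc0, hc⟩ := form_bd h Bc Z
  have hbd : ∀ j k, ∀ z ∈ Z.B k, ‖(h.symm.F (Y j).f2).w (Z.i k) z‖ ≤ c * a j := fun j =>
    hc (Y j) (a j) (S.a0 j) fun l z hz p q => (S.ho j l p q).bdd z hz
  refine ⟨fun j => c * a j, S.r0, fun j => mul_nonneg hc0 (S.a0 j), ?_, fun j k => ?_, hbd,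
    fun s hs k z hz => ?_⟩
  · refine (S.sum.mul_left c).congr fun j => ?_
    ring
  · exact ((h.symm.F (Y j).f2).sm (Z.i k)).continuousOn.mono (Z.sub k)
  · have hsum : Summable fun j => (s - s0) ^ j • (h.symm.F (Y j).f2).w (Z.i k) z := by
      refine Summable.of_norm_bounded ((smb S.a0 S.sum hs.le).mul_left c) fun j => ?_
      rw [norm_smul, norm_pow, Real.norm_eq_abs]
      calc |s - s0| ^ j * _ ≤ |s - s0| ^ j * (c * a j) :=
            mul_le_mul_of_nonneg_left (hbd j k z hz) (by positivity)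
        _ = _ := by ring
    obtain ⟨l, hl⟩ := exists_Qs Bc Z hz
    have h1 := hsum.hasSum
    have h2 : ∑' j, (s - s0) ^ j • (h.symm.F (Y j).f2).w (Z.i k) z =
        (h.symm.F (G s).f2).w (Z.i k) z := by
      ext u v
      have h3 : HasSum (fun j => (s - s0) ^ j * (h.symm.F (Y j).f2).w (Z.i k) z u v)
          ((∑' j, (s - s0) ^ j • (h.symm.F (Y j).f2).w (Z.i k) z) u v) := by
        have h4 := (h1.mapL (ContinuousLinearMap.apply ℝ (V →L[ℝ] ℝ) u)).mapL
          (ContinuousLinearMap.apply ℝ ℝ v)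
        exact h4
      have h5 := hb_sum (t := s - s0) (fun b c => S.hs s hs (Bc.i l)
        ((A.e (Bc.i l)).symm (mt (ofAtl A) C (Bc.i l) (Z.i k) z))
        ((A.e (Bc.i l)).map_target (Bc.sub' l hl.2.2)) b c)
        (fderiv ℝ (mt (ofAtl A) C (Bc.i l) (Z.i k)) z u)
        (fderiv ℝ (mt (ofAtl A) C (Bc.i l) (Z.i k)) z v)
      rw [← form_w h (G s) Bc Z hl] at h5
      refine h3.unique (h5.congr_fun fun j => ?_)
      rw [form_w h (Y j) Bc Z hl]
    rw [← h2]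
    exact h1

/-! ### functions -/

/-- the differential of a function read in the charts of `C` -/
def dfn (C : RCh V X) (φ : X → ℝ) (i : C.ι) (z : V) : V →L[ℝ] ℝ :=
  fderiv ℝ (fun y => φ ((C.e i).symm y)) z

theorem dfn_eq (h : Cmp C (ofAtl A)) {φ : X → ℝ} (hφ : A.Sm φ) (Bc : Cb A) (Z : Cells C)
    {k : Z.σ} {l : Bc.κ} {z : V} (hz : z ∈ Qs Bc Z k l) : dfn C φ (Z.i k) z =
      (fderiv ℝ (inC A (Bc.i l) φ) (mt (ofAtl A) C (Bc.i l) (Z.i k) z)).comp
        (fderiv ℝ (mt (ofAtl A) C (Bc.i l) (Z.i k)) z) := by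
  have hm := hz.2.1
  have h1 : (fun y => φ ((C.e (Z.i k)).symm y)) =ᶠ[𝓝 z]
      fun y => inC A (Bc.i l) φ (mt (ofAtl A) C (Bc.i l) (Z.i k) y) := by
    filter_upwards [(Cmp.isOpen_mov (ofAtl A) C (Bc.i l) (Z.i k)).mem_nhds hm] with y hy
    show φ ((C.e (Z.i k)).symm y) = φ ((A.e (Bc.i l)).symm (A.e (Bc.i l) ((C.e (Z.i k)).symm y)))
    rw [(A.e (Bc.i l)).left_inv hy.2]
  have hy : mt (ofAtl A) C (Bc.i l) (Z.i k) z ∈ (A.e (Bc.i l)).target := (Cmp.mt_mem hm).1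
  have h2 : DifferentiableAt ℝ (inC A (Bc.i l) φ) (mt (ofAtl A) C (Bc.i l) (Z.i k) z) :=
    ((hφ (Bc.i l)).contDiffAt ((A.e (Bc.i l)).open_target.mem_nhds hy)).differentiableAt (by simp)
  have h3 := (HasFDerivAt.comp z h2.hasFDerivAt (h.symm.diff hm).hasFDerivAt).fderiv
  unfold dfn
  rw [h1.fderiv_eq]
  exact h3

/-- smooth functions read in the charts of `C` -/
theorem sm_read (h : Cmp C (ofAtl A)) {φ : X → ℝ} (hφ : A.Sm φ) (i : C.ι) :
    ContDiffOn ℝ ∞ (fun y => φ ((C.e i).symm y)) (C.e i).target := by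
  intro z hz
  obtain ⟨l, hl⟩ := A.cover ((C.e i).symm z)
  have hm : z ∈ mov (ofAtl A) C l i := ⟨hz, hl⟩
  have hU := Cmp.isOpen_mov (ofAtl A) C l i
  have h1 : (fun y => φ ((C.e i).symm y)) =ᶠ[𝓝 z]
      fun y => inC A l φ (mt (ofAtl A) C l i y) := by
    filter_upwards [hU.mem_nhds hm] with y hy
    show φ ((C.e i).symm y) = φ ((A.e l).symm (A.e l ((C.e i).symm y)))
    rw [(A.e l).left_inv hy.2]
  have hy : mt (ofAtl A) C l i z ∈ (A.e l).target := (Cmp.mt_mem hm).1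
  have h2 : ContDiffAt ℝ ∞ (inC A l φ) (mt (ofAtl A) C l i z) :=
    (hφ l).contDiffAt ((A.e l).open_target.mem_nhds hy)
  have h3 : ContDiffAt ℝ ∞ (mt (ofAtl A) C l i) z := (h.s' i l).contDiffAt (hU.mem_nhds hm)
  exact ((h2.comp z h3).congr_of_eventuallyEq h1).contDiffWithinAt

theorem dfn_sm (h : Cmp C (ofAtl A)) {φ : X → ℝ} (hφ : A.Sm φ) (i : C.ι) :
    ContDiffOn ℝ ∞ (dfn C φ i) (C.e i).target :=
  (sm_read h hφ i).fderiv_of_isOpen (C.e i).open_target (by simp)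

theorem dfn_cont (h : Cmp C (ofAtl A)) {φ : X → ℝ} (hφ : A.Sm φ) (Z : Cells C)
    (k : Z.σ) : ContinuousOn (dfn C φ (Z.i k)) (Z.B k) :=
  (dfn_sm h hφ (Z.i k)).continuousOn.mono (Z.sub k)

/-- **power series of the differentials on the cells** -/
theorem ps_dfun [T2Space X] [FiniteDimensional ℝ V] (h : Cmp C (ofAtl A)) (Bc : Cb A)
    (Z : Cells C) {f : ℝ → X → ℝ} {s0 r : ℝ} {φ : ℕ → X → ℝ} {a : ℕ → ℝ}
    (S : PsF Bc f s0 r φ a) (hf : ∀ s, |s - s0| < r → A.Sm (f s)) :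
    ∃ a' : ℕ → ℝ, CSer Z (V →L[ℝ] ℝ) (fun s => dfn C (f s)) s0 r (fun j => dfn C (φ j)) a' := by
  obtain ⟨c, hc0, hc⟩ := exists_cst h Bc Z
  have hbd : ∀ j k, ∀ z ∈ Z.B k, ‖dfn C (φ j) (Z.i k) z‖ ≤ c * a j := by
    intro j k z hz
    obtain ⟨l, hl⟩ := exists_Qs Bc Z hz
    rw [dfn_eq h (S.sm j) Bc Z hl]
    refine (ContinuousLinearMap.opNorm_comp_le _ _).trans ?_
    rw [mul_comm]
    exact mul_le_mul (hc k l z hl) ((S.n2 j l).h1.bdd _ hl.2.2) (norm_nonneg _) hc0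
  refine ⟨fun j => c * a j, S.r0, fun j => mul_nonneg hc0 (S.a0 j), ?_, fun j k => ?_, hbd,
    fun s hs k z hz => ?_⟩
  · refine (S.sum.mul_left c).congr fun j => ?_
    ring
  · exact dfn_cont h (S.sm j) Z k
  · obtain ⟨l, hl⟩ := exists_Qs Bc Z hz
    have h1 := S.fd1 hs (hf s hs) l _ hl.2.2
    have h2 := h1.mapL (ContinuousLinearMap.compL ℝ V (Cn d) ℝ |>.flip
      (fderiv ℝ (mt (ofAtl A) C (Bc.i l) (Z.i k)) z))
    rw [dfn_eq h (hf s hs) Bc Z hl]
    refine h2.congr_fun fun j => ?_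
    rw [dfn_eq h (S.sm j) Bc Z hl]
    rfl

end

end Crest.Agent.R281.Sem_323
end

-- ▼ part R281/Mca3_365
section

/-!
# R281 (S0424), MOVE-COEF, block (S) (helper365): power series on the cells are analytic

* `CSer.analyticAt` : `CSer Z W F s0 r c a` ⟹ `s ↦ toC (Z.B k) (F s (Z.i k))` analytic at `s0`
-/

set_option autoImplicit false
set_option linter.unusedSectionVars false

open Set Filter Topology Complex Metric
open scoped ContDiff

namespace Crest.Agent.R281.Mca_365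

open Crest.Agent.R275.Geo Crest.Agent.R281.HkR_835 Crest.Agent.R281.Hz_286
open Crest.Agent.R281.Sem_323

noncomputable section

variable {V X : Type} [NormedAddCommGroup V] [NormedSpace ℝ V] [TopologicalSpace X]
  {C : RCh V X} {Z : Cells C} {W : Type} [NormedAddCommGroup W] [NormedSpace ℝ W]
  {F : ℝ → C.ι → V → W} {s0 r : ℝ} {c : ℕ → C.ι → V → W} {a : ℕ → ℝ}

/-- the sum of the series is continuous on the cells -/
theorem CSer.contF [CompleteSpace W] (H : CSer Z W F s0 r c a) {s : ℝ} (hs : |s - s0| < r) (k : Z.σ) :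
    ContinuousOn (F s (Z.i k)) (Z.B k) := by
  have h1 : TendstoUniformlyOn (fun (t : Finset ℕ) (z : V) => ∑ j ∈ t, (s - s0) ^ j • c j (Z.i k) z)
      (fun z => ∑' j, (s - s0) ^ j • c j (Z.i k) z) atTop (Z.B k) :=
    tendstoUniformlyOn_tsum (Crest.Agent.R281.HKMov_478.smb H.a0 H.sum hs.le) fun j z hz => by
      rw [norm_smul, norm_pow, Real.norm_eq_abs]
      exact mul_le_mul_of_nonneg_left (H.bd j k z hz) (by positivity)
  have h2 : ContinuousOn (fun z => ∑' j, (s - s0) ^ j • c j (Z.i k) z) (Z.B k) :=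
    h1.continuousOn (Frequently.of_forall fun t =>
      continuousOn_finsetSum t fun j _ => (H.cont j k).const_smul _)
  exact h2.congr fun z hz => (H.hs s hs k z hz).tsum_eq.symm

/-- **(S)** -/
theorem CSer.analyticAt [CompleteSpace W] (k : Z.σ) [CompactSpace (Z.B k)]
    (H : CSer Z W F s0 r c a) : AnalyticAt ℝ (fun s => toC (Z.B k) (F s (Z.i k))) s0 :=
  analyticAt_toC H.r0 H.a0 H.sum (fun j => H.cont j k) (fun _ hs => CSer.contF H hs k)
    (fun j => H.bd j k) fun s hs => H.hs s hs k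

end

end Crest.Agent.R281.Mca_365
end

-- ▼ part R281/Sem3_323
section

/-!
# R281 (S0424), SEMI-P (helper323), part 3: inverses of analytic families of bilinear forms

`K` compact, `V` finite dimensional, `Bl := V →L[ℝ] V →L[ℝ] ℝ`.

* `mulC`, `compC` : composition of continuous families as continuous bilinear maps
* **`exists_solve`** : `W s` analytic at `s₀` in `C(K, Bl)`, injective at `s₀`, `x` analytic: there is an
  analytic `T` with `W s z (T s z v) = x s z v` for `s` near `s₀`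
-/

set_option autoImplicit false
set_option linter.unusedSectionVars false
set_option maxSynthPendingDepth 3

open Set Filter Topology

namespace Crest.Agent.R281.Sem_323

noncomputable section

variable {K : Type*} [TopologicalSpace K] [CompactSpace K]
variable {E F G : Type*} [NormedAddCommGroup E] [NormedSpace ℝ E] [NormedAddCommGroup F]
  [NormedSpace ℝ F] [NormedAddCommGroup G] [NormedSpace ℝ G]

/-- a continuous linear map applied to continuous families -/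
def lC (K : Type*) [TopologicalSpace K] [CompactSpace K] (T : E →L[ℝ] F) : C(K, E) →L[ℝ] C(K, F) :=
  LinearMap.mkContinuous
    { toFun := fun f => ⟨fun z => T (f z), T.continuous.comp f.continuous⟩
      map_add' := fun f g => by ext z; simp
      map_smul' := fun c f => by ext z; simp }
    ‖T‖ fun f => by
      refine (ContinuousMap.norm_le _ (by positivity)).2 fun z => ?_
      refine (T.le_opNorm (f z)).trans ?_
      gcongr
      exact f.norm_coe_le_norm z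

@[simp] theorem lC_apply (T : E →L[ℝ] F) (f : C(K, E)) (z : K) : lC K T f z = T (f z) := rfl

/-- a continuous bilinear map applied to continuous families -/
def bC (K : Type*) [TopologicalSpace K] [CompactSpace K] (T : E →L[ℝ] F →L[ℝ] G) :
    C(K, E) →L[ℝ] C(K, F) →L[ℝ] C(K, G) :=
  LinearMap.mkContinuous₂
    (LinearMap.mk₂ ℝ (fun f g => ⟨fun z => T (f z) (g z),
        (T.continuous.comp f.continuous).clm_apply g.continuous⟩)
      (fun f f' g => by ext z; simp) (fun c f g => by ext z; simp)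
      (fun f g g' => by ext z; simp) (fun c f g => by ext z; simp))
    ‖T‖ fun f g => by
      refine (ContinuousMap.norm_le _ (by positivity)).2 fun z => ?_
      refine (T.le_opNorm₂ (f z) (g z)).trans ?_
      gcongr
      · exact f.norm_coe_le_norm z
      · exact g.norm_coe_le_norm z

@[simp] theorem bC_apply (T : E →L[ℝ] F →L[ℝ] G) (f : C(K, E)) (g : C(K, F)) (z : K) :
    bC K T f g z = T (f z) (g z) := rfl

theorem an_lC {S : Type*} [NormedAddCommGroup S] [NormedSpace ℝ S] (T : E →L[ℝ] F)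
    {f : S → C(K, E)} {s₀ : S} (hf : AnalyticAt ℝ f s₀) : AnalyticAt ℝ (fun s => lC K T (f s)) s₀ :=
  ((lC K T).analyticAt _).comp hf

theorem an_bC {S : Type*} [NormedAddCommGroup S] [NormedSpace ℝ S] (T : E →L[ℝ] F →L[ℝ] G)
    {f : S → C(K, E)} {g : S → C(K, F)} {s₀ : S} (hf : AnalyticAt ℝ f s₀)
    (hg : AnalyticAt ℝ g s₀) : AnalyticAt ℝ (fun s => bC K T (f s) (g s)) s₀ :=
  ((bC K T).analyticAt_bilinear (f s₀, g s₀)).comp₂ hf hg

variable {V : Type*} [NormedAddCommGroup V] [NormedSpace ℝ V] [FiniteDimensional ℝ V]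

/-- an identification of the dual space -/
def dualE (V : Type*) [NormedAddCommGroup V] [NormedSpace ℝ V] [FiniteDimensional ℝ V] :
    (V →L[ℝ] ℝ) ≃L[ℝ] V :=
  ContinuousLinearEquiv.ofFinrankEq (by
    rw [← (LinearMap.toContinuousLinearMap : (V →ₗ[ℝ] ℝ) ≃ₗ[ℝ] (V →L[ℝ] ℝ)).finrank_eq]
    exact Subspace.dual_finrank_eq)

/-- bilinear forms as endomorphisms -/
def dL (V : Type*) [NormedAddCommGroup V] [NormedSpace ℝ V] [FiniteDimensional ℝ V] :
    (V →L[ℝ] V →L[ℝ] ℝ) →L[ℝ] (V →L[ℝ] V) :=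
  ContinuousLinearMap.compL ℝ V (V →L[ℝ] ℝ) V (dualE V : (V →L[ℝ] ℝ) →L[ℝ] V)

@[simp] theorem dL_apply (w : V →L[ℝ] V →L[ℝ] ℝ) (v : V) : dL V w v = dualE V (w v) := rfl

/-- the solution of `W z (T z v) = x z v` -/
def sol (W x : C(K, V →L[ℝ] V →L[ℝ] ℝ)) : C(K, V →L[ℝ] V) :=
  Ring.inverse (lC K (dL V) W) * lC K (dL V) x






end

end Crest.Agent.R281.Sem_323
end

-- ▼ part R281/Mca4_365
section

/-!
# R281 (S0424), MOVE-COEF on 713's `MvOut` (helper365)

* `inv_cont`, `J1_eq`, `J2_eq` : `J 1 = -(om 2)⁻¹ om 0`, `J 2 = (om 1)⁻¹ om 0`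
* **`coef`** : families `thx`, `Jx` of coefficients, analytic in `s` on `[0,1]` into
  `C(Z.B k, ·)` for every cell, equal to `th` of a connection `L0.add b` with (1,1) curvature and to
  `(H s).J 0` for `s ∈ [0,1]`
-/

set_option autoImplicit false
set_option linter.unusedSectionVars false
set_option maxSynthPendingDepth 3

open Set Filter Topology Complex Metric
open scoped ContDiff

namespace Crest.Agent.R281.Mca_365

open Crest.Agent.R275.Geo Crest.Agent.R275.Core144 Crest.Agent.R275.GC293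
open Crest.Agent.R273.Kah_333 Crest.Agent.R273.SchF_152
open Crest.Agent.R260.ACM_580 Crest.Agent.R260.NNB_580
open Crest.Agent.R281.Ti_846 Crest.Agent.R281.Dif_268 Crest.Agent.R281.Cdr_234
open Crest.Agent.R281.NefO_476 (ofHk)
open Crest.Agent.R281.Nef_252 (T11)
open Crest.Agent.R281.HkR_835 Crest.Agent.R281.PL_713 Crest.Agent.R281.Mvs_713
open Crest.Agent.R281.Hz_286 Crest.Agent.R281.Sem_323

noncomputable section

variable {V X : Type} [NormedAddCommGroup V] [NormedSpace ℝ V] [TopologicalSpace X]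
  {C : RCh V X}

/-- inverse of a 2-form -/
def wi (W : Bil V) : (V →L[ℝ] ℝ) →L[ℝ] V := ContinuousLinearMap.inverse W

section inv

variable [FiniteDimensional ℝ V]

theorem exists_equiv {W : Bil V} (h : ∀ v, W v = 0 → v = 0) :
    ∃ e : V ≃L[ℝ] (V →L[ℝ] ℝ), (e : V →L[ℝ] (V →L[ℝ] ℝ)) = W := by
  have hfr : Module.finrank ℝ V = Module.finrank ℝ (V →L[ℝ] ℝ) := by
    rw [← (LinearMap.toContinuousLinearMap : (V →ₗ[ℝ] ℝ) ≃ₗ[ℝ] (V →L[ℝ] ℝ)).finrank_eq]
    exact Subspace.dual_finrank_eq.symm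
  have hinj : Function.Injective (W : V →ₗ[ℝ] (V →L[ℝ] ℝ)) :=
    (injective_iff_map_eq_zero _).2 h
  refine ⟨(LinearEquiv.ofInjectiveOfFinrankEq (W : V →ₗ[ℝ] (V →L[ℝ] ℝ)) hinj
    hfr).toContinuousLinearEquiv, ?_⟩
  ext v w
  rfl

theorem wi_apply {W : Bil V} (h : ∀ v, W v = 0 → v = 0) (v : V) : wi W (W v) = v := by
  obtain ⟨e, rfl⟩ := exists_equiv h
  unfold wi
  rw [ContinuousLinearMap.inverse_equiv]
  exact e.symm_apply_apply v

theorem wi_cont {S : Set V} {W : V → Bil V} (hW : ContinuousOn W S)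
    (h : ∀ z ∈ S, ∀ v, W z v = 0 → v = 0) : ContinuousOn (fun z => wi (W z)) S := by
  have := FiniteDimensional.complete ℝ V
  intro z hz
  obtain ⟨e, he⟩ := exists_equiv (h z hz)
  have h1 : ContinuousAt (ContinuousLinearMap.inverse : Bil V → _) (W z) := by
    rw [← he]
    exact (contDiffAt_map_inverse (n := 1) e).continuousAt
  exact h1.comp_continuousWithinAt (hW z hz)

theorem nd (H : HkT C) (k : Fin 3) {i : C.ι} {z : V} (hz : z ∈ (C.e i).target) (v : V)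
    (h : (H.om k).w i z v = 0) : v = 0 :=
  H.nondeg k hz v fun u => by rw [h]; rfl



/-- scaling -/
theorem scaled {W W' W0 : Bil V} {r : ℝ} (hr : r ≠ 0) (h : ∀ u v, W' u v = (r • W0) u v)
    (h0 : ∀ v, W0 v = 0 → v = 0) {x y : V} (hxy : ∀ u, W' x u = W y u) :
    x = r⁻¹ • wi W0 (W y) := by
  have h1 : W0 x = r⁻¹ • W y := by
    ext u
    have h2 := hxy u
    rw [h x u] at h2
    have h3 : r * W0 x u = W y u := h2
    rw [smul_apply, smul_eq_mul, ← h3, inv_mul_cancel_left₀ hr]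
  rw [← map_smul, ← h1, wi_apply h0]

end inv

/-! ### the coefficients -/

section coef

variable {d : ℕ} {L0 : PL C} {H : ℝ → HkT C}

/-- the moving form -/
def omx (O : MvOut (d := d) C L0 H) (K' : ℝ → Kah O.A) (s : ℝ) : F2 C :=
  (cmp_of_cp O.hA).symm.F (ofKah (K' s)).f2

/-- the complex structures -/
def Jx (O : MvOut (d := d) C L0 H) (K' : ℝ → Kah O.A) (s : ℝ) (i : C.ι) (z : V) : V →L[ℝ] V :=
  O.a 0 s • (O.M 0).J 0 i z +
    (-(O.a 1 s * (O.r s)⁻¹)) • (wi (((O.M 0).om 2).w i z)).comp ((omx O K' s).w i z) +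
    (O.a 2 s * (O.r s)⁻¹) • (wi (((O.M 0).om 1).w i z)).comp ((omx O K' s).w i z)

/-- the connections -/
def thx (O : MvOut (d := d) C L0 H) (f' : ℝ → X → ℝ) (s : ℝ) (i : C.ι) (z : V) : V →L[ℝ] ℝ :=
  (L0.th i z + O.η.η i z) + (Real.pi / 2) • (dfn C (f' s) i z).comp ((O.M 0).J 0 i z)

variable [FiniteDimensional ℝ V]

/-- `Jx` on `[0,1]` -/
theorem Jx_eq (O : MvOut (d := d) C L0 H) {K' : ℝ → Kah O.A} {s : ℝ} (hs : s ∈ Icc (0 : ℝ) 1)
    (hK : K' s = O.K s) {i : C.ι} {z : V} (hz : z ∈ (C.e i).target) :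
    Jx O K' s i z = (H s).J 0 i z := by
  ext v
  have hr : O.r s ≠ 0 := (O.r_pos s hs).ne'
  have e0 : ∀ u w, (omx O K' s).w i z u w = ((O.M s).om 0).w i z u w := fun u w => by
    unfold omx
    rw [hK]
    exact ((O.om0 s hs) i z hz u w).symm
  have e1 : (omx O K' s).w i z = ((O.M s).om 0).w i z := by
    ext u w
    exact e0 u w
  have h2 : (O.M s).J 1 i z v =
      (O.r s)⁻¹ • wi (((O.M 0).om 2).w i z) (-((O.M s).om 0).w i z v) := by
    have h3 := scaled (W := -((O.M s).om 0).w i z) (W' := ((O.M s).om 2).w i z)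
      (W0 := ((O.M 0).om 2).w i z) hr (fun u w => O.om12 s hs 2 (by decide) i z hz u w)
      (fun w hw => nd _ 2 hz w hw) (x := (O.M s).J 1 i z v) (y := v)
      (fun u => ((O.M s).om_J (Or.inr (Or.inl rfl)) hz v u).1)
    exact h3
  have h4 : (O.M s).J 2 i z v =
      (O.r s)⁻¹ • wi (((O.M 0).om 1).w i z) (((O.M s).om 0).w i z v) :=
    scaled (W := ((O.M s).om 0).w i z) (W' := ((O.M s).om 1).w i z)
      (W0 := ((O.M 0).om 1).w i z) hr (fun u w => O.om12 s hs 1 (by decide) i z hz u w)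
      (fun w hw => nd _ 1 hz w hw) (x := (O.M s).J 2 i z v) (y := v)
      (fun u => ((O.M s).om_J (Or.inr (Or.inr rfl)) hz v u).2)
  rw [O.JH s hs i z hz v, Fin.sum_univ_three, O.J0 s hs i z hz v, h2, h4]
  unfold Jx
  rw [e1]
  simp only [add_apply, smul_apply, ContinuousLinearMap.comp_apply, map_neg, smul_neg, neg_smul,
    smul_smul, neg_apply]

omit [FiniteDimensional ℝ V] in
theorem csm {W : Type*} [NormedAddCommGroup W] [NormedSpace ℝ W] (c : ℝ) {f : V → W} {S : Set V}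
    (h : ContinuousOn f S) : ContinuousOn (fun z => c • f z) S :=
  (continuous_const_smul c).comp_continuousOn h

omit [FiniteDimensional ℝ V] in
theorem cad {W : Type*} [NormedAddCommGroup W] {f g : V → W} {S : Set V}
    (hf : ContinuousOn f S) (hg : ContinuousOn g S) : ContinuousOn (fun z => f z + g z) S :=
  hf.add hg

theorem cont_J0 (O : MvOut (d := d) C L0 H) (Z : Cells C) (k : Z.σ) :
    ContinuousOn ((O.M 0).J 0 (Z.i k)) (Z.B k) :=
  ((O.M 0).J_sm 0 (Z.i k)).continuousOn.mono (Z.sub k)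

theorem cont_wi (O : MvOut (d := d) C L0 H) (Z : Cells C) (k : Z.σ) (m : Fin 3) :
    ContinuousOn (fun z => wi (((O.M 0).om m).w (Z.i k) z)) (Z.B k) :=
  wi_cont ((((O.M 0).om m).sm (Z.i k)).continuousOn.mono (Z.sub k))
    fun _ hz v hv => nd _ m (Z.sub k hz) v hv

theorem cont_omx (O : MvOut (d := d) C L0 H) (K' : ℝ → Kah O.A) (s : ℝ) (Z : Cells C) (k : Z.σ) :
    ContinuousOn ((omx O K' s).w (Z.i k)) (Z.B k) :=
  ((omx O K' s).sm (Z.i k)).continuousOn.mono (Z.sub k)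

/-- analyticity of the complex structures -/
theorem Jx_an [T2Space X] (O : MvOut (d := d) C L0 H) {K' : ℝ → Kah O.A} {Bc : Cb O.A} {s0 r : ℝ}
    {Y : ℕ → K11 O.A} {b : ℕ → ℝ}
    (HY : HKMov_478.Ps11 Bc (fun s => ofKah (K' s)) s0 r Y b) (hs0 : s0 ∈ Icc (0 : ℝ) 1)
    (Z : Cells C) (k : Z.σ) : AnalyticAt ℝ (fun s => toC (Z.B k) (Jx O K' s (Z.i k))) s0 := by
  have := FiniteDimensional.complete ℝ V
  obtain ⟨a', hS⟩ := ps_form (cmp_of_cp O.hA) Bc Z HY
  have h1 : AnalyticAt ℝ (fun s => toC (Z.B k) ((omx O K' s).w (Z.i k))) s0 :=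
    CSer.analyticAt k hS
  have ha : ∀ m, AnalyticAt ℝ (O.a m) s0 := fun m => O.a_an m s0 hs0
  have hri : AnalyticAt ℝ (fun s => (O.r s)⁻¹) s0 :=
    (O.r_an s0 hs0).inv (O.r_pos s0 hs0).ne'
  set cmp : ((V →L[ℝ] ℝ) →L[ℝ] V) →L[ℝ] (V →L[ℝ] V →L[ℝ] ℝ) →L[ℝ] (V →L[ℝ] V) :=
    ContinuousLinearMap.compL ℝ V (V →L[ℝ] ℝ) V with hcmp
  have hp : ∀ m : Fin 3, AnalyticAt ℝ (fun s => bC (Z.B k) cmp
      (toC (Z.B k) fun z => wi (((O.M 0).om m).w (Z.i k) z))
      (toC (Z.B k) ((omx O K' s).w (Z.i k)))) s0 := fun m => an_bC cmp analyticAt_const h1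
  have h2 := (((ha 0).smul (analyticAt_const (v := toC (Z.B k) ((O.M 0).J 0 (Z.i k))))).add
    (((ha 1).mul hri).neg.smul (hp 2))).add (((ha 2).mul hri).smul (hp 1))
  refine h2.congr (Eventually.of_forall fun s => ?_)
  ext z : 1
  have hc : ContinuousOn (Jx O K' s (Z.i k)) (Z.B k) := by
    have e1 : ∀ m : Fin 3, ContinuousOn (fun z =>
        (wi (((O.M 0).om m).w (Z.i k) z)).comp ((omx O K' s).w (Z.i k) z)) (Z.B k) := fun m =>
      (cont_wi O Z k m).clm_comp (cont_omx O K' s Z k)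
    exact cad (cad (csm (O.a 0 s) (cont_J0 O Z k)) (csm (-(O.a 1 s * (O.r s)⁻¹)) (e1 2)))
      (csm (O.a 2 s * (O.r s)⁻¹) (e1 1))
  rw [toC_apply hc]
  show O.a 0 s • toC (Z.B k) ((O.M 0).J 0 (Z.i k)) z +
      (-(O.a 1 s * (O.r s)⁻¹)) • cmp (toC (Z.B k) (fun z => wi (((O.M 0).om 2).w (Z.i k) z)) z)
        (toC (Z.B k) ((omx O K' s).w (Z.i k)) z) +
      (O.a 2 s * (O.r s)⁻¹) • cmp (toC (Z.B k) (fun z => wi (((O.M 0).om 1).w (Z.i k) z)) z)
        (toC (Z.B k) ((omx O K' s).w (Z.i k)) z) = _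
  rw [toC_apply (cont_J0 O Z k), toC_apply (cont_wi O Z k 2), toC_apply (cont_wi O Z k 1),
    toC_apply (cont_omx O K' s Z k)]
  rfl

/-- analyticity of the connections -/
theorem thx_an [T2Space X] (O : MvOut (d := d) C L0 H) {f' : ℝ → X → ℝ} {Bc : Cb O.A} {s0 r : ℝ}
    {φ : ℕ → X → ℝ} {b : ℕ → ℝ} (Hf : HKMov_478.PsF Bc f' s0 r φ b)
    (hf : ∀ s, |s - s0| < r → O.A.Sm (f' s)) (hfa : ∀ s, O.A.Sm (f' s))
    (Z : Cells C) (k : Z.σ) : AnalyticAt ℝ (fun s => toC (Z.B k) (thx O f' s (Z.i k))) s0 := by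
  have := FiniteDimensional.complete ℝ V
  obtain ⟨a', hS⟩ := ps_dfun (cmp_of_cp O.hA) Bc Z Hf hf
  have h1 : AnalyticAt ℝ (fun s => toC (Z.B k) (dfn C (f' s) (Z.i k))) s0 :=
    CSer.analyticAt k hS
  set cmp : (V →L[ℝ] ℝ) →L[ℝ] (V →L[ℝ] V) →L[ℝ] (V →L[ℝ] ℝ) :=
    ContinuousLinearMap.compL ℝ V V ℝ with hcmp
  have hp : AnalyticAt ℝ (fun s => bC (Z.B k) cmp (toC (Z.B k) (dfn C (f' s) (Z.i k)))
      (toC (Z.B k) ((O.M 0).J 0 (Z.i k)))) s0 := an_bC cmp h1 analyticAt_const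
  have c0 : ContinuousOn (fun z => L0.th (Z.i k) z + O.η.η (Z.i k) z) (Z.B k) :=
    ((L0.th_sm (Z.i k)).continuousOn.mono (Z.sub k)).add
      ((O.η.sm (Z.i k)).continuousOn.mono (Z.sub k))
  have cf : ∀ s, ContinuousOn (dfn C (f' s) (Z.i k)) (Z.B k) := fun s =>
    dfn_cont (cmp_of_cp O.hA) (hfa s) Z k
  have h2 := (analyticAt_const (v := toC (Z.B k) fun z => L0.th (Z.i k) z + O.η.η (Z.i k) z)).add
    ((analyticAt_const (v := Real.pi / 2)).smul hp)
  refine h2.congr (Eventually.of_forall fun s => ?_)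
  ext z : 1
  have hc : ContinuousOn (thx O f' s (Z.i k)) (Z.B k) :=
    cad c0 (csm (Real.pi / 2) ((cf s).clm_comp (cont_J0 O Z k)))
  rw [toC_apply hc]
  show toC (Z.B k) (fun z => L0.th (Z.i k) z + O.η.η (Z.i k) z) z +
    (Real.pi / 2) • cmp (toC (Z.B k) (dfn C (f' s) (Z.i k)) z)
      (toC (Z.B k) ((O.M 0).J 0 (Z.i k)) z) = _
  rw [toC_apply c0, toC_apply (cf s), toC_apply (cont_J0 O Z k)]
  rfl

end coef

/-- **MOVE-COEF**: the coefficients of the operators along the move are analytic -/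
theorem coef {d : ℕ} {L0 : PL C} {H : ℝ → HkT C} [FiniteDimensional ℝ V] [T2Space X]
    [CompactSpace X] [ConnectedSpace X] (O : MvOut (d := d) C L0 H) :
    ∃ (th : ℝ → C.ι → V → V →L[ℝ] ℝ) (J : ℝ → C.ι → V → V →L[ℝ] V),
      (∀ (Z : Cells C) (k : Z.σ), ∀ s ∈ Icc (0 : ℝ) 1,
        AnalyticAt ℝ (fun s => toC (Z.B k) (th s (Z.i k))) s ∧
        AnalyticAt ℝ (fun s => toC (Z.B k) (J s (Z.i k))) s) ∧
      ∀ s ∈ Icc (0 : ℝ) 1, (∀ i, ∀ z ∈ (C.e i).target, J s i z = (H s).J 0 i z) ∧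
        ∃ b : F1 C, (∀ i, ∀ z ∈ (C.e i).target, (L0.add b).th i z = th s i z) ∧
          T11 (ofHk (H s) 0) (L0.add b).F := by
  have := O.fin
  obtain ⟨Bc⟩ := Cb.nonempty O.A
  obtain ⟨δ, K', u', hδ, hK', hKe⟩ := O.segK.extend O.P Bc
  obtain ⟨f', hf'⟩ := SegF.exists_all O.P K' O.E O.x0
  have hfe : ∀ s ∈ Icc (0 : ℝ) 1, f' s = O.f s := fun s hs =>
    O.segF.eq O.P Bc hf' hs trivial (hKe s hs).1
  have hIoo : ∀ s ∈ Icc (0 : ℝ) 1, s ∈ Ioo (-δ) (1 + δ) := fun s hs =>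
    ⟨by linarith [hs.1], by linarith [hs.2]⟩
  refine ⟨thx O f', Jx O K', fun Z k s hs => ?_, fun s hs => ⟨fun i z hz => ?_, ?_⟩⟩
  · obtain ⟨r, φ, ψ, Y, b, b', -, -, hY, hψ⟩ := SegF.ps O.P Bc hK'
      (hf'.mono (subset_univ (Ioo (-δ) (1 + δ)))) isOpen_Ioo (hIoo s hs)
    exact ⟨thx_an O hψ (fun t _ => hf'.sm t trivial) (fun t => hf'.sm t trivial) Z k,
      Jx_an O hY hs Z k⟩
  · exact Jx_eq O hs (hKe s hs).1 hz
  · obtain ⟨b, hb, hT⟩ := O.conn s hs
    refine ⟨b, fun i z hz => ?_, hT⟩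
    ext v
    show L0.th i z v + b.η i z v = (L0.th i z v + O.η.η i z v) +
      (Real.pi / 2) * dfn C (f' s) i z ((O.M 0).J 0 i z v)
    rw [hb i z hz v, hfe s hs]
    unfold dfn
    ring

end

end Crest.Agent.R281.Mca_365
end

-- ▼ part R281/SmC_986
section

/-!
# R281 (S0424), SEMI-P (helper986): the final composition

* `MvP`     : 713's output `MvOut` for every move
* `ReguP`   : regularity of `L²` limits (409, 676)
* `HasNAn`  : 323's consumer form of H0-OP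
* **`semiP_of`** : `MvP → ReguP → HasNAn → SemiP`
-/

set_option autoImplicit false
set_option linter.unusedSectionVars false
set_option maxSynthPendingDepth 3

open Set Filter Topology Complex MeasureTheory
open scoped ContDiff

namespace Crest.Agent.R281.SmC_986

open Crest.Agent.R275.Geo Crest.Agent.R275.Core144 Crest.Agent.R275.GC293
open Crest.Agent.R273.Defs_333 Crest.Agent.R273.Kah_333
open Crest.Agent.R260.ACM_580 Crest.Agent.R260.NNB_580
open Crest.Agent.R281.HkR_835 Crest.Agent.R281.Ti_846 Crest.Agent.R281.NefO_476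
open Crest.Agent.R281.Nef_252 Crest.Agent.R281.PL_713 Crest.Agent.R281.Dif_268
open Crest.Agent.R281.Alg_998 Crest.Agent.R281.RkD_902 Crest.Agent.R281.Cdr_234
open Crest.Agent.R281.Mvs_713 Crest.Agent.R281.Hz_286 Crest.Agent.R281.Mca_365
open Crest.Agent.R281.Rkd_386

noncomputable section

/-- 713's output for every move -/
def MvP : Prop :=
  ∀ (n : ℕ) (X : Type) [TopologicalSpace X] [CompactSpace X] [T2Space X]
    [SimplyConnectedSpace X] (C : RCh (Cn (2 * n)) X) (Q : F2 C →ₗ[ℝ] F2 C →ₗ[ℝ] ℝ), Ctx n C Q →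
    ∀ (L0 : PL C) (e : F2 C) (G H : ℝ → HkT C),
    Move G → (∀ s ∈ Icc (0 : ℝ) 1, SameTw (G s) (H s)) →
    (∀ s ∈ Icc (0 : ℝ) 1, Given Q (H s) L0 e) → Nonempty (MvOut (d := 2 * n) C L0 H)

/-- regularity of `L²` limits -/
def ReguP : Prop :=
  ∀ (d : ℕ) (V X : Type) [NormedAddCommGroup V] [NormedSpace ℝ V] [FiniteDimensional ℝ V]
    [MeasurableSpace V] [BorelSpace V] (μ : Measure V) [μ.IsAddHaarMeasure]
    [TopologicalSpace X] [CompactSpace X] [T2Space X] (C : RCh V X) (A : Atl d X) [Finite A.ι]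
    (_ : Part A) (J : C.ι → V → V →L[ℝ] V), JC C J A → ∀ (L : PL C), F11 J L →
    ∀ Z : Cells C, Crest.Agent.R281.Rg_676.ReguY μ L (Crest.Agent.R281.Rg_676.toBc Z) J

/-- the semicontinuity along analytic families (323's consumer form) -/
def HasNAn : Prop :=
  ∀ (V X : Type) [NormedAddCommGroup V] [NormedSpace ℝ V] [FiniteDimensional ℝ V]
    [MeasurableSpace V] [BorelSpace V] (μ : Measure V) [μ.IsAddHaarMeasure]
    [TopologicalSpace X] (σ' : Type) [Fintype σ'] (b : Module.Basis σ' ℝ V) (C : RCh V X)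
    (Z : Cells C) (L : PL C) (a : ℝ → F1 C) (J : ℝ → C.ι → V → V →L[ℝ] V)
    (t : ℝ → ∀ k : Z.σ, C(Z.B k, V →L[ℝ] ℝ)) (T : ℝ → ∀ k : Z.σ, C(Z.B k, V →L[ℝ] V)),
    (∀ k, AnalyticOnNhd ℝ (fun s => t s k) (Icc 0 1)) →
    (∀ k, AnalyticOnNhd ℝ (fun s => T s k) (Icc 0 1)) →
    (∀ s ∈ Icc (0 : ℝ) 1, ∀ k (z : Z.B k), T s k z = J s (Z.i k) z) →
    (∀ s ∈ Icc (0 : ℝ) 1, ∀ k (z : Z.B k), t s k z = (L.add (a s)).th (Z.i k) z) →
    (∀ s ∈ Icc (0 : ℝ) 1, Gard μ b Z (L.add (a s)) (J s)) →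
    (∀ s ∈ Icc (0 : ℝ) 1, Rell μ b Z (L.add (a s))) →
    (∀ s ∈ Icc (0 : ℝ) 1, Regu μ b Z (L.add (a s)) (J s)) → ∀ N : ℕ,
    (∀ᶠ s in 𝓝[<] (1 : ℝ), (L.add (a s)).HasN (J s) N) →
    ∀ s ∈ Icc (0 : ℝ) 1, (L.add (a s)).HasN (J s) N

theorem semiP_of (mv : MvP) (rg : ReguP) (ha : HasNAn) : SemiP := by
  intro n X _ _ _ _ C Q hX L0 e G H hG hT hg m N hNN
  obtain ⟨O⟩ := mv n X C Q hX L0 e G H hG hT hg
  obtain ⟨th, J, han, hval⟩ := coef O
  obtain ⟨Z⟩ := Cells.exists_cells C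
  have hd : 2 ≤ 2 * n := by have := hX.n1; omega
  -- the connections
  have h1 : ∀ s : ℝ, ∃ b : F1 C, s ∈ Icc (0 : ℝ) 1 →
      (∀ i, ∀ z ∈ (C.e i).target, (L0.add b).th i z = th s i z) ∧
      T11 (ofHk (H s) 0) (L0.add b).F := by
    intro s
    by_cases hs : s ∈ Icc (0 : ℝ) 1
    · obtain ⟨b, hb⟩ := (hval s hs).2
      exact ⟨b, fun _ => hb⟩
    · exact ⟨0, fun h => absurd h hs⟩
  choose b hb using h1
  have hpow : ∀ s, (L0.pow m).add ((m : ℝ) • b s) = (L0.add (b s)).pow m := fun s =>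
    (pow_add' L0 (b s) m).symm
  have hT11 : ∀ s ∈ Icc (0 : ℝ) 1, T11 (ofHk (H s) 0) ((L0.pow m).add ((m : ℝ) • b s)).F := by
    intro s hs
    rw [hpow]
    exact T11.pow (hb s hs).2 m
  let bs : Module.Basis (Fin (Module.finrank ℝ (Cn (2 * n)))) ℝ (Cn (2 * n)) :=
    Module.finBasis ℝ (Cn (2 * n))
  have hJc : ∀ s, ∀ i, ContinuousOn ((H s).J 0 i) (C.e i).target := fun s i =>
    ((H s).J_sm 0 i).continuousOn
  have key := ha (Cn (2 * n)) X (MeasureTheory.volume : Measure (Cn (2 * n))) _ bs C Z (L0.pow m)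
    (fun s => (m : ℝ) • b s) (fun s => (H s).J 0)
    (fun s k => (m : ℝ) • toC (Z.B k) (th s (Z.i k))) (fun s k => toC (Z.B k) (J s (Z.i k)))
    (fun k s hs => ((han Z k s hs).1.const_smul (c := (m : ℝ)))) (fun k s hs => (han Z k s hs).2)
    (fun s hs k z => ?_) (fun s hs k z => ?_)
    (fun s hs => Crest.Agent.R281.Rg_676.gard _ _ _ _ (hJc s))
    (fun s hs => Crest.Agent.R281.Rg_676.rell _ _ _ _) (fun s hs => ?_) N ?_ 0
    ⟨le_rfl, zero_le_one⟩
  · exact ⟨(m : ℝ) • b 0, hT11 0 ⟨le_rfl, zero_le_one⟩, key⟩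
  · -- `J`
    have e : EqOn (J s (Z.i k)) ((H s).J 0 (Z.i k)) (Z.B k) := fun y hy =>
      (hval s hs).1 (Z.i k) y (Z.sub k hy)
    show toC (Z.B k) (J s (Z.i k)) z = _
    have hc : ContinuousOn ((H s).J 0 (Z.i k)) (Z.B k) := (hJc s (Z.i k)).mono (Z.sub k)
    rw [toC_congr e, toC_apply hc]
  · -- `th`
    have e : EqOn (th s (Z.i k)) ((L0.add (b s)).th (Z.i k)) (Z.B k) := fun y hy =>
      ((hb s hs).1 (Z.i k) y (Z.sub k hy)).symm
    rw [hpow]
    show (m : ℝ) • toC (Z.B k) (th s (Z.i k)) z = (m : ℝ) • (L0.add (b s)).th (Z.i k) z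
    have hc : ContinuousOn ((L0.add (b s)).th (Z.i k)) (Z.B k) :=
      ((L0.add (b s)).th_sm (Z.i k)).continuousOn.mono (Z.sub k)
    rw [toC_congr e, toC_apply hc]
  · -- regularity
    obtain ⟨p⟩ := presP n X C Q hX (H s) L0 e (hg s hs)
    have := p.fin
    have hjc : JC C ((H s).J 0) p.A := JC.of_cp p.cp
    refine Crest.Agent.R281.Rg_676.regu_of _ _ _ (hJc s) (rg (2 * n) _ X _ C p.A p.P _ hjc _ ?_ Z)
    exact hT11 s hs
  · -- near `1`
    have h2 : ∀ᶠ s in 𝓝[<] (1 : ℝ), hN (L0.pow m) (ofHk (H s) 0) N :=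
      hNN.filter_mono (nhdsWithin_mono (1 : ℝ) Iio_subset_Iic_self)
    have h3 : ∀ᶠ s in 𝓝[<] (1 : ℝ), s ∈ Icc (0 : ℝ) 1 := by
      filter_upwards [Ioo_mem_nhdsLT (show (0 : ℝ) < 1 by norm_num)] with s hs
      exact ⟨hs.1.le, hs.2.le⟩
    filter_upwards [h2, h3] with s h4 h5
    exact hN_indep (nnatC (2 * n)) hd h4 (hT11 s h5)

end

end Crest.Agent.R281.SmC_986
end

-- ▼ part R281/Rg4_676
section

/-!
# R281 (S0424), H0-OP (helper676), part 4: `ReguP` of `SmC_986`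
-/

set_option autoImplicit false
set_option linter.unusedSectionVars false
set_option maxSynthPendingDepth 3

namespace Crest.Agent.R281.Rg_676

/-- **the regularity input of `SmC_986`** -/
theorem reguP : SmC_986.ReguP := by
  intro d V X _ _ _ _ _ μ _ _ _ _ C A _ _ J hJ L hF Z u hC hd
  exact Hy_409.weyl_S μ hJ hF (toBc Z) u hC hd

end Crest.Agent.R281.Rg_676
end

-- ▼ part R281/Sem5_323
section

/-!
# R281 (S0424), SEMI-P (helper323), part 5: `HasN` along analytic families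

* `cfC b θ T`  : the coefficient of `(θ, T)` as a continuous family, analytic in `(θ, T)`
* `EL_add`     : the `H¹` space does not depend on the connection
* **`hasN_an`** : analytic coefficients on `[0,1]`, Garding + Rellich + regularity at every `s`:
  `HasN N` near `1` ⟹ `HasN N` on `[0,1]`
-/

set_option autoImplicit false
set_option linter.unusedSectionVars false
set_option maxSynthPendingDepth 3

open Set Filter Topology Complex MeasureTheory Metric
open scoped ContDiff ENNReal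

namespace Crest.Agent.R281.Sem_323

open Crest.Agent.R281.HkR_835 Crest.Agent.R281.Ti_846 Crest.Agent.R281.PL_713
open Crest.Agent.R281.Semi_450 Crest.Agent.R281.OpZ_450 Crest.Agent.R281.Hz_286

noncomputable section

variable {V X : Type} [NormedAddCommGroup V] [NormedSpace ℝ V] [TopologicalSpace X]
  {C : RCh V X} [FiniteDimensional ℝ V] [MeasurableSpace V] [BorelSpace V]
  {σ' : Type} [Fintype σ'] (b : Module.Basis σ' ℝ V)

/-! ### the coefficient -/

/-- the part linear in `θ` -/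
def a1 : (V →L[ℝ] ℝ) →L[ℝ] (FJ σ' →L[ℂ] FO σ') :=
  LinearMap.toContinuousLinearMap
    { toFun := fun θ => cf b θ 0 - cf b 0 0
      map_add' := fun θ θ' => by
        ext w l
        simp [cf_apply]
        ring
      map_smul' := fun c θ => by
        ext w l
        simp [cf_apply]
        ring }

/-- the part linear in `T` -/
def a2 : (V →L[ℝ] V) →L[ℝ] (FJ σ' →L[ℂ] FO σ') :=
  LinearMap.toContinuousLinearMap
    { toFun := fun T => cf b 0 T - cf b 0 0
      map_add' := fun θ θ' => by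
        ext w l
        simp [cf_apply, add_mul, mul_add, Finset.sum_add_distrib]
      map_smul' := fun c θ => by
        ext w l
        simp [cf_apply, Finset.mul_sum]
        exact Finset.sum_congr rfl fun m _ => by ring }

theorem a1_apply (θ : V →L[ℝ] ℝ) (w : FJ σ') (l : σ') :
    a1 b θ w l = I * (θ (b l) : ℝ) * w none := by
  show (cf b θ 0 - cf b 0 0) w l = _
  simp [cf_apply]

theorem a2_apply (T : V →L[ℝ] V) (w : FJ σ') (l : σ') :
    a2 b T w l = I * ∑ m, ((b.repr (T (b l)) m : ℝ) : ℂ) * w (some m) := by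
  show (cf b 0 T - cf b 0 0) w l = _
  simp [cf_apply]

/-- the mixed part -/
def a3 : (V →L[ℝ] ℝ) →L[ℝ] (FJ σ' →L[ℂ] FO σ') :=
  LinearMap.toContinuousLinearMap
    { toFun := fun θ => I • a1 b θ
      map_add' := fun θ θ' => by rw [map_add, smul_add]
      map_smul' := fun c θ => by
        rw [map_smul, RingHom.id_apply, smul_comm] }

theorem a3_apply (θ : V →L[ℝ] ℝ) (w : FJ σ') (l : σ') :
    a3 b θ w l = I * (I * (θ (b l) : ℝ) * w none) := by
  show (I • a1 b θ) w l = _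
  rw [smul_apply, PiLp.smul_apply, a1_apply, smul_eq_mul]

theorem cf_eq (θ : V →L[ℝ] ℝ) (T : V →L[ℝ] V) :
    cf b θ T = cf b 0 0 + a1 b θ + a2 b T + a3 b (θ.comp T) := by
  ext w l
  simp only [add_apply, PiLp.add_apply, a1_apply, a2_apply, a3_apply]
  simp [cf_apply]
  ring

variable {K : Type*} [TopologicalSpace K] [CompactSpace K]

/-- the coefficient of a continuous family -/
def cfC (θ : C(K, V →L[ℝ] ℝ)) (T : C(K, V →L[ℝ] V)) : C(K, FJ σ' →L[ℂ] FO σ') :=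
  ContinuousMap.const K (cf b 0 0) + lC K (a1 b) θ + lC K (a2 b) T +
    lC K (a3 b) (bC K (ContinuousLinearMap.compL ℝ V V ℝ) θ T)

theorem cfC_apply (θ : C(K, V →L[ℝ] ℝ)) (T : C(K, V →L[ℝ] V)) (z : K) :
    cfC b θ T z = cf b (θ z) (T z) := by
  rw [cf_eq]
  rfl

theorem an_cfC {θ : ℝ → C(K, V →L[ℝ] ℝ)} {T : ℝ → C(K, V →L[ℝ] V)} {s₀ : ℝ}
    (hθ : AnalyticAt ℝ θ s₀) (hT : AnalyticAt ℝ T s₀) :
    AnalyticAt ℝ (fun s => cfC b (θ s) (T s)) s₀ :=
  ((analyticAt_const.add (an_lC (a1 b) hθ)).add (an_lC (a2 b) hT)).add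
    (an_lC (a3 b) (an_bC (ContinuousLinearMap.compL ℝ V V ℝ) hθ hT))

/-! ### the spaces do not depend on the connection -/

variable (μ : Measure V) [μ.IsAddHaarMeasure] (Z : Cells C)

theorem range_jet (L : PL C) (a : F1 C) :
    LinearMap.range (jet μ b Z (L.add a)) = LinearMap.range (jet μ b Z L) := by
  ext x
  constructor
  · rintro ⟨u, rfl⟩
    exact ⟨⟨u.u, u.sm, u.tr, u.off⟩, rfl⟩
  · rintro ⟨u, rfl⟩
    exact ⟨⟨u.u, u.sm, u.tr, u.off⟩, rfl⟩

theorem EL_add (L : PL C) (a : F1 C) : EL μ b Z (L.add a) = EL μ b Z L := by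
  show ES (jet μ b Z (L.add a)) = ES (jet μ b Z L)
  unfold ES
  rw [range_jet]

section congr

variable {H F : Type*} [NormedAddCommGroup H] [NormedSpace ℂ H] [NormedAddCommGroup F]
  [NormedSpace ℂ F]

theorem lp_congr {E E' : Submodule ℂ H} (h : E = E') (P : H →L[ℂ] F)
    (hP : LP (P.comp E.subtypeL)) : LP (P.comp E'.subtypeL) := by
  subst h
  exact hP

theorem ker_congr {E E' : Submodule ℂ H} (h : E = E') (P : H →L[ℂ] F) {N : ℕ}
    (hP : Ker (P.comp E.subtypeL) N) : Ker (P.comp E'.subtypeL) N := by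
  subst h
  exact hP

end congr

/-- the operators of an analytic family of coefficients -/
theorem an_PE (L : PL C) {c : ℝ → ∀ k : Z.σ, C(Z.B k, FJ σ' →L[ℂ] FO σ')} {s₀ : ℝ}
    (hc : ∀ k, AnalyticAt ℝ (fun s => c s k) s₀) :
    AnalyticAt ℝ (fun s => PE μ b Z L (c s)) s₀ := by
  have h1 : AnalyticAt ℝ (fun s => Pop μ Z (c s)) s₀ := by
    unfold Pop
    refine Finset.analyticAt_fun_sum _ fun k _ => ?_
    exact (((opk μ Z σ' k).analyticAt _).restrictScalars (𝕜 := ℝ)).comp (hc k)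
  exact analyticAt_comp h1 analyticAt_const

/-- **`HasN` along analytic families** -/
theorem hasN_an [CompactSpace X] (L : PL C) {a : ℝ → F1 C} {J : ℝ → C.ι → V → V →L[ℝ] V}
    {t : ℝ → ∀ k : Z.σ, C(Z.B k, V →L[ℝ] ℝ)} {T : ℝ → ∀ k : Z.σ, C(Z.B k, V →L[ℝ] V)}
    (ht : ∀ k, AnalyticOnNhd ℝ (fun s => t s k) (Icc 0 1))
    (hT : ∀ k, AnalyticOnNhd ℝ (fun s => T s k) (Icc 0 1))
    (htv : ∀ s ∈ Icc (0 : ℝ) 1, ∀ k (z : Z.B k), t s k z = (L.add (a s)).th (Z.i k) z)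
    (hTv : ∀ s ∈ Icc (0 : ℝ) 1, ∀ k (z : Z.B k), T s k z = J s (Z.i k) z)
    (hG : ∀ s ∈ Icc (0 : ℝ) 1, Gard μ b Z (L.add (a s)) (J s))
    (hK : ∀ s ∈ Icc (0 : ℝ) 1, Rell μ b Z (L.add (a s)))
    (hR : ∀ s ∈ Icc (0 : ℝ) 1, Regu μ b Z (L.add (a s)) (J s)) {N : ℕ}
    (h : ∃ᶠ s in 𝓝[≠] (1 : ℝ), s ∈ Icc (0 : ℝ) 1 ∧ (L.add (a s)).HasN (J s) N) :
    ∀ s ∈ Icc (0 : ℝ) 1, (L.add (a s)).HasN (J s) N := by
  set c : ℝ → ∀ k : Z.σ, C(Z.B k, FJ σ' →L[ℂ] FO σ') := fun s k => cfC b (t s k) (T s k) with hc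
  have hcf : ∀ s ∈ Icc (0 : ℝ) 1, IsCf b Z (L.add (a s)) (J s) (c s) := by
    intro s hs k z
    rw [hc]
    show cfC b (t s k) (T s k) z = _
    rw [cfC_apply, htv s hs, hTv s hs]
  have hP : AnalyticOnNhd ℝ (fun s => PE μ b Z L (c s)) (Icc 0 1) := fun s hs =>
    an_PE b μ Z L fun k => an_cfC b (ht k s hs) (hT k s hs)
  have hE : ∀ s, EL μ b Z (L.add (a s)) = EL μ b Z L := fun s => EL_add b μ Z L (a s)
  have hLP : ∀ s ∈ Icc (0 : ℝ) 1, LP (PE μ b Z L (c s)) := fun s hs =>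
    lp_congr (hE s) (Pop μ Z (c s)) (lp_PE μ b Z (hcf s hs) (hG s hs) (hK s hs))
  have hker : ∀ s ∈ Icc (0 : ℝ) 1, Ker (PE μ b Z L (c s)) N ↔ (L.add (a s)).HasN (J s) N := by
    intro s hs
    rw [← ker_PE_iff μ b Z (hcf s hs) (hG s hs) (hR s hs) N]
    exact ⟨ker_congr (hE s).symm (Pop μ Z (c s)), ker_congr (hE s) (Pop μ Z (c s))⟩
  intro s hs
  refine (hker s hs).1 (ker_Icc hP hLP ⟨zero_le_one, le_rfl⟩ ?_ s hs)
  exact h.mono fun s' hs' => (hker s' hs'.1).2 hs'.2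

end

end Crest.Agent.R281.Sem_323
end

-- ▼ part R281/Rg5_676

/-!
# R281 (S0424), H0-OP (helper676), part 5: `HasNAn` of `SmC_986` from 323's `hasN_an`

* `compact_of_cells` : a space with finitely many closed cells is compact
* `hasNAn` : `SmC_986.HasNAn`
* `semiP_of_mv` : `SmC_986.MvP → SemiP`
-/

set_option autoImplicit false
set_option linter.unusedSectionVars false
set_option maxSynthPendingDepth 3

open Set Filter Topology Metric MeasureTheory

namespace Crest.Agent.R281.Rg_676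

open Crest.Agent.R281.HkR_835 Crest.Agent.R281.PL_713

theorem compact_of_cells {V X : Type} [NormedAddCommGroup V] [NormedSpace ℝ V]
    [FiniteDimensional ℝ V] [TopologicalSpace X] {C : RCh V X} (Z : Hz_286.Cells C) :
    CompactSpace X := by
  have hP : ProperSpace V := FiniteDimensional.proper_real V
  have h1 : ∀ k : Z.σ, IsCompact ((C.e (Z.i k)).symm '' closedBall (Z.c k) (Z.r k)) := fun k =>
    (isCompact_closedBall _ _).image_of_continuousOn
      ((C.e (Z.i k)).continuousOn_symm.mono (Z.sub k))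
  have h2 : (⋃ k, (C.e (Z.i k)).symm '' closedBall (Z.c k) (Z.r k)) = univ := by
    refine eq_univ_of_forall fun x => ?_
    obtain ⟨k, hk, hb⟩ := Z.cover x
    exact mem_iUnion.2 ⟨k, C.e (Z.i k) x, ball_subset_closedBall hb, (C.e (Z.i k)).left_inv hk⟩
  exact ⟨h2 ▸ isCompact_iUnion h1⟩

theorem hasNAn : SmC_986.HasNAn := by
  intro V X _ _ _ _ _ μ _ _ σ' _ b C Z L a J t T ht hT hTv htv hG hK hR N h
  have : CompactSpace X := compact_of_cells Z
  refine Sem_323.hasN_an b μ Z L ht hT htv hTv hG hK hR ?_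
  have h1 : ∀ᶠ s in 𝓝[<] (1 : ℝ), s ∈ Icc (0 : ℝ) 1 := by
    filter_upwards [Ico_mem_nhdsLT (zero_lt_one' ℝ)] with s hs
    exact ⟨hs.1, hs.2.le⟩
  have h2 := (h1.and h).frequently
  exact h2.filter_mono (nhdsWithin_mono _ fun s (hs : s < 1) => ne_of_lt hs)

theorem semiP_of_mv (mv : SmC_986.MvP) : RkD_902.SemiP := SmC_986.semiP_of mv reguP hasNAn

end Crest.Agent.R281.Rg_676
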