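import Crest.Agent.R281.Al3_830
import Crest.Agent.R281.Fuj8_207
import Crest.Agent.R281.Ti8_846
import Crest.Agent.R281.HkM5_835
import Crest.Agent.R281.Nef3_252
import Crest.Agent.R260.NN6_900

-- ▼ part R281/SkM1_474
section

/-!
# R281 (S0424), SIG-MEM (helper474), part 1: algebra

* `quad_eq`, `line_eq` : comparison of quadratic forms along a line
* `FL h`     : `Cmp.F` as a linear map
* `sig_back` : transport of `FujSig_358.Sig` along a linear map which is an isomorphism modulo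
               exact forms
-/

set_option autoImplicit false
set_option linter.unusedSectionVars false
set_option maxSynthPendingDepth 3

open Set Filter Topology Function MeasureTheory Complex
open scoped ContDiff Matrix ComplexConjugate ComplexOrder

namespace Crest.Agent.R281.SkM_474

open Crest.Agent.R281.FujP_513 (Symm mixv)
open Crest.Agent.R281.FujSig_358

noncomputable section

/-! ### quadratic forms along a line -/

theorem quad_eq {a b c a' b' c' : ℝ}
    (h : ∀ᶠ t in 𝓝 (0 : ℝ), a + t * b + t ^ 2 * c = a' + t * b' + t ^ 2 * c') :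
    a = a' ∧ b = b' ∧ c = c' := by
  rw [Metric.eventually_nhds_iff] at h
  obtain ⟨ε, hε, h⟩ := h
  have h0 := h (y := 0) (by simpa using hε)
  have h1 := h (y := ε / 2) (by rw [dist_zero_right, Real.norm_eq_abs, abs_of_pos] <;> linarith)
  have h2 := h (y := -(ε / 2)) (by
    rw [dist_zero_right, Real.norm_eq_abs, abs_neg, abs_of_pos] <;> linarith)
  have ha : a = a' := by simpa using h0
  subst ha
  have hb : b = b' := by
    have h3 : ε * (b - b') = 0 := by nlinarith
    rcases mul_eq_zero.1 h3 with h4 | h4 <;> linarith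
  subst hb
  refine ⟨rfl, rfl, ?_⟩
  have h3 : (ε / 2) ^ 2 * (c - c') = 0 := by nlinarith
  have h4 : (ε / 2) ^ 2 ≠ 0 := by positivity
  rcases mul_eq_zero.1 h3 with h5 | h5
  · exact absurd h5 h4
  · linarith

section line

variable {H H' : Type*} [AddCommGroup H] [Module ℝ H] [AddCommGroup H'] [Module ℝ H']

theorem ev_pos_line (q : QuadraticForm ℝ H) {x : H} (y : H) (hx : 0 < q x) :
    ∀ᶠ t : ℝ in 𝓝 0, 0 < q (x + t • y) := by
  have h1 : Continuous fun t : ℝ => q (x + t • y) := by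
    simp only [q_line]
    fun_prop
  have h2 := h1.tendsto 0
  rw [zero_smul, add_zero] at h2
  exact h2.eventually (lt_mem_nhds hx)

theorem line_eq (q : QuadraticForm ℝ H) (q' : QuadraticForm ℝ H') {x y : H} {x' y' : H'} {n : ℕ}
    (hn : 0 < n) (hx : 0 < q x) (hx' : 0 < q' x')
    (h : ∀ t : ℝ, q (x + t • y) ^ n = q' (x' + t • y') ^ n) :
    q x = q' x' ∧ QuadraticMap.polar q x y = QuadraticMap.polar q' x' y' ∧ q y = q' y' := by
  refine quad_eq ?_
  filter_upwards [ev_pos_line q y hx, ev_pos_line q' y' hx'] with t h1 h2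
  have h3 := (pow_left_inj₀ h1.le h2.le hn.ne').1 (h t)
  rwa [q_line, q_line] at h3

end line

/-! ### transport of the signature package -/

section back

variable {H H' : Type*} [AddCommGroup H] [Module ℝ H] [AddCommGroup H'] [Module ℝ H'] {n : ℕ}
  {T : MultilinearMap ℝ (fun _ : Fin (n + n) => H) ℝ} {q : QuadraticForm ℝ H}
  {Ex E11 : Submodule ℝ H} {r s K : H}
  {T' : MultilinearMap ℝ (fun _ : Fin (n + n) => H') ℝ} {q' : QuadraticForm ℝ H'}
  {Ex' E11' : Submodule ℝ H'} {r' s' K' : H'}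

theorem polar_eq (q : QuadraticForm ℝ H) (x y : H) :
    QuadraticMap.polar q x y = q (x + y) - q x - q y := rfl

/-- `q` does not see exact forms -/
theorem sq_congr (h : Sig T q Ex E11 r s K) {x y : H} (he : x - y ∈ Ex) : q x = q y := by
  have h1 : x = y + (x - y) := by abel
  rw [h1, Sig.q_add, h.ex y _ he, h.qex _ he]
  ring

theorem spolar_congr (h : Sig T q Ex E11 r s K) {x y z w : H} (he : x - y ∈ Ex)
    (he' : z - w ∈ Ex) : QuadraticMap.polar q x z = QuadraticMap.polar q y w := by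
  rw [polar_eq, polar_eq, sq_congr h he, sq_congr h he']
  congr 2
  refine sq_congr h ?_
  have : x + z - (y + w) = (x - y) + (z - w) := by abel
  rw [this]
  exact Ex.add_mem he he'


theorem sig_back (F : H →ₗ[ℝ] H') (hT : ∀ v : Fin (n + n) → H, T' (fun k => F (v k)) = T v)
    (hq : ∀ x, q' (F x) = q x) (hEx : ∀ x, F x ∈ Ex' ↔ x ∈ Ex) (hE : ∀ x, F x ∈ E11' ↔ x ∈ E11)
    (hsur : ∀ y', ∃ y, F y - y' ∈ Ex' ⊓ E11') (hr : F r - r' ∈ Ex') (hs : F s - s' ∈ Ex')
    (hK : F K - K' ∈ Ex' ⊓ E11') (h : Sig T' q' Ex' E11' r' s' K') :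
    Sig T q Ex E11 r s K := by
  have hpol : ∀ x y, QuadraticMap.polar q x y = QuadraticMap.polar q' (F x) (F y) := by
    intro x y
    rw [polar_eq, polar_eq, hq, hq, ← map_add, hq]
  have hsym : Symm T := by
    intro σ v
    rw [← hT, ← hT v]
    exact h.symm σ fun k => F (v k)
  have hfuj : ∀ x, T (fun _ => x) = q x ^ n := by
    intro x
    rw [← hT, ← hq]
    exact h.fuj (F x)
  have hKE : F K ∈ E11' := by
    have := E11'.add_mem hK.2 h.K11
    rwa [sub_add_cancel] at this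
  have hK0 : 0 < q K := by
    rw [← hq, sq_congr h hK.1]
    exact h.qK
  refine ⟨h.pos, hsym, hfuj, ?_, ?_, ?_, ?_, ?_, ?_, ?_, ?_, ?_, hK0, ?_⟩
  · intro x e he
    rw [hpol]
    exact h.ex _ _ ((hEx e).2 he)
  · intro e he
    rw [← hq]
    exact h.qex _ ((hEx e).2 he)
  · intro x
    obtain ⟨a, b, y', hy', e', he', hx⟩ := h.dec (F x)
    obtain ⟨y, hy⟩ := hsur y'
    refine ⟨a, b, y, ?_, x - a • r - b • s - y, ?_, by abel⟩
    · rw [← hE]
      have := E11'.add_mem hy.2 hy'
      rwa [sub_add_cancel] at this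
    · rw [← hEx]
      have e1 : F (x - a • r - b • s - y) =
          -(a • (F r - r')) - b • (F s - s') - (F y - y') + e' := by
        simp only [map_sub, map_smul, hx, smul_sub]
        abel
      rw [e1]
      exact Ex'.add_mem (Ex'.sub_mem (Ex'.sub_mem (Ex'.neg_mem (Ex'.smul_mem _ hr))
        (Ex'.smul_mem _ hs)) hy.1) he'
  · rw [← hq, sq_congr h hr]
    exact h.qr
  · rw [← hq, ← hq, sq_congr h hr, sq_congr h hs]
    exact h.qs
  · rw [hpol, spolar_congr h hr hs]
    exact h.rs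
  · intro y hy
    rw [hpol, spolar_congr h hr (z := F y) (w := F y) (by rw [sub_self]; exact Ex'.zero_mem)]
    exact h.r11 _ ((hE y).2 hy)
  · intro y hy
    rw [hpol, spolar_congr h hs (z := F y) (w := F y) (by rw [sub_self]; exact Ex'.zero_mem)]
    exact h.s11 _ ((hE y).2 hy)
  · rw [← hE]
    exact hKE
  · intro y hy h1
    have hn := h.pos
    have hKy : QuadraticMap.polar q' K' (F y) = QuadraticMap.polar q K y := by
      rw [hpol]
      exact (spolar_congr h hK.1 (by rw [sub_self]; exact Ex'.zero_mem)).symm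
    have hKq : q' K' = q K := by rw [← hq, sq_congr h hK.1]
    have e1 : T' (mixv (n + n) 1 K' (F y)) = T (mixv (n + n) 1 K y) := by
      have a1 := first_polar' hn h.symm h.fuj K' (F y)
      have a2 := first_polar' hn hsym hfuj K y
      rw [hKy, hKq] at a1
      linarith
    have e2 : T' (mixv (n + n) 2 K' (F y)) = T (mixv (n + n) 2 K y) := by
      have a1 := second_polar hn h.symm h.fuj K' (F y)
      have a2 := second_polar hn hsym hfuj K y
      rw [hKy, hKq, hq] at a1
      rw [← a2] at a1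
      have h3 : (2 * (2 * (n : ℝ) - 1)) ≠ 0 := by
        have : (1 : ℝ) ≤ n := by exact_mod_cast hn
        have : 0 < 2 * (2 * (n : ℝ) - 1) := by linarith
        exact this.ne'
      exact mul_left_cancel₀ h3 a1
    have h2 := h.hodge (F y) ((hE y).2 hy) (by rw [e1]; exact h1)
    rw [e2] at h2
    exact ⟨h2.1, fun h3 => (hEx y).1 (h2.2 h3)⟩

end back

/-! ### `Cmp.F` as a linear map -/

section FL

open Crest.Agent.R281.HkR_835 Crest.Agent.R281.HkR_835.Cmp

variable {X V V' : Type} [TopologicalSpace X] [NormedAddCommGroup V] [NormedSpace ℝ V]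
  [NormedAddCommGroup V'] [NormedSpace ℝ V'] {C : RCh V X} {C' : RCh V' X}

/-- `Cmp.F` as a linear map -/
def FL (h : Cmp C C') : F2 C →ₗ[ℝ] F2 C' where
  toFun := h.F
  map_add' a b := by
    refine F2.ext ?_
    funext j z
    ext u v
    rfl
  map_smul' c a := by
    refine F2.ext ?_
    funext j z
    ext u v
    rfl

@[simp] theorem FL_apply (h : Cmp C C') (w : F2 C) : FL h w = h.F w := rfl

end FL

end

end Crest.Agent.R281.SkM_474
end

-- ▼ part R281/SkM2_474

/-!
# R281 (S0424), SIG-MEM (helper474), part 2: the signature package at every member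

`C : RCh (Cn d) X`, `T : TopI (lc d) (bn hd) P q` (830), `H : HkT C` with `0 < q (H.om 0)`:

* `uniqT`   : `UniqT H` (every closed holomorphic 2-form of `J 0` is a combination of `om 1`, `om 2`)
* `sig_mem` : `FujSig_358.Sig (IM ..) q (exS C) (E11J (ofHk H 0)) (H.om 1) (H.om 2) (H.om 0)`
* `q_om`, `q_om0`, .. : values of `q` on the triple
* `t11`     : a class orthogonal to `om 1`, `om 2` has a representative of type (1,1)
-/

set_option autoImplicit false
set_option linter.unusedSectionVars false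
set_option maxSynthPendingDepth 3

open Set Filter Topology Function MeasureTheory Complex
open scoped ContDiff Matrix ComplexConjugate ComplexOrder

namespace Crest.Agent.R281.SkM_474

open Crest.Agent.R275.Geo Crest.Agent.R275.Core144 Crest.Agent.R275.EDR890
open Crest.Agent.R275.GC293
open Crest.Agent.R273.Defs_333 Crest.Agent.R273.Kah_333
open Crest.Agent.R260.ACM_580 Crest.Agent.R260.NNB_580
open Crest.Agent.R281.Defs_273
open Crest.Agent.R281.HkP1_508 Crest.Agent.R281.HkP2_508 Crest.Agent.R281.HkP3_508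
open Crest.Agent.R281.FujP_513 (Symm mixv)
open Crest.Agent.R281.FujSig_358
open Crest.Agent.R281.HkR_835 hiding pb pb_apply
open Crest.Agent.R281.HkR_835.Cmp
open Crest.Agent.R281.Ti_846 hiding pb pb_apply
open Crest.Agent.R281.Dif_268
open Crest.Agent.R281.NefO_476
open Crest.Agent.R281.Nef_252 (T11 T11_hk Pos_hk eqv_ex_sub jA)
open Crest.Agent.R281.Al_830
open Crest.Agent.R281.Fuj7_207 (bn Tn)
open Crest.Agent.R281.Fuj5_207 (E11 reS imS)
open Crest.Agent.R281.Fuj1_207 (qf)

noncomputable section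

/-! ### types -/

section types

variable {V X : Type} [TopologicalSpace X] [NormedAddCommGroup V] [NormedSpace ℝ V]
  [FiniteDimensional ℝ V] [MeasurableSpace V] [BorelSpace V] {C : RCh V X}

/-- closed real (1,1)-forms of `J` -/
def E11J (J : AJ C) : Submodule ℝ (F2 C) where
  carrier := {w | T11 J w}
  zero_mem' := fun _ _ _ _ _ => by simp
  add_mem' h h' := h.add h'
  smul_mem' a _ h := h.smul a


variable {d : ℕ} {A : Atl d X}

theorem isI_of {H : HkT C} (hA : Cp (H.acm 0) A) : IsI (ofHk H 0) A := fun i j _ hz v =>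
  ((hA j).lin' (i := i) hz v).symm

theorem mem_exS_of_eqv {w w' : F2 C} (h : Eqv w w') : w - w' ∈ exS C := by
  refine eqv_ex_sub h

/-- exactness along `Cmp` -/
theorem F_mem_exS (h : Cmp C (ofAtl A)) (x : F2 C) : h.F x ∈ exS (ofAtl A) ↔ x ∈ exS C := by
  refine ⟨fun hx => ?_, fun hx => ex_F h hx⟩
  have h1 : h.symm.F (h.F x) ∈ exS C := ex_F h.symm hx
  have h2 := mem_exS_of_eqv (F_F h x)
  have h3 := (exS C).sub_mem h1 h2
  rwa [sub_sub_cancel] at h3

/-- types along `Cmp` -/
theorem F_mem_E11 {H : HkT C} (hA : Cp (H.acm 0) A) (x : F2 C) :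
    (cmp_of_cp hA).F x ∈ E11 A ↔ x ∈ E11J (ofHk H 0) := by
  constructor
  · intro hx i z hz u v
    obtain ⟨j, hj⟩ := exists_mov (C' := C) (ofAtl A) (j := i) hz
    obtain ⟨h1, h2⟩ := mov_swap (C := C) (C' := ofAtl A) hj
    have h3 : ∀ u v, x.w i z u v = ((cmp_of_cp hA).F x).w j (mt (ofAtl A) C j i z)
        (fderiv ℝ (mt (ofAtl A) C j i) z u) (fderiv ℝ (mt (ofAtl A) C j i) z v) := by
      intro u v
      have h4 := F_F (cmp_of_cp hA) x i z hz u v
      rw [← h4, (cmp_of_cp hA).symm.F_w _ hj]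
    rw [h3, h3]
    have h5 : ∀ v, fderiv ℝ (mt (ofAtl A) C j i) z ((ofHk H 0).J i z v) =
        I • fderiv ℝ (mt (ofAtl A) C j i) z v := fun v => (isI_of hA).back (cmp_of_cp hA) hj v
    rw [h5, h5]
    exact hx j _ (mt_mem hj).1 _ _
  · intro hx j z hz u v
    exact (isI_of hA).t11 (cmp_of_cp hA) hx j z hz u v

end types

/-! ### members -/

variable {d : ℕ} {X : Type} [TopologicalSpace X] [T2Space X] [CompactSpace X] [ConnectedSpace X]

theorem closed_all {A : Atl d X} [Finite A.ι] (PA : Part A) {V : Type} [NormedAddCommGroup V]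
    [NormedSpace ℝ V] {C : RCh V X} {H : HkT C} (hA : Cp (H.acm 0) A) (τ : H2 A) : ClH τ :=
  fun i _ hz a b c => closed_of_par (par_h2 PA (ric0 (H.onA hA) (onA_J H hA)) τ) i hz a b c

section uniq

variable {V : Type} [NormedAddCommGroup V] [NormedSpace ℝ V] [FiniteDimensional ℝ V]
  [MeasurableSpace V] [BorelSpace V] {μ : Measure V} [μ.IsAddHaarMeasure] {C : RCh V X} {n : ℕ}
  {b : Module.Basis (Fin (n + n) × Fin 2) ℝ V} {P : RPart C} {q : QuadraticForm ℝ (F2 C)}

theorem nnatV (b : Module.Basis (Fin (n + n) × Fin 2) ℝ V) : NNat V (n + n) :=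
  Crest.Agent.R260.NN6_900.nnat (n + n) V (by
    rw [Module.finrank_eq_card_basis b]; simp [mul_comm])

/-- **uniqueness of the symplectic form at every member** -/
theorem uniqT (T : TopI μ b P q) (H : HkT C) (hq : 0 < q (H.om 0)) : UniqT H := by
  obtain ⟨A, hfin, hgood, ⟨PA⟩, h, hJ, hA⟩ := exists_rot (nnatV b) H
  refine uniqT_of hA ?_
  exact T.uniq_mem (isI_of hA) (cmp_of_cp hA) (H.J_sq 0) (T11_hk H 0) (Pos_hk H 0) hq (H.sig hA)
    fun τ => closed_all PA hA τ

end uniq

variable {C : RCh (Cn d) X} {n : ℕ} {hd : d = n + n} {P : RPart C} {q : QuadraticForm ℝ (F2 C)}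

/-- **the signature package at a member, with its atlas** -/
theorem sig_atl (T : TopI (lc d) (bn hd) P q) {H : HkT C} (hq : 0 < q (H.om 0)) {A : Atl d X}
    [Finite A.ι] (PA : Part A) (hA : Cp (H.acm 0) A) (hn2 : 2 ≤ n + n) :
    ∃ hcl : ClH (H.sig hA).toH2,
      Sig (Tn hd PA) (qf (Tn hd PA) hn2 n (reS (H.sig hA).toH2 hcl)) (exS (ofAtl A)) (E11 A)
        (reS (H.sig hA).toH2 hcl) (imS (H.sig hA).toH2 hcl) (ofKah (H.kah hA)).f2 ∧
      (∀ v : Fin (n + n) → F2 C, Tn hd PA (fun k => FL (cmp_of_cp hA) (v k)) =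
        IM (lc d) (bn hd) P v) ∧
      (∀ x, qf (Tn hd PA) hn2 n (reS (H.sig hA).toH2 hcl) (FL (cmp_of_cp hA) x) = q x) ∧
      FL (cmp_of_cp hA) (H.om 1) - reS (H.sig hA).toH2 hcl ∈ exS (ofAtl A) ∧
      FL (cmp_of_cp hA) (H.om 2) - imS (H.sig hA).toH2 hcl ∈ exS (ofAtl A) ∧
      FL (cmp_of_cp hA) (H.om 0) - (ofKah (H.kah hA)).f2 ∈ exS (ofAtl A) ⊓ E11 A := by
  have hn := T.npos
  have hU : (H.sig hA).Uniq := uniq_of_T PA hA (uniqT T H hq)
  set hc := cmp_of_cp hA with hhc
  have hcl : ClH (H.sig hA).toH2 := closed_all PA hA _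
  have S' := Crest.Agent.R281.Fuj8_207.sig hd PA hn (H.kah hA) (H.sig hA) hU hcl hn2
  have e0 : Eqv (hc.F (H.om 0)) (ofKah (H.kah hA)).f2 := fun i z hz u v => by
    have h1 := K0_om0 (H.onA hA) (onA_J H hA) hz
    exact (congrArg (fun B : Bil (Cn d) => B u v) h1).symm
  have e1 : Eqv (hc.F (H.om 1)) (reS (H.sig hA).toH2 hcl) := fun i z hz u v => by
    have h1 := S0_om1 (H.onA hA) (onA_J H hA) hz
    exact (congrArg (fun B : Bil (Cn d) => B u v) h1).symm
  have e2 : Eqv (hc.F (H.om 2)) (imS (H.sig hA).toH2 hcl) := fun i z hz u v => by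
    have h1 := S0_om2 (H.onA hA) (onA_J H hA) hz
    exact (congrArg (fun B : Bil (Cn d) => B u v) h1).symm
  -- orientations
  have hpC : ∀ i, ∀ z ∈ (C.e i).target, 0 < TP (bn hd) (fun _ => (H.om 0).w i z) :=
    sign_pos (lc d) (bn hd) P T.ori T.nn (TP_om_ne (bn hd) (isI_of hA) hc (T11_hk H 0)
      (Pos_hk H 0)) (by rw [T.fuj]; exact pow_pos hq n)
  have hpA : ∀ j, ∀ z ∈ (A.e j).target, 0 < TP (bn hd) (fun _ => (hc.F (H.om 0)).w j z) := by
    intro j z hz
    have h1 : (hc.F (H.om 0)).w j z = (ofKah (H.kah hA)).f2.w j z := by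
      ext u v
      exact e0 j z hz u v
    rw [h1]
    exact TP_bcr_kah_pos (finCongr hd) (H.kah hA) hz
  have hor : OriM C (ofAtl A) := oriM_of_pos hc (bn hd) (fun _ => H.om 0) hpC hpA
  have hT : ∀ v : Fin (n + n) → F2 C, Tn hd PA (fun k => FL hc (v k)) =
      IM (lc d) (bn hd) P v := fun v =>
    II_cmp (lc d) (bn hd) hc hor P (RPart.ofPart PA) v
  have hK : FL hc (H.om 0) - (ofKah (H.kah hA)).f2 ∈ exS (ofAtl A) := mem_exS_of_eqv e0
  have hq0 : 0 < qf (Tn hd PA) hn2 n (reS (H.sig hA).toH2 hcl) (FL hc (H.om 0)) := by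
    rw [sq_congr S' hK]
    exact S'.qK
  refine ⟨hcl, S', hT, fun x => ?_, mem_exS_of_eqv e1, mem_exS_of_eqv e2, hK, ?_⟩
  · refine ((line_eq (x := H.om 0) (y := x) (x' := FL hc (H.om 0)) (y' := FL hc x) q _ hn hq hq0
      fun t => ?_).2.2).symm
    rw [← T.fuj, ← map_smul, ← map_add, ← S'.fuj]
    exact (hT fun _ => H.om 0 + t • x).symm
  · refine (E11 A).sub_mem ((F_mem_E11 hA _).2 (T11_hk H 0)) ?_
    exact Crest.Agent.R281.Fuj5_207.f2_mem _

/-- **the signature package at every member** -/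
theorem sig_mem (T : TopI (lc d) (bn hd) P q) (H : HkT C) (hq : 0 < q (H.om 0)) :
    Sig (IM (lc d) (bn hd) P) q (exS C) (E11J (ofHk H 0)) (H.om 1) (H.om 2) (H.om 0) := by
  have hn := T.npos
  have hNN : NNat (Cn d) d := by
    have := nnatV (bn hd)
    rwa [← hd] at this
  obtain ⟨A, hfin, hgood, ⟨PA⟩, h, hJ, hA⟩ := exists_rot hNN H
  obtain ⟨hcl, S', hT, hq', h1, h2, h3⟩ := sig_atl T hq PA hA (by omega)
  refine sig_back (FL (cmp_of_cp hA)) hT hq' (F_mem_exS (cmp_of_cp hA)) (F_mem_E11 hA) (fun y' => ?_) h1 h2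
    h3 S'
  refine ⟨(cmp_of_cp hA).symm.F y', ?_⟩
  have e : Eqv ((cmp_of_cp hA).F ((cmp_of_cp hA).symm.F y')) y' := F_F (cmp_of_cp hA).symm y'
  refine ⟨mem_exS_of_eqv e, fun i z hz u v => ?_⟩
  have e1 : ∀ u v : Cn d, (FL (cmp_of_cp hA) ((cmp_of_cp hA).symm.F y') - y').w i z u v = 0 := by
    intro u v
    have e2 := e i z hz u v
    show ((cmp_of_cp hA).F ((cmp_of_cp hA).symm.F y')).w i z u v - y'.w i z u v = 0
    rw [e2, sub_self]
  rw [e1, e1]

/-- classes orthogonal to the symplectic form have a representative of type (1,1) -/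
theorem t11 (T : TopI (lc d) (bn hd) P q) (H : HkT C) (hq : 0 < q (H.om 0)) {x : F2 C}
    (h1 : QuadraticMap.polar q x (H.om 1) = 0) (h2 : QuadraticMap.polar q x (H.om 2) = 0) :
    ∃ y, Ex (y - x) ∧ T11 (ofHk H 0) y := by
  obtain ⟨y, hy, e, he, rfl⟩ := (sig_mem T H hq).type11.1 ⟨h1, h2⟩
  refine ⟨y, ?_, hy⟩
  have : y - (y + e) = -e := by abel
  rw [this]
  exact (exS C).neg_mem he

end

end Crest.Agent.R281.SkM_474
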