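import Crest.Agent.R281.Mc6_673

-- ▼ part R281/Mc7_673
section

/-!
# R281 / LAGT (helper673), part 7

A closed 2-form close to a constant form along the zero section: the non-linear part of the
restriction to graphs is Lipschitz from `C^{1,α}` to `C^α` with a small constant.
-/

set_option autoImplicit false
set_option maxSynthPendingDepth 3

open MeasureTheory Set Metric Filter
open scoped ContDiff Topology

namespace Crest.Agent.R281.Mc673

open Crest.Agent.R238.Sch (ee norm_ee sum_ee)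
open Crest.Agent.R273.SchA_152 (HO)

noncomputable section

variable {N : ℕ}

/-- horizontal and vertical basis vectors -/
def eh (j : Fin N) : W N := (ee j, 0)
/-- vertical basis vector -/
def ev' (j : Fin N) : W N := (0, ee j)

theorem norm_eh (j : Fin N) : ‖(eh j : W N)‖ = 1 := by
  show max ‖(ee j : V N)‖ ‖(0 : V N)‖ = 1
  rw [norm_ee, norm_zero]; norm_num

theorem norm_ev' (j : Fin N) : ‖(ev' j : W N)‖ = 1 := by
  show max ‖(0 : V N)‖ ‖(ee j : V N)‖ = 1
  rw [norm_ee, norm_zero]; norm_num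

theorem norm_vert (u : V N) : ‖((0, u) : W N)‖ = ‖u‖ := by
  show max ‖(0 : V N)‖ ‖u‖ = ‖u‖
  rw [norm_zero]; exact max_eq_right (norm_nonneg _)

/-- `w` is close to the constant form `w0` near the zero section; the vertical-vertical part is
only bounded. -/
structure Near (r K δ : ℝ) (w : Fo N) (w0 : W N →L[ℝ] W N →L[ℝ] ℝ) : Prop where
  cf : ClF r w
  alt0 : ∀ u v, w0 u v = - w0 v u
  d1 : ∀ p ∈ tube N r, ‖fderiv ℝ w p‖ ≤ K
  d2 : ∀ p ∈ tube N r, ∀ q ∈ tube N r, ‖fderiv ℝ w p - fderiv ℝ w q‖ ≤ K * ‖p - q‖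
  hh : ∀ θ j k, |w (θ, 0) (eh j) (eh k) - w0 (eh j) (eh k)| ≤ δ
  hv : ∀ θ j l, |w (θ, 0) (eh j) (ev' l) - w0 (eh j) (ev' l)| ≤ δ
  vv : ∀ θ l m, |w (θ, 0) (ev' l) (ev' m) - w0 (ev' l) (ev' m)| ≤ K
  dhh : ∀ θ i j k, |fderiv ℝ w (θ, 0) (eh i) (eh j) (eh k)| ≤ δ
  dhv : ∀ θ i j l, |fderiv ℝ w (θ, 0) (eh i) (eh j) (ev' l)| ≤ δ

theorem Near.mono {r K δ δ' : ℝ} {w : Fo N} {w0 : W N →L[ℝ] W N →L[ℝ] ℝ} (h : Near r K δ w w0)
    (hδ : δ ≤ δ') : Near r K δ' w w0 where
  cf := h.cf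
  alt0 := h.alt0
  d1 := h.d1
  d2 := h.d2
  hh θ j k := (h.hh θ j k).trans hδ
  hv θ j k := (h.hv θ j k).trans hδ
  vv := h.vv
  dhh θ i j k := (h.dhh θ i j k).trans hδ
  dhv θ i j k := (h.dhv θ i j k).trans hδ

theorem tri_le {X : Type*} [NormedAddCommGroup X] [NormedSpace ℝ X]
    (T : X →L[ℝ] X →L[ℝ] X →L[ℝ] ℝ) (u v z : X) : |T u v z| ≤ ‖T‖ * ‖u‖ * ‖v‖ * ‖z‖ := by
  calc |T u v z| ≤ ‖T u v‖ * ‖z‖ := (T u v).le_opNorm z
    _ ≤ (‖T u‖ * ‖v‖) * ‖z‖ := mul_le_mul_of_nonneg_right ((T u).le_opNorm v) (norm_nonneg _)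
    _ ≤ (‖T‖ * ‖u‖ * ‖v‖) * ‖z‖ := by
        refine mul_le_mul_of_nonneg_right (mul_le_mul_of_nonneg_right (T.le_opNorm u)
          (norm_nonneg _)) (norm_nonneg _)

theorem bil_le {X : Type*} [NormedAddCommGroup X] [NormedSpace ℝ X]
    (T : X →L[ℝ] X →L[ℝ] ℝ) (u v : X) : |T u v| ≤ ‖T‖ * ‖u‖ * ‖v‖ := T.le_opNorm₂ u v

/-- the derivative of an alternating form is alternating -/
theorem ClF.altd {r : ℝ} {w : Fo N} (hw : ClF r w) {p : W N} (hp : p ∈ tube N r) (z u v : W N) :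
    fderiv ℝ w p z u v = - fderiv ℝ w p z v u := by
  have h2 := (hw.da hp).hasFDerivAt
  have h3 : HasFDerivAt (fun p => w p u v) _ p :=
    (h2.clm_apply (hasFDerivAt_const u _)).clm_apply (hasFDerivAt_const v _)
  have h4 : HasFDerivAt (fun p => - w p v u) _ p :=
    ((h2.clm_apply (hasFDerivAt_const v _)).clm_apply (hasFDerivAt_const u _)).neg
  have h5 : (fun p => w p u v) =ᶠ[𝓝 p] fun p => - w p v u := by
    filter_upwards [(isOpen_tube (N := N) r).mem_nhds hp] with q hq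
    exact hw.alt q hq u v
  have h6 := h3.unique (h4.congr_of_eventuallyEq h5)
  have h7 := congrArg (fun L => L z) h6
  simpa using h7

theorem ClF.fderiv_entry {r : ℝ} {w : Fo N} (hw : ClF r w) {p : W N} (hp : p ∈ tube N r)
    (U U' z : W N) : fderiv ℝ (fun p => w p U U') p z = fderiv ℝ w p z U U' := by
  have h2 := (hw.da hp).hasFDerivAt
  have h3 := ((h2.clm_apply (hasFDerivAt_const U _)).clm_apply (hasFDerivAt_const U' _)).fderiv
  have h4 : fderiv ℝ (fun p => w p U U') p = _ := h3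
  rw [h4]; simp

theorem convex_tube (r : ℝ) : Convex ℝ (tube N r) := by
  intro p hp q hq s t hs ht hst
  have hp' : ‖p.2‖ < r := hp
  have hq' : ‖q.2‖ < r := hq
  have h := convex_ball (0 : V N) r (show p.2 ∈ ball (0 : V N) r by simpa using hp')
    (show q.2 ∈ ball (0 : V N) r by simpa using hq') hs ht hst
  show ‖s • p.2 + t • q.2‖ < r
  simpa using h

section

variable {r K δ : ℝ} {w : Fo N} {w0 : W N →L[ℝ] W N →L[ℝ] ℝ}

theorem Near.lip (h : Near r K δ w w0) {p q : W N} (hp : p ∈ tube N r) (hq : q ∈ tube N r) :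
    ‖w p - w q‖ ≤ K * ‖p - q‖ :=
  (convex_tube r).norm_image_sub_le_of_norm_fderiv_le (𝕜 := ℝ) (fun z hz => h.cf.da hz)
    (fun z hz => h.d1 z hz) hq hp

theorem mem_tube_zero (hr : 0 < r) (θ : V N) : ((θ, 0) : W N) ∈ tube N r := by
  show ‖(0 : V N)‖ < r
  rwa [norm_zero]

theorem norm_fib (θ v : V N) : ‖((θ, v) : W N) - (θ, 0)‖ = ‖v‖ := by
  have : ((θ, v) : W N) - (θ, 0) = (0, v) := by ext1 <;> simp
  rw [this, norm_vert]

/-- entries away from the zero section -/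
theorem Near.entry (h : Near r K δ w w0) {ρ s : ℝ} (hρr : ρ ≤ r) (hr : 0 < r)
    (hK : 0 ≤ K) {U U' : W N} (hU : ‖U‖ = 1) (hU' : ‖U'‖ = 1) {θ v : V N} (hv : ‖v‖ < ρ)
    (hs : |w (θ, 0) U U' - w0 U U'| ≤ s) : |w (θ, v) U U' - w0 U U'| ≤ s + K * ρ := by
  have h1 := h.lip (p := (θ, v)) (q := (θ, 0)) (hv.trans_le hρr) (mem_tube_zero hr θ)
  rw [norm_fib] at h1
  have h2 := bil_le (w (θ, v) - w (θ, 0)) U U'
  rw [hU, hU', mul_one, mul_one] at h2
  have e : w (θ, v) U U' - w0 U U' =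
      (w (θ, v) - w (θ, 0)) U U' + (w (θ, 0) U U' - w0 U U') := by
    simp only [ContinuousLinearMap.sub_apply]; ring
  rw [e]
  refine (abs_add_le _ _).trans ?_
  have h3 : K * ‖v‖ ≤ K * ρ := mul_le_mul_of_nonneg_left hv.le hK
  linarith

/-- smallness of the vertical derivative of the horizontal part -/
theorem Near.dv (h : Near r K δ w w0) {ρ : ℝ} (hρr : ρ ≤ r) (hr : 0 < r) (hK : 0 ≤ K)
    (hδ : 0 ≤ δ) (j k : Fin N) {θ v : V N} (hv : ‖v‖ < ρ) (u : V N) :
    |fderiv ℝ w (θ, v) (0, u) (eh j) (eh k)| ≤ (2 * N * δ + K * ρ) * ‖u‖ := by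
  have h0 := mem_tube_zero hr θ
  have hb : ∀ l, |fderiv ℝ w (θ, 0) (ev' l) (eh j) (eh k)| ≤ 2 * δ := by
    intro l
    have h1 := h.cf.cl (θ, 0) h0 (ev' l) (eh j) (eh k)
    have h2 := h.cf.altd h0 (eh k) (ev' l) (eh j)
    have h3 := h.dhv θ j k l
    have h4 := h.dhv θ k j l
    rw [abs_le] at h3 h4 ⊢
    constructor <;> linarith [h3.1, h3.2, h4.1, h4.2]
  have hb2 : |fderiv ℝ w (θ, 0) (0, u) (eh j) (eh k)| ≤ 2 * N * δ * ‖u‖ := by
    have e : ((0, u) : W N) = ∑ l, u l • ev' l := by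
      have h1 : ((0, u) : W N) = (ContinuousLinearMap.inr ℝ (V N) (V N)) u := rfl
      rw [h1]
      conv_lhs => rw [sum_ee u]
      rw [map_sum]
      refine Finset.sum_congr rfl fun l _ => ?_
      rw [map_smul]; rfl
    rw [e, map_sum]
    simp only [ContinuousLinearMap.sum_apply, map_smul, ContinuousLinearMap.smul_apply,
      smul_eq_mul]
    refine (Finset.abs_sum_le_sum_abs _ _).trans ?_
    calc ∑ l, |u l * fderiv ℝ w (θ, 0) (ev' l) (eh j) (eh k)| ≤ ∑ _l : Fin N, ‖u‖ * (2 * δ) := by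
          refine Finset.sum_le_sum fun l _ => ?_
          rw [abs_mul]
          exact mul_le_mul (abs_co_le u l) (hb l) (abs_nonneg _) (norm_nonneg _)
      _ = 2 * N * δ * ‖u‖ := by simp; ring
  have h1 := h.d2 (θ, v) (hv.trans_le hρr) (θ, 0) h0
  rw [norm_fib] at h1
  have h2 := tri_le (fderiv ℝ w (θ, v) - fderiv ℝ w (θ, 0)) (0, u) (eh j) (eh k)
  rw [norm_eh, norm_eh, mul_one, mul_one, norm_vert] at h2
  have e : fderiv ℝ w (θ, v) (0, u) (eh j) (eh k) =
      (fderiv ℝ w (θ, v) - fderiv ℝ w (θ, 0)) (0, u) (eh j) (eh k) +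
        fderiv ℝ w (θ, 0) (0, u) (eh j) (eh k) := by
    simp only [ContinuousLinearMap.sub_apply]; ring
  rw [e]
  refine (abs_add_le _ _).trans ?_
  have h3 : ‖fderiv ℝ w (θ, v) - fderiv ℝ w (θ, 0)‖ * ‖u‖ ≤ (K * ρ) * ‖u‖ :=
    mul_le_mul_of_nonneg_right (h1.trans (mul_le_mul_of_nonneg_left hv.le hK)) (norm_nonneg _)
  linarith

/-- entry of `w - w0` along the graph -/
def zf (w : Fo N) (w0 : W N →L[ℝ] W N →L[ℝ] ℝ) (U U' : W N) (a : V N → V N) (θ : V N) : ℝ :=
  w (θ, a θ) U U' - w0 U U'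

/-- pair estimate of an entry -/
theorem pe_zf {α ρ s s' Δ : ℝ} (hα : 0 < α) (hα1 : α < 1) (h : Near r K δ w w0) (hρr : ρ ≤ r)
    (hK : 0 ≤ K) (hs : 0 ≤ s) (hs' : 0 ≤ s') {U U' : W N} (hU : ‖U‖ = 1) (hU' : ‖U'‖ = 1)
    (hv : ∀ θ v, ‖v‖ < ρ → |w (θ, v) U U' - w0 U U'| ≤ s)
    (hd : ∀ θ v, ‖v‖ < ρ → ∀ u, |fderiv ℝ w (θ, v) (0, u) U U'| ≤ s' * ‖u‖)
    {a b : V N → V N} (ha : ∀ x, ‖a x‖ < ρ) (hb : ∀ x, ‖b x‖ < ρ)
    (la : ∀ x y, ‖a x - a y‖ ≤ ‖x - y‖) (lb : ∀ x y, ‖b x - b y‖ ≤ ‖x - y‖)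
    (hab : HO α Δ univ fun x => a x - b x) :
    PE α (kap α s K) (kap α s' K * Δ) (zf w w0 U U' a) (zf w w0 U U' b) := by
  have hval : ∀ c : V N → V N, (∀ x, ‖c x‖ < ρ) → (∀ x y, ‖c x - c y‖ ≤ ‖x - y‖) →
      HO α (kap α s K) univ (zf w w0 U U' c) := by
    intro c hc lc
    refine ho_val hα hα1 hs hK (fun x => hv x _ (hc x)) fun x y => ?_
    have h1 := h.lip (p := (x, c x)) (q := (y, c y)) ((hc x).trans_le hρr) ((hc y).trans_le hρr)
    have h2 : ‖((x, c x) : W N) - (y, c y)‖ ≤ ‖x - y‖ := by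
      show max ‖x - y‖ ‖c x - c y‖ ≤ ‖x - y‖
      exact max_le le_rfl (lc x y)
    have h3 := bil_le (w (x, c x) - w (y, c y)) U U'
    rw [hU, hU', mul_one, mul_one] at h3
    have e : zf w w0 U U' c x - zf w w0 U U' c y = (w (x, c x) - w (y, c y)) U U' := by
      unfold zf; simp only [ContinuousLinearMap.sub_apply]; ring
    rw [e]
    exact h3.trans (h1.trans (mul_le_mul_of_nonneg_left h2 hK))
  refine ⟨hval a ha la, hval b hb lb, ?_⟩
  have hsub : ∀ p ∈ tube N ρ, p ∈ tube N r := fun p hp => lt_of_lt_of_le hp hρr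
  have h1 := ho_diff (F := fun p => w p U U') (s := s') (K := K) (ρ := ρ) hα hα1 hs' hK
    (fun p hp => ((h.cf.da (hsub p hp)).clm_apply (differentiableAt_const U)).clm_apply
      (differentiableAt_const U'))
    (fun p hp u => by
      rw [h.cf.fderiv_entry (hsub p hp)]
      exact hd p.1 p.2 hp u)
    (fun p hp q hq u => by
      rw [h.cf.fderiv_entry (hsub p hp), h.cf.fderiv_entry (hsub q hq)]
      have h2 := tri_le (fderiv ℝ w p - fderiv ℝ w q) (0, u) U U'
      rw [hU, hU', mul_one, mul_one, norm_vert] at h2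
      have h3 := h.d2 p (hsub p hp) q (hsub q hq)
      exact h2.trans (mul_le_mul_of_nonneg_right h3 (norm_nonneg _)))
    ha hb la lb hab
  exact h1.congr fun x _ => by unfold zf; ring

/-- non-linear part -/
def pz (w : Fo N) (w0 : W N →L[ℝ] W N →L[ℝ] ℝ) (a : V N → V N) (j k : Fin N) (θ : V N) : ℝ :=
  pb w a j k θ - w0 (ee j, dr j a θ) (ee k, dr k a θ)

theorem pz_expand (w : Fo N) (w0 : W N →L[ℝ] W N →L[ℝ] ℝ) (a : V N → V N) (j k : Fin N)
    (θ : V N) : pz w w0 a j k θ =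
      zf w w0 (eh j) (eh k) a θ + ((∑ m, (dr k a θ) m * zf w w0 (eh j) (ev' m) a θ) +
        ((∑ l, (dr j a θ) l * zf w w0 (ev' l) (eh k) a θ) +
          ∑ l, ∑ m, ((dr j a θ) l * (dr k a θ) m) * zf w w0 (ev' l) (ev' m) a θ)) := by
  have e : ∀ (j : Fin N) (u : V N), ((ee j, u) : W N) = eh j + ∑ l, u l • ev' l := by
    intro j u
    have h1 : ((ee j, u) : W N) = eh j + (ContinuousLinearMap.inr ℝ (V N) (V N)) u := by
      simp [eh]
    rw [h1]
    conv_lhs => rw [sum_ee u]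
    rw [map_sum]
    congr 1
    refine Finset.sum_congr rfl fun l _ => ?_
    rw [map_smul]; rfl
  have e2 : ∀ B : W N →L[ℝ] W N →L[ℝ] ℝ, B (ee j, dr j a θ) (ee k, dr k a θ) =
      B (eh j) (eh k) + ((∑ m, (dr k a θ) m * B (eh j) (ev' m)) +
        ((∑ l, (dr j a θ) l * B (ev' l) (eh k)) +
          ∑ l, ∑ m, ((dr j a θ) l * (dr k a θ) m) * B (ev' l) (ev' m))) := by
    intro B
    rw [e j, e k]
    simp only [map_add, map_sum, map_smul, ContinuousLinearMap.add_apply,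
      ContinuousLinearMap.sum_apply, ContinuousLinearMap.smul_apply, smul_eq_mul, mul_add,
      Finset.sum_add_distrib, Finset.mul_sum]
    have h3 : ∑ x, ∑ y, (dr k a θ) x * ((dr j a θ) y * B (ev' y) (ev' x)) =
        ∑ l, ∑ m, (dr j a θ) l * (dr k a θ) m * B (ev' l) (ev' m) := by
      rw [Finset.sum_comm]
      exact Finset.sum_congr rfl fun l _ => Finset.sum_congr rfl fun m _ => by ring
    rw [h3]; ring
  unfold pz pb
  rw [e2, e2]
  unfold zf
  simp only [mul_sub, Finset.sum_sub_distrib]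
  ring

/-- the contraction factor -/
def Ef (α : ℝ) (N : ℕ) (K t : ℝ) : ℝ :=
  kap α (2 * N * t + K * t) K +
    (N * (2 * kap α (t + K * t) K + 2 * (t * kap α K K)) +
      (N * (2 * kap α (t + K * t) K + 2 * (t * kap α K K)) +
        N * (N * (2 * ((2 * t + 2 * t) * kap α (K + K * t) K) +
          2 * (2 * (t * t) * kap α K K)))))

theorem Ef_continuous {α : ℝ} (hα1 : α < 1) (N : ℕ) (K : ℝ) : Continuous (Ef α N K) := by
  have k1 := kap_continuous (s := fun t : ℝ => 2 * N * t + K * t) hα1 K (by fun_prop)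
  have k2 := kap_continuous (s := fun t : ℝ => t + K * t) hα1 K (by fun_prop)
  have k3 := kap_continuous (s := fun t : ℝ => K + K * t) hα1 K (by fun_prop)
  unfold Ef
  fun_prop

theorem Ef_zero {α : ℝ} (hα1 : α < 1) (N : ℕ) (K : ℝ) : Ef α N K 0 = 0 := by
  unfold Ef
  simp [kap_zero hα1]

theorem ne_est {α t Δ : ℝ} (hα : 0 < α) (hα1 : α < 1) (ht : 0 < t) (ht1 : t ≤ 1) (htr : t ≤ r)
    (hK : 0 ≤ K) (h : Near r K t w w0) {a b : V N → V N} (sa : SP a) (sb : SP b)
    (ha : ∀ x, ‖a x‖ < t) (hb : ∀ x, ‖b x‖ < t) (ha1 : HO α t univ (fderiv ℝ a))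
    (hb1 : HO α t univ (fderiv ℝ b)) (hd0 : HO α Δ univ fun x => a x - b x)
    (hd1 : HO α Δ univ fun x => fderiv ℝ a x - fderiv ℝ b x) (j k : Fin N) :
    HO α (Ef α N K t * Δ) univ (fun θ => pz w w0 a j k θ - pz w w0 b j k θ) := by
  have hr : 0 < r := ht.trans_le htr
  have hlip : ∀ c : V N → V N, SP c → HO α t univ (fderiv ℝ c) → ∀ x y,
      ‖c x - c y‖ ≤ ‖x - y‖ := by
    intro c sc hc x y
    have := convex_univ.norm_image_sub_le_of_norm_fderiv_le (𝕜 := ℝ) (fun z _ => sc.diff z)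
      (fun z hz => (hc.bdd z hz).trans ht1) (mem_univ y) (mem_univ x)
    rwa [one_mul] at this
  have la := hlip a sa ha1
  have lb := hlip b sb hb1
  have hKt : 0 ≤ K * t := by positivity
  -- entries
  have p_hh : ∀ j k, PE α (kap α (t + K * t) K) (kap α (2 * N * t + K * t) K * Δ)
      (zf w w0 (eh j) (eh k) a) (zf w w0 (eh j) (eh k) b) := fun j k =>
    pe_zf hα hα1 h htr hK (by positivity) (by positivity) (norm_eh j) (norm_eh k)
      (fun θ v hv => h.entry htr hr hK (norm_eh j) (norm_eh k) hv (h.hh θ j k))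
      (fun θ v hv u => h.dv htr hr hK ht.le j k hv u) ha hb la lb hd0
  have gd : ∀ U U' : W N, ‖U‖ = 1 → ‖U'‖ = 1 → ∀ θ v : V N, ‖v‖ < t → ∀ u : V N,
      |fderiv ℝ w (θ, v) (0, u) U U'| ≤ K * ‖u‖ := by
    intro U U' hU hU' θ v hv u
    have h2 := tri_le (fderiv ℝ w (θ, v)) (0, u) U U'
    rw [hU, hU', mul_one, mul_one, norm_vert] at h2
    exact h2.trans (mul_le_mul_of_nonneg_right (h.d1 _ (hv.trans_le htr)) (norm_nonneg _))
  have p_hv : ∀ j l, PE α (kap α (t + K * t) K) (kap α K K * Δ)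
      (zf w w0 (eh j) (ev' l) a) (zf w w0 (eh j) (ev' l) b) := fun j l =>
    pe_zf hα hα1 h htr hK (by positivity) hK (norm_eh j) (norm_ev' l)
      (fun θ v hv => h.entry htr hr hK (norm_eh j) (norm_ev' l) hv (h.hv θ j l))
      (gd _ _ (norm_eh j) (norm_ev' l)) ha hb la lb hd0
  have p_vh : ∀ l j, PE α (kap α (t + K * t) K) (kap α K K * Δ)
      (zf w w0 (ev' l) (eh j) a) (zf w w0 (ev' l) (eh j) b) := fun l j =>
    pe_zf hα hα1 h htr hK (by positivity) hK (norm_ev' l) (norm_eh j)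
      (fun θ v hv => h.entry htr hr hK (norm_ev' l) (norm_eh j) hv (by
        have h1 := h.hv θ j l
        rw [h.cf.alt _ (mem_tube_zero hr θ) (ev' l) (eh j), h.alt0 (ev' l) (eh j)]
        rw [← abs_neg]
        convert h1 using 2
        ring))
      (gd _ _ (norm_ev' l) (norm_eh j)) ha hb la lb hd0
  have p_vv : ∀ l m, PE α (kap α (K + K * t) K) (kap α K K * Δ)
      (zf w w0 (ev' l) (ev' m) a) (zf w w0 (ev' l) (ev' m) b) := fun l m =>
    pe_zf hα hα1 h htr hK (by positivity) hK (norm_ev' l) (norm_ev' m)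
      (fun θ v hv => h.entry htr hr hK (norm_ev' l) (norm_ev' m) hv (h.vv θ l m))
      (gd _ _ (norm_ev' l) (norm_ev' m)) ha hb la lb hd0
  -- components of the derivative
  have hcomp : ∀ (M : ℝ) (T : V N → V N →L[ℝ] V N), HO α M univ T → ∀ j l,
      HO α M univ (fun θ => (T θ (ee j)) l) := by
    intro M T hT j l
    refine ⟨fun x hx => ?_, fun x hx y hy => ?_⟩
    · refine (abs_co_le _ l).trans (((T x).le_opNorm _).trans ?_)
      rw [norm_ee, mul_one]; exact hT.bdd x hx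
    · refine (abs_co_le ((T x - T y) (ee j)) l).trans (((T x - T y).le_opNorm _).trans ?_)
      rw [norm_ee, mul_one]; exact hT.hol x hx y hy
  have pA : ∀ j l, PE α t Δ (fun θ => (dr j a θ) l) (fun θ => (dr j b θ) l) := fun j l =>
    ⟨hcomp t _ ha1 j l, hcomp t _ hb1 j l, hcomp Δ _ hd1 j l⟩
  have q1 := p_hh j k
  have q2 := PE.sum (Finset.univ : Finset (Fin N)) fun m _ => (pA k m).mul (p_hv j m)
  have q3 := PE.sum (Finset.univ : Finset (Fin N)) fun l _ => (pA j l).mul (p_vh l k)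
  have q4 := PE.sum (Finset.univ : Finset (Fin N)) fun l _ =>
    PE.sum (Finset.univ : Finset (Fin N)) fun m _ => ((pA j l).mul (pA k m)).mul (p_vv l m)
  have q := (q1.add (q2.add (q3.add q4))).d1
  have e : ∀ c : V N → V N, pz w w0 c j k = fun θ => zf w w0 (eh j) (eh k) c θ +
      ((∑ m, (dr k c θ) m * zf w w0 (eh j) (ev' m) c θ) +
        ((∑ l, (dr j c θ) l * zf w w0 (ev' l) (eh k) c θ) +
          ∑ l, ∑ m, ((dr j c θ) l * (dr k c θ) m) * zf w w0 (ev' l) (ev' m) c θ)) := fun c =>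
    funext fun θ => pz_expand w w0 c j k θ
  rw [e a, e b]
  refine HO.mono q (le_of_eq ?_)
  simp only [Finset.card_univ, Fintype.card_fin]
  unfold Ef
  ring

/-- the value at the zero section -/
theorem base_est {α : ℝ} (hα : 0 < α) (hα1 : α < 1) (hr : 0 < r) (hδ : 0 ≤ δ)
    (h : Near r K δ w w0) (j k : Fin N) :
    HO α ((N + 2) * δ) univ (pz w w0 (fun _ => 0) j k) := by
  have e : pz w w0 (fun _ => 0) j k = zf w w0 (eh j) (eh k) fun _ => 0 := by
    funext θ
    have h0 : ∀ j, dr j (fun _ : V N => (0 : V N)) θ = 0 := fun j => by simp [dr]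
    unfold pz pb zf
    rw [h0, h0]; rfl
  rw [e]
  have hd : ∀ x u : V N, |fderiv ℝ w (x, 0) (u, 0) (eh j) (eh k)| ≤ N * δ * ‖u‖ := by
    intro x u
    have e : ((u, 0) : W N) = ∑ l, u l • eh l := by
      have h1 : ((u, 0) : W N) = (ContinuousLinearMap.inl ℝ (V N) (V N)) u := rfl
      rw [h1]
      conv_lhs => rw [sum_ee u]
      rw [map_sum]
      refine Finset.sum_congr rfl fun l _ => ?_
      rw [map_smul]; rfl
    rw [e, map_sum]
    simp only [ContinuousLinearMap.sum_apply, map_smul, ContinuousLinearMap.smul_apply,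
      smul_eq_mul]
    refine (Finset.abs_sum_le_sum_abs _ _).trans ?_
    calc ∑ l, |u l * fderiv ℝ w (x, 0) (eh l) (eh j) (eh k)| ≤ ∑ _l : Fin N, ‖u‖ * δ := by
          refine Finset.sum_le_sum fun l _ => ?_
          rw [abs_mul]
          exact mul_le_mul (abs_co_le u l) (h.dhh x l j k) (abs_nonneg _) (norm_nonneg _)
      _ = N * δ * ‖u‖ := by simp; ring
  have hder : ∀ x, HasFDerivAt (zf w w0 (eh j) (eh k) fun _ => 0)
      ((fderiv ℝ (fun p => w p (eh j) (eh k)) (x, 0)).comp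
        (ContinuousLinearMap.inl ℝ (V N) (V N))) x := by
    intro x
    have h1 : DifferentiableAt ℝ (fun p => w p (eh j) (eh k)) ((x, 0) : W N) :=
      ((h.cf.da (mem_tube_zero hr x)).clm_apply (differentiableAt_const _)).clm_apply
        (differentiableAt_const _)
    have h2 := HasFDerivAt.comp (g := fun p => w p (eh j) (eh k))
      (f := fun x : V N => ((x, 0) : W N)) x h1.hasFDerivAt
      (ContinuousLinearMap.inl ℝ (V N) (V N)).hasFDerivAt
    exact h2.sub_const _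
  have hN : (0 : ℝ) ≤ N := Nat.cast_nonneg N
  have h3 := ho_of_lip (a := α) (M := δ) (L := N * δ) (s := univ) hα.le hα1.le
    (f := zf w w0 (eh j) (eh k) fun _ => 0) (fun x _ => h.hh x j k) (fun x _ y _ => ?_)
    (by positivity) hδ
  · exact HO.mono h3 (by ring_nf; exact le_rfl)
  · refine convex_univ.norm_image_sub_le_of_norm_hasFDerivWithin_le
      (fun z _ => (hder z).hasFDerivWithinAt) (fun z _ => ?_) (mem_univ y) (mem_univ x)
    refine ContinuousLinearMap.opNorm_le_bound _ (by positivity) fun u => ?_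
    show |fderiv ℝ (fun p => w p (eh j) (eh k)) (z, 0) (u, 0)| ≤ _
    rw [h.cf.fderiv_entry (mem_tube_zero hr z)]
    exact hd z u

end

end

end Crest.Agent.R281.Mc673
end

-- ▼ part R281/Mc8_673
section

/-!
# R281 / LAGT (helper673), part 8

The constant model, one step of the iteration and its estimates.
-/

set_option autoImplicit false
set_option maxSynthPendingDepth 3

open MeasureTheory Set Metric Filter
open scoped ContDiff Topology

namespace Crest.Agent.R281.Mc673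

open Crest.Agent.R238 (Ell)
open Crest.Agent.R238.Sch (ee norm_ee sum_ee)
open Crest.Agent.R273.SchA_152 (HO)

noncomputable section

variable {N : ℕ}

/-! ### the model -/

/-- horizontal coordinate -/
def ph (k : Fin N) : W N →L[ℝ] ℝ := (EuclideanSpace.proj k : V N →L[ℝ] ℝ).comp
  (ContinuousLinearMap.fst ℝ (V N) (V N))

/-- vertical coordinate -/
def pv (k : Fin N) : W N →L[ℝ] ℝ := (EuclideanSpace.proj k : V N →L[ℝ] ℝ).comp
  (ContinuousLinearMap.snd ℝ (V N) (V N))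

theorem ph_apply (k : Fin N) (u : W N) : ph k u = u.1 k := rfl
theorem pv_apply (k : Fin N) (u : W N) : pv k u = u.2 k := rfl

/-- the model form `⟨C v, θ'⟩ - ⟨C v', θ⟩` -/
def mdl (C : Matrix (Fin N) (Fin N) ℝ) : W N →L[ℝ] W N →L[ℝ] ℝ :=
  ∑ k, ∑ l, C k l • ((pv l).smulRight (ph k) - (ph k).smulRight (pv l))

theorem mdl_apply (C : Matrix (Fin N) (Fin N) ℝ) (u w : W N) :
    mdl C u w = ∑ k, ∑ l, C k l * (u.2 l * w.1 k - u.1 k * w.2 l) := by
  unfold mdl
  simp only [ContinuousLinearMap.sum_apply, ContinuousLinearMap.smul_apply,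
    ContinuousLinearMap.sub_apply, ContinuousLinearMap.smulRight_apply, smul_eq_mul,
    ph_apply, pv_apply]

theorem mdl_alt (C : Matrix (Fin N) (Fin N) ℝ) (u w : W N) : mdl C u w = - mdl C w u := by
  rw [mdl_apply, mdl_apply, ← Finset.sum_neg_distrib]
  refine Finset.sum_congr rfl fun k _ => ?_
  rw [← Finset.sum_neg_distrib]
  exact Finset.sum_congr rfl fun l _ => by ring

theorem ee_apply (j k : Fin N) : (ee j : V N) k = if k = j then 1 else 0 := by
  by_cases h : k = j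
  · subst h; simp [ee]
  · simp [ee, h]

theorem mdl_graph (C : Matrix (Fin N) (Fin N) ℝ) (j k : Fin N) (A B : V N) :
    mdl C (ee j, A) (ee k, B) = (∑ l, C k l * A l) - ∑ l, C j l * B l := by
  rw [mdl_apply]
  simp only [ee_apply, mul_sub, Finset.sum_sub_distrib]
  congr 1
  · rw [Finset.sum_eq_single k]
    · simp
    · intro i _ hi; simp [hi]
    · simp
  · rw [Finset.sum_eq_single j]
    · simp
    · intro i _ hi; simp [hi]
    · simp

theorem mdl_one_graph (j k : Fin N) (A B : V N) :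
    mdl 1 (ee j, A) (ee k, B) = A k - B j := by
  rw [mdl_graph]
  simp [Matrix.one_apply]

/-- `1 + Cᵀ C` -/
def Sm (C : Matrix (Fin N) (Fin N) ℝ) : Matrix (Fin N) (Fin N) ℝ := 1 + C.transpose * C

theorem Sm_apply (C : Matrix (Fin N) (Fin N) ℝ) (i j : Fin N) :
    Sm C i j = (if i = j then 1 else 0) + ∑ k, C k i * C k j := by
  unfold Sm
  simp [Matrix.add_apply, Matrix.one_apply, Matrix.mul_apply]

theorem ell_Sm {Λ : ℝ} {C : Matrix (Fin N) (Fin N) ℝ} (hΛ : ∀ j k, |C j k| ≤ Λ) :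
    Ell 1 (1 + N * (N * Λ ^ 2)) (Sm C) := by
  refine ⟨fun i j => ?_, fun z => ?_⟩
  · rw [Sm_apply, Sm_apply]
    congr 1
    · by_cases h : i = j
      · subst h; rfl
      · rw [if_neg h, if_neg (Ne.symm h)]
    · exact Finset.sum_congr rfl fun k _ => mul_comm _ _
  have e : ∑ i, ∑ j, Sm C i j * z i * z j = ∑ i, z i ^ 2 + ∑ k, (∑ j, C k j * z j) ^ 2 := by
    have e1 : ∑ i, ∑ j, Sm C i j * z i * z j =
        ∑ i, ∑ j, (if i = j then z i * z j else 0) +
          ∑ i, ∑ j, ∑ k, (C k i * z i) * (C k j * z j) := by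
      rw [← Finset.sum_add_distrib]
      refine Finset.sum_congr rfl fun i _ => ?_
      rw [← Finset.sum_add_distrib]
      refine Finset.sum_congr rfl fun j _ => ?_
      rw [Sm_apply, add_mul, add_mul, Finset.sum_mul, Finset.sum_mul]
      congr 1
      · by_cases h : i = j
        · rw [if_pos h, if_pos h]; ring
        · rw [if_neg h, if_neg h]; ring
      · exact Finset.sum_congr rfl fun k _ => by ring
    rw [e1]
    congr 1
    · refine Finset.sum_congr rfl fun i _ => ?_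
      simp [sq]
    · have e2 : ∀ k, (∑ j, C k j * z j) ^ 2 = ∑ i, ∑ j, (C k i * z i) * (C k j * z j) := by
        intro k
        rw [sq, Finset.sum_mul_sum]
      simp_rw [e2]
      rw [Finset.sum_comm' (t' := Finset.univ) (s' := fun _ => Finset.univ) (by simp)]
      rw [show (∑ y, ∑ x, ∑ k, C k x * z x * (C k y * z y)) =
        ∑ x, ∑ y, ∑ k, C k x * z x * (C k y * z y) from Finset.sum_comm]
      have : ∀ x, ∑ y, ∑ k, C k x * z x * (C k y * z y) =
          ∑ k, ∑ y, C k x * z x * (C k y * z y) := fun x => Finset.sum_comm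
      simp_rw [this]
      exact Finset.sum_comm
  have h0 : 0 ≤ ∑ k, (∑ j, C k j * z j) ^ 2 := Finset.sum_nonneg fun k _ => sq_nonneg _
  have h1 : ∑ k, (∑ j, C k j * z j) ^ 2 ≤ N * (N * Λ ^ 2) * ∑ i, z i ^ 2 := by
    calc ∑ k, (∑ j, C k j * z j) ^ 2 ≤ ∑ _k : Fin N, (N * Λ ^ 2) * ∑ i, z i ^ 2 := by
          refine Finset.sum_le_sum fun k _ => ?_
          refine (Finset.sum_mul_sq_le_sq_mul_sq _ _ _).trans ?_
          refine mul_le_mul_of_nonneg_right ?_ (Finset.sum_nonneg fun i _ => sq_nonneg _)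
          calc ∑ i, C k i ^ 2 ≤ ∑ _i : Fin N, Λ ^ 2 := Finset.sum_le_sum fun i _ => by
                rw [← sq_abs]
                exact pow_le_pow_left₀ (abs_nonneg _) (hΛ k i) 2
            _ = N * Λ ^ 2 := by simp
      _ = N * (N * Λ ^ 2) * ∑ i, z i ^ 2 := by simp; ring
  rw [e]
  constructor <;> linarith

/-- the algebraic identity behind the scalar equation -/
theorem alg_id {C : Matrix (Fin N) (Fin N) ℝ} (hC : C * C = -1) (A : Fin N → V N) :
    ∑ j, ∑ k, C j k * mdl C (ee j, A j) (ee k, A k) = - ∑ i, ∑ j, Sm C i j * (A i) j := by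
  have hCC : ∀ j l, ∑ k, C j k * C k l = - (if j = l then 1 else 0) := by
    intro j l
    have := congrFun (congrFun hC j) l
    rw [Matrix.mul_apply] at this
    rw [this]
    simp [Matrix.one_apply]
  have e1 : ∑ j, ∑ k, C j k * ∑ l, C k l * (A j) l = - ∑ j, ∑ l, (if j = l then 1 else 0) * (A j) l := by
    rw [← Finset.sum_neg_distrib]
    refine Finset.sum_congr rfl fun j _ => ?_
    simp_rw [Finset.mul_sum]
    rw [Finset.sum_comm, ← Finset.sum_neg_distrib]
    refine Finset.sum_congr rfl fun l _ => ?_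
    rw [← neg_mul, ← hCC j l, Finset.sum_mul]
    exact Finset.sum_congr rfl fun k _ => by ring
  have e2 : ∑ j, ∑ k, C j k * ∑ l, C j l * (A k) l = ∑ k, ∑ l, (∑ j, C j k * C j l) * (A k) l := by
    rw [Finset.sum_comm]
    refine Finset.sum_congr rfl fun k _ => ?_
    simp_rw [Finset.mul_sum, Finset.sum_mul]
    rw [Finset.sum_comm]
    exact Finset.sum_congr rfl fun l _ => Finset.sum_congr rfl fun j _ => by ring
  simp_rw [mdl_graph, mul_sub, Finset.sum_sub_distrib]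
  rw [e1, e2, ← Finset.sum_neg_distrib, ← Finset.sum_neg_distrib, ← Finset.sum_sub_distrib]
  refine Finset.sum_congr rfl fun i _ => ?_
  rw [← Finset.sum_neg_distrib, ← Finset.sum_neg_distrib, ← Finset.sum_sub_distrib]
  refine Finset.sum_congr rfl fun j _ => ?_
  rw [Sm_apply]; ring

/-! ### data and step -/

/-- the data: two closed forms close to the model -/
structure Dat (r K δ Λ : ℝ) (C : Matrix (Fin N) (Fin N) ℝ) (x y : Fo N) : Prop where
  CC : C * C = -1
  CL : ∀ j k, |C j k| ≤ Λ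
  nx : Near r K δ x (mdl 1)
  ny : Near r K δ y (mdl C)
  mx : ∀ j k, mn (fun θ => x (θ, 0) (eh j) (eh k)) = 0
  my : ∀ j k, mn (fun θ => y (θ, 0) (eh j) (eh k)) = 0

/-- one step of the iteration -/
structure Step (C : Matrix (Fin N) (Fin N) ℝ) (x y : Fo N) (c : V N) (a a' : V N → V N) :
    Prop where
  sp : SP a'
  mean : ∀ k, mn (co a' k) = c k
  eqx : ∀ j k θ, dr j (co a' k) θ - dr k (co a' j) θ = - pz x (mdl 1) a j k θ
  eqy : ∀ θ, dS (Sm C) (co a') θ = ∑ j, ∑ k, C j k * pz y (mdl C) a j k θ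

theorem dr_co' {a : V N → V N} (ha : SP a) (j k : Fin N) (θ : V N) :
    dr j (co a k) θ = (dr j a θ) k := dr_co (ha.diff θ) j k

theorem mdl_one_dv {a : V N → V N} (ha : SP a) (j k : Fin N) (θ : V N) :
    mdl 1 (ee j, dr j a θ) (ee k, dr k a θ) = dr j (co a k) θ - dr k (co a j) θ := by
  rw [mdl_one_graph, dr_co' ha, dr_co' ha]


theorem sp_mdl (C : Matrix (Fin N) (Fin N) ℝ) {a : V N → V N} (ha : SP a) (j k : Fin N) :
    SP (fun θ => mdl C (ee j, dr j a θ) (ee k, dr k a θ)) := by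
  have e : (fun θ => mdl C (ee j, dr j a θ) (ee k, dr k a θ)) =
      fun θ => (∑ l, C k l * dr j (co a l) θ) - ∑ l, C j l * dr k (co a l) θ := by
    funext θ
    rw [mdl_graph]
    simp only [dr_co' ha]
  rw [e]
  exact (SP.sum _ fun l _ => ((sp_co ha l).dr j).cmul _).sub
    (SP.sum _ fun l _ => ((sp_co ha l).dr k).cmul _)

theorem mn_mdl (C : Matrix (Fin N) (Fin N) ℝ) {a : V N → V N} (ha : SP a) (j k : Fin N) :
    mn (fun θ => mdl C (ee j, dr j a θ) (ee k, dr k a θ)) = 0 := by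
  have e : (fun θ => mdl C (ee j, dr j a θ) (ee k, dr k a θ)) =
      fun θ => (∑ l, C k l * dr j (co a l) θ) - ∑ l, C j l * dr k (co a l) θ := by
    funext θ
    rw [mdl_graph]
    simp only [dr_co' ha]
  have h : ∀ j k, mn (fun θ => ∑ l, C k l * dr j (co a l) θ) = 0 := by
    intro j k
    have h1 : mn (fun θ => ∑ l, C k l * dr j (co a l) θ) =
        ∑ l, mn (fun θ => C k l * dr j (co a l) θ) :=
      mn_sum _ fun l _ => ((sp_co ha l).dr j).cmul _
    rw [h1]
    refine Finset.sum_eq_zero fun l _ => ?_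
    rw [mn_mul, mn_dr (sp_co ha l), mul_zero]
  have h2 : mn (fun θ => (∑ l, C k l * dr j (co a l) θ) - ∑ l, C j l * dr k (co a l) θ) =
      mn (fun θ => ∑ l, C k l * dr j (co a l) θ) - mn (fun θ => ∑ l, C j l * dr k (co a l) θ) :=
    mn_sub (SP.sum _ fun l _ => ((sp_co ha l).dr j).cmul _)
      (SP.sum _ fun l _ => ((sp_co ha l).dr k).cmul _)
  rw [e, h2, h, h, sub_zero]

theorem sp_pz {r : ℝ} {w : Fo N} (hw : ClF r w) (C : Matrix (Fin N) (Fin N) ℝ) {a : V N → V N}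
    (ha : SP a) (har : ∀ θ, ‖a θ‖ < r) (j k : Fin N) : SP (pz w (mdl C) a j k) :=
  (sp_pb hw ha har j k).sub (sp_mdl C ha j k)

theorem mn_pz {r : ℝ} {w : Fo N} (hw : ClF r w) (C : Matrix (Fin N) (Fin N) ℝ) {a : V N → V N}
    (ha : SP a) (har : ∀ θ, ‖a θ‖ < r) (hm : ∀ j k, mn (fun θ => w (θ, 0) (eh j) (eh k)) = 0)
    (j k : Fin N) : mn (pz w (mdl C) a j k) = 0 := by
  have h1 : mn (pz w (mdl C) a j k) =
      mn (pb w a j k) - mn (fun θ => mdl C (ee j, dr j a θ) (ee k, dr k a θ)) :=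
    mn_sub (sp_pb hw ha har j k) (sp_mdl C ha j k)
  have h2 : pb w (fun _ => 0) j k = fun θ => w (θ, 0) (eh j) (eh k) := by
    funext θ
    have h0 : ∀ j, dr j (fun _ : V N => (0 : V N)) θ = 0 := fun j => by simp [dr]
    unfold pb
    rw [h0, h0]; rfl
  rw [h1, mn_pb hw ha har, h2, hm, mn_mdl C ha, sub_zero]

theorem step_exists {r K δ Λ : ℝ} {C : Matrix (Fin N) (Fin N) ℝ} {x y : Fo N}
    (D : Dat r K δ Λ C x y) {a : V N → V N} (ha : SP a) (har : ∀ θ, ‖a θ‖ < r) (c : V N) :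
    ∃ a', Step C x y c a a' := by
  have cx := D.nx.cf
  have cy := D.ny.cf
  have spx := sp_pz cx 1 ha har
  have spy := sp_pz cy C ha har
  have hf : SP (fun θ => ∑ j, ∑ k, C j k * pz y (mdl C) a j k θ) :=
    SP.sum _ fun j _ => SP.sum _ fun k _ => (spy j k).cmul _
  have hf0 : mn (fun θ => ∑ j, ∑ k, C j k * pz y (mdl C) a j k θ) = 0 := by
    have h1 : mn (fun θ => ∑ j, ∑ k, C j k * pz y (mdl C) a j k θ) =
        ∑ j, mn (fun θ => ∑ k, C j k * pz y (mdl C) a j k θ) :=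
      mn_sum _ fun j _ => SP.sum _ fun k _ => (spy j k).cmul _
    rw [h1]
    refine Finset.sum_eq_zero fun j _ => ?_
    have h2 : mn (fun θ => ∑ k, C j k * pz y (mdl C) a j k θ) =
        ∑ k, mn (fun θ => C j k * pz y (mdl C) a j k θ) :=
      mn_sum _ fun k _ => (spy j k).cmul _
    rw [h2]
    refine Finset.sum_eq_zero fun k _ => ?_
    rw [mn_mul, mn_pz cy C ha har D.my, mul_zero]
  have hclosed : ∀ i j k θ, dr i (fun θ => - pz x (mdl 1) a j k θ) θ +
      dr j (fun θ => - pz x (mdl 1) a k i θ) θ + dr k (fun θ => - pz x (mdl 1) a i j θ) θ = 0 := by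
    intro i j k θ
    have e : ∀ i j k, dr i (fun θ => - pz x (mdl 1) a j k θ) θ =
        - (dr i (pb x a j k) θ - (dr i (dr j (co a k)) θ - dr i (dr k (co a j)) θ)) := by
      intro i j k
      have e1 : (fun θ => - pz x (mdl 1) a j k θ) = fun θ =>
          - (pb x a j k θ - (dr j (co a k) θ - dr k (co a j) θ)) := by
        funext θ
        unfold pz
        rw [mdl_one_dv ha]
      rw [e1, dr_neg]
      congr 1
      have s1 := (sp_co ha k).dr j
      have s2 := (sp_co ha j).dr k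
      rw [dr_sub (sp_pb cx ha har j k) (s1.sub s2), dr_sub s1 s2]
    rw [e, e, e]
    have h1 := pb_closed cx ha har i j k θ
    have c1 := dr_comm (sp_co ha k) i j θ
    have c2 := dr_comm (sp_co ha j) i k θ
    have c3 := dr_comm (sp_co ha i) j k θ
    linarith
  obtain ⟨h, h1, h2, h3, h4⟩ := sys_exists (ell_Sm D.CL)
    (β := fun j k θ => - pz x (mdl 1) a j k θ) (f := fun θ => ∑ j, ∑ k, C j k * pz y (mdl C) a j k θ)
    (fun j k => (spx j k).neg) hf
    (fun j k θ => by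
      show - pz x (mdl 1) a j k θ = - - pz x (mdl 1) a k j θ
      unfold pz
      rw [pb_anti cx har, mdl_alt]; ring)
    hclosed
    (fun j k => by
      show mn (fun θ => - pz x (mdl 1) a j k θ) = 0
      rw [mn_neg, mn_pz cx 1 ha har D.mx, neg_zero])
    hf0
  have hsp : SP (fun θ => c + h θ) := (SP.const c).add h1
  have hco : ∀ k, co (fun θ => c + h θ) k = fun θ => c k + co h k θ := fun k => rfl
  have hdr : ∀ j k θ, dr j (co (fun θ => c + h θ) k) θ = dr j (co h k) θ := by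
    intro j k θ
    rw [hco, dr_add (SP.const (c k)) (sp_co h1 k)]
    simp [dr]
  refine ⟨fun θ => c + h θ, hsp, fun k => ?_, fun j k θ => ?_, fun θ => ?_⟩
  · rw [hco, mn_add (SP.const (c k)) (sp_co h1 k), h2, mn_const, add_zero]
  · rw [hdr, hdr]; exact h3 j k θ
  · rw [← h4 θ]
    unfold dS
    exact Finset.sum_congr rfl fun i _ => Finset.sum_congr rfl fun j _ => by rw [hdr]

end

end Crest.Agent.R281.Mc673
end

-- ▼ part R281/Mc9_673
section

/-!
# R281 / LAGT (helper673), part 9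

Estimates of one step of the iteration.
-/

set_option autoImplicit false
set_option maxSynthPendingDepth 3

open MeasureTheory Set Metric Filter
open scoped ContDiff Topology

namespace Crest.Agent.R281.Mc673

open Crest.Agent.R238 (Ell)
open Crest.Agent.R238.Sch (ee norm_ee sum_ee)
open Crest.Agent.R273.SchA_152 (HO)

noncomputable section

variable {N : ℕ}

/-- two forms are `κ`-close in `C^1` on the tube -/
structure Close (r κ : ℝ) (w w' : Fo N) : Prop where
  c0 : ∀ p ∈ tube N r, ‖w p - w' p‖ ≤ κ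
  c1 : ∀ p ∈ tube N r, ‖fderiv ℝ w p - fderiv ℝ w' p‖ ≤ κ

theorem Close.refl {r κ : ℝ} (hκ : 0 ≤ κ) (w : Fo N) : Close r κ w w :=
  ⟨fun p _ => by simpa using hκ, fun p _ => by simpa using hκ⟩

/-- admissible graphs -/
structure InB (t : ℝ) (a : V N → V N) : Prop where
  sp : SP a
  b0 : ∀ x, ‖a x‖ < t
  b1 : HO (1 / 2) t univ (fderiv ℝ a)

theorem ho_frame {a : V N → V N} (h1 : HO (1 / 2) 1 univ (fderiv ℝ a)) (j : Fin N) :
    HO (1 / 2) 1 univ (fun θ => ((ee j, dr j a θ) : W N)) where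
  bdd x hx := by
    show max ‖(ee j : V N)‖ ‖dr j a x‖ ≤ 1
    rw [norm_ee]
    refine max_le le_rfl (((fderiv ℝ a x).le_opNorm _).trans ?_)
    rw [norm_ee, mul_one]; exact h1.bdd x hx
  hol x hx y hy := by
    have e : ((ee j, dr j a x) : W N) - (ee j, dr j a y) = (0, dr j a x - dr j a y) := by
      ext1 <;> simp
    rw [e, norm_vert]
    refine ((fderiv ℝ a x - fderiv ℝ a y).le_opNorm (ee j)).trans ?_
    rw [norm_ee, mul_one]; exact h1.hol x hx y hy

theorem ho_forms {r κ : ℝ} (hκ : 0 ≤ κ) {w w' : Fo N} (hw : ClF r w) (hw' : ClF r w')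
    (hc : Close r κ w w') {b : V N → V N} (sb : SP b) (hb : ∀ x, ‖b x‖ < r)
    (hb1 : HO (1 / 2) 1 univ (fderiv ℝ b)) (j k : Fin N) :
    HO (1 / 2) (12 * κ) univ (fun θ => pb w b j k θ - pb w' b j k θ) := by
  have hlipb : ∀ x y, ‖b x - b y‖ ≤ ‖x - y‖ := by
    intro x y
    have := convex_univ.norm_image_sub_le_of_norm_fderiv_le (𝕜 := ℝ) (fun z _ => sb.diff z)
      (fun z hz => hb1.bdd z hz) (mem_univ y) (mem_univ x)
    rwa [one_mul] at this
  have hlip : ∀ p ∈ tube N r, ∀ q ∈ tube N r, ‖(w p - w' p) - (w q - w' q)‖ ≤ κ * ‖p - q‖ := by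
    intro p hp q hq
    refine (convex_tube r).norm_image_sub_le_of_norm_fderiv_le (𝕜 := ℝ)
      (f := fun p => w p - w' p) (fun z hz => (hw.da hz).sub (hw'.da hz)) (fun z hz => ?_) hq hp
    rw [fderiv_fun_sub (hw.da hz) (hw'.da hz)]
    exact hc.c1 z hz
  have hT : HO (1 / 2) (κ + 2 * κ) univ (fun θ => w (θ, b θ) - w' (θ, b θ)) := by
    refine ho_of_lip (by norm_num) (by norm_num) (fun x _ => hc.c0 (x, b x) (hb x))
      (fun x _ y _ => ?_) hκ hκ
    refine (hlip (x, b x) (hb x) (y, b y) (hb y)).trans (mul_le_mul_of_nonneg_left ?_ hκ)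
    show max ‖x - y‖ ‖b x - b y‖ ≤ ‖x - y‖
    exact max_le le_rfl (hlipb x y)
  have h1 := HO.app hT (ho_frame hb1 j) (by positivity) zero_le_one
  have h2 := HO.app h1 (ho_frame hb1 k) (by positivity) zero_le_one
  refine (h2.congr fun θ _ => ?_).mono (by linarith)
  show pb w b j k θ - pb w' b j k θ =
    (w (θ, b θ) - w' (θ, b θ)) (ee j, dr j b θ) (ee k, dr k b θ)
  rfl

/-- estimates of one step -/
structure Good (N : ℕ) (Λ K r q CH t : ℝ) : Prop where
  CH0 : 0 < CH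
  t0 : 0 < t
  t1 : t ≤ 1
  tr : t ≤ r
  pair : ∀ (C : Matrix (Fin N) (Fin N) ℝ) (x y x' y' : Fo N), Dat r K t Λ C x y →
    Dat r K t Λ C x' y' → ∀ κ : ℝ, 0 ≤ κ → Close r κ x x' → Close r κ y y' →
    ∀ (c c' : V N) (a b a' b' : V N → V N), InB t a → InB t b →
    Step C x y c a a' → Step C x' y' c' b b' → ∀ Δ : ℝ, 0 ≤ Δ →
    HO (1 / 2) Δ univ (fun θ => a θ - b θ) →
    HO (1 / 2) Δ univ (fun θ => fderiv ℝ a θ - fderiv ℝ b θ) →
    HO (1 / 2) (q * Δ + CH * κ) univ (fun θ => a' θ - b' θ - (c - c')) ∧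
      HO (1 / 2) (q * Δ + CH * κ) univ (fun θ => fderiv ℝ a' θ - fderiv ℝ b' θ)
  single : ∀ (C : Matrix (Fin N) (Fin N) ℝ) (x y : Fo N) (δ : ℝ), 0 ≤ δ → δ ≤ t →
    Dat r K δ Λ C x y → ∀ (c : V N) (a a' : V N → V N), InB t a → Step C x y c a a' →
    ∀ Δ : ℝ, 0 ≤ Δ → HO (1 / 2) Δ univ a → HO (1 / 2) Δ univ (fderiv ℝ a) →
    HO (1 / 2) (q * Δ + CH * δ) univ (fun θ => a' θ - c) ∧
      HO (1 / 2) (q * Δ + CH * δ) univ (fderiv ℝ a')

theorem Dat.mono {r K δ δ' Λ : ℝ} {C : Matrix (Fin N) (Fin N) ℝ} {x y : Fo N}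
    (D : Dat r K δ Λ C x y) (h : δ ≤ δ') : Dat r K δ' Λ C x y :=
  ⟨D.CC, D.CL, D.nx.mono h, D.ny.mono h, D.mx, D.my⟩

theorem ho_Csum {C : Matrix (Fin N) (Fin N) ℝ} {Λ : ℝ} (hΛ0 : 0 ≤ Λ) (hΛ : ∀ j k, |C j k| ≤ Λ)
    {B : ℝ} {f : Fin N → Fin N → V N → ℝ} (hf : ∀ j k, HO (1 / 2) B univ (f j k)) :
    HO (1 / 2) (N * (N * (Λ * B))) univ (fun θ => ∑ j, ∑ k, C j k * f j k θ) := by
  have h := HO.sum (Finset.univ : Finset (Fin N)) fun j _ =>
    HO.sum (Finset.univ : Finset (Fin N)) fun k _ => HO.cmul (hf j k) (hΛ j k)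
  refine HO.mono h (le_of_eq ?_)
  simp

theorem exists_good (N : ℕ) {Λ K r q : ℝ} (hΛ : 0 ≤ Λ) (hK : 0 ≤ K) (hr : 0 < r)
    (hq : 0 < q) : ∃ CH t : ℝ, Good N Λ K r q CH t := by
  obtain ⟨C0, hC0, H⟩ := sys_est N (a := 1 / 2) (hi := 1 + N * (N * Λ ^ 2)) (by norm_num)
    (by norm_num) (by
      have : (0 : ℝ) ≤ N * (N * Λ ^ 2) := by positivity
      linarith)
  set B0 : ℝ := 1 + N * (N * Λ) with hB0
  have hB0' : 1 ≤ B0 := by
    have : (0 : ℝ) ≤ N * (N * Λ) := by positivity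
    linarith
  set G : ℝ := C0 * B0 with hG
  have hG0 : 0 < G := by positivity
  -- choice of `t`
  have hE : Tendsto (fun s => G * Ef (1 / 2) N K s) (𝓝 0) (𝓝 0) := by
    have h1 := (Ef_continuous (α := 1 / 2) (by norm_num) N K).tendsto 0
    rw [Ef_zero (by norm_num)] at h1
    simpa using h1.const_mul G
  have hev : ∀ᶠ s in 𝓝 (0 : ℝ), G * Ef (1 / 2) N K s < q :=
    (tendsto_order.1 hE).2 _ hq
  obtain ⟨η, hη, hη'⟩ := Metric.eventually_nhds_iff.1 hev
  set t : ℝ := min (η / 2) (min 1 r) with ht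
  have ht0 : 0 < t := by positivity
  have ht1 : t ≤ 1 := (min_le_right _ _).trans (min_le_left _ _)
  have htr : t ≤ r := (min_le_right _ _).trans (min_le_right _ _)
  have hEt : G * Ef (1 / 2) N K t ≤ q := by
    refine (hη' ?_).le
    rw [Real.dist_eq, sub_zero, abs_of_pos ht0]
    exact lt_of_le_of_lt (min_le_left _ _) (by linarith)
  have hE0 : 0 ≤ Ef (1 / 2) N K t := by
    have k1 := kap_nonneg (α := 1 / 2) (s := 2 * N * t + K * t) (K := K) (by positivity) hK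
    have k2 := kap_nonneg (α := 1 / 2) (s := t + K * t) (K := K) (by positivity) hK
    have k3 := kap_nonneg (α := 1 / 2) (s := K) (K := K) hK hK
    have k4 := kap_nonneg (α := 1 / 2) (s := K + K * t) (K := K) (by positivity) hK
    unfold Ef
    positivity
  refine ⟨G * (12 + (N + 2)), t, by positivity, ht0, ht1, htr, ?_, ?_⟩
  · intro C x y x' y' D D' κ hκ hcx hcy c c' a b a' b' ia ib sa sb Δ hΔ h0 h1
    set B1 : ℝ := Ef (1 / 2) N K t * Δ + 12 * κ with hB1
    have hB1' : 0 ≤ B1 := by positivity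
    have spa := sp_co sa.sp
    have spb := sp_co sb.sp
    have key : ∀ (w w' : Fo N) (C : Matrix (Fin N) (Fin N) ℝ), Near r K t w (mdl C) →
        Near r K t w' (mdl C) → Close r κ w w' → ∀ j k,
        HO (1 / 2) B1 univ (fun θ => pz w (mdl C) a j k θ - pz w' (mdl C) b j k θ) := by
      intro w w' C hw hw' hc j k
      have q1 := ne_est (α := 1 / 2) (by norm_num) (by norm_num) ht0 ht1 htr hK hw ia.sp ib.sp
        ia.b0 ib.b0 ia.b1 ib.b1 h0 h1 j k
      have q2 := ho_forms hκ hw.cf hw'.cf hc ib.sp (fun x => (ib.b0 x).trans_le htr)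
        (ib.b1.mono ht1) j k
      exact (q1.add q2).congr fun θ _ => by unfold pz; ring
    have hcod : ∀ k, co (fun θ => a' θ - b' θ - (c - c')) k =
        fun θ => co a' k θ - co b' k θ - (c k - c' k) := fun k => rfl
    have spd : SP (fun θ => a' θ - b' θ - (c - c')) := (sa.sp.sub sb.sp).sub (SP.const _)
    have hdrd : ∀ j k θ, dr j (co (fun θ => a' θ - b' θ - (c - c')) k) θ =
        dr j (co a' k) θ - dr j (co b' k) θ := by
      intro j k θ
      rw [hcod, dr_sub ((spa k).sub (spb k)) (SP.const _), dr_sub (spa k) (spb k)]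
      simp [dr]
    have hmd : ∀ k, mn (co (fun θ => a' θ - b' θ - (c - c')) k) = 0 := by
      intro k
      rw [hcod, mn_sub ((spa k).sub (spb k)) (SP.const _), mn_sub (spa k) (spb k), mn_const,
        sa.mean, sb.mean]
      ring
    have hB : 0 ≤ B0 * B1 := by positivity
    have hle1 : B1 ≤ B0 * B1 := le_mul_of_one_le_left hB1' hB0'
    have hle2 : N * (N * (Λ * B1)) ≤ B0 * B1 := by
      rw [hB0]
      have : (N : ℝ) * (N * (Λ * B1)) = N * (N * Λ) * B1 := by ring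
      rw [this, add_mul, one_mul]; linarith
    have hres := H (Sm C) (ell_Sm D.CL) _ spd hmd (B0 * B1) hB
      (fun j k => by
        refine ((key x x' 1 D.nx D'.nx hcx j k).neg.congr fun θ _ => ?_).mono hle1
        rw [hdrd, hdrd]
        have e1 := sa.eqx j k θ
        have e2 := sb.eqx j k θ
        linarith)
      (by
        refine ((ho_Csum hΛ D.CL (key y y' C D.ny D'.ny hcy)).congr fun θ _ => ?_).mono hle2
        have e1 := sa.eqy θ
        have e2 := sb.eqy θ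
        have e3 : dS (Sm C) (co (fun θ => a' θ - b' θ - (c - c'))) θ =
            dS (Sm C) (co a') θ - dS (Sm C) (co b') θ := by
          unfold dS
          rw [← Finset.sum_sub_distrib]
          refine Finset.sum_congr rfl fun i _ => ?_
          rw [← Finset.sum_sub_distrib]
          refine Finset.sum_congr rfl fun j _ => ?_
          rw [hdrd]; ring
        rw [e3, e1, e2, ← Finset.sum_sub_distrib]
        refine Finset.sum_congr rfl fun i _ => ?_
        rw [← Finset.sum_sub_distrib]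
        refine Finset.sum_congr rfl fun j _ => ?_
        ring)
    have hfin : C0 * (B0 * B1) ≤ q * Δ + G * (12 + (N + 2)) * κ := by
      have e : C0 * (B0 * B1) = G * Ef (1 / 2) N K t * Δ + G * 12 * κ := by
        rw [hB1, hG]; ring
      rw [e]
      have i1 : G * Ef (1 / 2) N K t * Δ ≤ q * Δ := mul_le_mul_of_nonneg_right hEt hΔ
      have i2 : 0 ≤ G * (N + 2) * κ := by positivity
      linarith
    refine ⟨hres.1.mono hfin, (hres.2.congr fun θ _ => ?_).mono hfin⟩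
    have : fderiv ℝ (fun θ => a' θ - b' θ - (c - c')) θ = fderiv ℝ a' θ - fderiv ℝ b' θ := by
      rw [fderiv_sub_const, fderiv_fun_sub (sa.sp.diff θ) (sb.sp.diff θ)]
    rw [this]
  · intro C x y δ hδ hδt D c a a' ia sa Δ hΔ h0 h1
    set B1 : ℝ := Ef (1 / 2) N K t * Δ + (N + 2) * δ with hB1
    have hB1' : 0 ≤ B1 := by positivity
    have spa := sp_co sa.sp
    have i0 : ∀ x : V N, ‖(fun _ : V N => (0 : V N)) x‖ < t := fun x => by simpa using ht0
    have hf0 : ∀ θ : V N, fderiv ℝ (fun _ : V N => (0 : V N)) θ = 0 := fun θ => by simp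
    have key : ∀ (w : Fo N) (C : Matrix (Fin N) (Fin N) ℝ), Near r K δ w (mdl C) → ∀ j k,
        HO (1 / 2) B1 univ (pz w (mdl C) a j k) := by
      intro w C hw j k
      have q1 := ne_est (α := 1 / 2) (by norm_num) (by norm_num) ht0 ht1 htr hK (hw.mono hδt)
        ia.sp (SP.const (0 : V N)) ia.b0 i0 ia.b1
        (HO.congr (ho_zero ht0.le) fun θ _ => hf0 θ)
        (h0.congr fun θ _ => by simp) (h1.congr fun θ _ => by rw [hf0, sub_zero]) j k
      have q2 := base_est (α := 1 / 2) (by norm_num) (by norm_num) hr hδ hw j k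
      exact (q1.add q2).congr fun θ _ => by ring
    have hcod : ∀ k, co (fun θ => a' θ - c) k = fun θ => co a' k θ - c k := fun k => rfl
    have spd : SP (fun θ => a' θ - c) := sa.sp.sub (SP.const _)
    have hdrd : ∀ j k θ, dr j (co (fun θ => a' θ - c) k) θ = dr j (co a' k) θ := by
      intro j k θ
      rw [hcod, dr_sub (spa k) (SP.const _)]
      simp [dr]
    have hmd : ∀ k, mn (co (fun θ => a' θ - c) k) = 0 := by
      intro k
      rw [hcod, mn_sub (spa k) (SP.const _), mn_const, sa.mean]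
      ring
    have hB : 0 ≤ B0 * B1 := by positivity
    have hle1 : B1 ≤ B0 * B1 := le_mul_of_one_le_left hB1' hB0'
    have hle2 : N * (N * (Λ * B1)) ≤ B0 * B1 := by
      rw [hB0]
      have : (N : ℝ) * (N * (Λ * B1)) = N * (N * Λ) * B1 := by ring
      rw [this, add_mul, one_mul]; linarith
    have hres := H (Sm C) (ell_Sm D.CL) _ spd hmd (B0 * B1) hB
      (fun j k => by
        refine ((key x 1 D.nx j k).neg.congr fun θ _ => ?_).mono hle1
        rw [hdrd, hdrd]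
        exact sa.eqx j k θ)
      (by
        refine ((ho_Csum hΛ D.CL (key y C D.ny)).congr fun θ _ => ?_).mono hle2
        rw [← sa.eqy θ]
        unfold dS
        exact Finset.sum_congr rfl fun i _ => Finset.sum_congr rfl fun j _ => by rw [hdrd])
    have hfin : C0 * (B0 * B1) ≤ q * Δ + G * (12 + (N + 2)) * δ := by
      have e : C0 * (B0 * B1) = G * Ef (1 / 2) N K t * Δ + G * (N + 2) * δ := by
        rw [hB1, hG]; ring
      rw [e]
      have i1 : G * Ef (1 / 2) N K t * Δ ≤ q * Δ := mul_le_mul_of_nonneg_right hEt hΔ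
      have i2 : 0 ≤ G * 12 * δ := by positivity
      linarith
    refine ⟨hres.1.mono hfin, (hres.2.congr fun θ _ => ?_).mono hfin⟩
    rw [fderiv_sub_const]

end

end Crest.Agent.R281.Mc673
end

-- ▼ part R281/Mc10_673

/-!
# R281 / LAGT (helper673), part 10

The iteration, its limit, the equations satisfied by the limit, dependence on the parameters.
-/

set_option autoImplicit false
set_option maxSynthPendingDepth 3

open MeasureTheory Set Metric Filter
open scoped ContDiff Topology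

namespace Crest.Agent.R281.Mc673

open Crest.Agent.R238 (Ell)
open Crest.Agent.R238.Sch (ee norm_ee sum_ee)
open Crest.Agent.R273.SchA_152 (HO)

noncomputable section

variable {N : ℕ}

theorem ho_lim {X F : Type*} [NormedAddCommGroup X] [NormedAddCommGroup F] {α M : ℝ} {s : Set X}
    {f : ℕ → X → F} {g : X → F} (h : ∀ n, HO α M s (f n))
    (ht : ∀ x ∈ s, Tendsto (fun n => f n x) atTop (𝓝 (g x))) : HO α M s g where
  bdd x hx := le_of_tendsto (ht x hx).norm (Eventually.of_forall fun n => (h n).bdd x hx)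
  hol x hx y hy := le_of_tendsto ((ht x hx).sub (ht y hy)).norm
    (Eventually.of_forall fun n => (h n).hol x hx y hy)

theorem tendsto_clm {F G : Type*} [NormedAddCommGroup F] [NormedSpace ℝ F] [NormedAddCommGroup G]
    [NormedSpace ℝ G] {ι : Type*} {l : Filter ι} {T : ι → F →L[ℝ] G} {T' : F →L[ℝ] G} {v : ι → F}
    {v' : F} (hT : Tendsto T l (𝓝 T')) (hv : Tendsto v l (𝓝 v')) :
    Tendsto (fun i => T i (v i)) l (𝓝 (T' v')) :=
  ((isBoundedBilinearMap_apply (𝕜 := ℝ) (E := F) (F := G)).continuous.tendsto (T', v')).comp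
    (hT.prodMk_nhds hv)

/-- the iteration and its limit -/
structure Sol (C : Matrix (Fin N) (Fin N) ℝ) (x y : Fo N) (t ρ : ℝ) (c : V N)
    (A : ℕ → V N → V N) (a : V N → V N) : Prop where
  z : A 0 = fun _ => c
  st : ∀ n, Step C x y c (A n) (A (n + 1))
  ib : ∀ n, InB t (A n)
  h0 : ∀ n, HO (1 / 2) ρ univ (fun θ => A n θ - c)
  h1 : ∀ n, HO (1 / 2) ρ univ (fderiv ℝ (A n))
  u0 : TendstoUniformly A a atTop
  u1 : TendstoUniformly (fun n => fderiv ℝ (A n)) (fderiv ℝ a) atTop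
  df : Differentiable ℝ a

/-- invariant of the iteration -/
structure Inv (ρ : ℝ) (c : V N) (a : V N → V N) : Prop where
  sp : SP a
  h0 : HO (1 / 2) ρ univ (fun θ => a θ - c)
  h1 : HO (1 / 2) ρ univ (fderiv ℝ a)

theorem Inv.norm_le {ρ : ℝ} {c : V N} {a : V N → V N} (h : Inv ρ c a) (hc : ‖c‖ ≤ ρ) (x : V N) :
    ‖a x‖ ≤ 2 * ρ := by
  have h1 := h.h0.bdd x (mem_univ x)
  have h2 : a x = (a x - c) + c := by abel
  rw [h2]
  exact (norm_add_le _ _).trans (by linarith)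

theorem Inv.inB {t ρ : ℝ} {c : V N} {a : V N → V N} (h : Inv ρ c a) (hc : ‖c‖ ≤ ρ)
    (hρ : 0 < ρ) (hρt : ρ ≤ t / 4) : InB t a where
  sp := h.sp
  b0 x := lt_of_le_of_lt (h.norm_le hc x) (by linarith)
  b1 := h.h1.mono (by linarith)

theorem Inv.ho {ρ : ℝ} {c : V N} {a : V N → V N} (h : Inv ρ c a) (hc : ‖c‖ ≤ ρ) (hρ : 0 < ρ) :
    HO (1 / 2) (2 * ρ) univ a where
  bdd x _ := h.norm_le hc x
  hol x hx y hy := by
    have h1 := h.h0.hol x hx y hy
    have e : a x - a y = a x - c - (a y - c) := by abel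
    rw [e]
    refine h1.trans (mul_le_mul_of_nonneg_right (by linarith) (Real.rpow_nonneg (norm_nonneg _) _))

theorem Inv.step {Λ K r q CH t δ ρ : ℝ} (G : Good N Λ K r q CH t) (hq : q ≤ 1 / 4) (hδ : 0 ≤ δ) (hδt : δ ≤ t)
    (hρ : 0 < ρ) (hρt : ρ ≤ t / 4) (hCδ : CH * δ ≤ ρ / 2) {C : Matrix (Fin N) (Fin N) ℝ}
    {x y : Fo N} (D : Dat r K δ Λ C x y) {c : V N} (hc : ‖c‖ ≤ ρ) {a a' : V N → V N}
    (h : Inv ρ c a) (hs : Step C x y c a a') : Inv ρ c a' := by
  have h1 := G.single C x y δ hδ hδt D c a a' (h.inB hc hρ hρt) hs (2 * ρ) (by positivity)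
    (h.ho hc hρ) (h.h1.mono (by linarith))
  have h2 : q * (2 * ρ) ≤ 1 / 4 * (2 * ρ) := mul_le_mul_of_nonneg_right hq (by positivity)
  exact ⟨hs.sp, h1.1.mono (by linarith), h1.2.mono (by linarith)⟩

/-- existence of the iteration -/
theorem exists_seq {Λ K r q CH t δ ρ : ℝ} (G : Good N Λ K r q CH t) (hq : q ≤ 1 / 4) (hδ : 0 ≤ δ) (hδt : δ ≤ t)
    (hρ : 0 < ρ) (hρt : ρ ≤ t / 4) (hCδ : CH * δ ≤ ρ / 2) {C : Matrix (Fin N) (Fin N) ℝ}
    {x y : Fo N} (D : Dat r K δ Λ C x y) {c : V N} (hc : ‖c‖ ≤ ρ) :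
    ∃ A : ℕ → V N → V N, A 0 = (fun _ => c) ∧ (∀ n, Step C x y c (A n) (A (n + 1))) ∧
      ∀ n, Inv ρ c (A n) := by
  have h0 : Inv ρ c (fun _ : V N => c) :=
    ⟨SP.const c, (ho_zero hρ.le).congr fun θ _ => by simp,
      (ho_zero hρ.le).congr fun θ _ => by simp⟩
  have hex : ∀ a : {a : V N → V N // Inv ρ c a}, ∃ a' : {a : V N → V N // Inv ρ c a},
      Step C x y c a.1 a'.1 := by
    rintro ⟨a, ha⟩
    obtain ⟨a', ha'⟩ := step_exists D ha.sp
      (fun θ => ((ha.inB hc hρ hρt).b0 θ).trans_le G.tr) c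
    exact ⟨⟨a', ha.step G hq hδ hδt hρ hρt hCδ D hc ha'⟩, ha'⟩
  choose f hf using hex
  refine ⟨fun n => (f^[n] ⟨fun _ => c, h0⟩).1, rfl, fun n => ?_, fun n => (f^[n] ⟨_, h0⟩).2⟩
  show Step C x y c (f^[n] ⟨_, h0⟩).1 (f^[n + 1] ⟨_, h0⟩).1
  rw [Function.iterate_succ_apply']
  exact hf _

/-- existence of the limit -/
theorem exists_sol' {Λ K r q CH t δ ρ : ℝ} (G : Good N Λ K r q CH t) (hq : q ≤ 1 / 4) (hδ : 0 ≤ δ) (hδt : δ ≤ t)
    (hρ : 0 < ρ) (hρt : ρ ≤ t / 4) (hCδ : CH * δ ≤ ρ / 2) {C : Matrix (Fin N) (Fin N) ℝ}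
    {x y : Fo N} (D : Dat r K δ Λ C x y) {c : V N} (hc : ‖c‖ ≤ ρ) :
    ∃ (A : ℕ → V N → V N) (a : V N → V N), Sol C x y t ρ c A a := by
  obtain ⟨A, hA0, hst, hinv⟩ := exists_seq G hq hδ hδt hρ hρt hCδ D hc
  have hib : ∀ n, InB t (A n) := fun n => (hinv n).inB hc hρ hρt
  have Dt := D.mono hδt
  -- consecutive differences
  have hdiff : ∀ n, HO (1 / 2) (ρ * (1 / 4) ^ n) univ (fun θ => A (n + 1) θ - A n θ) ∧
      HO (1 / 2) (ρ * (1 / 4) ^ n) univ
        (fun θ => fderiv ℝ (A (n + 1)) θ - fderiv ℝ (A n) θ) := by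
    intro n
    induction n with
    | zero =>
      have h1 := hinv 1
      rw [pow_zero, mul_one]
      refine ⟨h1.h0.congr fun θ _ => by rw [hA0], h1.h1.congr fun θ _ => ?_⟩
      rw [hA0]; simp
    | succ n ih =>
      have hΔ : 0 ≤ ρ * (1 / 4) ^ n := by positivity
      have h1 := G.pair C x y x y Dt Dt 0 le_rfl (Close.refl le_rfl x) (Close.refl le_rfl y) c c
        (A (n + 1)) (A n) (A (n + 2)) (A (n + 1)) (hib _) (hib _) (hst _) (hst _)
        (ρ * (1 / 4) ^ n) hΔ ih.1 ih.2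
      have e : q * (ρ * (1 / 4) ^ n) + CH * 0 ≤ ρ * (1 / 4) ^ (n + 1) := by
        rw [pow_succ]
        have := mul_le_mul_of_nonneg_right hq hΔ
        linarith
      exact ⟨(h1.1.congr fun θ _ => by simp).mono e, h1.2.mono e⟩
  -- limits
  have q1 : (1 / 4 : ℝ) < 1 := by norm_num
  have cau0 : ∀ θ, CauchySeq fun n => A n θ := fun θ =>
    cauchySeq_of_le_geometric (1 / 4) ρ q1 fun n => by
      rw [dist_comm, dist_eq_norm]; exact (hdiff n).1.bdd θ (mem_univ θ)
  have cau1 : ∀ θ, CauchySeq fun n => fderiv ℝ (A n) θ := fun θ =>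
    cauchySeq_of_le_geometric (1 / 4) ρ q1 fun n => by
      rw [dist_comm, dist_eq_norm]; exact (hdiff n).2.bdd θ (mem_univ θ)
  choose a ha using fun θ => cauchySeq_tendsto_of_complete (cau0 θ)
  choose T hT using fun θ => cauchySeq_tendsto_of_complete (cau1 θ)
  have d0 : ∀ n θ, dist (A n θ) (a θ) ≤ ρ * (1 / 4) ^ n / (1 - 1 / 4) := fun n θ =>
    dist_le_of_le_geometric_of_tendsto (1 / 4) ρ q1 (fun n => by
      rw [dist_comm, dist_eq_norm]; exact (hdiff n).1.bdd θ (mem_univ θ)) (ha θ) n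
  have d1 : ∀ n θ, dist (fderiv ℝ (A n) θ) (T θ) ≤ ρ * (1 / 4) ^ n / (1 - 1 / 4) := fun n θ =>
    dist_le_of_le_geometric_of_tendsto (1 / 4) ρ q1 (fun n => by
      rw [dist_comm, dist_eq_norm]; exact (hdiff n).2.bdd θ (mem_univ θ)) (hT θ) n
  have hlim : Tendsto (fun n : ℕ => ρ * (1 / 4 : ℝ) ^ n / (1 - 1 / 4)) atTop (𝓝 0) := by
    have h1 := (tendsto_pow_atTop_nhds_zero_of_lt_one (r := (1 / 4 : ℝ)) (by norm_num) q1)
    have h2 := (h1.const_mul ρ).div_const (1 - 1 / 4)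
    simpa using h2
  have u0 : TendstoUniformly A a atTop := by
    rw [Metric.tendstoUniformly_iff]
    intro ε hε
    filter_upwards [(tendsto_order.1 hlim).2 ε hε] with n hn θ
    rw [dist_comm]; exact (d0 n θ).trans_lt hn
  have u1 : TendstoUniformly (fun n => fderiv ℝ (A n)) T atTop := by
    rw [Metric.tendstoUniformly_iff]
    intro ε hε
    filter_upwards [(tendsto_order.1 hlim).2 ε hε] with n hn θ
    rw [dist_comm]; exact (d1 n θ).trans_lt hn
  have hder : ∀ θ, HasFDerivAt a (T θ) θ := hasFDerivAt_of_tendstoUniformly u1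
    (fun n θ => ((hinv n).sp.diff θ).hasFDerivAt) ha
  have hTe : fderiv ℝ a = T := funext fun θ => (hder θ).fderiv
  refine ⟨A, a, hA0, hst, hib, fun n => (hinv n).h0, fun n => (hinv n).h1, u0, ?_, fun θ =>
    (hder θ).differentiableAt⟩
  rw [hTe]; exact u1

section

variable {C : Matrix (Fin N) (Fin N) ℝ} {x y : Fo N} {t ρ : ℝ} {c : V N}
  {A : ℕ → V N → V N} {a : V N → V N}

theorem Sol.t0 (S : Sol C x y t ρ c A a) (θ : V N) : Tendsto (fun n => A n θ) atTop (𝓝 (a θ)) :=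
  S.u0.tendsto_at θ

theorem Sol.t1 (S : Sol C x y t ρ c A a) (θ : V N) :
    Tendsto (fun n => fderiv ℝ (A n) θ) atTop (𝓝 (fderiv ℝ a θ)) := S.u1.tendsto_at θ

theorem Sol.ho0 (S : Sol C x y t ρ c A a) : HO (1 / 2) ρ univ (fun θ => a θ - c) :=
  ho_lim S.h0 fun θ _ => (S.t0 θ).sub_const c

theorem Sol.ho1 (S : Sol C x y t ρ c A a) : HO (1 / 2) ρ univ (fderiv ℝ a) :=
  ho_lim S.h1 fun θ _ => S.t1 θ

theorem Sol.per (S : Sol C x y t ρ c A a) : Per a := fun k θ =>
  tendsto_nhds_unique (S.t0 _) ((S.t0 θ).congr fun n => ((S.ib n).sp.per k θ).symm)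

theorem Sol.contDiff (S : Sol C x y t ρ c A a) : ContDiff ℝ 1 a := by
  rw [contDiff_one_iff_fderiv]
  refine ⟨S.df, ?_⟩
  exact S.u1.continuous (Eventually.of_forall fun n => (S.ib n).sp.fderiv.cont).frequently

theorem Sol.norm_le (S : Sol C x y t ρ c A a) (hc : ‖c‖ ≤ ρ) (θ : V N) : ‖a θ‖ ≤ 2 * ρ := by
  have h1 := S.ho0.bdd θ (mem_univ θ)
  have h2 : a θ = (a θ - c) + c := by abel
  rw [h2]
  exact (norm_add_le _ _).trans (by linarith)

theorem Sol.dr_lim (S : Sol C x y t ρ c A a) (j : Fin N) (θ : V N) :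
    Tendsto (fun n => dr j (A n) θ) atTop (𝓝 (dr j a θ)) :=
  ((ContinuousLinearMap.apply ℝ (V N) (ee j : V N)).continuous.tendsto _).comp (S.t1 θ)

theorem Sol.co_lim (S : Sol C x y t ρ c A a) (j k : Fin N) (θ : V N) :
    Tendsto (fun n => (dr j (A n) θ) k) atTop (𝓝 ((dr j a θ) k)) :=
  ((EuclideanSpace.proj k : V N →L[ℝ] ℝ).continuous.tendsto _).comp (S.dr_lim j θ)

theorem pb_lim {w : Fo N} {r : ℝ} (hw : ClF r w) {A : ℕ → V N → V N} {a : V N → V N} {θ : V N}
    (h0 : Tendsto (fun n => A n θ) atTop (𝓝 (a θ)))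
    (h1 : ∀ j, Tendsto (fun n => dr j (A n) θ) atTop (𝓝 (dr j a θ))) (har : ‖a θ‖ < r)
    (j k : Fin N) : Tendsto (fun n => pb w (A n) j k θ) atTop (𝓝 (pb w a j k θ)) := by
  have t1 : Tendsto (fun n => ((θ, A n θ) : W N)) atTop (𝓝 (θ, a θ)) :=
    tendsto_const_nhds.prodMk_nhds h0
  have t2 : Tendsto (fun n => w (θ, A n θ)) atTop (𝓝 (w (θ, a θ))) :=
    ((hw.da (p := (θ, a θ)) har).continuousAt.tendsto).comp t1
  have t3 : ∀ j, Tendsto (fun n => ((ee j, dr j (A n) θ) : W N)) atTop (𝓝 (ee j, dr j a θ)) :=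
    fun j => tendsto_const_nhds.prodMk_nhds (h1 j)
  exact tendsto_clm (tendsto_clm t2 (t3 j)) (t3 k)

theorem pz_lim {w : Fo N} {r : ℝ} (hw : ClF r w) (w0 : W N →L[ℝ] W N →L[ℝ] ℝ)
    {A : ℕ → V N → V N} {a : V N → V N} {θ : V N}
    (h0 : Tendsto (fun n => A n θ) atTop (𝓝 (a θ)))
    (h1 : ∀ j, Tendsto (fun n => dr j (A n) θ) atTop (𝓝 (dr j a θ))) (har : ‖a θ‖ < r)
    (j k : Fin N) : Tendsto (fun n => pz w w0 (A n) j k θ) atTop (𝓝 (pz w w0 a j k θ)) := by
  have t3 : ∀ j, Tendsto (fun n => ((ee j, dr j (A n) θ) : W N)) atTop (𝓝 (ee j, dr j a θ)) :=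
    fun j => tendsto_const_nhds.prodMk_nhds (h1 j)
  exact (pb_lim hw h0 h1 har j k).sub
    (tendsto_clm (tendsto_clm tendsto_const_nhds (t3 j)) (t3 k))

/-- `x = 0` on the graph -/
theorem Sol.eqx0 {r K δ Λ : ℝ} (D : Dat r K δ Λ C x y) (S : Sol C x y t ρ c A a)
    (har : ∀ θ, ‖a θ‖ < r) (j k : Fin N) (θ : V N) : pb x a j k θ = 0 := by
  have l1 : Tendsto (fun n => dr j (co (A (n + 1)) k) θ - dr k (co (A (n + 1)) j) θ) atTop
      (𝓝 ((dr j a θ) k - (dr k a θ) j)) := by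
    have h := ((S.co_lim j k θ).sub (S.co_lim k j θ)).comp (tendsto_add_atTop_nat 1)
    refine h.congr fun n => ?_
    show (dr j (A (n + 1)) θ) k - (dr k (A (n + 1)) θ) j = _
    rw [dr_co' (S.ib (n + 1)).sp, dr_co' (S.ib (n + 1)).sp]
  have l2 : Tendsto (fun n => - pz x (mdl 1) (A n) j k θ) atTop (𝓝 (- pz x (mdl 1) a j k θ)) :=
    (pz_lim D.nx.cf (mdl 1) (S.t0 θ) (fun j => S.dr_lim j θ) (har θ) j k).neg
  have e := tendsto_nhds_unique l1 (l2.congr fun n => ((S.st n).eqx j k θ).symm)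
  unfold pz at e
  rw [mdl_one_graph] at e
  linarith

/-- `C · y = 0` on the graph -/
theorem Sol.eqy0 {r K δ Λ : ℝ} (D : Dat r K δ Λ C x y) (S : Sol C x y t ρ c A a)
    (har : ∀ θ, ‖a θ‖ < r) (θ : V N) : ∑ j, ∑ k, C j k * pb y a j k θ = 0 := by
  have l1 : Tendsto (fun n => dS (Sm C) (co (A (n + 1))) θ) atTop
      (𝓝 (∑ i, ∑ j, Sm C i j * (dr i a θ) j)) := by
    have h : Tendsto (fun n => ∑ i, ∑ j, Sm C i j * (dr i (A n) θ) j) atTop
        (𝓝 (∑ i, ∑ j, Sm C i j * (dr i a θ) j)) :=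
      tendsto_finset_sum _ fun i _ => tendsto_finset_sum _ fun j _ => (S.co_lim i j θ).const_mul _
    refine (h.comp (tendsto_add_atTop_nat 1)).congr fun n => ?_
    unfold dS
    refine Finset.sum_congr rfl fun i _ => Finset.sum_congr rfl fun j _ => ?_
    rw [dr_co' (S.ib (n + 1)).sp]
  have l2 : Tendsto (fun n => ∑ j, ∑ k, C j k * pz y (mdl C) (A n) j k θ) atTop
      (𝓝 (∑ j, ∑ k, C j k * pz y (mdl C) a j k θ)) :=
    tendsto_finset_sum _ fun j _ => tendsto_finset_sum _ fun k _ =>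
      (pz_lim D.ny.cf (mdl C) (S.t0 θ) (fun j => S.dr_lim j θ) (har θ) j k).const_mul _
  have e := tendsto_nhds_unique l1 (l2.congr fun n => ((S.st n).eqy θ).symm)
  have e2 := alg_id D.CC fun j => dr j a θ
  unfold pz at e
  simp only [mul_sub, Finset.sum_sub_distrib] at e
  rw [e2] at e
  linarith

end

/-- dependence on the parameters -/
theorem sol_pair {Λ K r q CH t ρ : ℝ} (G : Good N Λ K r q CH t) (hq0 : 0 ≤ q) (hq : q ≤ 1 / 4)
    {C : Matrix (Fin N) (Fin N) ℝ} {x y x' y' : Fo N} (D : Dat r K t Λ C x y)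
    (D' : Dat r K t Λ C x' y') {κ : ℝ} (hκ : 0 ≤ κ) (hx : Close r κ x x') (hy : Close r κ y y')
    {c c' : V N} {A A' : ℕ → V N → V N} {a a' : V N → V N} (S : Sol C x y t ρ c A a)
    (S' : Sol C x' y' t ρ c' A' a') :
    HO (1 / 2) (2 * q * ‖c - c'‖ + 2 * (CH * κ)) univ (fun θ => a θ - a' θ - (c - c')) ∧
      HO (1 / 2) (2 * q * ‖c - c'‖ + 2 * (CH * κ)) univ
        (fun θ => fderiv ℝ a θ - fderiv ℝ a' θ) := by
  have hCH := G.CH0
  set B : ℝ := 2 * q * ‖c - c'‖ + 2 * (CH * κ) with hB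
  have hB0 : 0 ≤ B := by positivity
  have key : ∀ n, HO (1 / 2) B univ (fun θ => A n θ - A' n θ - (c - c')) ∧
      HO (1 / 2) B univ (fun θ => fderiv ℝ (A n) θ - fderiv ℝ (A' n) θ) := by
    intro n
    induction n with
    | zero =>
      rw [S.z, S'.z]
      exact ⟨(ho_zero hB0).congr fun θ _ => by simp, (ho_zero hB0).congr fun θ _ => by simp⟩
    | succ n ih =>
      have hc1 : HO (1 / 2) ‖c - c'‖ univ (fun _ : V N => c - c') := ho_const _ le_rfl
      have hn : 0 ≤ ‖c - c'‖ := norm_nonneg _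
      have h1 := G.pair C x y x' y' D D' κ hκ hx hy c c' (A n) (A' n) (A (n + 1)) (A' (n + 1))
        (S.ib n) (S'.ib n) (S.st n) (S'.st n) (B + ‖c - c'‖) (by positivity)
        ((ih.1.add hc1).congr fun θ _ => by abel) (ih.2.mono (by linarith))
      have hle : q * (B + ‖c - c'‖) + CH * κ ≤ B := by
        have h2 : q * B ≤ 1 / 4 * B := mul_le_mul_of_nonneg_right hq hB0
        have h3 : 0 ≤ q * ‖c - c'‖ := by positivity
        have h4 : 0 ≤ CH * κ := by positivity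
        rw [mul_add]
        nlinarith
      exact ⟨h1.1.mono hle, h1.2.mono hle⟩
  exact ⟨ho_lim (fun n => (key n).1) fun θ _ => ((S.t0 θ).sub (S'.t0 θ)).sub_const _,
    ho_lim (fun n => (key n).2) fun θ _ => (S.t1 θ).sub (S'.t1 θ)⟩

end

end Crest.Agent.R281.Mc673
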