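import Crest.Agent.R281.Mc12_673

-- ▼ part R281/Mc13_673
section

/-!
# R281 / LAGT (helper673), part 13

Rigidity: the limit graph satisfies `y = 0`.
-/

set_option autoImplicit false
set_option maxSynthPendingDepth 3

open MeasureTheory Set Metric Filter
open scoped ContDiff Topology

namespace Crest.Agent.R281.Mc673

open Crest.Agent.R238.Sch (ee norm_ee sum_ee)
open Crest.Agent.R273.SchA_152 (HO)
open Crest.Agent.R275.Tor812 (box volume_box)

noncomputable section

variable {N : ℕ}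

/-- better bound for the limit -/
theorem sol_better {Λ K r q CH t δ ρ : ℝ} (G : Good N Λ K r q CH t) (hδ : 0 ≤ δ) (hδt : δ ≤ t)
    (hρ : 0 < ρ) {C : Matrix (Fin N) (Fin N) ℝ}
    {x y : Fo N} (D : Dat r K δ Λ C x y) {c : V N} (hc : ‖c‖ ≤ ρ) {A : ℕ → V N → V N}
    {a : V N → V N} (S : Sol C x y t ρ c A a) :
    HO (1 / 2) (q * (2 * ρ) + CH * δ) univ (fun θ => a θ - c) ∧
      HO (1 / 2) (q * (2 * ρ) + CH * δ) univ (fderiv ℝ a) := by
  have hI : ∀ n, Inv ρ c (A n) := fun n => ⟨(S.ib n).sp, S.h0 n, S.h1 n⟩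
  have key := fun n => G.single C x y δ hδ hδt D c (A n) (A (n + 1)) (S.ib n) (S.st n) (2 * ρ)
    (by positivity) ((hI n).ho hc hρ) ((hI n).h1.mono (by linarith))
  exact ⟨ho_lim (fun n => (key n).1) fun θ _ =>
      (((S.t0 θ).comp (tendsto_add_atTop_nat 1)).sub_const c),
    ho_lim (fun n => (key n).2) fun θ _ => (S.t1 θ).comp (tendsto_add_atTop_nat 1)⟩

/-- a form is bounded on smaller closed tubes -/
theorem ClF.bdd {r : ℝ} {w : Fo N} (hw : ClF r w) {s : ℝ} (hs : s < r) :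
    ∃ B, 0 ≤ B ∧ ∀ θ v : V N, ‖v‖ ≤ s → ‖w (θ, v)‖ ≤ B := by
  have hK : IsCompact (cube N ×ˢ closedBall (0 : V N) s) :=
    isCompact_cube.prod (isCompact_closedBall _ _)
  have hsub : cube N ×ˢ closedBall (0 : V N) s ⊆ tube N r := by
    rintro ⟨θ, v⟩ ⟨_, hv⟩
    have h1 : ‖v‖ ≤ s := by simpa using hv
    exact lt_of_le_of_lt h1 hs
  obtain ⟨B, hB⟩ := hK.exists_bound_of_continuousOn (hw.sm.continuousOn.mono hsub)
  refine ⟨max B 0, le_max_right _ _, fun θ v hv => ?_⟩
  obtain ⟨k, z, hz, rfl⟩ := exists_cube θ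
  have h1 := hw.per k (z, v) (lt_of_le_of_lt hv hs)
  have h2 : w (z + kv k, v) = w (z, v) := h1
  rw [h2]
  exact (hB (z, v) ⟨hz, by simpa using hv⟩).trans (le_max_left _ _)

theorem norm_frame_le {a : V N → V N} {θ : V N} (h : ‖fderiv ℝ a θ‖ ≤ 1) (j : Fin N) :
    ‖((ee j, dr j a θ) : W N)‖ ≤ 1 := by
  show max ‖(ee j : V N)‖ ‖dr j a θ‖ ≤ 1
  rw [norm_ee]
  refine max_le le_rfl (((fderiv ℝ a θ).le_opNorm _).trans ?_)
  rw [norm_ee, mul_one]; exact h

theorem pb_bdd {w : Fo N} {a : V N → V N} {θ : V N} {B : ℝ} (hw : ‖w (θ, a θ)‖ ≤ B)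
    (h : ‖fderiv ℝ a θ‖ ≤ 1) (j k : Fin N) : |pb w a j k θ| ≤ B := by
  have h1 := bil_le (w (θ, a θ)) (ee j, dr j a θ) (ee k, dr k a θ)
  have h2 := norm_frame_le h j
  have h3 := norm_frame_le h k
  have hB : 0 ≤ B := (norm_nonneg _).trans hw
  refine h1.trans ?_
  calc ‖w (θ, a θ)‖ * ‖((ee j, dr j a θ) : W N)‖ * ‖((ee k, dr k a θ) : W N)‖ ≤ B * 1 * 1 := by
        gcongr
    _ = B := by ring

/-- `(M·H)² - 2 tr(MHMH)` -/
def nl (M : Matrix (Fin N) (Fin N) ℝ) (H : Fin N → Fin N → ℝ) : ℝ := dotM M H ^ 2 - 2 * trMH M H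

theorem continuous_nl (M : Matrix (Fin N) (Fin N) ℝ) : Continuous (nl M) := by
  unfold nl dotM trMH
  fun_prop

theorem continuous_trMH (M : Matrix (Fin N) (Fin N) ℝ) : Continuous (trMH M) := by
  unfold trMH
  fun_prop

/-- the null Lagrangian identity for the limit -/
theorem null_lim {r K δ Λ t ρ : ℝ} {C : Matrix (Fin N) (Fin N) ℝ} {x y : Fo N}
    (D : Dat r K δ Λ C x y) {c : V N} (hc : ‖c‖ ≤ ρ) (ht1 : t ≤ 1) (htr : t ≤ r)
    (hρr : 2 * ρ < r) {A : ℕ → V N → V N}
    {a : V N → V N} (S : Sol C x y t ρ c A a) {M : Matrix (Fin N) (Fin N) ℝ}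
    (hM : ∀ j k, M j k = - M k j) :
    mn (fun θ => nl M (fun j k => pb y a j k θ)) = 0 := by
  have har : ∀ n θ, ‖A n θ‖ < r := fun n θ => ((S.ib n).b0 θ).trans_le htr
  have cy := D.ny.cf
  have hEx : ∀ n, Ex (fun j k => pb y (A n) j k) := fun n =>
    { sp := fun j k => sp_pb cy (S.ib n).sp (har n) j k
      anti := fun j k θ => pb_anti cy (har n) j k θ
      closed := fun i j k θ => pb_closed cy (S.ib n).sp (har n) i j k θ
      mean := fun j k => by
        have h2 : pb y (fun _ => 0) j k = fun θ => y (θ, 0) (eh j) (eh k) := by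
          funext θ
          have h0 : ∀ j, dr j (fun _ : V N => (0 : V N)) θ = 0 := fun j => by simp [dr]
          unfold pb
          rw [h0, h0]; rfl
        rw [mn_pb cy (S.ib n).sp (har n), h2]
        exact D.my j k }
  have h0 : ∀ n, mn (fun θ => nl M (fun j k => pb y (A n) j k θ)) = 0 := fun n =>
    null_trace hM (hEx n)
  -- bounds
  obtain ⟨B, hB0, hB⟩ := cy.bdd hρr
  have hI : ∀ n, Inv ρ c (A n) := fun n => ⟨(S.ib n).sp, S.h0 n, S.h1 n⟩
  have hbd : ∀ n θ j k, |pb y (A n) j k θ| ≤ B := fun n θ j k =>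
    pb_bdd (hB θ _ ((hI n).norm_le hc θ)) (((S.ib n).b1.bdd θ (mem_univ θ)).trans ht1) j k
  obtain ⟨B2, hB2⟩ := (isCompact_closedBall (0 : Fin N → Fin N → ℝ) B).exists_bound_of_continuousOn
    (continuous_nl M).continuousOn
  have hbd2 : ∀ n θ, ‖nl M (fun j k => pb y (A n) j k θ)‖ ≤ B2 := by
    intro n θ
    refine hB2 _ ?_
    rw [mem_closedBall, dist_zero_right]
    refine (pi_norm_le_iff_of_nonneg hB0).2 fun j => (pi_norm_le_iff_of_nonneg hB0).2 fun k => ?_
    exact hbd n θ j k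
  have hlp : Continuous fun x : Fin N → ℝ => (WithLp.toLp 2 x : V N) :=
    (PiLp.continuousLinearEquiv 2 ℝ (fun _ : Fin N => ℝ)).symm.continuous
  have ha2 : ∀ θ, ‖a θ‖ < r := fun θ => (S.norm_le hc θ).trans_lt hρr
  have hcn : ∀ n, Continuous fun θ => nl M (fun j k => pb y (A n) j k θ) := fun n =>
    (continuous_nl M).comp (continuous_pi fun j => continuous_pi fun k => ((hEx n).sp j k).cont)
  have hlim : Tendsto (fun n => mn (fun θ => nl M (fun j k => pb y (A n) j k θ))) atTop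
      (𝓝 (mn (fun θ => nl M (fun j k => pb y a j k θ)))) := by
    refine tendsto_integral_of_dominated_convergence (fun _ => B2)
      (fun n => ((hcn n).comp hlp).aestronglyMeasurable) (integrable_const _)
      (fun n => Eventually.of_forall fun z => hbd2 n _) (Eventually.of_forall fun z => ?_)
    refine ((continuous_nl M).tendsto _).comp ?_
    refine tendsto_pi_nhds.2 fun j => tendsto_pi_nhds.2 fun k => ?_
    exact pb_lim cy (S.t0 _) (fun j => S.dr_lim j _) (ha2 _) j k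
  exact (tendsto_nhds_unique hlim (by simp only [h0]; exact tendsto_const_nhds))

theorem trMH_eq (M H : Matrix (Fin N) (Fin N) ℝ) :
    (M * H * M * H).trace = trMH M (fun j k => H j k) := by
  unfold trMH
  simp only [Matrix.trace, Matrix.diag, Matrix.mul_apply]
  refine Finset.sum_congr rfl fun j _ => ?_
  have e : ∀ m, (∑ l, (∑ k, M j k * H k l) * M l m) * H m j =
      ∑ l, ∑ k, M j k * H k l * M l m * H m j := by
    intro m
    rw [Finset.sum_mul]
    refine Finset.sum_congr rfl fun l _ => ?_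
    rw [Finset.sum_mul, Finset.sum_mul]
  simp_rw [e]
  rw [Finset.sum_comm]
  have e2 : ∀ l, ∑ m, ∑ k, M j k * H k l * M l m * H m j =
      ∑ k, ∑ m, M j k * H k l * M l m * H m j := fun l => Finset.sum_comm
  simp_rw [e2]
  exact Finset.sum_comm

theorem Mc_eq {C : Matrix (Fin N) (Fin N) ℝ} (hC : C * C = -1) :
    (1 + C.transpose * C) * C = C - C.transpose := by
  rw [add_mul, one_mul, mul_assoc, hC]; simp [sub_eq_add_neg]

theorem continuous_pb {w : Fo N} {r : ℝ} (hw : ClF r w) {a : V N → V N} (hc : ContDiff ℝ 1 a)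
    (har : ∀ θ, ‖a θ‖ < r) (j k : Fin N) : Continuous (pb w a j k) := by
  have h1 : Continuous fun θ => w (θ, a θ) := by
    refine continuous_iff_continuousAt.2 fun θ => ?_
    exact ContinuousAt.comp (g := w) (hw.da (p := (θ, a θ)) (har θ)).continuousAt
      (continuousAt_id.prodMk hc.continuous.continuousAt)
  have h2 : ∀ j, Continuous fun θ => ((ee j, dr j a θ) : W N) := fun j =>
    continuous_const.prodMk ((hc.continuous_fderiv (by simp)).clm_apply continuous_const)
  exact (h1.clm_apply (h2 j)).clm_apply (h2 k)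

/-- **rigidity** -/
theorem rigid (r2 : R2) (r3 : R3) (N : ℕ) {Λ K : ℝ} (hK : 0 ≤ K) :
    ∃ e1 > 0, ∀ (r δ t ρ : ℝ) (C : Matrix (Fin N) (Fin N) ℝ) (x y : Fo N),
      Dat r K δ Λ C x y → (∀ p ∈ tube N r, ∃ I : W N → W N, (∀ u, I (I u) = -u) ∧
        ∀ u w, x p (I u) w = - y p u w) → 0 ≤ δ → t ≤ 1 → t ≤ r → 0 < ρ → 3 * ρ ≤ r →
      δ + K * (3 * ρ) ≤ e1 → ρ ≤ e1 → ρ ≤ 1 → ∀ (c : V N), ‖c‖ ≤ ρ → ∀ (A : ℕ → V N → V N)
      (a : V N → V N), Sol C x y t ρ c A a → ∀ j k θ, pb y a j k θ = 0 := by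
  obtain ⟨c0, hc0, η, hη, H2⟩ := r2 N Λ
  obtain ⟨e0, he0, C1, H3⟩ := r3 N Λ (4 * K)
  set e1 : ℝ := min e0 (η / (|C1| + 1)) with he1
  have he1p : 0 < e1 := by positivity
  refine ⟨e1, he1p, ?_⟩
  intro r δ t ρ C x y D hI hδ ht1 htr hρ hρr hρ1 hρ2 hρ3 c hc A a S
  have ha2 : ∀ θ, ‖a θ‖ ≤ 2 * ρ := fun θ => S.norm_le hc θ
  have har : ∀ θ, ‖a θ‖ < r := fun θ => (ha2 θ).trans_lt (by linarith)
  have hr : 0 < r := by linarith
  set M : Matrix (Fin N) (Fin N) ℝ := (1 + C.transpose * C) * C with hM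
  have hMe : M = C - C.transpose := Mc_eq D.CC
  have hManti : ∀ j k, M j k = - M k j := by
    intro j k
    rw [hMe, Matrix.sub_apply, Matrix.sub_apply, Matrix.transpose_apply, Matrix.transpose_apply]
    ring
  -- the matrix `H`
  set Hm : V N → Matrix (Fin N) (Fin N) ℝ := fun θ =>
    Matrix.of fun j k => y (θ, a θ) (ee j, dr j a θ) (ee k, dr k a θ) with hHm
  have hHpb : ∀ θ j k, Hm θ j k = pb y a j k θ := fun θ j k => rfl
  have hHanti : ∀ θ, (Hm θ).transpose = - Hm θ := by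
    intro θ
    ext j k
    rw [Matrix.transpose_apply, Matrix.neg_apply, hHpb, hHpb]
    exact D.ny.cf.alt (θ, a θ) (har θ) _ _
  -- pointwise inequality
  have hpt : ∀ θ, c0 * n1 (Hm θ) ^ 2 ≤ trMH M (fun j k => pb y a j k θ) := by
    intro θ
    obtain ⟨I, hI1, hI2⟩ := hI (θ, a θ) (har θ)
    set e : ℝ := max (δ + K * (3 * ρ)) ρ with he
    have hee0 : e ≤ e0 := (max_le hρ1 hρ2).trans (min_le_left _ _)
    have heη : e ≤ η / (|C1| + 1) := (max_le hρ1 hρ2).trans (min_le_right _ _)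
    have he00 : 0 ≤ e := hρ.le.trans (le_max_right _ _)
    have h3ρ : ‖a θ‖ < 3 * ρ := (ha2 θ).trans_lt (by linarith)
    have en : ∀ (w : Fo N) (C : Matrix (Fin N) (Fin N) ℝ), Near r K δ w (mdl C) →
        (∀ j k, |w (θ, a θ) (eh j) (eh k)| ≤ e) ∧
        (∀ j l, |w (θ, a θ) (eh j) (ev' l) + C j l| ≤ e) ∧
        (∀ l m, |w (θ, a θ) (ev' l) (ev' m)| ≤ 4 * K) := by
      intro w C hw
      have m1 : ∀ j k, mdl C (eh j : W N) (eh k) = 0 := fun j k => by
        have := mdl_graph C j k 0 0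
        simpa [eh] using this
      have m2 : ∀ j l, mdl C (eh j : W N) (ev' l) = - C j l := fun j l => by
        rw [mdl_apply]
        simp only [eh, ev', PiLp.zero_apply, mul_zero, zero_sub, mul_neg,
          Finset.sum_neg_distrib, ee_apply]
        congr 1
        rw [Finset.sum_eq_single j]
        · rw [Finset.sum_eq_single l]
          · simp
          · intro i _ hi; simp [hi]
          · simp
        · intro i _ hi; simp [hi]
        · simp
      have m3 : ∀ l m, mdl C (ev' l : W N) (ev' m) = 0 := fun l m => by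
        rw [mdl_apply]
        simp [ev']
      refine ⟨fun j k => ?_, fun j l => ?_, fun l m => ?_⟩
      · have h := hw.entry hρr hr hK (norm_eh j) (norm_eh k) h3ρ (hw.hh θ j k)
        rw [m1, sub_zero] at h
        exact h.trans (le_max_left _ _)
      · have h := hw.entry hρr hr hK (norm_eh j) (norm_ev' l) h3ρ (hw.hv θ j l)
        rw [m2, sub_neg_eq_add] at h
        exact h.trans (le_max_left _ _)
      · have h := hw.entry hρr hr hK (norm_ev' l) (norm_ev' m) h3ρ (hw.vv θ l m)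
        rw [m3, sub_zero] at h
        have : K * (3 * ρ) ≤ K * 3 := mul_le_mul_of_nonneg_left (by linarith) hK
        linarith
    obtain ⟨x1, x2, x3⟩ := en x 1 D.nx
    obtain ⟨y1, y2, y3⟩ := en y C D.ny
    have hA : ∀ j, ‖dr j a θ‖ ≤ e := fun j => by
      refine ((fderiv ℝ a θ).le_opNorm _).trans ?_
      rw [norm_ee, mul_one]
      exact (S.ho1.bdd θ (mem_univ θ)).trans (le_max_right _ _)
    have h3 := H3 e he00 hee0 C D.CL (x (θ, a θ)) (y (θ, a θ))
      (D.nx.cf.alt (θ, a θ) (har θ)) (D.ny.cf.alt (θ, a θ) (har θ)) I hI1 hI2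
      (fun j => dr j a θ) hA x1
      (fun j l => by have := x2 j l; rwa [Matrix.one_apply] at this) x3 y1 y2 y3
      (fun j k => S.eqx0 D har j k θ)
    have h4 := H2 C (Hm θ) D.CC D.CL (hHanti θ) fun j k => by
      refine (h3 j k).trans ?_
      have hn : 0 ≤ n1 (Hm θ) := Finset.sum_nonneg fun j _ => Finset.sum_nonneg fun k _ =>
        abs_nonneg _
      refine mul_le_mul_of_nonneg_right ?_ hn
      calc C1 * e ≤ (|C1| + 1) * e := mul_le_mul_of_nonneg_right
            ((le_abs_self _).trans (by linarith)) he00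
        _ ≤ (|C1| + 1) * (η / (|C1| + 1)) := mul_le_mul_of_nonneg_left heη (by positivity)
        _ = η := by field_simp
    rw [trMH_eq] at h4
    exact h4
  -- the scalar equation
  have hdot : ∀ θ, dotM M (fun j k => pb y a j k θ) = 0 := by
    intro θ
    have h1 := S.eqy0 D har θ
    have h2 : ∑ j, ∑ k, C k j * pb y a j k θ = - ∑ j, ∑ k, C j k * pb y a j k θ := by
      rw [Finset.sum_comm, ← Finset.sum_neg_distrib]
      refine Finset.sum_congr rfl fun j _ => ?_
      rw [← Finset.sum_neg_distrib]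
      refine Finset.sum_congr rfl fun k _ => ?_
      have : pb y a k j θ = - pb y a j k θ := D.ny.cf.alt (θ, a θ) (har θ) _ _
      rw [this]; ring
    unfold dotM
    have h3 : ∑ j, ∑ k, M j k * pb y a j k θ =
        ∑ j, ∑ k, C j k * pb y a j k θ - ∑ j, ∑ k, C k j * pb y a j k θ := by
      rw [← Finset.sum_sub_distrib]
      refine Finset.sum_congr rfl fun j _ => ?_
      rw [← Finset.sum_sub_distrib]
      refine Finset.sum_congr rfl fun k _ => ?_
      rw [hMe, Matrix.sub_apply, Matrix.transpose_apply]; ring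
    rw [h3, h2, h1]; ring
  -- integrate
  have hn := null_lim D hc ht1 htr (by linarith) S hManti
  have hn2 : mn (fun θ => trMH M (fun j k => pb y a j k θ)) = 0 := by
    have e : (fun θ => nl M (fun j k => pb y a j k θ)) =
        fun θ => (-2) * trMH M (fun j k => pb y a j k θ) := by
      funext θ
      unfold nl
      rw [hdot]; ring
    rw [e, mn_mul] at hn
    linarith
  have hcpb : ∀ j k, Continuous (pb y a j k) := continuous_pb D.ny.cf S.contDiff har
  have hperpb : ∀ j k, Per (pb y a j k) := by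
    intro j k m θ
    have h1 : a (θ + kv m) = a θ := S.per m θ
    have h2 : fderiv ℝ a (θ + kv m) = fderiv ℝ a θ := by
      have h3 : fderiv ℝ (fun y => a (y + kv m)) θ = fderiv ℝ a (θ + kv m) :=
        fderiv_comp_add_right _
      rw [← h3]
      congr 1
      exact funext fun y => S.per m y
    show y (θ + kv m, a (θ + kv m)) (ee j, fderiv ℝ a (θ + kv m) (ee j))
      (ee k, fderiv ℝ a (θ + kv m) (ee k)) = _
    rw [h1, h2]
    have h4 : y (θ + kv m, a θ) = y (θ, a θ) := D.ny.cf.per m (θ, a θ) (har θ)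
    rw [h4]; rfl
  have hz := eq_zero_of_mn (f := fun θ => trMH M (fun j k => pb y a j k θ))
    (fun m θ => by simp only [fun j k => hperpb j k m θ])
    ((continuous_trMH M).comp (continuous_pi fun j => continuous_pi fun k => hcpb j k))
    (fun θ => (by positivity : (0 : ℝ) ≤ c0 * n1 (Hm θ) ^ 2).trans (hpt θ)) hn2
  intro j k θ
  have h1 := hpt θ
  rw [hz θ] at h1
  have h2 : n1 (Hm θ) ^ 2 ≤ 0 := by
    by_contra h
    push Not at h
    have := mul_pos hc0 h
    linarith
  have h3 : n1 (Hm θ) = 0 := by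
    have := sq_nonneg (n1 (Hm θ))
    exact pow_eq_zero_iff (two_ne_zero) |>.1 (le_antisymm h2 this)
  have h4 : |Hm θ j k| ≤ n1 (Hm θ) := by
    unfold n1
    refine (Finset.single_le_sum (f := fun k => |Hm θ j k|) (fun k _ => abs_nonneg _)
      (Finset.mem_univ k)).trans ?_
    exact Finset.single_le_sum (f := fun j => ∑ k, |Hm θ j k|)
      (fun j _ => Finset.sum_nonneg fun k _ => abs_nonneg _) (Finset.mem_univ j)
  rw [h3] at h4
  exact abs_nonpos_iff.1 h4

end

end Crest.Agent.R281.Mc673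
end

-- ▼ part R281/Mc14_673

/-!
# R281 / LAGT (helper673), part 14

`LagtG` from the linear algebra inputs (R2), (R3).
-/

set_option autoImplicit false
set_option maxSynthPendingDepth 3

open MeasureTheory Set Metric Filter
open scoped ContDiff Topology

namespace Crest.Agent.R281.Mc673

open Crest.Agent.R238.Sch (ee norm_ee sum_ee)
open Crest.Agent.R273.SchA_152 (HO)

noncomputable section

variable {N : ℕ}

/-- matrix of an endomorphism -/
def mat (C : V N →L[ℝ] V N) : Matrix (Fin N) (Fin N) ℝ := fun j k => (C (ee k)) j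

theorem mat_apply (C : V N →L[ℝ] V N) (j k : Fin N) : mat C j k = (C (ee k)) j := rfl

theorem clm_apply_eq (C : V N →L[ℝ] V N) (v : V N) (j : Fin N) :
    (C v) j = ∑ k, mat C j k * v k := by
  conv_lhs => rw [sum_ee v, map_sum]
  rw [WithLp.ofLp_sum, Finset.sum_apply]
  refine Finset.sum_congr rfl fun k _ => ?_
  rw [map_smul]
  show v k * (C (ee k)) j = _
  rw [mat_apply, mul_comm]

theorem mat_sq {C : V N →L[ℝ] V N} (h : ∀ v, C (C v) = -v) : mat C * mat C = -1 := by
  ext j l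
  rw [Matrix.mul_apply]
  have h1 := clm_apply_eq C (C (ee l)) j
  rw [h] at h1
  have h2 : ∑ k, mat C j k * mat C k l = (-(ee l : V N)) j := by
    rw [h1]; rfl
  rw [h2]
  show -((ee l : V N) j) = (-1 : Matrix (Fin N) (Fin N) ℝ) j l
  rw [ee_apply, Matrix.neg_apply, Matrix.one_apply]

theorem mat_le {C : V N →L[ℝ] V N} {Λ : ℝ} (h : ‖C‖ ≤ Λ) (j k : Fin N) : |mat C j k| ≤ Λ := by
  refine (abs_co_le _ j).trans ((C.le_opNorm _).trans ?_)
  rw [norm_ee, mul_one]; exact h

theorem mat_id : mat (ContinuousLinearMap.id ℝ (V N)) = 1 := by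
  ext j k
  rw [mat_apply, Matrix.one_apply]
  show (ee k : V N) j = _
  rw [ee_apply]

theorem inner_ee (C : V N →L[ℝ] V N) (j l : Fin N) :
    inner ℝ (C (ee l)) (ee j : V N) = mat C j l := by
  rw [PiLp.inner_apply, Finset.sum_eq_single j]
  · rw [ee_apply, if_pos rfl]
    simp [mat]
  · intro i _ hi
    rw [ee_apply, if_neg hi]; simp
  · simp

theorem NearG.near {r K δ : ℝ} {w : Fo N} {C : V N →L[ℝ] V N} (h : NearG r K δ w C) :
    Near r K δ w (mdl (mat C)) where
  cf := h.cf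
  alt0 := mdl_alt _
  d1 := h.d1
  d2 p hp q hq := by
    refine (convex_tube r).norm_image_sub_le_of_norm_fderiv_le (𝕜 := ℝ) (fun z hz => ?_)
      (fun z hz => h.d2 z hz) hq hp
    exact ((h.cf.cda hz).fderiv_right (m := ∞) (by simp)).differentiableAt (by simp)
  hh θ j k := by
    have m1 : mdl (mat C) (eh j : W N) (eh k) = 0 := by
      have := mdl_graph (mat C) j k 0 0
      simpa [eh] using this
    rw [m1, sub_zero]
    have := h.hh θ (ee j) (ee k)
    rwa [norm_ee, norm_ee, mul_one, mul_one] at this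
  hv θ j l := by
    have m2 : mdl (mat C) (eh j : W N) (ev' l) = - mat C j l := by
      rw [mdl_apply]
      simp only [eh, ev', PiLp.zero_apply, mul_zero, zero_sub, mul_neg,
        Finset.sum_neg_distrib, ee_apply]
      congr 1
      rw [Finset.sum_eq_single j]
      · rw [Finset.sum_eq_single l]
        · simp
        · intro i _ hi; simp [hi]
        · simp
      · intro i _ hi; simp [hi]
      · simp
    rw [m2, sub_neg_eq_add]
    have := h.hv θ (ee j) (ee l)
    rw [norm_ee, norm_ee, mul_one, mul_one, inner_ee] at this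
    exact this
  vv θ l m := by
    have m3 : mdl (mat C) (ev' l : W N) (ev' m) = 0 := by
      rw [mdl_apply]
      simp [ev']
    rw [m3, sub_zero]
    have := h.vv θ (ee l) (ee m)
    rwa [norm_ee, norm_ee, mul_one, mul_one] at this
  dhh θ i j k := by
    have := h.dhh θ (ee i) (ee j) (ee k)
    rwa [norm_ee, norm_ee, norm_ee, mul_one, mul_one, mul_one] at this
  dhv θ i j k := by
    have := h.dhv θ (ee i) (ee j) (ee k)
    rwa [norm_ee, norm_ee, norm_ee, mul_one, mul_one, mul_one] at this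

theorem NearG.mono {r K K' δ : ℝ} {w : Fo N} {C : V N →L[ℝ] V N} (h : NearG r K δ w C)
    (hK : K ≤ K') : NearG r K' δ w C where
  cf := h.cf
  d1 p hp := (h.d1 p hp).trans hK
  d2 p hp := (h.d2 p hp).trans hK
  hh := h.hh
  hv := h.hv
  vv θ u v := (h.vv θ u v).trans (by gcongr)
  dhh := h.dhh
  dhv := h.dhv
  per0 := h.per0

/-- bilinear expansion along the frame -/
theorem frame_zero {B : W N →L[ℝ] W N →L[ℝ] ℝ} {T : V N →L[ℝ] V N}
    (h : ∀ j k, B (ee j, T (ee j)) (ee k, T (ee k)) = 0) (u v : V N) :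
    B (u, T u) (v, T v) = 0 := by
  have e : ∀ u : V N, ((u, T u) : W N) = ∑ j, u j • ((ee j, T (ee j)) : W N) := by
    intro u
    have h1 : ((u, T u) : W N) = ((ContinuousLinearMap.id ℝ (V N)).prod T) u := rfl
    rw [h1]
    conv_lhs => rw [sum_ee u, map_sum]
    refine Finset.sum_congr rfl fun l _ => ?_
    rw [map_smul]; rfl
  rw [e u, e v]
  simp only [map_sum, map_smul, ContinuousLinearMap.sum_apply, ContinuousLinearMap.smul_apply,
    smul_eq_mul]
  refine Finset.sum_eq_zero fun j _ => ?_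
  rw [Finset.sum_eq_zero]
  · ring
  · intro k _
    rw [h]; ring

/-- fixed point argument for the covering property -/
theorem cover_of_lip {ρ q : ℝ} (hρ : 0 < ρ) (hq0 : 0 ≤ q) (hq : q < 1) {f : V N → V N}
    (hn : ∀ c, ‖c‖ ≤ ρ → ‖f c - c‖ ≤ ρ / 2)
    (hl : ∀ c c', ‖c‖ ≤ ρ → ‖c'‖ ≤ ρ → ‖f c - f c' - (c - c')‖ ≤ q * ‖c - c'‖)
    {v : V N} (hv : ‖v‖ ≤ ρ / 2) : ∃ c, ‖c‖ ≤ ρ ∧ f c = v := by
  set s : Set (V N) := closedBall 0 ρ with hs
  have hmem : ∀ c, c ∈ s ↔ ‖c‖ ≤ ρ := fun c => by simp [hs]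
  set g : V N → V N := fun c => v - (f c - c) with hg
  have hmaps : MapsTo g s s := by
    intro c hc
    rw [hmem] at hc ⊢
    exact (norm_sub_le _ _).trans (by linarith [hn c hc])
  have hcomp : IsComplete s := isClosed_closedBall.isComplete
  have hcon : ContractingWith ⟨q, hq0⟩ (hmaps.restrict g s s) := by
    refine ⟨by exact_mod_cast hq, LipschitzWith.of_dist_le_mul fun a b => ?_⟩
    have h1 := hl b.1 a.1 ((hmem _).1 b.2) ((hmem _).1 a.2)
    show dist (g a.1) (g b.1) ≤ q * dist a.1 b.1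
    rw [dist_eq_norm, dist_eq_norm]
    have e : g a.1 - g b.1 = f b.1 - f a.1 - (b.1 - a.1) := by simp only [hg]; abel
    rw [e, norm_sub_rev a.1 b.1]
    exact h1
  obtain ⟨c, hc, hfix, -⟩ := ContractingWith.exists_fixedPoint' hcomp hmaps hcon
    (x := 0) (by simp [hs, hρ.le]) (edist_ne_top _ _)
  refine ⟨c, (hmem c).1 hc, ?_⟩
  have h1 : v - (f c - c) = c := hfix
  have h2 : f c = v - (v - (f c - c)) + c := by abel
  rw [h1] at h2
  rw [h2]; abel

/-- **LAGT-G** from the linear algebra inputs -/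
theorem lagtG_of (r2 : R2) (r3 : R3) : LagtG := by
  intro N Λ K r ε hr hε
  set Λ' : ℝ := max Λ 0 with hΛ'
  set K' : ℝ := max K 0 with hK'
  have hK0 : 0 ≤ K' := le_max_right _ _
  obtain ⟨e1, he1, Hr⟩ := rigid r2 r3 N (Λ := Λ') hK0
  set q : ℝ := min (1 / 8) (ε / 2) with hq
  have hq0 : 0 < q := by positivity
  have hq8 : q ≤ 1 / 8 := min_le_left _ _
  have hqε : 2 * q ≤ ε := by
    have : q ≤ ε / 2 := min_le_right _ _
    linarith
  obtain ⟨CH, t, G⟩ := exists_good N (Λ := Λ') (K := K') (r := r) (q := q) (le_max_right _ _) hK0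
    hr hq0
  have hCH := G.CH0
  have ht0 := G.t0
  set ρ : ℝ := min (min (t / 4) ε) (min 1 (e1 / (2 * (3 * K' + 1)))) with hρ
  have hρ0 : 0 < ρ := by positivity
  have hρt : ρ ≤ t / 4 := (min_le_left _ _).trans (min_le_left _ _)
  have hρε : ρ ≤ ε := (min_le_left _ _).trans (min_le_right _ _)
  have hρ1 : ρ ≤ 1 := (min_le_right _ _).trans (min_le_left _ _)
  have hρe : ρ ≤ e1 / (2 * (3 * K' + 1)) := (min_le_right _ _).trans (min_le_right _ _)
  have hρe2 : ρ * (3 * K' + 1) ≤ e1 / 2 := by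
    rw [le_div_iff₀ (by positivity)] at hρe
    linarith
  have hKρ : 0 ≤ K' * ρ := by positivity
  set δ : ℝ := min (min t (e1 / 2)) (ρ / (4 * CH)) with hδ
  have hδ0 : 0 < δ := by positivity
  have hδt : δ ≤ t := (min_le_left _ _).trans (min_le_left _ _)
  have hδe : δ ≤ e1 / 2 := (min_le_left _ _).trans (min_le_right _ _)
  have hδρ : CH * δ ≤ ρ / 4 := by
    have h1 : δ ≤ ρ / (4 * CH) := min_le_right _ _
    rw [le_div_iff₀ (by positivity)] at h1
    linarith
  have htr : t ≤ r := G.tr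
  refine ⟨δ, hδ0, ρ, hρ0, ?_⟩
  intro C hCC hCΛ x y hx hy hI
  have hx' := hx.mono (le_max_left K 0)
  have hy' := hy.mono (le_max_left K 0)
  have D : Dat r K' δ Λ' (mat C) x y :=
    { CC := mat_sq hCC
      CL := mat_le (hCΛ.trans (le_max_left _ _))
      nx := by have := hx'.near; rwa [mat_id] at this
      ny := hy'.near
      mx := hx.per0
      my := hy.per0 }
  have hex : ∀ c : V N, ∃ (A : ℕ → V N → V N) (a : V N → V N), ‖c‖ ≤ ρ →
      Sol (mat C) x y t ρ c A a := by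
    intro c
    by_cases hc : ‖c‖ ≤ ρ
    · obtain ⟨A, a, h⟩ := exists_sol' G (by linarith) hδ0.le hδt hρ0 hρt (by linarith) D hc
      exact ⟨A, a, fun _ => h⟩
    · exact ⟨fun _ _ => 0, fun _ => 0, fun h => absurd h hc⟩
  choose A a hS using hex
  have hbetter : ∀ c, ‖c‖ ≤ ρ → HO (1 / 2) (ρ / 2) univ (fun θ => a c θ - c) ∧
      HO (1 / 2) (ρ / 2) univ (fderiv ℝ (a c)) := by
    intro c hc
    have h1 := sol_better G hδ0.le hδt hρ0 D hc (hS c hc)
    have h2 : q * (2 * ρ) + CH * δ ≤ ρ / 2 := by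
      have : q * (2 * ρ) ≤ 1 / 8 * (2 * ρ) := mul_le_mul_of_nonneg_right hq8 (by positivity)
      linarith
    exact ⟨h1.1.mono h2, h1.2.mono h2⟩
  have hlt : ∀ c, ‖c‖ ≤ ρ → ∀ θ, ‖a c θ‖ < r := fun c hc θ =>
    ((hS c hc).norm_le hc θ).trans_lt (by linarith)
  have hpair : ∀ c c', ‖c‖ ≤ ρ → ‖c'‖ ≤ ρ →
      HO (1 / 2) (2 * q * ‖c - c'‖) univ (fun θ => a c θ - a c' θ - (c - c')) ∧
      HO (1 / 2) (2 * q * ‖c - c'‖) univ (fun θ => fderiv ℝ (a c) θ - fderiv ℝ (a c') θ) := by
    intro c c' hc hc'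
    have h1 := sol_pair G hq0.le (by linarith) (D.mono hδt) (D.mono hδt) (κ := 0) le_rfl
      (Close.refl le_rfl x) (Close.refl le_rfl y) (hS c hc) (hS c' hc')
    simpa using h1
  have hlip : ∀ c c', ‖c‖ ≤ ρ → ‖c'‖ ≤ ρ → ∀ θ,
      ‖a c θ - a c' θ - (c - c')‖ ≤ 2 * q * ‖c - c'‖ := fun c c' hc hc' θ =>
    (hpair c c' hc hc').1.bdd θ (mem_univ θ)
  exact ⟨a,
    { c1 := fun c hc => (hS c hc).contDiff
      per := fun c hc => (hS c hc).per
      lt := hlt
      near := fun c hc θ => ((hbetter c hc).1.bdd θ (mem_univ θ)).trans (by linarith)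
      dnear := fun c hc θ => ((hbetter c hc).2.bdd θ (mem_univ θ)).trans (by linarith)
      x0 := fun c hc θ u v => frame_zero (B := x (θ, a c θ)) (T := fderiv ℝ (a c) θ)
        (fun j k => (hS c hc).eqx0 D (hlt c hc) j k θ) u v
      y0 := fun c hc θ u v => frame_zero (B := y (θ, a c θ)) (T := fderiv ℝ (a c) θ)
        (fun j k => Hr r δ t ρ (mat C) x y D hI hδ0.le G.t1 htr hρ0 (by linarith)
          (by nlinarith) (by nlinarith) hρ1 c hc (A c) (a c) (hS c hc) j k θ) u v
      lip := fun c c' hc hc' θ => (hlip c c' hc hc' θ).trans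
        (mul_le_mul_of_nonneg_right hqε (norm_nonneg _))
      dlip := fun c c' hc hc' θ => ((hpair c c' hc hc').2.bdd θ (mem_univ θ)).trans
        (mul_le_mul_of_nonneg_right hqε (norm_nonneg _))
      cover := fun θ v hv => cover_of_lip (f := fun c => a c θ) hρ0 (by positivity)
        (by linarith : 2 * q < 1) (fun c hc => (hbetter c hc).1.bdd θ (mem_univ θ))
        (fun c c' hc hc' => hlip c c' hc hc' θ) hv }⟩

end

end Crest.Agent.R281.Mc673
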