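import Crest.Agent.R281.Tub7_57
import Crest.Agent.R281.T5D_808
import Crest.Agent.R281.HkR4_835
import Crest.Agent.R281.Mc12_673

-- ▼ part R281/Tub8_57
section

/-!
# R281 (S0424), TUBE-HOL (helper57), part 8: complex form of (C), smoothness of `I`-holomorphic maps
-/

set_option autoImplicit false
set_option linter.unusedSectionVars false

open Set Filter Topology
open scoped ContDiff NNReal

namespace Crest.Agent.R281.Tub_57

open Poi_234

noncomputable section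

variable {N : ℕ}


variable {E : Type} [NormedAddCommGroup E] [NormedSpace ℝ E] [FiniteDimensional ℝ E]

/-- **`I`-holomorphic maps are smooth** (Osgood in the integrating charts) -/
theorem hol_smooth {Y : Type*} [NormedAddCommGroup Y] [NormedSpace ℂ Y] [CompleteSpace Y]
    {I : E → E →L[ℝ] E} {p0 : E} (hI : Integ I p0) {g : E → Y}
    (hg : ∀ᶠ p in 𝓝 p0, DifferentiableAt ℝ g p ∧ ∀ w, fderiv ℝ g p (I p w) = Complex.I • fderiv ℝ g p w) :
    ContDiffAt ℝ ∞ g p0 := by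
  obtain ⟨W, _, _, _, χ, hχ, hχb, hχI⟩ := hI
  obtain ⟨η, hη0, hηc, hηl, hηr⟩ := exists_inv hχ (by simp) hχb
  have hback : Tendsto η (𝓝 (χ p0)) (𝓝 p0) := by
    have := hηc.continuousAt.tendsto
    rwa [hη0] at this
  have hfin : Module.finrank ℝ E = Module.finrank ℝ W :=
    (LinearEquiv.ofBijective (fderiv ℝ χ p0 : E →ₗ[ℝ] W) hχb).finrank_eq
  have hχd : ∀ᶠ p in 𝓝 p0, DifferentiableAt ℝ χ p := by
    filter_upwards [(hχ.of_le (by exact_mod_cast le_top : (1 : ℕ∞ω) ≤ ∞)).eventually (by simp)]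
      with p hp
    exact hp.differentiableAt (by simp)
  have hηd : ∀ᶠ z in 𝓝 (χ p0), DifferentiableAt ℝ η z := by
    filter_upwards [(hηc.of_le (by exact_mod_cast le_top : (1 : ℕ∞ω) ≤ ∞)).eventually (by simp)]
      with p hp
    exact hp.differentiableAt (by simp)
  -- the derivative of the inverse chart is complex linear
  have hηI : ∀ᶠ z in 𝓝 (χ p0), ∀ w, fderiv ℝ η z (Complex.I • w) = I (η z) (fderiv ℝ η z w) := by
    filter_upwards [hηd, hback.eventually hχd, hback.eventually hχI, hηr.eventually_nhds] with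
      z h1 h2 h3 h4 w
    have h5 : HasFDerivAt (fun z => χ (η z)) ((fderiv ℝ χ (η z)).comp (fderiv ℝ η z)) z :=
      HasFDerivAt.comp (g := χ) z h2.hasFDerivAt h1.hasFDerivAt
    have h6 : HasFDerivAt (fun z => χ (η z)) (ContinuousLinearMap.id ℝ W) z :=
      (hasFDerivAt_id z).congr_of_eventuallyEq h4
    have h8 : ∀ w, fderiv ℝ χ (η z) (fderiv ℝ η z w) = w := fun w =>
      ContinuousLinearMap.ext_iff.1 (h5.unique h6) w
    have h9 : Function.Injective (fderiv ℝ χ (η z)) := by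
      have : Function.Surjective (fderiv ℝ χ (η z) : E →ₗ[ℝ] W) := fun w => ⟨_, h8 w⟩
      exact (LinearMap.injective_iff_surjective_of_finrank_eq_finrank hfin).2 this
    apply h9
    rw [h8, h3, h8]
  have h1 : ∀ᶠ z in 𝓝 (χ p0), DifferentiableAt ℂ (fun z => g (η z)) z := by
    filter_upwards [hηd, hηI, hback.eventually hg] with z k1 k2 k3
    have k4 : HasFDerivAt (fun z => g (η z)) ((fderiv ℝ g (η z)).comp (fderiv ℝ η z)) z :=
      HasFDerivAt.comp (g := g) z k3.1.hasFDerivAt k1.hasFDerivAt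
    refine diffC k4.differentiableAt fun w => ?_
    rw [HasFDerivAt.fderiv k4]
    simp only [ContinuousLinearMap.comp_apply, k2 w]
    exact k3.2 _
  have h2 : AnalyticAt ℂ (fun z => g (η z)) (χ p0) :=
    Crest.Agent.R266.SCV.analyticAt_of_eventually_differentiableAt h1
  have h3 : ContDiffAt ℝ ∞ (fun z => g (η z)) (χ p0) :=
    (h2.contDiffAt (n := ∞)).restrict_scalars ℝ
  refine (ContDiffAt.comp p0 (g := fun z => g (η z)) h3 hχ).congr_of_eventuallyEq ?_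
  filter_upwards [hηl] with p hp
  simp only [Function.comp_apply, hp]

end

end Crest.Agent.R281.Tub_57
end

-- ▼ part R281/Tub9_57
section

/-!
# R281 (S0424), TUBE-HOL (helper57), part 9: (D') the local holomorphic submersion `f` with the
leaves as fibres
-/

set_option autoImplicit false
set_option linter.unusedSectionVars false

open Set Filter Topology Metric
open scoped ContDiff NNReal

namespace Crest.Agent.R281.Tub_57

open Poi_234

noncomputable section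

/-- `I`-holomorphic maps from a complex space are smooth -/
theorem hol_smooth_into {E : Type} [NormedAddCommGroup E] [NormedSpace ℝ E] [FiniteDimensional ℝ E]
    {Y : Type*} [NormedAddCommGroup Y] [NormedSpace ℂ Y] [FiniteDimensional ℂ Y]
    {I : E → E →L[ℝ] E} {g : Y → E} {e0 : Y} (hI : Integ I (g e0))
    (hg : ∀ᶠ e in 𝓝 e0, DifferentiableAt ℝ g e ∧
      ∀ v, fderiv ℝ g e (Complex.I • v) = I (g e) (fderiv ℝ g e v)) :
    ContDiffAt ℝ ∞ g e0 := by
  obtain ⟨W, _, _, _, χ, hχ, hχb, hχI⟩ := hI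
  obtain ⟨η, hη0, hηc, hηl, hηr⟩ := exists_inv hχ (by simp) hχb
  have hgc : Tendsto g (𝓝 e0) (𝓝 (g e0)) := (hg.self_of_nhds.1).continuousAt.tendsto
  have hχd : ∀ᶠ p in 𝓝 (g e0), DifferentiableAt ℝ χ p := by
    filter_upwards [(hχ.of_le (by exact_mod_cast le_top : (1 : ℕ∞ω) ≤ ∞)).eventually (by simp)]
      with p hp
    exact hp.differentiableAt (by simp)
  have h1 : ∀ᶠ e in 𝓝 e0, DifferentiableAt ℂ (fun e => χ (g e)) e := by
    filter_upwards [hg, hgc.eventually hχd, hgc.eventually hχI] with e k1 k2 k3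
    have k4 : HasFDerivAt (fun e => χ (g e)) ((fderiv ℝ χ (g e)).comp (fderiv ℝ g e)) e :=
      HasFDerivAt.comp (g := χ) e k2.hasFDerivAt k1.1.hasFDerivAt
    refine diffC k4.differentiableAt fun w => ?_
    rw [HasFDerivAt.fderiv k4]
    simp only [ContinuousLinearMap.comp_apply, k1.2 w]
    exact k3 _
  have h2 : AnalyticAt ℂ (fun e => χ (g e)) e0 :=
    Crest.Agent.R266.SCV.analyticAt_of_eventually_differentiableAt h1
  have h3 : ContDiffAt ℝ ∞ (fun e => χ (g e)) e0 :=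
    (h2.contDiffAt (n := ∞)).restrict_scalars ℝ
  refine (ContDiffAt.comp e0 (g := η) hηc h3).congr_of_eventuallyEq ?_
  filter_upwards [hgc.eventually hηl] with p hp
  simp only [Function.comp_apply, hp]

variable {N : ℕ} {r : ℝ} {x y : Fo N} {I : VN N × VN N → (VN N × VN N) →L[ℝ] (VN N × VN N)}
  {S : Set (VN N)} {A : VN N → VN N → VN N} {k : VN N × VN N → VN N}
  {M : VN N → VN N → VN N ≃L[ℝ] VN N} {J : VN N → VN N →L[ℝ] VN N}

/-- the derivative of the leaf function -/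
theorem Out.kfd (O : Out r x y I S A k M J) {p : VN N × VN N} (hp : ∃ s ∈ S, A s p.1 = p.2) :
    HasStrictFDerivAt k (fderiv ℝ k p) p ∧
      (∀ w, fderiv ℝ k p w = 0 ↔ w.2 = fderiv ℝ (A (k p)) p.1 w.1) ∧
      Function.Surjective (fderiv ℝ k p) ∧ ∀ w, fderiv ℝ k p (I p w) = J (k p) (fderiv ℝ k p w) := by
  obtain ⟨hs, hA⟩ := O.kmem p hp
  obtain ⟨k', h1, h2, h3⟩ := O.dk _ hs p.1
  have hpe : (p.1, A (k p) p.1) = p := by rw [hA]
  rw [hpe] at h1 h3
  have h4 : fderiv ℝ k p = k' := h1.hasFDerivAt.fderiv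
  rw [h4]
  refine ⟨h1, fun w => ?_, fun u => ⟨(0, M (k p) p.1 u), ?_⟩, h3⟩
  · rw [h2, map_eq_zero_iff _ (M (k p) p.1).symm.injective, sub_eq_zero]
  · rw [h2, map_zero, sub_zero]
    exact (M (k p) p.1).symm_apply_apply u

/-- **(D') the local holomorphic base chart**: `f` is a holomorphic submersion on the saturated open
set `{(θ, A (q e) θ) | ‖e‖ < ρ}`, its fibres are the leaves, `ι` is a holomorphic section -/
structure Bas (I : VN N × VN N → (VN N × VN N) →L[ℝ] (VN N × VN N)) (S : Set (VN N))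
    (A : VN N → VN N → VN N) {Y : Type} [NormedAddCommGroup Y] [NormedSpace ℂ Y] (ρ : ℝ)
    (ι : Y → VN N × VN N) (f : VN N × VN N → Y) (q : Y → VN N) : Prop where
  pos : 0 < ρ
  qS : ∀ e ∈ ball 0 ρ, q e ∈ S
  inj : InjOn q (ball 0 ρ)
  opS : IsOpen (q '' ball 0 ρ)
  op : IsOpen {p : VN N × VN N | ∃ e ∈ ball (0 : Y) ρ, A (q e) p.1 = p.2}
  fA : ∀ e ∈ ball 0 ρ, ∀ θ, f (θ, A (q e) θ) = e
  fs : ContDiffOn ℝ ∞ f {p : VN N × VN N | ∃ e ∈ ball (0 : Y) ρ, A (q e) p.1 = p.2}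
  fI : ∀ e ∈ ball 0 ρ, ∀ θ w, fderiv ℝ f (θ, A (q e) θ) (I (θ, A (q e) θ) w) =
    Complex.I • fderiv ℝ f (θ, A (q e) θ) w
  fsur : ∀ e ∈ ball 0 ρ, ∀ θ, Function.Surjective (fderiv ℝ f (θ, A (q e) θ))
  fker : ∀ e ∈ ball 0 ρ, ∀ θ w, fderiv ℝ f (θ, A (q e) θ) w = 0 ↔
    w.2 = fderiv ℝ (A (q e)) θ w.1
  ιA : ∀ e ∈ ball 0 ρ, A (q e) (ι e).1 = (ι e).2
  ιs : ContDiffOn ℝ ∞ ι (ball 0 ρ)
  ιI : ∀ e ∈ ball 0 ρ, ∀ v, fderiv ℝ ι e (Complex.I • v) = I (ι e) (fderiv ℝ ι e v)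

theorem exists_bas (G : Geo r x y I) (O : Out r x y I S A k M J) {Y : Type} [NormedAddCommGroup Y]
    [NormedSpace ℂ Y] [FiniteDimensional ℂ Y] (hY : Module.finrank ℝ Y = N) {s0 : VN N}
    (hs0 : s0 ∈ S) (θ0 : VN N) : ∃ (ρ : ℝ) (ι : Y → VN N × VN N) (f : VN N × VN N → Y)
      (q : Y → VN N), Bas I S A ρ ι f q ∧ q 0 = s0 ∧ ι 0 = (θ0, A s0 θ0) := by
  have : FiniteDimensional ℝ Y := FiniteDimensional.complexToReal Y
  set p0 : VN N × VN N := (θ0, A s0 θ0) with hp0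
  set R : Set (VN N × VN N) := {p | ∃ s ∈ S, A s p.1 = p.2} with hR
  have hp0R : p0 ∈ R := ⟨s0, hs0, rfl⟩
  have hk0 : k p0 = s0 := O.kgr s0 hs0 θ0
  obtain ⟨W, _, _, _, χ, hχ, hχb, hχI⟩ := G.int p0 (O.sub s0 hs0 θ0)
  have : FiniteDimensional ℝ W := FiniteDimensional.complexToReal W
  obtain ⟨η, hη0, hηc, hηl, hηr⟩ := exists_inv hχ (by simp) hχb
  have hχI0 : ∀ u, fderiv ℝ χ p0 (I p0 u) = Complex.I • fderiv ℝ χ p0 u := hχI.self_of_nhds
  have hηt : Tendsto η (𝓝 (χ p0)) (𝓝 p0) := by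
    have := hηc.continuousAt.tendsto
    rwa [hη0] at this
  have hχd : ∀ᶠ p in 𝓝 p0, ContDiffAt ℝ 1 χ p :=
    (hχ.of_le (by exact_mod_cast le_top : (1 : ℕ∞ω) ≤ ∞)).eventually (by simp)
  have hηd : ∀ᶠ z in 𝓝 (χ p0), ContDiffAt ℝ 1 η z :=
    (hηc.of_le (by exact_mod_cast le_top : (1 : ℕ∞ω) ≤ ∞)).eventually (by simp)
  -- the tangent space of the leaf in the chart
  set A0 : VN N →L[ℝ] W := (fderiv ℝ χ p0).comp (gr (fderiv ℝ (A s0) θ0)) with hA0
  have hAinj : Function.Injective A0 := by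
    intro v w h
    exact (Prod.ext_iff.1 (hχb.1 h)).1
  let T : Submodule ℂ W :=
    { carrier := range A0
      zero_mem' := ⟨0, map_zero _⟩
      add_mem' := by
        rintro _ _ ⟨v, rfl⟩ ⟨w, rfl⟩
        exact ⟨v + w, map_add _ _ _⟩
      smul_mem' := by
        rintro c _ ⟨v, rfl⟩
        refine ⟨c.re • v + c.im • JJ I (A s0) θ0 v, ?_⟩
        rw [csmul c (A0 v), map_add, map_smul, map_smul]
        congr 2
        simp only [hA0, ContinuousLinearMap.comp_apply, gr_apply]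
        rw [← hχI0, O.tan s0 hs0] }
  obtain ⟨E, hE⟩ := Submodule.exists_isCompl T
  have hfin1 : Module.finrank ℝ W = 2 * N := by
    rw [← (LinearEquiv.ofBijective (fderiv ℝ χ p0 : (VN N × VN N) →ₗ[ℝ] W) hχb).finrank_eq,
      Module.finrank_prod, finrank_euclideanSpace_fin]
    ring
  have hfin2 : Module.finrank ℝ T = N := by
    let e : VN N →ₗ[ℝ] T :=
      { toFun := fun v => ⟨A0 v, v, rfl⟩
        map_add' := fun v w => Subtype.ext (map_add _ _ _)
        map_smul' := fun c w => Subtype.ext (map_smul _ _ _) }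
    have he : Function.Bijective e := by
      constructor
      · intro v w h
        exact hAinj (congrArg Subtype.val h)
      · rintro ⟨_, v, rfl⟩
        exact ⟨v, rfl⟩
    rw [← (LinearEquiv.ofBijective e he).finrank_eq, finrank_euclideanSpace_fin]
  have hfin3 : Module.finrank ℂ Y = Module.finrank ℂ E := by
    have h1 := Submodule.finrank_add_eq_of_isCompl hE
    have h2 := finrank_real_of_complex W
    have h3 := finrank_real_of_complex T
    have h4 := finrank_real_of_complex Y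
    omega
  let eY : Y ≃ₗ[ℂ] E := LinearEquiv.ofFinrankEq Y E hfin3
  let L : Y →L[ℂ] W := LinearMap.toContinuousLinearMap (E.subtype ∘ₗ (eY : Y →ₗ[ℂ] E))
  have hL : ∀ e, L e = (eY e : W) := fun e => rfl
  set Lr : Y →L[ℝ] W := L.restrictScalars ℝ with hLr
  have hLT : ∀ e, L e ∈ T → e = 0 := by
    intro e he
    have h1 : (eY e : W) ∈ T ⊓ E := ⟨he, (eY e).2⟩
    rw [hE.inf_eq_bot, Submodule.mem_bot] at h1
    have h2 : eY e = 0 := Subtype.ext h1
    exact (map_eq_zero_iff _ eY.injective).1 h2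
  -- the section
  set ι : Y → VN N × VN N := fun e => η (χ p0 + Lr e) with hι
  have hι0 : ι 0 = p0 := by simp [hι, hη0]
  have haff : ∀ e, HasFDerivAt (fun e => χ p0 + Lr e) Lr e := fun e =>
    (Lr.hasFDerivAt).const_add _
  have hafft : Tendsto (fun e => χ p0 + Lr e) (𝓝 0) (𝓝 (χ p0)) := by
    have := (haff 0).continuousAt.tendsto
    simpa using this
  have hιd : ∀ᶠ e in 𝓝 (0 : Y), ContDiffAt ℝ 1 ι e := by
    filter_upwards [hafft.eventually hηd] with e he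
    exact he.comp e (contDiff_const.add Lr.contDiff).contDiffAt
  have hιt : Tendsto ι (𝓝 0) (𝓝 p0) := hηt.comp hafft
  have hιχ : ∀ᶠ e in 𝓝 (0 : Y), χ (ι e) = χ p0 + Lr e := hafft.eventually hηr
  have hιfd : ∀ᶠ e in 𝓝 (0 : Y), ∀ v, fderiv ℝ χ (ι e) (fderiv ℝ ι e v) = Lr v := by
    filter_upwards [hιd, hιt.eventually hχd, hιχ.eventually_nhds] with e h1 h2 h3 v
    have h4 : HasFDerivAt (fun e => χ (ι e)) ((fderiv ℝ χ (ι e)).comp (fderiv ℝ ι e)) e :=
      HasFDerivAt.comp (g := χ) e (h2.differentiableAt (by simp)).hasFDerivAt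
        (h1.differentiableAt (by simp)).hasFDerivAt
    have h5 : HasFDerivAt (fun e => χ (ι e)) Lr e := (haff e).congr_of_eventuallyEq h3
    exact ContinuousLinearMap.ext_iff.1 (h4.unique h5) v
  have hχinj : ∀ᶠ e in 𝓝 (0 : Y), Function.Injective (fderiv ℝ χ (ι e)) := by
    have h1 : ∀ᶠ p in 𝓝 p0, Function.Injective (fderiv ℝ χ p) := by
      -- the left inverse `η`
      filter_upwards [hχd, (hχd.self_of_nhds.continuousAt.tendsto).eventually hηd,
        hηl.eventually_nhds] with p h1 h2 h3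
      have h4 : HasFDerivAt (fun p => η (χ p)) ((fderiv ℝ η (χ p)).comp (fderiv ℝ χ p)) p :=
        HasFDerivAt.comp (g := η) p (h2.differentiableAt (by simp)).hasFDerivAt
          (h1.differentiableAt (by simp)).hasFDerivAt
      have h5 : HasFDerivAt (fun p => η (χ p)) (ContinuousLinearMap.id ℝ (VN N × VN N)) p :=
        (hasFDerivAt_id p).congr_of_eventuallyEq h3
      have h6 : ∀ w, fderiv ℝ η (χ p) (fderiv ℝ χ p w) = w := fun w =>
        ContinuousLinearMap.ext_iff.1 (h4.unique h5) w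
      intro v w h
      rw [← h6 v, ← h6 w, h]
    exact hιt.eventually h1
  have hιI : ∀ᶠ e in 𝓝 (0 : Y), ∀ v, fderiv ℝ ι e (Complex.I • v) = I (ι e) (fderiv ℝ ι e v) := by
    filter_upwards [hιfd, hχinj, hιt.eventually hχI] with e h1 h2 h3 v
    apply h2
    rw [h1, h3, h1]
    exact L.map_smul _ _
  -- the transversal parameter
  set q : Y → VN N := fun e => k (ι e) with hq
  have hRo : IsOpen R := O.Oo
  have hιR : ∀ᶠ e in 𝓝 (0 : Y), ι e ∈ R := hιt.eventually (hRo.mem_nhds hp0R)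
  have hqd : ∀ᶠ e in 𝓝 (0 : Y), HasStrictFDerivAt q ((fderiv ℝ k (ι e)).comp (fderiv ℝ ι e)) e := by
    filter_upwards [hιd, hιR] with e h1 h2
    exact HasStrictFDerivAt.comp (g := k) e (O.kfd h2).1 (h1.hasStrictFDerivAt (by simp))
  set q0' : Y →L[ℝ] VN N := (fderiv ℝ k (ι 0)).comp (fderiv ℝ ι 0) with hq0'
  have hq0inj : Function.Injective q0' := by
    rw [injective_iff_map_eq_zero]
    intro e he
    have h1 : fderiv ℝ k (ι 0) (fderiv ℝ ι 0 e) = 0 := he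
    rw [hι0, (O.kfd hp0R).2.1, hk0] at h1
    have h2 := hιfd.self_of_nhds e
    rw [hι0] at h2
    apply hLT
    refine ⟨(fderiv ℝ ι 0 e).1, ?_⟩
    have h3 : fderiv ℝ ι 0 e = ((fderiv ℝ ι 0 e).1, fderiv ℝ (A s0) θ0 (fderiv ℝ ι 0 e).1) :=
      Prod.ext rfl h1
    simp only [hA0, ContinuousLinearMap.comp_apply, gr_apply]
    rw [← h3]
    exact h2
  have hfinq : Module.finrank ℝ Y = Module.finrank ℝ (VN N) := by
    rw [hY, finrank_euclideanSpace_fin]
  have hq0bij : Function.Bijective q0' :=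
    ⟨hq0inj, (LinearMap.injective_iff_surjective_of_finrank_eq_finrank
      (f := (q0' : Y →ₗ[ℝ] VN N)) hfinq).1 hq0inj⟩
  set e0 : Y ≃L[ℝ] VN N := ContinuousLinearEquiv.ofBijective q0'
    (LinearMap.ker_eq_bot.2 hq0bij.1) (LinearMap.range_eq_top.2 hq0bij.2) with he0
  have he0c : (e0 : Y →L[ℝ] VN N) = q0' := rfl
  have hqs : HasStrictFDerivAt q (e0 : Y →L[ℝ] VN N) 0 := hqd.self_of_nhds
  obtain ⟨s, h0s, hso, happ⟩ := hqs.approximates_deriv_on_open_nhds
  have hgood : ∀ᶠ e in 𝓝 (0 : Y), e ∈ s ∧ ι e ∈ R ∧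
      HasStrictFDerivAt q ((fderiv ℝ k (ι e)).comp (fderiv ℝ ι e)) e ∧
      (∀ v, fderiv ℝ ι e (Complex.I • v) = I (ι e) (fderiv ℝ ι e v)) ∧ ContDiffAt ℝ 1 ι e ∧
      ι e ∈ tub N r := by
    filter_upwards [hso.mem_nhds h0s, hιR, hqd, hιI, hιd,
      hιt.eventually (isOpen_tub.mem_nhds (O.sub s0 hs0 θ0))] with e h1 h2 h3 h4 h5 h6
    exact ⟨h1, h2, h3, h4, h5, h6⟩
  obtain ⟨ρ, hρ, hball⟩ := Metric.eventually_nhds_iff_ball.1 hgood
  have hc := e0.subsingleton_or_nnnorm_symm_pos.imp id fun hf' =>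
    NNReal.half_lt_self <| ne_of_gt <| inv_pos.2 hf'
  have happ' : ApproximatesLinearOn q (e0 : Y →L[ℝ] VN N) (ball 0 ρ)
      (‖(e0.symm : VN N →L[ℝ] Y)‖₊⁻¹ / 2) := happ.mono_set fun e he => (hball e he).1
  set H := happ'.toOpenPartialHomeomorph q (ball 0 ρ) hc isOpen_ball with hH
  have hHs : H.source = ball 0 ρ := rfl
  have hHt : H.target = q '' ball 0 ρ := rfl
  have hHq : ∀ e, H e = q e := fun e => rfl
  set f : VN N × VN N → Y := fun p => H.symm (k p) with hf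
  -- invertibility of the derivative of `q`
  have hqinj : ∀ e ∈ ball (0 : Y) ρ, Function.Injective
      ((fderiv ℝ k (ι e)).comp (fderiv ℝ ι e)) := by
    intro e he
    set q' := (fderiv ℝ k (ι e)).comp (fderiv ℝ ι e) with hq'
    have h1 : HasFDerivAt (fun e => q e - e0 e) (q' - (e0 : Y →L[ℝ] VN N)) e :=
      (hball e he).2.2.1.hasFDerivAt.fun_sub (e0 : Y →L[ℝ] VN N).hasFDerivAt
    have h2 : ‖q' - (e0 : Y →L[ℝ] VN N)‖ ≤ (‖(e0.symm : VN N →L[ℝ] Y)‖₊⁻¹ / 2 : ℝ≥0) := by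
      refine h1.le_of_lip' (NNReal.coe_nonneg _) ?_
      filter_upwards [isOpen_ball.mem_nhds he] with e' he'
      have h3 := happ' e' he' e he
      refine le_trans (le_of_eq ?_) h3
      congr 1
      have : (e0 : Y →L[ℝ] VN N) (e' - e) = e0 e' - e0 e := map_sub _ _ _
      rw [this]
      abel
    rw [injective_iff_map_eq_zero]
    intro v hv
    have h3 : ‖e0 v‖ ≤ (‖(e0.symm : VN N →L[ℝ] Y)‖₊⁻¹ / 2 : ℝ≥0) * ‖v‖ := by
      have h4 : e0 v = -((q' - (e0 : Y →L[ℝ] VN N)) v) := by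
        rw [sub_apply, hv]
        simp
      rw [h4, norm_neg]
      exact (ContinuousLinearMap.le_opNorm _ _).trans (by gcongr)
    have h5 : ‖v‖ ≤ ‖(e0.symm : VN N →L[ℝ] Y)‖ * ‖e0 v‖ := by
      have := (e0.symm : VN N →L[ℝ] Y).le_opNorm (e0 v)
      simpa using this
    rcases (norm_nonneg (e0.symm : VN N →L[ℝ] Y)).eq_or_lt with h6 | h6
    · rw [← h6, zero_mul] at h5
      exact norm_le_zero_iff.1 h5
    · have h7 : ‖v‖ ≤ 1 / 2 * ‖v‖ := by
        calc ‖v‖ ≤ ‖(e0.symm : VN N →L[ℝ] Y)‖ * ‖e0 v‖ := h5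
          _ ≤ ‖(e0.symm : VN N →L[ℝ] Y)‖ *
              ((‖(e0.symm : VN N →L[ℝ] Y)‖₊⁻¹ / 2 : ℝ≥0) * ‖v‖) := by gcongr
          _ = 1 / 2 * ‖v‖ := by
            have e1 : ((‖(e0.symm : VN N →L[ℝ] Y)‖₊⁻¹ / 2 : ℝ≥0) : ℝ) =
                ‖(e0.symm : VN N →L[ℝ] Y)‖⁻¹ / 2 := by simp
            rw [e1]
            field_simp
      have h8 : ‖v‖ ≤ 0 := by linarith [norm_nonneg v]
      exact norm_le_zero_iff.1 h8
  have hqbij : ∀ e ∈ ball (0 : Y) ρ, Function.Bijective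
      ((fderiv ℝ k (ι e)).comp (fderiv ℝ ι e)) := fun e he =>
    ⟨hqinj e he, (LinearMap.injective_iff_surjective_of_finrank_eq_finrank
      (f := ((fderiv ℝ k (ι e)).comp (fderiv ℝ ι e) : Y →L[ℝ] VN N).toLinearMap) hfinq).1
      (hqinj e he)⟩
  have hqS : ∀ e ∈ ball (0 : Y) ρ, q e ∈ S := fun e he => (O.kmem (ι e) (hball e he).2.1).1
  have hkq : ∀ e ∈ ball (0 : Y) ρ, ∀ θ, k (θ, A (q e) θ) = q e := fun e he θ =>
    O.kgr (q e) (hqS e he) θ
  have hfA : ∀ e ∈ ball (0 : Y) ρ, ∀ θ, f (θ, A (q e) θ) = e := fun e he θ => by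
    simp only [hf, hkq e he θ]
    exact H.left_inv he
  have hfd : ∀ e ∈ ball (0 : Y) ρ, ∀ θ, ∃ B : VN N ≃L[ℝ] Y,
      HasFDerivAt f ((B : VN N →L[ℝ] Y).comp (fderiv ℝ k (θ, A (q e) θ))) (θ, A (q e) θ) ∧
      ∀ u, B (J (q e) u) = Complex.I • B u := by
    intro e he θ
    set E' : Y ≃L[ℝ] VN N := ContinuousLinearEquiv.ofBijective _
      (LinearMap.ker_eq_bot.2 (hqbij e he).1) (LinearMap.range_eq_top.2 (hqbij e he).2) with hE'
    have hmem : (∃ s ∈ S, A s (θ, A (q e) θ).1 = (θ, A (q e) θ).2) := ⟨q e, hqS e he, rfl⟩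
    have h1 : HasStrictFDerivAt H.symm ((E'.symm : VN N ≃L[ℝ] Y) : VN N →L[ℝ] Y) (q e) := by
      refine H.hasStrictFDerivAt_symm (f' := E') ⟨e, he, rfl⟩ ?_
      have : H.symm (q e) = e := H.left_inv he
      rw [this]
      exact (hball e he).2.2.1
    refine ⟨E'.symm, ?_, fun u => ?_⟩
    · have h2 : HasFDerivAt H.symm ((E'.symm : VN N ≃L[ℝ] Y) : VN N →L[ℝ] Y)
          (k (θ, A (q e) θ)) := by
        rw [hkq e he θ]
        exact h1.hasFDerivAt
      exact HasFDerivAt.comp (g := H.symm) _ h2 (O.kfd hmem).1.hasFDerivAt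
    · rw [ContinuousLinearEquiv.symm_apply_eq]
      have h3 : ∀ v, E' v = fderiv ℝ k (ι e) (fderiv ℝ ι e v) := fun v => rfl
      rw [h3, (hball e he).2.2.2.1, (O.kfd (hball e he).2.1).2.2.2, ← h3,
        E'.apply_symm_apply]
  have hfder : ∀ e ∈ ball (0 : Y) ρ, ∀ θ w, fderiv ℝ f (θ, A (q e) θ)
      (I (θ, A (q e) θ) w) = Complex.I • fderiv ℝ f (θ, A (q e) θ) w := by
    intro e he θ w
    obtain ⟨B, h1, h2⟩ := hfd e he θ
    have hmem : (∃ s ∈ S, A s (θ, A (q e) θ).1 = (θ, A (q e) θ).2) := ⟨q e, hqS e he, rfl⟩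
    rw [h1.fderiv]
    simp only [ContinuousLinearMap.comp_apply]
    rw [(O.kfd hmem).2.2.2, hkq e he θ]
    exact h2 _
  have hop : IsOpen {p : VN N × VN N | ∃ e ∈ ball (0 : Y) ρ, A (q e) p.1 = p.2} := by
    have h1 : {p : VN N × VN N | ∃ e ∈ ball (0 : Y) ρ, A (q e) p.1 = p.2} =
        R ∩ k ⁻¹' (q '' ball 0 ρ) := by
      ext p
      constructor
      · rintro ⟨e, he, h⟩
        refine ⟨⟨q e, hqS e he, h⟩, e, he, ?_⟩
        have h2 := hkq e he p.1
        rw [h] at h2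
        exact h2.symm
      · rintro ⟨hp, e, he, h⟩
        refine ⟨e, he, ?_⟩
        rw [h]
        exact (O.kmem p hp).2
    rw [h1]
    refine ContinuousOn.isOpen_inter_preimage (fun p hp => ?_) hRo H.open_target
    exact (O.kfd hp).1.hasFDerivAt.continuousAt.continuousWithinAt
  refine ⟨ρ, ι, f, q, ⟨hρ, hqS, ?_, H.open_target, hop, hfA, ?_, hfder, ?_, ?_, ?_, ?_, ?_⟩, ?_, hι0⟩
  · exact H.injOn
  · rintro ⟨θ, v⟩ ⟨e, he, h⟩
    simp only at h
    subst h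
    refine (hol_smooth (G.int _ (O.sub _ (hqS e he) θ)) ?_).contDiffWithinAt
    filter_upwards [hop.mem_nhds ⟨e, he, rfl⟩] with p hp
    obtain ⟨e', he', h'⟩ := hp
    have hpe : (p.1, A (q e') p.1) = p := by rw [h']
    obtain ⟨B, h1, -⟩ := hfd e' he' p.1
    rw [hpe] at h1
    refine ⟨h1.differentiableAt, fun w => ?_⟩
    have := hfder e' he' p.1 w
    rwa [hpe] at this
  · intro e he θ
    obtain ⟨B, h1, -⟩ := hfd e he θ
    have hmem : (∃ s ∈ S, A s (θ, A (q e) θ).1 = (θ, A (q e) θ).2) := ⟨q e, hqS e he, rfl⟩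
    rw [h1.fderiv]
    exact B.surjective.comp (O.kfd hmem).2.2.1
  · intro e he θ w
    obtain ⟨B, h1, -⟩ := hfd e he θ
    have hmem : (∃ s ∈ S, A s (θ, A (q e) θ).1 = (θ, A (q e) θ).2) := ⟨q e, hqS e he, rfl⟩
    rw [h1.fderiv]
    have h2 := (O.kfd hmem).2.1 w
    rw [hkq e he θ] at h2
    rw [← h2]
    exact map_eq_zero_iff B B.injective
  · intro e he
    exact (O.kmem (ι e) (hball e he).2.1).2
  · intro e he
    refine (hol_smooth_into (G.int _ (hball e he).2.2.2.2.2) ?_).contDiffWithinAt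
    filter_upwards [isOpen_ball.mem_nhds he] with e' he'
    exact ⟨(hball e' he').2.2.2.2.1.differentiableAt (by simp), (hball e' he').2.2.2.1⟩
  · intro e he
    exact (hball e he).2.2.2.1
  · show k (ι 0) = s0
    rw [hι0]
    exact hk0

end

end Crest.Agent.R281.Tub_57
end

-- ▼ part R281/Tub10_57
section

/-!
# R281 (S0424), TUBE-HOL (helper57), part 10: the tube of a complex manifold
-/

set_option autoImplicit false
set_option linter.unusedSectionVars false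
set_option maxSynthPendingDepth 3

open Set Filter Topology Metric
open scoped ContDiff NNReal

namespace Crest.Agent.R281.Tub_57

open Crest.Agent.R275.Geo Crest.Agent.R281.HkR_835
open Crest.Agent.R281.Per_368 (SmI pull ci ci_mem pl_apply)
open Crest.Agent.R281.T5D_808 (TubeD)

noncomputable section

section inv

variable {E F : Type*} [NormedAddCommGroup E] [NormedSpace ℝ E] [CompleteSpace E]
  [NormedAddCommGroup F] [NormedSpace ℝ F] [CompleteSpace F]


theorem inv_right {D : E →L[ℝ] F} (hD : Function.Bijective D) (v : F) : D (D.inverse v) = v := by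
  set e : E ≃L[ℝ] F := ContinuousLinearEquiv.ofBijective D
    (LinearMap.ker_eq_bot.2 hD.1) (LinearMap.range_eq_top.2 hD.2) with he
  have h1 : D = (e : E →L[ℝ] F) := rfl
  rw [h1, ContinuousLinearMap.inverse_equiv]
  exact e.apply_symm_apply v

theorem inv_cont {D : E →L[ℝ] F} (hD : Function.Bijective D) :
    ContinuousAt ContinuousLinearMap.inverse D := by
  set e : E ≃L[ℝ] F := ContinuousLinearEquiv.ofBijective D
    (LinearMap.ker_eq_bot.2 hD.1) (LinearMap.range_eq_top.2 hD.2) with he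
  have h1 : D = (e : E →L[ℝ] F) := rfl
  rw [h1]
  exact (contDiffAt_map_inverse (n := 0) e).continuousAt

end inv

variable {N : ℕ} {X : Type} [TopologicalSpace X]

/-- the complex structure pulled back to the tube -/
def IT (A : Atl N X) (Θ : VN N × VN N → X) (p : VN N × VN N) :
    (VN N × VN N) →L[ℝ] (VN N × VN N) :=
  (fderiv ℝ (fun q => A.e (ci (ofAtl A) (Θ p)) (Θ q)) p).inverse.comp
    (Complex.I • (fderiv ℝ (fun q => A.e (ci (ofAtl A) (Θ p)) (Θ q)) p))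

variable {A : Atl N X} {w w' : F2 (ofAtl A)} {R Λ δ : ℝ} {Θ : VN N × VN N → X}

/-- change of charts commutes with `i` -/
theorem dt_I {i j : A.ι} {x : X} (hi : x ∈ (A.e i).source) (hj : x ∈ (A.e j).source) (v : Cn N) :
    fderiv ℝ ((ofAtl A).t i j) (A.e i x) (Complex.I • v) =
      Complex.I • fderiv ℝ ((ofAtl A).t i j) (A.e i x) v := by
  have hO : IsOpen {z | z ∈ (A.e i).target ∧ (A.e i).symm z ∈ (A.e j).source} :=
    (A.e i).isOpen_inter_preimage_symm (A.e j).open_source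
  have hmem : A.e i x ∈ {z | z ∈ (A.e i).target ∧ (A.e i).symm z ∈ (A.e j).source} :=
    ⟨(A.e i).map_source hi, by rw [(A.e i).left_inv hi]; exact hj⟩
  have h1 : DifferentiableAt ℂ (fun z => A.e j ((A.e i).symm z)) (A.e i x) :=
    (A.holo i j).differentiableAt (hO.mem_nhds hmem)
  have h2 : fderiv ℝ ((ofAtl A).t i j) (A.e i x) =
      (fderiv ℂ (fun z => A.e j ((A.e i).symm z)) (A.e i x)).restrictScalars ℝ :=
    (h1.hasFDerivAt.restrictScalars ℝ).fderiv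
  rw [h2]
  exact (fderiv ℂ (fun z => A.e j ((A.e i).symm z)) (A.e i x)).map_smul _ _

section

variable (hT : TubeD (ofAtl A) w w' N R Λ δ Θ)
include hT

theorem IT_spec {p : VN N × VN N} (hp : p ∈ tub N R) {i : A.ι} (hi : Θ p ∈ (A.e i).source)
    (u : VN N × VN N) : fderiv ℝ (fun q => A.e i (Θ q)) p (IT A Θ p u) =
      Complex.I • fderiv ℝ (fun q => A.e i (Θ q)) p u := by
  have hj := ci_mem (ofAtl A) (Θ p)
  have h1 : fderiv ℝ (fun q => A.e (ci (ofAtl A) (Θ p)) (Θ q)) p (IT A Θ p u) =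
      Complex.I • fderiv ℝ (fun q => A.e (ci (ofAtl A) (Θ p)) (Θ q)) p u :=
    inv_right (hT.bij p hp _ hj) _
  have h2 := hT.sm.fderiv_change (ζ := p) hp hj hi
  have h3 : ∀ u, fderiv ℝ (fun q => A.e i (Θ q)) p u =
      fderiv ℝ ((ofAtl A).t (ci (ofAtl A) (Θ p)) i) (A.e (ci (ofAtl A) (Θ p)) (Θ p))
        (fderiv ℝ (fun q => A.e (ci (ofAtl A) (Θ p)) (Θ q)) p u) := fun u =>
    congrArg (fun T : (VN N × VN N) →L[ℝ] Cn N => T u) h2
  rw [h3, h1, h3]
  exact dt_I (A := A) hj hi _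

theorem IT_eq {p : VN N × VN N} (hp : p ∈ tub N R) {i : A.ι} (hi : Θ p ∈ (A.e i).source) :
    IT A Θ p = (fderiv ℝ (fun q => A.e i (Θ q)) p).inverse.comp
      (Complex.I • (fderiv ℝ (fun q => A.e i (Θ q)) p)) := by
  refine ContinuousLinearMap.ext fun u => ?_
  have h1 := IT_spec hT hp hi u
  have h2 : fderiv ℝ (fun q => A.e i (Θ q)) p
      ((fderiv ℝ (fun q => A.e i (Θ q)) p).inverse (Complex.I • (fderiv ℝ (fun q => A.e i (Θ q)) p u))) =
      Complex.I • fderiv ℝ (fun q => A.e i (Θ q)) p u := inv_right (hT.bij p hp _ hi) _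
  exact (hT.bij p hp _ hi).1 (h1.trans h2.symm)

theorem tube_per {p : VN N × VN N} (hp : p ∈ tub N R) (k : Fin N → ℤ) :
    Θ (p.1 + kv k, p.2) = Θ p := by
  have hp' : (p.1 + kv k, p.2) ∈ tub N R := hp
  exact ((hT.eq_iff p hp (p.1 + kv k, p.2) hp').2 ⟨-k, by
    ext1
    · show p.1 = p.1 + kv k + kv (-k)
      have : kv k + kv (-k) = (0 : VN N) := by
        rw [← kv_add, add_neg_cancel, kv_zero]
      rw [add_assoc, this, add_zero]
    · rfl⟩).symm

/-- **`Geo` from the tube of a complex manifold** -/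
theorem geo_of (hJ : ∀ i, ∀ z ∈ (A.e i).target, ∀ u v, w.w i z (Complex.I • u) v = - w'.w i z u v) :
    Geo R (pull w Θ) (pull w' Θ) (IT A Θ) where
  xs := hT.cx.sm
  ys := hT.cy.sm
  xa p hp v := by have := hT.cx.alt p hp v v; linarith
  ya p hp v := by have := hT.cy.alt p hp v v; linarith
  xc p hp u v z := hT.cx.cl p hp u v z
  yc p hp u v z := hT.cy.cl p hp u v z
  xp k p hp := hT.cx.per k p hp
  yp k p hp := hT.cy.per k p hp
  Ic := by
    intro p hp
    have hi := ci_mem (ofAtl A) (Θ p)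
    set i := ci (ofAtl A) (Θ p) with hi0
    have hO := hT.sm.isOpen_pre ((ofAtl A).e i).open_source
    have hc : ContinuousAt (fun q => fderiv ℝ (fun q => A.e i (Θ q)) q) p :=
      ((hT.sm.smAt (i := i) hp hi).fderiv_right (m := 0) (by simp)).continuousAt
    have h1 : ContinuousAt (fun q => (fderiv ℝ (fun q => A.e i (Θ q)) q).inverse.comp
        (Complex.I • (fderiv ℝ (fun q => A.e i (Θ q)) q))) p := by
      have h2 : ContinuousAt (fun q => (fderiv ℝ (fun q => A.e i (Θ q)) q).inverse) p :=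
        ContinuousAt.comp (g := ContinuousLinearMap.inverse) (inv_cont (hT.bij p hp i hi)) hc
      exact h2.clm_comp (hc.const_smul Complex.I)
    refine (h1.congr ?_).continuousWithinAt
    filter_upwards [hO.mem_nhds ⟨hp, hi⟩] with q hq
    exact (IT_eq hT hq.1 hq.2).symm
  Ip k p hp := by
    have hp' : (p.1 + kv k, p.2) ∈ tub N R := hp
    have hi := ci_mem (ofAtl A) (Θ p)
    set i := ci (ofAtl A) (Θ p) with hi0
    have hΘ := tube_per hT hp k
    have hi' : Θ (p.1 + kv k, p.2) ∈ (A.e i).source := by rw [hΘ]; exact hi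
    rw [IT_eq hT hp hi, IT_eq hT hp' hi']
    have e1 : fderiv ℝ (fun q => A.e i (Θ q)) (p.1 + kv k, p.2) =
        fderiv ℝ (fun q => A.e i (Θ q)) p := by
      have e2 := fderiv_comp_add_right (f := fun q => A.e i (Θ q)) (x := p) (𝕜 := ℝ)
        ((kv k, 0) : VN N × VN N)
      have e3 : p + ((kv k, 0) : VN N × VN N) = (p.1 + kv k, p.2) := by
        ext1 <;> simp
      rw [e3] at e2
      rw [← e2]
      refine Filter.EventuallyEq.fderiv_eq ?_
      filter_upwards [hT.sm.op.mem_nhds hp] with q hq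
      have e4 : q + ((kv k, 0) : VN N × VN N) = (q.1 + kv k, q.2) := by
        ext1 <;> simp
      rw [e4, tube_per hT hq k]
    rw [e1]
  sq p hp u := by
    have hi := ci_mem (ofAtl A) (Θ p)
    apply (hT.bij p hp _ hi).1
    have h1 := IT_spec hT hp hi (IT A Θ p u)
    rw [IT_spec hT hp hi u, smul_smul, Complex.I_mul_I] at h1
    refine h1.trans ?_
    rw [neg_one_smul]
    exact (map_neg _ _).symm
  xy p hp u v := by
    have hi := ci_mem (ofAtl A) (Θ p)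
    rw [hT.sm.pull_eq w hp hi, hT.sm.pull_eq w' hp hi, pl_apply, pl_apply]
    have h1 := IT_spec hT hp hi u
    have h2 : fderiv ℝ (fun y => (ofAtl A).e (ci (ofAtl A) (Θ p)) (Θ y)) p (IT A Θ p u) =
      Complex.I • fderiv ℝ (fun y => (ofAtl A).e (ci (ofAtl A) (Θ p)) (Θ y)) p u := h1
    rw [h2]
    exact hJ _ _ ((A.e _).map_source hi) _ _
  nd p hp u hu := by
    have h1 := hT.nd p hp u
    have h2 : pull w Θ p u = 0 := ContinuousLinearMap.ext hu
    rw [h2, norm_zero, mul_zero] at h1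
    exact norm_le_zero_iff.1 h1
  int p hp := by
    have hi := ci_mem (ofAtl A) (Θ p)
    refine ⟨Cn N, inferInstance, inferInstance, inferInstance,
      fun q => A.e (ci (ofAtl A) (Θ p)) (Θ q), hT.sm.smAt hp hi, hT.bij p hp _ hi, ?_⟩
    filter_upwards [(hT.sm.isOpen_pre ((ofAtl A).e _).open_source).mem_nhds ⟨hp, hi⟩] with q hq u
    exact IT_spec hT hq.1 hq.2 u

end

end

end Crest.Agent.R281.Tub_57
end

-- ▼ part R281/Tub11_57

/-!
# R281 (S0424), TUBE-HOL (helper57), part 11: push-down of the local holomorphic fibration to `X`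
-/

set_option autoImplicit false
set_option linter.unusedSectionVars false
set_option maxSynthPendingDepth 3

open Set Filter Topology Metric
open scoped ContDiff NNReal

namespace Crest.Agent.R281.Tub_57

open Crest.Agent.R275.Geo Crest.Agent.R281.HkR_835
open Crest.Agent.R281.Per_368 (SmI pull ci ci_mem pl_apply)
open Crest.Agent.R281.T5D_808 (TubeD)

noncomputable section

variable {N : ℕ} {X : Type} [TopologicalSpace X]

/-- **holomorphic Lagrangian fibration on the open set `U`** with compact connected fibres -/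
structure LagFib (A : Atl N X) (w w' : F2 (ofAtl A)) (n : ℕ) (U : Set X) (f : X → Cn n) (ρ : ℝ) :
    Prop where
  pos : 0 < ρ
  op : IsOpen U
  lt : ∀ x ∈ U, ‖f x‖ < ρ
  hol : ∀ i, DifferentiableOn ℂ (fun z => f ((A.e i).symm z))
    ((A.e i).target ∩ (A.e i).symm ⁻¹' U)
  surj : ∀ i, ∀ x ∈ (A.e i).source, x ∈ U →
    Function.Surjective (fderiv ℂ (fun z => f ((A.e i).symm z)) (A.e i x))
  lag : ∀ i, ∀ x ∈ (A.e i).source, x ∈ U → ∀ u v,
    fderiv ℂ (fun z => f ((A.e i).symm z)) (A.e i x) u = 0 →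
    fderiv ℂ (fun z => f ((A.e i).symm z)) (A.e i x) v = 0 →
    w.w i (A.e i x) u v = 0 ∧ w'.w i (A.e i x) u v = 0
  cpt : ∀ b, ‖b‖ < ρ → IsCompact {x | x ∈ U ∧ f x = b}
  con : ∀ b, ‖b‖ < ρ → IsPreconnected {x | x ∈ U ∧ f x = b}
  ne : ∀ b, ‖b‖ < ρ → {x | x ∈ U ∧ f x = b}.Nonempty

variable {A : Atl N X} {w w' : F2 (ofAtl A)} {R Λ δ : ℝ} {Θ : VN N × VN N → X}
  {S : Set (VN N)} {B : VN N → VN N → VN N}

/-- `Θ` is open on the tube -/
theorem tube_open (hT : TubeD (ofAtl A) w w' N R Λ δ Θ) {p : VN N × VN N} (hp : p ∈ tub N R) {i : A.ι}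
    (hi : Θ p ∈ (A.e i).source) {Q : Set (VN N × VN N)} (hQ : IsOpen Q) (hpQ : p ∈ Q) :
    ∃ η : Cn N → VN N × VN N, η (A.e i (Θ p)) = p ∧ ContDiffAt ℝ ∞ η (A.e i (Θ p)) ∧
      ∀ᶠ z in 𝓝 (A.e i (Θ p)), η z ∈ Q ∧ η z ∈ tub N R ∧ z ∈ (A.e i).target ∧
        Θ (η z) = (A.e i).symm z ∧ A.e i (Θ (η z)) = z := by
  obtain ⟨η, h0, h1, h2, h3⟩ := exists_inv (hT.sm.smAt (i := i) hp hi) (by simp) (hT.bij p hp i hi)
  refine ⟨η, h0, h1, ?_⟩
  have ht : Tendsto η (𝓝 (A.e i (Θ p))) (𝓝 p) := by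
    have := h1.continuousAt.tendsto
    rwa [h0] at this
  have hO := hT.sm.isOpen_pre ((ofAtl A).e i).open_source
  filter_upwards [ht.eventually (hQ.mem_nhds hpQ), ht.eventually (hO.mem_nhds ⟨hp, hi⟩), h3,
    (A.e i).open_target.mem_nhds ((A.e i).map_source hi)] with z k1 k2 k3 k4
  have k3' : A.e i (Θ (η z)) = z := k3
  refine ⟨k1, k2.1, k4, ?_, k3'⟩
  have k5 : (A.e i).symm (A.e i (Θ (η z))) = Θ (η z) := (A.e i).left_inv k2.2
  rw [k3'] at k5
  exact k5.symm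

theorem exists_lagFib (hT : TubeD (ofAtl A) w w' N R Λ δ Θ) {k : VN N × VN N → VN N}
    {M : VN N → VN N → VN N ≃L[ℝ] VN N} {J : VN N → VN N →L[ℝ] VN N}
    (hJ : ∀ i, ∀ z ∈ (A.e i).target, ∀ u v, w.w i z (Complex.I • u) v = - w'.w i z u v)
    (O : Out R (pull w Θ) (pull w' Θ) (IT A Θ) S B k M J) {n : ℕ} (hn : N = 2 * n) {s0 : VN N}
    (hs0 : s0 ∈ S) : ∃ (ρ : ℝ) (U : Set X) (f : X → Cn n), LagFib A w w' n U f ρ ∧
      {x | x ∈ U ∧ f x = 0} = range (fun θ => Θ (θ, B s0 θ)) ∧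
      U ⊆ Θ '' {p | ∃ s ∈ S, B s p.1 = p.2} ∧
      (∀ b, ‖b‖ < ρ → ∃ s ∈ S, {x | x ∈ U ∧ f x = b} = range (fun θ => Θ (θ, B s θ))) := by
  classical
  have G := geo_of hT hJ
  have hY : Module.finrank ℝ (Cn n) = N := by
    rw [finrank_real_of_complex, finrank_euclideanSpace_fin, hn]
  obtain ⟨ρ, ι, f0, q, hB, hq0, -⟩ := exists_bas G O hY hs0 0
  set Rg : Set (VN N × VN N) := {p | ∃ e ∈ ball (0 : Cn n) ρ, B (q e) p.1 = p.2} with hRg
  have hRt : ∀ p ∈ Rg, p ∈ tub N R := by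
    rintro ⟨θ, v⟩ ⟨e, he, h⟩
    simp only at h
    subst h
    exact O.sub _ (hB.qS e he) θ
  have hRf : ∀ p ∈ Rg, ‖f0 p‖ < ρ ∧ B (q (f0 p)) p.1 = p.2 := by
    rintro ⟨θ, v⟩ ⟨e, he, h⟩
    simp only at h
    subst h
    rw [hB.fA e he θ]
    exact ⟨mem_ball_zero_iff.1 he, rfl⟩
  have hRp : ∀ p ∈ Rg, ∀ kk : Fin N → ℤ, (p.1 + kv kk, p.2) ∈ Rg ∧ f0 (p.1 + kv kk, p.2) = f0 p := by
    rintro ⟨θ, v⟩ ⟨e, he, h⟩ kk
    simp only at h
    subst h
    have h1 : ((θ + kv kk, B (q e) θ) : VN N × VN N) = (θ + kv kk, B (q e) (θ + kv kk)) := by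
      rw [O.per _ (hB.qS e he) kk θ]
    simp only
    rw [h1, hB.fA e he, hB.fA e he]
    exact ⟨⟨e, he, rfl⟩, rfl⟩
  -- the function on `X`
  set f : X → Cn n := fun x => if h : ∃ p ∈ Rg, Θ p = x then f0 h.choose else 0 with hf
  have hfΘ : ∀ p ∈ Rg, f (Θ p) = f0 p := by
    intro p hp
    have h : ∃ p' ∈ Rg, Θ p' = Θ p := ⟨p, hp, rfl⟩
    have h1 : f (Θ p) = f0 h.choose := dif_pos h
    rw [h1]
    obtain ⟨kk, hk⟩ := (hT.eq_iff _ (hRt _ h.choose_spec.1) _ (hRt p hp)).1 h.choose_spec.2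
    have h2 : h.choose = (p.1 + kv kk, p.2) := hk
    rw [h2]
    exact (hRp p hp kk).2
  set U : Set X := Θ '' Rg with hU
  -- local inverse
  have hloc : ∀ p ∈ Rg, ∀ i, Θ p ∈ (A.e i).source → ∃ η : Cn N → VN N × VN N,
      η (A.e i (Θ p)) = p ∧ ContDiffAt ℝ ∞ η (A.e i (Θ p)) ∧
      ∀ᶠ z in 𝓝 (A.e i (Θ p)), η z ∈ Rg ∧ η z ∈ tub N R ∧ z ∈ (A.e i).target ∧
        Θ (η z) = (A.e i).symm z ∧ A.e i (Θ (η z)) = z := fun p hp i hi =>
    tube_open hT (hRt p hp) hi hB.op hp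
  have hUo : IsOpen U := by
    rw [isOpen_iff_mem_nhds]
    rintro x ⟨p, hp, rfl⟩
    obtain ⟨i, hi⟩ := A.cover (Θ p)
    obtain ⟨η, h1, h2, h3⟩ := hloc p hp i hi
    have h4 : Tendsto (A.e i) (𝓝 (Θ p)) (𝓝 (A.e i (Θ p))) := (A.e i).continuousAt hi
    filter_upwards [h4.eventually h3, (A.e i).open_source.mem_nhds hi] with x k1 k2
    refine ⟨η (A.e i x), k1.1, ?_⟩
    rw [k1.2.2.2.1, (A.e i).left_inv k2]
  -- the derivative
  have hder : ∀ p ∈ Rg, ∀ i, Θ p ∈ (A.e i).source →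
      DifferentiableAt ℂ (fun z => f ((A.e i).symm z)) (A.e i (Θ p)) ∧
      ∀ a, fderiv ℂ (fun z => f ((A.e i).symm z)) (A.e i (Θ p))
        (fderiv ℝ (fun q => A.e i (Θ q)) p a) = fderiv ℝ f0 p a := by
    intro p hp i hi
    obtain ⟨η, h1, h2, h3⟩ := hloc p hp i hi
    set z0 := A.e i (Θ p) with hz0
    have hη : HasFDerivAt η (fderiv ℝ η z0) z0 := (h2.differentiableAt (by simp)).hasFDerivAt
    have hf0 : HasFDerivAt f0 (fderiv ℝ f0 p) (η z0) := by
      rw [h1]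
      exact ((hB.fs.contDiffAt (hB.op.mem_nhds hp)).differentiableAt (by simp)).hasFDerivAt
    have hcomp : HasFDerivAt (fun z => f ((A.e i).symm z)) ((fderiv ℝ f0 p).comp (fderiv ℝ η z0))
        z0 := by
      refine (hf0.comp z0 hη).congr_of_eventuallyEq ?_
      filter_upwards [h3] with z hz
      rw [← hz.2.2.2.1, hfΘ _ hz.1]
      rfl
    -- `η` inverts `A.e i ∘ Θ`
    have hD := hT.bij p (hRt p hp) i hi
    have hΘd : HasFDerivAt (fun q => A.e i (Θ q)) (fderiv ℝ (fun q => A.e i (Θ q)) p) (η z0) := by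
      rw [h1]
      exact (hT.sm.diffAt (i := i) (hRt p hp) hi).hasFDerivAt
    have h4 : HasFDerivAt (fun z => A.e i (Θ (η z)))
        ((fderiv ℝ (fun q => A.e i (Θ q)) p).comp (fderiv ℝ η z0)) z0 :=
      HasFDerivAt.comp (g := fun q => A.e i (Θ q)) z0 hΘd hη
    have h5 : HasFDerivAt (fun z => A.e i (Θ (η z))) (ContinuousLinearMap.id ℝ (Cn N)) z0 :=
      (hasFDerivAt_id z0).congr_of_eventuallyEq (h3.mono fun z hz => hz.2.2.2.2)
    have h6 : ∀ v, fderiv ℝ (fun q => A.e i (Θ q)) p (fderiv ℝ η z0 v) = v := fun v =>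
      ContinuousLinearMap.ext_iff.1 (h4.unique h5) v
    have h7 : ∀ a, fderiv ℝ η z0 (fderiv ℝ (fun q => A.e i (Θ q)) p a) = a := fun a =>
      hD.1 (h6 _)
    have hIf : ∀ u, fderiv ℝ f0 p (IT A Θ p u) = Complex.I • fderiv ℝ f0 p u := by
      intro u
      obtain ⟨e, he, h⟩ := hp
      have hpe : (p.1, B (q e) p.1) = p := by rw [h]
      have := hB.fI e he p.1 u
      rwa [hpe] at this
    have h8 : ∀ v, fderiv ℝ η z0 (Complex.I • v) = IT A Θ p (fderiv ℝ η z0 v) := by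
      intro v
      apply hD.1
      have h9 := IT_spec hT (hRt p hp) hi (fderiv ℝ η z0 v)
      have h10 : fderiv ℝ (fun q => A.e i (Θ q)) p (fderiv ℝ η z0 v) = v := h6 v
      rw [h10] at h9
      exact (h6 _).trans h9.symm
    have hdC : DifferentiableAt ℂ (fun z => f ((A.e i).symm z)) z0 := by
      refine diffC hcomp.differentiableAt fun v => ?_
      rw [hcomp.fderiv]
      simp only [ContinuousLinearMap.comp_apply]
      rw [h8, hIf]
    refine ⟨hdC, fun a => ?_⟩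
    have h11 : fderiv ℝ (fun z => f ((A.e i).symm z)) z0 =
        (fderiv ℂ (fun z => f ((A.e i).symm z)) z0).restrictScalars ℝ :=
      (hdC.hasFDerivAt.restrictScalars ℝ).fderiv
    have h12 : fderiv ℂ (fun z => f ((A.e i).symm z)) z0 (fderiv ℝ (fun q => A.e i (Θ q)) p a) =
        fderiv ℝ (fun z => f ((A.e i).symm z)) z0 (fderiv ℝ (fun q => A.e i (Θ q)) p a) := by
      rw [h11]
      rfl
    rw [h12, hcomp.fderiv, ContinuousLinearMap.comp_apply, h7]
  have hfib : ∀ b : Cn n, ‖b‖ < ρ →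
      {x | x ∈ U ∧ f x = b} = range (fun θ => Θ (θ, B (q b) θ)) := by
    intro b hb
    ext x
    constructor
    · rintro ⟨⟨p, hp, rfl⟩, h⟩
      rw [hfΘ p hp] at h
      refine ⟨p.1, ?_⟩
      have := (hRf p hp).2
      rw [h] at this
      simp only [this]
    · rintro ⟨θ, rfl⟩
      have hb' : b ∈ ball (0 : Cn n) ρ := mem_ball_zero_iff.2 hb
      have hm : (θ, B (q b) θ) ∈ Rg := ⟨b, hb', rfl⟩
      exact ⟨⟨_, hm, rfl⟩, by rw [hfΘ _ hm, hB.fA b hb']⟩
  have hcont : ∀ s ∈ S, Continuous fun θ => Θ (θ, B s θ) := fun s hs =>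
    hT.sm.cont.comp_continuous (continuous_id.prodMk (O.sm s hs).continuous) fun θ => O.sub s hs θ
  have hperΘ : ∀ s ∈ S, ∀ (kk : Fin N → ℤ) θ, Θ (θ + kv kk, B s (θ + kv kk)) = Θ (θ, B s θ) := by
    intro s hs kk θ
    rw [O.per s hs kk θ]
    exact tube_per hT (O.sub s hs θ) kk
  refine ⟨ρ, U, f, ⟨hB.pos, hUo, ?_, ?_, ?_, ?_, ?_, ?_, ?_⟩, ?_, ?_, ?_⟩
  · rintro x ⟨p, hp, rfl⟩
    rw [hfΘ p hp]
    exact (hRf p hp).1
  · rintro i z ⟨hz, ⟨p, hp, hpz⟩⟩
    have hi : Θ p ∈ (A.e i).source := by rw [hpz]; exact (A.e i).map_target hz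
    have h1 : A.e i (Θ p) = z := by rw [hpz]; exact (A.e i).right_inv hz
    have h2 := (hder p hp i hi).1
    rw [h1] at h2
    exact h2.differentiableWithinAt
  · rintro i x hi ⟨p, hp, rfl⟩ b
    obtain ⟨e, he, h⟩ := hp
    have hpe : (p.1, B (q e) p.1) = p := by rw [h]
    have h1 := hB.fsur e he p.1 b
    rw [hpe] at h1
    obtain ⟨a, ha⟩ := h1
    exact ⟨_, ((hder p ⟨e, he, h⟩ i hi).2 a).trans ha⟩
  · rintro i x hi ⟨p, hp, rfl⟩ u v hu hv
    have hD := hT.bij p (hRt p hp) i hi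
    obtain ⟨a, rfl⟩ := hD.2 u
    obtain ⟨b, rfl⟩ := hD.2 v
    have ha : fderiv ℝ f0 p a = 0 := ((hder p hp i hi).2 a).symm.trans hu
    have hb : fderiv ℝ f0 p b = 0 := ((hder p hp i hi).2 b).symm.trans hv
    obtain ⟨e, he, h⟩ := id hp
    have hpe : (p.1, B (q e) p.1) = p := by rw [h]
    have hkera := (hB.fker e he p.1 a)
    have hkerb := (hB.fker e he p.1 b)
    rw [hpe] at hkera hkerb
    have ea := hkera.1 ha
    have eb := hkerb.1 hb
    have ea' : a = (a.1, fderiv ℝ (B (q e)) p.1 a.1) := Prod.ext rfl ea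
    have eb' : b = (b.1, fderiv ℝ (B (q e)) p.1 b.1) := Prod.ext rfl eb
    have hx := O.ix _ (hB.qS e he) p.1 a.1 b.1
    have hy := O.iy _ (hB.qS e he) p.1 a.1 b.1
    rw [hpe, ← ea', ← eb'] at hx hy
    rw [hT.sm.pull_eq w (hRt p hp) hi, pl_apply] at hx
    rw [hT.sm.pull_eq w' (hRt p hp) hi, pl_apply] at hy
    exact ⟨hx, hy⟩
  · intro b hb
    rw [hfib b hb]
    have hb' : b ∈ ball (0 : Cn n) ρ := mem_ball_zero_iff.2 hb
    have h1 : range (fun θ => Θ (θ, B (q b) θ)) = (fun θ => Θ (θ, B (q b) θ)) '' cub N := by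
      ext x
      constructor
      · rintro ⟨θ, rfl⟩
        obtain ⟨kk, hk⟩ := exists_cub θ
        exact ⟨_, hk, hperΘ _ (hB.qS b hb') kk θ⟩
      · rintro ⟨θ, -, rfl⟩
        exact ⟨θ, rfl⟩
    rw [h1]
    exact isCompact_cub.image (hcont _ (hB.qS b hb'))
  · intro b hb
    rw [hfib b hb]
    exact isPreconnected_range (hcont _ (hB.qS b (mem_ball_zero_iff.2 hb)))
  · intro b hb
    rw [hfib b hb]
    exact ⟨_, 0, rfl⟩
  · have h1 := hfib 0 (by rw [norm_zero]; exact hB.pos)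
    rw [h1, hq0]
  · rintro x ⟨p, ⟨e, he, h⟩, rfl⟩
    exact ⟨p, ⟨q e, hB.qS e he, h⟩, rfl⟩
  · intro b hb
    exact ⟨q b, hB.qS b (mem_ball_zero_iff.2 hb), hfib b hb⟩

/-- helper673's `Tori` gives `Inp` -/
theorem inp_of_tori {r ρ ε : ℝ} {x y : Fo N} {a : VN N → VN N → VN N}
    (h : Mc673.Tori N r ρ ε x y a) (hε : ε ≤ 1 / 2) : Inp r x y (ball 0 ρ) a where
  Bo := isOpen_ball
  leaf c hc := by
    have hc' : ‖c‖ ≤ ρ := (mem_ball_zero_iff.1 hc).le
    exact ⟨h.c1 c hc', h.per c hc', h.lt c hc', h.x0 c hc', h.y0 c hc'⟩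
  near c hc c' hc' θ := (h.lip c c' (mem_ball_zero_iff.1 hc).le (mem_ball_zero_iff.1 hc').le θ).trans
    (by gcongr)
  dnear c hc c' hc' θ :=
    (h.dlip c c' (mem_ball_zero_iff.1 hc).le (mem_ball_zero_iff.1 hc').le θ).trans
      (by nlinarith [norm_nonneg (c - c')])

/-- **TUBE-HOL**: through every point of the tube covered by 673's tori there is a holomorphic
Lagrangian fibration with compact connected fibres on an open set of `X` -/
theorem tube_hol (hT : TubeD (ofAtl A) w w' N R Λ δ Θ)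
    (hJ : ∀ i, ∀ z ∈ (A.e i).target, ∀ u v, w.w i z (Complex.I • u) v = - w'.w i z u v)
    {ρ0 ε : ℝ} {a : VN N → VN N → VN N} (hTo : Mc673.Tori N R ρ0 ε (pull w Θ) (pull w' Θ) a)
    (hε : ε ≤ 1 / 2) {n : ℕ} (hn : N = 2 * n) {c0 : VN N} (hc0 : ‖c0‖ < ρ0) :
    ∃ (ρ : ℝ) (U : Set X) (f : X → Cn n), LagFib A w w' n U f ρ ∧
      {x | x ∈ U ∧ f x = 0} = range (fun θ => Θ (θ, a c0 θ)) ∧
      U ⊆ Θ '' {p | ∃ c ∈ ball 0 ρ0, a c p.1 = p.2} ∧
      (∀ b, ‖b‖ < ρ → ∃ c ∈ ball 0 ρ0, {x | x ∈ U ∧ f x = b} = range (fun θ => Θ (θ, a c θ))) := by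
  have G := geo_of hT hJ
  have hI := inp_of_tori hTo hε
  obtain ⟨cs, h1, h2, hF, hOS⟩ := hI.toLF
  obtain ⟨M, J, O⟩ := hF.out G
  have hc0' : c0 ∈ ball (0 : VN N) ρ0 := mem_ball_zero_iff.2 hc0
  obtain ⟨ρ, U, f, k1, k2, k3, k4⟩ := exists_lagFib hT hJ O hn (s0 := a c0 0) ⟨c0, hc0', rfl⟩
  refine ⟨ρ, U, f, k1, ?_, ?_, ?_⟩
  · rw [k2, h1 c0 hc0']
  · refine k3.trans (image_mono ?_)
    exact hOS.subset
  · intro b hb
    obtain ⟨s, hs, h⟩ := k4 b hb
    exact ⟨cs s, (h2 s hs).1, h⟩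

end

end Crest.Agent.R281.Tub_57
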