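import Crest.Agent.R281.Exo1_368
import Crest.Agent.R281.Per5_368
import Crest.Agent.R281.T5D_808
import Mathlib.Analysis.Calculus.InverseFunctionTheorem.ContDiff
import Crest.Agent.R281.TubT_831
import Crest.Agent.R281.Mc10_673
import Crest.Agent.R281.Mc14_673
import Crest.Agent.R281.Mc16_673
import Crest.Agent.R281.Ab3_729
import Crest.Agent.R281.Tp1_836
import Crest.Agent.R281.Tub11_57
import Crest.Agent.R281.Cr2_808

-- ▼ part R281/Exo2_368
section

/-!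
# R281, (t3) of the core (helper368), part 2: the primitive

`prim_tube` : a closed `ℤ^N`-periodic 2-form `x` on the tube `tube N R` whose horizontal mean
values vanish is `dη` with `η` smooth and `ℤ^N`-periodic
-/

set_option autoImplicit false
set_option maxSynthPendingDepth 3

open MeasureTheory Set Filter Topology Metric
open scoped ContDiff

namespace Crest.Agent.R281.Exo_368

open Crest.Agent.R281.Mc673
open Crest.Agent.R281.T5M_808
open Crest.Agent.R238.Sch (ee sum_ee)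
open Crest.Agent.R275.Tor812 (box volume_box box_eq_pi)
open Crest.Agent.R240.SmJ (dx hasFDerivAt_dx contDiffOn_dx hasFDerivAt_integral
  contDiffOn_integral)

noncomputable section

variable {N : ℕ} {x : Fo N} {R : ℝ}

/-- the primitive -/
def eta (x : Fo N) (p : W N) : W N →L[ℝ] ℝ := -∫ q in kK N, zt x (p, q)

theorem contDiffOn_eta (hx : ClF R x) : ContDiffOn ℝ ∞ (eta x) (tube N R) :=
  (contDiffOn_integral (isOpen_sO R) (isOpen_tube R) isCompact_kK sub_sO volume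
    (contDiffOn_zt hx)).neg

theorem cont_slice {F : Type} [NormedAddCommGroup F] {g : W N × Pm N → F}
    (hg : ContinuousOn g (sO N R)) {p : W N} (hp : p ∈ tube N R) :
    IntegrableOn (fun q => g (p, q)) (kK N) volume := by
  refine ContinuousOn.integrableOn_compact isCompact_kK ?_
  exact hg.comp (by fun_prop) (fun q hq => mem_sO hp hq.2)

theorem fderiv_eta (hx : ClF R x) {p : W N} (hp : p ∈ tube N R) (u v : W N) :
    fderiv ℝ (eta x) p u v = -∫ q in kK N, dx (zt x) (p, q) u v := by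
  have h1 := (hasFDerivAt_integral (isOpen_sO R) (isOpen_tube R) isCompact_kK sub_sO volume
    (contDiffOn_zt hx) hp).neg
  have h2 : fderiv ℝ (eta x) p = -∫ q in kK N, dx (zt x) (p, q) := h1.fderiv
  have hc : ContinuousOn (dx (zt x)) (sO N R) :=
    (contDiffOn_dx (isOpen_sO R) (contDiffOn_zt hx)).continuousOn
  have i1 := cont_slice hc hp
  have i2 : IntegrableOn (fun q => dx (zt x) (p, q) u) (kK N) volume :=
    cont_slice (hc.clm_apply continuousOn_const) hp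
  rw [h2]
  show -((∫ q in kK N, dx (zt x) (p, q)) u v) = _
  rw [ContinuousLinearMap.integral_apply i1, ContinuousLinearMap.integral_apply i2]

theorem gm_zero (p : W N) (a : Fin N → ℝ) : gm N (p, (a, 0)) = p := by
  simp [gm]

theorem gd_zero (u : W N) : gd N 0 u = u := by simp [gd_apply]

theorem gm_one (p : W N) (a : Fin N → ℝ) :
    gm N (p, (a, 1)) = (WithLp.toLp 2 a + p.1, 0) := by
  refine Prod.ext ?_ ?_
  · simp [gm, gv, add_comm]
  · simp [gm, gv]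

theorem gd_one (u : W N) : gd N 1 u = (u.1, 0) := by
  refine Prod.ext ?_ ?_ <;> simp [gd_apply]

theorem sp_row (hR : 0 < R) (hx : ClF R x) (u v : V N) :
    SP (fun θ : V N => x (θ, 0) (u, 0) (v, 0)) := by
  have hz : ∀ θ : V N, ((θ, 0) : W N) ∈ tube N R := fun θ => by
    show ‖(0 : V N)‖ < R
    rw [norm_zero]; exact hR
  refine ⟨?_, fun m θ => ?_⟩
  · refine contDiff_iff_contDiffAt.2 fun θ => ?_
    have h1 : ContDiffAt ℝ ∞ (fun θ : V N => x (θ, 0)) θ :=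
      ContDiffAt.comp θ (hx.cda (p := (θ, 0)) (hz θ)) (contDiffAt_id.prodMk contDiffAt_const)
    exact (h1.clm_apply contDiffAt_const).clm_apply contDiffAt_const
  · show x (θ + kv m, 0) _ _ = _
    rw [hx.per m (θ, 0) (hz θ)]

theorem mn_row (hR : 0 < R) (hx : ClF R x)
    (h0 : ∀ j k, mn (fun θ => x (θ, 0) (ee j, 0) (ee k, 0)) = 0) (u v : V N) :
    mn (fun θ => x (θ, 0) (u, 0) (v, 0)) = 0 := by
  have e : (fun θ : V N => x (θ, 0) (u, 0) (v, 0)) =
      fun θ => ∑ j, ∑ k, (u j * v k) * x (θ, 0) (ee j, 0) (ee k, 0) := by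
    funext θ
    have hu : ((u, 0) : W N) = ∑ j, u j • ((ee j, 0) : W N) := by
      refine Prod.ext ?_ ?_
      · rw [Prod.fst_sum]; exact sum_ee u
      · rw [Prod.snd_sum]; simp
    have hv : ((v, 0) : W N) = ∑ j, v j • ((ee j, 0) : W N) := by
      refine Prod.ext ?_ ?_
      · rw [Prod.fst_sum]; exact sum_ee v
      · rw [Prod.snd_sum]; simp
    have e1 : x (θ, 0) (u, 0) = ∑ j, u j • x (θ, 0) (ee j, 0) := by
      rw [hu, map_sum]
      exact Finset.sum_congr rfl fun j _ => map_smul _ _ _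
    have e2 : ∀ L : W N →L[ℝ] ℝ, L (v, 0) = ∑ k, v k * L (ee k, 0) := by
      intro L
      rw [hv, map_sum]
      exact Finset.sum_congr rfl fun j _ => by rw [map_smul, smul_eq_mul]
    rw [e2, e1, Finset.sum_comm]
    refine Finset.sum_congr rfl fun k _ => ?_
    rw [sum_apply, Finset.mul_sum]
    refine Finset.sum_congr rfl fun j _ => ?_
    rw [smul_apply, smul_eq_mul]
    ring
  rw [e]
  have hs : ∀ j k, SP (fun θ : V N => (u j * v k) * x (θ, 0) (ee j, 0) (ee k, 0)) := fun j k =>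
    (SP.const _).mul (sp_row hR hx _ _)
  rw [mn_sum _ fun j _ => SP.sum _ fun k _ => hs j k]
  refine Finset.sum_eq_zero fun j _ => ?_
  rw [mn_sum _ fun k _ => hs j k]
  refine Finset.sum_eq_zero fun k _ => ?_
  rw [mn_mul, h0, mul_zero]

theorem mn_eq_Icc (f : V N → ℝ) :
    ∫ a in Icc (0 : Fin N → ℝ) 1, f (WithLp.toLp 2 a) = mn f := by
  unfold mn
  refine setIntegral_congr_set ?_
  have h := Measure.univ_pi_Ioc_ae_eq_Icc (μ := fun _ : Fin N => (volume : Measure ℝ))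
    (f := (0 : Fin N → ℝ)) (g := 1)
  have e : box (0 : Fin N → ℝ) = pi univ fun i => Ioc ((0 : Fin N → ℝ) i) ((1 : Fin N → ℝ) i) := by
    rw [box_eq_pi]; simp
  rw [e]
  exact h.symm

/-- **a closed 2-form on `T^N × ball` with zero horizontal mean values is exact** -/
theorem prim_tube (hx : ClF R x)
    (h0 : ∀ j k, mn (fun θ => x (θ, 0) (ee j, 0) (ee k, 0)) = 0) :
    ContDiffOn ℝ ∞ (eta x) (tube N R) ∧
    (∀ k : Fin N → ℤ, ∀ p ∈ tube N R, eta x (p.1 + kv k, p.2) = eta x p) ∧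
    ∀ p ∈ tube N R, ∀ u v, fderiv ℝ (eta x) p u v - fderiv ℝ (eta x) p v u = x p u v := by
  refine ⟨contDiffOn_eta hx, ?_, ?_⟩
  · intro k p hp
    unfold eta
    congr 1
    refine setIntegral_congr_fun isCompact_kK.measurableSet fun q hq => ?_
    have h1 : gv N ((p.1 + kv k, p.2), q) = gv N (p, q) := by simp [gv]
    have h2 : gm N ((p.1 + kv k, p.2), q) = ((gm N (p, q)).1 + kv k, (gm N (p, q)).2) := by
      unfold gm
      rw [h1]
      refine Prod.ext ?_ ?_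
      · simp only [Prod.fst_add]; abel
      · simp
    show zt x ((p.1 + kv k, p.2), q) = zt x (p, q)
    unfold zt
    rw [h1, h2, hx.per k _ (mem_sO hp hq.2)]
  · intro p hp u v
    have hR : 0 < R := lt_of_le_of_lt (norm_nonneg _) hp
    have hc : ContinuousOn (dx (zt x)) (sO N R) :=
      (contDiffOn_dx (isOpen_sO R) (contDiffOn_zt hx)).continuousOn
    have hcu : ∀ u v : W N, ContinuousOn (fun q => dx (zt x) q u v) (sO N R) := fun u v =>
      (hc.clm_apply continuousOn_const).clm_apply continuousOn_const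
    have i1 := cont_slice (hcu u v) hp
    have i2 := cont_slice (hcu v u) hp
    rw [fderiv_eta hx hp, fderiv_eta hx hp]
    have e1 : -(∫ q in kK N, dx (zt x) (p, q) u v) - -(∫ q in kK N, dx (zt x) (p, q) v u) =
        -∫ q in kK N, (dx (zt x) (p, q) u v - dx (zt x) (p, q) v u) := by
      rw [integral_sub i1 i2]; ring
    rw [e1]
    have i3 : IntegrableOn (fun q : Pm N => dx (zt x) (p, q) u v - dx (zt x) (p, q) v u)
        (kK N) volume := i1.sub i2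
    have e2 : ∫ q in kK N, (dx (zt x) (p, q) u v - dx (zt x) (p, q) v u) =
        ∫ a in Icc (0 : Fin N → ℝ) 1, ∫ s in Icc (0:ℝ) 1,
          (dx (zt x) (p, (a, s)) u v - dx (zt x) (p, (a, s)) v u) :=
      setIntegral_prod _ i3
    have e3 : ∀ a : Fin N → ℝ, ∫ s in Icc (0:ℝ) 1,
        (dx (zt x) (p, (a, s)) u v - dx (zt x) (p, (a, s)) v u) =
        x (WithLp.toLp 2 a + p.1, 0) (u.1, 0) (v.1, 0) - x p u v := by
      intro a
      rw [integral_Icc_eq_integral_Ioc, ← intervalIntegral.integral_of_le zero_le_one]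
      have hu : uIcc (0:ℝ) 1 = Icc 0 1 := uIcc_of_le zero_le_one
      rw [intervalIntegral.integral_eq_sub_of_hasDerivAt (f := hh x p a u v)
        (fun s hs => hasDerivAt_hh hx hp a (by rwa [hu] at hs) u v) ?_]
      · unfold hh
        rw [gm_one, gm_zero, gd_one, gd_one, gd_zero, gd_zero]
      · refine ContinuousOn.intervalIntegrable ?_
        rw [hu]
        have hm : MapsTo (fun s : ℝ => ((p, (a, s)) : W N × Pm N)) (Icc 0 1) (sO N R) :=
          fun s hs => mem_sO hp hs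
        exact ((hcu u v).comp (by fun_prop) hm).sub ((hcu v u).comp (by fun_prop) hm)
    rw [e2]
    simp_rw [e3]
    have hsp := sp_row hR hx u.1 v.1
    have hcf : Continuous fun a : Fin N → ℝ =>
        x (WithLp.toLp 2 a + p.1, 0) (u.1, 0) (v.1, 0) := by
      have h1 : Continuous fun a : Fin N → ℝ => (WithLp.toLp 2 a + p.1 : V N) :=
        (PiLp.continuous_toLp 2 _).add continuous_const
      exact hsp.cont.comp h1
    rw [integral_sub (hcf.continuousOn.integrableOn_compact isCompact_Icc)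
      (continuousOn_const.integrableOn_compact isCompact_Icc)]
    have e4 : ∫ a in Icc (0 : Fin N → ℝ) 1, x (WithLp.toLp 2 a + p.1, 0) (u.1, 0) (v.1, 0) = 0 := by
      have h1 := mn_eq_Icc (fun θ : V N => x (θ + p.1, 0) (u.1, 0) (v.1, 0))
      rw [h1]
      have h2 := mn_shift hsp p.1
      rw [h2, mn_row hR hx h0]
    have e5 : ∫ _a in Icc (0 : Fin N → ℝ) 1, x p u v = x p u v := by
      rw [setIntegral_const]
      have : (volume : Measure (Fin N → ℝ)).real (Icc 0 1) = 1 := by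
        rw [measureReal_def, Real.volume_Icc_pi]; simp
      rw [this, one_smul]
    rw [e4, e5]
    ring

end

end Crest.Agent.R281.Exo_368
end

-- ▼ part R281/Exo3_368
section

/-!
# R281, (t3) of the core (helper368), part 3: exactness on the open tube in `X`

* `ExOn C U v`     : the closed 2-form `v` is exact on the open set `U ⊆ X`
* `TubeO C N R Θ`  : `Θ : tube N R → X` smooth, local diffeomorphism, injective modulo `ℤ^N`
* `TubeO.isOpen`   : the image is open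
* `TubeO.exOn`     : zero horizontal means ==> exact on `Θ (tube N R)`
* `TubeO.exOn_per` : zero periods ==> exact on `Θ (tube N R)`
* `ExOn.per_zero`  : exact on `U` ==> all periods over periodic maps into `U` vanish
-/

set_option autoImplicit false
set_option maxSynthPendingDepth 3

open MeasureTheory Set Filter Topology Metric
open scoped ContDiff

namespace Crest.Agent.R281.Exo_368

open Crest.Agent.R281.Mc673
open Crest.Agent.R281.T5M_808
open Crest.Agent.R281.HkR_835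
open Crest.Agent.R281.Cdr_234 (sh isOpen_sh)
open Crest.Agent.R281.Per_368
open Crest.Agent.R238.Sch (ee)

noncomputable section

variable {V' X : Type} [NormedAddCommGroup V'] [NormedSpace ℝ V'] [TopologicalSpace X]

/-- `v` is exact on the open set `U` -/
def ExOn (C : RCh V' X) (U : Set X) (v : F2 C) : Prop :=
  ∃ θ : C.ι → V' → V' →L[ℝ] ℝ, (∀ i, ContDiffOn ℝ ∞ (θ i) (sh C i U)) ∧
    (∀ i j, ∀ z ∈ C.ov i j, (C.e i).symm z ∈ U → ∀ u,
      θ i z u = θ j (C.t i j z) (fderiv ℝ (C.t i j) z u)) ∧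
    ∀ i, ∀ z ∈ sh C i U, ∀ a b,
      fderiv ℝ (θ i) z a b - fderiv ℝ (θ i) z b a = v.w i z a b

/-- **exact on `U` ==> zero periods over periodic maps into `U`** -/
theorem ExOn.per_zero {C : RCh V' X} {U : Set X} (hU : IsOpen U) {v : F2 C} (hE : ExOn C U v)
    {E : Type*} [NormedAddCommGroup E] [NormedSpace ℝ E] {S : Set E} {Φ : E → X}
    (h : SmI C S Φ) (hm : ∀ ζ ∈ S, Φ ζ ∈ U) {z a b : E}
    (ha : ∀ ζ ∈ S, ζ + a ∈ S → Φ (ζ + a) = Φ ζ) (hb : ∀ ζ ∈ S, ζ + b ∈ S → Φ (ζ + b) = Φ ζ)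
    (hin : ∀ s ∈ Icc (0:ℝ) 1, ∀ t ∈ Icc (0:ℝ) 1, pt z a b s t ∈ S) :
    per (pull v Φ) z a b = 0 := by
  obtain ⟨θ, hs, ht, hd⟩ := hE
  have hSU : S ∩ Φ ⁻¹' U = S := by
    ext ζ; exact ⟨fun hζ => hζ.1, fun hζ => ⟨hζ, hm ζ hζ⟩⟩
  have hsm : ContDiffOn ℝ ∞ (pull1 C θ Φ) S := by
    have := h.pull1_smooth hU hs ht
    rwa [hSU] at this
  have key : ∀ l : E, (∀ ζ ∈ S, ζ + l ∈ S → Φ (ζ + l) = Φ ζ) → ∀ ζ ∈ S, ζ + l ∈ S →
      pull1 C θ Φ (ζ + l) = pull1 C θ Φ ζ := by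
    intro l hl ζ hζ hζl
    have hi := ci_mem C (Φ ζ)
    have hi' : Φ (ζ + l) ∈ (C.e (ci C (Φ ζ))).source := by rw [hl ζ hζ hζl]; exact hi
    rw [h.pull1_eq ht hζ (hm ζ hζ) hi, h.pull1_eq ht hζl (hm _ hζl) hi']
    have e1 : fderiv ℝ (fun y => C.e (ci C (Φ ζ)) (Φ y)) (ζ + l) =
        fderiv ℝ (fun y => C.e (ci C (Φ ζ)) (Φ y)) ζ := by
      have e2 := fderiv_comp_add_right (f := fun y => C.e (ci C (Φ ζ)) (Φ y)) (x := ζ) (𝕜 := ℝ) l
      rw [← e2]
      refine Filter.EventuallyEq.fderiv_eq ?_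
      have hO : ∀ᶠ y in 𝓝 ζ, y + l ∈ S :=
        (continuous_add_const l).continuousAt.eventually (h.op.mem_nhds hζl)
      filter_upwards [h.op.mem_nhds hζ, hO] with y hy hyl
      rw [hl y hy hyl]
    refine ContinuousLinearMap.ext fun u => ?_
    rw [pb1_apply, pb1_apply, e1, hl ζ hζ hζl]
  refine per_exact (U := S) h.op (η := pull1 C θ Φ) ?_ hin (fun ζ hζ => ?_) (key a ha) (key b hb)
  · exact hsm.of_le (by exact_mod_cast le_top)
  · exact h.pull1_d v hU hs ht hd hζ (hm ζ hζ) a b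

/-- `Θ : tube N R → X` smooth, a local diffeomorphism, injective modulo `ℤ^N` -/
structure TubeO (C : RCh V' X) (N : ℕ) (R : ℝ) (Θ : W N → X) : Prop where
  sm : SmI C (tube N R) Θ
  bij : ∀ p ∈ tube N R, ∀ i, Θ p ∈ (C.e i).source →
    Function.Bijective (fderiv ℝ (fun q => C.e i (Θ q)) p)
  eq_iff : ∀ p ∈ tube N R, ∀ q ∈ tube N R, Θ p = Θ q ↔ ∃ k : Fin N → ℤ, p = (q.1 + kv k, q.2)

theorem _root_.Crest.Agent.R281.T5D_808.TubeD.toO {C : RCh V' X} {w w' : F2 C} {N : ℕ}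
    {R Λ δ : ℝ} {Θ : W N → X} (h : T5D_808.TubeD C w w' N R Λ δ Θ) : TubeO C N R Θ :=
  ⟨h.sm, h.bij, h.eq_iff⟩

namespace TubeO

variable {C : RCh V' X} {N : ℕ} {R : ℝ} {Θ : W N → X}

/-- local inverse of `Θ` -/
theorem exists_inv (h : TubeO C N R Θ) {p : W N} (hp : p ∈ tube N R) {i : C.ι}
    (hi : Θ p ∈ (C.e i).source) :
    ∃ ψ : V' → W N, ContDiffAt ℝ ∞ ψ (C.e i (Θ p)) ∧ ψ (C.e i (Θ p)) = p ∧
      ∀ᶠ z in 𝓝 (C.e i (Θ p)), ψ z ∈ tube N R ∧ Θ (ψ z) ∈ (C.e i).source ∧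
        C.e i (Θ (ψ z)) = z ∧ Θ (ψ z) = (C.e i).symm z ∧
        ContDiffAt ℝ ∞ ψ z ∧
        (∀ u, fderiv ℝ ψ z (fderiv ℝ (fun q => C.e i (Θ q)) (ψ z) u) = u) ∧
        (∀ u, fderiv ℝ (fun q => C.e i (Θ q)) (ψ z) (fderiv ℝ ψ z u) = u) := by
  have hf : ContDiffAt ℝ ∞ (fun q => C.e i (Θ q)) p := h.sm.smAt hp hi
  set f : W N → V' := fun q => C.e i (Θ q) with hfdef
  have hb := h.bij p hp i hi
  have : FiniteDimensional ℝ V' := LinearEquiv.finiteDimensional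
    (LinearEquiv.ofBijective (fderiv ℝ f p : W N →ₗ[ℝ] V') hb)
  have : CompleteSpace V' := FiniteDimensional.complete ℝ V'
  set f' : W N ≃L[ℝ] V' :=
    (LinearEquiv.ofBijective (fderiv ℝ f p : W N →ₗ[ℝ] V') hb).toContinuousLinearEquiv with hf'
  have hff : HasFDerivAt f (f' : W N →L[ℝ] V') p := by
    have h1 := (hf.differentiableAt (by simp)).hasFDerivAt
    exact h1
  have h1n : (1 : WithTop ℕ∞) ≤ ∞ := by exact_mod_cast le_top
  set ψ : V' → W N := hf.localInverse hff (by simp) with hψ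
  have hψs : ContDiffAt ℝ ∞ ψ (f p) := hf.to_localInverse hff (by simp)
  have hst := hf.hasStrictFDerivAt' hff (by simp)
  have hψp : ψ (f p) = p := hst.localInverse_apply_image
  have hr : ∀ᶠ z in 𝓝 (f p), f (ψ z) = z := hst.eventually_right_inverse
  have hl : ∀ᶠ q in 𝓝 p, ψ (f q) = q := hst.eventually_left_inverse
  have hψc : Tendsto ψ (𝓝 (f p)) (𝓝 p) := by
    have := hψs.continuousAt
    rwa [ContinuousAt, hψp] at this
  have hO : ∀ᶠ q in 𝓝 p, q ∈ tube N R ∧ Θ q ∈ (C.e i).source :=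
    (h.sm.isOpen_pre (C.e i).open_source).mem_nhds ⟨hp, hi⟩
  have hsm : ∀ᶠ z in 𝓝 (f p), ContDiffAt ℝ ∞ ψ z := by
    have hsO : IsOpen {q : W N | q ∈ tube N R ∧ Θ q ∈ (C.e i).source} :=
      h.sm.isOpen_pre (C.e i).open_source
    -- use the inverse function theorem at the nearby points
    set e := hf.toOpenPartialHomeomorph f hff (by simp) with he
    have hes : e.symm = ψ := rfl
    have hec : (e : W N → V') = f := rfl
    have hpt : f p ∈ e.target := hf.image_mem_toOpenPartialHomeomorph_target hff (by simp)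
    have hft : ∀ᶠ z in 𝓝 (f p), z ∈ e.target := e.open_target.mem_nhds hpt
    filter_upwards [hft, hψc.eventually hO] with z hz hzO
    have hbz := h.bij (ψ z) hzO.1 i hzO.2
    have hfz : ContDiffAt ℝ ∞ f (e.symm z) := h.sm.smAt hzO.1 hzO.2
    have h3 : HasFDerivAt e (((LinearEquiv.ofBijective (fderiv ℝ f (ψ z) : W N →ₗ[ℝ] V')
        hbz).toContinuousLinearEquiv : W N ≃L[ℝ] V') : W N →L[ℝ] V') (e.symm z) :=
      (hfz.differentiableAt (by simp)).hasFDerivAt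
    exact e.contDiffAt_symm hz h3 hfz
  refine ⟨ψ, hψs, hψp, ?_⟩
  have hψO := hψc.eventually hO
  have hψl := hψc.eventually hl.eventually_nhds
  filter_upwards [hr, hr.eventually_nhds, hψO, hsm, hψl] with z hz hz' hzO hzs hzl
  have hzs' : (C.e i).symm z = Θ (ψ z) := by
    conv_lhs => rw [← hz]
    exact (C.e i).left_inv hzO.2
  have hdf : HasFDerivAt f (fderiv ℝ f (ψ z)) (ψ z) := (h.sm.diffAt hzO.1 hzO.2).hasFDerivAt
  have hdψ : HasFDerivAt ψ (fderiv ℝ ψ z) z := (hzs.differentiableAt (by simp)).hasFDerivAt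
  refine ⟨hzO.1, hzO.2, hz, hzs'.symm, hzs, fun u => ?_, fun u => ?_⟩
  · have h1 : HasFDerivAt (fun q => ψ (f q)) ((fderiv ℝ ψ z).comp (fderiv ℝ f (ψ z))) (ψ z) := by
      have hdψ' : HasFDerivAt ψ (fderiv ℝ ψ z) (f (ψ z)) := by rw [hz]; exact hdψ
      exact hdψ'.comp (ψ z) hdf
    have h2 : HasFDerivAt (fun q => ψ (f q)) (ContinuousLinearMap.id ℝ (W N)) (ψ z) :=
      (hasFDerivAt_id _).congr_of_eventuallyEq hzl
    exact congrArg (fun T : W N →L[ℝ] W N => T u) (h1.unique h2)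
  · have h1 : HasFDerivAt (fun y => f (ψ y)) ((fderiv ℝ f (ψ z)).comp (fderiv ℝ ψ z)) z :=
      hdf.comp z hdψ
    have h2 : HasFDerivAt (fun y => f (ψ y)) (ContinuousLinearMap.id ℝ V') z :=
      (hasFDerivAt_id _).congr_of_eventuallyEq hz'
    exact congrArg (fun T : V' →L[ℝ] V' => T u) (h1.unique h2)

/-- the image of the tube is open -/
theorem isOpen (h : TubeO C N R Θ) : IsOpen (Θ '' tube N R) := by
  rw [isOpen_iff_mem_nhds]
  rintro x ⟨p, hp, rfl⟩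
  have hi := ci_mem C (Θ p)
  set i := ci C (Θ p) with hidef
  obtain ⟨ψ, -, -, hev⟩ := h.exists_inv hp hi
  have h1 : ∀ᶠ y in 𝓝 (Θ p), y ∈ (C.e i).source := (C.e i).open_source.mem_nhds hi
  have h2 := ((C.e i).continuousAt hi).eventually hev
  filter_upwards [h1, h2] with y hy hy2
  refine ⟨ψ (C.e i y), hy2.1, ?_⟩
  rw [hy2.2.2.2.1, (C.e i).left_inv hy]

/-- periodicity of the differential -/
theorem fderiv_per (h : TubeO C N R Θ) {p : W N} (hp : p ∈ tube N R) (k : Fin N → ℤ) (i : C.ι) :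
    fderiv ℝ (fun q => C.e i (Θ q)) (p.1 + kv k, p.2) = fderiv ℝ (fun q => C.e i (Θ q)) p := by
  have e0 : ((p.1 + kv k, p.2) : W N) = p + ((kv k, 0) : W N) := by
    refine Prod.ext rfl ?_
    simp
  have e2 := fderiv_comp_add_right (f := fun q => C.e i (Θ q)) (x := p) (𝕜 := ℝ)
    ((kv k, 0) : W N)
  rw [e0, ← e2]
  refine Filter.EventuallyEq.fderiv_eq ?_
  filter_upwards [(isOpen_tube R).mem_nhds hp] with y hy
  have hy' : y + ((kv k, 0) : W N) ∈ tube N R := by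
    show ‖(y + ((kv k, 0) : W N)).2‖ < R
    rw [Prod.snd_add, add_zero]
    exact hy
  have : Θ (y + ((kv k, 0) : W N)) = Θ y := by
    refine (h.eq_iff _ hy' _ hy).2 ⟨k, ?_⟩
    refine Prod.ext rfl ?_
    simp
  rw [this]

open Classical in
/-- transport of a periodic 1-form on the tube to `X` -/
def tX (C : RCh V' X) (N : ℕ) (R : ℝ) (Θ : W N → X) (η : W N → W N →L[ℝ] ℝ) (i : C.ι) (z : V') :
    V' →L[ℝ] ℝ :=
  if h : ∃ q : W N × (V' →L[ℝ] W N), q.1 ∈ tube N R ∧ Θ q.1 = (C.e i).symm z ∧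
      (∀ u, q.2 (fderiv ℝ (fun y => C.e i (Θ y)) q.1 u) = u) ∧
      (∀ u, fderiv ℝ (fun y => C.e i (Θ y)) q.1 (q.2 u) = u)
  then (η h.choose.1).comp h.choose.2 else 0

theorem tX_eq (h : TubeO C N R Θ) {η : W N → W N →L[ℝ] ℝ}
    (hη : ∀ k : Fin N → ℤ, ∀ p ∈ tube N R, η (p.1 + kv k, p.2) = η p) {i : C.ι} {z : V'} {p : W N}
    (hp : p ∈ tube N R) (hz : Θ p = (C.e i).symm z) {L : V' →L[ℝ] W N}
    (hL : ∀ u, L (fderiv ℝ (fun y => C.e i (Θ y)) p u) = u)
    (hL' : ∀ u, fderiv ℝ (fun y => C.e i (Θ y)) p (L u) = u) :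
    tX C N R Θ η i z = (η p).comp L := by
  have hex : ∃ q : W N × (V' →L[ℝ] W N), q.1 ∈ tube N R ∧ Θ q.1 = (C.e i).symm z ∧
      (∀ u, q.2 (fderiv ℝ (fun y => C.e i (Θ y)) q.1 u) = u) ∧
      (∀ u, fderiv ℝ (fun y => C.e i (Θ y)) q.1 (q.2 u) = u) := ⟨(p, L), hp, hz, hL, hL'⟩
  unfold tX
  rw [dif_pos hex]
  obtain ⟨h1, h2, h3, h4⟩ := hex.choose_spec
  set q := hex.choose
  obtain ⟨k, hk⟩ := (h.eq_iff q.1 h1 p hp).1 (h2.trans hz.symm)
  have e1 : η q.1 = η p := by rw [hk, hη k p hp]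
  have e2 : fderiv ℝ (fun y => C.e i (Θ y)) q.1 = fderiv ℝ (fun y => C.e i (Θ y)) p := by
    rw [hk, h.fderiv_per hp]
  have e3 : q.2 = L := by
    refine ContinuousLinearMap.ext fun u => ?_
    have h5 := h3 (L u)
    rw [e2, hL'] at h5
    exact h5
  rw [e1, e3]

/-- local form of the transported 1-form -/
theorem tX_local (h : TubeO C N R Θ) {η : W N → W N →L[ℝ] ℝ}
    (hη : ∀ k : Fin N → ℤ, ∀ p ∈ tube N R, η (p.1 + kv k, p.2) = η p) {i : C.ι} {p : W N}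
    (hp : p ∈ tube N R) (hi : Θ p ∈ (C.e i).source) :
    ∃ ψ : V' → W N, ContDiffAt ℝ ∞ ψ (C.e i (Θ p)) ∧ ψ (C.e i (Θ p)) = p ∧
      (∀ u, fderiv ℝ ψ (C.e i (Θ p)) (fderiv ℝ (fun q => C.e i (Θ q)) p u) = u) ∧
      (∀ u, fderiv ℝ (fun q => C.e i (Θ q)) p (fderiv ℝ ψ (C.e i (Θ p)) u) = u) ∧
      tX C N R Θ η i =ᶠ[𝓝 (C.e i (Θ p))] pb1 η ψ := by
  obtain ⟨ψ, hs, hψp, hev⟩ := h.exists_inv hp hi
  have h0 := hev.self_of_nhds
  refine ⟨ψ, hs, hψp, ?_, ?_, ?_⟩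
  · have := h0.2.2.2.2.2.1
    rwa [hψp] at this
  · have := h0.2.2.2.2.2.2
    rwa [hψp] at this
  · filter_upwards [hev] with z hz
    exact h.tX_eq hη hz.1 hz.2.2.2.1 hz.2.2.2.2.2.1 hz.2.2.2.2.2.2

/-- **a periodic primitive on the tube gives exactness on the image** -/
theorem exOn_of_prim (h : TubeO C N R Θ) {v : F2 C} {η : W N → W N →L[ℝ] ℝ}
    (hs : ContDiffOn ℝ ∞ η (tube N R))
    (hη : ∀ k : Fin N → ℤ, ∀ p ∈ tube N R, η (p.1 + kv k, p.2) = η p)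
    (hd : ∀ p ∈ tube N R, ∀ a b, fderiv ℝ η p a b - fderiv ℝ η p b a = pull v Θ p a b) :
    ExOn C (Θ '' tube N R) v := by
  refine ⟨tX C N R Θ η, ?_, ?_, ?_⟩
  · rintro i z ⟨hz, p, hp, hpz⟩
    have hi : Θ p ∈ (C.e i).source := by rw [hpz]; exact (C.e i).map_target hz
    have hez : C.e i (Θ p) = z := by rw [hpz, (C.e i).right_inv hz]
    obtain ⟨ψ, hψ, hψp, -, -, hev⟩ := h.tX_local hη hp hi
    rw [hez] at hψ hψp hev
    have hηp : ContDiffAt ℝ ∞ η (ψ z) := by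
      rw [hψp]; exact hs.contDiffAt ((isOpen_tube R).mem_nhds hp)
    have h1 : ContDiffAt ℝ ∞ (fun y => η (ψ y)) z := hηp.comp z hψ
    have h2 : ContDiffAt ℝ ∞ (fderiv ℝ ψ) z := hψ.fderiv_right (by simp)
    have h3 : ContDiffAt ℝ ∞ (pb1 η ψ) z := h1.clm_comp h2
    exact (h3.congr_of_eventuallyEq hev).contDiffWithinAt
  · rintro i j z hz ⟨p, hp, hpz⟩ u
    have hi : Θ p ∈ (C.e i).source := by rw [hpz]; exact (C.e i).map_target hz.1
    have hj : Θ p ∈ (C.e j).source := by rw [hpz]; exact hz.2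
    have hez : C.e i (Θ p) = z := by rw [hpz, (C.e i).right_inv hz.1]
    obtain ⟨ψ, -, -, hL, hL', -⟩ := h.tX_local hη hp hi
    obtain ⟨ψ', -, -, hM, hM', -⟩ := h.tX_local hη hp hj
    rw [hez] at hL hL'
    have hsj : Θ p = (C.e j).symm (C.t i j z) := by
      show Θ p = (C.e j).symm (C.e j ((C.e i).symm z))
      rw [(C.e j).left_inv hz.2, hpz]
    have htz : C.e j (Θ p) = C.t i j z := by
      show C.e j (Θ p) = C.e j ((C.e i).symm z)
      rw [hpz]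
    rw [htz] at hM hM'
    rw [h.tX_eq hη hp hpz hL hL', h.tX_eq hη hp hsj hM hM']
    show η p (fderiv ℝ ψ z u) = η p (fderiv ℝ ψ' (C.t i j z) (fderiv ℝ (C.t i j) z u))
    have hch := h.sm.fderiv_change hp hi hj
    rw [hez] at hch
    have h5 : fderiv ℝ (C.t i j) z u =
        fderiv ℝ (fun y => C.e j (Θ y)) p (fderiv ℝ ψ z u) := by
      rw [hch]
      show _ = fderiv ℝ (C.t i j) z (fderiv ℝ (fun y => C.e i (Θ y)) p (fderiv ℝ ψ z u))
      rw [hL']
    rw [h5, hM]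
  · rintro i z ⟨hz, p, hp, hpz⟩ a b
    have hi : Θ p ∈ (C.e i).source := by rw [hpz]; exact (C.e i).map_target hz
    have hez : C.e i (Θ p) = z := by rw [hpz, (C.e i).right_inv hz]
    obtain ⟨ψ, hψ, hψp, hL, hL', hev⟩ := h.tX_local hη hp hi
    rw [hez] at hψ hψp hL hL' hev
    have hηp : ContDiffAt ℝ ∞ η (ψ z) := by
      rw [hψp]; exact hs.contDiffAt ((isOpen_tube R).mem_nhds hp)
    rw [hev.fderiv_eq]
    have h1 := dd_pb1 (θ := η) (φ := ψ) (z := z) (hηp.differentiableAt (by simp)) hψ a b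
    rw [dd_apply, dd_apply] at h1
    rw [h1, hψp, hd p hp, h.sm.pull_eq v hp hi, pl_apply, hL', hL', hez]

variable [FiniteDimensional ℝ V']

/-- the pull back of a closed 2-form to the tube -/
theorem clF (h : TubeO C N R Θ) (v : F2 C) : ClF R (pull v Θ) where
  sm := h.sm.pull_smooth v
  alt p hp a b := (h.sm.pull_cl v).alt p hp a b
  cl p hp a b c := (h.sm.pull_cl v).closed p hp a b c
  per k p hp := by
    have hl : ∀ ζ ∈ tube N R, ζ + ((kv k, 0) : W N) ∈ tube N R ∧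
        Θ (ζ + ((kv k, 0) : W N)) = Θ ζ := by
      intro ζ hζ
      have hy' : ζ + ((kv k, 0) : W N) ∈ tube N R := by
        show ‖(ζ + ((kv k, 0) : W N)).2‖ < R
        rw [Prod.snd_add, add_zero]
        exact hζ
      refine ⟨hy', (h.eq_iff _ hy' _ hζ).2 ⟨k, ?_⟩⟩
      refine Prod.ext rfl ?_
      simp
    have h1 := h.sm.pull_add v hl hp
    have e0 : ((p.1 + kv k, p.2) : W N) = p + ((kv k, 0) : W N) := by
      refine Prod.ext rfl ?_
      simp
    rw [e0, h1]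

/-- **(t3) zero horizontal means ==> `v` is exact on the open tube** -/
theorem exOn (h : TubeO C N R Θ) {v : F2 C}
    (h0 : ∀ j k, mn (fun θ => pull v Θ (θ, 0) (ee j, 0) (ee k, 0)) = 0) :
    ExOn C (Θ '' tube N R) v := by
  obtain ⟨h1, h2, h3⟩ := prim_tube (h.clF v) h0
  exact h.exOn_of_prim h1 h2 h3

/-- **(t3) zero periods ==> `v` is exact on the open tube** -/
theorem exOn_per (h : TubeO C N R Θ) (hR : 0 < R) {v : F2 C}
    (h0 : ∀ j k, ∀ θ : V N, per (pull v Θ) ((θ, 0) : W N) (ee j, 0) (ee k, 0) = 0) :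
    ExOn C (Θ '' tube N R) v :=
  h.exOn fun j k => mn_zero hR (h.clF v) j k (h0 j k)

end TubeO

end

end Crest.Agent.R281.Exo_368
end

-- ▼ part R281/Exo4_368
section

/-!
# R281, (t3) of the core (helper368), part 4: the periods over the fibres of a holomorphic tube

* `pvt_of_exOn` : if the image of the holomorphic tube `Ψ` lies in an open set on which every
  closed form orthogonal to `e` is exact, then `PVT Q e D Ψ l`
* `ExOn.mono`   : restriction to a smaller open set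
* `exOn_tubeD`  : the form in which `T5F_808.core` delivers the periods
-/

set_option autoImplicit false
set_option maxSynthPendingDepth 3

open MeasureTheory Set Filter Topology Metric
open scoped ContDiff

namespace Crest.Agent.R281.Exo_368

open Crest.Agent.R275.Geo
open Crest.Agent.R281.HkR_835
open Crest.Agent.R281.Cdr_234 (sh isOpen_sh)
open Crest.Agent.R281.Per_368
open Crest.Agent.R281.Tub_831

noncomputable section

variable {V' X : Type} [NormedAddCommGroup V'] [NormedSpace ℝ V'] [TopologicalSpace X]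
  {C : RCh V' X}

theorem ExOn.mono {U U' : Set X} (hUU : U' ⊆ U) {v : F2 C}
    (h : ExOn C U v) : ExOn C U' v := by
  obtain ⟨θ, h1, h2, h3⟩ := h
  refine ⟨θ, fun i => (h1 i).mono fun z hz => ⟨hz.1, hUU hz.2⟩,
    fun i j z hz hzU => h2 i j z hz (hUU hzU), fun i z hz => h3 i z ⟨hz.1, hUU hz.2⟩⟩

/-- periods over the fibres of a map `Ψ : D × ℂⁿ → X` which is periodic fibre by fibre -/
theorem ExOn.per_fiber {U : Set X} (hU : IsOpen U) {v : F2 C} (hE : ExOn C U v)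
    {E F : Type} [NormedAddCommGroup E] [NormedSpace ℝ E] [NormedAddCommGroup F]
    [NormedSpace ℝ F] {D : Set E} {Ψ : E × F → X} (h : SmI C (D ×ˢ univ) Ψ) {y : E} (hy : y ∈ D)
    (hm : ∀ x : F, Ψ (y, x) ∈ U) {a b : F} (ha : ∀ x, Ψ (y, x + a) = Ψ (y, x))
    (hb : ∀ x, Ψ (y, x + b) = Ψ (y, x)) (x : F) :
    per (pull v Ψ) (y, x) (0, a) (0, b) = 0 := by
  set L : F →L[ℝ] E × F := ContinuousLinearMap.inr ℝ E F with hL
  have hLc : ∀ x : F, ((y, 0) : E × F) + L x = (y, x) := fun x => by simp [hL]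
  have hS : (fun p : F => ((y, 0) : E × F) + L p) ⁻¹' (D ×ˢ univ) = univ := by
    ext p
    simp only [mem_preimage, hLc, mem_prod, mem_univ, and_true, iff_true]
    exact hy
  have h1 : SmI C univ (fun p : F => Ψ (((y, 0) : E × F) + L p)) := by
    have := h.comp_affine L (y, 0)
    rwa [hS] at this
  have h2 := ExOn.per_zero hU hE h1 (fun ζ _ => by rw [hLc]; exact hm ζ) (z := x) (a := a)
    (b := b) (fun ζ _ _ => by rw [hLc, hLc, ha]) (fun ζ _ _ => by rw [hLc, hLc, hb])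
    (fun _ _ _ _ => mem_univ _)
  rw [h.per_pull_affine L (y, 0) v (fun s _ t _ => by rw [hLc]; exact ⟨hy, mem_univ _⟩), hLc]
    at h2
  exact h2


/-- **the periods over the tori of a holomorphic tube inside a set where the forms are exact** -/
theorem pvt_of_exOn {Q : F2 C →ₗ[ℝ] F2 C →ₗ[ℝ] ℝ} {e : F2 C} {J : C.ι → V' → V' →L[ℝ] V'}
    {w w' : F2 C} {n : ℕ} {D : Set (Cn n)} {Ψ : Cn n × Cn n → X}
    {l : Fin (2 * n) → Cn n → Cn n} {τ : Cn n → Cn n → Cn n → ℂ}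
    (h : HolTube C J w w' n D Ψ l τ) {U : Set X} (hU : IsOpen U)
    (hm : ∀ y ∈ D, ∀ x, Ψ (y, x) ∈ U) (hE : ∀ v : F2 C, Q v e = 0 → ExOn C U v) :
    PVT Q e D Ψ l := by
  intro v hv y hy x j k
  have key : ∀ j, ∀ x, Ψ (y, x + l j y) = Ψ (y, x) := by
    intro j x
    refine (h.eq_iff y hy y hy _ _).2 ⟨rfl, Pi.single j 1, ?_⟩
    rw [Finset.sum_eq_single j]
    · simp
    · intro k _ hk
      rw [Pi.single_eq_of_ne hk]; simp
    · intro hj; exact absurd (Finset.mem_univ j) hj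
  exact (hE v hv).per_fiber hU h.sm hy (fun x => hm y hy x) (key j) (key k) x

end

end Crest.Agent.R281.Exo_368
end

-- ▼ part R281/Bt2_156
section

/-!
# R281 / BIG-TUBE (helper156), part 2: tubes of large radius by scaling

`LagtS1` (40, post 8255) on the tube of radius `1` implies `LagtR`: tubes of any radius, with the
bound `Lam` on the forms independent of the radius.
-/

set_option autoImplicit false
set_option maxSynthPendingDepth 3
set_option synthInstance.maxHeartbeats 100000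

open MeasureTheory Set Metric Filter
open scoped ContDiff Topology

namespace Crest.Agent.R281.Bt_156

open Crest.Agent.R238.Sch (ee norm_ee sum_ee)
open Crest.Agent.R281.Mc673

noncomputable section

/-! ### linear changes of coordinates -/

section lin

variable {E E' F G : Type*} [NormedAddCommGroup E] [NormedSpace ℝ E] [NormedAddCommGroup E']
  [NormedSpace ℝ E'] [NormedAddCommGroup F] [NormedSpace ℝ F] [NormedAddCommGroup G]
  [NormedSpace ℝ G]

/-- `A ↦ L ∘ A ∘ S` -/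
def sand (L : F →L[ℝ] G) (S : E →L[ℝ] E') : (E' →L[ℝ] F) →L[ℝ] (E →L[ℝ] G) :=
  ((ContinuousLinearMap.compL ℝ E E' G).flip S).comp ((ContinuousLinearMap.compL ℝ E' F G) L)

theorem sand_apply (L : F →L[ℝ] G) (S : E →L[ℝ] E') (A : E' →L[ℝ] F) :
    sand L S A = (L.comp A).comp S := rfl

theorem norm_sand_apply_le (L : F →L[ℝ] G) (S : E →L[ℝ] E') {a b : ℝ} (ha : 0 ≤ a) (hb : 0 ≤ b)
    (hL : ∀ f, ‖L f‖ ≤ a * ‖f‖) (hS : ∀ e, ‖S e‖ ≤ b * ‖e‖) (A : E' →L[ℝ] F) :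
    ‖sand L S A‖ ≤ a * b * ‖A‖ := by
  refine ContinuousLinearMap.opNorm_le_bound _ (by positivity) fun e => ?_
  rw [sand_apply]
  calc ‖L (A (S e))‖ ≤ a * ‖A (S e)‖ := hL _
    _ ≤ a * (‖A‖ * ‖S e‖) := mul_le_mul_of_nonneg_left (A.le_opNorm _) ha
    _ ≤ a * (‖A‖ * (b * ‖e‖)) := by
        refine mul_le_mul_of_nonneg_left (mul_le_mul_of_nonneg_left (hS e) (norm_nonneg _)) ha
    _ = a * b * ‖A‖ * ‖e‖ := by ring

theorem fderiv_sand (L : F →L[ℝ] G) (S : E →L[ℝ] E') {f : E' → F} {p : E}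
    (hf : DifferentiableAt ℝ f (S p)) :
    fderiv ℝ (fun q => L (f (S q))) p = sand L S (fderiv ℝ f (S p)) := by
  have h1 : HasFDerivAt (fun q => L (f (S q))) ((L.comp (fderiv ℝ f (S p))).comp S) p :=
    (L.hasFDerivAt.comp p (hf.hasFDerivAt.comp p S.hasFDerivAt))
  exact h1.fderiv

end lin

variable {N : ℕ}

/-- bilinear forms -/
abbrev B2 (N : ℕ) := W N →L[ℝ] W N →L[ℝ] ℝ

/-- `(θ, v) ↦ (θ, s v)` -/
def Sc (N : ℕ) (s : ℝ) : W N →L[ℝ] W N :=
  (ContinuousLinearMap.fst ℝ (V N) (V N)).prod (s • ContinuousLinearMap.snd ℝ (V N) (V N))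

theorem Sc_apply (s : ℝ) (p : W N) : Sc N s p = (p.1, s • p.2) := rfl

theorem Sc_Sc {s : ℝ} (hs : s ≠ 0) (p : W N) : Sc N s (Sc N s⁻¹ p) = p := by
  rw [Sc_apply, Sc_apply]
  ext1
  · rfl
  · exact smul_inv_smul₀ hs _

theorem norm_Sc_apply_le {s m : ℝ} (hm : 1 ≤ m) (hs : |s| ≤ m) (p : W N) :
    ‖Sc N s p‖ ≤ m * ‖p‖ := by
  rw [Sc_apply]
  refine max_le ?_ ?_
  · calc ‖p.1‖ ≤ ‖p‖ := norm_fst_le p
      _ ≤ m * ‖p‖ := le_mul_of_one_le_left (norm_nonneg _) hm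
  · show ‖s • p.2‖ ≤ m * ‖p‖
    rw [norm_smul, Real.norm_eq_abs]
    exact mul_le_mul hs (norm_snd_le p) (norm_nonneg _) (by linarith)

/-- `f ↦ f (S ·)` -/
def pb0 (N : ℕ) (s : ℝ) : (W N →L[ℝ] ℝ) →L[ℝ] (W N →L[ℝ] ℝ) :=
  sand (ContinuousLinearMap.id ℝ ℝ) (Sc N s)

/-- `B ↦ B (S ·, S ·)` -/
def pbL (N : ℕ) (s : ℝ) : B2 N →L[ℝ] B2 N := sand (pb0 N s) (Sc N s)

/-- on derivatives -/
def pbL1 (N : ℕ) (s : ℝ) : (W N →L[ℝ] B2 N) →L[ℝ] (W N →L[ℝ] B2 N) := sand (pbL N s) (Sc N s)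

/-- on second derivatives -/
def pbL2 (N : ℕ) (s : ℝ) : (W N →L[ℝ] W N →L[ℝ] B2 N) →L[ℝ] (W N →L[ℝ] W N →L[ℝ] B2 N) :=
  sand (pbL1 N s) (Sc N s)


theorem norm_pb0_le {s m : ℝ} (hm : 1 ≤ m) (hs : |s| ≤ m) (A : W N →L[ℝ] ℝ) :
    ‖pb0 N s A‖ ≤ m * ‖A‖ := by
  have h1 := norm_sand_apply_le (ContinuousLinearMap.id ℝ ℝ) (Sc N s) zero_le_one
    (by linarith : (0 : ℝ) ≤ m) (fun f => by simp) (norm_Sc_apply_le hm hs) A
  rwa [one_mul] at h1

theorem norm_pbL_le {s m : ℝ} (hm : 1 ≤ m) (hs : |s| ≤ m) (A : B2 N) :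
    ‖pbL N s A‖ ≤ m * m * ‖A‖ :=
  norm_sand_apply_le _ _ (by linarith) (by linarith) (norm_pb0_le hm hs) (norm_Sc_apply_le hm hs) A

theorem norm_pbL1_le {s m : ℝ} (hm : 1 ≤ m) (hs : |s| ≤ m) (A : W N →L[ℝ] B2 N) :
    ‖pbL1 N s A‖ ≤ m * m * m * ‖A‖ :=
  norm_sand_apply_le _ _ (by positivity) (by linarith) (norm_pbL_le hm hs)
    (norm_Sc_apply_le hm hs) A

theorem norm_pbL2_le {s m : ℝ} (hm : 1 ≤ m) (hs : |s| ≤ m) (A : W N →L[ℝ] W N →L[ℝ] B2 N) :
    ‖pbL2 N s A‖ ≤ m * m * m * m * ‖A‖ :=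
  norm_sand_apply_le _ _ (by positivity) (by linarith) (norm_pbL1_le hm hs)
    (norm_Sc_apply_le hm hs) A

/-- the scaled form -/
def scF (s : ℝ) (x : Fo N) : Fo N := fun p => pbL N s (x (Sc N s p))

theorem scF_apply (s : ℝ) (x : Fo N) (p u w : W N) :
    scF s x p u w = x (Sc N s p) (Sc N s u) (Sc N s w) := rfl

theorem Sc_mem {s r : ℝ} (hs : 0 < s) {p : W N} (hp : p ∈ tube N r) :
    Sc N s p ∈ tube N (s * r) := by
  have hp' : ‖p.2‖ < r := hp
  show ‖s • p.2‖ < s * r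
  rw [norm_smul, Real.norm_eq_abs, abs_of_pos hs]
  exact mul_lt_mul_of_pos_left hp' hs

section clf

variable {s r : ℝ} {x : Fo N} (hs : 0 < s) (hx : ClF (s * r) x)

include hs hx

theorem fderiv_scF {p : W N} (hp : p ∈ tube N r) :
    fderiv ℝ (scF s x) p = pbL1 N s (fderiv ℝ x (Sc N s p)) :=
  fderiv_sand (pbL N s) (Sc N s) (hx.da (Sc_mem hs hp))

theorem fderiv_scF_apply {p : W N} (hp : p ∈ tube N r) (z u w : W N) :
    fderiv ℝ (scF s x) p z u w =
      fderiv ℝ x (Sc N s p) (Sc N s z) (Sc N s u) (Sc N s w) := by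
  rw [fderiv_scF hs hx hp]
  rfl

theorem fderiv2_scF {p : W N} (hp : p ∈ tube N r) :
    fderiv ℝ (fderiv ℝ (scF s x)) p = pbL2 N s (fderiv ℝ (fderiv ℝ x) (Sc N s p)) := by
  have h1 : fderiv ℝ (scF s x) =ᶠ[𝓝 p] fun q => pbL1 N s (fderiv ℝ x (Sc N s q)) := by
    filter_upwards [(isOpen_tube (N := N) r).mem_nhds hp] with q hq
    exact fderiv_scF hs hx hq
  rw [h1.fderiv_eq]
  refine fderiv_sand (pbL1 N s) (Sc N s) ?_
  have h3 : (1 : WithTop ℕ∞) + 1 ≤ ∞ := by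
    have h4 : ((1 + 1 : ℕ∞) : WithTop ℕ∞) ≤ ∞ := WithTop.coe_le_coe.2 le_top
    exact h4
  have h2 : ContDiffAt ℝ 1 (fderiv ℝ x) (Sc N s p) :=
    (hx.cda (Sc_mem hs hp)).fderiv_right (m := 1) h3
  exact h2.differentiableAt one_ne_zero

theorem clF_scF : ClF r (scF s x) where
  sm := by
    intro p hp
    have h0 : ContDiffAt ℝ ∞ (fun q => x (Sc N s q)) p :=
      (hx.cda (Sc_mem hs hp)).comp p (Sc N s).contDiff.contDiffAt
    exact ((pbL N s).contDiff.contDiffAt.comp p h0).contDiffWithinAt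
  alt p hp u v := by
    rw [scF_apply, scF_apply]
    exact hx.alt _ (Sc_mem hs hp) _ _
  cl p hp u v z := by
    rw [fderiv_scF_apply hs hx hp, fderiv_scF_apply hs hx hp, fderiv_scF_apply hs hx hp]
    exact hx.cl _ (Sc_mem hs hp) _ _ _
  per k p hp := by
    have h1 := hx.per k (Sc N s p) (Sc_mem hs hp)
    show pbL N s (x (Sc N s (p.1 + kv k, p.2))) = pbL N s (x (Sc N s p))
    congr 1

end clf

/-! ### the statements -/

/-- a family of Lagrangian tori (40, post 8255) -/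
structure Tor (N : ℕ) (rho eps : ℝ) (x y : Fo N) (a : V N → V N → V N) : Prop where
  c1 : ∀ c, ‖c‖ ≤ rho → ContDiff ℝ 1 (a c)
  per : ∀ c, ‖c‖ ≤ rho → Per (a c)
  near : ∀ c, ‖c‖ ≤ rho → ∀ th, ‖a c th - c‖ ≤ eps
  dnear : ∀ c, ‖c‖ ≤ rho → ∀ th, ‖fderiv ℝ (a c) th‖ ≤ eps
  x0 : ∀ c, ‖c‖ ≤ rho → ∀ th u v,
    x (th, a c th) (u, fderiv ℝ (a c) th u) (v, fderiv ℝ (a c) th v) = 0
  y0 : ∀ c, ‖c‖ ≤ rho → ∀ th u v,
    y (th, a c th) (u, fderiv ℝ (a c) th u) (v, fderiv ℝ (a c) th v) = 0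
  lip : ∀ c c', ‖c‖ ≤ rho → ‖c'‖ ≤ rho → ∀ th,
    ‖(a c th - a c' th) - (c - c')‖ ≤ eps * ‖c - c'‖
  dlip : ∀ c c', ‖c‖ ≤ rho → ‖c'‖ ≤ rho → ∀ th,
    ‖fderiv ℝ (a c) th - fderiv ℝ (a c') th‖ ≤ eps * ‖c - c'‖
  cover : ∀ th v, ‖v‖ ≤ rho / 2 → ∃ c, ‖c‖ ≤ rho ∧ a c th = v

/-- hypotheses on a pair of forms on the tube of radius `r` -/
structure Hyp (r Lam del : ℝ) (x y : Fo N) : Prop where
  cx : ClF r x
  cy : ClF r y
  bx : ∀ p ∈ tube N r, ‖x p‖ ≤ Lam
  byy : ∀ p ∈ tube N r, ‖y p‖ ≤ Lam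
  nd : ∀ p ∈ tube N r, ∀ u, ‖u‖ ≤ Lam * ‖x p u‖
  dx : ∀ p ∈ tube N r, ‖fderiv ℝ x p‖ ≤ del
  ddx : ∀ p ∈ tube N r, ‖fderiv ℝ (fderiv ℝ x) p‖ ≤ del
  dy : ∀ p ∈ tube N r, ‖fderiv ℝ y p‖ ≤ del
  ddy : ∀ p ∈ tube N r, ‖fderiv ℝ (fderiv ℝ y) p‖ ≤ del
  I : ∀ p ∈ tube N r, ∃ I : W N → W N, (∀ u, I (I u) = -u) ∧ ∀ u w, x p (I u) w = - y p u w
  mx : ∀ j k, mn (fun th => x (th, 0) (ee j, 0) (ee k, 0)) = 0
  my : ∀ j k, mn (fun th => y (th, 0) (ee j, 0) (ee k, 0)) = 0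

def LagtS1 : Prop := ∀ (N : ℕ) (Lam eps : ℝ), 0 < Lam → 0 < eps → ∃ del > 0, ∀ x y : Fo N,
  Hyp 1 Lam del x y → ∃ a, Tor N (1 / 2) eps x y a

def LagtR : Prop := ∀ (N : ℕ) (Lam eps R : ℝ), 0 < Lam → 0 < eps → 0 < R → ∃ del > 0,
  ∀ x y : Fo N, Hyp (2 * R) Lam del x y → ∃ a, Tor N R eps x y a

theorem hyp_scale {s m Lam del : ℝ} (hs : 0 < s) (hm : 1 ≤ m) (hsm : s ≤ m) (hsi : s⁻¹ ≤ m)
    (hL : 0 < Lam) (hd : 0 ≤ del) {x y : Fo N} (h : Hyp s Lam del x y) :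
    Hyp 1 (m ^ 4 * Lam) (m ^ 4 * del) (scF s x) (scF s y) := by
  have hm0 : 0 ≤ m := by linarith
  have ha : |s| ≤ m := by rwa [abs_of_pos hs]
  have hai : |s⁻¹| ≤ m := by rwa [abs_of_pos (inv_pos.2 hs)]
  have hx : ClF (s * 1) x := by rw [mul_one]; exact h.cx
  have hy : ClF (s * 1) y := by rw [mul_one]; exact h.cy
  have hmem : ∀ p ∈ tube N 1, Sc N s p ∈ tube N s := fun p hp => by
    have := Sc_mem hs hp
    rwa [mul_one] at this
  have hmm : m * m ≤ m ^ 4 := by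
    have h1 : 1 ≤ m * m := one_le_mul_of_one_le_of_one_le hm hm
    calc m * m ≤ (m * m) * (m * m) := le_mul_of_one_le_left (by positivity) h1
      _ = m ^ 4 := by ring
  have h3 : m * m * m ≤ m ^ 4 := by
    calc m * m * m ≤ (m * m * m) * m := le_mul_of_one_le_right (by positivity) hm
      _ = m ^ 4 := by ring
  have b0 : ∀ z : Fo N, (∀ p ∈ tube N s, ‖z p‖ ≤ Lam) → ∀ p ∈ tube N 1,
      ‖scF s z p‖ ≤ m ^ 4 * Lam := by
    intro z hz p hp
    calc ‖scF s z p‖ ≤ (m * m) * ‖z (Sc N s p)‖ := norm_pbL_le hm ha _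
      _ ≤ (m * m) * Lam := mul_le_mul_of_nonneg_left (hz _ (hmem p hp)) (by positivity)
      _ ≤ m ^ 4 * Lam := mul_le_mul_of_nonneg_right hmm hL.le
  have b1 : ∀ z : Fo N, ClF (s * 1) z → (∀ p ∈ tube N s, ‖fderiv ℝ z p‖ ≤ del) →
      ∀ p ∈ tube N 1, ‖fderiv ℝ (scF s z) p‖ ≤ m ^ 4 * del := by
    intro z hz hz1 p hp
    rw [fderiv_scF hs hz hp]
    calc ‖pbL1 N s (fderiv ℝ z (Sc N s p))‖ ≤ (m * m * m) * ‖fderiv ℝ z (Sc N s p)‖ :=
          norm_pbL1_le hm ha _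
      _ ≤ (m * m * m) * del := mul_le_mul_of_nonneg_left (hz1 _ (hmem p hp)) (by positivity)
      _ ≤ m ^ 4 * del := mul_le_mul_of_nonneg_right h3 hd
  have b2 : ∀ z : Fo N, ClF (s * 1) z → (∀ p ∈ tube N s, ‖fderiv ℝ (fderiv ℝ z) p‖ ≤ del) →
      ∀ p ∈ tube N 1, ‖fderiv ℝ (fderiv ℝ (scF s z)) p‖ ≤ m ^ 4 * del := by
    intro z hz hz1 p hp
    rw [fderiv2_scF hs hz hp]
    calc ‖pbL2 N s (fderiv ℝ (fderiv ℝ z) (Sc N s p))‖ ≤
          (m * m * m * m) * ‖fderiv ℝ (fderiv ℝ z) (Sc N s p)‖ := norm_pbL2_le hm ha _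
      _ ≤ (m * m * m * m) * del :=
          mul_le_mul_of_nonneg_left (hz1 _ (hmem p hp)) (by positivity)
      _ = m ^ 4 * del := by ring
  refine ⟨clF_scF hs hx, clF_scF hs hy, b0 x h.bx, b0 y h.byy, ?_, b1 x hx h.dx, b2 x hx h.ddx,
    b1 y hy h.dy, b2 y hy h.ddy, ?_, ?_, ?_⟩
  · intro p hp u
    have e1 : u = Sc N s⁻¹ (Sc N s u) := by
      have := Sc_Sc (inv_ne_zero hs.ne') u
      rw [inv_inv] at this
      exact this.symm
    have h1 : ‖u‖ ≤ m * ‖Sc N s u‖ := by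
      conv_lhs => rw [e1]
      exact norm_Sc_apply_le hm hai _
    have h2 : ‖x (Sc N s p) (Sc N s u)‖ ≤ m * ‖scF s x p u‖ := by
      refine ContinuousLinearMap.opNorm_le_bound _ (by positivity) fun w => ?_
      have e2 : x (Sc N s p) (Sc N s u) w = scF s x p u (Sc N s⁻¹ w) := by
        rw [scF_apply, Sc_Sc hs.ne']
      rw [e2]
      calc ‖scF s x p u (Sc N s⁻¹ w)‖ ≤ ‖scF s x p u‖ * ‖Sc N s⁻¹ w‖ :=
            (scF s x p u).le_opNorm _
        _ ≤ ‖scF s x p u‖ * (m * ‖w‖) :=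
            mul_le_mul_of_nonneg_left (norm_Sc_apply_le hm hai w) (norm_nonneg _)
        _ = m * ‖scF s x p u‖ * ‖w‖ := by ring
    have h3' := h.nd (Sc N s p) (hmem p hp) (Sc N s u)
    calc ‖u‖ ≤ m * ‖Sc N s u‖ := h1
      _ ≤ m * (Lam * (m * ‖scF s x p u‖)) := by gcongr; exact h3'.trans (by gcongr)
      _ = (m * m) * (Lam * ‖scF s x p u‖) := by ring
      _ ≤ m ^ 4 * (Lam * ‖scF s x p u‖) := mul_le_mul_of_nonneg_right hmm (by positivity)
      _ = m ^ 4 * Lam * ‖scF s x p u‖ := by ring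
  · intro p hp
    obtain ⟨I, hI, hI2⟩ := h.I (Sc N s p) (hmem p hp)
    have key : ∀ v, Sc N s (Sc N s⁻¹ v) = v := fun v => Sc_Sc hs.ne' v
    refine ⟨fun u => Sc N s⁻¹ (I (Sc N s u)), fun u => ?_, fun u w => ?_⟩
    · show Sc N s⁻¹ (I (Sc N s (Sc N s⁻¹ (I (Sc N s u))))) = -u
      rw [key, hI, map_neg]
      have := Sc_Sc (inv_ne_zero hs.ne') u
      rw [inv_inv] at this
      rw [this]
    · rw [scF_apply, scF_apply, key]
      exact hI2 _ _
  · intro j k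
    have : (fun th : V N => scF s x (th, 0) (ee j, 0) (ee k, 0)) =
        fun th => x (th, 0) (ee j, 0) (ee k, 0) := by
      funext th
      rw [scF_apply, Sc_apply, Sc_apply, Sc_apply]
      simp
    rw [this]
    exact h.mx j k
  · intro j k
    have : (fun th : V N => scF s y (th, 0) (ee j, 0) (ee k, 0)) =
        fun th => y (th, 0) (ee j, 0) (ee k, 0) := by
      funext th
      rw [scF_apply, Sc_apply, Sc_apply, Sc_apply]
      simp
    rw [this]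
    exact h.my j k

theorem tor_scale {s m rho eps : ℝ} (hs : 0 < s) (hm : 1 ≤ m) (hsm : s ≤ m) (he : 0 ≤ eps)
    {x y : Fo N} {a : V N → V N → V N} (h : Tor N rho eps (scF s x) (scF s y) a) :
    Tor N (s * rho) (m * eps) x y (fun c th => s • a (s⁻¹ • c) th) := by
  have hc : ∀ c : V N, ‖c‖ ≤ s * rho → ‖s⁻¹ • c‖ ≤ rho := by
    intro c hc
    rw [norm_smul, norm_inv, Real.norm_eq_abs, abs_of_pos hs, inv_mul_le_iff₀ hs]
    exact hc
  have hsc : ∀ c : V N, c = s • s⁻¹ • c := fun c => (smul_inv_smul₀ hs.ne' c).symm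
  have hdiff : ∀ c : V N, ‖c‖ ≤ s * rho → ∀ th, fderiv ℝ (fun th => s • a (s⁻¹ • c) th) th =
      s • fderiv ℝ (a (s⁻¹ • c)) th := by
    intro c hc' th
    exact fderiv_const_smul (((h.c1 _ (hc c hc')).differentiable (by simp)).differentiableAt) s
  have hns : ∀ v : V N, ‖s • v‖ = s * ‖v‖ := fun v => by
    rw [norm_smul, Real.norm_eq_abs, abs_of_pos hs]
  have zer : ∀ z : Fo N, (∀ c, ‖c‖ ≤ rho → ∀ th u v,
      scF s z (th, a c th) (u, fderiv ℝ (a c) th u) (v, fderiv ℝ (a c) th v) = 0) →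
      ∀ c, ‖c‖ ≤ s * rho → ∀ th u v, z (th, s • a (s⁻¹ • c) th)
        (u, fderiv ℝ (fun th => s • a (s⁻¹ • c) th) th u)
        (v, fderiv ℝ (fun th => s • a (s⁻¹ • c) th) th v) = 0 := by
    intro z hz c hc' th u v
    have h1 := hz _ (hc c hc') th u v
    rw [hdiff c hc' th]
    rw [scF_apply, Sc_apply, Sc_apply, Sc_apply] at h1
    exact h1
  refine ⟨fun c hc' => (h.c1 _ (hc c hc')).const_smul s, fun c hc' k th => ?_, fun c hc' th => ?_,
    fun c hc' th => ?_, zer x h.x0, zer y h.y0, fun c c' hc1 hc2 th => ?_,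
    fun c c' hc1 hc2 th => ?_, fun th v hv => ?_⟩
  · show s • a (s⁻¹ • c) (th + kv k) = s • a (s⁻¹ • c) th
    rw [h.per _ (hc c hc') k th]
  · have e : s • a (s⁻¹ • c) th - c = s • (a (s⁻¹ • c) th - s⁻¹ • c) := by
      rw [smul_sub, ← hsc c]
    rw [e, hns]
    exact mul_le_mul hsm (h.near _ (hc c hc') th) (norm_nonneg _) (by linarith)
  · rw [hdiff c hc' th, norm_smul, Real.norm_eq_abs, abs_of_pos hs]
    exact mul_le_mul hsm (h.dnear _ (hc c hc') th) (norm_nonneg _) (by linarith)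
  · have h1 := h.lip _ _ (hc c hc1) (hc c' hc2) th
    have e : s • a (s⁻¹ • c) th - s • a (s⁻¹ • c') th - (c - c') =
        s • ((a (s⁻¹ • c) th - a (s⁻¹ • c') th) - (s⁻¹ • c - s⁻¹ • c')) := by
      rw [smul_sub, smul_sub, smul_sub, ← hsc c, ← hsc c']
    have e2 : ‖s⁻¹ • c - s⁻¹ • c'‖ = s⁻¹ * ‖c - c'‖ := by
      rw [← smul_sub, norm_smul, norm_inv, Real.norm_eq_abs, abs_of_pos hs]
    rw [e, hns]
    rw [e2] at h1
    calc s * ‖(a (s⁻¹ • c) th - a (s⁻¹ • c') th) - (s⁻¹ • c - s⁻¹ • c')‖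
        ≤ s * (eps * (s⁻¹ * ‖c - c'‖)) := mul_le_mul_of_nonneg_left h1 hs.le
      _ = 1 * (eps * ‖c - c'‖) := by field_simp
      _ ≤ m * (eps * ‖c - c'‖) := mul_le_mul_of_nonneg_right hm (by positivity)
      _ = m * eps * ‖c - c'‖ := by ring
  · have h1 := h.dlip _ _ (hc c hc1) (hc c' hc2) th
    have e2 : ‖s⁻¹ • c - s⁻¹ • c'‖ = s⁻¹ * ‖c - c'‖ := by
      rw [← smul_sub, norm_smul, norm_inv, Real.norm_eq_abs, abs_of_pos hs]
    rw [hdiff c hc1 th, hdiff c' hc2 th, ← smul_sub, norm_smul, Real.norm_eq_abs, abs_of_pos hs]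
    rw [e2] at h1
    calc s * ‖fderiv ℝ (a (s⁻¹ • c)) th - fderiv ℝ (a (s⁻¹ • c')) th‖
        ≤ s * (eps * (s⁻¹ * ‖c - c'‖)) := mul_le_mul_of_nonneg_left h1 hs.le
      _ = 1 * (eps * ‖c - c'‖) := by field_simp
      _ ≤ m * (eps * ‖c - c'‖) := mul_le_mul_of_nonneg_right hm (by positivity)
      _ = m * eps * ‖c - c'‖ := by ring
  · have hv' : ‖s⁻¹ • v‖ ≤ rho / 2 := by
      rw [norm_smul, norm_inv, Real.norm_eq_abs, abs_of_pos hs, inv_mul_le_iff₀ hs]
      linarith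
    obtain ⟨c, hc1, hc2⟩ := h.cover th _ hv'
    refine ⟨s • c, ?_, ?_⟩
    · rw [hns]
      exact mul_le_mul_of_nonneg_left hc1 hs.le
    · show s • a (s⁻¹ • s • c) th = v
      rw [inv_smul_smul₀ hs.ne', hc2, smul_inv_smul₀ hs.ne']

/-- **large tubes by scaling** -/
theorem lagtR_of_S1 (H : LagtS1) : LagtR := by
  intro N Lam eps R hL he hR
  set s : ℝ := 2 * R with hs'
  have hs : 0 < s := by positivity
  set m : ℝ := max 1 (max s s⁻¹) with hm'
  have hm : 1 ≤ m := le_max_left _ _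
  have hsm : s ≤ m := (le_max_left _ _).trans (le_max_right _ _)
  have hsi : s⁻¹ ≤ m := (le_max_right _ _).trans (le_max_right _ _)
  have hm0 : 0 < m := by linarith
  obtain ⟨d, hd, hd2⟩ := H N (m ^ 4 * Lam) (eps / m) (by positivity) (by positivity)
  refine ⟨d / m ^ 4, by positivity, fun x y h => ?_⟩
  have h1 := hyp_scale hs hm hsm hsi hL (by positivity) h
  have e1 : m ^ 4 * (d / m ^ 4) = d := by field_simp
  rw [e1] at h1
  obtain ⟨a, ha⟩ := hd2 _ _ h1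
  have h2 := tor_scale hs hm hsm (by positivity) ha
  have e2 : s * (1 / 2) = R := by rw [hs']; ring
  have e3 : m * (eps / m) = eps := by field_simp
  rw [e2, e3] at h2
  exact ⟨_, h2⟩

end

end Crest.Agent.R281.Bt_156
end

-- ▼ part R281/Lg1_40
section

/-!
# R281 / LAGT adapter (helper40), part 1

`LagtS1`: the torus theorem for nearly constant forms on `tube N 1`, a compactness lemma for
`C ^ 2 = -1`, mean value and period estimates.
-/

set_option autoImplicit false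
set_option maxSynthPendingDepth 3

open MeasureTheory Set Metric Filter
open scoped ContDiff Topology

namespace Crest.Agent.R281.Lg_40

open Crest.Agent.R281.Mc673
open Crest.Agent.R238.Sch (ee norm_ee)

noncomputable section

variable {N : ℕ}

/-- the almost complex relation between `x` and `y` at `p` -/
def Rel (x y : Fo N) (p : W N) : Prop :=
  ∃ I : W N → W N, (∀ u, I (I u) = -u) ∧ ∀ u w, x p (I u) w = - y p u w

/-- the torus theorem for nearly constant forms, centres in the whole ball of radius `1 / 2` -/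
def LagtS1 : Prop := ∀ (N : ℕ) (Lam eps : ℝ), 0 < Lam → 0 < eps →
  ∃ del > 0, ∀ x y : Fo N, ClF 1 x → ClF 1 y →
    (∀ p ∈ tube N 1, ‖x p‖ ≤ Lam ∧ ‖y p‖ ≤ Lam) →
    (∀ p ∈ tube N 1, ∀ u, ‖u‖ ≤ Lam * ‖x p u‖) →
    (∀ p ∈ tube N 1, ‖fderiv ℝ x p‖ ≤ del ∧ ‖fderiv ℝ (fderiv ℝ x) p‖ ≤ del ∧
      ‖fderiv ℝ y p‖ ≤ del ∧ ‖fderiv ℝ (fderiv ℝ y) p‖ ≤ del) →
    (∀ p ∈ tube N 1, ∃ I : W N → W N, (∀ u, I (I u) = -u) ∧ ∀ u w, x p (I u) w = - y p u w) →
    (∀ j k, mn (fun θ => x (θ, 0) (ee j, 0) (ee k, 0)) = 0 ∧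
      mn (fun θ => y (θ, 0) (ee j, 0) (ee k, 0)) = 0) →
    ∃ a : V N → V N → V N, Tori N 1 (1 / 2) eps x y a

/-! ### compactness -/

theorem exists_exact (N : ℕ) (Lam eta : ℝ) (heta : 0 < eta) :
    ∃ e0 > 0, ∀ C0 : Matrix (Fin N) (Fin N) ℝ, (∀ j k, |C0 j k| ≤ Lam) →
      (∀ j k, |(C0 * C0 + 1) j k| ≤ e0) →
      ∃ C : Matrix (Fin N) (Fin N) ℝ, C * C = -1 ∧ ∀ j k, |C j k - C0 j k| ≤ eta := by
  classical
  let K : Set (Matrix (Fin N) (Fin N) ℝ) := {C0 | ∀ j k, C0 j k ∈ Icc (-Lam) Lam}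
  have hK : IsCompact K := by
    have : K = Set.pi univ fun _ => Set.pi univ fun _ => Icc (-Lam) Lam := by
      ext C0
      exact ⟨fun h j _ k _ => h j k, fun h j k => h j (mem_univ _) k (mem_univ _)⟩
    rw [this]
    exact isCompact_univ_pi fun _ => isCompact_univ_pi fun _ => isCompact_Icc
  let f : Matrix (Fin N) (Fin N) ℝ → ℝ := fun C0 => ∑ j, ∑ k, |(C0 * C0 + 1) j k|
  have hf : Continuous f := by
    refine continuous_finsetSum _ fun j _ => continuous_finsetSum _ fun k _ => ?_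
    have h1 : Continuous fun C0 : Matrix (Fin N) (Fin N) ℝ => C0 * C0 + 1 := by fun_prop
    exact (h1.matrix_elem j k).abs
  let S : Set (Matrix (Fin N) (Fin N) ℝ) :=
    {C0 | ∀ C : Matrix (Fin N) (Fin N) ℝ, C * C = -1 → eta ≤ ∑ j, ∑ k, |C j k - C0 j k|}
  have hS : IsClosed S := by
    have : S = ⋂ C : {C : Matrix (Fin N) (Fin N) ℝ // C * C = -1},
        {C0 | eta ≤ ∑ j, ∑ k, |C.1 j k - C0 j k|} := by
      ext C0; simp [S]
    rw [this]
    refine isClosed_iInter fun C => isClosed_le continuous_const ?_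
    refine continuous_finsetSum _ fun j _ => continuous_finsetSum _ fun k _ => ?_
    exact (continuous_const.sub (continuous_id.matrix_elem j k)).abs
  have hc : IsCompact (K ∩ S) := hK.inter_right hS
  have hpos : ∀ C0 ∈ K ∩ S, 0 < f C0 := by
    intro C0 h
    have h0 : 0 ≤ f C0 := Finset.sum_nonneg fun j _ => Finset.sum_nonneg fun k _ => abs_nonneg _
    rcases h0.lt_or_eq with h1 | h1
    · exact h1
    · exfalso
      have h2 : ∀ j k, (C0 * C0 + 1) j k = 0 := by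
        intro j k
        have h3 := (Finset.sum_eq_zero_iff_of_nonneg
          (fun j _ => Finset.sum_nonneg fun k _ => abs_nonneg ((C0 * C0 + 1) j k))).1 h1.symm j
          (Finset.mem_univ j)
        have h4 := (Finset.sum_eq_zero_iff_of_nonneg
          (fun k _ => abs_nonneg ((C0 * C0 + 1) j k))).1 h3 k (Finset.mem_univ k)
        exact abs_eq_zero.1 h4
      have h5 : C0 * C0 = -1 := by
        rw [eq_neg_iff_add_eq_zero]
        ext j k
        exact h2 j k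
      have h6 := h.2 C0 h5
      simp at h6
      linarith
  have key : ∃ m > 0, ∀ C0 ∈ K ∩ S, m ≤ f C0 := by
    rcases (K ∩ S).eq_empty_or_nonempty with he | hne
    · exact ⟨1, one_pos, fun C0 h => by rw [he] at h; exact absurd h (by simp)⟩
    · obtain ⟨C1, hC1, hmin⟩ := hc.exists_isMinOn hne hf.continuousOn
      exact ⟨f C1, hpos C1 hC1, fun C0 h => isMinOn_iff.1 hmin C0 h⟩
  obtain ⟨m, hm, hmf⟩ := key
  refine ⟨m / (2 * ((N : ℝ) ^ 2 + 1)), by positivity, fun C0 h1 h2 => ?_⟩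
  by_contra hcon
  push Not at hcon
  have hmem : C0 ∈ K ∩ S := by
    refine ⟨fun j k => abs_le.1 (h1 j k), fun C hC => ?_⟩
    obtain ⟨j, k, hjk⟩ := hcon C hC
    have h3 : |C j k - C0 j k| ≤ ∑ j, ∑ k, |C j k - C0 j k| :=
      (Finset.single_le_sum (f := fun k => |C j k - C0 j k|) (fun k _ => abs_nonneg _)
        (Finset.mem_univ k)).trans
        (Finset.single_le_sum (f := fun j => ∑ k, |C j k - C0 j k|)
          (fun j _ => Finset.sum_nonneg fun k _ => abs_nonneg _) (Finset.mem_univ j))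
    linarith
  have h4 := hmf C0 hmem
  have h5 : f C0 ≤ ∑ _j : Fin N, ∑ _k : Fin N, m / (2 * ((N : ℝ) ^ 2 + 1)) :=
    Finset.sum_le_sum fun j _ => Finset.sum_le_sum fun k _ => h2 j k
  simp only [Finset.sum_const, Finset.card_univ, Fintype.card_fin, nsmul_eq_mul] at h5
  have h6 : (N : ℝ) * ((N : ℝ) * (m / (2 * ((N : ℝ) ^ 2 + 1)))) < m := by
    rw [← mul_assoc, mul_div_assoc', div_lt_iff₀ (by positivity)]
    nlinarith [sq_nonneg (N : ℝ)]
  linarith

/-! ### mean value -/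

theorem norm_cube_le {y : V N} (hy : y ∈ cube N) : ‖y‖ ≤ N := by
  refine (norm_le_sum y).trans ?_
  have : ∑ k, |y k| ≤ ∑ _k : Fin N, (1 : ℝ) :=
    Finset.sum_le_sum fun k _ => abs_le.2 ⟨by linarith [(hy k).1], (hy k).2⟩
  simpa using this

theorem dist_zero_le {w : Fo N} {del : ℝ} (hw : ClF 1 w)
    (hd : ∀ p ∈ tube N 1, ‖fderiv ℝ w p‖ ≤ del) (θ : V N) :
    ‖w (θ, 0) - w (0, 0)‖ ≤ del * N := by
  obtain ⟨k, y, hy, rfl⟩ := exists_cube θ
  have h0 : ∀ θ : V N, ((θ, 0) : W N) ∈ tube N 1 := fun θ => by simp [tube]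
  have h1 : w (y + kv k, 0) = w (y, 0) := hw.per k (y, 0) (h0 y)
  rw [h1]
  have hconv : Convex ℝ (tube N 1) := by
    intro p hp q hq a b ha hb hab
    show ‖a • p.2 + b • q.2‖ < 1
    calc ‖a • p.2 + b • q.2‖ ≤ ‖a • p.2‖ + ‖b • q.2‖ := norm_add_le _ _
      _ = a * ‖p.2‖ + b * ‖q.2‖ := by
        rw [norm_smul, norm_smul, Real.norm_of_nonneg ha, Real.norm_of_nonneg hb]
      _ < 1 := by
        have hp' : ‖p.2‖ < 1 := hp
        have hq' : ‖q.2‖ < 1 := hq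
        rcases ha.lt_or_eq with ha | ha
        · nlinarith
        · subst ha
          have : b = 1 := by linarith
          subst this; linarith
  have h2 := hconv.norm_image_sub_le_of_norm_fderiv_le (f := w) (C := del)
    (fun p hp => hw.da hp) hd (h0 0) (h0 y)
  have h3 : ‖((y, 0) : W N) - (0, 0)‖ = ‖y‖ := by
    simp [Prod.norm_def]
  have hdel : 0 ≤ del := (norm_nonneg _).trans (hd _ (h0 0))
  rw [h3] at h2
  exact h2.trans (mul_le_mul_of_nonneg_left (norm_cube_le hy) hdel)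

theorem norm_eh_le (j : Fin N) : ‖eh j‖ ≤ 1 := by
  simp [eh, Prod.norm_def, norm_ee]


theorem abs_app_le (φ : W N →L[ℝ] W N →L[ℝ] ℝ) {u v : W N} (hu : ‖u‖ ≤ 1) (hv : ‖v‖ ≤ 1) :
    |φ u v| ≤ ‖φ‖ := by
  have h := φ.le_opNorm₂ u v
  rw [Real.norm_eq_abs] at h
  have h1 : ‖φ‖ * ‖u‖ * ‖v‖ ≤ ‖φ‖ * 1 * 1 := by gcongr
  linarith

theorem period_le {w : Fo N} {del : ℝ} (hw : ClF 1 w)
    (hd : ∀ p ∈ tube N 1, ‖fderiv ℝ w p‖ ≤ del) {j k : Fin N}
    (hm : mn (fun θ => w (θ, 0) (eh j) (eh k)) = 0) :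
    |w (0, 0) (eh j) (eh k)| ≤ del * N := by
  set c := w (0, 0) (eh j) (eh k) with hc
  have hdel : 0 ≤ del := (norm_nonneg _).trans (hd _ (mem_tube_zero one_pos 0))
  have hvol : volume (Crest.Agent.R275.Tor812.box (0 : Fin N → ℝ)) = 1 :=
    Crest.Agent.R275.Tor812.volume_box _
  have hcont : Continuous (fun θ : V N => w (θ, 0) (eh j) (eh k)) := by
    have h1 : Continuous (fun θ : V N => w (θ, 0)) := by
      refine continuous_iff_continuousAt.2 fun θ => ?_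
      exact (hw.cda (mem_tube_zero one_pos θ)).continuousAt.comp
        (f := fun θ : V N => ((θ, 0) : W N)) (by fun_prop)
    exact (h1.clm_apply continuous_const).clm_apply continuous_const
  have hb : ∀ θ, |w (θ, 0) (eh j) (eh k) - c| ≤ del * N := by
    intro θ
    have h1 := abs_app_le (w (θ, 0) - w (0, 0)) (norm_eh_le j) (norm_eh_le k)
    simp only [_root_.sub_apply] at h1
    exact h1.trans (dist_zero_le hw hd θ)
  have hfin : volume (Crest.Agent.R275.Tor812.box (0 : Fin N → ℝ)) < ⊤ := by rw [hvol]; simp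
  have hi : IntegrableOn (fun x : Fin N → ℝ => w (WithLp.toLp 2 x, 0) (eh j) (eh k) - c)
      (Crest.Agent.R275.Tor812.box (0 : Fin N → ℝ)) := by
    refine Measure.integrableOn_of_bounded (M := del * N) hfin.ne ?_ ?_
    · exact ((hcont.comp (PiLp.continuous_toLp 2 _)).sub continuous_const).aestronglyMeasurable
    · exact Filter.Eventually.of_forall fun x => by
        rw [Real.norm_eq_abs]; exact hb _
  have hi2 : IntegrableOn (fun _ : Fin N → ℝ => c)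
      (Crest.Agent.R275.Tor812.box (0 : Fin N → ℝ)) := by
    refine integrableOn_const ?_
    rw [hvol]; simp
  have h1 : ∫ x in Crest.Agent.R275.Tor812.box (0 : Fin N → ℝ),
      (w (WithLp.toLp 2 x, 0) (eh j) (eh k) - c) = - c := by
    have h2 : mn (fun θ => w (θ, 0) (eh j) (eh k)) =
        ∫ x in Crest.Agent.R275.Tor812.box (0 : Fin N → ℝ),
          ((w (WithLp.toLp 2 x, 0) (eh j) (eh k) - c) + c) := by
      simp [mn]
    rw [hm, integral_add hi hi2] at h2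
    have h3 : ∫ _x in Crest.Agent.R275.Tor812.box (0 : Fin N → ℝ), c = c := mn_const (N := N) c
    rw [h3] at h2
    linarith
  have h2 := norm_setIntegral_le_of_norm_le_const (C := del * N) hfin
    (f := fun x : Fin N → ℝ => w (WithLp.toLp 2 x, 0) (eh j) (eh k) - c)
    (fun x _ => by rw [Real.norm_eq_abs]; exact hb _)
  rw [h1, norm_neg, Real.norm_eq_abs, measureReal_def, hvol] at h2
  simpa using h2

end

end Crest.Agent.R281.Lg_40
end

-- ▼ part R281/Lg2_40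
section

/-!
# R281 / LAGT adapter (helper40), part 2

Linear algebra at one point: normalisation of the mixed part of `X`, approximate complex structure.
-/

set_option autoImplicit false
set_option maxSynthPendingDepth 3

open MeasureTheory Set Metric Filter
open scoped ContDiff Topology RealInnerProductSpace

namespace Crest.Agent.R281.Lg_40

open Crest.Agent.R281.Mc673
open Crest.Agent.R238.Sch (ee norm_ee)

noncomputable section

variable {N : ℕ}

theorem sum_ee (v : V N) : v = ∑ j, v j • (ee j : V N) := by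
  ext i
  simp [ee, Finset.sum_apply, Pi.single_apply]

theorem inner_ee (v : V N) (j : Fin N) : ⟪v, (ee j : V N)⟫ = v j := by
  simp [ee, EuclideanSpace.inner_single_right]

/-- the mixed part of a bilinear form: `⟪Mt a, v⟫ = - X (a, 0) (0, v)` -/
def Mt (X : W N →L[ℝ] W N →L[ℝ] ℝ) : V N →L[ℝ] V N :=
  LinearMap.toContinuousLinearMap
    { toFun := fun a => WithLp.toLp 2 fun l => - X (a, 0) (ev' l)
      map_add' := fun a b => by
        ext l
        have : ((a + b, 0) : W N) = (a, 0) + (b, 0) := by simp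
        simp only [this, map_add, _root_.add_apply, PiLp.add_apply]
        ring
      map_smul' := fun c a => by
        ext l
        have : ((c • a, 0) : W N) = c • (a, 0) := by simp
        simp only [this, map_smul, _root_.smul_apply, PiLp.smul_apply, smul_eq_mul,
          RingHom.id_apply]
        ring }

theorem Mt_apply (X : W N →L[ℝ] W N →L[ℝ] ℝ) (a : V N) (l : Fin N) :
    Mt X a l = - X (a, 0) (ev' l) := rfl

theorem inr_sum (v : V N) : ((0, v) : W N) = ∑ l, v l • ev' l := by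
  have h1 : ((0, v) : W N) = LinearMap.inr ℝ (V N) (V N) v := rfl
  rw [h1]
  conv_lhs => rw [sum_ee v]
  rw [map_sum]
  refine Finset.sum_congr rfl fun l _ => ?_
  rw [map_smul]; rfl

theorem inl_sum (v : V N) : ((v, 0) : W N) = ∑ l, v l • eh l := by
  have h1 : ((v, 0) : W N) = LinearMap.inl ℝ (V N) (V N) v := rfl
  rw [h1]
  conv_lhs => rw [sum_ee v]
  rw [map_sum]
  refine Finset.sum_congr rfl fun l _ => ?_
  rw [map_smul]; rfl

theorem inner_Mt (X : W N →L[ℝ] W N →L[ℝ] ℝ) (a v : V N) :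
    ⟪Mt X a, v⟫ = - X (a, 0) (0, v) := by
  rw [inr_sum v, map_sum]
  have h1 : ⟪Mt X a, v⟫ = ∑ l, v l * Mt X a l := by
    simp [PiLp.inner_apply]
  rw [h1, ← Finset.sum_neg_distrib]
  refine Finset.sum_congr rfl fun l _ => ?_
  rw [Mt_apply, map_smul, smul_eq_mul]; ring

theorem norm_inl (a : V N) : ‖((a, 0) : W N)‖ = ‖a‖ := by simp [Prod.norm_def]

theorem norm_inr (a : V N) : ‖((0, a) : W N)‖ = ‖a‖ := by simp [Prod.norm_def]

theorem norm_Mt_le {X : W N →L[ℝ] W N →L[ℝ] ℝ} {Lam : ℝ} (hX : ‖X‖ ≤ Lam) (a : V N) :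
    ‖Mt X a‖ ≤ Lam * ‖a‖ := by
  have h1 : ‖Mt X a‖ * ‖Mt X a‖ ≤ Lam * ‖a‖ * ‖Mt X a‖ := by
    rw [← real_inner_self_eq_norm_mul_norm, inner_Mt]
    have h2 := X.le_opNorm₂ (a, 0) (0, Mt X a)
    rw [norm_inl, norm_inr, Real.norm_eq_abs] at h2
    have h3 : ‖X‖ * ‖a‖ * ‖Mt X a‖ ≤ Lam * ‖a‖ * ‖Mt X a‖ := by gcongr
    have := neg_abs_le (X (a, 0) (0, Mt X a))
    linarith [le_abs_self (X (a, 0) (0, Mt X a)), neg_le_abs (X (a, 0) (0, Mt X a))]
  rcases (norm_nonneg (Mt X a)).lt_or_eq with h | h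
  · exact le_of_mul_le_mul_right h1 h
  · rw [← h]
    have hL : 0 ≤ Lam := (norm_nonneg _).trans hX
    positivity

theorem sum_abs_le (v : V N) : ∑ k, |v k| ≤ N * ‖v‖ := by
  have : ∑ k, |v k| ≤ ∑ _k : Fin N, ‖v‖ := Finset.sum_le_sum fun k _ => abs_co_le v k
  simpa using this

/-- the horizontal block is small -/
theorem abs_hh_le {X : W N →L[ℝ] W N →L[ℝ] ℝ} {s : ℝ}
    (h : ∀ j k, |X (eh j) (eh k)| ≤ s) (a b : V N) :
    |X (a, 0) (b, 0)| ≤ s * (∑ j, |a j|) * ∑ k, |b k| := by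
  rw [inl_sum a, map_sum, _root_.sum_apply, inl_sum b]
  calc |∑ j, (X (a j • eh j)) (∑ k, b k • eh k)|
      ≤ ∑ j, |(X (a j • eh j)) (∑ k, b k • eh k)| := Finset.abs_sum_le_sum_abs _ _
    _ ≤ ∑ j, ∑ k, |a j| * |b k| * s := by
        refine Finset.sum_le_sum fun j _ => ?_
        rw [map_sum]
        refine (Finset.abs_sum_le_sum_abs _ _).trans (Finset.sum_le_sum fun k _ => ?_)
        rw [map_smul, map_smul, _root_.smul_apply, smul_eq_mul, smul_eq_mul, abs_mul, abs_mul]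
        have := h j k
        have h1 : |b k| * (|a j| * |(X (eh j)) (eh k)|) ≤ |b k| * (|a j| * s) := by gcongr
        linarith
    _ = s * (∑ j, |a j|) * ∑ k, |b k| := by
        rw [mul_assoc, Finset.sum_mul_sum, Finset.mul_sum]
        refine Finset.sum_congr rfl fun j _ => ?_
        rw [Finset.mul_sum]
        refine Finset.sum_congr rfl fun k _ => ?_
        ring

/-- lower bound of the mixed part -/
theorem Mt_lower {X : W N →L[ℝ] W N →L[ℝ] ℝ} {Lam s : ℝ} (hL : 0 < Lam)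
    (hnd : ∀ u, ‖u‖ ≤ Lam * ‖X u‖) (h : ∀ j k, |X (eh j) (eh k)| ≤ s) (hs : 0 ≤ s)
    (hsm : Lam * (s * N * N) ≤ 1 / 2) (a : V N) : ‖a‖ ≤ 2 * Lam * ‖Mt X a‖ := by
  have h1 := hnd (a, 0)
  rw [norm_inl] at h1
  have h2 : ‖X (a, 0)‖ ≤ s * N * N * ‖a‖ + ‖Mt X a‖ := by
    refine ContinuousLinearMap.opNorm_le_bound _ (by positivity) fun u => ?_
    have h3 : X (a, 0) u = X (a, 0) (u.1, 0) - ⟪Mt X a, u.2⟫ := by
      rw [inner_Mt, sub_neg_eq_add, ← map_add]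
      congr 1
      ext <;> simp
    rw [h3, Real.norm_eq_abs]
    have h4 := abs_hh_le h a u.1
    have h5 := abs_real_inner_le_norm (Mt X a) u.2
    have h6 : ‖u.1‖ ≤ ‖u‖ := norm_fst_le u
    have h7 : ‖u.2‖ ≤ ‖u‖ := norm_snd_le u
    have h8 := sum_abs_le a
    have h9 := sum_abs_le u.1
    have hN : (0 : ℝ) ≤ N := Nat.cast_nonneg N
    have h10 : s * (∑ j, |a j|) * ∑ k, |u.1 k| ≤ s * (N * ‖a‖) * (N * ‖u‖) := by
      have hn1 : 0 ≤ ∑ j, |a j| := Finset.sum_nonneg fun _ _ => abs_nonneg _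
      have hn2 : 0 ≤ ∑ j, |u.1 j| := Finset.sum_nonneg fun _ _ => abs_nonneg _
      have : ∑ k, |u.1 k| ≤ N * ‖u‖ := h9.trans (by gcongr)
      gcongr
    have h11 : ‖Mt X a‖ * ‖u.2‖ ≤ ‖Mt X a‖ * ‖u‖ := by gcongr
    calc |X (a, 0) (u.1, 0) - ⟪Mt X a, u.2⟫| ≤ |X (a, 0) (u.1, 0)| + |⟪Mt X a, u.2⟫| :=
          abs_sub _ _
      _ ≤ (s * N * N * ‖a‖ + ‖Mt X a‖) * ‖u‖ := by nlinarith
  have h3 : Lam * ‖X (a, 0)‖ ≤ Lam * (s * N * N * ‖a‖ + ‖Mt X a‖) :=
    mul_le_mul_of_nonneg_left h2 hL.le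
  have h4 : Lam * (s * N * N) * ‖a‖ ≤ 1 / 2 * ‖a‖ :=
    mul_le_mul_of_nonneg_right hsm (norm_nonneg a)
  nlinarith

/-- the normalising linear change and its inverse -/
theorem exists_B {X : W N →L[ℝ] W N →L[ℝ] ℝ} {Lam s : ℝ} (hL : 0 < Lam) (hX : ‖X‖ ≤ Lam)
    (hnd : ∀ u, ‖u‖ ≤ Lam * ‖X u‖) (h : ∀ j k, |X (eh j) (eh k)| ≤ s) (hs : 0 ≤ s)
    (hsm : Lam * (s * N * N) ≤ 1 / 2) :
    ∃ B M : V N →L[ℝ] V N, (∀ v, B (M v) = v) ∧ (∀ v, M (B v) = v) ∧
      (∀ v, ‖B v‖ ≤ 2 * Lam * ‖v‖) ∧ (∀ v, ‖M v‖ ≤ Lam * ‖v‖) ∧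
      (∀ θ v, X (θ, 0) (0, v) = - ⟪θ, M v⟫) := by
  have hlow := Mt_lower hL hnd h hs hsm
  have hinj : Function.Injective (Mt X) := by
    intro a b hab
    have h1 := hlow (a - b)
    rw [map_sub, hab, sub_self, norm_zero, mul_zero] at h1
    exact sub_eq_zero.1 (norm_le_zero_iff.1 h1)
  let e : V N ≃ₗ[ℝ] V N := LinearEquiv.ofInjectiveEndo (Mt X : V N →ₗ[ℝ] V N) hinj
  let Bt : V N →L[ℝ] V N := LinearMap.toContinuousLinearMap (e.symm : V N →ₗ[ℝ] V N)
  have he : ∀ v, e v = Mt X v := fun v => rfl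
  have hB1 : ∀ v, Bt (Mt X v) = v := fun v => by
    show e.symm (Mt X v) = v
    rw [← he, e.symm_apply_apply]
  have hB2 : ∀ v, Mt X (Bt v) = v := fun v => by
    show Mt X (e.symm v) = v
    rw [← he, e.apply_symm_apply]
  have hBt : ‖Bt‖ ≤ 2 * Lam := by
    refine ContinuousLinearMap.opNorm_le_bound _ (by positivity) fun v => ?_
    have h1 := hlow (Bt v)
    rwa [hB2] at h1
  have hMt : ‖Mt X‖ ≤ Lam :=
    ContinuousLinearMap.opNorm_le_bound _ hL.le fun v => norm_Mt_le hX v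
  refine ⟨ContinuousLinearMap.adjoint Bt, ContinuousLinearMap.adjoint (Mt X), fun v => ?_,
    fun v => ?_, fun v => ?_, fun v => ?_, fun θ v => ?_⟩
  · refine ext_inner_left ℝ fun u => ?_
    rw [ContinuousLinearMap.adjoint_inner_right, ContinuousLinearMap.adjoint_inner_right, hB2]
  · refine ext_inner_left ℝ fun u => ?_
    rw [ContinuousLinearMap.adjoint_inner_right, ContinuousLinearMap.adjoint_inner_right, hB1]
  · refine ((ContinuousLinearMap.adjoint Bt).le_opNorm v).trans ?_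
    rw [LinearIsometryEquiv.norm_map]
    gcongr
  · refine ((ContinuousLinearMap.adjoint (Mt X)).le_opNorm v).trans ?_
    rw [LinearIsometryEquiv.norm_map]
    gcongr
  · rw [ContinuousLinearMap.adjoint_inner_right, inner_Mt, neg_neg]

theorem inner_ee_ee (j k : Fin N) : ⟪(ee j : V N), (ee k : V N)⟫ = if j = k then 1 else 0 := by
  rw [inner_ee]
  simp [ee, eq_comm]

/-- the coefficient matrix of the mixed part of `Y` -/
def C0 (Y : W N →L[ℝ] W N →L[ℝ] ℝ) (B : V N →L[ℝ] V N) : Matrix (Fin N) (Fin N) ℝ :=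
  Matrix.of fun j k => - Y (eh j) (0, B (ee k))

theorem C0_apply (Y : W N →L[ℝ] W N →L[ℝ] ℝ) (B : V N →L[ℝ] V N) (j k : Fin N) :
    C0 Y B j k = - Y (eh j) (0, B (ee k)) := rfl

theorem abs_C0_le {Y : W N →L[ℝ] W N →L[ℝ] ℝ} {B : V N →L[ℝ] V N} {Lam : ℝ} (hL : 0 < Lam)
    (hY : ‖Y‖ ≤ Lam) (hB : ∀ v, ‖B v‖ ≤ 2 * Lam * ‖v‖) (j k : Fin N) :
    |C0 Y B j k| ≤ 2 * Lam ^ 2 := by
  rw [C0_apply, abs_neg]
  have h1 := Y.le_opNorm₂ (eh j) (0, B (ee k))
  rw [norm_inr, Real.norm_eq_abs] at h1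
  have h2 := hB (ee k)
  rw [norm_ee, mul_one] at h2
  have h3 : ‖Y‖ * ‖eh j‖ * ‖B (ee k)‖ ≤ Lam * 1 * (2 * Lam) := by
    gcongr
    exact norm_eh_le j
  nlinarith

/-- the constant of `C0_sq_le` -/
def Dc (N : ℕ) (Lam : ℝ) : ℝ :=
  2 * Lam ^ 2 * (2 * Lam * N * (1 + N ^ 2 * Lam ^ 2)) * (1 + 2 * N * Lam ^ 2)

theorem C0_sq_le {X Y : W N →L[ℝ] W N →L[ℝ] ℝ} {B M : V N →L[ℝ] V N} {Lam s : ℝ} (hL : 0 < Lam)
    (hX : ‖X‖ ≤ Lam) (hY : ‖Y‖ ≤ Lam) (hnd : ∀ u, ‖u‖ ≤ Lam * ‖X u‖)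
    (halt : ∀ u v, X u v = - X v u)
    (hx : ∀ j k, |X (eh j) (eh k)| ≤ s) (hy : ∀ j k, |Y (eh j) (eh k)| ≤ s) (hs : 0 ≤ s)
    {I : W N → W N} (hI : ∀ u, I (I u) = -u) (hIx : ∀ u w, X (I u) w = - Y u w)
    (hBM : ∀ v, B (M v) = v) (hMB : ∀ v, M (B v) = v) (hB : ∀ v, ‖B v‖ ≤ 2 * Lam * ‖v‖)
    (hM : ∀ θ v, X (θ, 0) (0, v) = - ⟪θ, M v⟫) (j k : Fin N) :
    |(C0 Y B * C0 Y B + 1) j k| ≤ Dc N Lam * s := by
  have hN : (0 : ℝ) ≤ N := Nat.cast_nonneg N
  set z := I (eh j) with hz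
  have hzn : ‖z‖ ≤ Lam ^ 2 := by
    have h1 : X z = - Y (eh j) := ContinuousLinearMap.ext fun w => hIx (eh j) w
    have h2 := hnd z
    rw [h1, norm_neg] at h2
    have h3 : ‖Y (eh j)‖ ≤ Lam := by
      refine (Y.le_opNorm _).trans ?_
      have : ‖Y‖ * ‖eh j‖ ≤ Lam * 1 := by gcongr; exact norm_eh_le j
      linarith
    calc ‖z‖ ≤ Lam * ‖Y (eh j)‖ := h2
      _ ≤ Lam * Lam := by gcongr
      _ = Lam ^ 2 := by ring
  have hsplit : ∀ (Φ : W N →L[ℝ] W N →L[ℝ] ℝ) (w : W N),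
      Φ z w = Φ (z.1, 0) w + Φ (0, z.2) w := by
    intro Φ w
    rw [← _root_.add_apply, ← map_add]
    congr 2
    ext <;> simp
  have hα : ‖z.1‖ ≤ Lam ^ 2 := (norm_fst_le z).trans hzn
  -- `β` is small
  have hMβ : ∀ l, |M z.2 l| ≤ s * (1 + N ^ 2 * Lam ^ 2) := by
    intro l
    have h1 := hIx (eh j) (eh l)
    rw [← hz, hsplit X] at h1
    have h2 : X (0, z.2) (eh l) = M z.2 l := by
      rw [halt, eh, hM, neg_neg, real_inner_comm, inner_ee]
    rw [h2] at h1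
    have h3 := abs_hh_le hx z.1 (ee l)
    have h4 := sum_abs_le z.1
    have h5 := sum_abs_le (ee l : V N)
    rw [norm_ee, mul_one] at h5
    have h6 : s * (∑ j, |z.1 j|) * ∑ k, |(ee l : V N) k| ≤ s * (N * Lam ^ 2) * N := by
      have hn1 : 0 ≤ ∑ j, |z.1 j| := Finset.sum_nonneg fun _ _ => abs_nonneg _
      have hn2 : 0 ≤ ∑ k, |(ee l : V N) k| := Finset.sum_nonneg fun _ _ => abs_nonneg _
      have : ∑ j, |z.1 j| ≤ N * Lam ^ 2 := h4.trans (by gcongr)
      gcongr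
    have h7 : M z.2 l = - Y (eh j) (eh l) - X (z.1, 0) (eh l) := by linarith
    rw [h7]
    have h8 := hy j l
    have h9 : |X (z.1, 0) (eh l)| ≤ s * (N * Lam ^ 2) * N := h3.trans h6
    have h10 := abs_sub (- Y (eh j) (eh l)) (X (z.1, 0) (eh l))
    rw [abs_neg] at h10
    nlinarith
  have hβ : ‖z.2‖ ≤ 2 * Lam * N * (1 + N ^ 2 * Lam ^ 2) * s := by
    have h1 : ‖M z.2‖ ≤ N * (s * (1 + N ^ 2 * Lam ^ 2)) := by
      refine (norm_le_sum _).trans ?_
      have : ∑ l, |M z.2 l| ≤ ∑ _l : Fin N, s * (1 + N ^ 2 * Lam ^ 2) :=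
        Finset.sum_le_sum fun l _ => hMβ l
      simpa using this
    have h2 := hB (M z.2)
    rw [hBM] at h2
    have h3 : 2 * Lam * ‖M z.2‖ ≤ 2 * Lam * (N * (s * (1 + N ^ 2 * Lam ^ 2))) := by gcongr
    nlinarith
  set q := 2 * Lam * N * (1 + N ^ 2 * Lam ^ 2) * s with hq
  have hq0 : 0 ≤ q := by positivity
  -- errors
  have hE : ∀ (Φ : W N →L[ℝ] W N →L[ℝ] ℝ), ‖Φ‖ ≤ Lam → ∀ l,
      |Φ (0, z.2) (0, B (ee l))| ≤ 2 * Lam ^ 2 * q := by
    intro Φ hΦ l
    have h1 := Φ.le_opNorm₂ (0, z.2) (0, B (ee l))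
    rw [norm_inr, norm_inr, Real.norm_eq_abs] at h1
    have h2 := hB (ee l)
    rw [norm_ee, mul_one] at h2
    have h3 : ‖Φ‖ * ‖z.2‖ * ‖B (ee l)‖ ≤ Lam * q * (2 * Lam) := by gcongr
    nlinarith
  have hα' : ∀ l, z.1 l = - C0 Y B j l + X (0, z.2) (0, B (ee l)) := by
    intro l
    have h1 := hIx (eh j) (0, B (ee l))
    rw [← hz, hsplit X, hM, hMB, inner_ee] at h1
    rw [C0_apply]; linarith
  have hYz : ∀ w, Y z w = X (eh j) w := by
    intro w
    have h1 := hIx z w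
    rw [hz, hI, ← hz] at h1
    simp only [map_neg, _root_.neg_apply] at h1
    linarith
  have hsum : ∑ l, z.1 l * C0 Y B l k = (if j = k then 1 else 0) + Y (0, z.2) (0, B (ee k)) := by
    have h1 := hYz (0, B (ee k))
    rw [hsplit Y, eh, hM, hMB, inner_ee_ee] at h1
    have h2 : Y (z.1, 0) (0, B (ee k)) = - ∑ l, z.1 l * C0 Y B l k := by
      rw [inl_sum z.1, map_sum, _root_.sum_apply, ← Finset.sum_neg_distrib]
      refine Finset.sum_congr rfl fun l _ => ?_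
      rw [map_smul, _root_.smul_apply, smul_eq_mul, C0_apply]; ring
    rw [h2] at h1
    linarith
  have hfin : (C0 Y B * C0 Y B + 1) j k =
      - Y (0, z.2) (0, B (ee k)) + ∑ l, X (0, z.2) (0, B (ee l)) * C0 Y B l k := by
    rw [Matrix.add_apply, Matrix.mul_apply, Matrix.one_apply]
    have h1 : ∑ l, z.1 l * C0 Y B l k = - ∑ l, C0 Y B j l * C0 Y B l k +
        ∑ l, X (0, z.2) (0, B (ee l)) * C0 Y B l k := by
      rw [← Finset.sum_neg_distrib, ← Finset.sum_add_distrib]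
      refine Finset.sum_congr rfl fun l _ => ?_
      rw [hα' l]; ring
    linarith
  rw [hfin]
  have h1 := hE Y hY k
  have h2 : |∑ l, X (0, z.2) (0, B (ee l)) * C0 Y B l k| ≤ N * (2 * Lam ^ 2 * q * (2 * Lam ^ 2)) := by
    refine (Finset.abs_sum_le_sum_abs _ _).trans ?_
    have : ∑ l, |X (0, z.2) (0, B (ee l)) * C0 Y B l k| ≤
        ∑ _l : Fin N, 2 * Lam ^ 2 * q * (2 * Lam ^ 2) := by
      refine Finset.sum_le_sum fun l _ => ?_
      rw [abs_mul]
      have := hE X hX l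
      have := abs_C0_le (B := B) hL hY hB l k
      gcongr
    simpa using this
  have h3 := abs_add_le (- Y (0, z.2) (0, B (ee k))) (∑ l, X (0, z.2) (0, B (ee l)) * C0 Y B l k)
  rw [abs_neg] at h3
  calc |-Y (0, z.2) (0, B (ee k)) + ∑ l, X (0, z.2) (0, B (ee l)) * C0 Y B l k|
      ≤ 2 * Lam ^ 2 * q + N * (2 * Lam ^ 2 * q * (2 * Lam ^ 2)) := by linarith
    _ = Dc N Lam * s := by rw [hq, Dc]; ring

end

end Crest.Agent.R281.Lg_40
end

-- ▼ part R281/Lg3_40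
section

/-!
# R281 / LAGT adapter (helper40), part 3

Pull back under `(θ, v) ↦ (θ, c + B v)`.
-/

set_option autoImplicit false
set_option maxSynthPendingDepth 3

open MeasureTheory Set Metric Filter
open scoped ContDiff Topology RealInnerProductSpace

namespace Crest.Agent.R281.Lg_40

open Crest.Agent.R281.Mc673
open Crest.Agent.R238.Sch (ee norm_ee)

noncomputable section

variable {N : ℕ}

/-- bilinear forms -/
abbrev Bil (N : ℕ) := W N →L[ℝ] W N →L[ℝ] ℝ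

/-- `(θ, v) ↦ (θ, B v)` -/
def TT (B : V N →L[ℝ] V N) : W N →L[ℝ] W N := (ContinuousLinearMap.id ℝ (V N)).prodMap B

theorem TT_apply (B : V N →L[ℝ] V N) (p : W N) : TT B p = (p.1, B p.2) := rfl

/-- pull back of bilinear forms -/
def LL (T : W N →L[ℝ] W N) : Bil N →L[ℝ] Bil N :=
  (ContinuousLinearMap.postcomp (W N) (ContinuousLinearMap.precomp ℝ T)).comp
    (ContinuousLinearMap.precomp (W N →L[ℝ] ℝ) T)

theorem LL_apply (T : W N →L[ℝ] W N) (φ : Bil N) (u v : W N) : LL T φ u v = φ (T u) (T v) := rfl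

/-- pull back of derivatives -/
def L2 (T : W N →L[ℝ] W N) : (W N →L[ℝ] Bil N) →L[ℝ] (W N →L[ℝ] Bil N) :=
  (ContinuousLinearMap.postcomp (W N) (LL T)).comp (ContinuousLinearMap.precomp (Bil N) T)


theorem norm_LL_le {T : W N →L[ℝ] W N} {t : ℝ} (ht : 0 ≤ t) (hT : ∀ u, ‖T u‖ ≤ t * ‖u‖)
    (φ : Bil N) : ‖LL T φ‖ ≤ t ^ 2 * ‖φ‖ := by
  refine ContinuousLinearMap.opNorm_le_bound₂ _ (by positivity) fun u v => ?_
  rw [LL_apply]
  refine (φ.le_opNorm₂ _ _).trans ?_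
  calc ‖φ‖ * ‖T u‖ * ‖T v‖ ≤ ‖φ‖ * (t * ‖u‖) * (t * ‖v‖) := by
        gcongr
        · exact hT u
        · exact hT v
    _ = t ^ 2 * ‖φ‖ * ‖u‖ * ‖v‖ := by ring

theorem norm_L2_le {T : W N →L[ℝ] W N} {t : ℝ} (ht : 0 ≤ t) (hT : ∀ u, ‖T u‖ ≤ t * ‖u‖)
    (ψ : W N →L[ℝ] Bil N) : ‖L2 T ψ‖ ≤ t ^ 3 * ‖ψ‖ := by
  refine ContinuousLinearMap.opNorm_le_bound _ (by positivity) fun u => ?_
  have h1 : L2 T ψ u = LL T (ψ (T u)) := rfl
  rw [h1]
  refine (norm_LL_le ht hT _).trans ?_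
  calc t ^ 2 * ‖ψ (T u)‖ ≤ t ^ 2 * (‖ψ‖ * (t * ‖u‖)) := by
        gcongr
        exact (ψ.le_opNorm _).trans (mul_le_mul_of_nonneg_left (hT u) (norm_nonneg _))
    _ = t ^ 3 * ‖ψ‖ * ‖u‖ := by ring

/-- `(θ, v) ↦ (θ, c + B v)` -/
def TA (B : V N →L[ℝ] V N) (c : V N) (p : W N) : W N := (p.1, c + B p.2)

theorem TA_eq (B : V N →L[ℝ] V N) (c : V N) (p : W N) : TA B c p = TT B p + (0, c) := by
  ext1
  · simp [TA, TT_apply]
  · simp [TA, TT_apply, add_comm]

theorem hasFDerivAt_TA (B : V N →L[ℝ] V N) (c : V N) (p : W N) :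
    HasFDerivAt (TA B c) (TT B) p := by
  have h1 : TA B c = fun p => TT B p + (0, c) := funext fun p => TA_eq B c p
  rw [h1]
  exact (TT B).hasFDerivAt.add_const _

theorem contDiff_TA (B : V N →L[ℝ] V N) (c : V N) : ContDiff ℝ ∞ (TA B c) := by
  have h1 : TA B c = fun p => TT B p + (0, c) := funext fun p => TA_eq B c p
  rw [h1]
  exact (TT B).contDiff.add contDiff_const

/-- the pulled back form -/
def pl (w : Fo N) (B : V N →L[ℝ] V N) (c : V N) : Fo N := fun p => LL (TT B) (w (TA B c p))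

theorem pl_apply (w : Fo N) (B : V N →L[ℝ] V N) (c : V N) (p u v : W N) :
    pl w B c p u v = w (TA B c p) (TT B u) (TT B v) := rfl

theorem hasFDerivAt_pl {w : Fo N} {B : V N →L[ℝ] V N} {c : V N} {p : W N}
    (hw : DifferentiableAt ℝ w (TA B c p)) :
    HasFDerivAt (pl w B c) (L2 (TT B) (fderiv ℝ w (TA B c p))) p := by
  have h1 : HasFDerivAt (fun p => w (TA B c p)) ((fderiv ℝ w (TA B c p)).comp (TT B)) p :=
    hw.hasFDerivAt.comp p (hasFDerivAt_TA B c p)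
  exact (LL (TT B)).hasFDerivAt.comp p h1

section

variable {w : Fo N} {B : V N →L[ℝ] V N} {c : V N} {r : ℝ}

theorem clF_pl (hw : ClF 1 w) (hB : ∀ p ∈ tube N r, TA B c p ∈ tube N 1) :
    ClF r (pl w B c) where
  sm := by
    have h1 : ContDiffOn ℝ ∞ (fun p => w (TA B c p)) (tube N r) :=
      hw.sm.comp (contDiff_TA B c).contDiffOn hB
    exact (LL (TT B)).contDiff.comp_contDiffOn h1
  alt := fun p hp u v => hw.alt _ (hB p hp) _ _
  cl := fun p hp u v z => by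
    rw [(hasFDerivAt_pl (hw.da (hB p hp))).fderiv]
    exact hw.cl _ (hB p hp) _ _ _
  per := fun k p hp => by
    have h1 := hw.per k (TA B c p) (hB p hp)
    show LL (TT B) (w (TA B c (p.1 + kv k, p.2))) = LL (TT B) (w (TA B c p))
    have h2 : TA B c (p.1 + kv k, p.2) = ((TA B c p).1 + kv k, (TA B c p).2) := rfl
    rw [h2, h1]

theorem norm_fderiv_pl_le {t K : ℝ} (ht : 0 ≤ t) (hT : ∀ u, ‖TT B u‖ ≤ t * ‖u‖) (hw : ClF 1 w)
    (hK : ∀ p ∈ tube N 1, ‖fderiv ℝ w p‖ ≤ K)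
    (hB : ∀ p ∈ tube N r, TA B c p ∈ tube N 1) {p : W N} (hp : p ∈ tube N r) :
    ‖fderiv ℝ (pl w B c) p‖ ≤ t ^ 3 * K := by
  rw [(hasFDerivAt_pl (hw.da (hB p hp))).fderiv]
  refine (norm_L2_le ht hT _).trans ?_
  have := hK _ (hB p hp)
  gcongr

/-- Lipschitz bound from the derivative on the (convex) tube -/
theorem lip_tube {F : Type*} [NormedAddCommGroup F] [NormedSpace ℝ F] {f : W N → F} {K : ℝ}
    (hd : ∀ p ∈ tube N r, DifferentiableAt ℝ f p) (hK : ∀ p ∈ tube N r, ‖fderiv ℝ f p‖ ≤ K)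
    {p q : W N} (hp : p ∈ tube N r) (hq : q ∈ tube N r) : ‖f p - f q‖ ≤ K * ‖p - q‖ :=
  (convex_tube r).norm_image_sub_le_of_norm_fderiv_le (𝕜 := ℝ) hd hK hq hp

theorem da2 (hw : ClF 1 w) {p : W N} (hp : p ∈ tube N 1) :
    DifferentiableAt ℝ (fderiv ℝ w) p :=
  ((hw.cda hp).fderiv_right (m := ∞) (by simp)).differentiableAt (by simp)

theorem norm_TA_sub {t : ℝ} (hT : ∀ u, ‖TT B u‖ ≤ t * ‖u‖) (p q : W N) :
    ‖TA B c p - TA B c q‖ ≤ t * ‖p - q‖ := by
  rw [TA_eq, TA_eq, add_sub_add_right_eq_sub, ← map_sub]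
  exact hT _

theorem norm_TA_c (c c' : V N) (p : W N) : ‖TA B c p - TA B c' p‖ = ‖c - c'‖ := by
  rw [TA_eq, TA_eq, add_sub_add_left_eq_sub]
  simp [Prod.norm_def]

theorem fderiv_pl_lip {t K : ℝ} (ht : 0 ≤ t) (hK0 : 0 ≤ K) (hT : ∀ u, ‖TT B u‖ ≤ t * ‖u‖)
    (hw : ClF 1 w) (hK : ∀ p ∈ tube N 1, ‖fderiv ℝ (fderiv ℝ w) p‖ ≤ K)
    (hB : ∀ p ∈ tube N r, TA B c p ∈ tube N 1) {p q : W N} (hp : p ∈ tube N r)
    (hq : q ∈ tube N r) :
    ‖fderiv ℝ (pl w B c) p - fderiv ℝ (pl w B c) q‖ ≤ t ^ 4 * K * ‖p - q‖ := by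
  rw [(hasFDerivAt_pl (hw.da (hB p hp))).fderiv, (hasFDerivAt_pl (hw.da (hB q hq))).fderiv,
    ← map_sub]
  have h1 := norm_L2_le ht hT (fderiv ℝ w (TA B c p) - fderiv ℝ w (TA B c q))
  have h2 := lip_tube (fun p hp => da2 hw hp) hK (hB p hp) (hB q hq)
  have h3 := norm_TA_sub (c := c) hT p q
  calc _ ≤ t ^ 3 * ‖fderiv ℝ w (TA B c p) - fderiv ℝ w (TA B c q)‖ := h1
    _ ≤ t ^ 3 * (K * (t * ‖p - q‖)) := by
        refine mul_le_mul_of_nonneg_left (h2.trans (mul_le_mul_of_nonneg_left h3 hK0))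
          (by positivity)
    _ = t ^ 4 * K * ‖p - q‖ := by ring

/-- dependence of the pull back on the centre -/
theorem close_pl {t K : ℝ} (ht : 1 ≤ t) (hK0 : 0 ≤ K) (hT : ∀ u, ‖TT B u‖ ≤ t * ‖u‖)
    (hw : ClF 1 w) (hK1 : ∀ p ∈ tube N 1, ‖fderiv ℝ w p‖ ≤ K)
    (hK : ∀ p ∈ tube N 1, ‖fderiv ℝ (fderiv ℝ w) p‖ ≤ K) {c c' : V N}
    (hB : ∀ p ∈ tube N r, TA B c p ∈ tube N 1) (hB' : ∀ p ∈ tube N r, TA B c' p ∈ tube N 1) :
    Close r (t ^ 3 * K * ‖c - c'‖) (pl w B c) (pl w B c') where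
  c0 := fun p hp => by
    have e : pl w B c p - pl w B c' p = LL (TT B) (w (TA B c p) - w (TA B c' p)) := by
      rw [map_sub]; rfl
    rw [e]
    have h1 := norm_LL_le (by linarith) hT (w (TA B c p) - w (TA B c' p))
    have h2 := lip_tube (fun p hp => hw.da hp) hK1 (hB p hp) (hB' p hp)
    rw [norm_TA_c] at h2
    calc _ ≤ t ^ 2 * ‖w (TA B c p) - w (TA B c' p)‖ := h1
      _ ≤ t ^ 2 * (K * ‖c - c'‖) := mul_le_mul_of_nonneg_left h2 (by positivity)
      _ ≤ t ^ 3 * (K * ‖c - c'‖) := by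
          refine mul_le_mul_of_nonneg_right (pow_le_pow_right₀ ht (by norm_num)) (by positivity)
      _ = t ^ 3 * K * ‖c - c'‖ := by ring
  c1 := fun p hp => by
    rw [(hasFDerivAt_pl (hw.da (hB p hp))).fderiv, (hasFDerivAt_pl (hw.da (hB' p hp))).fderiv,
      ← map_sub]
    have h1 := norm_L2_le (by linarith) hT (fderiv ℝ w (TA B c p) - fderiv ℝ w (TA B c' p))
    have h2 := lip_tube (fun p hp => da2 hw hp) hK (hB p hp) (hB' p hp)
    rw [norm_TA_c] at h2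
    calc _ ≤ t ^ 3 * ‖fderiv ℝ w (TA B c p) - fderiv ℝ w (TA B c' p)‖ := h1
      _ ≤ t ^ 3 * (K * ‖c - c'‖) := mul_le_mul_of_nonneg_left h2 (by positivity)
      _ = t ^ 3 * K * ‖c - c'‖ := by ring

end

end

end Crest.Agent.R281.Lg_40
end

-- ▼ part R281/Lg4_40
section

/-!
# R281 / LAGT adapter (helper40), part 4

`LagtY → LagtS1`: the torus theorem for nearly constant forms with centres in a fixed ball.
-/

set_option autoImplicit false
set_option maxSynthPendingDepth 3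

open MeasureTheory Set Metric Filter
open scoped ContDiff Topology RealInnerProductSpace

namespace Crest.Agent.R281.Lg_40

open Crest.Agent.R281.Mc673
open Crest.Agent.R238.Sch (ee norm_ee)
open Crest.Agent.R273.SchA_152 (HO)

noncomputable section

variable {N : ℕ}

theorem ev_small (A : ℝ) {B : ℝ} (hB : 0 < B) : ∀ᶠ d in 𝓝[>] (0 : ℝ), A * d ≤ B := by
  have h1 : Tendsto (fun d : ℝ => A * d) (𝓝[>] 0) (𝓝 (A * 0)) :=
    ((continuous_const.mul continuous_id).tendsto 0).mono_left nhdsWithin_le_nhds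
  rw [mul_zero] at h1
  filter_upwards [h1 (Iio_mem_nhds hB)] with d hd using le_of_lt hd

/-- mean value on the tube, away from the zero section -/
theorem dist_le {w : Fo N} {del : ℝ} (hw : ClF 1 w)
    (hd : ∀ p ∈ tube N 1, ‖fderiv ℝ w p‖ ≤ del) (θ : V N) {c : V N} (hc : ‖c‖ < 1) :
    ‖w (θ, c) - w (0, 0)‖ ≤ del * (N + 1) := by
  obtain ⟨k, y, hy, rfl⟩ := exists_cube θ
  have h0 : ∀ θ : V N, ((θ, c) : W N) ∈ tube N 1 := fun θ => hc
  have h1 : w (y + kv k, c) = w (y, c) := hw.per k (y, c) (h0 y)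
  rw [h1]
  have h2 := lip_tube (fun p hp => hw.da hp) hd (h0 y) (mem_tube_zero one_pos 0)
  have h3 : ‖((y, c) : W N) - (0, 0)‖ ≤ N + 1 := by
    have : ((y, c) : W N) - (0, 0) = (y, c) := by ext1 <;> simp
    rw [this]
    have hy' := norm_cube_le hy
    have hN : (0 : ℝ) ≤ N := Nat.cast_nonneg N
    exact max_le (by simpa using hy'.trans (by linarith)) (by simpa using hc.le.trans (by linarith))
  have hdel : 0 ≤ del := (norm_nonneg _).trans (hd _ (mem_tube_zero one_pos 0))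
  exact h2.trans (mul_le_mul_of_nonneg_left h3 hdel)

/-- the vanishing on the graph, all vectors -/
theorem graph_zero {w : Fo N} {a : V N → V N} {θ : V N}
    (h : ∀ j k, pb w a j k θ = 0) (u v : V N) :
    w (θ, a θ) (u, fderiv ℝ a θ u) (v, fderiv ℝ a θ v) = 0 := by
  have hs : ∀ u : V N, ((u, fderiv ℝ a θ u) : W N) =
      ∑ j, u j • ((ee j, fderiv ℝ a θ (ee j)) : W N) := by
    intro u
    have h1 : ((u, fderiv ℝ a θ u) : W N) =
        ((ContinuousLinearMap.id ℝ (V N)).prod (fderiv ℝ a θ)) u := rfl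
    rw [h1]
    conv_lhs => rw [sum_ee u]
    rw [map_sum]
    refine Finset.sum_congr rfl fun j _ => ?_
    rw [map_smul]; rfl
  rw [hs v, map_sum]
  refine Finset.sum_eq_zero fun k _ => ?_
  rw [hs u, map_sum, _root_.sum_apply]
  refine Finset.sum_eq_zero fun j _ => ?_
  rw [map_smul, map_smul, _root_.smul_apply, smul_eq_mul, smul_eq_mul]
  have h2 : w (θ, a θ) (ee j, fderiv ℝ a θ (ee j)) (ee k, fderiv ℝ a θ (ee k)) = 0 := h j k
  rw [h2]; ring

theorem mdl_hh (C : Matrix (Fin N) (Fin N) ℝ) (j k : Fin N) : mdl C (eh j) (eh k) = 0 := by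
  rw [mdl_apply]; simp [eh]

theorem mdl_vv (C : Matrix (Fin N) (Fin N) ℝ) (j k : Fin N) : mdl C (ev' j) (ev' k) = 0 := by
  rw [mdl_apply]; simp [ev']

theorem mdl_hv (C : Matrix (Fin N) (Fin N) ℝ) (j l : Fin N) :
    mdl C (eh j) (ev' l) = - C j l := by
  rw [mdl_apply]
  simp only [eh, ev', ee_apply, PiLp.zero_apply, zero_mul, zero_sub]
  rw [Finset.sum_eq_single j, Finset.sum_eq_single l]
  · simp
  · intro m _ hm; simp [hm]
  · simp
  · intro m _ hm; simp [hm]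
  · simp

theorem TT_eh (B : V N →L[ℝ] V N) (j : Fin N) : TT B (eh j) = eh j := by
  rw [TT_apply]; simp [eh]

theorem TT_ev (B : V N →L[ℝ] V N) (j : Fin N) : TT B (ev' j) = (0, B (ee j)) := by
  rw [TT_apply]; simp [ev']

/-- one of the two `Near` clauses -/
theorem near_pl {w : Fo N} {B : V N →L[ℝ] V N} {c : V N} {r t K δ Lam del e : ℝ} (ht : 1 ≤ t)
    (hr : 0 < r) (hdel : 0 ≤ del) (he : 0 ≤ e)
    (hT : ∀ u, ‖TT B u‖ ≤ t * ‖u‖) (hLam : 0 ≤ Lam) (hw : ClF 1 w)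
    (hn : ∀ p ∈ tube N 1, ‖w p‖ ≤ Lam)
    (hd : ∀ p ∈ tube N 1, ‖fderiv ℝ w p‖ ≤ del)
    (hd2 : ∀ p ∈ tube N 1, ‖fderiv ℝ (fderiv ℝ w) p‖ ≤ del) (hc : ‖c‖ ≤ 1 / 2)
    (hB : ∀ p ∈ tube N r, TA B c p ∈ tube N 1) (C : Matrix (Fin N) (Fin N) ℝ)
    (hm : ∀ j k, mn (fun θ => w (θ, 0) (eh j) (eh k)) = 0)
    (hv : ∀ j l, |w (0, 0) (eh j) (0, B (ee l)) + C j l| ≤ e)
    (hK1 : t ^ 4 * Lam ≤ K) (hK2 : t ^ 4 * del ≤ K)
    (hδ1 : (2 * N + 1) * t * del + e ≤ δ) (hδ2 : t ^ 3 * del ≤ δ) :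
    Near r K δ (pl w B c) (mdl C) := by
  have h0r : ∀ θ : V N, ((θ, 0) : W N) ∈ tube N r := fun θ => mem_tube_zero hr θ
  have hTA : ∀ θ : V N, TA B c (θ, 0) = (θ, c) := fun θ => by simp [TA]
  have hc1 : ‖c‖ < 1 := lt_of_le_of_lt hc (by norm_num)
  have hN : (0 : ℝ) ≤ N := Nat.cast_nonneg N
  have hBn : ∀ l, ‖B (ee l)‖ ≤ t := fun l => by
    have h1 := hT (ev' l)
    rw [TT_ev, norm_inr, norm_ev', mul_one] at h1
    exact h1
  have ht4 : t ^ 3 ≤ t ^ 4 := pow_le_pow_right₀ ht (by norm_num)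
  have ht2 : t ^ 2 ≤ t ^ 4 := pow_le_pow_right₀ ht (by norm_num)
  have hdd : ∀ θ i, ∀ u v : W N, ‖u‖ = 1 → ‖v‖ = 1 →
      |fderiv ℝ (pl w B c) (θ, 0) (eh i) u v| ≤ δ := by
    intro θ i u v hu hv
    have h1 := tri_le (fderiv ℝ (pl w B c) (θ, 0)) (eh i) u v
    rw [norm_eh, hu, hv, mul_one, mul_one, mul_one] at h1
    exact (h1.trans (norm_fderiv_pl_le (by linarith) hT hw hd hB (h0r θ))).trans hδ2
  refine ⟨clF_pl hw hB, mdl_alt C, fun p hp => ?_, fun p hp q hq => ?_, fun θ j k => ?_,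
    fun θ j l => ?_, fun θ l m => ?_, fun θ i j k => hdd θ i _ _ (norm_eh j) (norm_eh k),
    fun θ i j l => hdd θ i _ _ (norm_eh j) (norm_ev' l)⟩
  · refine (norm_fderiv_pl_le (by linarith) hT hw hd hB hp).trans (le_trans ?_ hK2)
    exact mul_le_mul_of_nonneg_right ht4 hdel
  · refine (fderiv_pl_lip (by linarith) hdel hT hw hd2 hB hp hq).trans ?_
    exact mul_le_mul_of_nonneg_right hK2 (norm_nonneg _)
  · rw [mdl_hh, sub_zero, pl_apply, TT_eh, TT_eh, hTA]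
    have h1 := abs_app_le (w (θ, c) - w (0, 0)) (norm_eh_le j) (norm_eh_le k)
    simp only [_root_.sub_apply] at h1
    have h2 := h1.trans (dist_le hw hd θ hc1)
    have h3 := period_le hw hd (hm j k)
    have h4 : |w (θ, c) (eh j) (eh k)| ≤ del * (2 * N + 1) := by
      have h5 := abs_add_le (w (θ, c) (eh j) (eh k) - w (0, 0) (eh j) (eh k))
        (w (0, 0) (eh j) (eh k))
      rw [sub_add_cancel] at h5
      linarith
    refine h4.trans (le_trans ?_ hδ1)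
    have : del * (2 * N + 1) * 1 ≤ del * (2 * N + 1) * t :=
      mul_le_mul_of_nonneg_left ht (by positivity)
    nlinarith
  · rw [mdl_hv, sub_neg_eq_add, pl_apply, TT_eh, TT_ev, hTA]
    have h1 := bil_le (w (θ, c) - w (0, 0)) (eh j) (0, B (ee l))
    rw [norm_eh, mul_one, norm_inr] at h1
    simp only [_root_.sub_apply] at h1
    have h2 := dist_le hw hd θ hc1
    have h3 : ‖w (θ, c) - w (0, 0)‖ * ‖B (ee l)‖ ≤ del * (N + 1) * t :=
      mul_le_mul h2 (hBn l) (norm_nonneg _) (by positivity)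
    have h4 := hv j l
    have h5 := abs_add_le (w (θ, c) (eh j) (0, B (ee l)) - w (0, 0) (eh j) (0, B (ee l)))
      (w (0, 0) (eh j) (0, B (ee l)) + C j l)
    have h6 : w (θ, c) (eh j) (0, B (ee l)) - w (0, 0) (eh j) (0, B (ee l)) +
      (w (0, 0) (eh j) (0, B (ee l)) + C j l) = w (θ, c) (eh j) (0, B (ee l)) + C j l := by ring
    rw [h6] at h5
    have h7 : (0 : ℝ) ≤ N * t * del := by positivity
    nlinarith
  · rw [mdl_vv, sub_zero, pl_apply, TT_ev, TT_ev, hTA]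
    have h1 := bil_le (w (θ, c)) (0, B (ee l)) (0, B (ee m))
    rw [norm_inr, norm_inr] at h1
    have h2 : ‖w (θ, c)‖ * ‖B (ee l)‖ * ‖B (ee m)‖ ≤ Lam * t * t := by
      have := hn (θ, c) hc1
      have := hBn l
      have := hBn m
      gcongr
    have h3 : Lam * t * t ≤ t ^ 4 * Lam := by
      have : t ^ 2 * Lam ≤ t ^ 4 * Lam := mul_le_mul_of_nonneg_right ht2 hLam
      nlinarith
    linarith

/-- periods of the translated form -/
theorem mn_pl {w : Fo N} {B : V N →L[ℝ] V N} {c : V N} (hw : ClF 1 w) (hc : ‖c‖ < 1)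
    (j k : Fin N) (hm : mn (fun θ => w (θ, 0) (eh j) (eh k)) = 0) :
    mn (fun θ => pl w B c (θ, 0) (eh j) (eh k)) = 0 := by
  have h1 := mn_pb hw (SP.const c) (fun _ => hc) j k
  have hd : ∀ (c : V N) (j : Fin N) (θ : V N), dr j (fun _ : V N => c) θ = 0 := fun c j θ => by
    simp [dr]
  have e1 : pb w (fun _ => c) j k = fun θ => pl w B c (θ, 0) (eh j) (eh k) := by
    funext θ
    rw [pl_apply, TT_eh, TT_eh]
    simp [pb, hd, TA, eh]
  have e2 : pb w (fun _ => 0) j k = fun θ => w (θ, 0) (eh j) (eh k) := by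
    funext θ
    simp [pb, hd, eh]
  rw [e1, e2, hm] at h1
  exact h1

theorem rel_pl {x y : Fo N} {B M : V N →L[ℝ] V N} {c : V N} {p : W N}
    (hBM : ∀ v, B (M v) = v) (hMB : ∀ v, M (B v) = v) (h : Rel x y (TA B c p)) :
    Rel (pl x B c) (pl y B c) p := by
  obtain ⟨I, hI, hx⟩ := h
  have h1 : ∀ u, TT B (TT M u) = u := fun u => by simp [TT_apply, hBM]
  have h2 : ∀ u, TT M (TT B u) = u := fun u => by simp [TT_apply, hMB]
  refine ⟨fun u => TT M (I (TT B u)), fun u => ?_, fun u w => ?_⟩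
  · show TT M (I (TT B (TT M (I (TT B u))))) = -u
    rw [h1, hI, map_neg, h2]
  · rw [pl_apply, pl_apply, h1, hx]

end

end Crest.Agent.R281.Lg_40
end

-- ▼ part R281/Lg5_40
section

/-!
# R281 / LAGT adapter (helper40), part 5

`R2 → R3 → LagtS1`: the torus theorem for nearly constant forms with centres in a fixed ball.
-/

set_option autoImplicit false
set_option maxSynthPendingDepth 3

open MeasureTheory Set Metric Filter
open scoped ContDiff Topology RealInnerProductSpace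

namespace Crest.Agent.R281.Lg_40

open Crest.Agent.R281.Mc673
open Crest.Agent.R238.Sch (ee norm_ee)
open Crest.Agent.R273.SchA_152 (HO)

noncomputable section

variable {N : ℕ}

/-- covering by a contraction -/
theorem exists_cover {S : V N → V N} {v : V N} (hv : ‖v‖ ≤ 1 / 4)
    (hS : ∀ c, ‖c‖ ≤ 1 / 2 → ‖S c‖ ≤ 1 / 4)
    (hL : ∀ c c', ‖c‖ ≤ 1 / 2 → ‖c'‖ ≤ 1 / 2 → ‖S c - S c'‖ ≤ 1 / 2 * ‖c - c'‖) :
    ∃ c, ‖c‖ ≤ 1 / 2 ∧ c + S c = v := by
  set s : Set (V N) := closedBall 0 (1 / 2) with hs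
  have hmem : ∀ c, c ∈ s ↔ ‖c‖ ≤ 1 / 2 := fun c => by rw [hs, mem_closedBall_zero_iff]
  have hmaps : MapsTo (fun c => v - S c) s s := by
    intro c hc
    rw [hmem] at hc ⊢
    exact (norm_sub_le _ _).trans (by linarith [hS c hc])
  have hcon : ContractingWith (1 / 2) (hmaps.restrict (fun c => v - S c) s s) := by
    refine ⟨by norm_num, LipschitzWith.of_dist_le_mul fun c c' => ?_⟩
    have h1 := hL c.1 c'.1 ((hmem _).1 c.2) ((hmem _).1 c'.2)
    have h2 : dist (hmaps.restrict (fun c => v - S c) s s c)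
        (hmaps.restrict (fun c => v - S c) s s c') = ‖S c.1 - S c'.1‖ := by
      rw [Subtype.dist_eq, dist_eq_norm]
      show ‖v - S c.1 - (v - S c'.1)‖ = _
      rw [sub_sub_sub_cancel_left, norm_sub_rev]
    rw [h2, Subtype.dist_eq, dist_eq_norm]
    simpa using h1
  have hcomp : IsComplete s := isClosed_closedBall.isComplete
  obtain ⟨c, hc, hfix, -⟩ := hcon.exists_fixedPoint' hcomp hmaps
    (x := 0) (by rw [hmem]; simp) (edist_ne_top _ _)
  refine ⟨c, (hmem c).1 hc, ?_⟩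
  have h3 : v - S c = c := hfix
  exact (sub_eq_iff_eq_add.1 h3).symm

set_option maxHeartbeats 1600000 in
theorem lagtS1_of (r2 : R2) (r3 : R3) : LagtS1 := by
  intro N Lam eps hLam heps
  have hN : (0 : ℝ) ≤ N := Nat.cast_nonneg N
  -- constants
  set t : ℝ := 1 + 2 * Lam with htd
  have ht : 1 ≤ t := by linarith
  set r : ℝ := 1 / (4 * (Lam + 1)) with hrd
  have hr : 0 < r := by positivity
  have hrB : 2 * Lam * r < 1 / 2 := by
    rw [hrd, mul_one_div, div_lt_iff₀ (by positivity)]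
    nlinarith
  set Λ : ℝ := 2 * Lam ^ 2 + 1 with hΛd
  have hΛ : 0 ≤ Λ := by positivity
  set K : ℝ := t ^ 4 * (Lam + 1) with hKd
  have hK : 0 ≤ K := by positivity
  obtain ⟨e1, he1, HY⟩ := rigid r2 r3 N (Λ := Λ) hK
  obtain ⟨CH, tg, G⟩ := exists_good N (q := 1 / 4) hΛ hK hr (by norm_num)
  have hCH := G.CH0
  have htg := G.t0
  obtain ⟨ρ, hρ, hρt, hρ1, hρe, hρ4, hρK, hρb⟩ : ∃ ρ > 0, ρ ≤ tg / 4 ∧ ρ ≤ 1 ∧
      2 * Lam * ρ ≤ eps ∧ 2 * Lam * ρ ≤ 1 / 4 ∧ K * (3 * ρ) ≤ e1 / 2 ∧ ρ ≤ e1 := by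
    have e1' := ev_small 1 (show 0 < tg / 4 by positivity)
    have e2 := ev_small 1 (show (0 : ℝ) < 1 by norm_num)
    have e3 := ev_small (2 * Lam) heps
    have e4 := ev_small (2 * Lam) (show (0 : ℝ) < 1 / 4 by norm_num)
    have e5 := ev_small (K * 3) (show 0 < e1 / 2 by positivity)
    have e6 := ev_small 1 he1
    obtain ⟨ρ, ⟨⟨⟨⟨⟨⟨h1, h2⟩, h3⟩, h4⟩, h5⟩, h6⟩, h7⟩⟩ :=
      ((((((e1'.and e2).and e3).and e4).and e5).and e6).and self_mem_nhdsWithin).exists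
    exact ⟨ρ, h7, by linarith, by linarith, h3, h4, by linarith, by linarith⟩
  obtain ⟨δ, hδ, hδt, hδ2, hδC⟩ : ∃ δ > 0, δ ≤ tg ∧ δ ≤ e1 / 2 ∧ CH * δ ≤ ρ / 2 := by
    have e1' := ev_small 1 htg
    have e2 := ev_small 1 (show 0 < e1 / 2 by positivity)
    have e3 := ev_small CH (show 0 < ρ / 2 by positivity)
    obtain ⟨δ, ⟨⟨⟨h1, h2⟩, h3⟩, h4⟩⟩ := (((e1'.and e2).and e3).and self_mem_nhdsWithin).exists
    exact ⟨δ, h4, by linarith, by linarith, h3⟩
  obtain ⟨e0, he0, Hex⟩ := exists_exact N (2 * Lam ^ 2) (min (δ / 2) 1) (by positivity)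
  obtain ⟨del, hdel, hd1, hdA, hdB, hdC, hdD, hdE, hdF⟩ : ∃ del > 0, del ≤ 1 ∧
      Lam * (del * N * N * N) ≤ 1 / 2 ∧ Dc N Lam * (del * N) ≤ e0 ∧
      (2 * N + 1) * t * del ≤ δ / 2 ∧ t ^ 3 * del ≤ δ ∧ 4 * Lam * CH * t ^ 3 * del ≤ eps ∧
      4 * Lam * CH * t ^ 3 * del ≤ 1 / 2 := by
    have e1' := ev_small 1 one_pos
    have e2 := ev_small (Lam * (N * N * N)) (show (0 : ℝ) < 1 / 2 by norm_num)
    have e3 := ev_small (Dc N Lam * N) he0
    have e4 := ev_small ((2 * N + 1) * t) (show 0 < δ / 2 by positivity)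
    have e5 := ev_small (t ^ 3) hδ
    have e6 := ev_small (4 * Lam * CH * t ^ 3) heps
    have e7 := ev_small (4 * Lam * CH * t ^ 3) (show (0 : ℝ) < 1 / 2 by norm_num)
    obtain ⟨d, ⟨⟨⟨⟨⟨⟨⟨h1, h2⟩, h3⟩, h4⟩, h5⟩, h6⟩, h7⟩, h8⟩⟩ :=
      (((((((e1'.and e2).and e3).and e4).and e5).and e6).and e7).and self_mem_nhdsWithin).exists
    exact ⟨d, h8, by linarith, by linarith [h2], by linarith [h3], h4, h5, h6, h7⟩
  refine ⟨del, hdel, fun x y hx hy hb hnd hdd hrel hm => ?_⟩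
  have h00 : ((0, 0) : W N) ∈ tube N 1 := mem_tube_zero one_pos 0
  have hmx : ∀ j k, mn (fun θ => x (θ, 0) (eh j) (eh k)) = 0 := fun j k => (hm j k).1
  have hmy : ∀ j k, mn (fun θ => y (θ, 0) (eh j) (eh k)) = 0 := fun j k => (hm j k).2
  have hpx := fun j k => period_le hx (fun p hp => (hdd p hp).1) (hmx j k)
  have hpy := fun j k => period_le hy (fun p hp => (hdd p hp).2.2.1) (hmy j k)
  have hs0 : 0 ≤ del * N := by positivity
  obtain ⟨B, M, hBM, hMB, hBn, hMn, hXM⟩ := exists_B hLam (hb _ h00).1 (hnd _ h00) hpx hs0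
    (by linarith)
  obtain ⟨I, hI, hIx⟩ := hrel _ h00
  have hsq := C0_sq_le hLam (hb _ h00).1 (hb _ h00).2 (hnd _ h00) (hx.alt _ h00) hpx hpy hs0
    hI hIx hBM hMB hBn hXM
  obtain ⟨C, hCC, hCn⟩ := Hex (C0 (y (0, 0)) B) (abs_C0_le hLam (hb _ h00).2 hBn)
    fun j k => (hsq j k).trans hdB
  have hCL : ∀ j k, |C j k| ≤ Λ := by
    intro j k
    have h1 := (hCn j k).trans (min_le_right _ _)
    have h2 := abs_C0_le hLam (hb _ h00).2 hBn j k
    have h3 := abs_add_le (C j k - C0 (y (0, 0)) B j k) (C0 (y (0, 0)) B j k)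
    rw [sub_add_cancel] at h3
    linarith
  have hT : ∀ u, ‖TT B u‖ ≤ t * ‖u‖ := by
    intro u
    rw [TT_apply]
    refine max_le ?_ ?_
    · have h1 : ‖u.1‖ ≤ ‖u‖ := norm_fst_le u
      have := norm_nonneg u
      show ‖u.1‖ ≤ _
      nlinarith
    · have h1 : ‖u.2‖ ≤ ‖u‖ := norm_snd_le u
      have h2 := hBn u.2
      have := norm_nonneg u
      show ‖B u.2‖ ≤ _
      nlinarith
  have hTA : ∀ c : V N, ‖c‖ ≤ 1 / 2 → ∀ p ∈ tube N r, TA B c p ∈ tube N 1 := by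
    intro c hc p hp
    have hp' : ‖p.2‖ < r := hp
    show ‖c + B p.2‖ < 1
    have h1 := hBn p.2
    have h2 : 2 * Lam * ‖p.2‖ ≤ 2 * Lam * r := by gcongr
    have h3 := norm_add_le c (B p.2)
    linarith
  have hdelt : t ^ 4 * del ≤ K := by
    rw [hKd]; exact mul_le_mul_of_nonneg_left (by linarith) (by positivity)
  have hKL : t ^ 4 * Lam ≤ K := by
    rw [hKd]; exact mul_le_mul_of_nonneg_left (by linarith) (by positivity)
  -- the data at every centre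
  have hD : ∀ c : V N, ‖c‖ ≤ 1 / 2 → Dat r K δ Λ C (pl x B c) (pl y B c) := by
    intro c hc
    have hc1 : ‖c‖ < 1 := lt_of_le_of_lt hc (by norm_num)
    refine ⟨hCC, hCL, ?_, ?_, fun j k => mn_pl hx hc1 j k (hmx j k),
      fun j k => mn_pl hy hc1 j k (hmy j k)⟩
    · refine near_pl (e := 0) (del := del) (Lam := Lam) ht hr hdel.le le_rfl hT hLam.le hx
        (fun p hp => (hb p hp).1) (fun p hp => (hdd p hp).1) (fun p hp => (hdd p hp).2.1) hc
        (hTA c hc) 1 hmx (fun j l => ?_) hKL hdelt (by linarith) hdD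
      have h1 : x (0, 0) (eh j) (0, B (ee l)) = - ⟪(ee j : V N), M (B (ee l))⟫ := hXM _ _
      rw [h1, hMB, inner_ee_ee, Matrix.one_apply]
      simp
    · refine near_pl (e := δ / 2) (del := del) (Lam := Lam) ht hr hdel.le (by positivity) hT
        hLam.le hy (fun p hp => (hb p hp).2) (fun p hp => (hdd p hp).2.2.1)
        (fun p hp => (hdd p hp).2.2.2) hc (hTA c hc) C hmy (fun j l => ?_) hKL hdelt
        (by linarith) hdD
      have h1 : y (0, 0) (eh j) (0, B (ee l)) = - C0 (y (0, 0)) B j l := by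
        rw [C0_apply, neg_neg]
      have h2 := (hCn j l).trans (min_le_left _ _)
      rw [h1, neg_add_eq_sub]
      exact h2
  -- the solutions
  have hsol : ∀ c : V N, ∃ (A : ℕ → V N → V N) (a : V N → V N), ‖c‖ ≤ 1 / 2 →
      Sol C (pl x B c) (pl y B c) tg ρ 0 A a := by
    intro c
    by_cases hc : ‖c‖ ≤ 1 / 2
    · obtain ⟨A, a, h⟩ := exists_sol' G (by norm_num) hδ.le hδt hρ hρt hδC (hD c hc)
        (c := 0) (by simpa using hρ.le)
      exact ⟨A, a, fun _ => h⟩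
    · exact ⟨fun _ => 0, 0, fun h => absurd h hc⟩
  choose A S hS using hsol
  have hSn : ∀ c, ‖c‖ ≤ 1 / 2 → ∀ θ, ‖S c θ‖ ≤ ρ := fun c hc θ => by
    simpa using (hS c hc).ho0.bdd θ (mem_univ θ)
  have hSd : ∀ c, ‖c‖ ≤ 1 / 2 → ∀ θ, ‖fderiv ℝ (S c) θ‖ ≤ ρ := fun c hc θ =>
    (hS c hc).ho1.bdd θ (mem_univ θ)
  have hSr : ∀ c, ‖c‖ ≤ 1 / 2 → ∀ θ, ‖S c θ‖ < r := fun c hc θ =>
    lt_of_le_of_lt (hSn c hc θ) (by linarith [G.tr])
  have hpair : ∀ c c' : V N, ‖c‖ ≤ 1 / 2 → ‖c'‖ ≤ 1 / 2 → ∀ θ,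
      ‖S c θ - S c' θ‖ ≤ 2 * (CH * (t ^ 3 * del * ‖c - c'‖)) ∧
      ‖fderiv ℝ (S c) θ - fderiv ℝ (S c') θ‖ ≤ 2 * (CH * (t ^ 3 * del * ‖c - c'‖)) := by
    intro c c' hc hc' θ
    have hκ : 0 ≤ t ^ 3 * del * ‖c - c'‖ := by positivity
    have h1 := sol_pair G (by norm_num) (by norm_num) ((hD c hc).mono hδt) ((hD c' hc').mono hδt) hκ
      (close_pl ht hdel.le hT hx (fun p hp => (hdd p hp).1) (fun p hp => (hdd p hp).2.1)
        (hTA c hc) (hTA c' hc'))
      (close_pl ht hdel.le hT hy (fun p hp => (hdd p hp).2.2.1) (fun p hp => (hdd p hp).2.2.2)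
        (hTA c hc) (hTA c' hc')) (hS c hc) (hS c' hc')
    have h2 := h1.1.bdd θ (mem_univ θ)
    have h3 := h1.2.bdd θ (mem_univ θ)
    simp only [sub_self, sub_zero, norm_zero, mul_zero, zero_add] at h2 h3
    exact ⟨h2, h3⟩
  have hlipc : ∀ c c' : V N, 2 * Lam * (2 * (CH * (t ^ 3 * del * ‖c - c'‖))) =
      4 * Lam * CH * t ^ 3 * del * ‖c - c'‖ := fun c c' => by ring
  have hBS : ∀ v, ‖B v‖ ≤ 2 * Lam * ‖v‖ := hBn
  have hfd : ∀ c, ‖c‖ ≤ 1 / 2 → ∀ θ,
      fderiv ℝ (fun θ => c + B (S c θ)) θ = B.comp (fderiv ℝ (S c) θ) := by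
    intro c hc θ
    have h1 : HasFDerivAt (fun θ => c + B (S c θ)) (B.comp (fderiv ℝ (S c) θ)) θ :=
      (B.hasFDerivAt.comp θ ((hS c hc).df θ).hasFDerivAt).const_add c
    exact h1.fderiv
  have hcomp : ∀ (T : V N →L[ℝ] V N) (b : ℝ), ‖T‖ ≤ b → ‖B.comp T‖ ≤ 2 * Lam * b := by
    intro T b hT
    have hb0 : 0 ≤ b := (norm_nonneg _).trans hT
    refine ContinuousLinearMap.opNorm_le_bound _ (by positivity) fun v => ?_
    have h1 := hBn (T v)
    have h2 := T.le_opNorm v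
    have h3 : ‖T‖ * ‖v‖ ≤ b * ‖v‖ := by gcongr
    calc ‖B (T v)‖ ≤ 2 * Lam * ‖T v‖ := h1
      _ ≤ 2 * Lam * (b * ‖v‖) := by gcongr; linarith
      _ = 2 * Lam * b * ‖v‖ := by ring
  have hz : ∀ (w : Fo N), ∀ c, ‖c‖ ≤ 1 / 2 → (∀ j k θ, pb (pl w B c) (S c) j k θ = 0) →
      ∀ θ u v, w (θ, c + B (S c θ)) (u, fderiv ℝ (fun θ => c + B (S c θ)) θ u)
        (v, fderiv ℝ (fun θ => c + B (S c θ)) θ v) = 0 := by
    intro w c hc h θ u v
    have h1 := graph_zero (fun j k => h j k θ) u v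
    rw [hfd c hc]
    exact h1
  have hnear : ∀ c, ‖c‖ ≤ 1 / 2 → ∀ θ, ‖B (S c θ)‖ ≤ 2 * Lam * ρ := by
    intro c hc θ
    refine (hBn (S c θ)).trans ?_
    have := hSn c hc θ
    gcongr
  refine ⟨fun c θ => c + B (S c θ), ?_, ?_, ?_, ?_, ?_, ?_, ?_, ?_, ?_, ?_⟩
  · intro c hc
    exact contDiff_const.add (B.contDiff.comp (hS c hc).contDiff)
  · intro c hc k θ
    show c + B (S c (θ + kv k)) = c + B (S c θ)
    rw [(hS c hc).per k θ]
  · intro c hc θ
    show ‖c + B (S c θ)‖ < 1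
    have h1 := norm_add_le c (B (S c θ))
    have h2 := hnear c hc θ
    linarith
  · intro c hc θ
    show ‖c + B (S c θ) - c‖ ≤ eps
    rw [add_sub_cancel_left]
    exact (hnear c hc θ).trans hρe
  · intro c hc θ
    rw [hfd c hc]
    exact (hcomp _ ρ (hSd c hc θ)).trans hρe
  · intro c hc
    exact hz x c hc fun j k θ => (hS c hc).eqx0 (hD c hc) (hSr c hc) j k θ
  · intro c hc
    exact hz y c hc (HY r δ tg ρ C _ _ (hD c hc)
      (fun p hp => rel_pl hBM hMB (hrel _ (hTA c hc p hp))) hδ.le G.t1 G.tr hρ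
      (by linarith [G.tr]) (by linarith) hρb hρ1 0 (by simpa using hρ.le) (A c) (S c) (hS c hc))
  · intro c c' hc hc' θ
    show ‖c + B (S c θ) - (c' + B (S c' θ)) - (c - c')‖ ≤ _
    have e : c + B (S c θ) - (c' + B (S c' θ)) - (c - c') = B (S c θ - S c' θ) := by
      rw [map_sub]; abel
    rw [e]
    have h1 := hBn (S c θ - S c' θ)
    have h2 : 2 * Lam * ‖S c θ - S c' θ‖ ≤
        2 * Lam * (2 * (CH * (t ^ 3 * del * ‖c - c'‖))) := by
      have := (hpair c c' hc hc' θ).1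
      gcongr
    rw [hlipc] at h2
    have h3 : 4 * Lam * CH * t ^ 3 * del * ‖c - c'‖ ≤ eps * ‖c - c'‖ := by gcongr
    linarith
  · intro c c' hc hc' θ
    rw [hfd c hc, hfd c' hc', ← ContinuousLinearMap.comp_sub]
    have h2 := hcomp _ _ (hpair c c' hc hc' θ).2
    rw [hlipc] at h2
    have h3 : 4 * Lam * CH * t ^ 3 * del * ‖c - c'‖ ≤ eps * ‖c - c'‖ := by gcongr
    linarith
  · intro θ v hv
    refine exists_cover (S := fun c => B (S c θ)) (by linarith)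
      (fun c hc => (hnear c hc θ).trans hρ4) fun c c' hc hc' => ?_
    · rw [← map_sub]
      have h1 := hBn (S c θ - S c' θ)
      have h2 : 2 * Lam * ‖S c θ - S c' θ‖ ≤
          2 * Lam * (2 * (CH * (t ^ 3 * del * ‖c - c'‖))) := by
        have := (hpair c c' hc hc' θ).1
        gcongr
      rw [hlipc] at h2
      have h3 : 4 * Lam * CH * t ^ 3 * del * ‖c - c'‖ ≤ 1 / 2 * ‖c - c'‖ := by gcongr
      linarith

end

end Crest.Agent.R281.Lg_40
end

-- ▼ part R281/Lg6_40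
section

/-!
# R281 / LAGT adapter (helper40), part 6: `LagtS1` without hypotheses
-/

namespace Crest.Agent.R281.Lg_40

theorem lagtS1 : LagtS1 := lagtS1_of Crest.Agent.R281.Mc673.r2 Crest.Agent.R281.Mc673.r3

end Crest.Agent.R281.Lg_40
end

-- ▼ part R281/Bt3_156
section

/-!
# R281 / BIG-TUBE (helper156), part 3: the big tubes without hypotheses
-/

set_option autoImplicit false
set_option maxSynthPendingDepth 3

open MeasureTheory Set Metric Filter
open scoped ContDiff Topology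

namespace Crest.Agent.R281.Bt_156

open Crest.Agent.R281.Mc673

theorem tor_of_tori {N : ℕ} {r rho eps : ℝ} {x y : Fo N} {a : V N → V N → V N}
    (h : Tori N r rho eps x y a) : Tor N rho eps x y a where
  c1 := h.c1
  per := h.per
  near := h.near
  dnear := h.dnear
  x0 := h.x0
  y0 := h.y0
  lip := h.lip
  dlip := h.dlip
  cover := h.cover

theorem tori_of_tor {N : ℕ} {r rho eps : ℝ} {x y : Fo N} {a : V N → V N → V N}
    (h : Tor N rho eps x y a) (hr : rho + eps < r) : Tori N r rho eps x y a where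
  c1 := h.c1
  per := h.per
  lt c hc th := by
    have h1 := h.near c hc th
    have h2 : ‖a c th‖ ≤ ‖a c th - c‖ + ‖c‖ := by
      calc ‖a c th‖ = ‖(a c th - c) + c‖ := by rw [sub_add_cancel]
        _ ≤ _ := norm_add_le _ _
    linarith
  near := h.near
  dnear := h.dnear
  x0 := h.x0
  y0 := h.y0
  lip := h.lip
  dlip := h.dlip
  cover := h.cover

theorem tor_mono {N : ℕ} {rho e e' : ℝ} {x y : Fo N} {a : V N → V N → V N}
    (h : Tor N rho e x y a) (he : e ≤ e') : Tor N rho e' x y a where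
  c1 := h.c1
  per := h.per
  near c hc th := (h.near c hc th).trans he
  dnear c hc th := (h.dnear c hc th).trans he
  x0 := h.x0
  y0 := h.y0
  lip c c' hc hc' th := (h.lip c c' hc hc' th).trans (mul_le_mul_of_nonneg_right he (norm_nonneg _))
  dlip c c' hc hc' th :=
    (h.dlip c c' hc hc' th).trans (mul_le_mul_of_nonneg_right he (norm_nonneg _))
  cover := h.cover

theorem lagtS1 : LagtS1 := by
  intro N Lam eps hL he
  obtain ⟨del, hd, H⟩ := Lg_40.lagtS1 N Lam eps hL he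
  refine ⟨del, hd, fun x y h => ?_⟩
  obtain ⟨a, ha⟩ := H x y h.cx h.cy (fun p hp => ⟨h.bx p hp, h.byy p hp⟩) h.nd
    (fun p hp => ⟨h.dx p hp, h.ddx p hp, h.dy p hp, h.ddy p hp⟩) h.I
    (fun j k => ⟨h.mx j k, h.my j k⟩)
  exact ⟨a, tor_of_tori ha⟩

/-- tori in tubes of every radius -/
theorem lagtR : LagtR := lagtR_of_S1 lagtS1

/-- the same with the structure `Tori` of 673 (leaves inside the tube of radius `2 R`) -/
theorem toriR (N : ℕ) (Lam eps R : ℝ) (hL : 0 < Lam) (he : 0 < eps) (hR : 0 < R) :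
    ∃ del > 0, ∀ x y : Fo N, Hyp (2 * R) Lam del x y → ∃ a, Tori N (2 * R) R eps x y a := by
  obtain ⟨del, hd, H⟩ := lagtR N Lam (min eps (R / 2)) R hL (lt_min he (half_pos hR)) hR
  refine ⟨del, hd, fun x y h => ?_⟩
  obtain ⟨a, ha⟩ := H x y h
  have h1 : Tori N (2 * R) R (min eps (R / 2)) x y a :=
    tori_of_tor ha (by have := min_le_right eps (R / 2); linarith)
  have h2 := tor_mono ha (min_le_left eps (R / 2))
  exact ⟨a, { c1 := h2.c1, per := h2.per, lt := h1.lt, near := h2.near, dnear := h2.dnear,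
              x0 := h2.x0, y0 := h2.y0, lip := h2.lip, dlip := h2.dlip, cover := h2.cover }⟩

end Crest.Agent.R281.Bt_156
end

-- ▼ part R281/Tp5_836
section

/-!
# R281 (S0424), node ToriP, END 1 (helper836), file 5: the tube coordinates `TubeD` (808)

* `pull_cmp'`  : pull back of a 2-form read in other charts
* `tubeD_tr`   : `TubeD` in other charts
* `tubeD_neg`  : `TubeD w w' ⟹ TubeD w (-w')`
* `hyp_tubeD`  : `TubeD ⟹ Hyp` (input of LAGT, 156)
-/

set_option autoImplicit false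
set_option linter.unusedSectionVars false
set_option maxSynthPendingDepth 3
set_option synthInstance.maxHeartbeats 200000

open Set Metric Filter Topology Complex Function
open scoped NNReal ContDiff

namespace Crest.Agent.R281.Tp_836

open Crest.Agent.R275.Geo (Cn)
open Crest.Agent.R281.HkR_835 Crest.Agent.R281.Ti_846 Crest.Agent.R281.Dif_268
open Crest.Agent.R281.Mc673 Crest.Agent.R281.T5D_808 Crest.Agent.R281.Ab_729
open Crest.Agent.R281.Bt_156 Crest.Agent.R281.Tub_836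
open Crest.Agent.R281.Per_368 (SmI pull pl)
open Crest.Agent.R238.Sch (ee)

noncomputable section

variable {V₁ V₂ X : Type} [NormedAddCommGroup V₁] [NormedSpace ℝ V₁] [NormedAddCommGroup V₂]
  [NormedSpace ℝ V₂] [TopologicalSpace X] {C : RCh V₁ X} {C' : RCh V₂ X}
  {E : Type} [NormedAddCommGroup E] [NormedSpace ℝ E] {S : Set E} {Φ : E → X}

/-- the pull back of a form read in other charts -/
theorem pull_cmp' (h : Cmp C C') (hs : SmI C S Φ) (w : F2 C) {ζ : E} (hζ : ζ ∈ S) :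
    pull (h.F w) Φ ζ = pull w Φ ζ := by
  have hs' : SmI C' S Φ := smI_cmp h.symm hs
  obtain ⟨j, hj⟩ := C'.cover (Φ ζ)
  rw [hs'.pull_eq _ hζ hj]
  ext u v
  rw [Per_368.pl_apply]
  exact (pull_cmp h hs' w hζ hj u v).symm

section tubeD

variable {w w' : F2 C} {N : ℕ} {R Λ δ : ℝ} {Θ : W N → X}

theorem tubeD_tr (h : Cmp C C') (hR : 0 < R) (t : TubeD C w w' N R Λ δ Θ) {w₁ w₁' : F2 C'}
    (h1 : ∀ p ∈ tube N R, pull w₁ Θ p = pull w Θ p)
    (h2 : ∀ p ∈ tube N R, pull w₁' Θ p = pull w' Θ p) : TubeD C' w₁ w₁' N R Λ δ Θ := by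
  have hO := isOpen_tube (N := N) R
  have hz : ∀ θ : Mc673.V N, ((θ, 0) : W N) ∈ tube N R := fun θ => by
    show ‖(0 : Mc673.V N)‖ < R
    rw [norm_zero]; exact hR
  have e1 : ∀ p ∈ tube N R, pull w₁ Θ =ᶠ[𝓝 p] pull w Θ := fun p hp => by
    filter_upwards [hO.mem_nhds hp] with q hq using h1 q hq
  have e2 : ∀ p ∈ tube N R, pull w₁' Θ =ᶠ[𝓝 p] pull w' Θ := fun p hp => by
    filter_upwards [hO.mem_nhds hp] with q hq using h2 q hq
  have hsm : SmI C' (tube N R) Θ := smI_cmp h.symm t.sm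
  have hcl : ∀ {x x' : Fo N}, ClF R x → (∀ p ∈ tube N R, x' p = x p) → ClF R x' := by
    intro x x' hx hxx
    refine ⟨hx.sm.congr hxx, fun p hp u v => ?_, fun p hp u v z => ?_, fun k p hp => ?_⟩
    · rw [hxx p hp]
      exact hx.alt p hp u v
    · have : x' =ᶠ[𝓝 p] x := by filter_upwards [hO.mem_nhds hp] with q hq using hxx q hq
      rw [this.fderiv_eq]
      exact hx.cl p hp u v z
    · rw [hxx p hp, hxx (p.1 + kv k, p.2) hp]
      exact hx.per k p hp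
  refine
    { sm := hsm
      bij := fun p hp j hj => ?_
      eq_iff := t.eq_iff
      cx := hcl t.cx h1
      cy := hcl t.cy h2
      bd := fun p hp => by rw [h1 p hp, h2 p hp]; exact t.bd p hp
      nd := fun p hp => by rw [h1 p hp]; exact t.nd p hp
      dd := fun p hp => by
        rw [(e1 p hp).fderiv_eq, ((e1 p hp).fderiv (𝕜 := ℝ)).fderiv_eq, (e2 p hp).fderiv_eq,
          ((e2 p hp).fderiv (𝕜 := ℝ)).fderiv_eq]
        exact t.dd p hp
      cpx := fun p hp => by rw [h1 p hp, h2 p hp]; exact t.cpx p hp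
      per0 := fun j k => by
        have e3 : (fun θ => pull w₁ Θ (θ, 0) (ee j, 0) (ee k, 0)) =
            fun θ => pull w Θ (θ, 0) (ee j, 0) (ee k, 0) := by
          funext θ
          rw [h1 _ (hz θ)]
        have e4 : (fun θ => pull w₁' Θ (θ, 0) (ee j, 0) (ee k, 0)) =
            fun θ => pull w' Θ (θ, 0) (ee j, 0) (ee k, 0) := by
          funext θ
          rw [h2 _ (hz θ)]
        rw [e3, e4]
        exact t.per0 j k
      hh := fun p hp => by rw [h1 p hp, h2 p hp]; exact t.hh p hp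
      vv := fun p hp => by rw [h1 p hp, h2 p hp]; exact t.vv p hp }
  obtain ⟨i, hi⟩ := C.cover (Θ p)
  have hb := t.bij p hp i hi
  have hf := fun u => fderiv_cmp h.symm t.sm hp (i := j) (j := i) hj hi u
  have hz' : C.e i (Θ p) ∈ mov C' C j i := mem_mov hj hi
  constructor
  · intro u v huv
    rw [hf, hf] at huv
    exact hb.1 (h.symm.inj hz' huv)
  · intro v
    obtain ⟨u, hu⟩ := hb.2 (fderiv ℝ (mt C C' i j) (mt C' C j i (C.e i (Θ p))) v)
    refine ⟨u, ?_⟩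
    rw [hf, hu]
    exact h.symm.d_d' hz' v

theorem tubeD_neg (t : TubeD C w w' N R Λ δ Θ) : TubeD C w (-w') N R Λ δ Θ := by
  have hpe : pull (-w') Θ = fun p => -pull w' Θ p := by
    funext p
    exact ContinuousLinearMap.ext fun u => ContinuousLinearMap.ext fun v => rfl
  have hO := isOpen_tube (N := N) R
  have hfd : fderiv ℝ (pull (-w') Θ) = fun p => -fderiv ℝ (pull w' Θ) p := by
    funext p
    rw [hpe]
    exact fderiv_fun_neg
  have hfd2 : ∀ p, fderiv ℝ (fderiv ℝ (pull (-w') Θ)) p = -fderiv ℝ (fderiv ℝ (pull w' Θ)) p := by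
    intro p
    rw [hfd]
    exact fderiv_fun_neg
  refine
    { sm := t.sm
      bij := t.bij
      eq_iff := t.eq_iff
      cx := t.cx
      cy := ?_
      bd := fun p hp => ⟨(t.bd p hp).1, by rw [hpe]; simpa using (t.bd p hp).2⟩
      nd := t.nd
      dd := fun p hp => ?_
      cpx := fun p hp => ?_
      per0 := fun j k => ⟨(t.per0 j k).1, ?_⟩
      hh := fun p hp u v => ⟨(t.hh p hp u v).1, ?_⟩
      vv := fun p hp u v => ⟨(t.vv p hp u v).1, ?_⟩ }
  · refine ⟨?_, fun p hp u v => ?_, fun p hp u v z => ?_, fun k p hp => ?_⟩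
    · rw [hpe]
      exact t.cy.sm.neg
    · rw [hpe]
      have := t.cy.alt p hp u v
      simp only [neg_apply]
      rw [this]
    · rw [hfd]
      have := t.cy.cl p hp u v z
      simp only [neg_apply]
      linarith
    · rw [hpe]
      exact congrArg Neg.neg (t.cy.per k p hp)
  · obtain ⟨a1, a2, a3, a4⟩ := t.dd p hp
    refine ⟨a1, a2, ?_, ?_⟩
    · rw [hfd]; exact (norm_neg _).trans_le a3
    · rw [hfd2]; exact (ContinuousLinearMap.opNorm_neg _).trans_le a4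
  · obtain ⟨I, h1, h2⟩ := t.cpx p hp
    refine ⟨fun u => -I u, fun u => ?_, fun u v => ?_⟩
    · have h3 : ∀ u v, pull w Θ p (I (-I u)) v = pull w Θ p u v := by
        intro u v
        have a1 := h2 (-I u) v
        have a2 := h2 (I u) v
        rw [h1 u] at a2
        rw [a1, map_neg, neg_apply, neg_neg]
        have a3 : pull w Θ p (-u) v = - pull w Θ p u v := by rw [map_neg, neg_apply]
        rw [a3] at a2
        linarith
      have h4 : I (-I u) = u := by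
        rw [← sub_eq_zero, ← norm_le_zero_iff]
        refine (t.nd p hp _).trans ?_
        have : pull w Θ p (I (-I u) - u) = 0 := by
          refine ContinuousLinearMap.ext fun v => ?_
          rw [map_sub, sub_apply, h3]
          simp
        rw [this, norm_zero, mul_zero]
      show -I (-I u) = -u
      rw [h4]
    · rw [map_neg, neg_apply, h2, hpe]
      simp
  · have : (fun θ => pull (-w') Θ (θ, 0) (ee j, 0) (ee k, 0)) =
        fun θ => -pull w' Θ (θ, 0) (ee j, 0) (ee k, 0) := by rw [hpe]; rfl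
    rw [this]
    have h1 := (t.per0 j k).2
    unfold mn at h1 ⊢
    rw [MeasureTheory.integral_neg, h1, neg_zero]
  · rw [hpe]
    simpa using (t.hh p hp u v).2
  · rw [hpe]
    simpa using (t.vv p hp u v).2

/-- the input of LAGT -/
theorem hyp_tubeD (t : TubeD C w w' N R Λ δ Θ) : Hyp R Λ δ (pull w Θ) (pull w' Θ) where
  cx := t.cx
  cy := t.cy
  bx p hp := (t.bd p hp).1
  byy p hp := (t.bd p hp).2
  nd := t.nd
  dx p hp := (t.dd p hp).1
  ddx p hp := (t.dd p hp).2.1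
  dy p hp := (t.dd p hp).2.2.1
  ddy p hp := (t.dd p hp).2.2.2
  I := t.cpx
  mx j k := (t.per0 j k).1
  my j k := (t.per0 j k).2

end tubeD

end

end Crest.Agent.R281.Tp_836
end

-- ▼ part R281/Tp6_836

/-!
# R281 (S0424), node ToriP, END 1 (helper836), file 6: the composition

* `holTube_of_tubeD` : `TubeD` of the scaled triple `(om 0, om 2)` with small constants ⟹ `HolTube`
  for `J 1`, `om 2 + i om 0` inside the tube
* `tub_of_mtub`      : member tube (808) + isomorphism (identity on classes) ⟹ `Tub`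
* `toriP_of`         : the node `ToriP`
-/

set_option autoImplicit false
set_option linter.unusedSectionVars false
set_option maxSynthPendingDepth 3
set_option synthInstance.maxHeartbeats 200000

open Set Metric Filter Topology Complex Function
open scoped NNReal ContDiff

namespace Crest.Agent.R281.Tp_836

open Crest.Agent.R275.Geo Crest.Agent.R275.Core144
open Crest.Agent.R275.EDR890
open Crest.Agent.R260.ACM_580 Crest.Agent.R260.NNB_580
open Crest.Agent.R281.HkR_835 Crest.Agent.R281.Ti_846 Crest.Agent.R281.Dif_268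
open Crest.Agent.R281.NefO_476 Crest.Agent.R281.Nef_252
open Crest.Agent.R281.Mc673 Crest.Agent.R281.T5D_808 Crest.Agent.R281.Ab_729
open Crest.Agent.R281.Bt_156 Crest.Agent.R281.Tub_836 Crest.Agent.R281.Tub_831
open Crest.Agent.R281.Alg_998 Crest.Agent.R281.RkD_902 Crest.Agent.R281.Cr_808
open Crest.Agent.R281.Per_368 (SmI pull pl)
open Crest.Agent.R281.Exo_368 (ExOn TubeO pvt_of_exOn)
open Crest.Agent.R238.Sch (ee)

noncomputable section

theorem finrank_cn (n : ℕ) : Module.finrank ℝ (Cn n) = 2 * n := by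
  have h : Module.finrank ℝ (Cn n) = 2 * Module.finrank ℂ (Cn n) := finrank_real_of_complex (Cn n)
  rw [h, finrank_euclideanSpace_fin]

section hol

variable {n : ℕ} {X : Type} [TopologicalSpace X] [CompactSpace X] [T2Space X]
  {C : RCh (Cn (2 * n)) X} {H : HkT C}

/-- holomorphic atlas of `J k` -/
theorem exists_atlK (H : HkT C) (k : Fin 3) : ∃ A : Atl (2 * n) X, Cp (H.acm k) A := by
  obtain ⟨A, -, -, -, -, -, h4⟩ := exists_atl
    (Crest.Agent.R260.NN6_900.nnat (2 * n) (Cn (2 * n)) (finrank_cn _)) (H.acm_int k) (κ := Unit)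
    (fun _ => (univ : Set X)) (fun _ => isOpen_univ) (fun x => ⟨(), mem_univ x⟩)
  exact ⟨A, h4⟩

theorem hJ1 {A : Atl (2 * n) X} (hA : Cp (H.acm 1) A) {i : A.ι} {z : Cn (2 * n)}
    (hz : z ∈ (A.e i).target) (u v : Cn (2 * n)) :
    ((cmp_of_cp hA).F (H.om 0)).w i z (I • u) v = ((cmp_of_cp hA).F (H.om 2)).w i z u v := by
  have h1 := (((cmp_of_cp hA).hk H).om_J (k := 1) (l := 2) (m := 0)
    (Or.inr (Or.inl rfl)) (i := i) hz u v).2
  rw [hk_J_I hA i hz u] at h1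
  exact h1

theorem pull_smul' {V₁ : Type} [NormedAddCommGroup V₁] [NormedSpace ℝ V₁] {C : RCh V₁ X}
    {E : Type} [NormedAddCommGroup E] [NormedSpace ℝ E]
    (c : ℝ) (a : F2 C) (Φ : E → X) (ζ : E) : pull (c • a) Φ ζ = c • pull a Φ ζ := by
  ext u v
  exact Per_368.pull_smul_w c a Φ ζ u v

/-- `TubeD` in the charts of `C` -/
theorem tubeD_C {A : Atl (2 * n) X} {hp : Cp (H.acm 0) A} {L Λ δ R : ℝ} (hR : 0 < R)
    {Θ : W (2 * n) → X}
    (t : TubeD (ofAtl A) (L • (cmp_of_cp hp).F (H.om 0)) (L • (cmp_of_cp hp).F (H.om 2))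
      (2 * n) R Λ δ Θ) : TubeD C (L • H.om 0) (L • H.om 2) (2 * n) R Λ δ Θ := by
  have hs0 : SmI C (tube (2 * n) R) Θ := smI_cmp (cmp_of_cp hp) t.sm
  have ep : ∀ (k : Fin 3), ∀ p ∈ tube (2 * n) R, pull (L • H.om k) Θ p =
      pull (L • (cmp_of_cp hp).F (H.om k)) Θ p := by
    intro k p hpp
    rw [pull_smul', pull_smul', pull_cmp' (cmp_of_cp hp) hs0 _ hpp]
  exact tubeD_tr (cmp_of_cp hp).symm hR t (ep 0) (ep 2)

/-- **HolTube from the tube coordinates** -/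
theorem holTube_of_tubeD {A : Atl (2 * n) X} {hp : Cp (H.acm 0) A} {L Λ δ R0 : ℝ} (hL : 0 < L)
    (hR0 : 0 < R0) {Θ : W (2 * n) → X}
    (hδ : ∀ x y : Mc673.Fo (2 * n), Hyp (2 * R0) Λ δ x y →
      ∃ a, Tori (2 * n) (2 * R0) R0 (1 / 2) x y a)
    (t : TubeD (ofAtl A) (L • (cmp_of_cp hp).F (H.om 0)) (L • (cmp_of_cp hp).F (H.om 2))
      (2 * n) (2 * R0) Λ δ Θ) :
    ∃ (D : Set (Cn n)) (Φ : Cn n × Cn n → X) (lt : Fin (2 * n) → Cn n → Cn n)
      (τ : Cn n → Cn n → Cn n → ℂ), HolTube C (H.J 1) (H.om 2) (H.om 0) n D Φ lt τ ∧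
      ∀ y ∈ D, ∀ x, Φ (y, x) ∈ Θ '' tube (2 * n) (2 * R0) := by
  have hR : 0 < 2 * R0 := by linarith
  obtain ⟨A1, hA1⟩ := exists_atlK H 1
  have hs0 : SmI C (tube (2 * n) (2 * R0)) Θ := smI_cmp (cmp_of_cp hp) t.sm
  have t0 : TubeD C (L • H.om 0) (L • H.om 2) (2 * n) (2 * R0) Λ δ Θ := tubeD_C (hp := hp) hR t
  have t1 : TubeD (ofAtl A1) (L • (cmp_of_cp hA1).F (H.om 0)) (L • (cmp_of_cp hA1).F (H.om 2))
      (2 * n) (2 * R0) Λ δ Θ := by
    refine tubeD_tr (cmp_of_cp hA1) hR t0 (fun p hpp => ?_) (fun p hpp => ?_)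
    · rw [pull_smul', pull_smul', pull_cmp' (cmp_of_cp hA1) hs0 _ hpp]
    · rw [pull_smul', pull_smul', pull_cmp' (cmp_of_cp hA1) hs0 _ hpp]
  have t2 := tubeD_neg t1
  obtain ⟨a, ha⟩ := hδ _ _ (hyp_tubeD t2)
  obtain ⟨ρ, U, f, hf, hf0, hUs, -⟩ := Tub_57.tube_hol t2 (fun i z hz u v => by
    show L * _ = - - (L * _)
    rw [neg_neg]
    congr 1
    exact hJ1 hA1 hz u v) ha le_rfl rfl (c0 := 0) (by simpa using hR0)
  have hUt : U ⊆ Θ '' tube (2 * n) (2 * R0) := by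
    refine hUs.trans (image_mono ?_)
    rintro p ⟨c, hc, hcp⟩
    have hc' : ‖c‖ ≤ R0 := (mem_ball_zero_iff.1 hc).le
    show ‖p.2‖ < 2 * R0
    rw [← hcp]
    exact ha.lt c hc' p.1
  obtain ⟨x0, hx0U, hx0⟩ := hf.ne 0 (by simpa using hf.pos)
  let U' : TopologicalSpace.Opens X := ⟨U, hf.op⟩
  have hlag : ∀ i, ∀ x ∈ (A1.e i).source, x ∈ U' → ∀ u v,
      fderiv ℂ (fun z => f ((A1.e i).symm z)) (A1.e i x) u = 0 →
      fderiv ℂ (fun z => f ((A1.e i).symm z)) (A1.e i x) v = 0 →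
      ((cmp_of_cp hA1).F (H.om 2)).w i (A1.e i x) u v = 0 ∧
      ((cmp_of_cp hA1).F (H.om 0)).w i (A1.e i x) u v = 0 := by
    intro i x hx hxU u v hu hv
    obtain ⟨h1, h2⟩ := hf.lag i x hx hxU u v hu hv
    have h1' : L * ((cmp_of_cp hA1).F (H.om 0)).w i (A1.e i x) u v = 0 := h1
    have h2' : -(L * ((cmp_of_cp hA1).F (H.om 2)).w i (A1.e i x) u v) = 0 := h2
    rw [neg_eq_zero] at h2'
    exact ⟨(mul_eq_zero.1 h2').resolve_left hL.ne', (mul_eq_zero.1 h1').resolve_left hL.ne'⟩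
  have hlf := lagF_of (H := H) (k := 1) (l := 2) (m := 0) (Or.inr (Or.inl rfl)) hA1
    (U := U') (f := f) hf.hol hf.surj hlag
  obtain ⟨D, Φ, lt, τ, h1, h2, -, -⟩ := exists_holTube (H := H) (k := 1) (l := 2) (m := 0)
    (Or.inr (Or.inl rfl)) hA1 hlf (x0 := x0) (T := {x | x ∈ U ∧ f x = 0}) ⟨hx0U, hx0⟩
    (hf.cpt 0 (by simpa using hf.pos)) (hf.con 0 (by simpa using hf.pos)) (fun x hx => hx.1)
    (fun x hx => by rw [hx.2, hx0]) (O := univ) isOpen_univ (subset_univ _)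
    (fun x _ hxU hx => ⟨hxU, by rw [hx, hx0]⟩)
  exact ⟨D, Φ, lt, τ, h1, fun y hy x => hUt (h2 y hy x).1⟩

/-- periods read in other charts -/
theorem per_cmp {A : Atl (2 * n) X} (h : Cmp C (ofAtl A)) {R : ℝ} {Θ : W (2 * n) → X}
    (hs : SmI C (tube (2 * n) R) Θ) (v : F2 C) {p : W (2 * n)} (hpp : p ∈ tube (2 * n) R)
    (j k : Fin (2 * n)) :
    Per_368.per (pull v Θ) p ((ee j, 0) : W (2 * n)) ((ee k, 0) : W (2 * n)) =
      Per_368.per (pull (h.F v) Θ) p ((ee j, 0) : W (2 * n)) ((ee k, 0) : W (2 * n)) := by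
  unfold Per_368.per
  refine intervalIntegral.integral_congr fun s _ => intervalIntegral.integral_congr fun r _ => ?_
  have hm : Per_368.pt p ((ee j, 0) : W (2 * n)) ((ee k, 0) : W (2 * n)) s r ∈
      tube (2 * n) R := by
    show ‖(Per_368.pt p ((ee j, 0) : W (2 * n)) ((ee k, 0) : W (2 * n)) s r).2‖ < R
    have : (Per_368.pt p ((ee j, 0) : W (2 * n)) ((ee k, 0) : W (2 * n)) s r).2 = p.2 := by
      simp [Per_368.pt]
    rw [this]
    exact hpp
  exact congrArg (fun T : W (2 * n) →L[ℝ] W (2 * n) →L[ℝ] ℝ => T (ee j, 0) (ee k, 0))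
    (pull_cmp' h hs v hm).symm

/-- **HolTube and zero periods from the tube of a member** -/
theorem holTube_of_mtub {Q : F2 C →ₗ[ℝ] F2 C →ₗ[ℝ] ℝ} {e : F2 C} {A : Atl (2 * n) X}
    {hp : Cp (H.acm 0) A} {L Λ δ R0 : ℝ} {hL : 0 < L} (hR0 : 0 < R0) {Θ : W (2 * n) → X}
    (hδ : ∀ x y : Mc673.Fo (2 * n), Hyp (2 * R0) Λ δ x y →
      ∃ a, Tori (2 * n) (2 * R0) R0 (1 / 2) x y a)
    (t : Mtub H {v | Q v e = 0} (2 * R0) Λ δ A hp L hL Θ) :
    ∃ (D : Set (Cn n)) (Φ : Cn n × Cn n → X) (lt : Fin (2 * n) → Cn n → Cn n)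
      (τ : Cn n → Cn n → Cn n → ℂ), HolTube C (H.J 1) (H.om 2) (H.om 0) n D Φ lt τ ∧
      PVT Q e D Φ lt ∧ ∀ y ∈ D, ∀ x, Φ (y, x) ∈ Θ '' tube (2 * n) (2 * R0) := by
  have hR : 0 < 2 * R0 := by linarith
  have t0 := tubeD_C (hp := hp) hR t.tub
  obtain ⟨D, Φ, lt, τ, h1, h2⟩ := holTube_of_tubeD (hp := hp) hL hR0 hδ t.tub
  refine ⟨D, Φ, lt, τ, h1, ?_, h2⟩
  refine pvt_of_exOn h1 t0.toO.isOpen h2 fun v hv => ?_
  refine t0.toO.exOn_per hR fun j k θ => ?_
  have hm : ((θ, 0) : W (2 * n)) ∈ tube (2 * n) (2 * R0) := by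
    show ‖(0 : Mc673.V (2 * n))‖ < _
    rw [norm_zero]
    exact hR
  rw [per_cmp (cmp_of_cp hp) t0.sm v hm]
  exact t.per v hv _ hm j k

/-- **Tub from the tube of a member and an isomorphism** -/
theorem tub_of_mtub {Q : F2 C →ₗ[ℝ] F2 C →ₗ[ℝ] ℝ} (hX : Ctx n C Q) {e : F2 C} {H' : HkT C}
    (hpos : 0 < Q (H'.om 0) (H'.om 0)) (hiso : IsoId (ofHk H' 0) (ofHk H 1)) {A : Atl (2 * n) X}
    {hp : Cp (H.acm 0) A} {L Λ δ R0 : ℝ} {hL : 0 < L} (hR0 : 0 < R0) {Θ : W (2 * n) → X}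
    (hδ : ∀ x y : Mc673.Fo (2 * n), Hyp (2 * R0) Λ δ x y →
      ∃ a, Tori (2 * n) (2 * R0) R0 (1 / 2) x y a)
    (t : Mtub H {v | Q v e = 0} (2 * R0) Λ δ A hp L hL Θ) : Tub_831.Tub n C Q e H' := by
  obtain ⟨D, Φ, lt, τ, h1, h2, -⟩ := holTube_of_mtub hR0 hδ t
  obtain ⟨g, k, hb, hg, hid⟩ := hiso
  exact tub_of_iso hX.ex (hX.uniq H' hpos) hX.n1 hb hg hid
    (fun i z hz u v => (H.om_J (k := 1) (l := 2) (m := 0) (Or.inr (Or.inl rfl)) hz u v).1) h1 h2

end hol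

/-! ### the node -/

/-- value of the parameter `Tub` of the nodes -/
def TubV : TubTT := fun n _ _ _ _ _ C Q e H => Tub_831.Tub n C Q e H

/-- output of SDAT-RAY for the predicate `Alg` (273) -/
def SdatP (Alg : AlgTT) : Prop :=
  ∀ (n : ℕ) (X : Type) [TopologicalSpace X] [CompactSpace X] [T2Space X]
    [SimplyConnectedSpace X] (C : RCh (Cn (2 * n)) X) (Q : F2 C →ₗ[ℝ] F2 C →ₗ[ℝ] ℝ), Ctx n C Q →
    ∀ (F : Frm C Q) (A : F2 C) (K : Cusp F A), Alg n X C Q F A K →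
    ∀ [MeasurableSpace X] [BorelSpace X], (∃ τ H, MemN K τ H) → SdatEnd K

/-- **the node `ToriP`** -/
theorem toriP_of (Alg : AlgTT) (hS : SdatP Alg) : ToriP Alg TubV := by
  intro n X _ _ _ _ C Q hX H0 L0 e hG B R x hx hE
  let _ : MeasurableSpace X := borel X
  have : BorelSpace X := ⟨rfl⟩
  have hAe : Q R.A R.F.e = 0 := R.Ae
  obtain ⟨Λ, hΛ, hcore⟩ := core_ray_of hX R.K hAe (hS n X C Q hX R.F R.A R.K R.alg) |x|
  obtain ⟨δ, hδ, hT⟩ := toriR (2 * n) Λ (1 / 2) 1 hΛ (by norm_num) one_pos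
  obtain ⟨Y1, hY⟩ := hcore (2 * 1) δ (by norm_num) hδ
  obtain ⟨K, -, hK⟩ := hE
  obtain ⟨t, ht⟩ : ∃ t : ℝ, Y1 < R.K.Y + Real.exp t := by
    obtain ⟨t, ht⟩ := (Real.tendsto_exp_atTop.eventually_gt_atTop (Y1 - R.K.Y)).exists
    exact ⟨t, by linarith⟩
  obtain ⟨hm, hiso⟩ := hK t
  obtain ⟨A', -, -, -, hp, L, hL, Θ, hMt⟩ := hY ⟨x, R.K.Y + Real.exp t⟩ le_rfl ht (K t) hm
  rw [R.Fe] at hMt
  exact tub_of_mtub hX (B.pos2 R.a R.aB (R.c x) hx) hiso one_pos hT hMt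

end

end Crest.Agent.R281.Tp_836
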