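import Crest.Agent.R281.Mvs5_713
import Crest.Agent.R281.Rg5_676
import Crest.Agent.R281.Centre_474_Mg
import Crest.Agent.R281.Tp6_836
import Crest.Agent.R281.Cr4_808
import Crest.Agent.R281.TubT_831
import Crest.Agent.R281.Kas2_975
import Crest.Agent.R260.NNB2_580
import Crest.Agent.R281.Deg2_751
import Crest.Agent.R281.Defs_273
import Crest.Agent.R281.Sc3_413
import Crest.Agent.R275.Pic_293
import Crest.Agent.R275.Del_75
import Crest.Agent.R275.Cz1_632
import Crest.Agent.R281.Ti5_846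
import Crest.Agent.R281.Kd10_22
import Crest.Agent.R281.Kd6_22
import Crest.Agent.R281.RkD_902
import Crest.Agent.R281.Mov7_625
import Crest.Agent.R281.SkM2_474
import Crest.Agent.R281.Nef4_252
import Crest.Agent.R281.Kb1_565
import Crest.Agent.R281.Pjx4_648
import Crest.Agent.R281.Nef3_252
import Crest.Agent.R281.Sk0_474
import Crest.Agent.R273.KahI_645
import Crest.Agent.R281.Pjx2_648
import Crest.Agent.R281.AlgDefs_998
import Crest.Agent.R281.RkE_902
import Crest.Agent.R281.Qt1_922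
import Crest.Agent.R273.PB_835
import Crest.Agent.R281.KapD_975
import Crest.Agent.R281.Kas4_975
import Crest.Agent.R281.Tp1_836
import Crest.Agent.R281.Rank281_902

-- ▼ part R281/Mvs6_713
section

/-!
# Row 281 (helper713): the node SEMI

`semiP : SemiP` (RkD_902, T8), from `nonempty_mvOut` (Mvs5) and `semiP_of_mv` (676, 986, 323, 409).
-/

set_option autoImplicit false

namespace Crest.Agent.R281.Mvs_713

theorem mvP : Crest.Agent.R281.SmC_986.MvP :=
  fun _ _ _ _ _ _ _ _ hC _ _ _ _ hG hT hg => nonempty_mvOut hC hG hT hg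

/-- **(T8) SEMI along one move** -/
theorem semiP : Crest.Agent.R281.RkD_902.SemiP := Crest.Agent.R281.Rg_676.semiP_of_mv mvP

end Crest.Agent.R281.Mvs_713
end

-- ▼ part R281/Sk7_474
section

/-!
# R281 (S0424), SKEL281 (helper474): the current top

Closed here: `ToriP` (836, 808, 273, ...), `SemiP` (713, 323, 676, ...), `CentreP`.
-/

set_option autoImplicit false
set_option linter.unusedSectionVars false

namespace Crest.Agent.R281.Sk_474

open Crest.Agent.R281.Defs_273 Crest.Agent.R281.RkD_902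

/-- SDAT-RAY (273, 808) -/
theorem sdatM : Tp_836.SdatP AlgM := by
  intro n X _ _ _ _ C Q hX F A K hA _ _ h
  obtain ⟨a⟩ := hA
  exact Cr_808.sdatEnd hX K a h

/-- the node `ToriP` -/
theorem toriM : ToriP AlgM TubM := Tp_836.toriP_of AlgM sdatM


end Crest.Agent.R281.Sk_474
end

-- ▼ part R281/Kas5_975
section

/-!
# Row 281, KAPPA-1 assembly, part 5 (helper975): from 831's `HolTube` to 22's `HTube`

* `an_hol`   : `Ψ` is holomorphic in the charts of an atlas with `Cp (H.acm k) A`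
* `bij_hol`  : its complex differential is bijective
* `htube`    : the tube `HTube A (Cn n) (Cn n)`, `P (c, b) = Ψ (b, c)`
-/

set_option autoImplicit false
set_option linter.unusedSectionVars false
set_option maxSynthPendingDepth 3

open Set Filter Topology Complex
open scoped ContDiff

namespace Crest.Agent.R281.Kas_975

open Crest.Agent.R275.Geo Crest.Agent.R275.Core144
open Crest.Agent.R281.HkR_835 Crest.Agent.R281.Ti_846 Crest.Agent.R281.Tub_831
open Crest.Agent.R281.Per_368 (SmI pull per)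
open Crest.Agent.R260.ACM_580 Crest.Agent.R260.NNB_580
open Crest.Agent.R281.Kd_22

noncomputable section

variable {V X : Type} [NormedAddCommGroup V] [NormedSpace ℝ V] [TopologicalSpace X]
  {C : RCh V X} {n : ℕ} {H : HkT C} {k : Fin 3} {A : Atl (2 * n) X}
  {w w' : F2 C} {D : Set (Cn n)} {Ψ : Cn n × Cn n → X} {l : Fin (2 * n) → Cn n → Cn n}
  {τ : Cn n → Cn n → Cn n → ℂ}

section

variable (hA : Cp (H.acm k) A) (hT : HolTube C (H.J k) w w' n D Ψ l τ)
include hA hT

/-- the chart expression in `A` through a chart of `C` -/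
theorem ev_chart {p : Cn n × Cn n} (hp : p.1 ∈ D) {j : C.ι} (hj : Ψ p ∈ (C.e j).source) (i : A.ι) :
    (fun q => A.e i (Ψ q)) =ᶠ[𝓝 p] fun q => (fun z => A.e i ((C.e j).symm z)) (C.e j (Ψ q)) := by
  filter_upwards [(hT.sm.isOpen_pre (C.e j).open_source).mem_nhds ⟨⟨hp, mem_univ _⟩, hj⟩] with q hq
  have : Ψ q ∈ (C.e j).source := hq.2
  simp only [(C.e j).left_inv this]

theorem hasF {p : Cn n × Cn n} (hp : p.1 ∈ D) {j : C.ι} (hj : Ψ p ∈ (C.e j).source) {i : A.ι}
    (hi : Ψ p ∈ (A.e i).source) :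
    HasFDerivAt (fun q => A.e i (Ψ q))
      ((fderiv ℝ (fun z => A.e i ((C.e j).symm z)) (C.e j (Ψ p))).comp
        (fderiv ℝ (fun q => C.e j (Ψ q)) p)) p := by
  have hz : C.e j (Ψ p) ∈ ovr (H.acm k) j (A.e i) :=
    mem_ovr_of_source (C := H.acm k) (φ := A.e i) hi hj
  have h1 : DifferentiableAt ℝ (fun z => A.e i ((C.e j).symm z)) (C.e j (Ψ p)) :=
    (hA i).diffAt hz
  have h2 : DifferentiableAt ℝ (fun q => C.e j (Ψ q)) p :=
    hT.sm.diffAt (ζ := p) ⟨hp, mem_univ _⟩ hj
  have h3 := HasFDerivAt.comp p (g := fun z => A.e i ((C.e j).symm z)) (f := fun q => C.e j (Ψ q))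
    h1.hasFDerivAt h2.hasFDerivAt
  exact h3.congr_of_eventuallyEq (ev_chart hA hT hp hj i)

theorem diff_hol {p : Cn n × Cn n} (hp : p.1 ∈ D) {i : A.ι} (hi : Ψ p ∈ (A.e i).source) :
    DifferentiableAt ℂ (fun q => A.e i (Ψ q)) p := by
  obtain ⟨j, hj⟩ := C.cover (Ψ p)
  have h3 := hasF hA hT hp hj hi
  have hz : C.e j (Ψ p) ∈ ovr (H.acm k) j (A.e i) :=
    mem_ovr_of_source (C := H.acm k) (φ := A.e i) hi hj
  refine differentiableAt_of_real h3.differentiableAt fun v => ?_
  rw [h3.fderiv]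
  simp only [ContinuousLinearMap.comp_apply]
  rw [hT.hol p hp j hj v]
  exact (hA i).lin j _ hz _

theorem an_hol {p : Cn n × Cn n} (hp : p.1 ∈ D) {i : A.ι} (hi : Ψ p ∈ (A.e i).source) :
    AnalyticAt ℂ (fun q => A.e i (Ψ q)) p := by
  have hO : IsOpen ((D ×ˢ univ) ∩ Ψ ⁻¹' (A.e i).source) := hT.sm.isOpen_pre (A.e i).open_source
  have h1 : DifferentiableOn ℂ (fun q => A.e i (Ψ q)) ((D ×ˢ univ) ∩ Ψ ⁻¹' (A.e i).source) :=
    fun q hq => (diff_hol hA hT hq.1.1 hq.2).differentiableWithinAt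
  exact Crest.Agent.R266.SCV.analyticOnNhd_of_differentiableOn hO h1 p ⟨⟨hp, mem_univ _⟩, hi⟩

theorem inj_hol {p : Cn n × Cn n} (hp : p.1 ∈ D) {i : A.ι} (hi : Ψ p ∈ (A.e i).source) :
    Function.Injective (fderiv ℂ (fun q => A.e i (Ψ q)) p) := by
  obtain ⟨j, hj⟩ := C.cover (Ψ p)
  have h3 := hasF hA hT hp hj hi
  have hz : C.e j (Ψ p) ∈ ovr (H.acm k) j (A.e i) :=
    mem_ovr_of_source (C := H.acm k) (φ := A.e i) hi hj
  have h4 := (diff_hol hA hT hp hi).fderiv_restrictScalars ℝ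
  have h5 : ∀ u, fderiv ℂ (fun q => A.e i (Ψ q)) p u =
      fderiv ℝ (fun z => A.e i ((C.e j).symm z)) (C.e j (Ψ p))
        (fderiv ℝ (fun q => C.e j (Ψ q)) p u) := fun u => by
    have := congrArg (fun T => T u) h4
    rw [h3.fderiv] at this
    exact this.symm
  intro u v huv
  rw [h5 u, h5 v] at huv
  have hinj : ∀ a b : V, fderiv ℝ (fun z => A.e i ((C.e j).symm z)) (C.e j (Ψ p)) a =
      fderiv ℝ (fun z => A.e i ((C.e j).symm z)) (C.e j (Ψ p)) b → a = b := by
    intro a b hab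
    have e1 := (hA i).inv_right hz a
    have e2 := (hA i).inv_right hz b
    have e3 : fderiv ℝ (fun z => A.e i (((H.acm k).e j).symm z)) (C.e j (Ψ p)) a =
      fderiv ℝ (fun z => A.e i (((H.acm k).e j).symm z)) (C.e j (Ψ p)) b := hab
    rw [← e1, e3, e2]
  exact hT.inj p hp j hj (hinj _ _ huv)

theorem bij_hol {p : Cn n × Cn n} (hp : p.1 ∈ D) {i : A.ι} (hi : Ψ p ∈ (A.e i).source) :
    Function.Bijective (fderiv ℂ (fun q => A.e i (Ψ q)) p) := by
  have h1 := inj_hol hA hT hp hi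
  refine ⟨h1, ?_⟩
  have hd : Module.finrank ℂ (Cn n × Cn n) = Module.finrank ℂ (Cn (2 * n)) := by
    rw [Module.finrank_prod, finrank_euclideanSpace_fin, finrank_euclideanSpace_fin]
    omega
  exact (LinearMap.injective_iff_surjective_of_finrank_eq_finrank hd
    (f := (fderiv ℂ (fun q => A.e i (Ψ q)) p : (Cn n × Cn n) →ₗ[ℂ] Cn (2 * n)))).1 h1

end

/-- **the tube `HTube`** of a tube of tori, over an open subset of the base -/
def htube (hA : Cp (H.acm k) A) (hT : HolTube C (H.J k) w w' n D Ψ l τ) (O : Set (Cn n))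
    (hO : IsOpen O) (hOD : O ⊆ D) : HTube A (Cn n) (Cn n) :=
  HTube.ofChart (fun q => Ψ (q.2, q.1)) O hO
    (fun p hp => by
      have h1 : ContinuousAt Ψ (p.2, p.1) :=
        hT.sm.cont.continuousAt (hT.sm.op.mem_nhds ⟨hOD hp, mem_univ _⟩)
      have h2 : ContinuousAt (fun q : Cn n × Cn n => (q.2, q.1)) p := by fun_prop
      exact ContinuousAt.comp (g := Ψ) (f := fun q : Cn n × Cn n => (q.2, q.1)) h1 h2)
    (fun p hp i hi => by
      have h1 : AnalyticAt ℂ (fun q => A.e i (Ψ q)) (p.2, p.1) :=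
        an_hol hA hT (p := (p.2, p.1)) (hOD hp) hi
      have h2 : AnalyticAt ℂ (fun q : Cn n × Cn n => (q.2, q.1)) p := analyticAt_snd.prod analyticAt_fst
      exact AnalyticAt.comp (g := fun q => A.e i (Ψ q)) (f := fun q : Cn n × Cn n => (q.2, q.1))
        h1 h2)
    (fun p hp i hi => by
      have h1 := bij_hol hA hT (p := (p.2, p.1)) (hOD hp) hi
      have h2 : fderiv ℂ (fun q : Cn n × Cn n => A.e i (Ψ (q.2, q.1))) p =
          (fderiv ℂ (fun q => A.e i (Ψ q)) (p.2, p.1)).comp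
            ((ContinuousLinearEquiv.prodComm ℂ (Cn n) (Cn n) :
              (Cn n × Cn n) ≃L[ℂ] (Cn n × Cn n)) : (Cn n × Cn n) →L[ℂ] (Cn n × Cn n)) := by
        have h3 := (diff_hol hA hT (p := (p.2, p.1)) (hOD hp) hi).hasFDerivAt
        have h4 : HasFDerivAt (fun q : Cn n × Cn n => (q.2, q.1))
            ((ContinuousLinearEquiv.prodComm ℂ (Cn n) (Cn n) :
              (Cn n × Cn n) ≃L[ℂ] (Cn n × Cn n)) : (Cn n × Cn n) →L[ℂ] (Cn n × Cn n)) p :=
          (ContinuousLinearEquiv.prodComm ℂ (Cn n) (Cn n)).hasFDerivAt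
        exact (HasFDerivAt.comp p (g := fun q => A.e i (Ψ q))
          (f := fun q : Cn n × Cn n => (q.2, q.1)) h3 h4).fderiv
      rw [h2]
      exact h1.comp (ContinuousLinearEquiv.prodComm ℂ (Cn n) (Cn n)).bijective)

@[simp] theorem htube_P (hA : Cp (H.acm k) A) (hT : HolTube C (H.J k) w w' n D Ψ l τ)
    (O : Set (Cn n)) (hO : IsOpen O) (hOD : O ⊆ D) (c b : Cn n) :
    (htube hA hT O hO hOD).P (c, b) = Ψ (b, c) := rfl

@[simp] theorem htube_Om (hA : Cp (H.acm k) A) (hT : HolTube C (H.J k) w w' n D Ψ l τ)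
    (O : Set (Cn n)) (hO : IsOpen O) (hOD : O ⊆ D) : (htube hA hT O hO hOD).Om = O := rfl

end

end Crest.Agent.R281.Kas_975
end

-- ▼ part R281/Deg3_751
section

/-!
# R281, S6-DEG (helper751), part 3: the degree of a line bundle with respect to a Kaehler form

`deg P K h = ∫ tr (adj g · cur h)` (`= ∫ tr_K Θ dvol_K`, `deg_eq`), `h : HM L`:
* `deg_indep`     : independent of the metric
* `deg_mul`, `deg_pow`, `deg_inv`
* `deg_nonneg`    : `L` has a nonzero section
* `deg_pos`       : `L` has two non-proportional sections (`deg_pos_of_wr` : nonzero Wronskian)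
* `deg_nef`       : `L` nef ==> `0 ≤ deg`
* `deg_curv_pos`  : positive curvature ==> `0 < deg`
-/

set_option autoImplicit false
set_option linter.unusedSectionVars false
set_option linter.style.haveILetI false

open Set Filter Topology Complex MeasureTheory
open scoped ContDiff Matrix ComplexConjugate ComplexOrder

namespace Crest.Agent.R281.Deg_751

open Crest.Agent.R275 Crest.Agent.R275.Geo Crest.Agent.R275.Core144 Crest.Agent.R275.EDR890
open Crest.Agent.R275.Pai323 Crest.Agent.R275.SerG398 Crest.Agent.R275.C1d194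
open Crest.Agent.R273.Defs_333 (HM HM.wt HM.Pos)
open Crest.Agent.R273.Hess_333 Crest.Agent.R273.HessB_333
open Crest.Agent.R273.HM_333 Crest.Agent.R273.Kah_333 Crest.Agent.R273.Vol_333
open Crest.Agent.R273.Vm_333 Crest.Agent.R273.FIa0_597 Crest.Agent.R273.FIb0_597
open Crest.Agent.R273.StV_37 (totc)
open Crest.Agent.R273.StokesV_332 (intD intD_congr intD_add intD_smul offK_univ)
open Crest.Agent.R273.SteinC_794 Crest.Agent.R273.SteinD_794 Crest.Agent.R273.SteinL_794

noncomputable section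

variable {n : ℕ} {M : Type} [TopologicalSpace M] {A : Atl n M} {L L' : LB A}

/-! ### the open set where the lower bound is effective -/

theorem cont_Wv {m : ℕ} {s : Fin m → A.ι → M → ℂ} (hs : ∀ k, IsHS L univ (s k)) (i : A.ι)
    (k l : Fin m) (a : Fin n) : ContinuousOn (fun z => Wv s i z k l a) (A.e i).target := by
  intro z hz
  have h1 := anal_sec (hs k) i hz
  have h2 := anal_sec (hs l) i hz
  unfold Wv Wr
  exact ((h1.continuousAt.mul (h2.fderiv.continuousAt.clm_apply continuousAt_const)).sub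
    (h2.continuousAt.mul (h1.fderiv.continuousAt.clm_apply continuousAt_const))).continuousWithinAt

theorem cont_lowb {m : ℕ} (K : Kah A) (h : HM L) {s : Fin m → A.ι → M → ℂ}
    (hs : ∀ k, IsHS L univ (s k)) (k l : Fin m) (i : A.ι) :
    ContinuousOn (fun z => lowb K h s k l i ((A.e i).symm z)) (A.e i).target := by
  have h1 : ContinuousOn (fun z => cc0 h s i ((A.e i).symm z) *
      (∑ a, ∑ b, (K.g i ((A.e i).symm z))⁻¹ a b *
        (Wv s i z k l b * conj (Wv s i z k l a))).re) (A.e i).target := by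
    refine ContinuousOn.mul ?_ (Complex.continuous_re.comp_continuousOn ?_)
    · have hw : ContinuousOn (fun z => h.w i ((A.e i).symm z)) (A.e i).target :=
        (h.sm i).continuousOn
      have hq : ContinuousOn (fun z => Qf h s ((A.e i).symm z)) (A.e i).target :=
        (sm_Qf h hs i).continuousOn
      refine (hw.pow 2).div (continuousOn_const.mul ((continuousOn_const.add hq).pow 2))
        fun z _ => ?_
      have := Qf_nonneg h s ((A.e i).symm z)
      positivity
    · refine continuousOn_finsetSum _ fun a _ => continuousOn_finsetSum _ fun b _ => ?_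
      exact ((smAt_inv K i a b).continuousOn).mul ((cont_Wv hs i k l b).mul
        (Complex.continuous_conj.comp_continuousOn (cont_Wv hs i k l a)))
  refine h1.congr fun z hz => ?_
  simp only [lowb_eq]
  rw [(A.e i).right_inv hz]

theorem exists_low {m : ℕ} (K : Kah A) (h : HM L) {s : Fin m → A.ι → M → ℂ}
    (hs : ∀ k, IsHS L univ (s k)) {k l : Fin m} {i : A.ι} {z : Cn n} (hz : z ∈ (A.e i).target)
    (hW : Wv s i z k l ≠ 0) :
    ∃ U : Set M, IsOpen U ∧ U.Nonempty ∧ ∃ c : ℝ, 0 < c ∧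
      ∀ ε : ℝ, 0 < ε → ε ≤ 1 → ∀ x ∈ U, c ≤ TT K h s ε x := by
  have hx := (A.e i).map_target hz
  have hp : 0 < lowb K h s k l i ((A.e i).symm z) :=
    lowb_pos K h s hx (by rwa [(A.e i).right_inv hz])
  set c := lowb K h s k l i ((A.e i).symm z) / 2 with hc
  have hV : IsOpen ((A.e i).target ∩ (fun z => lowb K h s k l i ((A.e i).symm z)) ⁻¹' Ioi c) :=
    (cont_lowb K h hs k l i).isOpen_inter_preimage (A.e i).open_target isOpen_Ioi
  refine ⟨_, (A.e i).isOpen_inter_preimage hV, ⟨(A.e i).symm z, hx, ?_⟩, c, by positivity,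
    fun ε hε hε1 x hxU => ?_⟩
  · rw [mem_preimage, (A.e i).right_inv hz]
    refine ⟨hz, ?_⟩
    show c < lowb K h s k l i ((A.e i).symm z)
    rw [hc]
    linarith
  · have h2 : c < lowb K h s k l i ((A.e i).symm (A.e i x)) := hxU.2.2
    rw [(A.e i).left_inv hxU.1] at h2
    exact h2.le.trans (TT_ge K h hs hε hε1 k l hxU.1)

/-! ### the degree -/

/-- the degree of `L` with respect to `K`, computed with the metric `h` -/
def deg (P : Part A) (K : Kah A) (h : HM L) : ℝ :=
  (intD P fun i x => ((K.g i x).adjugate * cur h i x).trace).re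

section mass

variable [T2Space M] [CompactSpace M] [Fintype A.ι] [MeasurableSpace M] [BorelSpace M]

theorem integrable_trM (K : Kah A) {S : A.ι → M → Matrix (Fin n) (Fin n) ℂ} (hS : TF A S)
    (h : HM (KB A)⁻¹) : Integrable (trM K S) (vm h) := by
  have := isFinite_vm h
  obtain ⟨C, hC⟩ := isCompact_univ.exists_bound_of_continuousOn (cont_trM K hS).continuousOn
  exact Integrable.of_bound (cont_trM K hS).measurable.aestronglyMeasurable C
    (Eventually.of_forall fun x => hC x (mem_univ x))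

theorem deg_eq (P : Part A) (K : Kah A) (h : HM L) :
    deg P K h = ∫ x, trM K (cur h) x ∂(vm (volK K)) := by
  have hT := tf_cur (A := A) h
  have hGc : Continuous (fun x => trC K (cur h) (ch A x) x) := sm_continuous (smC_trC K hT)
  have h1 : ∫ x, trC K (cur h) (ch A x) x ∂(vm (volK K)) =
      totc P (fun i x => ((K.g i x).adjugate * cur h i x).trace) := by
    refine int_eq_totc P (volK K) hGc fun i x hx => ?_
    rw [trC_indep K hT ⟨mem_ch A x, hx⟩, volK_w K i hx, trC_det K _ hx]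
  have h2 : Integrable (fun x => trC K (cur h) (ch A x) x) (vm (volK K)) := by
    have := isFinite_vm (volK K)
    obtain ⟨C, hC⟩ := isCompact_univ.exists_bound_of_continuousOn hGc.continuousOn
    exact Integrable.of_bound hGc.measurable.aestronglyMeasurable C
      (Eventually.of_forall fun x => hC x (mem_univ x))
  have h3 : ∫ x, trM K (cur h) x ∂(vm (volK K)) =
      (∫ x, trC K (cur h) (ch A x) x ∂(vm (volK K))).re := integral_re h2
  rw [h3, h1, totc_eq_sum]
  unfold deg
  rw [intD, finsum_eq_sum_of_fintype]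

theorem int_Lap0 (P : Part A) (K : Kah A) {f : M → ℝ} (hf : A.Sm f) :
    ∫ x, Lap K f x ∂(vm (volK K)) = 0 :=
  int_Lap P K (volK K) (c := 0) (fun i x _ => by simp) hf

theorem measurable_ce {m : ℕ} (h : HM L) {s : Fin m → A.ι → M → ℂ} (hs : ∀ k, IsHS L univ (s k))
    {ε : ℝ} (hε : 0 < ε) : Continuous (ce h s ε) := by
  have hq : Continuous (Qf h s) := sm_continuous (sm_Qf h hs)
  refine hq.div (continuous_const.add hq) fun x => ?_
  have := Qf_nonneg h s x
  positivity

theorem int_TT (P : Part A) (K : Kah A) (h : HM L) {m : ℕ} {s : Fin m → A.ι → M → ℂ}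
    (hs : ∀ k, IsHS L univ (s k)) {ε : ℝ} (hε : 0 < ε) :
    Integrable (TT K h s ε) (vm (volK K)) ∧
    ∫ x, TT K h s ε x ∂(vm (volK K)) = ∫ x, ce h s ε x * trM K (cur h) x ∂(vm (volK K)) := by
  have := isFinite_vm (volK K)
  have i1 : Integrable (Lap K (lg h s ε)) (vm (volK K)) :=
    integrable_trM K (tf_hsf (sm_lg h hs hε)) _
  have i2 : Integrable (fun x => ce h s ε x * trM K (cur h) x) (vm (volK K)) := by
    have hc : Continuous fun x => ce h s ε x * trM K (cur h) x :=
      (measurable_ce h hs hε).mul (cont_trM K (tf_cur h))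
    obtain ⟨C, hC⟩ := isCompact_univ.exists_bound_of_continuousOn hc.continuousOn
    exact Integrable.of_bound hc.measurable.aestronglyMeasurable C
      (Eventually.of_forall fun x => hC x (mem_univ x))
  refine ⟨i1.add i2, ?_⟩
  unfold TT
  rw [integral_add i1 i2, int_Lap0 P K (sm_lg h hs hε), zero_add]

/-- the limit `ε → 0` -/
theorem tendsto_ce [ConnectedSpace M] (P : Part A) (K : Kah A) (h : HM L) {m : ℕ}
    {s : Fin m → A.ι → M → ℂ} (hs : ∀ k, IsHS L univ (s k)) {k : Fin m}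
    (h0 : ∃ i, ∃ x ∈ (A.e i).source, s k i x ≠ 0) :
    Tendsto (fun j : ℕ => ∫ x, ce h s (1 / ((j : ℝ) + 1)) x * trM K (cur h) x ∂(vm (volK K)))
      atTop (𝓝 (deg P K h)) := by
  have := isFinite_vm (volK K)
  rw [deg_eq P K h]
  have hc := cont_trM K (tf_cur (A := A) h)
  obtain ⟨C, hC⟩ := isCompact_univ.exists_bound_of_continuousOn hc.continuousOn
  have hε : ∀ j : ℕ, (0 : ℝ) < 1 / ((j : ℝ) + 1) := fun j => by positivity
  refine tendsto_integral_of_dominated_convergence (fun _ => C) (fun j => ?_)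
    (integrable_const _) (fun j => ?_) ?_
  · exact ((measurable_ce h hs (hε j)).mul hc).measurable.aestronglyMeasurable
  · refine Eventually.of_forall fun x => ?_
    rw [norm_mul, Real.norm_of_nonneg (ce_nonneg h s (hε j) x)]
    have h1 := hC x (mem_univ x)
    have h2 := ce_le h s (hε j) x
    have h3 := ce_nonneg h s (hε j) x
    calc ce h s (1 / ((j : ℝ) + 1)) x * ‖trM K (cur h) x‖ ≤ 1 * ‖trM K (cur h) x‖ :=
          mul_le_mul_of_nonneg_right h2 (norm_nonneg _)
      _ ≤ C := by rw [one_mul]; exact h1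
  · have hnull := null_nz (volK K) (hs k) h0
    have hae : ∀ᵐ x ∂(vm (volK K)), x ∈ nz (s k) := by
      rw [ae_iff]
      exact hnull
    filter_upwards [hae] with x hx
    have hq : 0 < Qf h s x := by
      have h1 : 0 < nsq h (s k) (ch A x) x := by
        have h2 : s k (ch A x) x ≠ 0 := (mem_nz (hs k) (mem_ch A x)).1 hx
        have h3 := h.pos _ x (mem_ch A x)
        unfold nsq
        positivity
      exact h1.trans_le (Finset.single_le_sum
        (f := fun k => nsq h (s k) (ch A x) x)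
        (fun l _ => mul_nonneg (by positivity) (h.pos _ x (mem_ch A x)).le) (Finset.mem_univ k))
    have h1 : Tendsto (fun j : ℕ => ce h s (1 / ((j : ℝ) + 1)) x) atTop (𝓝 1) := by
      unfold ce
      have h2 : Tendsto (fun j : ℕ => (1 : ℝ) / ((j : ℝ) + 1)) atTop (𝓝 0) :=
        tendsto_one_div_add_atTop_nhds_zero_nat
      have h3 := (tendsto_const_nhds (x := Qf h s x)).div (h2.add_const (Qf h s x))
        (by rw [zero_add]; exact hq.ne')
      rw [zero_add, div_self hq.ne'] at h3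
      exact h3
    have h4 := h1.mul_const (trM K (cur h) x)
    rwa [one_mul] at h4

end mass

section main

variable [T2Space M] [CompactSpace M] [Finite A.ι]

/-- **the degree does not depend on the metric** -/
theorem deg_indep (P : Part A) (K : Kah A) (h h' : HM L) : deg P K h = deg P K h' := by
  classical
  letI : Fintype A.ι := Fintype.ofFinite A.ι
  letI : MeasurableSpace M := borel M
  haveI : BorelSpace M := ⟨rfl⟩
  set f : M → ℝ := fun x => h'.wt (ch A x) (A.e (ch A x) x) - h.wt (ch A x) (A.e (ch A x) x) with hf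
  have hfi : ∀ i, ∀ z ∈ (A.e i).target, f ((A.e i).symm z) = h'.wt i z - h.wt i z := by
    intro i z hz
    set x := (A.e i).symm z with hx
    have hxi : x ∈ (A.e i).source := (A.e i).map_target hz
    have hz' : z ∈ A.ov i (ch A x) := ⟨hz, mem_ch A x⟩
    have h1 := wt_tr h hz'
    have h2 := wt_tr h' hz'
    rw [hf]
    simp only
    rw [← hx] at h1 h2
    rw [h1, h2]
    ring
  have hsm : A.Sm f := by
    intro i
    exact ((wt_smooth h' i).sub (wt_smooth h i)).congr fun z hz => hfi i z hz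
  have hcur : ∀ i, ∀ x ∈ (A.e i).source, cur h' i x = cur h i x + hsf A f i x := by
    intro i x hx
    have hz := (A.e i).map_source hx
    unfold cur hsf
    rw [← hess_add (wt_contDiffAt h i hz) (sm_contDiffAt hsm i hz)]
    refine hess_congr ?_
    filter_upwards [(A.e i).open_target.mem_nhds hz] with w hw
    rw [hfi i w hw]
    ring
  have e1 : ∀ x, trM K (cur h') x = trM K (cur h) x + Lap K f x := by
    intro x
    unfold Lap trM
    have : trC K (cur h') (ch A x) x = trC K (cur h) (ch A x) x + trC K (hsf A f) (ch A x) x := by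
      unfold trC
      rw [hcur _ _ (mem_ch A x), Matrix.mul_add, Matrix.trace_add]
    rw [this, Complex.add_re]
  rw [deg_eq P K h, deg_eq P K h']
  simp only [e1]
  have i2 : Integrable (Lap K f) (vm (volK K)) := integrable_trM K (tf_hsf hsm) _
  rw [integral_add (integrable_trM K (tf_cur h) _) i2, int_Lap0 P K hsm, add_zero]

/-- a nonzero section ==> degree `≥ 0` -/
theorem deg_nonneg [ConnectedSpace M] (P : Part A) (K : Kah A) (h : HM L) {s : A.ι → M → ℂ}
    (hs : IsHS L univ s) (h0 : ∃ i, ∃ x ∈ (A.e i).source, s i x ≠ 0) : 0 ≤ deg P K h := by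
  classical
  letI : Fintype A.ι := Fintype.ofFinite A.ι
  letI : MeasurableSpace M := borel M
  haveI : BorelSpace M := ⟨rfl⟩
  have hs' : ∀ k : Fin 1, IsHS L univ ((fun _ => s) k : A.ι → M → ℂ) := fun _ => hs
  refine ge_of_tendsto (tendsto_ce P K h hs' (k := 0) h0) (Eventually.of_forall fun j => ?_)
  have hε : (0 : ℝ) < 1 / ((j : ℝ) + 1) := by positivity
  have hε1 : 1 / ((j : ℝ) + 1) ≤ 1 := by
    rw [div_le_one (by positivity)]
    have : (0 : ℝ) ≤ j := Nat.cast_nonneg j
    linarith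
  rw [← (int_TT P K h hs' hε).2]
  exact integral_nonneg fun x => TT_nonneg K h hs' hε hε1 0 x

/-- two sections with a nonzero Wronskian ==> degree `> 0` -/
theorem deg_pos_of_wr [ConnectedSpace M] (P : Part A) (K : Kah A) (h : HM L)
    {s : Fin 2 → A.ι → M → ℂ} (hs : ∀ k, IsHS L univ (s k)) {i : A.ι} {z : Cn n}
    (hz : z ∈ (A.e i).target) {v : Cn n} (hW : Wr s i z 0 1 v ≠ 0) : 0 < deg P K h := by
  classical
  letI : Fintype A.ι := Fintype.ofFinite A.ι
  letI : MeasurableSpace M := borel M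
  haveI : BorelSpace M := ⟨rfl⟩
  have hfin := isFinite_vm (volK K)
  have hop := isOpenPos_vm (volK K)
  have hW' : Wv s i z 0 1 ≠ 0 := by
    intro h1
    apply hW
    rw [Wr_sum, h1]
    simp
  obtain ⟨U, hU, hUn, c, hc, hlow⟩ := exists_low K h hs hz hW'
  have hx := (A.e i).map_target hz
  -- one of the two sections is nonzero
  obtain ⟨k, hk⟩ : ∃ k : Fin 2, ∃ i, ∃ x ∈ (A.e i).source, s k i x ≠ 0 := by
    by_contra hcon
    push Not at hcon
    apply hW
    unfold Wr
    rw [hcon 0 i _ hx, hcon 1 i _ hx]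
    ring
  have hmU : 0 < (vm (volK K)).real U :=
    ENNReal.toReal_pos (hU.measure_pos _ hUn).ne' (measure_ne_top _ _)
  have key : c * (vm (volK K)).real U ≤ deg P K h := by
    refine ge_of_tendsto (tendsto_ce P K h hs hk) (Eventually.of_forall fun j => ?_)
    have hε : (0 : ℝ) < 1 / ((j : ℝ) + 1) := by positivity
    have hε1 : 1 / ((j : ℝ) + 1) ≤ 1 := by
      rw [div_le_one (by positivity)]
      have : (0 : ℝ) ≤ j := Nat.cast_nonneg j
      linarith
    rw [← (int_TT P K h hs hε).2]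
    have h1 : ∫ x, U.indicator (fun _ => c) x ∂(vm (volK K)) = c * (vm (volK K)).real U := by
      rw [integral_indicator_const _ hU.measurableSet, smul_eq_mul, mul_comm]
    rw [← h1]
    refine integral_mono ((integrable_const c).indicator hU.measurableSet) (int_TT P K h hs hε).1
      fun x => ?_
    by_cases hxU : x ∈ U
    · simp only [indicator_of_mem hxU]
      exact hlow _ hε hε1 x hxU
    · simp only [indicator_of_notMem hxU]
      exact TT_nonneg K h hs hε hε1 0 x
  exact lt_of_lt_of_le (by positivity) key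

end main

end

end Crest.Agent.R281.Deg_751
end

-- ▼ part R281/Deg4_751
section

/-!
# R281, S6-DEG (helper751), part 4: consequences

* `exists_wr`    : two non-proportional sections have a nonzero Wronskian somewhere
* `deg_pos`      : two non-proportional sections ==> `0 < deg`
* `deg_mul`, `deg_pow`, `deg_inv`, `deg_one`
* `deg_nef`      : `NefW K L` ==> `0 ≤ deg`
* `deg_curv_pos` : `h.Pos`, `0 < n` ==> `0 < deg`
* `deg_zero_of_triv` : a nowhere vanishing section ==> `deg = 0`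
* `Deg P K L`    : the degree of `L` (any metric)
-/

set_option autoImplicit false
set_option linter.unusedSectionVars false
set_option linter.style.haveILetI false

open Set Filter Topology Complex MeasureTheory
open scoped ContDiff Matrix ComplexConjugate ComplexOrder

namespace Crest.Agent.R281.Deg_751

open Crest.Agent.R275 Crest.Agent.R275.Geo Crest.Agent.R275.Core144 Crest.Agent.R275.EDR890
open Crest.Agent.R275.Pai323 Crest.Agent.R275.SerG398 Crest.Agent.R275.C1d194
open Crest.Agent.R273.Defs_333 (HM HM.wt HM.Pos)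
open Crest.Agent.R273.Hess_333 Crest.Agent.R273.HessB_333
open Crest.Agent.R273.HM_333 Crest.Agent.R273.Kah_333 Crest.Agent.R273.Vol_333
open Crest.Agent.R273.Vm_333 Crest.Agent.R273.FIa0_597 Crest.Agent.R273.FIb0_597
open Crest.Agent.R273.StokesV_332 (intD intD_congr intD_add intD_smul offK_univ)
open Crest.Agent.R273.SteinC_794 Crest.Agent.R273.SteinD_794 Crest.Agent.R273.SteinL_794
open Crest.Agent.R281.Defs_273 (NefW)
open Crest.Agent.R273.Green_5 (smAt_adj kah_cf)
open Crest.Agent.R273.VolInv_5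

noncomputable section

variable {n : ℕ} {M : Type} [TopologicalSpace M] {A : Atl n M} {L L' : LB A}

/-- two non-proportional sections have a nonzero Wronskian at some point -/
theorem exists_wr [ConnectedSpace M] {s : Fin 2 → A.ι → M → ℂ} (hs : ∀ k, IsHS L univ (s k))
    (hnp : ∀ a b : ℂ, (∀ i, ∀ x ∈ (A.e i).source, a * s 0 i x + b * s 1 i x = 0) → a = 0 ∧ b = 0) :
    ∃ i, ∃ z ∈ (A.e i).target, ∃ v, Wr s i z 0 1 v ≠ 0 := by
  by_contra hcon
  push Not at hcon
  -- a point where `s 0 ≠ 0`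
  obtain ⟨i, x, hx, h0⟩ : ∃ i, ∃ x ∈ (A.e i).source, s 0 i x ≠ 0 := by
    by_contra h1
    push Not at h1
    have := hnp 1 0 fun i x hx => by rw [h1 i x hx]; ring
    exact one_ne_zero this.1
  set z := A.e i x with hz
  have hzt : z ∈ (A.e i).target := (A.e i).map_source hx
  have hsz : (A.e i).symm z = x := (A.e i).left_inv hx
  set f : Cn n → ℂ := fun w => s 0 i ((A.e i).symm w) with hf
  set g : Cn n → ℂ := fun w => s 1 i ((A.e i).symm w) with hg
  have hfz : f z ≠ 0 := by
    show s 0 i ((A.e i).symm z) ≠ 0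
    rwa [hsz]
  have hfc : ContinuousAt f z := (anal_sec (hs 0) i hzt).continuousAt
  obtain ⟨r, hr, hb⟩ := Metric.mem_nhds_iff.1
    (inter_mem ((A.e i).open_target.mem_nhds hzt) (hfc.eventually_ne hfz))
  have hqd : DifferentiableOn ℂ (fun w => g w * (f w)⁻¹) (Metric.ball z r) := fun w hw => by
    have d0 : DifferentiableAt ℂ f w := (anal_sec (hs 0) i (hb hw).1).differentiableAt
    have d1 : DifferentiableAt ℂ g w := (anal_sec (hs 1) i (hb hw).1).differentiableAt
    exact (d1.mul (d0.inv (hb hw).2)).differentiableWithinAt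
  have hq0 : (Metric.ball z r).EqOn (fderiv ℂ (fun w => g w * (f w)⁻¹)) 0 := by
    intro w hw
    have d0 : DifferentiableAt ℂ f w := (anal_sec (hs 0) i (hb hw).1).differentiableAt
    have d1 : DifferentiableAt ℂ g w := (anal_sec (hs 1) i (hb hw).1).differentiableAt
    have hfw : f w ≠ 0 := (hb hw).2
    have h1 : HasFDerivAt (fun w => g w * (f w)⁻¹)
        ((f w)⁻¹ • fderiv ℂ g w + g w • ((-(f w ^ 2)⁻¹) • fderiv ℂ f w)) w := by
      have h2 : HasFDerivAt (fun w => (f w)⁻¹) ((-(f w ^ 2)⁻¹) • fderiv ℂ f w) w :=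
        (hasDerivAt_inv hfw).comp_hasFDerivAt w d0.hasFDerivAt
      have h3 := d1.hasFDerivAt.mul h2
      rw [add_comm]
      exact h3
    rw [h1.fderiv]
    ext v
    have h5 := hcon i w (hb hw).1 v
    have h6 : f w * fderiv ℂ g w v - g w * fderiv ℂ f w v = 0 := h5
    simp only [_root_.add_apply, _root_.smul_apply, smul_eq_mul,
      Pi.zero_apply, _root_.zero_apply]
    have h7 : (f w)⁻¹ * fderiv ℂ g w v + g w * (-(f w ^ 2)⁻¹ * fderiv ℂ f w v) =
        (f w * fderiv ℂ g w v - g w * fderiv ℂ f w v) / (f w) ^ 2 := by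
      field_simp
      ring
    rw [h7, h6, zero_div]
  have hconst : ∀ w ∈ Metric.ball z r, g w * (f w)⁻¹ = g z * (f z)⁻¹ := fun w hw =>
    Metric.isOpen_ball.is_const_of_fderiv_eq_zero (convex_ball z r).isPreconnected hqd hq0 hw
      (Metric.mem_ball_self hr)
  set c := g z * (f z)⁻¹ with hc
  have hu : IsHS L univ (s 1 + (-c) • s 0) := (hs 1).add ((hs 0).smul (-c))
  have hev : ∀ᶠ y in 𝓝 x, (s 1 + (-c) • s 0) i y = 0 := by
    have h1 : ∀ᶠ y in 𝓝 x, A.e i y ∈ Metric.ball z r :=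
      ((A.e i).continuousAt hx).eventually (Metric.ball_mem_nhds z hr)
    filter_upwards [h1, (A.e i).open_source.mem_nhds hx] with y hy hys
    have h2 := hconst _ hy
    have h3 : f (A.e i y) ≠ 0 := (hb hy).2
    rw [← div_eq_mul_inv, div_eq_iff h3] at h2
    have h4 : g (A.e i y) = s 1 i y := by
      show s 1 i ((A.e i).symm (A.e i y)) = _
      rw [(A.e i).left_inv hys]
    have h5 : f (A.e i y) = s 0 i y := by
      show s 0 i ((A.e i).symm (A.e i y)) = _
      rw [(A.e i).left_inv hys]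
    rw [h4, h5] at h2
    simp only [Pi.add_apply, Pi.smul_apply, smul_eq_mul]
    rw [h2]
    ring
  have hall : ∀ j, ∀ y ∈ (A.e j).source, (s 1 + (-c) • s 0) j y = 0 := by
    by_contra h1
    push Not at h1
    obtain ⟨j, y, hy, hne⟩ := h1
    exact id_thm hu ⟨j, y, hy, hne⟩ i hx hev
  have := hnp (-c) 1 fun j y hy => by
    have h1 := hall j y hy
    simp only [Pi.add_apply, Pi.smul_apply, smul_eq_mul] at h1
    rw [one_mul, add_comm]
    exact h1
  exact one_ne_zero this.2


section alg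

variable [T2Space M] [CompactSpace M] [Finite A.ι]

theorem sm_adj (K : Kah A) (S : A.ι → M → Matrix (Fin n) (Fin n) ℂ)
    (hS : ∀ i a b, A.SmAt i (fun x => S i x a b)) (i : A.ι) :
    A.SmAt i (fun x => ((K.g i x).adjugate * S i x).trace) := by
  have h1 : (fun x => ((K.g i x).adjugate * S i x).trace) =
      fun x => ∑ a, ∑ b, (K.g i x).adjugate a b * S i x b a := by
    funext x
    simp only [Matrix.trace, Matrix.diag, Matrix.mul_apply]
  rw [h1]
  exact ContDiffOn.sum fun a _ => ContDiffOn.sum fun b _ =>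
    (smAt_adj (kah_cf K) i b a).mul (hS i b a)

theorem deg_mul (P : Part A) (K : Kah A) (h : HM L) (h' : HM L') :
    deg P K (mul h h') = deg P K h + deg P K h' := by
  unfold deg
  rw [← Complex.add_re, ← intD_add P (sm_adj K _ (cur_smooth h)) (sm_adj K _ (cur_smooth h'))
    isCompact_univ (offK_univ _) (offK_univ _)]
  congr 1
  refine intD_congr P fun i x hx => ?_
  rw [cur_mul h h' i hx, Matrix.mul_add, Matrix.trace_add]

theorem deg_pow (P : Part A) (K : Kah A) (h : HM L) (m : ℕ) :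
    deg P K (pow h m) = m * deg P K h := by
  unfold deg
  have h1 : intD P (fun i x => ((K.g i x).adjugate * cur (pow h m) i x).trace) =
      (m : ℂ) * intD P (fun i x => ((K.g i x).adjugate * cur h i x).trace) := by
    rw [← intD_smul P (m : ℂ) isCompact_univ (offK_univ _)]
    refine intD_congr P fun i x hx => ?_
    rw [cur_pow h m i hx, Matrix.mul_smul, Matrix.trace_smul, smul_eq_mul]
  rw [h1]
  have : ((m : ℂ)) = ((m : ℝ) : ℂ) := by push_cast; rfl
  rw [this, Complex.re_ofReal_mul]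

theorem deg_inv (P : Part A) (K : Kah A) (h : HM L) : deg P K (inv h) = - deg P K h := by
  unfold deg
  have h1 : intD P (fun i x => ((K.g i x).adjugate * cur (inv h) i x).trace) =
      (-1 : ℂ) * intD P (fun i x => ((K.g i x).adjugate * cur h i x).trace) := by
    rw [← intD_smul P (-1 : ℂ) isCompact_univ (offK_univ _)]
    refine intD_congr P fun i x hx => ?_
    rw [cur_inv h i hx, Matrix.mul_neg, Matrix.trace_neg]
    ring
  rw [h1]
  simp

end alg

section main

variable [T2Space M] [CompactSpace M] [Finite A.ι]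

/-- **two non-proportional sections ==> degree `> 0`** -/
theorem deg_pos [ConnectedSpace M] (P : Part A) (K : Kah A) (h : HM L) {s : Fin 2 → A.ι → M → ℂ}
    (hs : ∀ k, IsHS L univ (s k))
    (hnp : ∀ a b : ℂ, (∀ i, ∀ x ∈ (A.e i).source, a * s 0 i x + b * s 1 i x = 0) → a = 0 ∧ b = 0) :
    0 < deg P K h := by
  obtain ⟨i, z, hz, v, hW⟩ := exists_wr hs hnp
  exact deg_pos_of_wr P K h hs hz hW

/-- **nef ==> degree `≥ 0`** -/
theorem deg_nef (P : Part A) (K : Kah A) (hL : NefW K L) (h : HM L) : 0 ≤ deg P K h := by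
  classical
  letI : Fintype A.ι := Fintype.ofFinite A.ι
  letI : MeasurableSpace M := borel M
  haveI : BorelSpace M := ⟨rfl⟩
  have hfin := isFinite_vm (volK K)
  set V : ℝ := n * (vm (volK K)).real univ with hV
  have hV0 : 0 ≤ V := by positivity
  have key : ∀ ε : ℝ, 0 < ε → - (ε * V) ≤ deg P K h := by
    intro ε hε
    obtain ⟨h', hh'⟩ := hL ε hε
    rw [deg_indep P K h h', deg_eq P K h']
    have h1 : ∀ x, - (ε * n) ≤ trM K (cur h') x := by
      intro x
      have h2 := tr_re_nonneg (K.pos _ x (mem_ch A x)) (hh' _ x (mem_ch A x))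
      rw [Matrix.mul_add, Matrix.trace_add, Matrix.mul_smul, Matrix.trace_smul,
        tr_self (K.pos _ x (mem_ch A x)), Complex.add_re, smul_eq_mul, Complex.re_ofReal_mul,
        Complex.natCast_re] at h2
      unfold trM trC
      linarith
    have h3 : ∫ _x, (- (ε * n)) ∂(vm (volK K)) ≤ ∫ x, trM K (cur h') x ∂(vm (volK K)) :=
      integral_mono (integrable_const _) (integrable_trM K (tf_cur h') _) h1
    rw [integral_const, smul_eq_mul] at h3
    refine le_trans (le_of_eq ?_) h3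
    rw [hV]
    ring
  refine le_of_forall_pos_lt_add fun δ hδ => ?_
  have h1 := key (δ / (V + 1)) (by positivity)
  have h2 : δ / (V + 1) * V < δ := by
    rw [div_mul_eq_mul_div, div_lt_iff₀ (by positivity)]
    nlinarith
  linarith


/-- a section without zeros ==> degree `0` -/
theorem deg_zero_of_triv [ConnectedSpace M] (P : Part A) (K : Kah A) (h : HM L)
    {s : A.ι → M → ℂ} (hs : IsHS L univ s) (h0 : ∀ i, ∀ x ∈ (A.e i).source, s i x ≠ 0) :
    deg P K h = 0 := by
  obtain ⟨x⟩ : Nonempty M := inferInstance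
  have h1 := deg_nonneg P K h hs ⟨_, x, mem_ch A x, h0 _ x (mem_ch A x)⟩
  have hs' := hs.inv fun i x hx _ => h0 i x hx
  have h2 := deg_nonneg P K (inv h) hs' ⟨_, x, mem_ch A x, by
    simpa using h0 _ x (mem_ch A x)⟩
  rw [deg_inv] at h2
  linarith


open Classical in
/-- the degree of `L` -/
def Deg (P : Part A) (K : Kah A) (L : LB A) : ℝ := deg P K (exists_hm P L).some

theorem Deg_eq (P : Part A) (K : Kah A) (h : HM L) : Deg P K L = deg P K h := deg_indep P K _ _

theorem Deg_mul (P : Part A) (K : Kah A) (L L' : LB A) :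
    Deg P K (L * L') = Deg P K L + Deg P K L' := by
  obtain ⟨h⟩ := exists_hm P L
  obtain ⟨h'⟩ := exists_hm P L'
  rw [Deg_eq P K h, Deg_eq P K h', Deg_eq P K (mul h h'), deg_mul]

theorem Deg_pow (P : Part A) (K : Kah A) (L : LB A) (m : ℕ) : Deg P K (L ^ m) = m * Deg P K L := by
  obtain ⟨h⟩ := exists_hm P L
  rw [Deg_eq P K h, Deg_eq P K (pow h m), deg_pow]

theorem Deg_inv (P : Part A) (K : Kah A) (L : LB A) : Deg P K L⁻¹ = - Deg P K L := by
  obtain ⟨h⟩ := exists_hm P L
  rw [Deg_eq P K h, Deg_eq P K (inv h), deg_inv]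

theorem Deg_zpow (P : Part A) (K : Kah A) (L : LB A) (m : ℤ) : Deg P K (L ^ m) = m * Deg P K L := by
  cases m with
  | ofNat m => simpa using Deg_pow P K L m
  | negSucc m =>
    rw [zpow_negSucc, Deg_inv, Deg_pow]
    push_cast
    ring


theorem Deg_pos [ConnectedSpace M] (P : Part A) (K : Kah A) {s : Fin 2 → A.ι → M → ℂ}
    (hs : ∀ k, IsHS L univ (s k))
    (hnp : ∀ a b : ℂ, (∀ i, ∀ x ∈ (A.e i).source, a * s 0 i x + b * s 1 i x = 0) → a = 0 ∧ b = 0) :
    0 < Deg P K L :=
  deg_pos P K _ hs hnp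

theorem Deg_nef (P : Part A) (K : Kah A) (hL : NefW K L) : 0 ≤ Deg P K L := deg_nef P K hL _


end main

end

end Crest.Agent.R281.Deg_751
end

-- ▼ part R281/Sc4_413
section

/-!
# Row 281, SC-PIC, part 4 (helper413): `H¹(M, O) = 0` in Cech form

`cech_O` : on a simply connected compact Kaehler manifold every additive cocycle of holomorphic
functions on the chart cover is a coboundary.
-/

set_option autoImplicit false
set_option linter.unusedSectionVars false

open Set Filter Topology Complex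
open scoped ContDiff Matrix ComplexConjugate InnerProductSpace

namespace Crest.Agent.R281.Sc_413

open Crest.Agent.R275 Crest.Agent.R275.Geo Crest.Agent.R275.Core144 Crest.Agent.R275.EDR890
open Crest.Agent.R275.GC293
open Crest.Agent.R273 Crest.Agent.R273.Defs_333 Crest.Agent.R273.Kah_333
open Crest.Agent.R273.LamN127
open Crest.Agent.R281.Hdg_850

noncomputable section

variable {n : ℕ} {M : Type} [TopologicalSpace M] {A : Atl n M}

/-- additive cocycles of holomorphic functions -/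
structure OCoc (A : Atl n M) where
  f : A.ι → A.ι → M → ℂ
  hol : ∀ i j, HolAt A i (A.e j).source (f i j)
  coc : ∀ i j k, ∀ x ∈ U3 A i j k, f j k x - f i k x + f i j x = 0

variable (Λ : OCoc A) (P : Part A)

/-- smooth splitting -/
def OCoc.th (i : A.ι) : M → ℂ := glue P (fun l => Λ.f i l)

theorem OCoc.th_sm (i : A.ι) : SmOn A (A.e i).source (Λ.th P i) :=
  smOn_glue P fun l => (smOn_inter_iff i l).2 ((Λ.hol i l).contDiffOn (A.e l).open_source)

theorem OCoc.th_sub {i j : A.ι} {x : M} (hx : x ∈ U2 A i j) :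
    Λ.th P i x - Λ.th P j x = Λ.f i j x := by
  unfold OCoc.th
  rw [glue_sub]
  apply glue_const
  intro l hl
  have := Λ.coc i j l x ⟨hx, hl⟩
  linear_combination (-1 : ℂ) * this

/-- the `(0,1)`-form -/
def OCoc.y (i : A.ι) (x : M) (a : Fin n) : ℂ := A.db i a (Λ.th P i) x

theorem OCoc.y_sm (i : A.ι) (a : Fin n) : A.SmAt i (fun x => Λ.y P i x a) := by
  have h1 : ContDiffOn ℝ ∞ (fun z => Λ.th P i ((A.e i).symm z)) (A.e i).target :=
    (smOn_source_iff i).1 (Λ.th_sm P i)
  refine (contDiffOn_wd (A.e i).open_target h1 (true, a)).congr fun z hz => ?_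
  show dbj a _ (A.e i ((A.e i).symm z)) = dbj a _ z
  rw [(A.e i).right_inv hz]

theorem OCoc.th_diff {i : A.ι} {x : M} (hx : x ∈ (A.e i).source) :
    ContDiffAt ℝ ∞ (fun z => Λ.th P i ((A.e i).symm z)) (A.e i x) :=
  Λ.th_sm P i x hx i hx

theorem OCoc.y_tr : Tr01 A (Λ.y P) := by
  intro i j x hx
  funext a
  have h1 : Λ.th P i =ᶠ[𝓝 x] fun y => Λ.th P j y + Λ.f i j y := by
    filter_upwards [((A.e i).open_source.inter (A.e j).open_source).mem_nhds hx] with y hy
    linear_combination Λ.th_sub P hy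
  have hj : ContDiffAt ℝ ∞ (fun z => Λ.th P j ((A.e i).symm z)) (A.e i x) :=
    Λ.th_sm P j x hx.2 i hx.1
  have hf : DifferentiableAt ℂ (fun z => Λ.f i j ((A.e i).symm z)) (A.e i x) :=
    (Λ.hol i j).diffAt (A.e j).open_source hx.1 hx.2
  have h2 : A.db i a (Λ.th P i) x = A.db i a (Λ.th P j) x := by
    rw [Fm96.db_congr hx.1 h1]
    have h3 : A.db i a (fun y => Λ.th P j y + Λ.f i j y) x =
        A.db i a (Λ.th P j) x + A.db i a (Λ.f i j) x :=
      dbj_add (hj.differentiableAt (by simp)) (hf.restrictScalars ℝ) a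
    rw [h3, (Λ.hol i j).db_zero (A.e j).open_source hx.1 hx.2 a, add_zero]
  show A.db i a (Λ.th P i) x = _
  rw [h2, OmT75.db_chain ((Λ.th_diff P hx.2).differentiableAt (by simp)) hx a]
  rfl

theorem OCoc.y_cl : Cl01 A (Λ.y P) := by
  intro i x hx a b
  have hz := (A.e i).map_source hx
  have h1 : ∀ b, (fun z => Λ.y P i ((A.e i).symm z) b) =ᶠ[𝓝 (A.e i x)]
      wd (true, b) (fun z => Λ.th P i ((A.e i).symm z)) := by
    intro b
    filter_upwards [(A.e i).open_target.mem_nhds hz] with z hz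
    show dbj b _ (A.e i ((A.e i).symm z)) = dbj b _ z
    rw [(A.e i).right_inv hz]
  have h2 : ∀ a b, A.db i a (fun x => Λ.y P i x b) x =
      wd (true, a) (wd (true, b) (fun z => Λ.th P i ((A.e i).symm z))) (A.e i x) :=
    fun a b => wd_congr (h1 b) (true, a)
  rw [h2, h2]
  exact wd_comm (Λ.th_diff P hx) _ _

/-- **`H¹(M, O) = 0`**, Cech form -/
theorem cech_O [CompactSpace M] [T2Space M] [SimplyConnectedSpace M] [Finite A.ι] (hA : GoodA A)
    (P : Part A) (K : Kah A) (Λ : OCoc A) : ∃ σ : A.ι → M → ℂ, (∀ i, HolAt A i univ (σ i)) ∧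
      ∀ i j, ∀ x ∈ U2 A i j, σ i x - σ j x = Λ.f i j x := by
  obtain ⟨f, hf, hy⟩ := h1O hA P K (Λ.y_sm P) (Λ.y_tr P) (Λ.y_cl P)
  refine ⟨fun i x => Λ.th P i x - f x, fun i => ?_, fun i j x hx => ?_⟩
  · intro z hz
    have hz' := hz.1
    apply DifferentiableAt.differentiableWithinAt
    have hx := (A.e i).map_target hz'
    have h1 := Λ.th_diff P hx
    rw [(A.e i).right_inv hz'] at h1
    have h2 : ContDiffAt ℝ ∞ (fun z => f ((A.e i).symm z)) z :=
      (hf i).contDiffAt ((A.e i).open_target.mem_nhds hz')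
    have h1' := h1.differentiableAt (n := ∞) (by simp)
    have h2' := h2.differentiableAt (n := ∞) (by simp)
    refine Fm96.differentiableAt_of_dbj (h1'.sub h2') fun a => ?_
    have h3 : dbj a (fun z => Λ.th P i ((A.e i).symm z) - f ((A.e i).symm z)) z =
        dbj a (fun z => Λ.th P i ((A.e i).symm z)) z - dbj a (fun z => f ((A.e i).symm z)) z :=
      Fm96.dbj_sub h1' h2'
    have h4 := hy i _ hx a
    unfold OCoc.y Atl.db at h4
    rw [(A.e i).right_inv hz'] at h4
    rw [h3, h4, sub_self]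
  · have := Λ.th_sub P hx
    show Λ.th P i x - f x - (Λ.th P j x - f x) = _
    linear_combination this

end

end Crest.Agent.R281.Sc_413
end

-- ▼ part R281/Sc5_413
section

/-!
# Row 281, SC-PIC, part 5 (helper413): rationality

`rat_main` : a real relation `∑ t_j c_1(L_j) = 0` between line bundles on a simply connected compact
Kaehler manifold gives, for every `f : ℝ →ₗ[ℚ] ℚ`, `D > 0` and `m_j = D f(t_j) ∈ ℤ` such that
`∏ L_j ^ m_j` has a nowhere zero section.
-/

set_option autoImplicit false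
set_option linter.unusedSectionVars false

open Set Filter Topology Complex
open scoped ContDiff Matrix ComplexConjugate InnerProductSpace

namespace Crest.Agent.R281.Sc_413

open Crest.Agent.R275 Crest.Agent.R275.Geo Crest.Agent.R275.Core144 Crest.Agent.R275.EDR890
open Crest.Agent.R275.GC293
open Crest.Agent.R273 Crest.Agent.R273.Defs_333 Crest.Agent.R273.Kah_333 Crest.Agent.R273.HM_333
open Crest.Agent.R273.Hess_333 Crest.Agent.R273.HessB_333
open Crest.Agent.R273.LamN127
open Crest.Agent.R281.Hdg_850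

noncomputable section

section Local

variable {n : ℕ}

/-- a holomorphic function with real part zero is constant -/
theorem const_of_re {U : Set (Cn n)} (hU : IsOpen U) (hc : Convex ℝ U) {G : Cn n → ℂ}
    (hG : DifferentiableOn ℂ G U) (h0 : ∀ z ∈ U, (G z).re = 0) {z w : Cn n} (hz : z ∈ U)
    (hw : w ∈ U) : G z = G w := by
  refine hc.is_const_of_fderivWithin_eq_zero (𝕜 := ℂ) hG (fun y hy => ?_) hz hw
  rw [fderivWithin_of_isOpen hU hy]
  have hd := hG.differentiableAt (hU.mem_nhds hy)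
  have h1 : ∀ v, (fderiv ℂ G y v).re = 0 := by
    intro v
    have h2 : HasFDerivAt (fun z => (G z).re)
        (Complex.reCLM.comp ((fderiv ℂ G y).restrictScalars ℝ)) y :=
      (Complex.reCLM.hasFDerivAt).comp y (hd.hasFDerivAt.restrictScalars ℝ)
    have h3 : (fun z => (G z).re) =ᶠ[𝓝 y] fun _ => (0 : ℝ) := by
      filter_upwards [hU.mem_nhds hy] with z hz
      exact h0 z hz
    have h4 := (h2.congr_of_eventuallyEq h3.symm).unique (hasFDerivAt_const (0 : ℝ) y)
    exact congrArg (fun T : Cn n →L[ℝ] ℝ => T v) h4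
  ext v
  have h2 := h1 v
  have h3 := h1 (I • v)
  rw [map_smul, smul_eq_mul, mul_re, I_re, I_im, zero_mul, one_mul, zero_sub, neg_eq_zero] at h3
  exact Complex.ext h2 h3

end Local

/-- common denominators -/
theorem exists_den {κ : Type} [Finite κ] (q : κ → ℚ) :
    ∃ D : ℕ, 0 < D ∧ ∀ k, ∃ m : ℤ, (m : ℚ) = D * q k := by
  have : Fintype κ := Fintype.ofFinite κ
  refine ⟨∏ k, (q k).den, Finset.prod_pos fun k _ => (q k).den_pos, fun k => ?_⟩
  obtain ⟨c, hc⟩ := Finset.dvd_prod_of_mem (fun k => (q k).den) (Finset.mem_univ k)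
  refine ⟨c * (q k).num, ?_⟩
  rw [hc]
  push_cast
  have h1 : ((q k).den : ℚ) * q k = (q k).num := by
    rw [mul_comm]
    exact Rat.mul_den_eq_num (q k)
  linear_combination (-(c : ℚ)) * h1

variable {n : ℕ} {M : Type} [TopologicalSpace M] {A : Atl n M}

/-- holomorphic logarithms of the transition functions -/
theorem exists_hlog (hA : GoodA A) (L : LB A) : ∃ φ : A.ι → A.ι → M → ℂ,
    (∀ i j, HolAt A i (A.e j).source (φ i j)) ∧
    ∀ i j, ∀ x ∈ U2 A i j, Complex.exp (2 * Real.pi * I * φ i j x) = L.g i j x := by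
  have h1 : ∀ i j, ∃ v : Cn n → ℂ, DifferentiableOn ℂ v (A.ov i j) ∧
      ∀ q ∈ A.ov i j, Complex.exp (v q) = L.g i j ((A.e i).symm q) := fun i j =>
    Cz1632.exists_log (hA i j) (isOpen_ov A i j) (L.hol i j) fun q _ => L.ne_zero i j _
  choose v hv hv' using h1
  have hpi : (2 * Real.pi * I : ℂ) ≠ 0 := Complex.two_pi_I_ne_zero
  refine ⟨fun i j x => (2 * Real.pi * I)⁻¹ * v i j (A.e i x), fun i j => ?_, fun i j x hx => ?_⟩
  · have h2 : DifferentiableOn ℂ (fun z => (2 * Real.pi * I)⁻¹ * v i j z) (A.ov i j) :=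
      (hv i j).const_mul _
    refine h2.congr fun z hz => ?_
    show _ * v i j (A.e i ((A.e i).symm z)) = _
    rw [(A.e i).right_inv hz.1]
  · have hm : A.e i x ∈ A.ov i j := by
      refine ⟨(A.e i).map_source hx.1, ?_⟩
      show (A.e i).symm (A.e i x) ∈ _
      rw [(A.e i).left_inv hx.1]
      exact hx.2
    show Complex.exp (2 * Real.pi * I * ((2 * Real.pi * I)⁻¹ * v i j (A.e i x))) = _
    rw [mul_inv_cancel_left₀ hpi, hv' i j _ hm, (A.e i).left_inv hx.1]

/-- evaluation of the transition function -/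
def gH (i j : A.ι) (x : M) : LB A →* ℂ where
  toFun L := L.g i j x
  map_one' := rfl
  map_mul' _ _ := rfl

theorem prod_zpow_g {J : Type} [Fintype J] (L : J → LB A) (m : J → ℤ) (i j : A.ι) (x : M) :
    (∏ k, L k ^ m k).g i j x = ∏ k, (L k).g i j x ^ m k := by
  show gH i j x (∏ k, L k ^ m k) = _
  rw [map_prod]
  exact Finset.prod_congr rfl fun k _ => map_zpow (gH i j x) (L k) (m k)

/-- a line bundle whose transition functions have an additive logarithm -/
theorem triv_of_log [CompactSpace M] [T2Space M] [SimplyConnectedSpace M] [Finite A.ι]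
    (hA : GoodA A) (P : Part A) (K : Kah A) (T : LB A) (Λ : OCoc A)
    (h : ∀ i j, ∀ x ∈ U2 A i j, Complex.exp (2 * Real.pi * I * Λ.f i j x) = T.g i j x) :
    Triv T := by
  classical
  obtain ⟨σ, hσ, h1⟩ := cech_O hA P K Λ
  refine ⟨fun i x => if x ∈ (A.e i).source then Complex.exp (2 * Real.pi * I * σ i x) else 0,
    ⟨fun i => ?_, fun i x hx => if_neg hx, fun i j x hx _ => ?_⟩, fun i x hx => ?_⟩
  · have h2 : HolAt A i univ (fun x => Complex.exp (2 * Real.pi * I * σ i x)) :=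
      (((holAt_const (2 * Real.pi * I)).mul (hσ i) : HolAt A i univ _) : DifferentiableOn ℂ _ _).cexp
    refine h2.congr fun x hx _ => ?_
    rw [if_pos hx]
  · simp only [if_pos hx.1, if_pos hx.2]
    rw [← h i j x hx, ← Complex.exp_add]
    congr 1
    have := h1 i j x hx
    linear_combination (2 * Real.pi * I) * this
  · simp only [if_pos hx]
    exact Complex.exp_ne_zero _

/-! ### real relations -/

section rel

variable {J : Type} [Fintype J] (L : J → LB A) (h : ∀ j, HM (L j)) (t : J → ℝ) (u : M → ℝ)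

/-- local potential of a real relation -/
def psi (i : A.ι) (z : Cn n) : ℝ := ∑ j, t j * (h j).wt i z - u ((A.e i).symm z)

variable {L} {u}

theorem psi_smooth (hu : A.Sm u) (i : A.ι) : ContDiffOn ℝ ∞ (psi L h t u i) (A.e i).target :=
  (ContDiffOn.sum fun j _ => contDiffOn_const.mul (wt_smooth (h j) i)).sub (hu i)

theorem hess_sum {κ : Type} (S : Finset κ) (c : κ → ℝ) {f : κ → Cn n → ℝ} {z : Cn n}
    (hf : ∀ k ∈ S, ContDiffAt ℝ ∞ (f k) z) :
    hess (fun w => ∑ k ∈ S, c k * f k w) z = ∑ k ∈ S, (c k : ℂ) • hess (f k) z := by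
  classical
  induction S using Finset.induction_on with
  | empty =>
    simp only [Finset.sum_empty]
    ext a b
    rw [hess_apply]
    have h4 : wd (true, b) (cu fun _ : Cn n => (0 : ℝ)) = fun _ => 0 := by
      funext w
      exact wd_const _ _ _
    rw [h4, wd_const]
    rfl
  | insert a S ha ih =>
    have h1 : ∀ k ∈ S, ContDiffAt ℝ ∞ (f k) z := fun k hk => hf k (Finset.mem_insert_of_mem hk)
    have h2 := hf a (Finset.mem_insert_self a S)
    simp only [Finset.sum_insert ha]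
    rw [hess_add (contDiffAt_const.mul h2)
      (ContDiffAt.sum fun k hk => contDiffAt_const.mul (h1 k hk)), ih h1, hess_const_mul _ h2]

theorem psi_lev (hu : A.Sm u)
    (hc : ∀ i, ∀ x ∈ (A.e i).source, ∑ j, (t j : ℂ) • cur (h j) i x = hsf A u i x)
    (i : A.ι) {z : Cn n} (hz : z ∈ (A.e i).target) (v : Cn n) : lev (psi L h t u i) z v = 0 := by
  have hs : ContDiffAt ℝ ∞ (psi L h t u i) z :=
    (psi_smooth h t hu i).contDiffAt ((A.e i).open_target.mem_nhds hz)
  have h0 : hess (psi L h t u i) z = 0 := by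
    have h1 := hc i _ ((A.e i).map_target hz)
    rw [hsf_read u i hz] at h1
    have h2 : ∀ j ∈ (Finset.univ : Finset J), ContDiffAt ℝ ∞ ((h j).wt i) z :=
      fun j _ => wt_contDiffAt (h j) i hz
    have h3 : hess (psi L h t u i) z = hess (fun w => ∑ j, t j * (h j).wt i w) z -
        hess (fun z => u ((A.e i).symm z)) z :=
      hess_sub (ContDiffAt.sum fun j hj => contDiffAt_const.mul (h2 j hj))
        (sm_contDiffAt hu i hz)
    rw [h3, hess_sum _ _ h2, ← h1]
    simp only [cur_read _ i hz]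
    exact sub_self _
  have h1 := lev_eq hs v
  have h3 : hq (psi L h t u i) z v = 0 := by
    rw [hq]
    refine Finset.sum_eq_zero fun a _ => Finset.sum_eq_zero fun b _ => ?_
    rw [h0, Matrix.zero_apply, zero_mul, zero_mul]
  rw [h3, mul_zero] at h1
  exact_mod_cast h1

theorem target_convex (hA : GoodA A) (i : A.ι) : Convex ℝ (A.e i).target := by
  have h1 := hA i i
  have h2 : A.ov i i = (A.e i).target := by
    ext z
    exact ⟨fun h => h.1, fun h => ⟨h, (A.e i).map_target h⟩⟩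
  rwa [h2] at h1

/-- transition of the potentials -/
theorem psi_tr (φ : J → A.ι → A.ι → M → ℂ)
    (hφ : ∀ k i j, ∀ x ∈ U2 A i j, Complex.exp (2 * Real.pi * I * φ k i j x) = (L k).g i j x)
    {i j : A.ι} {z : Cn n} (hz : z ∈ A.ov i j) :
    psi L h t u j (A.e j ((A.e i).symm z)) - psi L h t u i z =
      4 * Real.pi * ∑ k, t k * (φ k i j ((A.e i).symm z)).im := by
  have hx : (A.e i).symm z ∈ U2 A i j := ⟨(A.e i).map_target hz.1, hz.2⟩
  have h1 : ∀ k, (h k).wt j (A.e j ((A.e i).symm z)) = (h k).wt i z +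
      4 * Real.pi * (φ k i j ((A.e i).symm z)).im := by
    intro k
    rw [wt_tr (h k) hz, ← hφ k i j _ hx, Complex.norm_exp, Real.log_pow, Real.log_exp]
    have h2 : (2 * Real.pi * I * φ k i j ((A.e i).symm z)).re =
        -(2 * Real.pi * (φ k i j ((A.e i).symm z)).im) := by
      simp [Complex.mul_re, Complex.mul_im]
    rw [h2]
    push_cast
    ring
  unfold psi
  rw [(A.e j).left_inv hz.2]
  simp only [h1, mul_add, Finset.sum_add_distrib, Finset.mul_sum]
  have h3 : ∀ k, t k * (4 * Real.pi * (φ k i j ((A.e i).symm z)).im) =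
      4 * Real.pi * (t k * (φ k i j ((A.e i).symm z)).im) := fun k => by ring
  simp only [h3]
  ring

/-- the real constants of a real relation -/
theorem exists_beta (hA : GoodA A) (hu : A.Sm u)
    (hc : ∀ i, ∀ x ∈ (A.e i).source, ∑ j, (t j : ℂ) • cur (h j) i x = hsf A u i x)
    (φ : J → A.ι → A.ι → M → ℂ) (hφh : ∀ k i j, HolAt A i (A.e j).source (φ k i j))
    (hφ : ∀ k i j, ∀ x ∈ U2 A i j, Complex.exp (2 * Real.pi * I * φ k i j x) = (L k).g i j x) :
    ∃ (F : A.ι → M → ℂ) (β : A.ι → A.ι → ℝ), ∀ i j, ∀ x ∈ U2 A i j,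
      F j x - F i x + ∑ k, (t k : ℂ) * φ k i j x = β i j := by
  choose F hF hre using fun i => FlatSec_534.exists_re (A.e i).open_target (target_convex hA i)
    (psi_smooth h t hu i) (fun z hz v => psi_lev h t hu hc i hz v)
  have hpi : (4 * Real.pi * I : ℂ) ≠ 0 := by
    simp [Real.pi_ne_zero]
  set G : A.ι → A.ι → Cn n → ℂ := fun i j z => F j (A.e j ((A.e i).symm z)) - F i z +
    4 * Real.pi * I * ∑ k, (t k : ℂ) * φ k i j ((A.e i).symm z) with hG
  have h1 : ∀ i j, DifferentiableOn ℂ (G i j) (A.ov i j) := by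
    intro i j
    have e1 : DifferentiableOn ℂ (fun z => F j (A.e j ((A.e i).symm z))) (A.ov i j) :=
      (hF j).comp (A.holo i j) fun z hz => (A.e j).map_source hz.2
    have e2 : DifferentiableOn ℂ (F i) (A.ov i j) := (hF i).mono fun z hz => hz.1
    have e3 : DifferentiableOn ℂ (fun z => 4 * Real.pi * I *
        ∑ k, (t k : ℂ) * φ k i j ((A.e i).symm z)) (A.ov i j) :=
      (DifferentiableOn.fun_sum fun k _ => (hφh k i j).const_mul (t k : ℂ)).const_mul _
    exact (e1.sub e2).add e3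
  have h2 : ∀ i j, ∀ z ∈ A.ov i j, (G i j z).re = 0 := by
    intro i j z hz
    have e1 := psi_tr h t (u := u) φ hφ hz
    rw [← hre i z hz.1, ← hre j _ ((A.e j).map_source hz.2)] at e1
    have e2 : (4 * Real.pi * I * ∑ k, (t k : ℂ) * φ k i j ((A.e i).symm z)).re =
        -(4 * Real.pi * ∑ k, t k * (φ k i j ((A.e i).symm z)).im) := by
      have e3 : (∑ k, (t k : ℂ) * φ k i j ((A.e i).symm z)).im =
          ∑ k, t k * (φ k i j ((A.e i).symm z)).im := by
        rw [Complex.im_sum]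
        exact Finset.sum_congr rfl fun k _ => by simp
      rw [← e3]
      simp [Complex.mul_re, Complex.mul_im]
    simp only [hG, Complex.add_re, Complex.sub_re, e2]
    linarith
  have h3 : ∀ i j, ∃ b : ℝ, ∀ z ∈ A.ov i j, G i j z = 4 * Real.pi * I * b := by
    intro i j
    rcases (A.ov i j).eq_empty_or_nonempty with he | ⟨z0, hz0⟩
    · exact ⟨0, fun z hz => absurd hz (by rw [he]; exact notMem_empty z)⟩
    · have e2 : (4 * Real.pi : ℝ) ≠ 0 := by positivity
      obtain ⟨b, hb⟩ : ∃ b : ℝ, 4 * Real.pi * b = (G i j z0).im :=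
        ⟨(G i j z0).im / (4 * Real.pi), by field_simp⟩
      refine ⟨b, fun z hz => ?_⟩
      rw [const_of_re (isOpen_ov A i j) (hA i j) (h1 i j) (h2 i j) hz hz0]
      have e1 := h2 i j z0 hz0
      apply Complex.ext
      · rw [e1]
        simp
      · rw [← hb]
        simp
  choose β hβ using h3
  refine ⟨fun i x => (4 * Real.pi * I)⁻¹ * F i (A.e i x), β, fun i j x hx => ?_⟩
  have hm : A.e i x ∈ A.ov i j := by
    refine ⟨(A.e i).map_source hx.1, ?_⟩
    show (A.e i).symm (A.e i x) ∈ _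
    rw [(A.e i).left_inv hx.1]
    exact hx.2
  have h4 := hβ i j _ hm
  simp only [hG, (A.e i).left_inv hx.1] at h4
  apply mul_left_cancel₀ hpi
  rw [← h4, mul_add, mul_sub, mul_inv_cancel_left₀ hpi, mul_inv_cancel_left₀ hpi]

/-- **real relations are spanned by integral ones** -/
theorem rat_main [CompactSpace M] [T2Space M] [SimplyConnectedSpace M] [Finite A.ι]
    (hA : GoodA A) (P : Part A) (K : Kah A) (hu : A.Sm u)
    (hc : ∀ i, ∀ x ∈ (A.e i).source, ∑ j, (t j : ℂ) • cur (h j) i x = hsf A u i x)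
    (f : ℝ →ₗ[ℚ] ℚ) : ∃ (D : ℕ) (m : J → ℤ), 0 < D ∧ (∀ j, (m j : ℚ) = D * f (t j)) ∧
      Triv (∏ j, L j ^ m j) := by
  choose φ hφh hφ using fun k => exists_hlog hA (L k)
  obtain ⟨F, β, hβ⟩ := exists_beta h t hA hu hc φ hφh hφ
  obtain ⟨D, hD, hm⟩ := exists_den (κ := J ⊕ (A.ι × A.ι))
    (Sum.elim (fun j => f (t j)) fun p => f (β p.1 p.2))
  choose m hm using hm
  have hmt : ∀ j, (m (Sum.inl j) : ℚ) = D * f (t j) := fun j => hm (Sum.inl j)
  have hmb : ∀ i j, (m (Sum.inr (i, j)) : ℚ) = D * f (β i j) := fun i j => hm (Sum.inr (i, j))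
  refine ⟨D, fun j => m (Sum.inl j), hD, hmt, ?_⟩
  -- the integral relation
  have key : ∀ i j k, ∀ x ∈ U3 A i j k, ∑ l, (m (Sum.inl l) : ℂ) *
      (φ l j k x - φ l i k x + φ l i j x) =
      (m (Sum.inr (j, k)) : ℂ) - m (Sum.inr (i, k)) + m (Sum.inr (i, j)) := by
    rintro i j k x ⟨⟨hi, hj⟩, hk⟩
    have h1 : ∀ l, ∃ c : ℤ, φ l j k x - φ l i k x + φ l i j x = c := by
      intro l
      rw [← exp_eq_one_iff_int]
      have e1 := hφ l j k x ⟨hj, hk⟩
      have e2 := hφ l i k x ⟨hi, hk⟩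
      have e3 := hφ l i j x ⟨hi, hj⟩
      have e4 : 2 * Real.pi * Complex.I * (φ l j k x - φ l i k x + φ l i j x) =
          2 * Real.pi * Complex.I * φ l j k x - 2 * Real.pi * Complex.I * φ l i k x +
          2 * Real.pi * Complex.I * φ l i j x := by ring
      rw [e4, Complex.exp_add, Complex.exp_sub, e1, e2, e3, ← (L l).mul i j k x ⟨⟨hi, hj⟩, hk⟩]
      have n1 := (L l).ne_zero i j x
      have n2 := (L l).ne_zero j k x
      field_simp
    choose c hc' using h1
    have b1 := hβ j k x ⟨hj, hk⟩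
    have b2 := hβ i k x ⟨hi, hk⟩
    have b3 := hβ i j x ⟨hi, hj⟩
    have h2 : ∑ l, (t l : ℂ) * (φ l j k x - φ l i k x + φ l i j x) =
        (β j k : ℂ) - β i k + β i j := by
      rw [← b1, ← b2, ← b3]
      simp only [mul_add, mul_sub, Finset.sum_add_distrib, Finset.sum_sub_distrib]
      ring
    simp only [hc'] at h2 ⊢
    have h3 : ∑ l, t l * (c l : ℝ) = β j k - β i k + β i j := by
      exact_mod_cast h2
    have h4 : ∑ l, f (t l) * (c l : ℚ) = f (β j k) - f (β i k) + f (β i j) := by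
      rw [← map_sub, ← map_add, ← h3, map_sum]
      refine Finset.sum_congr rfl fun l _ => ?_
      have e1 : t l * (c l : ℝ) = (c l : ℚ) • t l := by
        rw [Rat.smul_def, Rat.cast_intCast, mul_comm]
      rw [e1, map_smul, smul_eq_mul, mul_comm]
    have h5 : ∑ l, (m (Sum.inl l) : ℚ) * (c l : ℚ) =
        (m (Sum.inr (j, k)) : ℚ) - m (Sum.inr (i, k)) + m (Sum.inr (i, j)) := by
      rw [hmb, hmb, hmb]
      have e1 : ∀ l, (m (Sum.inl l) : ℚ) * (c l : ℚ) = D * (f (t l) * (c l : ℚ)) := by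
        intro l
        rw [hmt]
        ring
      simp only [e1]
      rw [← Finset.mul_sum, h4]
      ring
    exact_mod_cast h5
  refine triv_of_log hA P K _ ⟨fun i j x => ∑ l, (m (Sum.inl l) : ℂ) * φ l i j x -
    m (Sum.inr (i, j)), fun i j => ?_, fun i j k x hx => ?_⟩ fun i j x hx => ?_
  · exact (HolAt.sum _ fun l _ => (hφh l i j).const_mul _).sub (holAt_const _)
  · have h1 := key i j k x hx
    simp only [mul_add, mul_sub, Finset.sum_add_distrib, Finset.sum_sub_distrib] at h1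
    linear_combination h1
  · rw [prod_zpow_g, mul_sub, Complex.exp_sub, Finset.mul_sum, Complex.exp_sum]
    have h1 : Complex.exp (2 * Real.pi * I * (m (Sum.inr (i, j)) : ℂ)) = 1 :=
      (exp_eq_one_iff_int _).2 ⟨_, rfl⟩
    rw [h1, div_one]
    refine Finset.prod_congr rfl fun l _ => ?_
    rw [← hφ l i j x hx, ← Complex.exp_int_mul]
    congr 1
    ring

end rel

end

end Crest.Agent.R281.Sc_413
end

-- ▼ part R281/Sc6_413
section

/-!
# Row 281, SC-PIC, part 6 (helper413): proportional classes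

* `combK G t : K11 A`  : real linear combinations, `combK_f2`
* `rat_ex`             : `Ex (∑ t_j • (curK (h j)).f2)` ==> integral relations (`rat_main`)
* `exists_fun`         : `t` irrational ==> `f : ℝ →ₗ[ℚ] ℚ`, `f 1 = 1`, `f t = 0`
* `pow_of_prop`        : `Ex ((curK hN).f2 - t • (curK hL).f2)` ==> `N ^ k * (L ^ a)⁻¹` has a nowhere
                         zero section for some `k > 0`, `a : ℤ`
-/

set_option autoImplicit false
set_option linter.unusedSectionVars false

open Set Filter Topology Complex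
open scoped ContDiff Matrix ComplexConjugate InnerProductSpace

namespace Crest.Agent.R281.Sc_413

open Crest.Agent.R275 Crest.Agent.R275.Geo Crest.Agent.R275.Core144 Crest.Agent.R275.EDR890
open Crest.Agent.R275.GC293
open Crest.Agent.R273 Crest.Agent.R273.Defs_333 Crest.Agent.R273.Kah_333 Crest.Agent.R273.HM_333
open Crest.Agent.R273.Hess_333 Crest.Agent.R273.HessB_333
open Crest.Agent.R273.LamN127
open Crest.Agent.R281.HkR_835 Crest.Agent.R281.Ti_846 Crest.Agent.R281.Hdg_850

noncomputable section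

variable {n : ℕ} {M : Type} [TopologicalSpace M] {A : Atl n M}

/-! ### combinations of (1,1)-forms -/

section comb

variable {J : Type} [Fintype J] (G : J → K11 A) (t : J → ℝ)

theorem wd_comb {f : J → Cn n → ℂ} {z : Cn n} (hf : ∀ j, DifferentiableAt ℝ (f j) z) (s : WI n) :
    wd s (fun w => ∑ j, (t j : ℂ) * f j w) z = ∑ j, (t j : ℂ) * wd s (f j) z := by
  refine (wd_sum Finset.univ (fun j _ => (hf j).const_mul (t j : ℂ)) s).trans ?_
  refine Finset.sum_congr rfl fun j _ => ?_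
  have := wd_const_smul (t j : ℂ) (hf j) s
  simpa only [smul_eq_mul] using this

/-- `∑ t_j G_j` -/
def combK : K11 A where
  g i x := ∑ j, (t j : ℂ) • (G j).g i x
  sm i a b := by
    have h1 : ContDiffOn ℝ ∞ (fun z => ∑ j, (t j : ℂ) * (G j).g i ((A.e i).symm z) a b)
        (A.e i).target := ContDiffOn.sum fun j _ => contDiffOn_const.mul ((G j).sm i a b)
    refine h1.congr fun z _ => ?_
    simp only [Matrix.sum_apply, Matrix.smul_apply, smul_eq_mul]
  herm i x hx := by
    show (∑ j, (t j : ℂ) • (G j).g i x)ᴴ = _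
    rw [Matrix.conjTranspose_sum]
    refine Finset.sum_congr rfl fun j _ => ?_
    rw [Matrix.conjTranspose_smul, ((G j).herm i x hx).eq]
    congr 1
    exact Complex.conj_ofReal _
  tr i j x hx := by
    rw [Matrix.mul_sum, Matrix.sum_mul]
    refine Finset.sum_congr rfl fun k _ => ?_
    rw [(G k).tr i j x hx, Matrix.mul_smul, Matrix.smul_mul]
  closed i z hz a b c := by
    have hd : ∀ a b j, DifferentiableAt ℝ (fun w => (G j).g i ((A.e i).symm w) a b) z :=
      fun a b j => (((G j).sm i a b).contDiffAt ((A.e i).open_target.mem_nhds hz)).differentiableAt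
        (by simp)
    simp only [Matrix.sum_apply, Matrix.smul_apply, smul_eq_mul]
    rw [wd_comb t (hd a b), wd_comb t (hd c b)]
    exact Finset.sum_congr rfl fun j _ => by rw [(G j).closed i z hz a b c]

theorem combK_f2 {i : A.ι} {z : Cn n} (hz : z ∈ (A.e i).target) (u v : Cn n) :
    (∑ j, t j • (G j).f2 : F2 (ofAtl A)).w i z u v = (combK G t).f2.w i z u v := by
  have h1 : (∑ j, t j • (G j).f2 : F2 (ofAtl A)).w i z u v = ∑ j, t j * (G j).f2.w i z u v := by
    have h0 := congrArg (fun B : Bil (Cn n) => B u v)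
      (F2.sum_w (C := ofAtl A) Finset.univ (fun j => t j • (G j).f2) i z)
    refine h0.trans ?_
    simp only [sum_apply]
    rfl
  rw [h1, (combK G t).f2_w hz]
  have h2 : hb ((combK G t).g i ((A.e i).symm z)) u v =
      ∑ j, (t j : ℂ) * hb ((G j).g i ((A.e i).symm z)) u v := by
    show hb (∑ j, (t j : ℂ) • (G j).g i ((A.e i).symm z)) u v = _
    rw [← hbL_apply u v (∑ j, _), map_sum]
    exact Finset.sum_congr rfl fun j _ => by rw [map_smul, hbL_apply, smul_eq_mul]
  rw [h2, Finset.mul_sum, Complex.re_sum]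
  refine Finset.sum_congr rfl fun j _ => ?_
  rw [(G j).f2_w hz]
  simp only [Complex.mul_re, Complex.mul_im, Complex.I_re, Complex.I_im, Complex.ofReal_re,
    Complex.ofReal_im]
  ring

end comb

section sc

variable [CompactSpace M] [T2Space M] [SimplyConnectedSpace M] [Finite A.ι]

/-- **real relations between Chern classes are spanned by integral ones** -/
theorem rat_ex (hA : GoodA A) (P : Part A) (K : Kah A) {J : Type} [Fintype J] {L : J → LB A}
    (h : ∀ j, HM (L j)) (t : J → ℝ) (he : Ex (∑ j, t j • (curK (h j)).f2))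
    (f : ℝ →ₗ[ℚ] ℚ) : ∃ (D : ℕ) (m : J → ℤ), 0 < D ∧ (∀ j, (m j : ℚ) = D * f (t j)) ∧
      Triv (∏ j, L j ^ m j) := by
  have h1 : Ex (combK (fun j => curK (h j)) t).f2 :=
    ex_congr he fun i z hz u v => combK_f2 _ t hz u v
  obtain ⟨u, hu, h2⟩ := hsf_of_ex hA P K _ h1
  exact rat_main h t hA P K hu h2 f

/-- a `ℚ`-linear functional -/
theorem exists_fun {t : ℝ} (ht : Irrational t) : ∃ f : ℝ →ₗ[ℚ] ℚ, f 1 = 1 ∧ f t = 0 := by
  let T : (ℚ × ℚ) →ₗ[ℚ] ℝ := (LinearMap.toSpanSingleton ℚ ℝ 1).coprod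
    (LinearMap.toSpanSingleton ℚ ℝ t)
  have hT : ∀ p, T p = p.1 + p.2 * t := by
    intro p
    simp [T, LinearMap.toSpanSingleton_apply, Rat.smul_def]
  have hinj : LinearMap.ker T = ⊥ := by
    rw [LinearMap.ker_eq_bot']
    rintro ⟨a, b⟩ h
    rw [hT] at h
    by_cases hb : b = 0
    · subst hb
      simp only [Rat.cast_zero, zero_mul, add_zero, Rat.cast_eq_zero] at h
      rw [h]
      rfl
    · exfalso
      have hb' : (b : ℝ) ≠ 0 := by exact_mod_cast hb
      have h1 : t = ((-a / b : ℚ) : ℝ) := by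
        push_cast
        field_simp
        linear_combination h
      exact ht ⟨_, h1.symm⟩
  obtain ⟨g, hg⟩ := T.exists_leftInverse_of_injective hinj
  have h1 : g 1 = (1, 0) := by
    have := LinearMap.congr_fun hg (1, 0)
    rw [LinearMap.comp_apply, hT] at this
    simpa using this
  have h2 : g t = (0, 1) := by
    have := LinearMap.congr_fun hg (0, 1)
    rw [LinearMap.comp_apply, hT] at this
    simpa using this
  exact ⟨(LinearMap.fst ℚ ℚ ℚ).comp g, by simp [h1], by simp [h2]⟩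

variable {N L : LB A}

/-- **proportional classes** : `c_1(N) = t c_1(L)`, `t` real, implies `N ^ k = L ^ a` up to
isomorphism, `k > 0` -/
theorem pow_of_prop (hA : GoodA A) (P : Part A) (K : Kah A) (hN : HM N) (hL : HM L) (t : ℝ)
    (he : Ex ((curK hN).f2 - t • (curK hL).f2)) :
    ∃ (k : ℕ) (a : ℤ), 0 < k ∧ Triv (N ^ k * (L ^ a)⁻¹) := by
  by_cases ht : Irrational t
  · obtain ⟨f, hf1, hft⟩ := exists_fun ht
    let LL : Bool → LB A := fun b => bif b then N else L
    let hh : ∀ b, HM (LL b) := fun b => by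
      cases b
      · exact hL
      · exact hN
    let tt : Bool → ℝ := fun b => bif b then 1 else -t
    have h1 : Ex (∑ b, tt b • (curK (hh b)).f2) := by
      have e1 : (∑ b, tt b • (curK (hh b)).f2 : F2 (ofAtl A)) =
          (curK hN).f2 - t • (curK hL).f2 := by
        rw [Fintype.sum_bool]
        show (1 : ℝ) • (curK hN).f2 + (-t) • (curK hL).f2 = _
        rw [one_smul, neg_smul, sub_eq_add_neg]
      rw [e1]
      exact he
    obtain ⟨D, m, hD, hm, hT⟩ := rat_ex hA P K hh tt h1 f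
    refine ⟨D, 0, hD, ?_⟩
    have e1 : m true = D := by
      have := hm true
      simp only [tt, cond_true, hf1, mul_one] at this
      exact_mod_cast this
    have e2 : m false = 0 := by
      have := hm false
      simp only [tt, cond_false, map_neg, hft, neg_zero, mul_zero] at this
      exact_mod_cast this
    rw [Fintype.prod_bool, e1, e2] at hT
    simpa [LL] using hT
  · rw [Irrational, not_not] at ht
    obtain ⟨q, rfl⟩ := ht
    have h1 : Ex (((q.den : ℤ) : ℝ) • (curK hN).f2 - ((q.num : ℤ) : ℝ) • (curK hL).f2) := by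
      have h2 : Ex ((q.den : ℝ) • ((curK hN).f2 - (q : ℝ) • (curK hL).f2)) :=
        (exS (ofAtl A)).smul_mem _ he
      have e1 : ((q.den : ℝ) • ((curK hN).f2 - (q : ℝ) • (curK hL).f2) : F2 (ofAtl A)) =
          ((q.den : ℤ) : ℝ) • (curK hN).f2 - ((q.num : ℤ) : ℝ) • (curK hL).f2 := by
        rw [smul_sub, smul_smul]
        have e2 : (q.den : ℝ) * (q : ℝ) = ((q.num : ℤ) : ℝ) := by
          have := Rat.mul_den_eq_num q
          rw [mul_comm] at this
          exact_mod_cast this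
        rw [e2]
        simp
      rw [e1] at h2
      exact h2
    refine ⟨q.den, q.num, q.den_pos, ?_⟩
    have h2 := triv_of_prop hA P K hN hL (q.den : ℤ) q.num h1
    rwa [zpow_natCast] at h2

end sc

end

end Crest.Agent.R281.Sc_413
end

-- ▼ part R281/Kd11_22
section

/-!
# Row 281, KAPPA-1 glue, part 11 (helper22): `NSMov`

* `cls_pull` : the class of the curvature under a refinement of the atlas
* `np_of_rk` : `Rk` ==> two non-proportional sections
* `nsmov`    : **`NSMov L T r`** at a structure with `Ctx`, `Given`, `NefC`, for a line bundle `L`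
               with `c_1(L)` a positive multiple of `e`, and a tube over whose tori the classes
               orthogonal to `e` vanish
-/

set_option autoImplicit false
set_option linter.unusedSectionVars false
set_option maxSynthPendingDepth 3

open Set Filter Topology Complex Module
open scoped ContDiff

namespace Crest.Agent.R281.Kd_22

open Crest.Agent.R275.Geo Crest.Agent.R275.Core144 Crest.Agent.R275.EDR890
open Crest.Agent.R275.GC293
open Crest.Agent.R273.Defs_333 Crest.Agent.R273.Kah_333 Crest.Agent.R273.HM_333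
open Crest.Agent.R273.Map_835 (HolMap)
open Crest.Agent.R273.PB_835 (LBih Ref pullLB)
open Crest.Agent.R260.ACM_580 Crest.Agent.R260.NNB_580
open Crest.Agent.R281.HkR_835 Crest.Agent.R281.Ti_846 Crest.Agent.R281.Dif_268
open Crest.Agent.R281.Defs_273 (NefW)
open Crest.Agent.R281.Rk_599
open Crest.Agent.R281.NefO_476
open Crest.Agent.R281.Nef_252
open Crest.Agent.R281.Per_368 (per pull SmI)
open Crest.Agent.R281.RkD_902 (Ctx Given)
open Crest.Agent.R281.Sc_413 (Triv)
open Crest.Agent.R281.SkM_474 (FL FL_apply sig_atl)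
open Crest.Agent.R281.Fuj7_207 (bn Tn)
open Crest.Agent.R281.Fuj5_207 (E11)
open Crest.Agent.R281.PL_713 (PL)

noncomputable section

variable {d : ℕ} {V X : Type} [NormedAddCommGroup V] [NormedSpace ℝ V] [TopologicalSpace X]
  {C : RCh V X} {A A' : Atl d X}

/-- the class of the curvature under a refinement of the atlas -/
theorem cls_pull {H : HkT C} (hA : Cp (H.acm 0) A) (hA' : Cp (H.acm 0) A')
    (h1 : HolMap A' A id) (h2 : HolMap A A' id) (R : Ref A' A id) {L : LB A} (h : HM L)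
    {w : F2 C} (hw : Ex ((curK h).f2 - (cmp_of_cp hA).F w)) :
    Ex ((curK ((Crest.Agent.R273.PB_835.PB.ref h1 R L).pullHM h1 h)).f2 -
      (cmp_of_cp hA').F w) := by
  set h' := (Crest.Agent.R273.PB_835.PB.ref h1 R L).pullHM h1 h with hh'
  set g := SMap.ofCmp (Crest.Agent.R281.Cdr_234.cmp_of_hol h1 h2) with hg
  have e1 : Eqv (Crest.Agent.R281.Cdr_234.c1F h') (g.pull (Crest.Agent.R281.Cdr_234.c1F h)) :=
    Crest.Agent.R281.Kb_565.eqv_c1F_pull _ h1 h2 h
  have hπ : Real.pi ≠ 0 := Real.pi_ne_zero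
  have c1 : ∀ {A : Atl d X} {L : LB A} (h : HM L), Eqv (curK h).f2
      (Real.pi • Crest.Agent.R281.Cdr_234.c1F h) := by
    intro A L h i z hz u v
    have : Crest.Agent.R281.Cdr_234.c1F h = (Real.pi⁻¹ : ℝ) • (curK h).f2 := rfl
    rw [this, smul_smul, mul_inv_cancel₀ hπ, one_smul]
  have e2 : Eqv (curK h').f2 (g.pull (curK h).f2) := by
    have e3 : Eqv (curK h').f2 (Real.pi • Crest.Agent.R281.Cdr_234.c1F h') := c1 h'
    refine e3.trans ?_
    have e4 : Eqv (Real.pi • Crest.Agent.R281.Cdr_234.c1F h')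
        (Real.pi • g.pull (Crest.Agent.R281.Cdr_234.c1F h)) := fun i z hz u v =>
      congrArg (fun t : ℝ => Real.pi * t) (e1 i z hz u v)
    refine e4.trans ((pull_smul g Real.pi _).symm.trans ?_)
    exact (c1 h).symm.pull g
  have e5 : Ex (g.pull ((curK h).f2 - (cmp_of_cp hA).F w)) := g.ex_pull hw
  have e6 : Eqv (g.pull ((curK h).f2 - (cmp_of_cp hA).F w))
      ((curK h').f2 - (cmp_of_cp hA').F w) := by
    refine (pull_sub g _ _).trans fun i z hz u v => ?_
    have e7 := e2 i z hz u v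
    have e8 := Crest.Agent.R281.Kb_565.F_comp_hol hA hA' h1 h2 w i z hz u v
    show (g.pull (curK h).f2).w i z u v - (g.pull ((cmp_of_cp hA).F w)).w i z u v =
      (curK h').f2.w i z u v - ((cmp_of_cp hA').F w).w i z u v
    rw [e7, e8]
  exact e6.ex e5

/-- `Rk` ==> two non-proportional sections -/
theorem np_of_rk {N : LB A} {r : ℕ} {t : Fin (r + 1) → A.ι → X → ℂ} (ht : ∀ j, IsHS N univ (t j))
    (hr : 0 < r) {i : A.ι} {x : X} (h : Rk A t i x) : ∃ s : Fin 2 → A.ι → X → ℂ,
      (∀ k, IsHS N univ (s k)) ∧ ∀ a b : ℂ,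
        (∀ i, ∀ x ∈ (A.e i).source, a * s 0 i x + b * s 1 i x = 0) → a = 0 ∧ b = 0 := by
  obtain ⟨hx, h0, hl⟩ := h
  refine ⟨![t 0, t (Fin.succ ⟨0, hr⟩)], fun k => ?_, fun a b hab => ?_⟩
  · fin_cases k
    · exact ht 0
    · exact ht _
  have hb : b = 0 := by
    by_contra hb
    have h1 := hl.ne_zero ⟨0, hr⟩
    refine h1 ?_
    have h2 : rat A t i ⟨0, hr⟩ =ᶠ[𝓝 (A.e i x)] fun _ => - a / b := by
      have h3 : ∀ᶠ z in 𝓝 (A.e i x), t 0 i ((A.e i).symm z) ≠ 0 := by
        have h4 := (an_sec (ht 0) i ((A.e i).map_source hx)).continuousAt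
        refine h4.eventually_ne ?_
        show t 0 i ((A.e i).symm (A.e i x)) ≠ 0
        rw [(A.e i).left_inv hx]; exact h0
      filter_upwards [h3, (A.e i).open_target.mem_nhds ((A.e i).map_source hx)] with z hz hzt
      have h5 := hab i _ ((A.e i).map_target hzt)
      simp only [Matrix.cons_val_zero, Matrix.cons_val_one] at h5
      show t (Fin.succ ⟨0, hr⟩) i ((A.e i).symm z) / t 0 i ((A.e i).symm z) = _
      rw [div_eq_div_iff hz hb]
      linear_combination h5
    rw [h2.fderiv_eq]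
    exact fderiv_const_apply _
  refine ⟨?_, hb⟩
  have h5 := hab i x hx
  simp only [Matrix.cons_val_zero, hb, zero_mul, add_zero] at h5
  exact (mul_eq_zero.1 h5).resolve_right h0

theorem inv_aux {G : Type*} [CommGroup G] (x y : G) (k a : ℕ) :
    (x ^ k * (y ^ (a : ℤ))⁻¹)⁻¹ = y ^ a * (x ^ k)⁻¹ := by
  rw [zpow_natCast, mul_inv, inv_inv, mul_comm]

/-- polar forms along a linear map -/
theorem polar_map {H₁ H₂ : Type*} [AddCommGroup H₁] [Module ℝ H₁] [AddCommGroup H₂] [Module ℝ H₂]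
    {q : QuadraticForm ℝ H₁} {q' : QuadraticForm ℝ H₂} {G : H₁ →ₗ[ℝ] H₂} (h : ∀ x, q' (G x) = q x)
    (x y : H₁) : QuadraticMap.polar q' (G x) (G y) = QuadraticMap.polar q x y := by
  simp only [QuadraticMap.polar, ← map_add, h]

section main

variable {n : ℕ} {X : Type} [TopologicalSpace X] [CompactSpace X] [T2Space X]
  [SimplyConnectedSpace X] {C : RCh (Cn (2 * n)) X} {Q : F2 C →ₗ[ℝ] F2 C →ₗ[ℝ] ℝ} {H : HkT C}
  {L0 : PL C} {e : F2 C} {A : Atl (2 * n) X} {F B : Type} [NormedAddCommGroup F]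
  [NormedSpace ℂ F] [NormedAddCommGroup B] [NormedSpace ℂ B] [FiniteDimensional ℂ F]
  [FiniteDimensional ℂ B]

/-- the curvature of a line bundle whose section has no zeros on a torus is orthogonal to `e` -/
theorem orth_e [Nontrivial F] (hA : Cp (H.acm 0) A) (T : HTube A F B)
    (hdim : finrank ℂ F + finrank ℂ B = 2 * n) (hPV : PVan Q e T) {N : LB A} (h : HM N)
    {s : A.ι → X → ℂ} (hs : IsHS N univ s) {b : B} (hb : b ∈ T.Om)
    (h0 : ∀ c i, T.P (c, b) ∈ (A.e i).source → s i (T.P (c, b)) ≠ 0) :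
    Q ((cmp_of_cp hA).symm.F (curK h).f2) e = 0 := by
  have _ : FiniteDimensional ℝ F := FiniteDimensional.complexToReal F
  have hS := T.smI hb
  have hSC : SmI C univ (fun c => T.P (c, b)) := smI_change (cmp_of_cp hA) hS
  obtain ⟨m, β, hβp, hβ⟩ := hPV b hb
  have hper : ∀ l ∈ range β, ∀ ζ ∈ (univ : Set F), ζ + l ∈ (univ : Set F) ∧
      T.P (ζ + l, b) = T.P (ζ, b) := by
    rintro _ ⟨a, rfl⟩ ζ _
    exact ⟨mem_univ _, hβp a ζ⟩
  have e0 : Eqv ((cmp_of_cp hA).F (H.om 0)) (ofKah (H.kah hA)).f2 := fun i z hz u v => by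
    have h1 := K0_om0 (H.onA hA) (onA_J H hA) hz
    exact (congrArg (fun B : Bil (Cn (2 * n)) => B u v) h1).symm
  refine q_zero' (Q := Q.flip e) hSC β (fun w hw => hβ w hw) (k := H.om 0) ?_ ?_
  · obtain ⟨z, a, c, hne⟩ := kah_per_ne T hdim (H.kah hA) hb β hβp
    refine ⟨z, a, c, ?_⟩
    have e1 : per (pull (H.om 0) fun c => T.P (c, b)) z (β a) (β c) =
        per (pull (ofKah (H.kah hA)).f2 fun c => T.P (c, b)) z (β a) (β c) := by
      refine per_congr fun s t => ?_
      rw [← pull_F (cmp_of_cp hA) hS (H.om 0) (mem_univ _), pull_eqv e0]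
    rw [e1]; exact hne
  · intro z a c
    have e1 : per (pull ((cmp_of_cp hA).symm.F (curK h).f2) fun c => T.P (c, b)) z (β a) (β c) =
        per (pull (curK h).f2 fun c => T.P (c, b)) z (β a) (β c) := by
      refine per_congr fun s t => ?_
      rw [pull_F (cmp_of_cp hA).symm hSC (curK h).f2 (mem_univ _)]
    rw [e1]
    exact tor_zero (Λ := range β) h hs hS hper (fun ζ _ i hi => h0 ζ i hi) ⟨a, rfl⟩ ⟨c, rfl⟩
      fun _ _ => mem_univ _

/-- **`NSMov`** -/
theorem nsmov [Nontrivial F] (hX : Ctx n C Q) (hG : Given Q H L0 e)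
    (hnef : NefC (ofHk H 0) (H.om 0) e) (hA : Cp (H.acm 0) A) {L : LB A} (h : HM L) {c : ℝ}
    (hc : 0 < c) (hcl : Ex ((curK h).f2 - c • (cmp_of_cp hA).F e)) (T : HTube A F B)
    (hne : T.Om.Nonempty) (hdim : finrank ℂ F + finrank ℂ B = 2 * n) (hPV : PVan Q e T)
    {r : ℕ} (hr : 0 < r) : NSMov L T r := by
  intro A' R hl hl' hfin hgood hPart N t ht hcop hrk hfib
  obtain ⟨P'⟩ := hPart
  obtain ⟨i, x, hrk⟩ := hrk
  have hA' : Cp (H.acm 0) A' := cp_of_hol hA hl.toHolMap hl'.toHolMap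
  obtain ⟨hN⟩ := exists_hm P' N
  set L' := pullLB hl.toHolMap R L with hL'
  set h' : HM L' := (Crest.Agent.R273.PB_835.PB.ref hl.toHolMap R L).pullHM hl.toHolMap h with hh'
  have hcl' : Ex ((curK h').f2 - (cmp_of_cp hA').F (c • e)) :=
    cls_pull hA hA' hl.toHolMap hl'.toHolMap R h hcl
  -- the signature package on `A'`
  have hn1 := hX.n1
  obtain ⟨P, q, κ, hκ, Tp, hQ⟩ := hX.top
  have hQs : ∀ x, Q x x = κ * (2 * q x) := fun x => by
    rw [hQ, QuadraticMap.polar_self, nsmul_eq_mul, Nat.cast_ofNat]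
  have hq0 : 0 < q (H.om 0) := by
    have h1 := hG.pos
    rw [hQs] at h1
    have h2 := (mul_pos_iff_of_pos_left hκ).1 h1
    linarith
  have hqe : q e = 0 := by
    have h1 := hG.ee
    rw [hQs] at h1
    have h2 := (mul_eq_zero.1 h1).resolve_left hκ.ne'
    linarith
  have hp0 : 0 < QuadraticMap.polar q (H.om 0) e := by
    have h1 := hG.e0
    rw [hX.symm, hQ] at h1
    exact (mul_pos_iff_of_pos_left hκ).1 h1
  obtain ⟨hcl0, S', hT, hq', g1, g2, g3⟩ := sig_atl Tp hq0 P' hA' (by omega)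
  set q' := Crest.Agent.R281.Fuj1_207.qf (Tn (two_mul n) P') (by omega) n
    (Crest.Agent.R281.Fuj5_207.reS (H.sig hA').toH2 hcl0) with hq'def
  set G := FL (cmp_of_cp hA') with hGdef
  have hpol : ∀ x y, QuadraticMap.polar q' (G x) (G y) = QuadraticMap.polar q x y :=
    polar_map hq'
  have hex : ∀ x y y', y - y' ∈ Crest.Agent.R281.Ti_846.exS (ofAtl A') →
      QuadraticMap.polar q' x y = QuadraticMap.polar q' x y' := by
    intro x y y' hy
    have h1 := S'.ex x _ hy
    rw [QuadraticMap.polar_sub_right, sub_eq_zero] at h1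
    exact h1
  have hwc : (curK h').f2 - G (c • e) ∈ Crest.Agent.R281.Ti_846.exS (ofAtl A') := hcl'
  -- orthogonality
  obtain ⟨b₁, hb₁⟩ := hne
  obtain ⟨b, hbW, hb0⟩ := hfib b₁ hb₁ univ univ_mem
  have horth : Q ((cmp_of_cp hA').symm.F (curK hN).f2) e = 0 :=
    orth_e hA' (T.change hl.toHolMap hl'.toHolMap) hdim (hPV.change hl.toHolMap hl'.toHolMap) hN
      (ht 0) hbW.2 hb0
  set y := (cmp_of_cp hA').symm.F (curK hN).f2 with hy
  have hGy : G y - (curK hN).f2 ∈ Crest.Agent.R281.Ti_846.exS (ofAtl A') :=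
    Crest.Agent.R281.SkM_474.mem_exS_of_eqv (F_F (cmp_of_cp hA').symm (curK hN).f2)
  have hNw : QuadraticMap.polar q' (curK hN).f2 (curK h').f2 = 0 := by
    rw [hex _ _ _ hwc, QuadraticMap.polar_comm, ← hex _ _ _ hGy, hpol]
    have h1 := horth
    rw [hQ] at h1
    have h2 := (mul_eq_zero.1 h1).resolve_left hκ.ne'
    rw [QuadraticMap.polar_smul_left, QuadraticMap.polar_comm, h2]
    simp
  have hww : q' (curK h').f2 = 0 := by
    rw [Crest.Agent.R281.SkM_474.sq_congr S' hwc, hq', QuadraticMap.map_smul, hqe]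
    simp
  have how : 0 < QuadraticMap.polar q' (G (H.om 0)) (curK h').f2 := by
    rw [hex _ _ _ hwc, hpol, QuadraticMap.polar_smul_right]
    exact mul_pos hc hp0
  have hNef' : NefC (jA A') (G (H.om 0)) (curK h').f2 := by
    have h1 := (NefC_hk hA' _ _).1 (hnef.smul hc.le)
    refine h1.congr (by rw [FL_apply, sub_self]; exact Crest.Agent.R281.Nef_252.ex_zero) ?_
    have := Crest.Agent.R281.Nef_252.ex_neg hcl'
    rwa [neg_sub] at this
  obtain ⟨-, a, ha⟩ := Crest.Agent.R281.Mov_625.mov_prop (two_mul n) P' S' hNef'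
    (Crest.Agent.R281.Fuj5_207.f2_mem _) hww how hN hNw ht hcop
  -- powers
  obtain ⟨k, a', hk, hTriv⟩ := Crest.Agent.R281.Sc_413.pow_of_prop hgood P' (H.kah hA') hN h' a ha
  -- the sign
  obtain ⟨s, hs, hnp⟩ := np_of_rk ht hr hrk
  have hD := Crest.Agent.R281.Deg_751.Deg_pos P' (H.kah hA') hs hnp
  have hnW : NefW (H.kah hA') L' :=
    (nefC_hk_iffU (by omega) hA' P' (H.kah hA') h' (T11_hk H 0) (Pos_hk H 0) hcl').2
      (hnef.smul hc.le)
  have hDL := Crest.Agent.R281.Deg_751.Deg_nef P' (H.kah hA') hnW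
  have hD0 : Crest.Agent.R281.Deg_751.Deg P' (H.kah hA') (N ^ k * (L' ^ a')⁻¹) = 0 := by
    obtain ⟨u, hu, hu0⟩ := hTriv
    exact Crest.Agent.R281.Deg_751.deg_zero_of_triv P' (H.kah hA') _ hu hu0
  rw [Crest.Agent.R281.Deg_751.Deg_mul, Crest.Agent.R281.Deg_751.Deg_inv,
    Crest.Agent.R281.Deg_751.Deg_pow, Crest.Agent.R281.Deg_751.Deg_zpow] at hD0
  have ha' : 0 < a' := by
    have hkr : (0 : ℝ) < k := by exact_mod_cast hk
    have h1 : 0 < (k : ℝ) * Crest.Agent.R281.Deg_751.Deg P' (H.kah hA') N := mul_pos hkr hD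
    have h2 : 0 < (a' : ℝ) * Crest.Agent.R281.Deg_751.Deg P' (H.kah hA') L' := by linarith
    by_contra h3
    push Not at h3
    have h4 : (a' : ℝ) ≤ 0 := by exact_mod_cast h3
    exact absurd h2 (not_lt.2 (mul_nonpos_of_nonpos_of_nonneg h4 hDL))
  obtain ⟨a₀, rfl⟩ := Int.eq_ofNat_of_zero_le ha'.le
  refine ⟨k, a₀, hk, by exact_mod_cast ha', ?_⟩
  have hT2 := hTriv.inv
  obtain ⟨σ, hσ, hσ0⟩ := hT2
  refine ⟨σ, ?_, hσ0⟩
  exact isHS_cast (inv_aux N L' k a₀) hσ

end main

end

end Crest.Agent.R281.Kd_22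
end

-- ▼ part R281/Kd12_22
section

/-!
# Row 281, KAPPA-1 glue, part 12 (helper22): the end of KAPPA-1

* `pres_cls`   : `c_1(p.L) = π e` (in the normalisation of `curK`) for a presentation `p`
* `kappa_main` : sections with `Rk` and the cross relation on the tori of a tube ==> sections of a
                 power of `L` with `Rk`
-/

set_option autoImplicit false
set_option linter.unusedSectionVars false
set_option maxSynthPendingDepth 3

open Set Filter Topology Complex Module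
open scoped ContDiff

namespace Crest.Agent.R281.Kd_22

open Crest.Agent.R275.Geo Crest.Agent.R275.Core144 Crest.Agent.R275.EDR890
open Crest.Agent.R275.GC293
open Crest.Agent.R273.Defs_333 Crest.Agent.R273.Kah_333
open Crest.Agent.R273.Map_835 (HolMap)
open Crest.Agent.R273.PB_835 (LBih Ref pullLB)
open Crest.Agent.R260.ACM_580 Crest.Agent.R260.NNB_580
open Crest.Agent.R281.HkR_835 Crest.Agent.R281.Ti_846 Crest.Agent.R281.Dif_268
open Crest.Agent.R281.Rk_599
open Crest.Agent.R281.NefO_476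
open Crest.Agent.R281.Nef_252
open Crest.Agent.R281.RkD_902 (Ctx Given Pres)
open Crest.Agent.R281.SkM_474 (FL FL_apply)
open Crest.Agent.R281.PL_713 (PL)

noncomputable section

variable {n : ℕ} {X : Type} [TopologicalSpace X] [CompactSpace X] [T2Space X]
  [SimplyConnectedSpace X] {C : RCh (Cn (2 * n)) X} {Q : F2 C →ₗ[ℝ] F2 C →ₗ[ℝ] ℝ} {H : HkT C}
  {L0 : PL C} {e : F2 C}

/-- the class of the line bundle of a presentation -/
theorem pres_cls (hlnk : Ex (L0.F - (-(2 * Real.pi)) • e)) (p : Pres n H L0) :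
    Ex ((curK p.h).f2 - Real.pi • (cmp_of_cp p.cp).F e) := by
  set G := FL (cmp_of_cp p.cp) with hG
  have h1 : Ex ((L0.add p.a).F - L0.F) := by
    refine ⟨p.a, fun i z hz u v => ?_⟩
    have h2 := Crest.Agent.R281.PL_713.PL.add_F L0 p.a hz u v
    show (L0.add p.a).F.w i z u v - L0.F.w i z u v = _
    rw [h2, add_sub_cancel_left]
    rfl
  have h2 : Ex ((L0.add p.a).F - (-(2 * Real.pi)) • e) := by
    have := Crest.Agent.R281.Nef_252.ex_add h1 hlnk
    rwa [sub_add_sub_cancel] at this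
  have h3 : Ex (G ((L0.add p.a).F - (-(2 * Real.pi)) • e)) :=
    Crest.Agent.R281.HkR_835.ex_F (cmp_of_cp p.cp) h2
  rw [map_sub, map_smul] at h3
  have h4 : Ex (G (L0.add p.a).F - (-2 : ℝ) • (curK p.h).f2) := eqv_ex_sub p.cur
  have h5 : Ex ((-2 : ℝ) • (curK p.h).f2 - (-(2 * Real.pi)) • G e) := by
    have := Crest.Agent.R281.Nef_252.ex_sub h3 h4
    rwa [sub_sub_sub_cancel_left] at this
  have h6 := Crest.Agent.R281.Nef_252.ex_smul (-1 / 2 : ℝ) h5
  have e1 : (-1 / 2 : ℝ) • ((-2 : ℝ) • (curK p.h).f2 - (-(2 * Real.pi)) • G e) =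
      (curK p.h).f2 - Real.pi • G e := by
    rw [smul_sub, smul_smul, smul_smul]
    congr 1
    · rw [show (-1 / 2 : ℝ) * -2 = 1 by ring, one_smul]
    · congr 1; ring
  rwa [e1] at h6

variable {A : Atl (2 * n) X} {F B : Type} [NormedAddCommGroup F]
  [NormedSpace ℂ F] [NormedAddCommGroup B] [NormedSpace ℂ B] [FiniteDimensional ℂ F]
  [FiniteDimensional ℂ B]

/-- **the end of KAPPA-1**: sections `s_0, …, s_r` of a line bundle `E` with the cross relation on
the tori of the tube and `Rk` at a point ==> sections of a power of `L` with `Rk` there -/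
theorem kappa_main [Nontrivial F] (hX : Ctx n C Q) (hG : Given Q H L0 e)
    (hnef : NefC (ofHk H 0) (H.om 0) e) (hA : Cp (H.acm 0) A) {L : LB A} (h : HM L) {c : ℝ}
    (hc : 0 < c) (hcl : Ex ((curK h).f2 - c • (cmp_of_cp hA).F e)) (T : HTube A F B)
    (hne : T.Om.Nonempty) (hdim : finrank ℂ F + finrank ℂ B = 2 * n) (hPV : PVan Q e T)
    {r : ℕ} (hr : 0 < r) {E : LB A} {s : Fin (r + 1) → A.ι → X → ℂ}
    (hs : ∀ j, IsHS E univ (s j)) {i₀ : A.ι} {x₀ : X} (hrk : Rk A s i₀ x₀)
    (cross : ∀ j, ∀ c c' : F, ∀ b ∈ T.Om, ∀ i i', T.P (c, b) ∈ (A.e i).source →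
      T.P (c', b) ∈ (A.e i').source → s j i (T.P (c, b)) * s 0 i' (T.P (c', b)) =
        s j i' (T.P (c', b)) * s 0 i (T.P (c, b))) :
    ∃ a : ℕ, 0 < a ∧ ∃ u : Fin (r + 1) → A.ι → X → ℂ, (∀ j, IsHS (L ^ a) univ (u j)) ∧
      (∀ j j' i, ∀ x ∈ (A.e i).source, u j i x * s j' i x = s j i x * u j' i x) ∧
      Rk A u i₀ x₀ :=
  kappa_of_ns hs hrk T cross (nsmov hX hG hnef hA h hc hcl T hne hdim hPV hr)

end

end Crest.Agent.R281.Kd_22
end

-- ▼ part R281/Pjx5_648
section

/-!
# R281 (S0424), PREQ + BACK (helper648), part 5: transport along biholomorphisms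

* `holMap_of`  : a smooth map which intertwines complex structures of hyperkaehler triples is
                 holomorphic on the holomorphic atlases
* `lbih_of_inv`, `lbih_of` : bijective holomorphic maps are locally biholomorphic
* `back hq R L`: `L` is the pull back, under `p`, of its pull back `pullLB hq R L` under the inverse
                 `q` of `p`
* `rk_pull`, `rich_pull`, `rich_back` : ranks of sections under biholomorphisms
-/

set_option autoImplicit false
set_option linter.unusedSectionVars false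
set_option maxSynthPendingDepth 3

open Set Filter Topology Complex
open scoped ContDiff Matrix ComplexConjugate ComplexOrder

namespace Crest.Agent.R281.Pjx_648

open Crest.Agent.R281.HkR_835 Crest.Agent.R281.Dif_268
open Crest.Agent.R281.NefO_476 Crest.Agent.R281.Nef_252
open Crest.Agent.R275.Geo Crest.Agent.R275.Core144 Crest.Agent.R275.GC293 Crest.Agent.R275.EDR890
open Crest.Agent.R273
open Crest.Agent.R273.Defs_333
open Crest.Agent.R273.Map_835 (HolMap dm Jp mem_dm holMap_id Jp_comp)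
open Crest.Agent.R273.PB_835 (LBih Ref PB pullLB pullLB_g)
open Crest.Agent.R260.ACM_580 Crest.Agent.R260.NNB_580
open Crest.Agent.R281.Rk_599 (Rk rat analyticAt_rat)
open Crest.Agent.R281.Sk_474 (Rich)

noncomputable section

/-! ### holomorphic maps -/

section map

variable {d d' : ℕ} {X X' V V' : Type} [TopologicalSpace X] [TopologicalSpace X']
  [NormedAddCommGroup V] [NormedSpace ℝ V] [NormedAddCommGroup V'] [NormedSpace ℝ V']
  {C : RCh V X} {C' : RCh V' X'} {A : Atl d X} {A' : Atl d' X'}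

/-- a smooth map which intertwines the complex structures is holomorphic -/
theorem holMap_of {H' : HkT C'} {H : HkT C} {k' k : Fin 3} (hA' : Cp (H'.acm k') A')
    (hA : Cp (H.acm k) A) {g : SMap C' C} (hg : HolM g (ofHk H' k') (ofHk H k)) :
    HolMap A' A g.f := by
  refine ⟨g.cont, fun i j z hz => ?_⟩
  apply DifferentiableAt.differentiableWithinAt
  obtain ⟨a', ha'⟩ := C'.cover ((A'.e i).symm z)
  obtain ⟨a, ha⟩ := C.cover (g.f ((A'.e i).symm z))
  have hz2 : g.f ((A'.e i).symm z) ∈ (A.e j).source := hz.2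
  have h1 : z ∈ ovc (H'.acm k') a' (A'.e i) := ⟨hz.1, ha'⟩
  have e1 : (C'.e a').symm (C'.e a' ((A'.e i).symm z)) = (A'.e i).symm z := (C'.e a').left_inv ha'
  have h2 : C'.e a' ((A'.e i).symm z) ∈ dom C C' g.f a a' :=
    ⟨(C'.e a').map_source ha', by rw [e1]; exact ha⟩
  have e2 : loc C C' g.f a a' (C'.e a' ((A'.e i).symm z)) = C.e a (g.f ((A'.e i).symm z)) := by
    show C.e a (g.f ((C'.e a').symm (C'.e a' ((A'.e i).symm z)))) = _
    rw [e1]
  have h3 : loc C C' g.f a a' (C'.e a' ((A'.e i).symm z)) ∈ ovr (H.acm k) a (A.e j) := by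
    rw [e2]
    exact mem_ovr_of_source (C := H.acm k) hz2 ha
  have d1 : HasFDerivAt (fun z => C'.e a' ((A'.e i).symm z))
      (fderiv ℝ (fun z => C'.e a' ((A'.e i).symm z)) z) z := ((hA' i).diffAt' h1).hasFDerivAt
  have d2 := (g.diff_loc h2).hasFDerivAt
  have d3 : HasFDerivAt (fun z => A.e j ((C.e a).symm z))
      (fderiv ℝ (fun z => A.e j ((C.e a).symm z)) (loc C C' g.f a a' (C'.e a' ((A'.e i).symm z))))
      (loc C C' g.f a a' (C'.e a' ((A'.e i).symm z))) := ((hA j).diffAt h3).hasFDerivAt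
  have d4 := HasFDerivAt.comp z (g := fun w => loc C C' g.f a a' w)
    (f := fun z => C'.e a' ((A'.e i).symm z)) d2 d1
  have d5 := HasFDerivAt.comp z (g := fun z => A.e j ((C.e a).symm z))
    (f := (fun w => loc C C' g.f a a' w) ∘ fun z => C'.e a' ((A'.e i).symm z)) d3 d4
  have he : (fun z => A.e j (g.f ((A'.e i).symm z))) =ᶠ[𝓝 z]
      (fun z => A.e j ((C.e a).symm z)) ∘
        ((fun w => loc C C' g.f a a' w) ∘ fun z => C'.e a' ((A'.e i).symm z)) := by
    have hc : ContinuousAt (fun w => g.f ((A'.e i).symm w)) z :=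
      g.cont.continuousAt.comp ((A'.e i).continuousAt_symm hz.1)
    filter_upwards [(isOpen_ovc (C := H'.acm k') a' (A'.e i)).mem_nhds h1,
      hc.preimage_mem_nhds ((C.e a).open_source.mem_nhds ha)] with w hw hwa
    have hw1 : (C'.e a').symm (C'.e a' ((A'.e i).symm w)) = (A'.e i).symm w :=
      (C'.e a').left_inv hw.2
    have hw2 : g.f ((A'.e i).symm w) ∈ (C.e a).source := hwa
    show _ = A.e j ((C.e a).symm (C.e a (g.f ((C'.e a').symm (C'.e a' ((A'.e i).symm w))))))
    rw [hw1, (C.e a).left_inv hw2]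
  have d6 := d5.congr_of_eventuallyEq he
  refine differentiableAt_of_real d6.differentiableAt fun v => ?_
  rw [d6.fderiv]
  have l1 : fderiv ℝ (fun z => C'.e a' ((A'.e i).symm z)) z (I • v) =
      H'.J k' a' (C'.e a' ((A'.e i).symm z))
        (fderiv ℝ (fun z => C'.e a' ((A'.e i).symm z)) z v) := (hA' i).lin' h1 v
  have l2 := hg.h a a' _ h2 (fderiv ℝ (fun z => C'.e a' ((A'.e i).symm z)) z v)
  have l3 := (hA j).lin a _ h3 (fderiv ℝ (loc C C' g.f a a') (C'.e a' ((A'.e i).symm z))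
    (fderiv ℝ (fun z => C'.e a' ((A'.e i).symm z)) z v))
  simp only [ContinuousLinearMap.comp_apply]
  rw [l1]
  refine (congrArg _ l2).trans ?_
  exact l3

end map

section bih

variable {n : ℕ} {M N : Type} [TopologicalSpace M] [TopologicalSpace N] {A : Atl n M}
  {B : Atl n N} {p : M → N} {q : N → M}

/-- holomorphic maps with holomorphic left inverse, equal dimensions -/
theorem lbih_of_inv (hp : HolMap A B p) (hq : HolMap B A q) (h1 : ∀ x, q (p x) = x) :
    LBih A B p := by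
  refine ⟨hp, fun i j x hx hj h0 => ?_⟩
  have h3 := Jp_comp hq hp (x := x) (l := i) hx hj (by rw [h1]; exact hx)
  have h4 : Jp A A (fun x => q (p x)) i i x = 1 := by
    have h5 : (fun x => q (p x)) = id := funext h1
    rw [h5]
    exact J_self i hx
  rw [h4] at h3
  have h5 := congrArg Matrix.det h3
  rw [Matrix.det_mul, h0, mul_zero, Matrix.det_one] at h5
  exact zero_ne_one h5

/-- `L` is the pull back under `p` of its pull back under the inverse of `p` -/
def back (hq : HolMap B A q) (hqp : ∀ x, q (p x) = x) (R : Ref B A q)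
    (L : LB A) : PB p L (pullLB hq R L) where
  c i j x := L.g i (R.r j) x
  hol i j := by
    have h1 := L.hol i (R.r j)
    refine DifferentiableOn.mono h1 fun z hz => ⟨hz.1, ?_⟩
    have h2 := R.sub j _ hz.2
    rw [hqp] at h2
    exact h2
  ne i j x _ _ := L.ne_zero _ _ _
  left i i' j x hx hj := by
    have h2 := R.sub j _ hj
    rw [hqp] at h2
    exact L.mul i i' (R.r j) x ⟨hx, h2⟩
  right i j j' x hx hj := by
    have h2 := R.sub j _ hj.1
    have h3 := R.sub j' _ hj.2
    rw [hqp] at h2 h3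
    rw [pullLB_g hq R L hj, hqp]
    exact L.mul i (R.r j) (R.r j') x ⟨⟨hx, h2⟩, h3⟩

/-- the rank of sections is invariant under local biholomorphisms -/
theorem rk_pull (h : LBih A B p) {L' : LB A} {L : LB B} (T : PB p L' L) {r : ℕ}
    {s : Fin (r + 1) → B.ι → N → ℂ} (hs : ∀ a, IsHS L univ (s a)) {i : A.ι} {j : B.ι} {x : M}
    (hx : x ∈ (A.e i).source) (hR : Rk B s j (p x)) : Rk A (fun a => T.pull (s a)) i x := by
  obtain ⟨hj, h0, hl⟩ := hR
  have hd : A.e i x ∈ dm A B p i j := mem_dm hx hj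
  have hval : Map_835.rd A B p i j (A.e i x) = B.e j (p x) := by
    simp only [Map_835.rd]
    rw [(A.e i).left_inv hx]
  refine ⟨hx, ?_, ?_⟩
  · show T.pull (s 0) i x ≠ 0
    rw [T.pull_eq hx hj (hs 0) (mem_univ _)]
    exact mul_ne_zero (T.ne i j x hx hj) h0
  · set D := fderiv ℂ (Map_835.rd A B p i j) (A.e i x) with hD
    have hDs : Function.Surjective D :=
      LinearMap.injective_iff_surjective (f := D.toLinearMap).1 (h.inj hd)
    have key : ∀ a : Fin r, fderiv ℂ (rat A (fun a => T.pull (s a)) i a) (A.e i x) =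
        (fderiv ℂ (rat B s j a) (B.e j (p x))).comp D := by
      intro a
      have he : rat A (fun a => T.pull (s a)) i a =ᶠ[𝓝 (A.e i x)]
          (rat B s j a) ∘ (Map_835.rd A B p i j) := by
        filter_upwards [(h.toHolMap.isOpen_dm i j).mem_nhds hd] with w hw
        have hw1 : (A.e i).symm w ∈ (A.e i).source := (A.e i).map_target hw.1
        have hw2 : p ((A.e i).symm w) ∈ (B.e j).source := hw.2
        show T.pull (s a.succ) i ((A.e i).symm w) / T.pull (s 0) i ((A.e i).symm w) =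
          s a.succ j ((B.e j).symm (B.e j (p ((A.e i).symm w)))) /
            s 0 j ((B.e j).symm (B.e j (p ((A.e i).symm w))))
        rw [T.pull_eq hw1 hw2 (hs _) (mem_univ _), T.pull_eq hw1 hw2 (hs _) (mem_univ _),
          (B.e j).left_inv hw2, mul_div_mul_left _ _ (T.ne i j _ hw1 hw2)]
      have hr : DifferentiableAt ℂ (rat B s j a) (Map_835.rd A B p i j (A.e i x)) := by
        rw [hval]
        exact (analyticAt_rat hs hj h0 a).differentiableAt
      rw [he.fderiv_eq, fderiv_comp _ hr (h.toHolMap.diffAt hd), hval]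
    set S : (Cn n →L[ℂ] ℂ) →ₗ[ℂ] (Cn n →L[ℂ] ℂ) :=
      { toFun := fun φ => φ.comp D
        map_add' := fun φ ψ => by ext v; simp
        map_smul' := fun c φ => by ext v; simp } with hS
    have hker : LinearMap.ker S = ⊥ := by
      rw [LinearMap.ker_eq_bot']
      intro φ hφ
      ext v
      obtain ⟨u, rfl⟩ := hDs v
      exact congrArg (fun T : Cn n →L[ℂ] ℂ => T u) hφ
    have h1 : (fun a : Fin r => fderiv ℂ (rat A (fun a => T.pull (s a)) i a) (A.e i x)) =
        ⇑S ∘ fun a : Fin r => fderiv ℂ (rat B s j a) (B.e j (p x)) := funext key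
    rw [h1]
    exact hl.map' S hker

end bih

section rich

variable {n : ℕ} {M N : Type} [TopologicalSpace M] [TopologicalSpace N] {A : Atl (2 * n) M}
  {B : Atl (2 * n) N} {p : M → N} {q : N → M}

theorem rich_pull (h : LBih A B p) (hsur : Function.Surjective p) {L' : LB A} {L : LB B}
    (T : PB p L' L) (hR : Rich B L) : Rich A L' := by
  obtain ⟨k, hk, s, hs, j, y, hy⟩ := hR
  obtain ⟨x, rfl⟩ := hsur y
  obtain ⟨i, hi⟩ := A.cover x
  exact ⟨k, hk, fun a => (T.pow k).pull (s a), fun a =>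
    (T.pow k).pull_isHS h.toHolMap isOpen_univ (hs a), i, x, rk_pull h (T.pow k) hs hi hy⟩

/-- **back to the given member** -/
theorem rich_back (hp : HolMap A B p) (hq : HolMap B A q) (hqp : ∀ x, q (p x) = x)
    (hpq : ∀ y, p (q y) = y) (R : Ref B A q) {L : LB A} (hR : Rich B (pullLB hq R L)) :
    Rich A L :=
  rich_pull (lbih_of_inv hp hq hqp) (fun y => ⟨q y, hpq y⟩) (back hq hqp R L) hR

end rich

end

end Crest.Agent.R281.Pjx_648
end

-- ▼ part R281/Pjx6_648
section

/-!
# R281 (S0424), PREQ (helper648), part 6: a Kaehler metric with integral class ((K3) of 975)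

* `pullK h K`   : the Kaehler metric on a compatible atlas, `pullK_g`
* `lb_kah_fam`  : `K : Kah A` with `IntF (c • (ofKah K).f2)`, `c > 0`, and further integral
                  (1,1)-forms `w a : K11 A` ==> refinement `A'` of `A` subordinate to an open cover,
                  `Lb` with metric of curvature exactly `(π c) K'`, `L a` with metrics of curvature
                  `w a`, `ProjD` with `lb P = Lb ^ m`
* `lb_kah`      : the same without further forms
-/

set_option autoImplicit false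
set_option linter.unusedSectionVars false
set_option maxSynthPendingDepth 3

open Set Filter Topology Complex
open scoped ContDiff Matrix ComplexConjugate ComplexOrder

namespace Crest.Agent.R281.Pjx_648

open Crest.Agent.R281.HkR_835 Crest.Agent.R281.Dif_268 Crest.Agent.R281.Cdr_234
open Crest.Agent.R275.Geo Crest.Agent.R275.Core144 Crest.Agent.R275.GC293 Crest.Agent.R275.EDR890
open Crest.Agent.R273
open Crest.Agent.R273.Defs_333
open Crest.Agent.R273.Map_835 (HolMap dm Jp mem_dm holMap_id Jp_comp)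
open Crest.Agent.R273.PB_835 (LBih Ref PB pullLB pullLB_g)
open Crest.Agent.R273.Kah_333 (Kah cur)
open Crest.Agent.R273.FS_333 (lb)

noncomputable section

variable {d : ℕ} {X Y : Type} [TopologicalSpace X] [TopologicalSpace Y] {A : Atl d X}
  {A' : Atl d X} {B : Atl d Y} {p : Y → X}

/-- pull back of a Kaehler metric by a locally biholomorphic map -/
def pullK (h : LBih B A p) (K : Kah A) : Kah B :=
  KahI_645.pullI K h.toHolMap fun _ _ _ hy hi => h.inj (mem_dm hy hi)

theorem pullK_g (h : LBih B A p) (K : Kah A) {k : B.ι} {i : A.ι} {y : Y}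
    (hk : y ∈ (B.e k).source) (hi : p y ∈ (A.e i).source) :
    (pullK h K).g k y = (Jp B A p k i y)ᵀ * K.g i (p y) * (Jp B A p k i y).map conj :=
  KahI_645.gm_eq K h.toHolMap hk (A.cover (p y)).choose_spec hi

/-- the multiple of a Kaehler metric -/
theorem exists_smul (K : Kah A) (c : ℝ) : ∃ G : K11 A,
    (∀ i, ∀ x ∈ (A.e i).source, G.g i x = (c : ℂ) • K.g i x) ∧
      Eqv G.f2 (c • (ofKah K).f2) := by
  have i1 : ∀ i, ∀ z ∈ (A.e i).target, ∀ u v,
      (c • (ofKah K).f2).w i z (I • u) (I • v) = (c • (ofKah K).f2).w i z u v := by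
    intro i z hz u v
    show c * (ofKah K).f2.w i z (I • u) (I • v) = c * (ofKah K).f2.w i z u v
    rw [(ofKah K).f2_inv hz]
  refine ⟨(c • (ofKah K).f2).k11 i1, fun i x hx => ?_, fun i z hz u v => ?_⟩
  · show GB (c • (ofKah K).f2.w i (A.e i x)) = _
    rw [GB_smul]
    congr 1
    exact (ofKah K).f2_k11 hx
  · have h1 : ((c • (ofKah K).f2).k11 i1).f2.w i z = (c • (ofKah K).f2).w i z :=
      F2.k11_f2 _ i1 hz
    rw [h1]

/-- **(K3)** a Kaehler metric with integral class, further integral (1,1)-forms, one atlas -/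
theorem lb_kah_fam [CompactSpace X] [T2Space X] (K : Kah A) {c : ℝ} (hc : 0 < c)
    (hI : IntF (c • (ofKah K).f2)) {r : ℕ} (w : Fin r → K11 A)
    (hw : ∀ a, IntF ((Real.pi⁻¹ : ℝ) • (w a).f2)) {κ : Type*} (O : κ → Set X)
    (hO : ∀ k, IsOpen (O k)) (hOc : ∀ x, ∃ k, x ∈ O k) :
    ∃ (A' : Atl d X) (K' : Kah A') (Lb : LB A') (h : HM Lb) (L : Fin r → LB A')
      (g : ∀ a, HM (L a)), Finite A'.ι ∧ GoodA A' ∧ Nonempty (Part A') ∧
      (∀ i, ∃ k, (A'.e i).source ⊆ O k) ∧ Nonempty (Ref A' A id) ∧ LBih A' A id ∧ LBih A A' id ∧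
      (∀ (k : A'.ι) (i : A.ι) (y : X), y ∈ (A'.e k).source → y ∈ (A.e i).source →
        K'.g k y = (Jp A' A id k i y)ᵀ * K.g i y * (Jp A' A id k i y).map conj) ∧
      (∀ i, ∀ y ∈ (A'.e i).source, cur h i y = ((Real.pi * c : ℝ) : ℂ) • K'.g i y) ∧ h.Pos ∧
      (∀ (a : Fin r) (k : A'.ι) (i : A.ι) (y : X), y ∈ (A'.e k).source → y ∈ (A.e i).source →
        cur (g a) k y = (Jp A' A id k i y)ᵀ * (w a).g i y * (Jp A' A id k i y).map conj) ∧
      ∃ m : ℕ, 0 < m ∧ ∃ P : ProjD A', lb P = Lb ^ m := by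
  have hpc : 0 < Real.pi * c := mul_pos Real.pi_pos hc
  obtain ⟨G, hG, hG'⟩ := exists_smul K (Real.pi * c)
  have hGI : IntF ((Real.pi⁻¹ : ℝ) • G.f2) := by
    refine Cls.eqv hI fun i z hz u v => ?_
    show c * (ofKah K).f2.w i z u v = Real.pi⁻¹ * G.f2.w i z u v
    rw [hG' i z hz u v]
    show _ = Real.pi⁻¹ * (Real.pi * c * (ofKah K).f2.w i z u v)
    rw [← mul_assoc, ← mul_assoc, inv_mul_cancel₀ Real.pi_ne_zero, one_mul]
  set W : Fin (r + 1) → K11 A := Fin.cons G w with hW
  have hWI : ∀ a, IntF ((Real.pi⁻¹ : ℝ) • (W a).f2) := fun a =>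
    Fin.cases (motive := fun a => IntF ((Real.pi⁻¹ : ℝ) • (W a).f2)) hGI hw a
  obtain ⟨A', L, h, h1, h2, ⟨PA⟩, h4, h5, h6, h7, h8⟩ := lefschetz_fam O hO hOc (r + 1) W hWI
  have h9 : ∀ i, ∀ y ∈ (A'.e i).source,
      cur (h 0) i y = ((Real.pi * c : ℝ) : ℂ) • (pullK h6 K).g i y := by
    intro k y hy
    obtain ⟨i, hi⟩ := A.cover y
    rw [pullK_g h6 K hy hi, h8 0 k i y hy hi]
    show (Jp A' A id k i y)ᵀ * G.g i y * (Jp A' A id k i y).map conj = _
    rw [hG i y hi, Matrix.mul_smul, Matrix.smul_mul]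
    rfl
  have hP : (h 0).Pos := Kah_333.pos_of_cur fun i x hx => by
    rw [h9 i x hx]
    exact ((pullK h6 K).pos i x hx).smul (by exact_mod_cast hpc)
  exact ⟨A', pullK h6 K, L 0, h 0, fun a => L a.succ, fun a => h a.succ, h1, h2, ⟨PA⟩, h4, h5, h6,
    h7, fun k i y hk hi => pullK_g h6 K hk hi, h9, hP,
    fun a k i y hk hi => h8 a.succ k i y hk hi, Crest.Agent.R272.Kod8_410.exists_projD PA hP⟩

/-- **(K3)** of 975: a Kaehler metric with integral class -/
theorem lb_kah [CompactSpace X] [T2Space X] (K : Kah A) {c : ℝ} (hc : 0 < c)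
    (hI : IntF (c • (ofKah K).f2)) {κ : Type*} (O : κ → Set X)
    (hO : ∀ k, IsOpen (O k)) (hOc : ∀ x, ∃ k, x ∈ O k) :
    ∃ (A' : Atl d X) (K' : Kah A') (Lb : LB A') (h : HM Lb), Finite A'.ι ∧ GoodA A' ∧
      Nonempty (Part A') ∧ (∀ i, ∃ k, (A'.e i).source ⊆ O k) ∧ Nonempty (Ref A' A id) ∧
      LBih A' A id ∧ LBih A A' id ∧
      (∀ (k : A'.ι) (i : A.ι) (y : X), y ∈ (A'.e k).source → y ∈ (A.e i).source →
        K'.g k y = (Jp A' A id k i y)ᵀ * K.g i y * (Jp A' A id k i y).map conj) ∧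
      (∀ i, ∀ y ∈ (A'.e i).source, cur h i y = ((Real.pi * c : ℝ) : ℂ) • K'.g i y) ∧ h.Pos ∧
      ∃ m : ℕ, 0 < m ∧ ∃ P : ProjD A', lb P = Lb ^ m := by
  obtain ⟨A', K', Lb, h, -, -, h1, h2, h3, h4, h5, h6, h7, h8, h9, h10, -, h12⟩ :=
    lb_kah_fam K hc hI (r := 0) (fun a => a.elim0) (fun a => a.elim0) O hO hOc
  exact ⟨A', K', Lb, h, h1, h2, h3, h4, h5, h6, h7, h8, h9, h10, h12⟩

end

end Crest.Agent.R281.Pjx_648
end

-- ▼ part R281/Pjx3_648
section

/-!
# R281 (S0424), G26 PROJ-x (helper648), part 3: `(X, I'_x)` is projective for rational `x`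

For `H` at `τ = x + i y` (998's `AtTau`: `[om 0] = A`, `[om 1] + i [om 2] = z σ_τ`):

* `fx z`, `fr_fx`   : the frame `((0, c, s), (0, -s, c), (1, 0, 0))`, `z = |z| (c + i s)`
* `rotx_om0/1/2`    : `[om'] = (|z| Re σ_τ, |z| Im σ_τ, A)` for `H' = H.rot (fx z)`: `J' 0 = I'_x`
* `ratF_sre`        : `x`, `y²`, `N` rational ==> `Re σ_τ` rational
* `exists_y`        : every ray contains such a `y` (a natural number)
* `projX`           : **PROJ-x**: holomorphic atlas of `I'_x`, subordinate to an open cover, positive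
                      line bundle with curvature exactly `(π m / |z|) met`, `m Re σ_τ` integral,
                      and `ProjD`
-/

set_option autoImplicit false
set_option linter.unusedSectionVars false
set_option maxSynthPendingDepth 3

open Set Filter Topology Complex
open scoped ContDiff Matrix ComplexConjugate ComplexOrder

namespace Crest.Agent.R281.Pjx_648

open Crest.Agent.R281.HkR_835 Crest.Agent.R281.Dif_268 Crest.Agent.R281.Cdr_234
open Crest.Agent.R281.Alg_998
open Crest.Agent.R281.Ti_846 (Ex)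
open Crest.Agent.R275.Geo Crest.Agent.R275.Core144 Crest.Agent.R275.GC293 Crest.Agent.R275.EDR890
open Crest.Agent.R273
open Crest.Agent.R273.Defs_333
open Crest.Agent.R273.Kah_333 (Kah cur)
open Crest.Agent.R273.FS_333 (lb)
open Crest.Agent.R260.ACM_580 Crest.Agent.R260.NNB_580

noncomputable section

variable {d : ℕ} {X V : Type} [TopologicalSpace X] [NormedAddCommGroup V] [NormedSpace ℝ V]
  {C : RCh V X} {Q : F2 C →ₗ[ℝ] F2 C →ₗ[ℝ] ℝ} {F : Frm C Q} {Ap : F2 C} {H : HkT C} {τ z : ℂ}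

/-! ### the frame -/









/-! ### rationality -/

theorem ratF_smul {w : F2 C} (hw : RatF w) {r : ℝ} (hr : ∃ q : ℚ, (q : ℝ) = r) :
    RatF (r • w) := by
  obtain ⟨q, rfl⟩ := hr
  exact hw.smul q

theorem ratF_sre (hN : ∃ q : ℚ, (q : ℝ) = F.N) (hx : ∃ q : ℚ, (q : ℝ) = τ.re)
    (hy : ∃ q : ℚ, (q : ℝ) = τ.im ^ 2) : RatF (F.sre τ) := by
  obtain ⟨a, ha⟩ := hN
  obtain ⟨b, hb⟩ := hx
  obtain ⟨c, hc⟩ := hy
  refine Cls.sub (Cls.add F.rat_es (ratF_smul F.rat_v ⟨b, hb⟩)) (ratF_smul F.int_e.rat ?_)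
  refine ⟨a / 2 * (b ^ 2 - c), ?_⟩
  push_cast
  rw [ha, hb, hc]


/-! ### PROJ-x -/



end

end Crest.Agent.R281.Pjx_648
end

-- ▼ part R281/Pjx7_648
section

/-!
# R281 (S0424), PREQ (helper648), part 7: from the end member to the chart member

* `smapOf`, `pullK_f2`, `eqv_pull_cp` : forms under holomorphic maps
* `lb_iso` : `H₀` (chart member, `J 0`), `H` (end member, `J 1`), `g` a diffeomorphism which
             intertwines `J 0` of `H₀` and `J 1` of `H` and is the identity on classes, `K` a Kaehler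
             metric on an atlas of `J 1` of `H` with form `s • om 1`, `[om 1] = z Re σ_τ`, `x`, `y²`
             rational ==> on a refinement `A'` of any given atlas `A₀` of `J 0` of `H₀`: the pull back
             `K'` of `K`, a line bundle with curvature exactly `(π c) K'`, `ProjD`
* `rich_ref` : `Rich` on a refinement ==> `Rich`
-/

set_option autoImplicit false
set_option linter.unusedSectionVars false
set_option maxSynthPendingDepth 3

open Set Filter Topology Complex
open scoped ContDiff Matrix ComplexConjugate ComplexOrder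

namespace Crest.Agent.R281.Pjx_648

open Crest.Agent.R281.HkR_835 Crest.Agent.R281.Dif_268 Crest.Agent.R281.Cdr_234
open Crest.Agent.R281.Alg_998
open Crest.Agent.R281.Ti_846 (Ex)
open Crest.Agent.R281.NefO_476 Crest.Agent.R281.Nef_252
open Crest.Agent.R275.Geo Crest.Agent.R275.Core144 Crest.Agent.R275.GC293 Crest.Agent.R275.EDR890
open Crest.Agent.R273
open Crest.Agent.R273.Defs_333
open Crest.Agent.R273.Map_835 (HolMap dm Jp mem_dm holMap_id Jp_comp)
open Crest.Agent.R273.PB_835 (LBih Ref PB pullLB pullLB_g)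
open Crest.Agent.R273.Kah_333 (Kah cur)
open Crest.Agent.R273.FS_333 (lb)
open Crest.Agent.R260.ACM_580 Crest.Agent.R260.NNB_580
open Crest.Agent.R281.Sk_474 (Rich)

noncomputable section

/-! ### forms under holomorphic maps -/

section maps

variable {d : ℕ} {X Y : Type} [TopologicalSpace X] [TopologicalSpace Y] {A : Atl d X}
  {B : Atl d Y} {p : Y → X}

/-- a holomorphic map as a smooth map -/
def smapOf (h : HolMap B A p) : SMap (ofAtl B) (ofAtl A) where
  f := p
  cont := h.cont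
  sm i j := ((Crest.Agent.R266.SCV.contDiffOn_omega_of_differentiableOn (h.isOpen_dm j i)
    (h.hol j i)).restrict_scalars ℝ).of_le le_top

theorem fderiv_rdp (h : HolMap B A p) {k : B.ι} {i : A.ι} {z : Cn d}
    (hz : z ∈ dm B A p k i) (v : Cn d) :
    (fderiv ℝ (Map_835.rd B A p k i) z v).ofLp =
      (Jp B A p k i ((B.e k).symm z)) *ᵥ v.ofLp := by
  have h1 := (h.diffAt hz).fderiv_restrictScalars ℝ
  have h2 : B.e k ((B.e k).symm z) = z := (B.e k).right_inv hz.1
  funext b
  rw [h1]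
  show (fderiv ℂ (Map_835.rd B A p k i) z v) b = _
  rw [Map_835.mt_apply, Map_835.Jp_eq, h2]
  rfl

/-- the form of the pull back of a Kaehler metric -/
theorem pullK_f2 (h : LBih B A p) (K : Kah A) :
    Eqv (ofKah (pullK h K)).f2 ((smapOf h.toHolMap).pull (ofKah K).f2) := by
  intro k z hz u v
  obtain ⟨i, hi⟩ := A.cover (p ((B.e k).symm z))
  have hd : z ∈ dm B A p k i := ⟨hz, hi⟩
  have hd' : z ∈ dom (ofAtl A) (ofAtl B) (smapOf h.toHolMap).f i k := hd
  have hk : (B.e k).symm z ∈ (B.e k).source := (B.e k).map_target hz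
  have e1 : loc (ofAtl A) (ofAtl B) (smapOf h.toHolMap).f i k = Map_835.rd B A p k i := rfl
  have e2 : Map_835.rd B A p k i z ∈ (A.e i).target := (A.e i).map_source hi
  have e3 : (A.e i).symm (Map_835.rd B A p k i z) = p ((B.e k).symm z) := (A.e i).left_inv hi
  rw [(smapOf h.toHolMap).pull_w (ofKah K).f2 hd', e1, (ofKah (pullK h K)).f2_w hz,
    (ofKah K).f2_w e2, e3, hb_mulVec _ (Jp B A p k i ((B.e k).symm z))
    (fderiv_rdp h.toHolMap hd u) (fderiv_rdp h.toHolMap hd v)]
  have e4 : (ofKah (pullK h K)).g k ((B.e k).symm z) =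
    (Jp B A p k i ((B.e k).symm z))ᵀ * K.g i (p ((B.e k).symm z)) *
      (Jp B A p k i ((B.e k).symm z)).map conj := pullK_g h K hk hi
  rw [e4]
  rfl

theorem smap_ext {V V' : Type} [NormedAddCommGroup V] [NormedSpace ℝ V]
    [NormedAddCommGroup V'] [NormedSpace ℝ V'] {C : RCh V X} {C' : RCh V' Y} {g g' : SMap C' C}
    (h : g.f = g'.f) : g = g' := by
  obtain ⟨f, hc, hs⟩ := g
  obtain ⟨f', hc', hs'⟩ := g'
  have h1 : f = f' := h
  subst h1
  rfl

/-- the transported forms under a holomorphic map -/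
theorem eqv_pull_cp {V V' : Type} [NormedAddCommGroup V] [NormedSpace ℝ V]
    [NormedAddCommGroup V'] [NormedSpace ℝ V'] {C : RCh V X} {C' : RCh V' Y}
    (hc : Cmp C (ofAtl A)) (hc' : Cmp C' (ofAtl B)) (g : SMap C' C) (h : HolMap B A g.f)
    (w : F2 C) : Eqv ((smapOf h).pull (hc.F w)) (hc'.F (g.pull w)) := by
  have e1 := (F_pull hc w).pull (smapOf h)
  have e2 := pull_comp (SMap.ofCmp hc) (smapOf h) w
  have e3 := pull_comp g (SMap.ofCmp hc') w
  have e4 : (SMap.ofCmp hc).comp (smapOf h) = g.comp (SMap.ofCmp hc') := smap_ext rfl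
  rw [e4] at e2
  exact e1.trans (e2.symm.trans (e3.trans (F_pull hc' (g.pull w)).symm))

/-- the Jacobian law of a composition with a change of atlas -/
theorem jac_comp' {B' : Atl d Y} (h1 : HolMap B A p) (h2 : HolMap B' B id)
    (G : Matrix (Fin d) (Fin d) ℂ) {k : B'.ι} {j : B.ι} {i : A.ι} {y : Y}
    (hk : y ∈ (B'.e k).source) (hj : y ∈ (B.e j).source) (hi : p y ∈ (A.e i).source) :
    (Jp B' B id k j y)ᵀ * ((Jp B A p j i y)ᵀ * G * (Jp B A p j i y).map conj) *
      (Jp B' B id k j y).map conj =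
    (Jp B' A p k i y)ᵀ * G * (Jp B' A p k i y).map conj := by
  have h3 : Jp B A p j i y * Jp B' B id k j y = Jp B' A p k i y :=
    Jp_comp h1 h2 (i := k) (j := j) (l := i) (x := y) hk hj hi
  rw [← h3, Matrix.transpose_mul]
  have h4 : (Jp B A p j i y * Jp B' B id k j y).map conj =
      (Jp B A p j i y).map conj * (Jp B' B id k j y).map conj :=
    Matrix.map_mul (f := (starRingEnd ℂ))
  rw [h4]
  simp only [Matrix.mul_assoc]

end maps

/-! ### from the end member to the chart member -/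

section iso

variable {d : ℕ} {X V : Type} [TopologicalSpace X] [NormedAddCommGroup V] [NormedSpace ℝ V]
  {C : RCh V X} {Q : F2 C →ₗ[ℝ] F2 C →ₗ[ℝ] ℝ} {F : Frm C Q} {τ : ℂ}

/-- the class of the pulled back metric is integral up to a positive factor -/
theorem exists_int_iso [CompactSpace X] [T2Space X] {H₀ H : HkT C} {A₀ A : Atl d X}
    (hA₀ : Cp (H₀.acm 0) A₀) (hA : Cp (H.acm 1) A) {g : SMap C C} (hl : LBih A₀ A g.f)
    (hcl : ∀ w : F2 C, Cl (g.pull w) w) {K : Kah A} {s z : ℝ} (hs : 0 < s) (hz : 0 < z)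
    (hK : Eqv (ofKah K).f2 (s • (cmp_of_cp hA).F (H.om 1)))
    (h1 : Cl (H.om 1) (z • F.sre τ)) (hN : ∃ q : ℚ, (q : ℝ) = F.N) (hx : ∃ q : ℚ, (q : ℝ) = τ.re)
    (hy : ∃ q : ℚ, (q : ℝ) = τ.im ^ 2) :
    ∃ m : ℕ, 0 < m ∧ IntF ((m : ℝ) • F.sre τ) ∧
      IntF (((m : ℝ) / (s * z)) • (ofKah (pullK hl K)).f2) := by
  obtain ⟨m, hm, hI⟩ := RatF.exists_int (ratF_sre hN hx hy)
  refine ⟨m, hm, hI, ?_⟩
  -- the class of `g.pull (om 1)`
  have h2 : Cl (g.pull (H.om 1)) (z • F.sre τ) := (hcl (H.om 1)).trans h1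
  have h3 : Ex (((m : ℝ) / z) • g.pull (H.om 1) - (m : ℝ) • F.sre τ) := by
    have h4 := h2.smul ((m : ℝ) / z)
    rw [smul_smul, div_mul_cancel₀ _ hz.ne'] at h4
    exact h4
  have h4 : IntF (((m : ℝ) / z) • g.pull (H.om 1)) := Cls.of_sub_ex hI h3
  have h5 : Cls (Int.castAddHom ℝ).range ((cmp_of_cp hA₀).F (((m : ℝ) / z) • g.pull (H.om 1))) :=
    (Cls.cmp_F (cmp_of_cp hA₀)).2 h4
  refine Cls.eqv h5 fun i y hy u v => ?_
  have e1 := F_smul (cmp_of_cp hA₀) ((m : ℝ) / z) (g.pull (H.om 1)) i y hy u v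
  have e2 := pullK_f2 hl K i y hy u v
  have e3 := hK.pull (smapOf hl.toHolMap) i y hy u v
  have e4 := pull_smul (smapOf hl.toHolMap) s ((cmp_of_cp hA).F (H.om 1)) i y hy u v
  have e5 := eqv_pull_cp (cmp_of_cp hA) (cmp_of_cp hA₀) g hl.toHolMap (H.om 1) i y hy u v
  have e6 : (((m : ℝ) / z) • (cmp_of_cp hA₀).F (g.pull (H.om 1))).w i y u v =
    (m : ℝ) / z * ((cmp_of_cp hA₀).F (g.pull (H.om 1))).w i y u v := rfl
  have e7 : (s • (smapOf hl.toHolMap).pull ((cmp_of_cp hA).F (H.om 1))).w i y u v =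
    s * ((smapOf hl.toHolMap).pull ((cmp_of_cp hA).F (H.om 1))).w i y u v := rfl
  have e8 : (((m : ℝ) / (s * z)) • (ofKah (pullK hl K)).f2).w i y u v =
    (m : ℝ) / (s * z) * (ofKah (pullK hl K)).f2.w i y u v := rfl
  rw [e1, e6, e8, e2, e3, e4, e7, e5]
  field_simp

/-- **projective data at the chart member from the end member** -/
theorem lb_iso [CompactSpace X] [T2Space X] {H₀ H : HkT C} {A₀ A : Atl d X}
    (hA₀ : Cp (H₀.acm 0) A₀) (hA : Cp (H.acm 1) A) {g k : SMap C C} (hb : Bi g k)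
    (hg : HolM g (ofHk H₀ 0) (ofHk H 1)) (hcl : ∀ w : F2 C, Cl (g.pull w) w) {K : Kah A}
    {s z : ℝ} (hs : 0 < s) (hz : 0 < z)
    (hK : Eqv (ofKah K).f2 (s • (cmp_of_cp hA).F (H.om 1)))
    (h1 : Cl (H.om 1) (z • F.sre τ)) (hN : ∃ q : ℚ, (q : ℝ) = F.N) (hx : ∃ q : ℚ, (q : ℝ) = τ.re)
    (hy : ∃ q : ℚ, (q : ℝ) = τ.im ^ 2) {κ : Type*} (O : κ → Set X)
    (hO : ∀ k, IsOpen (O k)) (hOc : ∀ x, ∃ k, x ∈ O k) :
    ∃ (c : ℝ) (A' : Atl d X) (_ : Cp (H₀.acm 0) A') (K' : Kah A') (Lb : LB A') (h : HM Lb),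
      0 < c ∧ Finite A'.ι ∧ GoodA A' ∧ Nonempty (Part A') ∧ (∀ i, ∃ k, (A'.e i).source ⊆ O k) ∧
      Nonempty (Ref A' A₀ id) ∧ LBih A' A₀ id ∧ LBih A₀ A' id ∧ LBih A' A g.f ∧ LBih A A' k.f ∧
      (∀ (l : A'.ι) (i : A.ι) (y : X), y ∈ (A'.e l).source → g.f y ∈ (A.e i).source →
        K'.g l y = (Jp A' A g.f l i y)ᵀ * K.g i (g.f y) * (Jp A' A g.f l i y).map conj) ∧
      (∀ i, ∀ y ∈ (A'.e i).source, cur h i y = ((Real.pi * c : ℝ) : ℂ) • K'.g i y) ∧ h.Pos ∧
      ∃ m : ℕ, 0 < m ∧ ∃ P : ProjD A', lb P = Lb ^ m := by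
  have hh : HolMap A₀ A g.f := holMap_of hA₀ hA hg
  have hk : HolMap A A₀ k.f := holMap_of hA hA₀ (hb.holM hg)
  have hl : LBih A₀ A g.f := lbih_of_inv hh hk hb.kg
  have hl' : LBih A A₀ k.f := lbih_of_inv hk hh hb.gk
  obtain ⟨m, hm, -, hI⟩ := exists_int_iso hA₀ hA hl hcl hs hz hK h1 hN hx hy
  have hc : 0 < (m : ℝ) / (s * z) := div_pos (by exact_mod_cast hm) (mul_pos hs hz)
  obtain ⟨A', K', Lb, h, a1, a2, a3, a4, a5, a6, a7, a8, a9, a10, a11⟩ :=
    lb_kah (pullK hl K) hc hI O hO hOc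
  refine ⟨_, A', cp_of_hol hA₀ a6.toHolMap a7.toHolMap, K', Lb, h, hc, a1, a2, a3, a4, a5, a6, a7,
    hl.comp a6, a7.comp hl', fun l i y hl₁ hi => ?_, a9, a10, a11⟩
  obtain ⟨j, hj⟩ := A₀.cover y
  rw [a8 l j y hl₁ hj, pullK_g hl K hj hi, jac_comp' hl.toHolMap a6.toHolMap _ hl₁ hj hi]

end iso

/-- `Rich` on a refinement -/
theorem rich_ref {n : ℕ} {M : Type} [TopologicalSpace M] {A A' : Atl (2 * n) M}
    (h : HolMap A' A id) (h' : HolMap A A' id) (R : Ref A' A id) {L : LB A}
    (hR : Rich A' (pullLB h R L)) : Rich A L :=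
  rich_back h' h (fun _ => rfl) (fun _ => rfl) R hR

end

end Crest.Agent.R281.Pjx_648
end

-- ▼ part R281/Pjx8_648
section

/-!
# R281 (S0424), KAPPA-1 (helper648), part 8: the class of the given bundle on a refinement

* `c1F_pull` : the first Chern form of a pulled back metric
* `c1_pres`  : `c1F p.h ∼ e` for a presentation
* `c1_ref`   : the same for the pull back of `p.L` to a refinement of `p.A`
* `rat_N`    : `F.N` is rational
-/

set_option autoImplicit false
set_option linter.unusedSectionVars false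
set_option maxSynthPendingDepth 3

open Set Filter Topology Complex
open scoped ContDiff Matrix ComplexConjugate ComplexOrder

namespace Crest.Agent.R281.Pjx_648

open Crest.Agent.R281.HkR_835 Crest.Agent.R281.Dif_268 Crest.Agent.R281.Cdr_234
open Crest.Agent.R281.Alg_998 Crest.Agent.R281.RkD_902 Crest.Agent.R281.PL_713
open Crest.Agent.R281.Ti_846
open Crest.Agent.R281.NefO_476 Crest.Agent.R281.Nef_252
open Crest.Agent.R275.Geo Crest.Agent.R275.Core144 Crest.Agent.R275.GC293 Crest.Agent.R275.EDR890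
open Crest.Agent.R273
open Crest.Agent.R273.Defs_333
open Crest.Agent.R273.Map_835 (HolMap dm Jp mem_dm holMap_id Jp_comp)
open Crest.Agent.R273.PB_835 (LBih Ref PB pullLB pullLB_g)
open Crest.Agent.R273.Kah_333 (Kah cur)
open Crest.Agent.R260.ACM_580 Crest.Agent.R260.NNB_580

noncomputable section

section pull

variable {d : ℕ} {X Y : Type} [TopologicalSpace X] [TopologicalSpace Y] {A : Atl d X}
  {B : Atl d Y} {p : Y → X}


end pull

section pres

variable {n : ℕ} {X : Type} [TopologicalSpace X] {C : RCh (Cn (2 * n)) X}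
  {Q : F2 C →ₗ[ℝ] F2 C →ₗ[ℝ] ℝ} {H : HkT C} {L0 : PL C} {e : F2 C}




/-- `F.N` is rational -/
theorem rat_N [CompactSpace X] (hc : Ctx n C Q) (F : Frm C Q) : ∃ q : ℚ, (q : ℝ) = F.N := by
  obtain ⟨r, hr⟩ := hc.rat F.v F.v F.rat_v F.rat_v
  exact ⟨r, by rw [← hr, F.v_v]⟩

end pres

end

end Crest.Agent.R281.Pjx_648
end

-- ▼ part R281/Pjx9_648
section

/-!
# R281 (S0424), KAPPA-1, (K2) of 975 (helper648), part 9: pull back of a quantified tube

`pbT hp hq hpq hqp hK T : QTube A' K' n κ R` for `T : QTube A K n κ R`, `p : M' → M` biholomorphic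
with inverse `q`, `K' = p^* K`; `U = p ⁻¹' T.U`, `f = T.f ∘ p`.
-/

set_option autoImplicit false

open Set Metric Filter Topology Complex
open scoped ContDiff Matrix ComplexConjugate

namespace Crest.Agent.R281.Pjx_648

open Crest.Agent.R275.Geo Crest.Agent.R275.Core144 Crest.Agent.R273.Defs_333
open Crest.Agent.R273.Kah_333
open Crest.Agent.R273
open Crest.Agent.R273.Map_835 (HolMap dm Jp mem_dm)
open Crest.Agent.R273.PB_835 (LBih)
open Crest.Agent.R281.SAsm_790 Crest.Agent.R281.Qt_922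

noncomputable section

variable {N n : ℕ} {M M' : Type} [TopologicalSpace M] [TopologicalSpace M'] {A : Atl N M}
  {A' : Atl N M'} {p : M' → M} {q : M → M'} {K : Kah A} {K' : Kah A'} {κ R : ℝ}

/-- the law of a pulled back metric -/
def KLaw (A' : Atl N M') (A : Atl N M) (p : M' → M) (K' : Kah A') (K : Kah A) : Prop :=
  ∀ (l : A'.ι) (i : A.ι) (y : M'), y ∈ (A'.e l).source → p y ∈ (A.e i).source →
    K'.g l y = (Jp A' A p l i y)ᵀ * K.g i (p y) * (Jp A' A p l i y).map conj

theorem qf_pull (hK : KLaw A' A p K' K) {l : A'.ι} {i : A.ι} {y : M'}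
    (hy : y ∈ (A'.e l).source) (hi : p y ∈ (A.e i).source) (v : Cn N) :
    qf K' l y v = qf K i (p y) (fderiv ℂ (Map_835.rd A' A p l i) (A'.e l y) v) := by
  have h1 : (fderiv ℂ (Map_835.rd A' A p l i) (A'.e l y) v).ofLp =
      (Jp A' A p l i y) *ᵥ v.ofLp := by
    funext b
    show (fderiv ℂ (Map_835.rd A' A p l i) (A'.e l y) v) b = _
    rw [Map_835.mt_apply, Map_835.Jp_eq]
    rfl
  unfold qf
  rw [hK l i y hy hi, h1]
  congr 1
  have h2 : ((Jp A' A p l i y)ᵀ * K.g i (p y) * (Jp A' A p l i y).map conj)ᵀ =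
      (Jp A' A p l i y)ᴴ * (K.g i (p y))ᵀ * (Jp A' A p l i y) := by
    rw [Matrix.transpose_mul, Matrix.transpose_mul, Matrix.transpose_transpose,
      ← Matrix.mul_assoc]
    rfl
  rw [h2, ← Matrix.mulVec_mulVec, ← Matrix.mulVec_mulVec, Matrix.dotProduct_mulVec _ _ _,
    Matrix.star_mulVec]

/-- the derivative of a function composed with `p` -/
theorem fderiv_comp_p (hp : LBih A' A p) {U : Set M} (hU : IsOpen U) {f : M → Cn n}
    (hf : ∀ i, DifferentiableOn ℂ (fun z => f ((A.e i).symm z))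
      ((A.e i).target ∩ (A.e i).symm ⁻¹' U)) {l : A'.ι} {i : A.ι} {y : M'}
    (hy : y ∈ (A'.e l).source) (hi : p y ∈ (A.e i).source) (hyU : p y ∈ U) :
    HasFDerivAt (fun z => (f ∘ p) ((A'.e l).symm z))
      ((fderiv ℂ (fun z => f ((A.e i).symm z)) (A.e i (p y))).comp
        (fderiv ℂ (Map_835.rd A' A p l i) (A'.e l y))) (A'.e l y) := by
  have hd : A'.e l y ∈ dm A' A p l i := mem_dm hy hi
  have hval : Map_835.rd A' A p l i (A'.e l y) = A.e i (p y) := by
    simp only [Map_835.rd]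
    rw [(A'.e l).left_inv hy]
  have h1 := (hp.toHolMap.diffAt hd).hasFDerivAt
  have ho : IsOpen ((A.e i).target ∩ (A.e i).symm ⁻¹' U) :=
    (A.e i).isOpen_inter_preimage_symm hU
  have hm : A.e i (p y) ∈ (A.e i).target ∩ (A.e i).symm ⁻¹' U :=
    ⟨(A.e i).map_source hi, by rw [mem_preimage, (A.e i).left_inv hi]; exact hyU⟩
  have h2 : HasFDerivAt (fun z => f ((A.e i).symm z))
      (fderiv ℂ (fun z => f ((A.e i).symm z)) (A.e i (p y)))
      (Map_835.rd A' A p l i (A'.e l y)) := by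
    rw [hval]
    exact ((hf i).differentiableAt (ho.mem_nhds hm)).hasFDerivAt
  refine (HasFDerivAt.comp (A'.e l y) (g := fun z => f ((A.e i).symm z))
    (f := Map_835.rd A' A p l i) h2 h1).congr_of_eventuallyEq ?_
  filter_upwards [(hp.toHolMap.isOpen_dm l i).mem_nhds hd] with w hw
  have hw2 : p ((A'.e l).symm w) ∈ (A.e i).source := hw.2
  show f (p ((A'.e l).symm w)) = f ((A.e i).symm (A.e i (p ((A'.e l).symm w))))
  rw [(A.e i).left_inv hw2]

/-- a disc under the inverse map -/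
theorem disc_pb (hp : LBih A' A p) (hq : LBih A A' q) (hpq : ∀ x, p (q x) = x)
    (hK : KLaw A' A p K' K) {T : Set M} {T' : Set M'} (hT : ∀ x ∈ T, q x ∈ T') {g : ℂ → M}
    (hg : Disc A K κ T g) : Disc A' K' κ T' (q ∘ g) := by
  -- the disc in a chart
  have key : ∀ ζ ∈ ball (0 : ℂ) 3, ∀ l, q (g ζ) ∈ (A'.e l).source →
      DifferentiableAt ℂ (fun w => A'.e l (q (g w))) ζ := by
    intro ζ hζ l hl
    obtain ⟨i, hi⟩ := A.cover (g ζ)
    have h1 := hg.hol ζ hζ i hi
    have hd : A.e i (g ζ) ∈ dm A A' q i l := mem_dm hi hl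
    have h2 := hq.toHolMap.diffAt hd
    have hc : ContinuousAt g ζ := hg.cont.continuousAt (isOpen_ball.mem_nhds hζ)
    refine (DifferentiableAt.comp ζ (g := Map_835.rd A A' q i l) (f := fun w => A.e i (g w))
      h2 h1).congr_of_eventuallyEq ?_
    filter_upwards [hc ((A.e i).open_source.mem_nhds hi)] with w hw
    have hw' : g w ∈ (A.e i).source := hw
    show A'.e l (q (g w)) = A'.e l (q ((A.e i).symm (A.e i (g w))))
    rw [(A.e i).left_inv hw']
  refine ⟨fun ζ hζ => hT _ (hg.mem ζ hζ), hq.cont.comp_continuousOn hg.cont, key,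
    fun ζ hζ l hl => ?_⟩
  obtain ⟨i, hi⟩ := A.cover (g ζ)
  have hi' : p (q (g ζ)) ∈ (A.e i).source := by rw [hpq]; exact hi
  have hl' : q (g ζ) ∈ (A'.e l).source := hl
  have h3 := qf_pull hK hl' hi' (deriv (fun w => A'.e l (q (g w))) ζ)
  have hd : A'.e l (q (g ζ)) ∈ dm A' A p l i := mem_dm hl' hi'
  have h4 : deriv (fun w => A.e i (g w)) ζ =
      fderiv ℂ (Map_835.rd A' A p l i) (A'.e l (q (g ζ)))
        (deriv (fun w => A'.e l (q (g w))) ζ) := by
    have h5 := (hp.toHolMap.diffAt hd).hasFDerivAt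
    have h6 := (key ζ hζ l hl').hasDerivAt
    have h7 := HasFDerivAt.comp_hasDerivAt ζ (l := Map_835.rd A' A p l i)
      (f := fun w => A'.e l (q (g w))) h5 h6
    have hc : ContinuousAt (fun w => q (g w)) ζ :=
      hq.cont.continuousAt.comp (hg.cont.continuousAt (isOpen_ball.mem_nhds hζ))
    refine (h7.congr_of_eventuallyEq ?_).deriv
    filter_upwards [hc ((A'.e l).open_source.mem_nhds hl')] with w hw
    have hw' : q (g w) ∈ (A'.e l).source := hw
    show A.e i (g w) = A.e i (p ((A'.e l).symm (A'.e l (q (g w)))))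
    rw [(A'.e l).left_inv hw', hpq]
  rw [← h4, hpq] at h3
  show qf K' l (q (g ζ)) (deriv (fun w => A'.e l (q (g w))) ζ) ≤ κ
  rw [h3]
  exact hg.q ζ hζ i hi

/-- **pull back of a quantified tube** -/
def pbT (hp : LBih A' A p) (hq : LBih A A' q) (hpq : ∀ x, p (q x) = x) (hqp : ∀ y, q (p y) = y)
    (hK : KLaw A' A p K' K) (T : QTube A K n κ R) : QTube A' K' n κ R where
  U := p ⁻¹' T.U
  f := T.f ∘ p
  op := T.op.preimage hp.cont
  cont := T.cont.comp hp.cont.continuousOn fun _ h => h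
  hol l := by
    intro z hz
    have hy : (A'.e l).symm z ∈ (A'.e l).source := (A'.e l).map_target hz.1
    obtain ⟨i, hi⟩ := A.cover (p ((A'.e l).symm z))
    have h1 := fderiv_comp_p hp T.op T.hol hy hi hz.2
    rw [(A'.e l).right_inv hz.1] at h1
    exact h1.differentiableAt.differentiableWithinAt
  lt x hx := T.lt _ hx
  onto b hb := by
    obtain ⟨x, hx, h1⟩ := T.onto b hb
    exact ⟨q x, by rw [mem_preimage, hpq]; exact hx, by
      show T.f (p (q x)) = b
      rw [hpq]; exact h1⟩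
  surj l y hy hyU := by
    obtain ⟨i, hi⟩ := A.cover (p y)
    rw [(fderiv_comp_p hp T.op T.hol hy hi hyU).fderiv]
    have h1 : Function.Surjective (fderiv ℂ (Map_835.rd A' A p l i) (A'.e l y)) :=
      LinearMap.injective_iff_surjective
        (f := (fderiv ℂ (Map_835.rd A' A p l i) (A'.e l y)).toLinearMap).1
        (hp.inj (mem_dm hy hi))
    exact (T.surj i _ hi hyU).comp h1
  cpt R' hR' := by
    have h1 : {x | x ∈ p ⁻¹' T.U ∧ ‖(T.f ∘ p) x‖ ≤ R'} = q '' {x | x ∈ T.U ∧ ‖T.f x‖ ≤ R'} := by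
      ext x
      constructor
      · rintro ⟨h1, h2⟩
        exact ⟨p x, ⟨h1, h2⟩, hqp x⟩
      · rintro ⟨y, ⟨h1, h2⟩, rfl⟩
        refine ⟨?_, ?_⟩
        · rw [mem_preimage, hpq]; exact h1
        · show ‖T.f (p (q y))‖ ≤ R'
          rw [hpq]; exact h2
    rw [h1]
    exact (T.cpt R' hR').image hq.cont
  q1 l y hy hyU v := by
    obtain ⟨i, hi⟩ := A.cover (p y)
    rw [(fderiv_comp_p hp T.op T.hol hy hi hyU).fderiv, qf_pull hK hy hi v]
    exact T.q1 i _ hi hyU _
  q2 x hx z hz hxz := by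
    obtain ⟨g, hg, h0, h1⟩ := T.q2 (p x) hx (p z) hz hxz
    refine ⟨q ∘ g, disc_pb hp hq hpq hK (fun y hy => ?_) hg, ?_, ?_⟩
    · refine ⟨?_, ?_⟩
      · rw [mem_preimage, hpq]; exact hy.1
      · show T.f (p (q y)) = T.f (p x)
        rw [hpq]; exact hy.2
    · show q (g 0) = z
      rw [h0, hqp]
    · show q (g 1) = x
      rw [h1, hqp]

@[simp] theorem pbT_U (hp : LBih A' A p) (hq : LBih A A' q) (hpq : ∀ x, p (q x) = x)
    (hqp : ∀ y, q (p y) = y) (hK : KLaw A' A p K' K) (T : QTube A K n κ R) :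
    (pbT hp hq hpq hqp hK T).U = p ⁻¹' T.U := rfl

@[simp] theorem pbT_f (hp : LBih A' A p) (hq : LBih A A' q) (hpq : ∀ x, p (q x) = x)
    (hqp : ∀ y, q (p y) = y) (hK : KLaw A' A p K' K) (T : QTube A K n κ R) :
    (pbT hp hq hpq hqp hK T).f = T.f ∘ p := rfl

end

end Crest.Agent.R281.Pjx_648
end

-- ▼ part R281/Kap_975

/-!
# Row 281, node N7 (helper975): KAPPA-1 at a rational member

`kappaP_of : QTubP Alg → KappaP Alg Tub`
-/

set_option autoImplicit false
set_option linter.unusedSectionVars false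
set_option maxSynthPendingDepth 3

open Set Filter Topology Complex Metric
open scoped ContDiff

namespace Crest.Agent.R281.Kap_975

open Crest.Agent.R275.Geo Crest.Agent.R275.Core144 Crest.Agent.R275.GC293
open Crest.Agent.R275.EDR890
open Crest.Agent.R273.Defs_333 Crest.Agent.R273.Kah_333
open Crest.Agent.R273.Map_835 (HolMap)
open Crest.Agent.R273.PB_835 (LBih Ref pullLB)
open Crest.Agent.R273.FS_333 (lb)
open Crest.Agent.R260.ACM_580 Crest.Agent.R260.NNB_580
open Crest.Agent.R281.HkR_835 Crest.Agent.R281.Ti_846 Crest.Agent.R281.Cdr_234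
open Crest.Agent.R281.Dif_268 Crest.Agent.R281.PL_713 Crest.Agent.R281.Rk_599
open Crest.Agent.R281.NefO_476 Crest.Agent.R281.Nef_252
open Crest.Agent.R281.Alg_998 Crest.Agent.R281.RkD_902
open Crest.Agent.R281.Tub_831 (HolTube PVT)
open Crest.Agent.R281.Qt_922 (QTube)
open Crest.Agent.R281.SkM_474 (FL FL_apply)
open Crest.Agent.R281.Per_368 (SmI)
open Crest.Agent.R281.Kd_22 (PVan HTube)
open Crest.Agent.R281.Pjx_648 (lb_iso rich_ref rat_N pbT)
open Crest.Agent.R281.Kas_975 Crest.Agent.R281.KapD_975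

noncomputable section

section tube

variable {V X : Type} [NormedAddCommGroup V] [NormedSpace ℝ V] [TopologicalSpace X]
  {C : RCh V X} {J : C.ι → V → V →L[ℝ] V} {w w' : F2 C} {n : ℕ} {D : Set (Cn n)}
  {Ψ : Cn n × Cn n → X} {l : Fin (2 * n) → Cn n → Cn n} {τ : Cn n → Cn n → Cn n → ℂ}

/-- the periods -/
theorem per_of (hT : HolTube C J w w' n D Ψ l τ) {y : Cn n} (hy : y ∈ D) (k : Fin (2 * n))
    (x : Cn n) : Ψ (y, x + l k y) = Ψ (y, x) := by
  rw [hT.eq_iff y hy y hy]
  refine ⟨rfl, Pi.single k 1, ?_⟩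
  rw [add_sub_cancel_left, Finset.sum_eq_single k]
  · simp
  · intro b _ hb
    rw [Pi.single_eq_of_ne hb]
    simp
  · intro h
    exact absurd (Finset.mem_univ k) h

/-- the part of the base over a ball -/
theorem isOpen_base {A : Atl (2 * n) X} {K : Kah A} {κ r : ℝ} (q : QTube A K n κ r)
    (hT : HolTube C J w w' n D Ψ l τ) (hU : ∀ b ∈ D, Ψ (b, 0) ∈ q.U) (c₀ : Cn n) (r₀ : ℝ) :
    IsOpen (D ∩ (fun b : Cn n => q.f (Ψ (b, 0))) ⁻¹' ball c₀ r₀) := by
  have h0 : ContinuousOn (fun b : Cn n => Ψ (b, 0)) D :=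
    hT.sm.cont.comp (f := fun b : Cn n => (b, (0 : Cn n))) (by fun_prop)
      fun b hb' => ⟨hb', mem_univ _⟩
  have h1 : ContinuousOn (fun b : Cn n => q.f (Ψ (b, 0))) D :=
    q.cont.comp (f := fun b : Cn n => Ψ (b, 0)) h0 fun b hb' => hU b hb'
  exact h1.isOpen_inter_preimage hT.op isOpen_ball

end tube

section main

variable {n : ℕ} {X : Type} [TopologicalSpace X] [CompactSpace X] [T2Space X]
  [SimplyConnectedSpace X] {C : RCh (Cn (2 * n)) X} {Q : F2 C →ₗ[ℝ] F2 C →ₗ[ℝ] ℝ} {H : HkT C}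
  {L0 : PL C} {e : F2 C}

/-- the class of the pull back of `p.L` to a refinement -/
theorem cls_ref {H : HkT C} (hG : Given Q H L0 e) (p : Pres n H L0) {A' : Atl (2 * n) X}
    (hA' : Cp (H.acm 0) A') (hl : LBih A' p.A id) (hl' : LBih p.A A' id) (Rf : Ref A' p.A id) :
    Ex ((Crest.Agent.R281.Nef_252.curK ((Crest.Agent.R273.PB_835.PB.ref hl.toHolMap Rf p.L).pullHM
      hl.toHolMap p.h)).f2 - Real.pi • (cmp_of_cp hA').F e) := by
  have e1 := Crest.Agent.R281.Kd_22.pres_cls hG.lnk p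
  have e2 : Real.pi • (cmp_of_cp p.cp).F e = (cmp_of_cp p.cp).F (Real.pi • e) :=
    ((FL (cmp_of_cp p.cp)).map_smul Real.pi e).symm
  rw [e2] at e1
  have e3 := Crest.Agent.R281.Kd_22.cls_pull p.cp hA' hl.toHolMap hl'.toHolMap Rf p.h e1
  have e4 : Real.pi • (cmp_of_cp hA').F e = (cmp_of_cp hA').F (Real.pi • e) :=
    ((FL (cmp_of_cp hA')).map_smul Real.pi e).symm
  rw [e4]
  exact e3

/-- **KAPPA-1 on one atlas** of the chart member -/
theorem kappa_on (hX : Ctx n C Q) (hG : Given Q H L0 e) (hnef : NefC (ofHk H 0) (H.om 0) e)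
    {A : Atl (2 * n) X} [Finite A.ι] (PA : Part A) (hA : Cp (H.acm 0) A) {L : LB A} (hL : HM L)
    (hcls : Ex ((Crest.Agent.R281.Nef_252.curK hL).f2 - Real.pi • (cmp_of_cp hA).F e))
    {K : Kah A} {Lb : LB A} (h : HM Lb) {c : ℝ} (hc0 : 0 < c)
    (hcur : ∀ i, ∀ y ∈ (A.e i).source, cur h i y = (c : ℂ) • K.g i y) (P : ProjD A) {m : ℕ}
    (hm : 0 < m) (hPL : lb P = Lb ^ m) {κ r : ℝ} (hκ : 0 ≤ κ) (hr : 0 < r)
    (hR : Crest.Agent.R281.Js_578.CS * κ ^ 2 ≤ r ^ 2) (q : QTube A K n κ r) {D : Set (Cn n)}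
    {Ψ : Cn n × Cn n → X} {l : Fin (2 * n) → Cn n → Cn n} {τ : Cn n → Cn n → Cn n → ℂ}
    {w w' : F2 C} (hT : HolTube C (H.J 0) w w' n D Ψ l τ) (hP : PVT Q e D Ψ l)
    (hc : ∀ y ∈ D, ∀ c, Ψ (y, c) ∈ q.U ∧ q.f (Ψ (y, c)) = q.f (Ψ (y, 0)) ∧
      ‖q.f (Ψ (y, c))‖ < r / 4) :
    ∃ a : ℕ, 0 < a ∧ ∃ u : Fin (n + 1) → A.ι → X → ℂ, (∀ j, IsHS (L ^ a) univ (u j)) ∧
      ∃ i x, Rk A u i x := by
  obtain ⟨y₁, hy₁⟩ := hT.ne
  have hx₁' : ‖q.f (Ψ (y₁, 0))‖ < r / 2 := by linarith [(hc y₁ hy₁ 0).2.2]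
  obtain ⟨r₀, hr₀, Dg, -, t, ht, hcr, i₀, x₀, -, -, hrk⟩ :=
    sections_of_qtube PA q h hc0 hcur hκ hR P hm hPL (hc y₁ hy₁ 0).1 hx₁'
  have hO : IsOpen (D ∩ (fun b : Cn n => q.f (Ψ (b, 0))) ⁻¹' ball (q.f (Ψ (y₁, 0))) r₀) :=
    isOpen_base q hT (fun b hb' => (hc b hb' 0).1) _ _
  have hn := hX.n1
  have : Nontrivial (Cn n) := by
    have : Nonempty (Fin n) := ⟨⟨0, hn⟩⟩
    infer_instance
  obtain ⟨T, hTO, hTP⟩ : ∃ T : HTube A (Cn n) (Cn n),
      T.Om = D ∩ (fun b : Cn n => q.f (Ψ (b, 0))) ⁻¹' ball (q.f (Ψ (y₁, 0))) r₀ ∧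
      ∀ c b, T.P (c, b) = Ψ (b, c) := ⟨htube hA hT _ hO inter_subset_left, rfl, fun _ _ => rfl⟩
  have hOD : T.Om ⊆ D := by rw [hTO]; exact inter_subset_left
  have hPV : PVan Q e T := Crest.Agent.R281.Kd_22.pvan_of_pvt hT.sm
    (fun b hb' j x => per_of hT hb' j x) hT.lli hP T hOD (fun b _ => hTP b.1 b.2)
  have hy₁' : q.f (Ψ (y₁, 0)) ∈ ball (q.f (Ψ (y₁, 0))) r₀ := mem_ball_self hr₀
  have hne : T.Om.Nonempty := by
    refine ⟨y₁, ?_⟩
    rw [hTO]
    exact mem_inter hy₁ (mem_preimage.2 hy₁')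
  have hd : Module.finrank ℂ (Cn n) + Module.finrank ℂ (Cn n) = 2 * n := by
    rw [finrank_euclideanSpace_fin]; omega
  have cross : ∀ j, ∀ c c' : Cn n, ∀ b ∈ T.Om, ∀ i i', T.P (c, b) ∈ (A.e i).source →
      T.P (c', b) ∈ (A.e i').source → t j i (T.P (c, b)) * t 0 i' (T.P (c', b)) =
        t j i' (T.P (c', b)) * t 0 i (T.P (c, b)) := by
    intro j c c' b hb' i i' hi hi'
    rw [hTP] at hi
    rw [hTP] at hi'
    rw [hTP, hTP]
    rw [hTO] at hb'
    have e1 := (hc b hb'.1 c).2.1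
    have e2 := (hc b hb'.1 c').2.1
    exact hcr j _ (hc b hb'.1 c).1 _ (hc b hb'.1 c').1 (by rw [e1]; exact hb'.2) (by rw [e1, e2])
      i i' hi hi'
  obtain ⟨a, ha, u, hu, -, hrku⟩ := Crest.Agent.R281.Kd_22.kappa_main hX hG hnef hA hL
    Real.pi_pos hcls T hne hd hPV hn ht hrk cross
  exact ⟨a, ha, u, hu, i₀, x₀, hrku⟩

/-- periods of the transported tube -/
theorem pvt_map (hX : Ctx n C Q) {g k : SMap C C} (hb : Bi g k)
    (hid : ∀ w : F2 C, Cl (g.pull w) w) {D : Set (Cn n)} {Ψ : Cn n × Cn n → X}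
    {l : Fin (2 * n) → Cn n → Cn n} (hs : SmI C (D ×ˢ univ) Ψ) (hP : PVT Q e D Ψ l) :
    PVT Q e D (k.f ∘ Ψ) l := by
  refine hP.map hs k (Q' := Q) (e' := e) fun v hv => ?_
  have h2 : Ex (v - k.pull v) := by
    have h3 := hid (k.pull v)
    refine Eqv.ex ?_ h3
    intro i z hz u w
    have := hb.symm.pull_pull v i z hz u w
    simp only [F2.sub_w, sub_apply]
    rw [this]
  have h4 := hX.ex _ e h2
  rw [map_sub, LinearMap.sub_apply, hv] at h4
  linarith

/-- **KAPPA-1** at a member `H₀` isomorphic to a member `H` of the end with a quantified tube -/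
theorem kappa_member (hX : Ctx n C Q) {H₀ : HkT C} (hG : Given Q H₀ L0 e)
    (hnef : NefC (ofHk H₀ 0) (H₀.om 0) e) (p : Pres n H₀ L0) (F : Frm C Q) {H : HkT C}
    {x : ℚ} {y z s κ r : ℝ} (hκ : 0 ≤ κ) (hr : 0 < r)
    (hR : Crest.Agent.R281.Js_578.CS * κ ^ 2 ≤ r ^ 2) (hz : 0 < z) (hs : 0 < s)
    (hy : ∃ a : ℚ, (a : ℝ) = y ^ 2) (hcl : Cl (H.om 1) (z • F.sre ⟨x, y⟩))
    (hI : IsoId (ofHk H₀ 0) (ofHk H 1)) {A : Atl (2 * n) X} (hA : Cp (H.acm 1) A) {K : Kah A}
    (hK : Eqv (ofKah K).f2 (s • (cmp_of_cp hA).F (H.om 1))) (hq : TubeQ Q e H 1 A K κ r) :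
    Crest.Agent.R281.Sk_474.Rich p.A p.L := by
  obtain ⟨g, k, hb, hg, hid⟩ := hI
  obtain ⟨q, D, Ψ, l, τ, w, w', hT, hP, hc⟩ := hq
  obtain ⟨c, A', hA', K', Lb, h, hc0, hfin, hgood, ⟨PA⟩, -, ⟨Rf⟩, hl, hl', hlg, hlk, hK', hcur,
    hpos, m, hm, P, hPL⟩ := lb_iso p.cp hA hb hg hid hs hz hK hcl (rat_N hX F) ⟨x, rfl⟩ hy
      (κ := Unit) (fun _ => (univ : Set X)) (fun _ => isOpen_univ) (fun x => ⟨(), mem_univ x⟩)
  have hT' : HolTube C (H₀.J 0) (g.pull w) (g.pull w') n D (k.f ∘ Ψ) l τ :=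
    HolTube.map (J := ofHk H 1) (J' := ofHk H₀ 0) hT hb hg
  have hP' : PVT Q e D (k.f ∘ Ψ) l := pvt_map hX hb hid hT.sm hP
  have key := kappa_on hX hG hnef PA hA' _ (cls_ref hG p hA' hl hl' Rf) h
    (mul_pos Real.pi_pos hc0) hcur P hm hPL hκ hr hR (pbT hlg hlk hb.gk hb.kg hK' q) hT' hP'
    (fun b hb' c => by
      have h1 : g.f ((k.f ∘ Ψ) (b, c)) = Ψ (b, c) := hb.gk _
      have h2 : g.f ((k.f ∘ Ψ) (b, 0)) = Ψ (b, 0) := hb.gk _
      have h3 := hc b hb' c
      rw [← h1, ← h2] at h3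
      exact h3)
  obtain ⟨a, ha, u, hu, i₀, x₀, hrku⟩ := key
  exact rich_ref hl.toHolMap hl'.toHolMap Rf ⟨a, ha, u, hu, i₀, x₀, hrku⟩

end main

/-- **node N7** -/
theorem kappaP_of (Alg : AlgTT) (Tub : TubTT) (hQ : QTubP Alg) : KappaP Alg Tub := by
  intro n X _ _ _ _ C Q hX H0 L0 e hG B R x hxD hE hnef _ p
  have hG' : Given Q (B.H R.a (R.c x)) L0 e :=
    Crest.Agent.R281.Rank281_902.given_box hX hG B R.aB hxD
  obtain ⟨κ, hκ, hq⟩ := hQ n X C Q hX H0 L0 e hG B R x hxD hE
  have h1 := Crest.Agent.R281.Js_578.one_le_CS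
  have hr0 : 0 < Crest.Agent.R281.Js_578.CS * κ := mul_pos (by linarith) hκ
  have hR : Crest.Agent.R281.Js_578.CS * κ ^ 2 ≤ (Crest.Agent.R281.Js_578.CS * κ) ^ 2 := by
    have h2 : 0 ≤ κ ^ 2 := sq_nonneg κ
    nlinarith
  obtain ⟨H, y, z, s, hy, hz, hs, hyq, hcl, hI, A, hA, K, hK, hT⟩ := hq _ hr0
  exact kappa_member hX hG' hnef p R.F hκ.le hr0 hR hz hs hyq hcl hI hA hK hT

end

end Crest.Agent.R281.Kap_975
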