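import Crest.Agent.R275.Loc2D_879
import Crest.Agent.R273.Fam_835

-- ▼ part R281/Kd1_22
section

/-!
Row 281 (S0424), K1-DIV (helper22), part 1: greatest common divisors of holomorphic germs in every
dimension; relative primality is an open condition (resultant + zeros persist).

* `Dv k f q`  : `k` divides `f` near `q`
* `RP f h q`  : no common nonunit divisor at `q`
* `rp_open`   : `RP f h p → ∀ᶠ q in 𝓝 p, RP f h q`
* `exists_gcd_near` : a finite family has a divisor `h` at `p` which is the gcd at all nearby points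
-/

set_option autoImplicit false
set_option linter.unusedSectionVars false

open Set Filter Topology Metric Complex
open Crest.Agent.R275.Loc2879

noncomputable section

namespace Crest.Agent.R281.Kd_22

universe u v

section Defs

variable {E : Type u} [NormedAddCommGroup E] [NormedSpace ℂ E]
variable {E' : Type v} [NormedAddCommGroup E'] [NormedSpace ℂ E']

/-- `k` divides `f` near `q` (as holomorphic functions) -/
def Dv (k f : E → ℂ) (q : E) : Prop :=
  ∃ m : E → ℂ, AnalyticAt ℂ m q ∧ ∀ᶠ x in 𝓝 q, f x = k x * m x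

/-- relatively prime at `q` -/
def RP (f h : E → ℂ) (q : E) : Prop :=
  ∀ k : E → ℂ, AnalyticAt ℂ k q → Dv k f q → Dv k h q → k q ≠ 0

variable {k f h m : E → ℂ} {q p : E}

theorem dv_iff (hk : AnalyticAt ℂ k q) (hf : AnalyticAt ℂ f q) :
    Dv k f q ↔ gm k hk ∣ gm f hf := gm_dvd_gm.symm

theorem rp_iff (hf : AnalyticAt ℂ f q) (hh : AnalyticAt ℂ h q) :
    RP f h q ↔ IsRelPrime (gm f hf) (gm h hh) := by
  constructor
  · intro H d h1 h2
    obtain ⟨k, hk, rfl⟩ := exists_gm d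
    rw [isUnit_gm]
    exact H k hk ((dv_iff hk hf).2 h1) ((dv_iff hk hh).2 h2)
  · intro H k hk h1 h2
    have := H ((dv_iff hk hf).1 h1) ((dv_iff hk hh).1 h2)
    rwa [isUnit_gm] at this

theorem Dv.refl (f : E → ℂ) (q : E) : Dv f f q :=
  ⟨fun _ => 1, analyticAt_const, Eventually.of_forall fun x => by ring⟩

theorem Dv.trans (h1 : Dv k f q) (h2 : Dv f h q) : Dv k h q := by
  obtain ⟨a, ha, ea⟩ := h1
  obtain ⟨b, hb, eb⟩ := h2
  refine ⟨a * b, ha.mul hb, ?_⟩
  filter_upwards [ea, eb] with x h3 h4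
  rw [h4, h3, Pi.mul_apply]; ring

theorem Dv.congr_right {f' : E → ℂ} (h1 : Dv k f q) (he : f =ᶠ[𝓝 q] f') : Dv k f' q := by
  obtain ⟨a, ha, ea⟩ := h1
  exact ⟨a, ha, by filter_upwards [ea, he] with x h3 h4; rw [← h4, h3]⟩

theorem Dv.congr_left {k' : E → ℂ} (h1 : Dv k f q) (he : k =ᶠ[𝓝 q] k') : Dv k' f q := by
  obtain ⟨a, ha, ea⟩ := h1
  exact ⟨a, ha, by filter_upwards [ea, he] with x h3 h4; rw [← h4, h3]⟩

theorem Dv.ev (h1 : Dv k f q) : ∀ᶠ x in 𝓝 q, Dv k f x := by
  obtain ⟨a, ha, ea⟩ := h1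
  filter_upwards [ha.eventually_analyticAt, eventually_eventually_nhds.2 ea] with x h2 h3
  exact ⟨a, h2, h3⟩

theorem Dv.mul_right (h1 : Dv k f q) (hm : AnalyticAt ℂ m q) : Dv k (fun x => f x * m x) q := by
  obtain ⟨a, ha, ea⟩ := h1
  refine ⟨a * m, ha.mul hm, ?_⟩
  filter_upwards [ea] with x h3
  rw [h3, Pi.mul_apply]; ring

theorem Dv.add (h1 : Dv k f q) (h2 : Dv k h q) : Dv k (fun x => f x + h x) q := by
  obtain ⟨a, ha, ea⟩ := h1
  obtain ⟨b, hb, eb⟩ := h2
  refine ⟨a + b, ha.add hb, ?_⟩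
  filter_upwards [ea, eb] with x h3 h4
  rw [h4, h3, Pi.add_apply]; ring

/-- pull-back of divisibility -/
theorem Dv.comp {k f : E' → ℂ} {φ : E → E'} {x : E} (h1 : Dv k f (φ x))
    (hφ : AnalyticAt ℂ φ x) : Dv (k ∘ φ) (f ∘ φ) x := by
  obtain ⟨a, ha, ea⟩ := h1
  exact ⟨a ∘ φ, ha.comp hφ, hφ.continuousAt.eventually ea⟩

end Defs

/-! ### openness in coordinates -/

section Aux

variable {E : Type u} [NormedAddCommGroup E] [NormedSpace ℂ E] [FiniteDimensional ℂ E] {z₀ : E}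

theorem rp_aux {F H : E × ℂ → ℂ} {hF : AnalyticAt ℂ F (z₀, 0)} {hH : AnalyticAt ℂ H (z₀, 0)}
    {n : ℕ} (hreg : Reg (gm F hF) n) (hfh : IsRelPrime (gm F hF) (gm H hH)) :
    ∀ᶠ q in 𝓝 (z₀, (0 : ℂ)), RP F H q := by
  obtain ⟨c, hc, hmem⟩ := elim hreg hfh
  obtain ⟨a, b, hab⟩ := Ideal.mem_span_pair.1 hmem
  obtain ⟨A, hA, rfl⟩ := exists_gm a
  obtain ⟨B, hB, rfl⟩ := exists_gm b
  obtain ⟨C, hC, rfl⟩ := exists_gm c
  have hab' : ∀ᶠ x in 𝓝 (z₀, (0 : ℂ)), A x * F x + B x * H x = C x.1 := by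
    rw [iot, pull_gm, gm_mul, gm_mul, gm_add, gm_eq_gm] at hab
    filter_upwards [hab] with x hx using hx
  -- the base germ is not flat at nearby points
  have hCne : ∀ᶠ z in 𝓝 z₀, ¬ ∀ᶠ y in 𝓝 z, C y = 0 := by
    obtain ⟨r, hr, hCr⟩ := Metric.eventually_nhds_iff_ball.1 hC.eventually_analyticAt
    filter_upwards [ball_mem_nhds z₀ hr] with z hz hcon
    apply hc
    rw [gm_eq_zero]
    have h1 : AnalyticOnNhd ℂ C (ball z₀ r) := fun y hy => hCr y hy
    have h2 := h1.eqOn_zero_of_preconnected_of_eventuallyEq_zero (convex_ball _ _).isPreconnected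
      hz hcon
    filter_upwards [ball_mem_nhds z₀ hr] with y hy using h2 hy
  -- `F` is not flat along the nearby fibres
  have hFne : ∀ᶠ q in 𝓝 (z₀, (0 : ℂ)), ¬ ∀ᶠ w in 𝓝 (0 : ℂ), F (q.1, q.2 + w) = 0 := by
    have h0 : ¬ ∀ᶠ w in 𝓝 (0 : ℂ), F (z₀, w) = 0 := by
      intro hcon
      apply hreg.rho_ne_zero
      rw [rho, pull_gm, gm_eq_zero]
      exact hcon
    obtain ⟨r, hr, hFr⟩ := Metric.eventually_nhds_iff_ball.1 hF.eventually_analyticAt
    obtain ⟨w', hw', hne⟩ : ∃ w ∈ ball (0 : ℂ) r, F (z₀, w) ≠ 0 := by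
      by_contra hcon
      push Not at hcon
      exact h0 (Filter.mem_of_superset (ball_mem_nhds 0 hr) hcon)
    have hz : ∀ᶠ z in 𝓝 z₀, F (z, w') ≠ 0 := by
      have h1 : ContinuousAt (fun z : E => F (z, w')) z₀ := by
        have h2 : ContinuousAt F (z₀, w') := (hFr (z₀, w') (by
          rw [← ball_prod_same]; exact ⟨mem_ball_self hr, hw'⟩)).continuousAt
        exact ContinuousAt.comp (f := fun z : E => (z, w')) h2 (by fun_prop)
      exact h1.eventually_ne hne
    have hfst : Tendsto (fun q : E × ℂ => q.1) (𝓝 (z₀, (0 : ℂ))) (𝓝 z₀) := continuousAt_fst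
    filter_upwards [hfst.eventually hz, ball_mem_nhds (z₀, (0 : ℂ)) hr] with q h1 h2 hcon
    rw [← ball_prod_same] at h2
    apply h1
    have h3 : AnalyticOnNhd ℂ (fun w : ℂ => F (q.1, w)) (ball 0 r) := by
      intro w hw
      have h4 : AnalyticAt ℂ F (q.1, w) := hFr _ (by
        rw [← ball_prod_same]; exact ⟨h2.1, hw⟩)
      exact AnalyticAt.comp (g := F) (f := fun w : ℂ => (q.1, w)) h4
        (analyticAt_const.prod analyticAt_id)
    have h5 : (fun w : ℂ => F (q.1, w)) =ᶠ[𝓝 q.2] 0 := by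
      have h6 : Tendsto (fun w : ℂ => w - q.2) (𝓝 q.2) (𝓝 0) := by
        have : ContinuousAt (fun w : ℂ => w - q.2) q.2 := by fun_prop
        have h7 := this.tendsto
        rwa [sub_self] at h7
      filter_upwards [h6.eventually hcon] with w hw
      have : q.2 + (w - q.2) = w := by ring
      rw [this] at hw
      exact hw
    exact h3.eqOn_zero_of_preconnected_of_eventuallyEq_zero (convex_ball _ _).isPreconnected
      h2.2 h5 hw'
  have hfst : Tendsto (fun q : E × ℂ => q.1) (𝓝 (z₀, (0 : ℂ))) (𝓝 z₀) := continuousAt_fst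
  filter_upwards [hfst.eventually hCne, hFne, eventually_eventually_nhds.2 hab',
    hA.eventually_analyticAt, hB.eventually_analyticAt] with q h1 h2 h3 hAq hBq
  intro k hk hkF hkH hk0
  apply h1
  -- `k` divides the base germ
  obtain ⟨M, hM, hCM⟩ : Dv k (fun x : E × ℂ => C x.1) q := by
    have h4 := (hkF.mul_right hAq).add (hkH.mul_right hBq)
    refine h4.congr_right ?_
    filter_upwards [h3] with x hx
    rw [← hx]; ring
  obtain ⟨m, hm, hFm⟩ := hkF
  -- translate the point to the zero fibre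
  set K : E × ℂ → ℂ := fun x => k (x.1, q.2 + x.2) with hKdef
  have hsh : ∀ w : ℂ, AnalyticAt ℂ (fun x : E × ℂ => (x.1, w + x.2)) (q.1, 0) := fun w =>
    analyticAt_fst.prod (analyticAt_const.add analyticAt_snd)
  have hK : AnalyticAt ℂ K (q.1, 0) := by
    refine AnalyticAt.comp (g := k) (f := fun x : E × ℂ => (x.1, q.2 + x.2)) ?_ (hsh q.2)
    simpa using hk
  have hK0 : K (q.1, 0) = 0 := by simpa [hKdef] using hk0
  have htend : Tendsto (fun w : ℂ => (q.1, q.2 + w)) (𝓝 0) (𝓝 q) := by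
    have h5 : ContinuousAt (fun w : ℂ => ((q.1, q.2 + w) : E × ℂ)) 0 := by fun_prop
    have h6 := h5.tendsto
    simpa using h6
  have hKne : ¬ ∀ᶠ w in 𝓝 (0 : ℂ), K (q.1, w) = 0 := by
    intro hcon
    apply h2
    filter_upwards [hcon, htend.eventually hFm] with w h5 h6
    rw [h6]
    have h7 : k (q.1, q.2 + w) = 0 := h5
    rw [h7, zero_mul]
  obtain ⟨r, hr, hball⟩ := Metric.eventually_nhds_iff_ball.1 hCM
  have h8 := exists_zero_near hK hK0 hKne hr
  filter_upwards [h8, ball_mem_nhds q.1 hr] with z hz hzr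
  obtain ⟨w, hw, hKw⟩ := hz
  have h9 := hball (z, q.2 + w) (by
    rw [← Prod.mk.eta (p := q), ← ball_prod_same]
    refine ⟨hzr, ?_⟩
    rw [mem_ball, dist_eq_norm, add_sub_cancel_left]
    rwa [mem_ball_zero_iff] at hw)
  have h10 : k (z, q.2 + w) = 0 := hKw
  rw [h10, zero_mul] at h9
  exact h9

end Aux

/-! ### general finite dimensional spaces -/

section General

variable {F : Type u} [NormedAddCommGroup F] [NormedSpace ℂ F] [FiniteDimensional ℂ F]

/-- **relative primality is an open condition** -/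
theorem rp_open {p : F} {f h : F → ℂ} (hf : AnalyticAt ℂ f p) (hh : AnalyticAt ℂ h p)
    (H : RP f h p) : ∀ᶠ q in 𝓝 p, RP f h q := by
  have H' := (rp_iff hf hh).1 H
  rcases eq_or_ne (gm f hf) 0 with h0 | hne
  · rw [h0, isRelPrime_zero_left, isUnit_gm] at H'
    filter_upwards [hh.continuousAt.eventually_ne H', hh.eventually_analyticAt] with x hx hhx
    intro k hk _ hkh hk0
    obtain ⟨m, hm, e⟩ := hkh
    have := e.self_of_nhds
    rw [hk0, zero_mul] at this
    exact hx this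
  rcases Nat.eq_zero_or_pos (Module.finrank ℂ F) with h | hpos
  · have : Subsingleton F := Module.finrank_zero_iff.1 h
    exact Eventually.of_forall fun q => by rw [Subsingleton.elim q p]; exact H
  obtain ⟨n, hn⟩ := Nat.exists_eq_add_of_lt hpos
  have hn' : Module.finrank ℂ F = n + 1 := by omega
  obtain ⟨e, m, hm⟩ := exists_regular_chart hn' hne
  have h1 : IsRelPrime (affEquiv e p (gm f hf)) (affEquiv e p (gm h hh)) :=
    (isRelPrime_map (affEquiv e p).toMulEquiv).2 H'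
  rw [affEquiv_gm] at hm
  rw [affEquiv_gm, affEquiv_gm] at h1
  have h2 := rp_aux (z₀ := (0 : Fin n → ℂ)) hm h1
  have h3 : Tendsto (fun x : F => e.symm (x - p)) (𝓝 p) (𝓝 ((0 : Fin n → ℂ), (0 : ℂ))) := by
    have : Continuous (fun x : F => e.symm (x - p)) := by fun_prop
    have h4 := this.tendsto p
    simp only [sub_self, map_zero] at h4
    exact h4
  filter_upwards [h3.eventually h2] with q hq
  intro k hk hkf hkh
  have hφ : AnalyticAt ℂ (fun x : (Fin n → ℂ) × ℂ => p + e x) (e.symm (q - p)) :=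
    analyticAt_const.add (e.toContinuousLinearMap.analyticAt _)
  have hval : p + e (e.symm (q - p)) = q := by simp
  have h5 : Dv (k ∘ fun x : (Fin n → ℂ) × ℂ => p + e x) (f ∘ fun x => p + e x)
      (e.symm (q - p)) := Dv.comp (by rw [hval]; exact hkf) hφ
  have h6 : Dv (k ∘ fun x : (Fin n → ℂ) × ℂ => p + e x) (h ∘ fun x => p + e x)
      (e.symm (q - p)) := Dv.comp (by rw [hval]; exact hkh) hφ
  have h7 : AnalyticAt ℂ (k ∘ fun x : (Fin n → ℂ) × ℂ => p + e x) (e.symm (q - p)) :=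
    AnalyticAt.comp (by simpa using hk) hφ
  have h8 := hq _ h7 h5 h6
  have h9 : (k ∘ fun x : (Fin n → ℂ) × ℂ => p + e x) (e.symm (q - p)) = k q := by
    rw [Function.comp_apply, hval]
  rwa [h9] at h8

/-- common divisors of `d a`, `d b` with `a`, `b` relatively prime divide `d` -/
theorem dvd_of_isRelPrime {R : Type*} [CommRing R] [IsDomain R] [UniqueFactorizationMonoid R]
    {k d a b : R} (hab : IsRelPrime a b) (h1 : k ∣ d * a) (h2 : k ∣ d * b) : k ∣ d := by
  classical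
  let _ : GCDMonoid R := UniqueFactorizationMonoid.toGCDMonoid R
  have h3 : k ∣ gcd (d * a) (d * b) := dvd_gcd h1 h2
  have h4 : IsUnit (gcd a b) := hab (gcd_dvd_left a b) (gcd_dvd_right a b)
  have h5 : gcd (d * a) (d * b) ∣ d * gcd a b := (gcd_mul_left' d a b).dvd
  have h6 := h3.trans h5
  exact (h4.dvd_mul_right).1 h6

/-- the gcd of two germs is the gcd at all nearby points -/
theorem exists_gcd_two {p : F} {f h : F → ℂ} (hf : AnalyticAt ℂ f p) (hh : AnalyticAt ℂ h p)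
    (hne : ¬ ∀ᶠ x in 𝓝 p, f x = 0) :
    ∃ d : F → ℂ, AnalyticAt ℂ d p ∧ (¬ ∀ᶠ x in 𝓝 p, d x = 0) ∧ Dv d f p ∧ Dv d h p ∧
      ∀ᶠ q in 𝓝 p, ∀ k : F → ℂ, AnalyticAt ℂ k q → Dv k f q → Dv k h q → Dv k d q := by
  have hne' : gm f hf ≠ 0 := fun h0 => hne (gm_eq_zero.1 h0)
  obtain ⟨d, f', h', h1, h2, h3⟩ := exists_gcd_factor (gm f hf) (gm h hh) hne'
  obtain ⟨D, hD, rfl⟩ := exists_gm d
  obtain ⟨F', hF', rfl⟩ := exists_gm f'
  obtain ⟨H', hH', rfl⟩ := exists_gm h'
  rw [gm_mul, gm_eq_gm] at h1 h2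
  refine ⟨D, hD, ?_, ⟨F', hF', h1⟩, ⟨H', hH', h2⟩, ?_⟩
  · intro hcon
    apply hne
    filter_upwards [h1, hcon] with x h4 h5
    rw [h4, Pi.mul_apply, h5, zero_mul]
  · filter_upwards [rp_open hF' hH' ((rp_iff hF' hH').2 h3), eventually_eventually_nhds.2 h1,
      eventually_eventually_nhds.2 h2, hD.eventually_analyticAt, hF'.eventually_analyticAt,
      hH'.eventually_analyticAt] with q h4 h5 h6 hDq hFq hHq
    intro k hk hkf hkh
    have h7 : gm k hk ∣ gm D hDq * gm F' hFq := by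
      rw [gm_mul, ← dv_iff hk (hDq.mul hFq)]
      exact hkf.congr_right h5
    have h8 : gm k hk ∣ gm D hDq * gm H' hHq := by
      rw [gm_mul, ← dv_iff hk (hDq.mul hHq)]
      exact hkh.congr_right h6
    rw [dv_iff hk hDq]
    exact dvd_of_isRelPrime ((rp_iff hFq hHq).1 h4) h7 h8

/-- **local greatest common divisor of a finite family**, valid at all nearby points -/
theorem exists_gcd_near {ι : Type*} (s : Finset ι) {p : F} {G : ι → F → ℂ} {g : F → ℂ}
    (hg : AnalyticAt ℂ g p) (hG : ∀ j ∈ s, AnalyticAt ℂ (G j) p)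
    (hne : ¬ ∀ᶠ x in 𝓝 p, g x = 0) :
    ∃ d : F → ℂ, AnalyticAt ℂ d p ∧ (¬ ∀ᶠ x in 𝓝 p, d x = 0) ∧ Dv d g p ∧
      (∀ j ∈ s, Dv d (G j) p) ∧
      ∀ᶠ q in 𝓝 p, ∀ k : F → ℂ, AnalyticAt ℂ k q → Dv k g q → (∀ j ∈ s, Dv k (G j) q) →
        Dv k d q := by
  classical
  induction s using Finset.induction_on with
  | empty =>
    exact ⟨g, hg, hne, Dv.refl g p, by simp, Eventually.of_forall fun q k _ h _ => h⟩
  | insert j s hj ih =>
    obtain ⟨d, hd, hd0, hdg, hdG, hk⟩ := ih fun i hi => hG i (Finset.mem_insert_of_mem hi)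
    obtain ⟨d', hd', hd0', h1, h2, h3⟩ := exists_gcd_two hd (hG j (Finset.mem_insert_self j s)) hd0
    refine ⟨d', hd', hd0', h1.trans hdg, ?_, ?_⟩
    · intro i hi
      rcases Finset.mem_insert.1 hi with rfl | hi
      · exact h2
      · exact h1.trans (hdG i hi)
    · filter_upwards [hk, h3] with q h4 h5
      intro k hka hkg hkG
      exact h5 k hka (h4 k hka hkg fun i hi => hkG i (Finset.mem_insert_of_mem hi))
        (hkG j (Finset.mem_insert_self j s))

end General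

end Crest.Agent.R281.Kd_22
end
end

-- ▼ part R281/Kd2_22
section

/-!
Row 281 (S0424), K1-DIV (helper22), part 2: germs of holomorphic functions on a complex manifold in
the atlas language (`Atl n M`), chart free.

* `Hm A f x`     : `f` is holomorphic near `x`
* `DvM A k f x`  : `k` divides `f` near `x`
* `exists_gcd_M` : local gcd of a finite family, valid at all nearby points
-/

set_option autoImplicit false
set_option linter.unusedSectionVars false

open Set Filter Topology Complex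

noncomputable section

namespace Crest.Agent.R281.Kd_22

open Crest.Agent.R275.Geo Crest.Agent.R275.Core144 Crest.Agent.R275.Loc2879

section Germs

variable {n : ℕ} {M : Type} [TopologicalSpace M] (A : Atl n M)

/-- `f` is holomorphic near `x` -/
def Hm (f : M → ℂ) (x : M) : Prop :=
  ∀ i, x ∈ (A.e i).source → AnalyticAt ℂ (fun z => f ((A.e i).symm z)) (A.e i x)

/-- `k` divides `f` near `x` -/
def DvM (k f : M → ℂ) (x : M) : Prop :=
  ∃ m : M → ℂ, Hm A m x ∧ ∀ᶠ y in 𝓝 x, f y = k y * m y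

variable {A} {i j : A.ι} {x : M} {f g h k a b c : M → ℂ}

theorem ev_iff (hx : x ∈ (A.e i).source) {P : M → Prop} :
    (∀ᶠ y in 𝓝 x, P y) ↔ ∀ᶠ z in 𝓝 (A.e i x), P ((A.e i).symm z) :=
  ((A.e i).eventually_nhds' P hx).symm

theorem ev_iff' (hx : x ∈ (A.e i).source) {P : Cn n → Prop} :
    (∀ᶠ z in 𝓝 (A.e i x), P z) ↔ ∀ᶠ y in 𝓝 x, P (A.e i y) :=
  (A.e i).eventually_nhds P hx

theorem an_trans (i j : A.ι) (hx : x ∈ (A.e i).source) (hx' : x ∈ (A.e j).source) :
    AnalyticAt ℂ (fun z => A.e i ((A.e j).symm z)) (A.e j x) := by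
  have ho : IsOpen (A.ov j i) := isOpen_ov j i
  exact Crest.Agent.R266.SCV.analyticOnNhd_of_differentiableOn ho (A.holo j i) _
    (mem_ov ⟨hx', hx⟩)

/-- one chart is enough -/
theorem Hm.of_one (hx : x ∈ (A.e i).source)
    (h : AnalyticAt ℂ (fun z => f ((A.e i).symm z)) (A.e i x)) : Hm A f x := by
  intro j hj
  have h1 := an_trans i j hx hj
  have h2 : AnalyticAt ℂ (fun z => f ((A.e i).symm z)) (A.e i ((A.e j).symm (A.e j x))) := by
    rwa [(A.e j).left_inv hj]
  refine (AnalyticAt.comp (g := fun z => f ((A.e i).symm z))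
    (f := fun z => A.e i ((A.e j).symm z)) h2 h1).congr ?_
  have h3 : ∀ᶠ z in 𝓝 (A.e j x), (A.e j).symm z ∈ (A.e i).source :=
    (ev_iff hj).1 ((A.e i).open_source.mem_nhds hx)
  filter_upwards [h3] with z hz
  simp [Function.comp, (A.e i).left_inv hz]

theorem Hm.congr (h : Hm A f x) (he : f =ᶠ[𝓝 x] g) : Hm A g x := by
  intro i hi
  exact (h i hi).congr ((ev_iff hi).1 he)

theorem Hm.ev (h : Hm A f x) : ∀ᶠ y in 𝓝 x, Hm A f y := by
  obtain ⟨i, hi⟩ := A.cover x
  have h1 := (ev_iff' hi).1 (h i hi).eventually_analyticAt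
  filter_upwards [h1, (A.e i).open_source.mem_nhds hi] with y hy hy'
  exact Hm.of_one hy' hy

theorem Hm.const (c : ℂ) (x : M) : Hm A (fun _ => c) x := fun _ _ => analyticAt_const

theorem Hm.mul (hf : Hm A f x) (hg : Hm A g x) : Hm A (fun y => f y * g y) x :=
  fun i hi => (hf i hi).mul (hg i hi)

theorem Hm.add (hf : Hm A f x) (hg : Hm A g x) : Hm A (fun y => f y + g y) x :=
  fun i hi => (hf i hi).add (hg i hi)

theorem Hm.sub (hf : Hm A f x) (hg : Hm A g x) : Hm A (fun y => f y - g y) x :=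
  fun i hi => (hf i hi).sub (hg i hi)

theorem Hm.inv (hf : Hm A f x) (h0 : f x ≠ 0) : Hm A (fun y => (f y)⁻¹) x := fun i hi =>
  (hf i hi).inv (by rwa [(A.e i).left_inv hi])

theorem Hm.pow (hf : Hm A f x) (m : ℕ) : Hm A (fun y => f y ^ m) x :=
  fun i hi => (hf i hi).pow m

theorem Hm.cont (hf : Hm A f x) : ContinuousAt f x := by
  obtain ⟨i, hi⟩ := A.cover x
  have h1 := (hf i hi).continuousAt
  have h2 : ContinuousAt (fun y => f ((A.e i).symm (A.e i y))) x :=
    ContinuousAt.comp (g := fun z => f ((A.e i).symm z)) h1 ((A.e i).continuousAt hi)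
  refine h2.congr ?_
  filter_upwards [(A.e i).open_source.mem_nhds hi] with y hy
  rw [(A.e i).left_inv hy]

theorem Hm.ev_ne (hf : Hm A f x) (h0 : f x ≠ 0) : ∀ᶠ y in 𝓝 x, f y ≠ 0 :=
  hf.cont.eventually_ne h0

theorem hm_of_holAt {U : Set M} (h : HolAt A i U f) (hU : IsOpen U) (hx : x ∈ (A.e i).source)
    (hxU : x ∈ U) : Hm A f x := by
  refine Hm.of_one hx ?_
  exact Crest.Agent.R266.SCV.analyticOnNhd_of_differentiableOn (isOpen_ti hU) h _
    ⟨(A.e i).map_source hx, by rw [mem_preimage, (A.e i).left_inv hx]; exact hxU⟩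

theorem holAt_of_hm {U : Set M} (h : ∀ x ∈ (A.e i).source, x ∈ U → Hm A f x) :
    HolAt A i U f := by
  intro z hz
  have hx := (A.e i).map_target hz.1
  have h1 := h _ hx hz.2 i hx
  rw [(A.e i).right_inv hz.1] at h1
  exact h1.differentiableAt.differentiableWithinAt

/-- a function of the coordinates of the chart `i` -/
theorem hm_chart {φ : Cn n → ℂ} (hx : x ∈ (A.e i).source) (h : AnalyticAt ℂ φ (A.e i x)) :
    Hm A (fun y => φ (A.e i y)) x := by
  refine Hm.of_one hx (h.congr ?_)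
  filter_upwards [(A.e i).open_target.mem_nhds ((A.e i).map_source hx)] with z hz
  rw [(A.e i).right_inv hz]


/-! ### flat germs, cancellation -/

theorem mul_flat (hf : Hm A f x) (hg : Hm A g x) (h : ∀ᶠ y in 𝓝 x, f y * g y = 0) :
    (∀ᶠ y in 𝓝 x, f y = 0) ∨ ∀ᶠ y in 𝓝 x, g y = 0 := by
  obtain ⟨i, hi⟩ := A.cover x
  have h1 : gm _ (hf i hi) * gm _ (hg i hi) = 0 := by
    rw [gm_mul, gm_eq_zero]
    exact (ev_iff hi).1 h
  rcases mul_eq_zero.1 h1 with h2 | h2
  · left; exact (ev_iff hi).2 (gm_eq_zero.1 h2)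
  · right; exact (ev_iff hi).2 (gm_eq_zero.1 h2)

theorem cancel (ha : Hm A a x) (hb : Hm A b x) (hc : Hm A c x) (hne : ¬ ∀ᶠ y in 𝓝 x, a y = 0)
    (h : ∀ᶠ y in 𝓝 x, a y * b y = a y * c y) : ∀ᶠ y in 𝓝 x, b y = c y := by
  have h1 : ∀ᶠ y in 𝓝 x, a y * (b y - c y) = 0 := by
    filter_upwards [h] with y hy
    rw [mul_sub, hy, sub_self]
  rcases mul_flat ha (hb.sub hc) h1 with h2 | h2
  · exact absurd h2 hne
  · filter_upwards [h2] with y hy using sub_eq_zero.1 hy

/-- nonflatness is open -/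
theorem ev_not_flat (hf : Hm A f x) (hne : ¬ ∀ᶠ y in 𝓝 x, f y = 0) :
    ∀ᶠ y in 𝓝 x, ¬ ∀ᶠ w in 𝓝 y, f w = 0 := by
  obtain ⟨i, hi⟩ := A.cover x
  obtain ⟨r, hr, hA⟩ := Metric.eventually_nhds_iff_ball.1 (hf i hi).eventually_analyticAt
  have h1 : ∀ᶠ z in 𝓝 (A.e i x), z ∈ Metric.ball (A.e i x) r ∧ z ∈ (A.e i).target :=
    Filter.inter_mem (Metric.ball_mem_nhds _ hr)
      ((A.e i).open_target.mem_nhds ((A.e i).map_source hi))
  have h2 := (ev_iff' hi).1 h1
  filter_upwards [h2, (A.e i).open_source.mem_nhds hi] with y hy hyi hcon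
  apply hne
  rw [ev_iff hi]
  have h3 : AnalyticOnNhd ℂ (fun z => f ((A.e i).symm z)) (Metric.ball (A.e i x) r) :=
    fun z hz => hA z hz
  have h4 := h3.eqOn_zero_of_preconnected_of_eventuallyEq_zero (convex_ball _ _).isPreconnected
    hy.1 ((ev_iff hyi).1 hcon)
  filter_upwards [Metric.ball_mem_nhds (A.e i x) hr] with z hz using h4 hz

/-! ### divisibility -/

theorem dvM_iff (hx : x ∈ (A.e i).source) :
    DvM A k f x ↔ Dv (fun z => k ((A.e i).symm z)) (fun z => f ((A.e i).symm z)) (A.e i x) := by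
  constructor
  · rintro ⟨m, hm, e⟩
    exact ⟨_, hm i hx, (ev_iff hx).1 e⟩
  · rintro ⟨m, hm, e⟩
    refine ⟨fun y => m (A.e i y), hm_chart hx hm, ?_⟩
    filter_upwards [(ev_iff' hx).1 e, (A.e i).open_source.mem_nhds hx] with y hy hyi
    simp only [(A.e i).left_inv hyi] at hy
    exact hy

theorem DvM.refl (f : M → ℂ) (x : M) : DvM A f f x :=
  ⟨fun _ => 1, Hm.const 1 x, Eventually.of_forall fun y => by ring⟩

theorem DvM.trans (h1 : DvM A k f x) (h2 : DvM A f h x) : DvM A k h x := by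
  obtain ⟨a, ha, ea⟩ := h1
  obtain ⟨b, hb, eb⟩ := h2
  refine ⟨_, ha.mul hb, ?_⟩
  filter_upwards [ea, eb] with y h3 h4
  rw [h4, h3]; ring

theorem DvM.congr_right (h1 : DvM A k f x) (he : f =ᶠ[𝓝 x] g) : DvM A k g x := by
  obtain ⟨a, ha, ea⟩ := h1
  exact ⟨a, ha, by filter_upwards [ea, he] with y h3 h4; rw [← h4, h3]⟩

theorem DvM.congr_left (h1 : DvM A k f x) (he : k =ᶠ[𝓝 x] g) : DvM A g f x := by
  obtain ⟨a, ha, ea⟩ := h1
  exact ⟨a, ha, by filter_upwards [ea, he] with y h3 h4; rw [← h4, h3]⟩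

theorem DvM.ev (h1 : DvM A k f x) : ∀ᶠ y in 𝓝 x, DvM A k f y := by
  obtain ⟨a, ha, ea⟩ := h1
  filter_upwards [ha.ev, eventually_eventually_nhds.2 ea] with y h2 h3
  exact ⟨a, h2, h3⟩

theorem DvM.mul_right {m : M → ℂ} (h1 : DvM A k f x) (hm : Hm A m x) :
    DvM A k (fun y => f y * m y) x := by
  obtain ⟨a, ha, ea⟩ := h1
  refine ⟨_, ha.mul hm, ?_⟩
  filter_upwards [ea] with y h3
  rw [h3]; ring

/-- mutual divisibility gives a unit -/
theorem unit_of_dvM (hk : Hm A k x) (hne : ¬ ∀ᶠ y in 𝓝 x, k y = 0) (h1 : DvM A k f x)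
    (h2 : DvM A f k x) : ∃ u : M → ℂ, Hm A u x ∧ u x ≠ 0 ∧ ∀ᶠ y in 𝓝 x, f y = k y * u y := by
  obtain ⟨a, ha, ea⟩ := h1
  obtain ⟨b, hb, eb⟩ := h2
  refine ⟨a, ha, ?_, ea⟩
  have h3 : ∀ᶠ y in 𝓝 x, k y * (a y * b y) = k y * 1 := by
    filter_upwards [ea, eb] with y h4 h5
    rw [mul_one, ← mul_assoc, ← h4, ← h5]
  have h4 := (cancel hk (ha.mul hb) (Hm.const 1 x) hne h3).self_of_nhds
  exact left_ne_zero_of_mul_eq_one h4

/-- **local gcd on the manifold** -/
theorem exists_gcd_M {ι : Type*} (s : Finset ι) {G : ι → M → ℂ} (hg : Hm A g x)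
    (hG : ∀ j ∈ s, Hm A (G j) x) (hne : ¬ ∀ᶠ y in 𝓝 x, g y = 0) :
    ∃ d : M → ℂ, Hm A d x ∧ (¬ ∀ᶠ y in 𝓝 x, d y = 0) ∧ DvM A d g x ∧
      (∀ j ∈ s, DvM A d (G j) x) ∧
      ∀ᶠ y in 𝓝 x, ∀ k : M → ℂ, Hm A k y → DvM A k g y → (∀ j ∈ s, DvM A k (G j) y) →
        DvM A k d y := by
  obtain ⟨i, hi⟩ := A.cover x
  obtain ⟨d, hd, hd0, hdg, hdG, hk⟩ := exists_gcd_near s (hg i hi) (fun j hj => hG j hj i hi)
    (fun hcon => hne ((ev_iff hi).2 hcon))
  have he : (fun z => d (A.e i ((A.e i).symm z))) =ᶠ[𝓝 (A.e i x)] d := by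
    filter_upwards [(A.e i).open_target.mem_nhds ((A.e i).map_source hi)] with z hz
    rw [(A.e i).right_inv hz]
  refine ⟨fun y => d (A.e i y), hm_chart hi hd, ?_, ?_, ?_, ?_⟩
  · intro hcon
    exact hd0 ((ev_iff' (P := fun z => d z = 0) hi).2 hcon)
  · rw [dvM_iff hi]
    exact hdg.congr_left he.symm
  · intro j hj
    rw [dvM_iff hi]
    exact (hdG j hj).congr_left he.symm
  · filter_upwards [(ev_iff' hi).1 hk, (A.e i).open_source.mem_nhds hi] with y hy hyi
    intro k hk hkg hkG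
    rw [dvM_iff hyi] at hkg ⊢
    have h1 := hy _ (hk i hyi) hkg (fun j hj => (dvM_iff hyi).1 (hkG j hj))
    refine h1.congr_right ?_
    filter_upwards [(A.e i).open_target.mem_nhds ((A.e i).map_source hyi)] with z hz
    rw [(A.e i).right_inv hz]

end Germs

end Crest.Agent.R281.Kd_22
end
end

-- ▼ part R281/Kd3_22

/-!
Row 281 (S0424), K1-DIV (helper22), part 3: effective divisors (Cartier data) on an atlas and their
line bundles; division of sections; the movable part of a finite family of sections.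

* `CaD A`, `CaD.lb`, `CaD.isHS`  : Cartier data, line bundle, canonical section
* `Cop A t x`                    : no common nonunit divisor at `x`
* `exists_movable`               : `s_j = h t_j`, `h ∈ H⁰(D)`, `t_j ∈ H⁰(N)` without common divisor
-/

set_option autoImplicit false
set_option linter.unusedSectionVars false

open Set Filter Topology Complex

noncomputable section

namespace Crest.Agent.R281.Kd_22

open Crest.Agent.R275.Geo Crest.Agent.R275.Core144 Crest.Agent.R275.Loc2879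
open Crest.Agent.R273.Map_835 Crest.Agent.R273.PB_835 Crest.Agent.R273.Defs_333 Crest.Agent.R275.GC293

section Cartier

variable {n : ℕ} {M : Type} [TopologicalSpace M]

/-- effective Cartier data on the charts of `A` -/
structure CaD (A : Atl n M) where
  h : A.ι → M → ℂ
  hm : ∀ i, ∀ x ∈ (A.e i).source, Hm A (h i) x
  nf : ∀ i, ∀ x ∈ (A.e i).source, ¬ ∀ᶠ y in 𝓝 x, h i y = 0
  as : ∀ i j, ∀ x ∈ (A.e i).source ∩ (A.e j).source,
    ∃ u : M → ℂ, Hm A u x ∧ u x ≠ 0 ∧ ∀ᶠ y in 𝓝 x, h i y = h j y * u y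

variable {A : Atl n M}

open Classical in
/-- transition functions of the line bundle of Cartier data -/
def CaD.tf (C : CaD A) (i j : A.ι) (x : M) : ℂ :=
  if hx : x ∈ (A.e i).source ∩ (A.e j).source then (C.as i j x hx).choose x else 1

theorem CaD.tf_ev (C : CaD A) {i j : A.ι} {x : M} (hx : x ∈ (A.e i).source ∩ (A.e j).source)
    {u : M → ℂ} (hu : Hm A u x) (e : ∀ᶠ y in 𝓝 x, C.h i y = C.h j y * u y) :
    C.tf i j =ᶠ[𝓝 x] u := by
  have hov : (A.e i).source ∩ (A.e j).source ∈ 𝓝 x :=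
    ((A.e i).open_source.inter (A.e j).open_source).mem_nhds hx
  filter_upwards [hov, hu.ev, eventually_eventually_nhds.2 e] with y hy huy ey
  obtain ⟨h1, -, h3⟩ := (C.as i j y hy).choose_spec
  have h4 : ∀ᶠ w in 𝓝 y, C.h j w * (C.as i j y hy).choose w = C.h j w * u w := by
    filter_upwards [h3, ey] with w a b
    rw [← a, ← b]
  have h5 := (cancel (C.hm j y hy.2) h1 huy (C.nf j y hy.2) h4).self_of_nhds
  rw [CaD.tf, dif_pos hy, h5]

theorem CaD.tf_off (C : CaD A) {i j : A.ι} {x : M}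
    (hx : x ∉ (A.e i).source ∩ (A.e j).source) : C.tf i j x = 1 := dif_neg hx

theorem CaD.tf_hm (C : CaD A) {i j : A.ι} {x : M}
    (hx : x ∈ (A.e i).source ∩ (A.e j).source) : Hm A (C.tf i j) x := by
  obtain ⟨u, h1, -, h3⟩ := C.as i j x hx
  exact h1.congr (C.tf_ev hx h1 h3).symm

theorem CaD.tf_eq (C : CaD A) {i j : A.ι} {x : M}
    (hx : x ∈ (A.e i).source ∩ (A.e j).source) :
    ∀ᶠ y in 𝓝 x, C.h i y = C.h j y * C.tf i j y := by
  obtain ⟨u, h1, -, h3⟩ := C.as i j x hx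
  filter_upwards [h3, C.tf_ev hx h1 h3] with y a b
  rw [b, a]

/-- the line bundle of Cartier data -/
def CaD.lb (C : CaD A) : LB A where
  g := C.tf
  hol i j := holAt_of_hm fun x hx hj => C.tf_hm ⟨hx, hj⟩
  off i j x hx := C.tf_off hx
  self i x := by
    by_cases hx : x ∈ (A.e i).source
    · refine (C.tf_ev ⟨hx, hx⟩ (Hm.const 1 x) (Eventually.of_forall fun y => ?_)).self_of_nhds
      ring
    · exact C.tf_off fun h => hx h.1
  mul i j k x hx := by
    have hij : x ∈ (A.e i).source ∩ (A.e j).source := hx.1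
    have hjk : x ∈ (A.e j).source ∩ (A.e k).source := ⟨hx.1.2, hx.2⟩
    have hik : x ∈ (A.e i).source ∩ (A.e k).source := ⟨hx.1.1, hx.2⟩
    have h1 := C.tf_ev hik ((C.tf_hm hij).mul (C.tf_hm hjk)) (by
      filter_upwards [C.tf_eq hij, C.tf_eq hjk] with y a b
      rw [a, b]; ring)
    exact h1.self_of_nhds.symm

open Classical in
/-- the canonical section -/
def CaD.sec (C : CaD A) : A.ι → M → ℂ := fun i x => if x ∈ (A.e i).source then C.h i x else 0



theorem hm_of_isHS {L : LB A} {s : A.ι → M → ℂ} (hs : IsHS L univ s) {i : A.ι} {x : M}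
    (hx : x ∈ (A.e i).source) : Hm A (s i) x :=
  hm_of_holAt (hs.hol i) isOpen_univ hx (mem_univ x)

/-- a section divisible by Cartier data, divided -/
theorem CaD.div (C : CaD A) {E : LB A} {s t : A.ι → M → ℂ} (hs : IsHS E univ s)
    (ht : ∀ i, ∀ x ∈ (A.e i).source, Hm A (t i) x) (hoff : ∀ i, ∀ x ∉ (A.e i).source, t i x = 0)
    (hst : ∀ i, ∀ x ∈ (A.e i).source, s i x = C.h i x * t i x) :
    IsHS (E * C.lb⁻¹) univ t := by
  refine ⟨fun i => holAt_of_hm fun x hx _ => ht i x hx, hoff, fun i j x hx _ => ?_⟩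
  have hov : (A.e i).source ∩ (A.e j).source ∈ 𝓝 x :=
    ((A.e i).open_source.inter (A.e j).open_source).mem_nhds hx
  have hE : Hm A (E.g i j) x := hm_of_holAt (E.hol i j) (A.e j).open_source hx.1 hx.2
  -- `h_j (tf * t_i) = h_j (E.g * t_j)`
  have h1 : ∀ᶠ y in 𝓝 x, C.h j y * (C.tf i j y * t i y) = C.h j y * (E.g i j y * t j y) := by
    filter_upwards [hov, C.tf_eq hx] with y hy e
    have e1 := hs.tr i j y hy (mem_univ y)
    rw [hst i y hy.1, hst j y hy.2, e] at e1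
    linear_combination e1
  have h2 := (cancel (C.hm j x hx.2) ((C.tf_hm hx).mul (ht i x hx.1)) (hE.mul (ht j x hx.2))
    (C.nf j x hx.2) h1).self_of_nhds
  have h3 : C.lb.g i j x ≠ 0 := C.lb.ne_zero i j x
  have h4 : C.lb.g i j x = C.tf i j x := rfl
  simp only [LB.mul_g, LB.inv_g, h4] at *
  field_simp
  rw [mul_comm]; exact h2

end Cartier

section Movable

variable {n : ℕ} {M : Type} [TopologicalSpace M] {A : Atl n M}

/-- no common nonunit divisor at `x` -/
def Cop (A : Atl n M) {κ : Type*} (t : κ → M → ℂ) (x : M) : Prop :=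
  ∀ k : M → ℂ, Hm A k x → (∀ j, DvM A k (t j) x) → k x ≠ 0

theorem hm_change {A A' : Atl n M} (h : HolMap A' A id) {f : M → ℂ} {x : M} (hf : Hm A f x) :
    Hm A' f x := by
  obtain ⟨i, hi⟩ := A.cover x
  obtain ⟨i', hi'⟩ := A'.cover x
  refine Hm.of_one hi' ?_
  have ho : IsOpen (dm A' A id i' i) := h.isOpen_dm i' i
  have hmem : A'.e i' x ∈ dm A' A id i' i :=
    ⟨(A'.e i').map_source hi', by rw [mem_preimage, mem_preimage, (A'.e i').left_inv hi']; exact hi⟩
  have h1 : AnalyticAt ℂ (fun z => A.e i ((A'.e i').symm z)) (A'.e i' x) :=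
    Crest.Agent.R266.SCV.analyticOnNhd_of_differentiableOn ho (h.hol i' i) _ hmem
  have h2 : AnalyticAt ℂ (fun z => f ((A.e i).symm z)) (A.e i ((A'.e i').symm (A'.e i' x))) := by
    rw [(A'.e i').left_inv hi']
    exact hf i hi
  refine (AnalyticAt.comp (g := fun z => f ((A.e i).symm z))
    (f := fun z => A.e i ((A'.e i').symm z)) h2 h1).congr ?_
  filter_upwards [ho.mem_nhds hmem] with z hz
  have hz2 : (A'.e i').symm z ∈ (A.e i).source := hz.2
  simp only [Function.comp, (A.e i).left_inv hz2]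



/-- restriction of a section to a refined atlas -/
def resS {A A' : Atl n M} (R : Ref A' A id) (s : A.ι → M → ℂ) : A'.ι → M → ℂ := fun i x =>
  open Classical in if x ∈ (A'.e i).source then s (R.r i) x else 0

theorem resS_mem {A A' : Atl n M} (R : Ref A' A id) (s : A.ι → M → ℂ) {i : A'.ι} {x : M}
    (hx : x ∈ (A'.e i).source) : resS R s i x = s (R.r i) x := if_pos hx

theorem isHS_resS {A A' : Atl n M} (hid : HolMap A' A id) (R : Ref A' A id) {E : LB A}
    {s : A.ι → M → ℂ} (hs : IsHS E univ s) : IsHS (pullLB hid R E) univ (resS R s) := by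
  refine ⟨fun i => holAt_of_hm fun x hx _ => ?_, fun i x hx => if_neg hx, fun i j x hx _ => ?_⟩
  · have h1 : Hm A' (s (R.r i)) x := hm_change hid (hm_of_isHS hs (R.sub i x hx))
    refine h1.congr ?_
    filter_upwards [(A'.e i).open_source.mem_nhds hx] with y hy
    rw [resS_mem R s hy]
  · rw [resS_mem R s hx.1, resS_mem R s hx.2, pullLB_g hid R E hx]
    exact hs.tr _ _ x ⟨R.sub i x hx.1, R.sub j x hx.2⟩ (mem_univ _)

/-- **movable part of a finite family of sections**: on a refined atlas `s_j = h t_j` with `t_j`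
without common nonunit divisor -/
theorem exists_movable [CompactSpace M] [T2Space M] (A : Atl n M) {κ : Type} [Fintype κ]
    (E : LB A) (s : κ → A.ι → M → ℂ) (hs : ∀ j, IsHS E univ (s j)) (j₀ : κ)
    (h0 : ∀ i, ∀ x ∈ (A.e i).source, ¬ ∀ᶠ y in 𝓝 x, s j₀ i y = 0) :
    ∃ (A' : Atl n M) (R : Ref A' A id) (hl : LBih A' A id) (_ : LBih A A' id) (C : CaD A')
      (t : κ → A'.ι → M → ℂ), Finite A'.ι ∧ GoodA A' ∧ Nonempty (Part A') ∧
      (∀ j, IsHS (pullLB hl.toHolMap R E * C.lb⁻¹) univ (t j)) ∧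
      (∀ j i, ∀ x ∈ (A'.e i).source, s j (R.r i) x = C.h i x * t j i x) ∧
      (∀ i, ∀ x ∈ (A'.e i).source, Cop A' (fun j => t j i) x) := by
  classical
  -- local gcds
  have key : ∀ x : M, ∃ (i : A.ι) (d : M → ℂ) (m : κ → M → ℂ) (O : Set M), IsOpen O ∧ x ∈ O ∧
      ∀ y ∈ O, y ∈ (A.e i).source ∧ Hm A d y ∧ (∀ j, Hm A (m j) y) ∧
        (∀ j, s j i y = d y * m j y) ∧ (¬ ∀ᶠ w in 𝓝 y, d w = 0) ∧
        ∀ k : M → ℂ, Hm A k y → (∀ j, DvM A k (s j i) y) → DvM A k d y := by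
    intro x
    obtain ⟨i, hi⟩ := A.cover x
    obtain ⟨d, hd, hd0, -, hdG, hk⟩ := exists_gcd_M (A := A) (x := x) (Finset.univ : Finset κ)
      (G := fun j => s j i) (g := s j₀ i) (hm_of_isHS (hs j₀) hi)
      (fun j _ => hm_of_isHS (hs j) hi) (h0 i x hi)
    choose m hm e using fun j => hdG j (Finset.mem_univ j)
    have hall : ∀ᶠ y in 𝓝 x, y ∈ (A.e i).source ∧ Hm A d y ∧ (∀ j, Hm A (m j) y) ∧
        (∀ j, s j i y = d y * m j y) ∧ (¬ ∀ᶠ w in 𝓝 y, d w = 0) ∧
        ∀ k : M → ℂ, Hm A k y → (∀ j, DvM A k (s j i) y) → DvM A k d y := by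
      filter_upwards [(A.e i).open_source.mem_nhds hi, hd.ev, eventually_all.2 fun j => (hm j).ev,
        eventually_all.2 e, ev_not_flat hd hd0, hk] with y h1 h2 h3 h4 h5 h6
      exact ⟨h1, h2, h3, h4, h5, fun k hk hkG => h6 k hk (hkG j₀) fun j _ => hkG j⟩
    obtain ⟨O, hO, hOo, hxO⟩ := eventually_nhds_iff.1 hall
    exact ⟨i, d, m, O, hOo, hxO, hO⟩
  choose ix d m O hOo hxO hO using key
  obtain ⟨A', hfin, hgood, hpart, hsub, -, hl, hl'⟩ :=
    Crest.Agent.R273.Fam_835.exists_refine A O hOo (fun x => ⟨x, hxO x⟩)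
  choose c hc using hsub
  let R : Ref A' A id := ⟨fun i => ix (c i), fun i x hx => (hO (c i) x (hc i hx)).1⟩
  have hid : HolMap A' A id := hl.toHolMap
  have hid' : HolMap A A' id := hl'.toHolMap
  -- divisibility between the local gcds
  have hdd : ∀ i j, ∀ x ∈ (A'.e i).source ∩ (A'.e j).source, DvM A (d (c i)) (d (c j)) x := by
    intro i j x hx
    obtain ⟨i1, i2, i3, i4, i5, i6⟩ := hO (c i) x (hc i hx.1)
    obtain ⟨j1, j2, j3, j4, j5, j6⟩ := hO (c j) x (hc j hx.2)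
    refine j6 _ i2 fun l => ?_
    have h1 : DvM A (d (c i)) (s l (ix (c i))) x := by
      refine ⟨m (c i) l, i3 l, ?_⟩
      filter_upwards [(A'.e i).open_source.mem_nhds hx.1] with y hy
      exact (hO (c i) y (hc i hy)).2.2.2.1 l
    have hg : Hm A (E.g (ix (c j)) (ix (c i))) x :=
      hm_of_holAt (E.hol _ _) (A.e _).open_source j1 i1
    refine (h1.mul_right hg).congr_right ?_
    filter_upwards [(A'.e i).open_source.mem_nhds hx.1, (A'.e j).open_source.mem_nhds hx.2]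
      with y hy hy'
    have e1 := (hs l).tr (ix (c j)) (ix (c i)) y
      ⟨(hO (c j) y (hc j hy')).1, (hO (c i) y (hc i hy)).1⟩ (mem_univ y)
    rw [e1, mul_comm]
  let C : CaD A' :=
    { h := fun i => d (c i)
      hm := fun i x hx => hm_change hid (hO (c i) x (hc i hx)).2.1
      nf := fun i x hx => (hO (c i) x (hc i hx)).2.2.2.2.1
      as := fun i j x hx => by
        obtain ⟨u, h1, h2, h3⟩ := unit_of_dvM (A := A) (hO (c j) x (hc j hx.2)).2.1
          (hO (c j) x (hc j hx.2)).2.2.2.2.1 (hdd j i x ⟨hx.2, hx.1⟩) (hdd i j x hx)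
        exact ⟨u, hm_change hid h1, h2, h3⟩ }
  let t : κ → A'.ι → M → ℂ := fun j i x => if x ∈ (A'.e i).source then m (c i) j x else 0
  have ht : ∀ j i, ∀ x ∈ (A'.e i).source, t j i x = m (c i) j x := fun j i x hx => if_pos hx
  have hthm : ∀ j i, ∀ x ∈ (A'.e i).source, Hm A' (t j i) x := by
    intro j i x hx
    refine (hm_change hid ((hO (c i) x (hc i hx)).2.2.1 j)).congr ?_
    filter_upwards [(A'.e i).open_source.mem_nhds hx] with y hy
    rw [ht j i y hy]
  refine ⟨A', R, hl, hl', C, t, hfin, hgood, hpart, fun j => ?_, fun j i x hx => ?_,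
    fun i x hx => ?_⟩
  · refine C.div (isHS_resS hid R (hs j)) (hthm j) (fun i x hx => if_neg hx) fun i x hx => ?_
    rw [resS_mem R _ hx, ht j i x hx]
    exact (hO (c i) x (hc i hx)).2.2.2.1 j
  · rw [ht j i x hx]
    exact (hO (c i) x (hc i hx)).2.2.2.1 j
  · -- no common divisor
    intro k hk hkt hk0
    obtain ⟨i1, i2, i3, i4, i5, i6⟩ := hO (c i) x (hc i hx)
    have hkA : Hm A k x := hm_change hid' hk
    have h1 : DvM A (fun y => d (c i) y * k y) (d (c i)) x := by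
      refine i6 _ (i2.mul hkA) fun j => ?_
      obtain ⟨q, hq, e⟩ := hkt j
      refine ⟨q, hm_change hid' hq, ?_⟩
      filter_upwards [e, (A'.e i).open_source.mem_nhds hx] with y hy hyi
      rw [(hO (c i) y (hc i hyi)).2.2.2.1 j, mul_assoc, ← hy, ht j i y hyi]
    obtain ⟨q, hq, e⟩ := h1
    have h2 : ∀ᶠ y in 𝓝 x, d (c i) y * (k y * q y) = d (c i) y * 1 := by
      filter_upwards [e] with y hy
      rw [mul_one, ← mul_assoc, ← hy]
    have h3 := (cancel i2 (hkA.mul hq) (Hm.const 1 x) i5 h2).self_of_nhds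
    rw [hk0, zero_mul] at h3
    exact zero_ne_one h3

end Movable

end Crest.Agent.R281.Kd_22
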