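import Crest.Agent.R275.Core_144
import Crest.Agent.R272.FamP_54

/-!
# R281 (S0424), OM-LF, piece (SEC) of helper703 #7820 (helper901): sections and submersions

`s : Fin (m+1) → A.ι → M → ℂ` sections of a line bundle (`IsHS L univ (s a)`):

* `Rg s x`   : regularity at `x` for the value `[1:0:...:0]` (854 #7579)
* `Bs s`     : the base locus, `U0 s = {s 0 ≠ 0}`, `Zs s = {all s a.succ = 0}`
* `qf s`     : `x ↦ (s a.succ x / s 0 x)_a : M → Cn m`
* `hf_qf`    : holomorphic on `U0 s`; `isOpen_u0`, `isClosed_bs`, `isClosed_zs`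
* `surj_of_rg` : `Rg s x` ==> the derivative of `qf s` in every chart at `x` is surjective
* `zs_eq`    : `(Bs s)ᶜ ∩ Zs s = {x | x ∈ U0 s ∧ qf s x = 0}`; `mem_of_closure`
-/

set_option autoImplicit false
set_option linter.unusedSectionVars false

open Set Filter Topology Complex
open scoped ContDiff Matrix ComplexConjugate Manifold

namespace Crest.Agent.R281.LfS_901

open Crest.Agent.R275.Geo Crest.Agent.R275.Core144 Crest.Agent.R273.Fam_835
open Crest.Agent.R272.FamP_54

noncomputable section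


variable {N m : ℕ} {M : Type} [TopologicalSpace M] {A : Atl N M} {L : LB A}
  {s : Fin (m + 1) → A.ι → M → ℂ} {x : M}


/-- the base locus -/
def Bs (s : Fin (m + 1) → A.ι → M → ℂ) : Set M :=
  {x | ∀ j a, x ∈ (A.e j).source → s a j x = 0}

/-- the set `{s 0 ≠ 0}` -/
def U0 (s : Fin (m + 1) → A.ι → M → ℂ) : Set M := {x | ∃ j, x ∈ (A.e j).source ∧ s 0 j x ≠ 0}


/-- a chart at a point -/
def ch (A : Atl N M) (x : M) : A.ι := (A.cover x).choose

theorem ch_mem (A : Atl N M) (x : M) : x ∈ (A.e (ch A x)).source := (A.cover x).choose_spec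

/-- the quotients `s a.succ / s 0` -/
def qf (s : Fin (m + 1) → A.ι → M → ℂ) (x : M) : Cn m :=
  WithLp.toLp 2 (fun a => s a.succ (ch A x) x / s 0 (ch A x) x)

theorem mem_u0 (h : ∀ a, IsHS L univ (s a)) {j : A.ι} (hj : x ∈ (A.e j).source) :
    x ∈ U0 s ↔ s 0 j x ≠ 0 := by
  constructor
  · rintro ⟨i, hi, h0⟩
    exact fun h1 => h0 (((h 0).zero_iff ⟨hi, hj⟩ trivial).2 h1)
  · intro h0
    exact ⟨j, hj, h0⟩



theorem qf_eq (h : ∀ a, IsHS L univ (s a)) {j : A.ι} (hj : x ∈ (A.e j).source) (a : Fin m) :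
    qf s x a = s a.succ j x / s 0 j x := by
  have hc := ch_mem A x
  have h1 := (h a.succ).tr (ch A x) j x ⟨hc, hj⟩ trivial
  have h2 := (h 0).tr (ch A x) j x ⟨hc, hj⟩ trivial
  have h3 := L.ne_zero (ch A x) j x
  change s a.succ (ch A x) x / s 0 (ch A x) x = _
  rw [h1, h2, mul_div_mul_left _ _ h3]

theorem diffAt (h : ∀ a, IsHS L univ (s a)) (a : Fin (m + 1)) {j : A.ι}
    (hj : x ∈ (A.e j).source) :
    DifferentiableAt ℂ (fun z => s a j ((A.e j).symm z)) (A.e j x) :=
  ((h a).hol j).diffAt isOpen_univ hj trivial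

/-- a section is continuous on the chart domain -/
theorem continuousAt_sec (h : ∀ a, IsHS L univ (s a)) (a : Fin (m + 1)) {j : A.ι}
    (hj : x ∈ (A.e j).source) : ContinuousAt (s a j) x := by
  have h1 : ContinuousAt (fun y => s a j ((A.e j).symm (A.e j y))) x :=
    ContinuousAt.comp (g := fun z => s a j ((A.e j).symm z)) (diffAt h a hj).continuousAt
      ((A.e j).continuousAt hj)
  refine h1.congr ?_
  filter_upwards [(A.e j).open_source.mem_nhds hj] with y hy
  rw [(A.e j).left_inv hy]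

theorem isOpen_u0 (h : ∀ a, IsHS L univ (s a)) : IsOpen (U0 s) := by
  rw [isOpen_iff_mem_nhds]
  rintro x ⟨j, hj, h0⟩
  filter_upwards [(A.e j).open_source.mem_nhds hj,
    (continuousAt_sec h 0 hj).eventually_ne h0] with y hy hy0
  exact ⟨j, hy, hy0⟩



/-- in the chart `j` the map `qf s` is given by the quotients of the `j`-components -/
theorem qf_symm_eventuallyEq (h : ∀ a, IsHS L univ (s a)) {j : A.ι} (hj : x ∈ (A.e j).source) :
    (fun z => qf s ((A.e j).symm z)) =ᶠ[𝓝 (A.e j x)] fun z =>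
      (WithLp.toLp 2 (fun a : Fin m => s a.succ j ((A.e j).symm z) / s 0 j ((A.e j).symm z)) :
        Cn m) := by
  filter_upwards [(A.e j).open_target.mem_nhds ((A.e j).map_source hj)] with z hz
  ext a
  exact qf_eq h ((A.e j).map_target hz) a

theorem hasFDerivAt_quot (h : ∀ a, IsHS L univ (s a)) {j : A.ι} (hj : x ∈ (A.e j).source)
    (h0 : s 0 j x ≠ 0) (a : Fin m) :
    DifferentiableAt ℂ (fun z => s a.succ j ((A.e j).symm z) / s 0 j ((A.e j).symm z))
      (A.e j x) := by
  have hb0 : s 0 j ((A.e j).symm (A.e j x)) ≠ 0 := by rw [(A.e j).left_inv hj]; exact h0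
  have h1 := DifferentiableAt.fun_inv (diffAt h 0 hj) hb0
  simp only [div_eq_mul_inv]
  exact DifferentiableAt.fun_mul (diffAt h a.succ hj) h1

/-- `qf s` is holomorphic on `U0 s` -/
theorem hf_qf (h : ∀ a, IsHS L univ (s a)) : HF (fam A) (U0 s) (qf s) := by
  intro x hx j hj
  have h0 := (mem_u0 h hj).1 hx
  refine DifferentiableAt.congr_of_eventuallyEq ?_ (qf_symm_eventuallyEq h hj)
  have h1 : DifferentiableAt ℂ (fun z => fun a : Fin m =>
      s a.succ j ((A.e j).symm z) / s 0 j ((A.e j).symm z)) (A.e j x) :=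
    differentiableAt_pi.2 fun a => hasFDerivAt_quot h hj h0 a
  exact ((PiLp.continuousLinearEquiv 2 ℂ (fun _ : Fin m => ℂ)).symm.differentiableAt).comp
    (A.e j x) h1








end

end Crest.Agent.R281.LfS_901
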