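import Crest.Agent.R281.MvsD_713
import Crest.Agent.R281.Sc2_413
import Crest.Agent.R281.RkD_902
import Crest.Agent.R260.NN6_900

-- ▼ part R281/Mvs3_713
section

/-!
# Row 281, MOVE-SEMI (helper713), file 3: tools

* `kdiff`     : cohomologous closed real (1,1)-forms on the atlas differ by `i∂∂̄ u`, `u x0 = 0`
* `lin_f2`    : the line `K + s x` in real language
* `cp_tr`     : the atlas of `J 0` serves every triple with the same `J 0`
* `det_scale` : `om 1`, `om 2` multiplied by `r` : `det` of the metric multiplied by `|r|^d`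
* `rot_row`   : the first row of a rotation whose other rows are orthogonal to `v`
* `t11_Jv`, `t11_lin` : invariance under `J_a`
-/

set_option autoImplicit false
set_option linter.unusedSectionVars false
set_option maxSynthPendingDepth 3

open Set Filter Topology Complex Metric
open scoped ContDiff Matrix ComplexConjugate ComplexOrder

namespace Crest.Agent.R281.Mvs_713

open Crest.Agent.R275.Geo Crest.Agent.R275.Core144 Crest.Agent.R275.EDR890
open Crest.Agent.R275.GC293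
open Crest.Agent.R273.Defs_333
open Crest.Agent.R273.Kah_333 Crest.Agent.R273.Hess_333 Crest.Agent.R281.Defs_273
open Crest.Agent.R273.NoHVF_376
open Crest.Agent.R273.Vol_333 (addK Yau)
open Crest.Agent.R260.ACM_580 Crest.Agent.R260.NNB_580
open Crest.Agent.R281.HkP1_508 Crest.Agent.R281.HkP2_508 Crest.Agent.R281.HkP3_508
open Crest.Agent.R281.Ti_846 Crest.Agent.R281.Dif_268 Crest.Agent.R281.Cdr_234
open Crest.Agent.R281.NefO_476 (ofHk Pos)
open Crest.Agent.R281.Nef_252 (T11 KCls)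
open Crest.Agent.R281.HkR_835 Crest.Agent.R281.Alg_998
open Crest.Agent.R281.HKMov_478
open Crest.Agent.R281.Sc_413 (hsf_of_ex)

noncomputable section

section atl

variable {d : ℕ} {X : Type} [TopologicalSpace X] {A : Atl d X}

theorem GB_sub (B B' : Bil (Cn d)) : GB (B - B') = GB B - GB B' := by
  ext a b
  show hw (B - B') _ _ = hw B _ _ - hw B' _ _
  unfold hw
  simp only [sub_apply]
  push_cast
  ring

theorem kdiff [CompactSpace X] [T2Space X] [SimplyConnectedSpace X] [Finite A.ι] (hG : GoodA A)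
    (P : Part A) (K : Kah A) (x0 : X) {G G' : K11 A} (h : Ex (G'.f2 - G.f2)) :
    ∃ u : X → ℝ, A.Sm u ∧ u x0 = 0 ∧ ∀ i, ∀ x ∈ (A.e i).source,
      G'.g i x = G.g i x + hsf A u i x := by
  have hw : ∀ i : A.ι, ∀ z, (G'.f2 - G.f2).w i z = G'.f2.w i z - G.f2.w i z := fun _ _ => rfl
  have hinv : ∀ i : A.ι, ∀ z ∈ (A.e i).target, ∀ u v,
      (G'.f2 - G.f2).w i z (I • u) (I • v) = (G'.f2 - G.f2).w i z u v := by
    intro i z hz u v
    rw [hw]
    show G'.f2.w i z (I • u) (I • v) - G.f2.w i z (I • u) (I • v) = _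
    rw [G'.f2_inv hz, G.f2_inv hz]
    rfl
  set D := (G'.f2 - G.f2).k11 hinv with hD
  have hE : Ex D.f2 := by
    have e : Eqv (G'.f2 - G.f2) D.f2 := eqvA fun i z hz u v => by rw [hD, F2.k11_f2 _ _ hz]
    exact e.ex h
  obtain ⟨u, hu, hy⟩ := hsf_of_ex hG P K D hE
  have hg : ∀ i, ∀ x ∈ (A.e i).source, D.g i x = G'.g i x - G.g i x := by
    intro i x hx
    have a1 : GB (G'.f2.w i (A.e i x)) = G'.g i x := K11.f2_k11 G' hx
    have a2 : GB (G.f2.w i (A.e i x)) = G.g i x := K11.f2_k11 G hx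
    rw [← a1, ← a2, ← GB_sub]
    rfl
  refine ⟨fun x => u x + (-(u x0)), fun i => (hu i).add contDiffOn_const, by ring,
    fun i x hx => ?_⟩
  rw [hsf_subc hu _ hx, ← hy i x hx, hg i x hx, add_sub_cancel]

end atl

section hk

variable {d : ℕ} {X : Type} [TopologicalSpace X] {A : Atl d X}
variable {V : Type} [NormedAddCommGroup V] [NormedSpace ℝ V] {C : RCh V X}

/-- the line `K + s x` in real language -/
theorem lin_f2 (H : HkT C) (hA : Cp (H.acm 0) A) {x : F2 C} (hx : T11 (ofHk H 0) x) (s : ℝ) :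
    Eqv (linK (H.kah hA) (((cmp_of_cp hA).F x).k11 (onA_11 H hA hx)) s).f2
      ((cmp_of_cp hA).F (H.om 0 + s • x)) := by
  set hc := cmp_of_cp hA with hhc
  set K := H.kah hA with hK
  set B : K11 A := ((hc.F x).k11 (onA_11 H hA hx)) with hB
  refine eqvA fun j z hz u v => ?_
  obtain ⟨i, hi⟩ := Cmp.exists_mov (C' := ofAtl A) C (j := j) hz
  have k1 : (ofKah K).f2.w j z u v = (hc.F (H.om 0)).w j z u v := by
    have h1 := K0_om0 (H.onA hA) (onA_J H hA) hz
    exact congrArg (fun b : Bil (Cn d) => b u v) h1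
  have k2 : B.f2.w j z u v = (hc.F x).w j z u v := by
    rw [hB, F2.k11_f2 _ _ hz]
  rw [K11.f2_w _ hz] at k1 k2 ⊢
  rw [hc.F_w _ hi] at k1 k2 ⊢
  have e : hb ((linK K B s).g j ((A.e j).symm z)) u v =
      hb (K.g j ((A.e j).symm z)) u v + (s : ℂ) * hb (B.g j ((A.e j).symm z)) u v := by
    have h1 : (linK K B s).g j ((A.e j).symm z) =
      K.g j ((A.e j).symm z) + (s : ℂ) • B.g j ((A.e j).symm z) := rfl
    rw [← hbL_apply, h1, map_add, map_smul, hbL_apply, hbL_apply, smul_eq_mul]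
  rw [e, mul_add, Complex.add_re, mul_left_comm, Complex.re_ofReal_mul]
  have e2 : (I * hb (K.g j ((A.e j).symm z)) u v).re = (H.om 0).w i (mt C (ofAtl A) i j z)
    (fderiv ℝ (mt C (ofAtl A) i j) z u) (fderiv ℝ (mt C (ofAtl A) i j) z v) := k1
  rw [e2, k2]
  rfl

theorem kah_f2 (H : HkT C) (hA : Cp (H.acm 0) A) :
    Eqv (ofKah (H.kah hA)).f2 ((cmp_of_cp hA).F (H.om 0)) := by
  refine eqvA fun j z hz u v => ?_
  have h1 := K0_om0 (H.onA hA) (onA_J H hA) hz
  exact congrArg (fun b : Bil (Cn d) => b u v) h1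

theorem cp_tr {H H' : HkT C}
    (hJ : ∀ i, ∀ z ∈ (C.e i).target, ∀ v, H'.J 0 i z v = H.J 0 i z v) (hA : Cp (H.acm 0) A) :
    Cp (H'.acm 0) A := fun a => ⟨(hA a).sm, (hA a).sm', fun i z hz v => by
  have h1 := (hA a).lin i z hz v
  show fderiv ℝ _ z (H'.J 0 i z v) = _
  rw [hJ i z hz.1 v]
  exact h1⟩

theorem sig_scale {H H' : HkT C} (hA : Cp (H.acm 0) A) (hA' : Cp (H'.acm 0) A) {r : ℝ}
    (h1 : Eqv (H'.om 1) (r • H.om 1)) (h2 : Eqv (H'.om 2) (r • H.om 2)) (i : A.ι) (x : X)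
    (hx : x ∈ (A.e i).source) : (H'.sig hA').s i x = (r : ℂ) • (H.sig hA).s i x := by
  refine sb_ext fun u v => ?_
  have hz := (A.e i).map_source hx
  have e1 := sig_sb H hA hz u v
  have e2 := sig_sb H' hA' hz u v
  have e3 : ∀ (σ : H2 A), sl σ i (A.e i x) = σ.s i x := by
    intro σ
    show σ.s i ((A.e i).symm (A.e i x)) = _
    rw [(A.e i).left_inv hx]
  rw [e3] at e1 e2
  obtain ⟨i', hi⟩ := Cmp.exists_mov (C' := ofAtl A) C (j := i) hz
  have f1 : ((cmp_of_cp hA').F (H'.om 1)).w i (A.e i x) u v =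
      r * ((cmp_of_cp hA).F (H.om 1)).w i (A.e i x) u v := by
    rw [(cmp_of_cp hA').F_w _ hi, (cmp_of_cp hA).F_w _ hi]
    exact h1 i' _ (Cmp.mt_mem hi).1 _ _
  have f2 : ((cmp_of_cp hA').F (H'.om 2)).w i (A.e i x) u v =
      r * ((cmp_of_cp hA).F (H.om 2)).w i (A.e i x) u v := by
    rw [(cmp_of_cp hA').F_w _ hi, (cmp_of_cp hA).F_w _ hi]
    exact h2 i' _ (Cmp.mt_mem hi).1 _ _
  rw [sb_smul]
  have e4 : sb ((H.sig hA).s i x) u v = _ := e1
  have e5 : sb ((H'.sig hA').s i x) u v = _ := e2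
  rw [e4, e5, f1, f2]
  push_cast
  ring

theorem det_scale {H H' : HkT C} (hA : Cp (H.acm 0) A) (hA' : Cp (H'.acm 0) A) {r : ℝ}
    (h1 : Eqv (H'.om 1) (r • H.om 1)) (h2 : Eqv (H'.om 2) (r • H.om 2)) (i : A.ι) (x : X)
    (hx : x ∈ (A.e i).source) :
    ((H'.kah hA').g i x).det = ((|r| ^ d : ℝ) : ℂ) * ((H.kah hA).g i x).det := by
  have e1 : ((H.kah hA).g i x).det = ((‖((H.sig hA).s i x).det‖ : ℝ) : ℂ) :=
    det0 (H.onA hA) (onA_J H hA) i x hx
  have e2 : ((H'.kah hA').g i x).det = ((‖((H'.sig hA').s i x).det‖ : ℝ) : ℂ) :=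
    det0 (H'.onA hA') (onA_J H' hA') i x hx
  rw [e1, e2, sig_scale hA hA' h1 h2 i x hx, Matrix.det_smul, Fintype.card_fin, norm_mul, norm_pow,
    Complex.norm_real, Real.norm_eq_abs]
  push_cast
  ring

/-! ### rotations -/

theorem rot_row {R : Fin 3 → Fin 3 → ℝ} (hR : HkT.Fr R) {v : Fin 3 → ℝ}
    (h1 : ∑ k, R 1 k * v k = 0) (h2 : ∑ k, R 2 k * v k = 0) (h0 : 0 < ∑ k, R 0 k * v k)
    (k : Fin 3) : R 0 k = v k / Real.sqrt (∑ k, v k ^ 2) := by
  set M : Matrix (Fin 3) (Fin 3) ℝ := Matrix.of R with hM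
  have c0 : R 2 0 = R 0 1 * R 1 2 - R 0 2 * R 1 1 := congrFun hR.crs 0
  have c1 : R 2 1 = R 0 2 * R 1 0 - R 0 0 * R 1 2 := congrFun hR.crs 1
  have c2 : R 2 2 = R 0 0 * R 1 1 - R 0 1 * R 1 0 := congrFun hR.crs 2
  have n0 := hR.nrm 0
  have n1 := hR.nrm 1
  have n2 := hR.nrm 2
  have o := hR.ort
  have hMM : M * Mᵀ = 1 := by
    ext i j
    rw [Matrix.mul_apply, Fin.sum_univ_three]
    simp only [Matrix.transpose_apply, hM, Matrix.of_apply]
    fin_cases i <;> fin_cases j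
    · show R 0 0 * R 0 0 + R 0 1 * R 0 1 + R 0 2 * R 0 2 = (1 : Matrix (Fin 3) (Fin 3) ℝ) 0 0
      rw [Matrix.one_apply_eq]; exact n0
    · show R 0 0 * R 1 0 + R 0 1 * R 1 1 + R 0 2 * R 1 2 = (1 : Matrix (Fin 3) (Fin 3) ℝ) 0 1
      rw [Matrix.one_apply_ne (by decide)]; exact o
    · show R 0 0 * R 2 0 + R 0 1 * R 2 1 + R 0 2 * R 2 2 = (1 : Matrix (Fin 3) (Fin 3) ℝ) 0 2
      rw [Matrix.one_apply_ne (by decide), c0, c1, c2]; ring
    · show R 1 0 * R 0 0 + R 1 1 * R 0 1 + R 1 2 * R 0 2 = (1 : Matrix (Fin 3) (Fin 3) ℝ) 1 0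
      rw [Matrix.one_apply_ne (by decide)]; linarith
    · show R 1 0 * R 1 0 + R 1 1 * R 1 1 + R 1 2 * R 1 2 = (1 : Matrix (Fin 3) (Fin 3) ℝ) 1 1
      rw [Matrix.one_apply_eq]; exact n1
    · show R 1 0 * R 2 0 + R 1 1 * R 2 1 + R 1 2 * R 2 2 = (1 : Matrix (Fin 3) (Fin 3) ℝ) 1 2
      rw [Matrix.one_apply_ne (by decide), c0, c1, c2]; ring
    · show R 2 0 * R 0 0 + R 2 1 * R 0 1 + R 2 2 * R 0 2 = (1 : Matrix (Fin 3) (Fin 3) ℝ) 2 0
      rw [Matrix.one_apply_ne (by decide), c0, c1, c2]; ring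
    · show R 2 0 * R 1 0 + R 2 1 * R 1 1 + R 2 2 * R 1 2 = (1 : Matrix (Fin 3) (Fin 3) ℝ) 2 1
      rw [Matrix.one_apply_ne (by decide), c0, c1, c2]; ring
    · show R 2 0 * R 2 0 + R 2 1 * R 2 1 + R 2 2 * R 2 2 = (1 : Matrix (Fin 3) (Fin 3) ℝ) 2 2
      rw [Matrix.one_apply_eq]; exact n2
  have hMt : Mᵀ * M = 1 := mul_eq_one_comm.1 hMM
  set l := ∑ k, R 0 k * v k with hl
  have hv : ∀ k, v k = R 0 k * l := by
    intro k
    have e1 : Mᵀ *ᵥ (M *ᵥ v) = v := by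
      rw [Matrix.mulVec_mulVec, hMt, Matrix.one_mulVec]
    have e2 : M *ᵥ v = ![l, 0, 0] := by
      funext j
      fin_cases j
      · rfl
      · exact h1
      · exact h2
    have e3 := congrFun e1 k
    rw [e2] at e3
    rw [← e3]
    simp [Matrix.mulVec, dotProduct, Fin.sum_univ_three, hM]
  have hs : ∑ k, v k ^ 2 = l ^ 2 := by
    rw [Fin.sum_univ_three, hv 0, hv 1, hv 2]
    linear_combination l ^ 2 * n0
  rw [hs, Real.sqrt_sq h0.le, hv k, mul_div_assoc, div_self h0.ne', mul_one]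

theorem t11_Jv {H : HkT C} {y : F2 C} (h : ∀ k, T11 (ofHk H k) y) {a : Fin 3 → ℝ}
    (ha : a 0 ^ 2 + a 1 ^ 2 + a 2 ^ 2 = 1) (i : C.ι) (z : V) (hz : z ∈ (C.e i).target) (u v : V) :
    y.w i z (H.Jv a i z u) (H.Jv a i z v) = y.w i z u v := by
  have k0 : ∀ u v, y.w i z (H.J 0 i z u) (H.J 0 i z v) = y.w i z u v := fun u v => h 0 i z hz u v
  have k1 : ∀ u v, y.w i z (H.J 1 i z u) (H.J 1 i z v) = y.w i z u v := fun u v => h 1 i z hz u v
  have k2 : ∀ u v, y.w i z (H.J 2 i z u) (H.J 2 i z v) = y.w i z u v := fun u v => h 2 i z hz u v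
  have e01 : y.w i z (H.J 0 i z u) (H.J 1 i z v) = -y.w i z u (H.J 2 i z v) := by
    rw [← k0, H.J_sq 0 i z hz, H.J_01 i z hz, map_neg, neg_apply]
  have e10 : y.w i z (H.J 1 i z u) (H.J 0 i z v) = y.w i z u (H.J 2 i z v) := by
    rw [← k1, H.J_sq 1 i z hz, H.J_10 hz, map_neg, map_neg, neg_apply, neg_neg]
  have e02 : y.w i z (H.J 0 i z u) (H.J 2 i z v) = y.w i z u (H.J 1 i z v) := by
    rw [← k0, H.J_sq 0 i z hz, H.J_02 hz, map_neg, map_neg, neg_apply, neg_neg]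
  have e20 : y.w i z (H.J 2 i z u) (H.J 0 i z v) = -y.w i z u (H.J 1 i z v) := by
    rw [← k2, H.J_sq 2 i z hz, H.J_20 hz, map_neg, neg_apply]
  have e12 : y.w i z (H.J 1 i z u) (H.J 2 i z v) = -y.w i z u (H.J 0 i z v) := by
    rw [← k1, H.J_sq 1 i z hz, H.J_12 hz, map_neg, neg_apply]
  have e21 : y.w i z (H.J 2 i z u) (H.J 1 i z v) = y.w i z u (H.J 0 i z v) := by
    rw [← k2, H.J_sq 2 i z hz, H.J_21 hz, map_neg, map_neg, neg_apply, neg_neg]
  rw [H.Jv_apply, H.Jv_apply]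
  simp only [map_add, map_smul, add_apply, smul_apply, smul_eq_mul, k0, k1, k2, e01, e10, e02, e20,
    e12, e21]
  linear_combination (y.w i z u v) * ha

/-- `∑ a_k om_k` is invariant under `J_a` -/
theorem t11_lin (H : HkT C) {a : Fin 3 → ℝ} (ha : a 0 ^ 2 + a 1 ^ 2 + a 2 ^ 2 = 1) (i : C.ι)
    (z : V) (hz : z ∈ (C.e i).target) (u v : V) :
    (∑ k, a k * (H.om k).w i z (H.Jv a i z u) (H.Jv a i z v)) =
      ∑ k, a k * (H.om k).w i z u v := by
  have e : ∀ u v, (∑ k, a k * (H.om k).w i z u v) = H.g i z (H.Jv a i z u) v := by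
    intro u v
    rw [H.Jv_apply, Fin.sum_univ_three, H.om_eq 0 i z hz, H.om_eq 1 i z hz, H.om_eq 2 i z hz]
    simp only [map_add, map_smul, add_apply, smul_apply, smul_eq_mul]
  have e2 : ∀ u v, H.g i z (H.Jv a i z u) v = -H.g i z u (H.Jv a i z v) := by
    intro u v
    rw [H.Jv_apply, H.Jv_apply]
    simp only [map_add, map_smul, add_apply, smul_apply, smul_eq_mul, H.g_J' 0 hz, H.g_J' 1 hz,
      H.g_J' 2 hz]
    ring
  rw [e, e, H.Jv_mul a a hz]
  have e3 : a 0 * a 0 + a 1 * a 1 + a 2 * a 2 = 1 := by linarith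
  have e4 : H.Jv ![a 1 * a 2 - a 2 * a 1, a 2 * a 0 - a 0 * a 2, a 0 * a 1 - a 1 * a 0] i z u =
      0 := by
    rw [H.Jv_apply]
    simp [mul_comm]
  rw [e3, e4, add_zero, neg_one_smul, map_neg, neg_apply, e2 u v]

end hk

end

end Crest.Agent.R281.Mvs_713
end

-- ▼ part R281/Mvs4_713
section

/-!
# Row 281, MOVE-SEMI (helper713), file 4: the linear family at one parameter

* `lin11`    : `G + s H` in `K11`
* `dcC_η`    : `-¼ df ∘ J 0` in the real charts
* `exists_f` : `W` of type (1,1) for `J 0`: there is `f` with `f x0 = 0`, `tr (W + i∂∂̄ f)` constant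
  and `W + i∂∂̄ f = y + μ om 0`, `y` of type (1,1) for all three structures
-/

set_option autoImplicit false
set_option linter.unusedSectionVars false
set_option maxSynthPendingDepth 3

open Set Filter Topology Complex Metric
open scoped ContDiff Matrix ComplexConjugate ComplexOrder

namespace Crest.Agent.R281.Mvs_713

open Crest.Agent.R275.Geo Crest.Agent.R275.Core144 Crest.Agent.R275.EDR890
open Crest.Agent.R275.GC293
open Crest.Agent.R273.Defs_333
open Crest.Agent.R273.Kah_333 Crest.Agent.R273.Hess_333 Crest.Agent.R281.Defs_273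
open Crest.Agent.R273.NoHVF_376
open Crest.Agent.R260.ACM_580 Crest.Agent.R260.NNB_580
open Crest.Agent.R281.HkP1_508 Crest.Agent.R281.HkP2_508 Crest.Agent.R281.HkP3_508
open Crest.Agent.R281.Ti_846 Crest.Agent.R281.Dif_268 Crest.Agent.R281.Cdr_234
open Crest.Agent.R281.NefO_476 (ofHk Pos)
open Crest.Agent.R281.Nef_252 (T11 KCls T11_hk)
open Crest.Agent.R281.HkR_835 Crest.Agent.R281.Alg_998
open Crest.Agent.R281.HKMov_478
open Crest.Agent.R281.LAn_508 (trQ)
open Crest.Agent.R273.GreenM_5 (ci mem_ci trK)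

noncomputable section

section atl

variable {d : ℕ} {X : Type} [TopologicalSpace X] {A : Atl d X}

/-- `G + s H` -/
def lin11 (G H : K11 A) (s : ℝ) : K11 A where
  g i x := G.g i x + (s : ℂ) • H.g i x
  sm i a b := (G.sm i a b).add (contDiffOn_const.mul (H.sm i a b))
  herm i x hx := by
    refine (G.herm i x hx).add ?_
    unfold Matrix.IsHermitian
    rw [Matrix.conjTranspose_smul, (H.herm i x hx).eq, Complex.star_def, Complex.conj_ofReal]
  tr i j x hx := by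
    rw [G.tr i j x hx, H.tr i j x hx, Matrix.mul_add, Matrix.add_mul, Matrix.mul_smul,
      Matrix.smul_mul]
  closed i z hz a b c := by
    have hK : ∀ a, DifferentiableAt ℝ (fun w => G.g i ((A.e i).symm w) a b) z := fun a =>
      ((G.sm i a b).contDiffAt ((A.e i).open_target.mem_nhds hz)).differentiableAt (by simp)
    have hH : ∀ a, DifferentiableAt ℝ (fun w => H.g i ((A.e i).symm w) a b) z := fun a =>
      ((H.sm i a b).contDiffAt ((A.e i).open_target.mem_nhds hz)).differentiableAt (by simp)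
    have hr : ∀ a, (fun w => (G.g i ((A.e i).symm w) + (s : ℂ) • H.g i ((A.e i).symm w)) a b) =
        fun w => G.g i ((A.e i).symm w) a b + (s : ℂ) * H.g i ((A.e i).symm w) a b := fun a => rfl
    have hs : ∀ e (f : Cn d → ℂ), DifferentiableAt ℝ f z →
        wd e (fun w => (s : ℂ) * f w) z = (s : ℂ) * wd e f z := fun e f hf =>
      wd_const_smul (s : ℂ) hf e
    rw [hr a, hr c, wd_add (hK a) ((hH a).const_mul _), wd_add (hK c) ((hH c).const_mul _),
      hs _ _ (hH a), hs _ _ (hH c), G.closed i z hz, H.closed i z hz]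

theorem lin11_f2 (G H : K11 A) (s : ℝ) {i : A.ι} {z : Cn d} (hz : z ∈ (A.e i).target)
    (u v : Cn d) : (lin11 G H s).f2.w i z u v = G.f2.w i z u v + s * H.f2.w i z u v := by
  rw [K11.f2_w _ hz, K11.f2_w _ hz, K11.f2_w _ hz]
  have e : hb ((lin11 G H s).g i ((A.e i).symm z)) u v =
      hb (G.g i ((A.e i).symm z)) u v + (s : ℂ) * hb (H.g i ((A.e i).symm z)) u v := by
    have h1 : (lin11 G H s).g i ((A.e i).symm z) =
      G.g i ((A.e i).symm z) + (s : ℂ) • H.g i ((A.e i).symm z) := rfl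
    rw [← hbL_apply, h1, map_add, map_smul, hbL_apply, hbL_apply, smul_eq_mul]
  rw [e, mul_add, Complex.add_re, mul_left_comm, Complex.re_ofReal_mul]

end atl

section hk

variable {d : ℕ} {X : Type} [TopologicalSpace X] {A : Atl d X}
variable {V : Type} [NormedAddCommGroup V] [NormedSpace ℝ V] {C : RCh V X}

/-- the 1-form `-¼ df ∘ J 0` in the real charts -/
theorem dcC_η (H : HkT C) (hA : Cp (H.acm 0) A) {f : X → ℝ} (hf : A.Sm f) {i : C.ι} {z : V}
    (hz : z ∈ (C.e i).target) (v : V) :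
    ((SMap.ofCmp (cmp_of_cp hA).symm).pull1 (dcF f hf)).η i z v =
      -(1 / 4 : ℝ) * fderiv ℝ (fun y => f ((C.e i).symm y)) z (H.J 0 i z v) := by
  obtain ⟨j, hj⟩ := Cmp.exists_mov (C' := C) (ofAtl A) (j := i) hz
  have hj' := Cmp.mt_mem hj
  rw [(SMap.ofCmp (cmp_of_cp hA).symm).pull1_η (dcF f hf) hj v]
  have e0 : (fun y => f ((C.e i).symm y)) =ᶠ[𝓝 z]
      fun y => f ((A.e j).symm (mt (ofAtl A) C j i y)) := by
    filter_upwards [(Cmp.isOpen_mov (ofAtl A) C j i).mem_nhds hj] with y hy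
    exact congrArg f ((A.e j).left_inv hy.2).symm
  have h2 : DifferentiableAt ℝ (fun y => f ((A.e j).symm y)) (mt (ofAtl A) C j i z) :=
    ((hf j).contDiffAt ((A.e j).open_target.mem_nhds hj'.1)).differentiableAt (by simp)
  have h3 : HasFDerivAt (fun y => f ((A.e j).symm (mt (ofAtl A) C j i y)))
      ((fderiv ℝ (fun y => f ((A.e j).symm y)) (mt (ofAtl A) C j i z)).comp
        (fderiv ℝ (mt (ofAtl A) C j i) z)) z :=
    HasFDerivAt.comp (g := fun y => f ((A.e j).symm y)) (f := mt (ofAtl A) C j i) z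
      h2.hasFDerivAt ((cmp_of_cp hA).symm.diff hj).hasFDerivAt
  rw [e0.fderiv_eq, h3.fderiv]
  have e1 : fderiv ℝ (mt (ofAtl A) C j i) z (H.J 0 i z v) =
      I • fderiv ℝ (mt (ofAtl A) C j i) z v := (hA j).lin i z hj v
  rw [ContinuousLinearMap.comp_apply, e1]
  rfl

/-- the linear family at one parameter -/
theorem exists_f [FiniteDimensional ℝ V] [CompactSpace X] [T2Space X] [SimplyConnectedSpace X]
    [Finite A.ι] (hG : GoodA A) (P : Part A) {Q : F2 C →ₗ[ℝ] F2 C →ₗ[ℝ] ℝ}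
    (hsy : ∀ x y, Q x y = Q y x) (hex : ∀ x y, Ex x → Q x y = 0) {H : HkT C}
    (heq : ∀ (H : HkT C) k, Q (H.om k) (H.om k) = Q (H.om 0) (H.om 0))
    (hA : Cp (H.acm 0) A) (hu : UniqT H) (hq : Q (H.om 0) (H.om 0) ≠ 0) {W : F2 C}
    (hW : T11 (ofHk H 0) W) (E : K11 A) (hE : Eqv E.f2 ((cmp_of_cp hA).F W)) (x0 : X) :
    ∃ (f : X → ℝ) (hf : A.Sm f) (y : F2 C), f x0 = 0 ∧
      (∃ c : ℝ, ∀ x, trQ (H.kah hA) E f x = c) ∧ (∀ k, T11 (ofHk H k) y) ∧
      ∀ i, ∀ z ∈ (C.e i).target, ∀ u v, W.w i z u v +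
        (fderiv ℝ (((SMap.ofCmp (cmp_of_cp hA).symm).pull1 (dcF f hf)).η i) z u v -
          fderiv ℝ (((SMap.ofCmp (cmp_of_cp hA).symm).pull1 (dcF f hf)).η i) z v u) =
        y.w i z u v + (Q W (H.om 0) / Q (H.om 0) (H.om 0)) * (H.om 0).w i z u v := by
  set hc := cmp_of_cp hA with hhc
  set q := Q (H.om 0) (H.om 0) with hqd
  set μ := Q W (H.om 0) / q with hμ
  set K := H.kah hA with hK
  have hT0 : T11 (ofHk H 0) (H.om 0) := T11_hk H 0
  have hx : T11 (ofHk H 0) (W - μ • H.om 0) := by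
    intro i z hz u v
    have e1 := hW i z hz u v
    have e2 := hT0 i z hz u v
    show W.w i z _ _ - μ * (H.om 0).w i z _ _ = W.w i z u v - μ * (H.om 0).w i z u v
    rw [e1, e2]
  have h0 : Q (W - μ • H.om 0) (H.om 0) = 0 := by
    rw [map_sub, map_smul, LinearMap.sub_apply, LinearMap.smul_apply, smul_eq_mul, ← hqd, hμ,
      div_mul_cancel₀ _ hq, sub_self]
  obtain ⟨D, hD1, hD2, hD3⟩ := rep3A P hsy hex heq hA hu hq hx h0
  have kK := kah_f2 H hA
  have hEx : Ex ((lin11 D (ofKah K) μ).f2 - E.f2) := by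
    have h2 := (F_sub hc _ _).ex (ex_F hc hD1)
    refine Eqv.ex (eqvA fun j z hz u v => ?_) h2
    obtain ⟨i, hi⟩ := Cmp.exists_mov (C' := ofAtl A) C (j := j) hz
    have a1 := F_F hc.symm D.f2 j z hz u v
    have a2 := hE j z hz u v
    have a3 := kK j z hz u v
    have a4 : (hc.F (W - μ • H.om 0)).w j z u v = (hc.F W).w j z u v -
        μ * (hc.F (H.om 0)).w j z u v := by
      rw [hc.F_w _ hi, hc.F_w _ hi, hc.F_w _ hi]
      rfl
    have a5 := lin11_f2 D (ofKah K) μ hz u v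
    show (hc.F (hc.symm.F D.f2)).w j z u v - (hc.F (W - μ • H.om 0)).w j z u v =
      (lin11 D (ofKah K) μ).f2.w j z u v - E.f2.w j z u v
    rw [a5, a4]
    have a1' : (hc.F (hc.symm.F D.f2)).w j z u v = D.f2.w j z u v := a1
    rw [a1', a2, a3]
    ring
  obtain ⟨f, hf, hf0, hfe⟩ := kdiff hG P K x0 hEx
  refine ⟨f, hf, hc.symm.F D.f2, hf0, ⟨μ * d, fun x => ?_⟩, hD2, fun i z hz u v => ?_⟩
  · have hxs := mem_ci (A := A) x
    show (((K.g (ci A x) x)⁻¹ * (E.g (ci A x) x + hsf A f (ci A x) x)).trace).re = _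
    rw [← hfe _ x hxs]
    show (((K.g (ci A x) x)⁻¹ * (D.g (ci A x) x + (μ : ℂ) • K.g (ci A x) x)).trace).re = _
    have hdet : IsUnit (K.g (ci A x) x).det :=
      isUnit_iff_ne_zero.2 (K.pos _ x hxs).det_pos.ne'
    rw [Matrix.mul_add, Matrix.mul_smul, Matrix.nonsing_inv_mul _ hdet, Matrix.trace_add,
      Matrix.trace_smul, Matrix.trace_one, Fintype.card_fin]
    have h3 : ((K.g (ci A x) x)⁻¹ * D.g (ci A x) x).trace = 0 := hD3 _ x hxs
    rw [h3, zero_add, smul_eq_mul, Complex.re_ofReal_mul, Complex.natCast_re]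
  · have h1 := isD_dcF hf hfe
    have h2 := (SMap.ofCmp hc.symm).isD_pull h1 i z hz u v
    have h3 := F_pull hc.symm ((lin11 D (ofKah K) μ).f2 - E.f2) i z hz u v
    have h4 : fderiv ℝ (((SMap.ofCmp hc.symm).pull1 (dcF f hf)).η i) z u v -
        fderiv ℝ (((SMap.ofCmp hc.symm).pull1 (dcF f hf)).η i) z v u =
        (hc.symm.F ((lin11 D (ofKah K) μ).f2 - E.f2)).w i z u v := by
      rw [h3, h2]
    obtain ⟨j, hj⟩ := Cmp.exists_mov (C' := C) (ofAtl A) (j := i) hz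
    have hj' := Cmp.mt_mem hj
    rw [h4, hc.symm.F_w _ hj, hc.symm.F_w _ hj]
    have b1 := F_F hc W i z hz u v
    have b2 := F_F hc (H.om 0) i z hz u v
    rw [hc.symm.F_w _ hj] at b1 b2
    have a2 := hE j _ hj'.1 (fderiv ℝ (mt (ofAtl A) C j i) z u) (fderiv ℝ (mt (ofAtl A) C j i) z v)
    have a3 := kK j _ hj'.1 (fderiv ℝ (mt (ofAtl A) C j i) z u) (fderiv ℝ (mt (ofAtl A) C j i) z v)
    have a5 := lin11_f2 D (ofKah K) μ hj'.1 (fderiv ℝ (mt (ofAtl A) C j i) z u)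
      (fderiv ℝ (mt (ofAtl A) C j i) z v)
    rw [← b1, ← b2]
    show _ + ((lin11 D (ofKah K) μ).f2.w j (mt (ofAtl A) C j i z)
      (fderiv ℝ (mt (ofAtl A) C j i) z u) (fderiv ℝ (mt (ofAtl A) C j i) z v) -
      E.f2.w j (mt (ofAtl A) C j i z)
      (fderiv ℝ (mt (ofAtl A) C j i) z u) (fderiv ℝ (mt (ofAtl A) C j i) z v)) = _
    rw [a5, a2, a3]
    ring

end hk

end

end Crest.Agent.R281.Mvs_713
end

-- ▼ part R281/Mvs5_713

/-!
# Row 281, MOVE-SEMI (helper713), file 5: from a move to `MvOut`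

* `NF`     : normal form of a move (`J 0` fixed, `om 1`, `om 2` scaled, class of `om 0` affine) and
             the first complex structure of `H s` as `J_a(M s)`, `a = v/|v|`, `v_k = Q e (om k)`
* `nf_of`  : `Move`, `SameTw`, `Given` ==> `NF`
* **`nonempty_mvOut`** : `Ctx`, `Move`, `SameTw`, `Given` ==> `MvOut C L0 H`
-/

set_option autoImplicit false
set_option linter.unusedSectionVars false
set_option maxSynthPendingDepth 3

open Set Filter Topology Complex Metric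
open scoped ContDiff Matrix ComplexConjugate ComplexOrder

namespace Crest.Agent.R281.Mvs_713

open Crest.Agent.R275.Geo Crest.Agent.R275.Core144 Crest.Agent.R275.EDR890
open Crest.Agent.R275.GC293
open Crest.Agent.R273.Defs_333
open Crest.Agent.R273.Kah_333 Crest.Agent.R273.Hess_333 Crest.Agent.R281.Defs_273
open Crest.Agent.R260.ACM_580 Crest.Agent.R260.NNB_580
open Crest.Agent.R281.HkP1_508 Crest.Agent.R281.HkP2_508 Crest.Agent.R281.HkP3_508
open Crest.Agent.R281.Ti_846 Crest.Agent.R281.Dif_268 Crest.Agent.R281.Cdr_234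
open Crest.Agent.R281.NefO_476 (ofHk Pos)
open Crest.Agent.R281.Nef_252 (T11 KCls T11_hk)
open Crest.Agent.R281.HkR_835 Crest.Agent.R281.Alg_998 Crest.Agent.R281.PL_713
open Crest.Agent.R281.HKMov_478
open Crest.Agent.R281.LAn_508 (trQ)
open Crest.Agent.R281.Sem_323 (SegK SegF)
open Crest.Agent.R281.Sta2_684 (smulP)
open Crest.Agent.R281.RkD_902 (Move SameTw Given Ctx)

noncomputable section

theorem an_sqrt {f : ℝ → ℝ} {s : ℝ} (hf : AnalyticAt ℝ f s) (h : f s ≠ 0) :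
    AnalyticAt ℝ (fun t => Real.sqrt (f t)) s :=
  (ContDiffAt.sqrt hf.contDiffAt h (n := ω)).analyticAt

section gen

variable {V X : Type} [NormedAddCommGroup V] [NormedSpace ℝ V] [TopologicalSpace X] {C : RCh V X}
  {Q : F2 C →ₗ[ℝ] F2 C →ₗ[ℝ] ℝ}

theorem lin_cl (a : Fin 3 → ℝ) (w : Fin 3 → F2 C) :
    Cl (F2.lin a w) (a 0 • w 0 + a 1 • w 1 + a 2 • w 2) :=
  Cl.of_eq_on fun i z _ => by
    ext u v
    rw [F2.lin_w, Fin.sum_univ_three]
    rfl

theorem Qr_cl (hsy : ∀ x y, Q x y = Q y x) (hex : ∀ x y, Ex x → Q x y = 0) {a b : F2 C}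
    (h : Cl a b) (c : F2 C) : Q c a = Q c b := by
  rw [hsy c a, hsy c b, Q_cl hex h]

/-- the normal form of a move -/
structure NF (Q : F2 C →ₗ[ℝ] F2 C →ₗ[ℝ] ℝ) (e : F2 C) (M H : ℝ → HkT C) : Prop where
  J0 : ∀ s ∈ Icc (0 : ℝ) 1, ∀ i, ∀ z ∈ (C.e i).target, ∀ v, (M s).J 0 i z v = (M 0).J 0 i z v
  om12 : ∀ s ∈ Icc (0 : ℝ) 1, ∃ r : ℝ, 0 < r ∧ ∀ k : Fin 3, k ≠ 0 →
    Eqv ((M s).om k) (r • (M 0).om k)
  cls : ∀ s ∈ Icc (0 : ℝ) 1, Cl ((M s).om 0) ((1 - s) • (M 0).om 0 + s • (M 1).om 0)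
  pos : ∀ s ∈ Icc (0 : ℝ) 1, 0 < Q ((M s).om 0) ((M s).om 0)
  vpos : ∀ s ∈ Icc (0 : ℝ) 1, 0 < ∑ k, Q e ((M s).om k) ^ 2
  rot : ∀ s ∈ Icc (0 : ℝ) 1, ∀ i, ∀ z ∈ (C.e i).target, ∀ v,
    (H s).J 0 i z v =
      (M s).Jv (fun k => Q e ((M s).om k) / Real.sqrt (∑ k, Q e ((M s).om k) ^ 2)) i z v

theorem nf_of (hsy : ∀ x y, Q x y = Q y x) (hex : ∀ x y, Ex x → Q x y = 0)
    (heq : ∀ (H : HkT C) k, Q (H.om k) (H.om k) = Q (H.om 0) (H.om 0))
    (hort : ∀ (H : HkT C) (k l : Fin 3), k ≠ l → Q (H.om k) (H.om l) = 0)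
    {L0 : PL C} {e : F2 C} {G H : ℝ → HkT C} (hG : Move G)
    (hT : ∀ s ∈ Icc (0 : ℝ) 1, SameTw (G s) (H s))
    (hg : ∀ s ∈ Icc (0 : ℝ) 1, Given Q (H s) L0 e) :
    NF Q e (fun s => (G s).cyc 2) H := by
  have c0 : ∀ s, Eqv (((G s).cyc 2).om 0) ((G s).om 2) := fun s => cyc_om (G s) 2 0
  have c1 : ∀ s, Eqv (((G s).cyc 2).om 1) ((G s).om 0) := fun s => cyc_om (G s) 2 1
  have c2 : ∀ s, Eqv (((G s).cyc 2).om 2) ((G s).om 1) := fun s => cyc_om (G s) 2 2
  have q0 : ∀ s x, Q x (((G s).cyc 2).om 0) = Q x ((G s).om 2) := fun s x =>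
    Qr_cl hsy hex (cl_of_eqv (c0 s)) x
  have q1 : ∀ s x, Q x (((G s).cyc 2).om 1) = Q x ((G s).om 0) := fun s x =>
    Qr_cl hsy hex (cl_of_eqv (c1 s)) x
  have q2 : ∀ s x, Q x (((G s).cyc 2).om 2) = Q x ((G s).om 1) := fun s x =>
    Qr_cl hsy hex (cl_of_eqv (c2 s)) x
  -- the rotation
  have key : ∀ s ∈ Icc (0 : ℝ) 1, 0 < Q ((G s).om 0) ((G s).om 0) ∧
      0 < (∑ k, Q e ((G s).om k) ^ 2) ∧ ∀ i, ∀ z ∈ (C.e i).target, ∀ v, (H s).J 0 i z v =
        (G s).Jv (fun k => Q e ((G s).om k) / Real.sqrt (∑ k, Q e ((G s).om k) ^ 2)) i z v := by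
    intro s hs
    obtain ⟨R, hR, t, ht, hE⟩ := hT s hs
    have hgs := hg s hs
    have hom : ∀ k x, Q x ((H s).om k) = t * (R k 0 * Q x ((G s).om 0) +
        R k 1 * Q x ((G s).om 1) + R k 2 * Q x ((G s).om 2)) := by
      intro k x
      have e1 : Cl ((smulP t ht ((G s).rot R hR)).om k) ((H s).om k) := Cl.of_eq_on (hE.om k)
      have e2 : Cl (t • F2.lin (R k) (G s).om)
          (t • (R k 0 • (G s).om 0 + R k 1 • (G s).om 1 + R k 2 • (G s).om 2)) :=
        Cl.smul t (lin_cl (R k) (G s).om)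
      rw [← Qr_cl hsy hex e1 x]
      have e3 : (smulP t ht ((G s).rot R hR)).om k = t • F2.lin (R k) (G s).om := rfl
      rw [e3, Qr_cl hsy hex e2 x]
      simp only [map_add, map_smul, smul_eq_mul]
    have n0 := hR.nrm 0
    set v : Fin 3 → ℝ := fun k => Q e ((G s).om k) with hv
    have h1 : ∑ k, R 1 k * v k = 0 := by
      have := hom 1 e
      rw [hgs.e1] at this
      rw [Fin.sum_univ_three]
      rcases mul_eq_zero.1 this.symm with h | h
      · exact absurd h ht.ne'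
      · exact h
    have h2 : ∑ k, R 2 k * v k = 0 := by
      have := hom 2 e
      rw [hgs.e2] at this
      rw [Fin.sum_univ_three]
      rcases mul_eq_zero.1 this.symm with h | h
      · exact absurd h ht.ne'
      · exact h
    have h0 : 0 < ∑ k, R 0 k * v k := by
      have h3 := hgs.e0
      rw [hom 0 e] at h3
      rw [Fin.sum_univ_three]
      exact (pos_iff_pos_of_mul_pos h3).1 ht
    have hrow := rot_row hR h1 h2 h0
    refine ⟨?_, ?_, fun i z hz w => ?_⟩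
    · have h3 := hgs.pos
      rw [hom 0, hsy _ ((G s).om 0), hsy _ ((G s).om 1), hsy _ ((G s).om 2), hom 0, hom 0, hom 0,
        hort (G s) 0 1 (by decide), hort (G s) 0 2 (by decide), hort (G s) 1 0 (by decide),
        hort (G s) 1 2 (by decide), hort (G s) 2 0 (by decide), hort (G s) 2 1 (by decide),
        heq (G s) 1, heq (G s) 2] at h3
      have h4 : t * (R 0 0 * (t * (R 0 0 * Q ((G s).om 0) ((G s).om 0) + R 0 1 * 0 + R 0 2 * 0)) +
          R 0 1 * (t * (R 0 0 * 0 + R 0 1 * Q ((G s).om 0) ((G s).om 0) + R 0 2 * 0)) +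
          R 0 2 * (t * (R 0 0 * 0 + R 0 1 * 0 + R 0 2 * Q ((G s).om 0) ((G s).om 0)))) =
          t ^ 2 * Q ((G s).om 0) ((G s).om 0) := by
        linear_combination (t ^ 2 * Q ((G s).om 0) ((G s).om 0)) * n0
      rw [h4] at h3
      exact (pos_iff_pos_of_mul_pos h3).1 (by positivity)
    · by_contra hn
      have h3 : ∑ k, v k ^ 2 = 0 :=
        le_antisymm (not_lt.1 hn) (Finset.sum_nonneg fun k _ => sq_nonneg _)
      have h4 : ∀ k, R 0 k = 0 := fun k => by rw [hrow k, h3, Real.sqrt_zero, div_zero]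
      rw [h4, h4, h4] at n0
      norm_num at n0
    · rw [← hE.J 0 i z hz]
      show (G s).Jv (R 0) i z w = _
      congr 2
      funext k
      exact hrow k
  have hsum : ∀ s, ∑ k, Q e (((G s).cyc 2).om k) ^ 2 = ∑ k, Q e ((G s).om k) ^ 2 := by
    intro s
    rw [Fin.sum_univ_three, Fin.sum_univ_three, q0, q1, q2]
    ring
  refine ⟨fun s hs i z hz v => ?_, fun s hs => ?_, fun s hs => ?_, fun s hs => ?_, fun s hs => ?_,
    fun s hs i z hz v => ?_⟩
  · show ((G s).cyc 2).J 0 i z v = ((G 0).cyc 2).J 0 i z v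
    rw [cyc_J, cyc_J]
    exact congrArg (fun T : V →L[ℝ] V => T v) (hG.J s hs i z hz)
  · obtain ⟨r, hr, e0, e1⟩ := hG.om s hs
    refine ⟨r, hr, fun k hk => ?_⟩
    fin_cases k
    · exact absurd rfl hk
    · refine ((c1 s).trans e0).trans fun i z hz u v => ?_
      show r * ((G 0).om 0).w i z u v = r * (((G 0).cyc 2).om 1).w i z u v
      rw [(c1 0) i z hz]
    · refine ((c2 s).trans e1).trans fun i z hz u v => ?_
      show r * ((G 0).om 1).w i z u v = r * (((G 0).cyc 2).om 2).w i z u v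
      rw [(c2 0) i z hz]
  · refine ((cl_of_eqv (c0 s)).trans (hG.cls s hs)).trans ?_
    exact Cl.add (Cl.smul _ (cl_of_eqv (c0 0)).symm) (Cl.smul _ (cl_of_eqv (c0 1)).symm)
  · show 0 < Q (((G s).cyc 2).om 0) (((G s).cyc 2).om 0)
    rw [q0, hsy, q0, heq (G s) 2]
    exact (key s hs).1
  · show 0 < ∑ k, Q e (((G s).cyc 2).om k) ^ 2
    rw [hsum]
    exact (key s hs).2.1
  · rw [(key s hs).2.2 i z hz v]
    show _ = ((G s).cyc 2).Jv (fun k => Q e (((G s).cyc 2).om k) /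
      Real.sqrt (∑ k, Q e (((G s).cyc 2).om k) ^ 2)) i z v
    rw [hsum, HkT.Jv_apply, HkT.Jv_apply, q0, q1, q2, cyc_J, cyc_J, cyc_J]
    have a0 : (0 : Fin 3) + 2 = 2 := rfl
    have a1 : (1 : Fin 3) + 2 = 0 := rfl
    have a2 : (2 : Fin 3) + 2 = 1 := rfl
    rw [a0, a1, a2]
    abel

/-- the curvature is of type (1,1) for `J_a` -/
theorem conn_T11 {M : HkT C} {y F : F2 C} {a : Fin 3 → ℝ}
    (ha : a 0 ^ 2 + a 1 ^ 2 + a 2 ^ 2 = 1) (hy : ∀ k, T11 (ofHk M k) y) {i : C.ι} {z : V}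
    (hz : z ∈ (C.e i).target) {J : V →L[ℝ] V} (hJ : ∀ v, J v = M.Jv a i z v) {c q : ℝ}
    (hF : ∀ u v, F.w i z u v = c * (y.w i z u v + q * ∑ k, a k * (M.om k).w i z u v)) (u v : V) :
    F.w i z (J u) (J v) = F.w i z u v := by
  rw [hF, hF, hJ, hJ, t11_Jv hy ha i z hz, t11_lin M ha i z hz]

end gen

section main

variable {n : ℕ} {X : Type} [TopologicalSpace X] [CompactSpace X] [T2Space X]
  [SimplyConnectedSpace X] {C : RCh (Cn (2 * n)) X} {Q : F2 C →ₗ[ℝ] F2 C →ₗ[ℝ] ℝ}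

theorem mvOut_of_nf (hC : Ctx n C Q) {L0 : PL C} {e : F2 C} {M H : ℝ → HkT C}
    (hlnk : Cl L0.F ((-(2 * Real.pi)) • e)) (hN : NF Q e M H) :
    Nonempty (MvOut (d := 2 * n) C L0 H) := by
  classical
  let _ : MeasurableSpace (Cn (2 * n)) := borel _
  have : BorelSpace (Cn (2 * n)) := ⟨rfl⟩
  have hsy := hC.symm
  have hex := hC.ex
  have heq := hC.eq
  have hort := hC.ort
  have i0 : (0 : ℝ) ∈ Icc (0 : ℝ) 1 := ⟨le_rfl, zero_le_one⟩
  have i1 : (1 : ℝ) ∈ Icc (0 : ℝ) 1 := ⟨zero_le_one, le_rfl⟩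
  obtain ⟨A, hfin, hGd, ⟨P⟩, -, -, hA⟩ := exists_rot
    (Crest.Agent.R260.NN6_900.nnat (2 * n) (Cn (2 * n)) (by
      rw [finrank_real_of_complex]
      simp)) (M 0)
  obtain ⟨x0⟩ := (inferInstance : Nonempty X)
  set hc := cmp_of_cp hA with hhc
  set K0 := (M 0).kah hA with hK0
  have hAs : ∀ s ∈ Icc (0 : ℝ) 1, Cp ((M s).acm 0) A := fun s hs => cp_tr (hN.J0 s hs) hA
  -- the line of classes
  set xB : F2 C := (M 1).om 0 - (M 0).om 0 with hxB
  have hT0 : ∀ s ∈ Icc (0 : ℝ) 1, T11 (ofHk (M 0) 0) ((M s).om 0) := by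
    intro s hs i z hz u v
    have h1 := T11_hk (M s) 0 i z hz u v
    change ((M s).om 0).w i z ((M s).J 0 i z u) ((M s).J 0 i z v) = _ at h1
    rw [hN.J0 s hs i z hz, hN.J0 s hs i z hz] at h1
    exact h1
  have hTx : T11 (ofHk (M 0) 0) xB := by
    intro i z hz u v
    have e1 := hT0 1 i1 i z hz u v
    have e2 := hT0 0 i0 i z hz u v
    show ((M 1).om 0).w i z _ _ - ((M 0).om 0).w i z _ _ =
      ((M 1).om 0).w i z u v - ((M 0).om 0).w i z u v
    rw [e1, e2]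
  have hcl : ∀ s ∈ Icc (0 : ℝ) 1, Cl ((M s).om 0) ((M 0).om 0 + s • xB) := by
    intro s hs
    have h1 := hN.cls s hs
    have e1 : (1 - s) • (M 0).om 0 + s • (M 1).om 0 = (M 0).om 0 + s • xB := by
      rw [hxB]
      module
    rwa [e1] at h1
  set B : K11 A := ((hc.F xB).k11 (onA_11 (M 0) hA hTx)) with hB
  set K : ℝ → Kah A := fun s => if h : s ∈ Icc (0 : ℝ) 1 then (M s).kah (hAs s h) else K0 with hK
  have hKs : ∀ s (h : s ∈ Icc (0 : ℝ) 1), K s = (M s).kah (hAs s h) := by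
    intro s h
    simp only [hK, h, dif_pos]
  have hu : ∀ s, ∃ u : X → ℝ, s ∈ Icc (0 : ℝ) 1 → IsAdd (K s) (linK K0 B s) u ∧ u x0 = 0 := by
    intro s
    by_cases hs : s ∈ Icc (0 : ℝ) 1
    · have h1 : Ex ((ofKah (K s)).f2 - (linK K0 B s).f2) := by
        have h2 := (F_sub hc _ _).ex (ex_F hc (hcl s hs))
        refine Eqv.ex (eqvA fun j z hz u v => ?_) h2
        have a1 := kah_f2 (M s) (hAs s hs) j z hz u v
        have a2 := lin_f2 (M 0) hA hTx s j z hz u v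
        show (hc.F ((M s).om 0)).w j z u v - (hc.F ((M 0).om 0 + s • xB)).w j z u v =
          (ofKah (K s)).f2.w j z u v - (linK K0 B s).f2.w j z u v
        rw [hKs s hs]
        have a1' : (ofKah ((M s).kah (hAs s hs))).f2.w j z u v =
          (hc.F ((M s).om 0)).w j z u v := a1
        have a2' : (linK K0 B s).f2.w j z u v =
          (hc.F ((M 0).om 0 + s • xB)).w j z u v := a2
        rw [a1', a2']
      obtain ⟨u, hu, hu0, hue⟩ := kdiff hGd P K0 x0 h1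
      exact ⟨u, fun _ => ⟨⟨hu, hue⟩, hu0⟩⟩
    · exact ⟨fun _ => 0, fun h => absurd h hs⟩
  choose u hu using hu
  have hr : ∀ s, ∃ r : ℝ, s ∈ Icc (0 : ℝ) 1 → 0 < r ∧ ∀ k : Fin 3, k ≠ 0 →
      Eqv ((M s).om k) (r • (M 0).om k) := by
    intro s
    by_cases hs : s ∈ Icc (0 : ℝ) 1
    · obtain ⟨r, h⟩ := hN.om12 s hs
      exact ⟨r, fun _ => h⟩
    · exact ⟨0, fun h => absurd h hs⟩
  choose r' hr' using hr
  have segK : SegK K0 B x0 (Icc 0 1) K u := by
    refine ⟨fun s hs => (hu s hs).1, fun s hs => (hu s hs).2, fun s hs => ?_⟩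
    refine ⟨|r' s| ^ (2 * n), fun i x hx => ?_⟩
    rw [hKs s hs]
    exact det_scale hA (hAs s hs) ((hr' s hs).2 1 (by decide)) ((hr' s hs).2 2 (by decide)) i x hx
  -- numbers
  set q0 := Q ((M 0).om 0) ((M 0).om 0) with hq0
  have hq0p : 0 < q0 := hN.pos 0 i0
  set b := Q ((M 0).om 0) xB with hb
  set c := Q xB xB with hcc
  set p0 := Q e ((M 0).om 0) with hp0
  set pB := Q e xB with hpB
  set p1 := Q e ((M 0).om 1) with hp1
  set p2 := Q e ((M 0).om 2) with hp2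
  set qf : ℝ → ℝ := fun s => q0 + 2 * s * b + s ^ 2 * c with hqf
  have hqs : ∀ s ∈ Icc (0 : ℝ) 1, Q ((M s).om 0) ((M s).om 0) = qf s := by
    intro s hs
    rw [Q_cl hex (hcl s hs), Qr_cl hsy hex (hcl s hs)]
    simp only [map_add, map_smul, LinearMap.add_apply, LinearMap.smul_apply, smul_eq_mul]
    rw [hsy xB ((M 0).om 0), ← hq0, ← hb, ← hcc]
    ring
  have hqp : ∀ s ∈ Icc (0 : ℝ) 1, 0 < qf s := fun s hs => by
    rw [← hqs s hs]
    exact hN.pos s hs
  have hr2 : ∀ s ∈ Icc (0 : ℝ) 1, r' s ^ 2 * q0 = qf s := by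
    intro s hs
    have h1 := heq (M s) 1
    have e1 := cl_of_eqv ((hr' s hs).2 1 (by decide))
    rw [Q_cl hex e1, Qr_cl hsy hex e1, hqs s hs] at h1
    simp only [map_smul, LinearMap.smul_apply, smul_eq_mul] at h1
    rw [heq (M 0) 1, ← hq0] at h1
    linarith
  set r : ℝ → ℝ := fun s => Real.sqrt (qf s / q0) with hrd
  have hrr : ∀ s ∈ Icc (0 : ℝ) 1, r s = r' s := by
    intro s hs
    have h1 : qf s / q0 = r' s ^ 2 := by
      rw [← hr2 s hs, mul_div_assoc, div_self hq0p.ne', mul_one]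
    show Real.sqrt (qf s / q0) = _
    rw [h1, Real.sqrt_sq (hr' s hs).1.le]
  have hqan : ∀ s, AnalyticAt ℝ qf s := fun s => by
    simp only [hqf]
    fun_prop
  have ran : AnalyticOnNhd ℝ r (Icc 0 1) := fun s hs =>
    an_sqrt ((hqan s).div analyticAt_const hq0p.ne') (div_pos (hqp s hs) hq0p).ne'
  set vf : Fin 3 → ℝ → ℝ := ![fun s => p0 + s * pB, fun s => r s * p1, fun s => r s * p2] with hvf
  have hv : ∀ s ∈ Icc (0 : ℝ) 1, ∀ k, Q e ((M s).om k) = vf k s := by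
    intro s hs k
    fin_cases k
    · show Q e ((M s).om 0) = p0 + s * pB
      rw [Qr_cl hsy hex (hcl s hs), map_add, map_smul, smul_eq_mul]
    · show Q e ((M s).om 1) = r s * p1
      rw [Qr_cl hsy hex (cl_of_eqv ((hr' s hs).2 1 (by decide))), map_smul, smul_eq_mul, hrr s hs]
    · show Q e ((M s).om 2) = r s * p2
      rw [Qr_cl hsy hex (cl_of_eqv ((hr' s hs).2 2 (by decide))), map_smul, smul_eq_mul, hrr s hs]
  have hvan : ∀ k, AnalyticOnNhd ℝ (vf k) (Icc 0 1) := by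
    intro k
    fin_cases k
    · intro s _
      show AnalyticAt ℝ (fun s => p0 + s * pB) s
      fun_prop
    · intro s hs
      exact (ran s hs).mul analyticAt_const
    · intro s hs
      exact (ran s hs).mul analyticAt_const
  set a : Fin 3 → ℝ → ℝ := fun k s => vf k s / Real.sqrt (∑ l, vf l s ^ 2) with ha
  have hnp : ∀ s ∈ Icc (0 : ℝ) 1, 0 < ∑ l, vf l s ^ 2 := by
    intro s hs
    have h1 := hN.vpos s hs
    simp only [hv s hs] at h1
    exact h1
  have haan : ∀ k, AnalyticOnNhd ℝ (a k) (Icc 0 1) := by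
    intro k s hs
    refine (hvan k s hs).div (an_sqrt ?_ (hnp s hs).ne') (Real.sqrt_pos.2 (hnp s hs)).ne'
    have h1 : (fun s => ∑ l, vf l s ^ 2) = fun s => vf 0 s ^ 2 + vf 1 s ^ 2 + vf 2 s ^ 2 := by
      funext s
      exact Fin.sum_univ_three _
    rw [h1]
    exact (((hvan 0 s hs).pow 2).add ((hvan 1 s hs).pow 2)).add ((hvan 2 s hs).pow 2)
  have hrot : ∀ s ∈ Icc (0 : ℝ) 1, ∀ i, ∀ z ∈ (C.e i).target, ∀ w,
      (H s).J 0 i z w = (M s).Jv (fun k => a k s) i z w := by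
    intro s hs i z hz w
    have h1 := hN.rot s hs i z hz w
    simp only [hv s hs] at h1
    exact h1
  -- the fixed part
  set c1 := p1 / q0 with hc1
  set c2 := p2 / q0 with hc2
  have hu0 := hC.uniq (M 0) (hN.pos 0 i0)
  obtain ⟨W, hWc, hWT⟩ := hC.t11 (M 0) (hN.pos 0 i0) (e - c1 • (M 0).om 1 - c2 • (M 0).om 2)
    (by
      simp only [map_sub, map_smul, LinearMap.sub_apply, LinearMap.smul_apply, smul_eq_mul]
      rw [hort (M 0) 2 1 (by decide), heq (M 0) 1, ← hq0, ← hp1, hc1, div_mul_cancel₀ _ hq0p.ne']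
      ring)
    (by
      simp only [map_sub, map_smul, LinearMap.sub_apply, LinearMap.smul_apply, smul_eq_mul]
      rw [hort (M 0) 1 2 (by decide), heq (M 0) 2, ← hq0, ← hp2, hc2, div_mul_cancel₀ _ hq0p.ne']
      ring)
  set E : K11 A := (hc.F W).k11 (onA_11 (M 0) hA hWT) with hE
  have hEf : Eqv E.f2 (hc.F W) := eqvA fun j z hz u v => by rw [hE, F2.k11_f2 _ _ hz]
  have hWs : ∀ s ∈ Icc (0 : ℝ) 1, T11 (ofHk (M s) 0) W := by
    intro s hs i z hz u v
    have h1 := hWT i z hz u v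
    show W.w i z ((M s).J 0 i z u) ((M s).J 0 i z v) = _
    rw [hN.J0 s hs i z hz, hN.J0 s hs i z hz]
    exact h1
  have hQW : ∀ s ∈ Icc (0 : ℝ) 1, Q W ((M s).om 0) = vf 0 s := by
    intro s hs
    have e1 : Q ((M 0).om 1) ((M s).om 0) = 0 := by
      have h1 := hort (M s) 1 0 (by decide)
      rw [Q_cl hex (cl_of_eqv ((hr' s hs).2 1 (by decide))), map_smul, LinearMap.smul_apply,
        smul_eq_mul] at h1
      exact (mul_eq_zero.1 h1).resolve_left (hr' s hs).1.ne'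
    have e2 : Q ((M 0).om 2) ((M s).om 0) = 0 := by
      have h1 := hort (M s) 2 0 (by decide)
      rw [Q_cl hex (cl_of_eqv ((hr' s hs).2 2 (by decide))), map_smul, LinearMap.smul_apply,
        smul_eq_mul] at h1
      exact (mul_eq_zero.1 h1).resolve_left (hr' s hs).1.ne'
    rw [Q_cl hex hWc]
    simp only [map_sub, map_smul, LinearMap.sub_apply, LinearMap.smul_apply, smul_eq_mul]
    rw [e1, e2, hv s hs 0]
    ring
  have hf : ∀ s, ∃ (f : X → ℝ) (y : F2 C), s ∈ Icc (0 : ℝ) 1 → ∃ hf : A.Sm f, f x0 = 0 ∧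
      (∃ c : ℝ, ∀ x, trQ (K s) E f x = c) ∧ (∀ k, T11 (ofHk (M s) k) y) ∧
      ∀ i, ∀ z ∈ (C.e i).target, ∀ u v, W.w i z u v +
        (fderiv ℝ (((SMap.ofCmp hc.symm).pull1 (dcF f hf)).η i) z u v -
          fderiv ℝ (((SMap.ofCmp hc.symm).pull1 (dcF f hf)).η i) z v u) =
        y.w i z u v + (vf 0 s / qf s) * ((M s).om 0).w i z u v := by
    intro s
    by_cases hs : s ∈ Icc (0 : ℝ) 1
    · obtain ⟨f, hf, y, h1, h2, h3, h4⟩ := exists_f hGd P hsy hex heq (hAs s hs)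
        (hC.uniq (M s) (hN.pos s hs)) (hN.pos s hs).ne' (hWs s hs) E hEf x0
      refine ⟨f, y, fun _ => ⟨hf, h1, ?_, h3, ?_⟩⟩
      · rw [hKs s hs]
        exact h2
      · rw [hQW s hs, hqs s hs] at h4
        exact h4
    · exact ⟨fun _ => 0, 0, fun h => absurd h hs⟩
  choose f y hfy using hf
  have segF : SegF K E x0 (Icc 0 1) f :=
    ⟨fun s hs => (hfy s hs).choose, fun s hs => (hfy s hs).choose_spec.1,
      fun s hs => (hfy s hs).choose_spec.2.1⟩
  -- the fixed part of the connection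
  have hS : Cl L0.F ((-(2 * Real.pi)) • (c1 • (M 0).om 1 + c2 • (M 0).om 2 + W)) := by
    refine hlnk.trans (Cl.smul _ ?_)
    have h1 : Cl (e - c1 • (M 0).om 1 - c2 • (M 0).om 2 + (c1 • (M 0).om 1 + c2 • (M 0).om 2))
        (W + (c1 • (M 0).om 1 + c2 • (M 0).om 2)) := Cl.add hWc.symm (Cl.refl _)
    have e1 : e - c1 • (M 0).om 1 - c2 • (M 0).om 2 + (c1 • (M 0).om 1 + c2 • (M 0).om 2) = e := by
      abel
    rw [e1, add_comm W] at h1
    exact h1
  obtain ⟨η0, hη0⟩ := hS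
  refine ⟨{
    A := A
    fin := hfin
    P := P
    M := M
    hA := hA
    J0 := hN.J0
    x0 := x0
    K0 := K0
    B := B
    K := K
    u := u
    segK := segK
    om0 := fun s hs => ?_
    E := E
    f := f
    segF := segF
    r := r
    r_an := ran
    r_pos := fun s hs => by rw [hrr s hs]; exact (hr' s hs).1
    om12 := fun s hs k hk => by rw [hrr s hs]; exact (hr' s hs).2 k hk
    a := a
    a_an := haan
    JH := fun s hs i z hz v => ?_
    η := (-1 : ℝ) • η0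
    conn := fun s hs => ?_ }⟩
  · rw [hKs s hs]
    have h1 := kah_f2 (M s) (hAs s hs)
    have h2 : Eqv (hc.symm.F (ofKah ((M s).kah (hAs s hs))).f2) (hc.symm.F (hc.F ((M s).om 0))) :=
      F_eqv h1
    exact (h2.trans (F_F hc _)).symm
  · rw [hrot s hs i z hz v, HkT.Jv_apply, Fin.sum_univ_three]
  · obtain ⟨hf, h1, h2, h3, h4⟩ := hfy s hs
    set D1 := (SMap.ofCmp hc.symm).pull1 (dcF (f s) hf) with hD1
    refine ⟨(-1 : ℝ) • η0 + (-(2 * Real.pi)) • D1, fun i z hz v => ?_, fun i z hz v w => ?_⟩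
    · have k1 := dcC_η (M s) (hAs s hs) hf hz v
      have k2 : D1.η i z v = -(1 / 4 : ℝ) *
        fderiv ℝ (fun y => f s ((C.e i).symm y)) z ((M s).J 0 i z v) := k1
      rw [F1.add_η, F1.smul_η (-(2 * Real.pi)), add_apply, smul_apply, k2, hN.J0 s hs i z hz,
        smul_eq_mul]
      ring
    · have hsq : (a 0 s) ^ 2 + (a 1 s) ^ 2 + (a 2 s) ^ 2 = 1 := by
        have h5 := Real.sq_sqrt (hnp s hs).le
        have h6 : Real.sqrt (∑ l, vf l s ^ 2) ≠ 0 := (Real.sqrt_pos.2 (hnp s hs)).ne'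
        simp only [ha, div_pow, h5]
        rw [Fin.sum_univ_three]
        have h7 := hnp s hs
        rw [Fin.sum_univ_three] at h7
        field_simp
      refine conn_T11 (M := M s) (a := fun k => a k s) (y := y s) hsq h3 hz
        (J := (H s).J 0 i z) (hrot s hs i z hz) (c := -(2 * Real.pi))
        (q := Real.sqrt (∑ l, vf l s ^ 2) / qf s) (fun u w => ?_) v w
      have k1 := hη0 i z hz u w
      have k2 := h4 i z hz u w
      have k3 : (L0.F - (-(2 * Real.pi)) • (c1 • (M 0).om 1 + c2 • (M 0).om 2 + W)).w i z u w =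
        L0.F.w i z u w - (-(2 * Real.pi)) * (c1 * ((M 0).om 1).w i z u w +
          c2 * ((M 0).om 2).w i z u w + W.w i z u w) := rfl
      rw [k3] at k1
      have k4 := (hr' s hs).2 1 (by decide) i z hz u w
      have k5 := (hr' s hs).2 2 (by decide) i z hz u w
      have k6 : (r' s • (M 0).om 1).w i z u w = r' s * ((M 0).om 1).w i z u w := rfl
      have k7 : (r' s • (M 0).om 2).w i z u w = r' s * ((M 0).om 2).w i z u w := rfl
      rw [k6] at k4
      rw [k7] at k5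
      rw [PL.add_F _ _ hz, F1.d_w, F1.fderiv_add _ _ hz, F1.fderiv_smul _ _ hz,
        F1.fderiv_smul _ _ hz]
      simp only [add_apply, smul_apply, smul_eq_mul]
      have hne : Real.sqrt (∑ l, vf l s ^ 2) ≠ 0 := (Real.sqrt_pos.2 (hnp s hs)).ne'
      have k8 : Real.sqrt (∑ l, vf l s ^ 2) / qf s * ∑ k, a k s * ((M s).om k).w i z u w =
          (vf 0 s / qf s) * ((M s).om 0).w i z u w + c1 * ((M 0).om 1).w i z u w +
            c2 * ((M 0).om 2).w i z u w := by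
        obtain ⟨S, hSd⟩ : ∃ S, S = Real.sqrt (∑ l, vf l s ^ 2) := ⟨_, rfl⟩
        have e0 : a 0 s = vf 0 s / S := by rw [hSd]
        have e1 : a 1 s = r s * p1 / S := by rw [hSd]; rfl
        have e2 : a 2 s = r s * p2 / S := by rw [hSd]; rfl
        rw [← hSd] at hne ⊢
        rw [Fin.sum_univ_three, k4, k5, e0, e1, e2, hrr s hs, hc1, hc2, ← hr2 s hs]
        have hr0 := (hr' s hs).1.ne'
        have hq0' := hq0p.ne'
        field_simp
      rw [k8]
      linear_combination k1 - (2 * Real.pi) * k2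

/-- **the algebra of SEMI**: `Ctx`, `Move`, `SameTw`, `Given` give `MvOut` -/
theorem nonempty_mvOut (hC : Ctx n C Q) {L0 : PL C} {e : F2 C} {G H : ℝ → HkT C} (hG : Move G)
    (hT : ∀ s ∈ Icc (0 : ℝ) 1, SameTw (G s) (H s))
    (hg : ∀ s ∈ Icc (0 : ℝ) 1, Given Q (H s) L0 e) : Nonempty (MvOut (d := 2 * n) C L0 H) :=
  mvOut_of_nf hC (hg 0 ⟨le_rfl, zero_le_one⟩).lnk (nf_of hC.symm hC.ex hC.eq hC.ort hG hT hg)

end main

end

end Crest.Agent.R281.Mvs_713
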