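import Crest.Agent.R281.Per1_368
import Crest.Agent.R281.Cdr1_234
import Crest.Agent.R281.Poi_234

-- ▼ part R281/Per2_368
section

/-!
S-PER (task 1725), part 2: smallness in mean implies smallness of the period.
-/

open MeasureTheory Set Filter
open scoped Topology ENNReal

set_option maxSynthPendingDepth 3

namespace Crest.Agent.R281.Per_368

variable {E : Type*} [NormedAddCommGroup E] [NormedSpace ℝ E]

/-- **(P2)**, integral form: if `|ξ(v,w)| ≤ h` on `ball z R` and `‖v‖ + ‖w‖ ≤ R/2` then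
`|per ξ z v w| * vol (ball z (R/2)) ≤ ∫ h over ball z R`. -/
theorem per_le_lint [FiniteDimensional ℝ E] [MeasurableSpace E] [BorelSpace E]
    (μ : Measure E) [μ.IsAddHaarMeasure]
    {S : Set E} (hS : IsOpen S) (hconv : Convex ℝ S)
    {ξ : E → E →L[ℝ] E →L[ℝ] ℝ} (hξ : Cl S ξ)
    {v w : E} (hv : ∀ x ∈ S, ∀ s : ℝ, x + s • v ∈ S) (hw : ∀ x ∈ S, ∀ s : ℝ, x + s • w ∈ S)
    (pv : ∀ x ∈ S, ξ (x + v) = ξ x) (pw : ∀ x ∈ S, ξ (x + w) = ξ x) {z : E} {R : ℝ}
    (hz : z ∈ S) (hvw : ‖v‖ + ‖w‖ ≤ R / 2) (hball : Metric.ball z (R / 2) ⊆ S)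
    {h : E → ℝ≥0∞} (hm : Measurable h)
    (hh : ∀ x ∈ Metric.ball z R, x ∈ S → ENNReal.ofReal |ξ x v w| ≤ h x) :
    ENNReal.ofReal |per ξ z v w| * μ (Metric.ball z (R / 2)) ≤
      ∫⁻ x in Metric.ball z R, h x ∂μ := by
  have hcξ : ContinuousOn ξ S := hξ.sm.continuousOn
  have hin : ∀ x ∈ S, ∀ s t : ℝ, pt x v w s t ∈ S := fun x hx s t => hw _ (hv x hx s) t
  -- displacement bound
  have hdis : ∀ p ∈ Q, ‖p.1 • v + p.2 • w‖ ≤ R / 2 := by
    rintro ⟨s, t⟩ ⟨hs, ht⟩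
    calc ‖s • v + t • w‖ ≤ ‖s • v‖ + ‖t • w‖ := norm_add_le _ _
      _ = |s| * ‖v‖ + |t| * ‖w‖ := by rw [norm_smul, norm_smul]; rfl
      _ ≤ 1 * ‖v‖ + 1 * ‖w‖ := by
          have h1 : |s| ≤ 1 := abs_le.2 ⟨by linarith [hs.1], hs.2⟩
          have h2 : |t| ≤ 1 := abs_le.2 ⟨by linarith [ht.1], ht.2⟩
          gcongr
      _ ≤ R / 2 := by linarith
  have hmem : ∀ z' ∈ Metric.ball z (R / 2), ∀ p ∈ Q, pt z' v w p.1 p.2 ∈ Metric.ball z R := by
    intro z' hz' p hp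
    rw [Metric.mem_ball, dist_eq_norm] at hz' ⊢
    have e : pt z' v w p.1 p.2 - z = (z' - z) + (p.1 • v + p.2 • w) := by unfold pt; abel
    rw [e]
    calc _ ≤ ‖z' - z‖ + ‖p.1 • v + p.2 • w‖ := norm_add_le _ _
      _ < R := by linarith [hdis p hp]
  -- pointwise bound
  have hpt : ∀ z' ∈ Metric.ball z (R / 2), ENNReal.ofReal |per ξ z v w| ≤
      ∫⁻ p in Q, h (pt z' v w p.1 p.2) := by
    intro z' hz'
    have hz'S := hball hz'
    rw [per_const hS hconv hξ hv hw pv pw hz hz'S,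
      per_eq_set hcξ (fun s _ t _ => hin z' hz'S s t)]
    calc ENNReal.ofReal |∫ p in Q, ξ (pt z' v w p.1 p.2) v w|
        = ‖∫ p in Q, ξ (pt z' v w p.1 p.2) v w‖ₑ := by
          rw [← Real.norm_eq_abs, ofReal_norm]
      _ ≤ ∫⁻ p in Q, ‖ξ (pt z' v w p.1 p.2) v w‖ₑ := enorm_integral_le_lintegral_enorm _
      _ ≤ ∫⁻ p in Q, h (pt z' v w p.1 p.2) := by
          refine setLIntegral_mono' measurableSet_Q fun p hp => ?_
          rw [← ofReal_norm, Real.norm_eq_abs]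
          exact hh _ (hmem z' hz' p hp) (hin z' hz'S _ _)
  have hjoint : Measurable fun q : E × (ℝ × ℝ) => h (pt q.1 v w q.2.1 q.2.2) := by
    refine hm.comp ?_
    have : Continuous fun q : E × (ℝ × ℝ) => pt q.1 v w q.2.1 q.2.2 := by
      unfold pt; fun_prop
    exact this.measurable
  calc ENNReal.ofReal |per ξ z v w| * μ (Metric.ball z (R / 2))
      = ∫⁻ _ in Metric.ball z (R / 2), ENNReal.ofReal |per ξ z v w| ∂μ := by
        rw [setLIntegral_const]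
    _ ≤ ∫⁻ z' in Metric.ball z (R / 2), (∫⁻ p in Q, h (pt z' v w p.1 p.2)) ∂μ :=
        setLIntegral_mono' measurableSet_ball hpt
    _ = ∫⁻ p in Q, (∫⁻ z' in Metric.ball z (R / 2), h (pt z' v w p.1 p.2) ∂μ) :=
        lintegral_lintegral_swap hjoint.aemeasurable
    _ ≤ ∫⁻ _ in Q, (∫⁻ x in Metric.ball z R, h x ∂μ) := by
        refine setLIntegral_mono' measurableSet_Q fun p hp => ?_
        have hmp := measurePreserving_add_right μ (p.1 • v + p.2 • w)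
        have e1 : (∫⁻ z' in Metric.ball z (R / 2), h (pt z' v w p.1 p.2) ∂μ) ≤
            ∫⁻ z' in (fun y => y + (p.1 • v + p.2 • w)) ⁻¹' (Metric.ball z R),
              h (z' + (p.1 • v + p.2 • w)) ∂μ := by
          have e2 : ∀ z' : E, pt z' v w p.1 p.2 = z' + (p.1 • v + p.2 • w) := fun z' => by
            unfold pt; abel
          simp only [e2]
          refine lintegral_mono_set fun z' hz' => ?_
          have := hmem z' hz' p hp
          rwa [e2] at this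
        refine e1.trans ?_
        rw [hmp.setLIntegral_comp_preimage measurableSet_ball hm]
    _ = ∫⁻ x in Metric.ball z R, h x ∂μ := by
        rw [setLIntegral_const, volume_Q, mul_one]

/-- small mean: the period is `< 1` in absolute value. -/
theorem abs_per_lt [FiniteDimensional ℝ E] [MeasurableSpace E] [BorelSpace E]
    (μ : Measure E) [μ.IsAddHaarMeasure]
    {S : Set E} (hS : IsOpen S) (hconv : Convex ℝ S)
    {ξ : E → E →L[ℝ] E →L[ℝ] ℝ} (hξ : Cl S ξ)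
    {v w : E} (hv : ∀ x ∈ S, ∀ s : ℝ, x + s • v ∈ S) (hw : ∀ x ∈ S, ∀ s : ℝ, x + s • w ∈ S)
    (pv : ∀ x ∈ S, ξ (x + v) = ξ x) (pw : ∀ x ∈ S, ξ (x + w) = ξ x) {z : E} {R : ℝ}
    (hz : z ∈ S) (hvw : ‖v‖ + ‖w‖ ≤ R / 2) (hball : Metric.ball z (R / 2) ⊆ S)
    {h : E → ℝ≥0∞} (hm : Measurable h)
    (hh : ∀ x ∈ Metric.ball z R, x ∈ S → ENNReal.ofReal |ξ x v w| ≤ h x)
    (hsm : ∫⁻ x in Metric.ball z R, h x ∂μ < μ (Metric.ball z (R / 2))) :
    |per ξ z v w| < 1 := by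
  by_contra hcon
  push Not at hcon
  have h1 := per_le_lint μ hS hconv hξ hv hw pv pw hz hvw hball hm hh
  have h2 : μ (Metric.ball z (R / 2)) ≤
      ENNReal.ofReal |per ξ z v w| * μ (Metric.ball z (R / 2)) := by
    calc μ (Metric.ball z (R / 2)) = 1 * μ (Metric.ball z (R / 2)) := (one_mul _).symm
      _ ≤ _ := by
        gcongr
        rw [← ENNReal.ofReal_one]
        exact ENNReal.ofReal_le_ofReal hcon
  exact absurd (h2.trans h1) (not_le.2 hsm)

end Crest.Agent.R281.Per_368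
end

-- ▼ part R281/Per3_368
section

/-!
S-PER (task 1725), part 3: integrality of the periods of an integral class.

`IntCl Λ S ξ U α f`: `ξ` has local primitives `α i` on an open cover `U i` of `S`, everything
`Λ`-periodic, `α j - α i = d (f i j)` and the cocycle `f i j + f j k - f i k` is an integer.
`per_int`: then `per ξ z v w` is an integer for `v, w ∈ Λ`.
-/

open MeasureTheory Set Filter
open scoped Topology ENNReal

set_option maxSynthPendingDepth 3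

namespace Crest.Agent.R281.Per_368

variable {E : Type*} [NormedAddCommGroup E] [NormedSpace ℝ E]

/-- Čech--de Rham data of an integral class on the `Λ`-periodic set `S`. -/
structure IntCl {I : Type*} (Λ S : Set E) (ξ : E → E →L[ℝ] E →L[ℝ] ℝ) (U : I → Set E)
    (α : I → E → E →L[ℝ] ℝ) (f : I → I → E → ℝ) : Prop where
  op : ∀ i, IsOpen (U i)
  cov : ∀ x ∈ S, ∃ i, x ∈ U i
  perU : ∀ i, ∀ l ∈ Λ, ∀ x ∈ U i, x + l ∈ U i
  sm : ∀ i, ContDiffOn ℝ 1 (α i) (U i)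
  pera : ∀ i, ∀ l ∈ Λ, ∀ x ∈ U i, α i (x + l) = α i x
  d : ∀ i, ∀ x ∈ U i, ∀ a b, ξ x a b = fderiv ℝ (α i) x a b - fderiv ℝ (α i) x b a
  df : ∀ i j, ∀ x ∈ U i, x ∈ U j → HasFDerivAt (f i j) (α j x - α i x) x
  perf : ∀ i j, ∀ l ∈ Λ, ∀ x ∈ U i, x ∈ U j → f i j (x + l) = f i j x
  coc : ∀ i j k, ∀ x ∈ U i, x ∈ U j → x ∈ U k → ∃ m : ℤ, f i j x + f j k x - f i k x = m

/-- shift of a periodic sum -/
lemma sum_shift {g : ℕ → ℝ} {N : ℕ} (h : g N = g 0) :
    ∑ a ∈ Finset.range N, g a = ∑ a ∈ Finset.range N, g (a + 1) := by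
  have h1 := Finset.sum_range_succ g N
  have h2 := Finset.sum_range_succ' g N
  rw [h] at h1
  linarith

/-- splitting an iterated integral over the unit square into an `N × N` grid -/
lemma grid {F : ℝ → ℝ → ℝ} (hF : Continuous (Function.uncurry F)) {N : ℕ} (hN : 0 < N) :
    (∫ s in (0:ℝ)..1, ∫ t in (0:ℝ)..1, F s t) =
      ∑ a ∈ Finset.range N, ∑ b ∈ Finset.range N,
        ∫ s in ((a:ℝ) / N)..((a + 1 : ℕ) / N : ℝ), ∫ t in ((b:ℝ) / N)..((b + 1 : ℕ) / N : ℝ),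
          F s t := by
  have hN' : (N:ℝ) ≠ 0 := by positivity
  have hinner : ∀ s : ℝ, (∫ t in (0:ℝ)..1, F s t) =
      ∑ b ∈ Finset.range N, ∫ t in ((b:ℝ) / N)..((b + 1 : ℕ) / N : ℝ), F s t := by
    intro s
    have hc : Continuous fun t => F s t := hF.comp (by fun_prop : Continuous fun t : ℝ => (s, t))
    have := intervalIntegral.sum_integral_adjacent_intervals (f := fun t => F s t)
      (μ := volume) (a := fun b : ℕ => (b:ℝ) / N) (n := N)
      (fun k _ => hc.intervalIntegrable _ _)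
    rw [this]
    simp [hN']
  have hcont : ∀ c d : ℝ, Continuous fun s => ∫ t in c..d, F s t := fun c d =>
    intervalIntegral.continuous_parametric_intervalIntegral_of_continuous' hF c d
  have h1 : (∫ s in (0:ℝ)..1, ∫ t in (0:ℝ)..1, F s t) =
      ∑ b ∈ Finset.range N, ∫ s in (0:ℝ)..1,
        ∫ t in ((b:ℝ) / N)..((b + 1 : ℕ) / N : ℝ), F s t := by
    rw [← intervalIntegral.integral_finsetSum
      (fun b _ => (hcont _ _).intervalIntegrable _ _)]
    refine intervalIntegral.integral_congr fun s _ => hinner s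
  rw [h1, Finset.sum_comm]
  refine Finset.sum_congr rfl fun b _ => ?_
  have := intervalIntegral.sum_integral_adjacent_intervals
    (f := fun s => ∫ t in ((b:ℝ) / N)..((b + 1 : ℕ) / N : ℝ), F s t)
    (μ := volume) (a := fun b : ℕ => (b:ℝ) / N) (n := N)
    (fun k _ => (hcont _ _).intervalIntegrable _ _)
  rw [this]
  simp [hN']

/-- **(P4)** the periods of an integral class are integers. -/
theorem per_int {I : Type*} {Λ S : Set E} {ξ : E → E →L[ℝ] E →L[ℝ] ℝ} {U : I → Set E}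
    {α : I → E → E →L[ℝ] ℝ} {f : I → I → E → ℝ} (h : IntCl Λ S ξ U α f)
    (hξ : ContinuousOn ξ S) {z v w : E} (hv : v ∈ Λ) (hw : w ∈ Λ)
    (hin : ∀ s t : ℝ, pt z v w s t ∈ S) :
    ∃ m : ℤ, per ξ z v w = m := by
  classical
  -- Lebesgue number
  obtain ⟨δ, hδ, hL⟩ := lebesgue_number_lemma_of_metric (s := Q)
    (c := fun i => (fun p : ℝ × ℝ => pt z v w p.1 p.2) ⁻¹' (U i)) isCompact_Q
    (fun i => (h.op i).preimage (continuous_pt z v w))
    (fun p _ => by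
      obtain ⟨i, hi⟩ := h.cov _ (hin p.1 p.2)
      exact mem_iUnion.2 ⟨i, hi⟩)
  obtain ⟨N, hN⟩ := exists_nat_gt (1 / δ)
  have hN0 : 0 < N := by
    have : (0:ℝ) < N := lt_trans (by positivity) hN
    exact_mod_cast this
  have hNr : (0:ℝ) < N := by exact_mod_cast hN0
  have hNδ : 1 / (N:ℝ) < δ := by
    rw [div_lt_comm₀ hNr hδ]; exact hN
  -- index of a cell with lower left corner `(a/N, b/N)`, `a b < N`
  have hcell : ∀ a b : ℕ, a < N → b < N → ∃ i, ∀ s ∈ Icc ((a:ℝ) / N) ((a + 1 : ℕ) / N : ℝ),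
      ∀ t ∈ Icc ((b:ℝ) / N) ((b + 1 : ℕ) / N : ℝ), pt z v w s t ∈ U i := by
    intro a b ha hb
    have hmem : (((a:ℝ) / N, (b:ℝ) / N) : ℝ × ℝ) ∈ Q := by
      refine ⟨⟨by positivity, ?_⟩, ⟨by positivity, ?_⟩⟩
      · rw [div_le_one hNr]; exact_mod_cast ha.le
      · rw [div_le_one hNr]; exact_mod_cast hb.le
    obtain ⟨i, hi⟩ := hL _ hmem
    refine ⟨i, fun s hs t ht => ?_⟩
    have : ((s, t) : ℝ × ℝ) ∈ Metric.ball (((a:ℝ) / N, (b:ℝ) / N) : ℝ × ℝ) δ := by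
      rw [Metric.mem_ball, Prod.dist_eq, max_lt_iff, Real.dist_eq, Real.dist_eq]
      have e1 : ((a + 1 : ℕ) : ℝ) / N = (a:ℝ) / N + 1 / N := by push_cast; ring
      have e2 : ((b + 1 : ℕ) : ℝ) / N = (b:ℝ) / N + 1 / N := by push_cast; ring
      rw [e1] at hs; rw [e2] at ht
      constructor
      · rw [abs_lt]; constructor <;> simp only <;> linarith [hs.1, hs.2]
      · rw [abs_lt]; constructor <;> simp only <;> linarith [ht.1, ht.2]
    exact hi this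
  have : Nonempty I := by
    obtain ⟨i, _⟩ := h.cov _ (hin 0 0); exact ⟨i⟩
  choose! i0 hi0 using hcell
  -- periodic continuation of the index to `a, b ≤ N`
  let ρ : ℕ → ℕ := fun a => if a = N then 0 else a
  have hρ : ∀ a, a < N → ρ a = a := fun a ha => by simp [ρ, ha.ne]
  have hρN : ρ N = 0 := by simp [ρ]
  let ix : ℕ → ℕ → I := fun a b => i0 (ρ a) (ρ b)
  have hper1 : ∀ i : I, ∀ s t : ℝ, pt z v w (s - 1) t ∈ U i → pt z v w s t ∈ U i := by
    intro i s t hm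
    have e : pt z v w s t = pt z v w (s - 1) t + v := by
      simp only [pt, sub_smul, one_smul]; abel
    rw [e]; exact h.perU i v hv _ hm
  have hper2 : ∀ i : I, ∀ s t : ℝ, pt z v w s (t - 1) ∈ U i → pt z v w s t ∈ U i := by
    intro i s t hm
    have e : pt z v w s t = pt z v w s (t - 1) + w := by
      simp only [pt, sub_smul, one_smul]; abel
    rw [e]; exact h.perU i w hw _ hm
  have hix : ∀ a b : ℕ, a ≤ N → b ≤ N → ∀ s ∈ Icc ((a:ℝ) / N) ((a + 1 : ℕ) / N : ℝ),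
      ∀ t ∈ Icc ((b:ℝ) / N) ((b + 1 : ℕ) / N : ℝ), pt z v w s t ∈ U (ix a b) := by
    intro a b ha hb s hs t ht
    have key : ∀ c : ℕ, c ≤ N → ∀ r ∈ Icc ((c:ℝ) / N) ((c + 1 : ℕ) / N : ℝ),
        (ρ c < N ∧ r ∈ Icc ((ρ c:ℝ) / N) ((ρ c + 1 : ℕ) / N : ℝ)) ∨
        (ρ c < N ∧ r - 1 ∈ Icc ((ρ c:ℝ) / N) ((ρ c + 1 : ℕ) / N : ℝ)) := by
      intro c hc r hr
      rcases hc.lt_or_eq with hlt | heq
      · left; rw [hρ c hlt]; exact ⟨hlt, hr⟩
      · right
        subst heq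
        rw [hρN]
        refine ⟨hN0, ?_, ?_⟩
        · have : (c:ℝ) / c = 1 := div_self hNr.ne'
          rw [this] at hr
          simp only [Nat.cast_zero, zero_div]; linarith [hr.1]
        · have e1 : ((c + 1 : ℕ) : ℝ) / c = 1 + 1 / c := by
            push_cast; rw [add_div, div_self hNr.ne']
          have e2 : ((0 + 1 : ℕ) : ℝ) / c = 1 / c := by simp
          rw [e1] at hr; rw [e2]; linarith [hr.2]
    rcases key a ha s hs with ⟨ha', hs'⟩ | ⟨ha', hs'⟩ <;>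
    rcases key b hb t ht with ⟨hb', ht'⟩ | ⟨hb', ht'⟩
    · exact hi0 _ _ ha' hb' _ hs' _ ht'
    · exact hper2 _ _ _ (hi0 _ _ ha' hb' _ hs' _ ht')
    · exact hper1 _ _ _ (hi0 _ _ ha' hb' _ hs' _ ht')
    · exact hper1 _ _ _ (hper2 _ _ _ (hi0 _ _ ha' hb' _ hs' _ ht'))
  have hxle : ∀ a : ℕ, (a:ℝ) / N ≤ ((a + 1 : ℕ) : ℝ) / N := fun a => by
    gcongr; exact_mod_cast Nat.le_succ a
  -- the four families of edges and vertices
  let P : ℕ → ℕ → E := fun a b => pt z v w ((a:ℝ) / N) ((b:ℝ) / N)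
  let V : I → ℕ → ℕ → ℝ := fun i a b =>
    ∫ t in ((b:ℝ) / N)..((b + 1 : ℕ) / N : ℝ), α i (pt z v w ((a:ℝ) / N) t) w
  let H : I → ℕ → ℕ → ℝ := fun i a b =>
    ∫ s in ((a:ℝ) / N)..((a + 1 : ℕ) / N : ℝ), α i (pt z v w s ((b:ℝ) / N)) v
  have hF : Continuous (Function.uncurry fun s t => ξ (pt z v w s t) v w) := by
    have h1 : ContinuousOn (fun p : ℝ × ℝ => ξ (pt z v w p.1 p.2) v w) univ :=
      ((hξ.comp (continuous_pt z v w).continuousOn
        (fun p _ => hin _ _)).clm_apply continuousOn_const).clm_apply continuousOn_const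
    exact continuousOn_univ.1 h1
  have hcellint : ∀ a b : ℕ, a < N → b < N →
      (∫ s in ((a:ℝ) / N)..((a + 1 : ℕ) / N : ℝ), ∫ t in ((b:ℝ) / N)..((b + 1 : ℕ) / N : ℝ),
        ξ (pt z v w s t) v w) =
      V (ix a b) (a + 1) b - V (ix a b) a b - H (ix a b) a (b + 1) + H (ix a b) a b := by
    intro a b ha hb
    have hU : ∀ s ∈ uIcc ((a:ℝ) / N) ((a + 1 : ℕ) / N : ℝ),
        ∀ t ∈ uIcc ((b:ℝ) / N) ((b + 1 : ℕ) / N : ℝ), pt z v w s t ∈ U (ix a b) := by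
      rw [uIcc_of_le (hxle a), uIcc_of_le (hxle b)]
      exact hix a b ha.le hb.le
    rw [← green (h.op (ix a b)) (h.sm (ix a b)) z v w hU]
    refine intervalIntegral.integral_congr fun s hs => ?_
    refine intervalIntegral.integral_congr fun t ht => ?_
    exact h.d _ _ (hU s hs t ht) v w
  have hVper : ∀ (i : I) (b : ℕ), (∀ t ∈ Icc ((b:ℝ) / N) ((b + 1 : ℕ) / N : ℝ),
      pt z v w ((0:ℕ) / N : ℝ) t ∈ U i) → V i N b = V i 0 b := by
    intro i b hU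
    refine intervalIntegral.integral_congr fun t ht => ?_
    rw [uIcc_of_le (hxle b)] at ht
    have e : pt z v w ((N:ℝ) / N) t = pt z v w ((0:ℕ) / N : ℝ) t + v := by
      rw [div_self hNr.ne']; simp [pt]; abel
    show α i (pt z v w ((N:ℝ) / N) t) w = α i (pt z v w ((0:ℕ) / N : ℝ) t) w
    rw [e, h.pera i v hv _ (hU t ht)]
  have hHper : ∀ (i : I) (a : ℕ), (∀ s ∈ Icc ((a:ℝ) / N) ((a + 1 : ℕ) / N : ℝ),
      pt z v w s ((0:ℕ) / N : ℝ) ∈ U i) → H i a N = H i a 0 := by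
    intro i a hU
    refine intervalIntegral.integral_congr fun s hs => ?_
    rw [uIcc_of_le (hxle a)] at hs
    have e : pt z v w s ((N:ℝ) / N) = pt z v w s ((0:ℕ) / N : ℝ) + w := by
      rw [div_self hNr.ne']; simp [pt]
    show α i (pt z v w s ((N:ℝ) / N)) v = α i (pt z v w s ((0:ℕ) / N : ℝ)) v
    rw [e, h.pera i w hw _ (hU s hs)]
  -- differences along edges
  have hVd : ∀ (i j : I) (a b : ℕ), (∀ t ∈ Icc ((b:ℝ) / N) ((b + 1 : ℕ) / N : ℝ),
      pt z v w ((a:ℝ) / N) t ∈ U i ∧ pt z v w ((a:ℝ) / N) t ∈ U j) →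
      V j a b - V i a b = f i j (P a (b + 1)) - f i j (P a b) := by
    intro i j a b hU
    have hcurve : ∀ t : ℝ, HasDerivAt (fun t : ℝ => pt z v w ((a:ℝ) / N) t) w t := by
      intro t
      have : HasDerivAt (fun t : ℝ => t • w) w t := by
        simpa using (hasDerivAt_id t).smul_const w
      unfold pt
      exact this.const_add _
    have hcc : Continuous fun t : ℝ => pt z v w ((a:ℝ) / N) t := by unfold pt; fun_prop
    have hi : ∀ k, (∀ t ∈ Icc ((b:ℝ) / N) ((b + 1 : ℕ) / N : ℝ),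
        pt z v w ((a:ℝ) / N) t ∈ U k) →
        IntervalIntegrable (fun t => α k (pt z v w ((a:ℝ) / N) t) w) volume
        ((b:ℝ) / N) ((b + 1 : ℕ) / N : ℝ) := by
      intro k hk
      apply ContinuousOn.intervalIntegrable
      rw [uIcc_of_le (hxle b)]
      exact ((h.sm k).continuousOn.comp hcc.continuousOn hk).clm_apply continuousOn_const
    have hii := hi i (fun t ht => (hU t ht).1)
    have hjj := hi j (fun t ht => (hU t ht).2)
    have := intervalIntegral.integral_eq_sub_of_hasDerivAt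
      (f := fun t => f i j (pt z v w ((a:ℝ) / N) t))
      (f' := fun t => α j (pt z v w ((a:ℝ) / N) t) w - α i (pt z v w ((a:ℝ) / N) t) w)
      (a := (b:ℝ) / N) (b := ((b + 1 : ℕ) / N : ℝ))
      (fun t ht => by
        rw [uIcc_of_le (hxle b)] at ht
        have := (h.df i j _ (hU t ht).1 (hU t ht).2).comp_hasDerivAt t (hcurve t)
        rw [sub_apply] at this
        exact this)
      (hjj.sub hii)
    rw [intervalIntegral.integral_sub hjj hii] at this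
    exact this
  have hHd : ∀ (i j : I) (a b : ℕ), (∀ s ∈ Icc ((a:ℝ) / N) ((a + 1 : ℕ) / N : ℝ),
      pt z v w s ((b:ℝ) / N) ∈ U i ∧ pt z v w s ((b:ℝ) / N) ∈ U j) →
      H j a b - H i a b = f i j (P (a + 1) b) - f i j (P a b) := by
    intro i j a b hU
    have hcurve : ∀ s : ℝ, HasDerivAt (fun s : ℝ => pt z v w s ((b:ℝ) / N)) v s := by
      intro s
      have : HasDerivAt (fun s : ℝ => z + s • v) v s := by
        simpa using ((hasDerivAt_id s).smul_const v).const_add z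
      unfold pt
      exact this.add_const _
    have hcc : Continuous fun s : ℝ => pt z v w s ((b:ℝ) / N) := by unfold pt; fun_prop
    have hi : ∀ k, (∀ s ∈ Icc ((a:ℝ) / N) ((a + 1 : ℕ) / N : ℝ),
        pt z v w s ((b:ℝ) / N) ∈ U k) →
        IntervalIntegrable (fun s => α k (pt z v w s ((b:ℝ) / N)) v) volume
        ((a:ℝ) / N) ((a + 1 : ℕ) / N : ℝ) := by
      intro k hk
      apply ContinuousOn.intervalIntegrable
      rw [uIcc_of_le (hxle a)]
      exact ((h.sm k).continuousOn.comp hcc.continuousOn hk).clm_apply continuousOn_const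
    have hii := hi i (fun t ht => (hU t ht).1)
    have hjj := hi j (fun t ht => (hU t ht).2)
    have := intervalIntegral.integral_eq_sub_of_hasDerivAt
      (f := fun s => f i j (pt z v w s ((b:ℝ) / N)))
      (f' := fun s => α j (pt z v w s ((b:ℝ) / N)) v - α i (pt z v w s ((b:ℝ) / N)) v)
      (a := (a:ℝ) / N) (b := ((a + 1 : ℕ) / N : ℝ))
      (fun t ht => by
        rw [uIcc_of_le (hxle a)] at ht
        have := (h.df i j _ (hU t ht).1 (hU t ht).2).comp_hasDerivAt t (hcurve t)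
        rw [sub_apply] at this
        exact this)
      (hjj.sub hii)
    rw [intervalIntegral.integral_sub hjj hii] at this
    exact this
  -- corner memberships
  have hlo : ∀ a : ℕ, (a:ℝ) / N ∈ Icc ((a:ℝ) / N) ((a + 1 : ℕ) / N : ℝ) := fun a =>
    ⟨le_rfl, hxle a⟩
  have hhi : ∀ a : ℕ, ((a + 1 : ℕ):ℝ) / N ∈ Icc ((a:ℝ) / N) ((a + 1 : ℕ) / N : ℝ) := fun a =>
    ⟨hxle a, le_rfl⟩
  -- row sums
  have hrowV : ∀ b, b < N → ∑ a ∈ Finset.range N, (V (ix a b) (a + 1) b - V (ix a b) a b) =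
      - ∑ a ∈ Finset.range N, (f (ix a b) (ix (a + 1) b) (P (a + 1) (b + 1))
        - f (ix a b) (ix (a + 1) b) (P (a + 1) b)) := by
    intro b hb
    have hs : ∑ a ∈ Finset.range N, V (ix a b) a b =
        ∑ a ∈ Finset.range N, V (ix (a + 1) b) (a + 1) b := by
      refine sum_shift (g := fun a => V (ix a b) a b) ?_
      have e : ix N b = ix 0 b := by simp only [ix]; rw [hρN, hρ 0 hN0]
      show V (ix N b) N b = V (ix 0 b) 0 b
      rw [e]
      exact hVper _ _ fun t ht => hix 0 b (Nat.zero_le _) hb.le _ (hlo 0) t ht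
    rw [Finset.sum_sub_distrib, hs, ← Finset.sum_sub_distrib, ← Finset.sum_neg_distrib]
    refine Finset.sum_congr rfl fun a ha => ?_
    rw [Finset.mem_range] at ha
    rw [← hVd (ix a b) (ix (a + 1) b) (a + 1) b
      (fun t ht => ⟨hix a b ha.le hb.le _ (hhi a) t ht, hix (a + 1) b ha hb.le _ (hlo _) t ht⟩)]
    ring
  have hcolH : ∀ a, a < N → ∑ b ∈ Finset.range N, (H (ix a b) a b - H (ix a b) a (b + 1)) =
      ∑ b ∈ Finset.range N, (f (ix a b) (ix a (b + 1)) (P (a + 1) (b + 1))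
        - f (ix a b) (ix a (b + 1)) (P a (b + 1))) := by
    intro a ha
    have hs : ∑ b ∈ Finset.range N, H (ix a b) a b =
        ∑ b ∈ Finset.range N, H (ix a (b + 1)) a (b + 1) := by
      refine sum_shift (g := fun b => H (ix a b) a b) ?_
      have e : ix a N = ix a 0 := by simp only [ix]; rw [hρN, hρ 0 hN0]
      show H (ix a N) a N = H (ix a 0) a 0
      rw [e]
      exact hHper _ _ fun s hs => hix a 0 ha.le (Nat.zero_le _) s hs _ (hlo 0)
    rw [Finset.sum_sub_distrib, hs, ← Finset.sum_sub_distrib]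
    refine Finset.sum_congr rfl fun b hb => ?_
    rw [Finset.mem_range] at hb
    exact hHd (ix a b) (ix a (b + 1)) a (b + 1)
      (fun s hs => ⟨hix a b ha.le hb.le s hs _ (hhi b), hix a (b + 1) ha.le hb s hs _ (hlo _)⟩)
  -- periodicity of the `f`-terms
  have hP1 : ∀ b, P N b = P 0 b + v := by
    intro b; simp only [P, pt]; rw [div_self hNr.ne']; simp; abel
  have hP2 : ∀ a, P a N = P a 0 + w := by
    intro a; simp only [P, pt]; rw [div_self hNr.ne']; simp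
  have hshiftb : ∀ a, a < N → ∑ b ∈ Finset.range N, f (ix a b) (ix (a + 1) b) (P (a + 1) b) =
      ∑ b ∈ Finset.range N,
        f (ix a (b + 1)) (ix (a + 1) (b + 1)) (P (a + 1) (b + 1)) := by
    intro a ha
    refine sum_shift (g := fun b => f (ix a b) (ix (a + 1) b) (P (a + 1) b)) ?_
    have e : ∀ c, ix c N = ix c 0 := fun c => by simp only [ix]; rw [hρN, hρ 0 hN0]
    show f (ix a N) (ix (a + 1) N) (P (a + 1) N) = f (ix a 0) (ix (a + 1) 0) (P (a + 1) 0)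
    rw [e, e, hP2]
    exact h.perf _ _ w hw _ (hix a 0 ha.le (Nat.zero_le _) _ (hhi a) _ (hlo 0))
      (hix (a + 1) 0 ha (Nat.zero_le _) _ (hlo _) _ (hlo 0))
  have hshifta : ∀ b, b < N → ∑ a ∈ Finset.range N, f (ix a b) (ix a (b + 1)) (P a (b + 1)) =
      ∑ a ∈ Finset.range N,
        f (ix (a + 1) b) (ix (a + 1) (b + 1)) (P (a + 1) (b + 1)) := by
    intro b hb
    refine sum_shift (g := fun a => f (ix a b) (ix a (b + 1)) (P a (b + 1))) ?_
    have e : ∀ c, ix N c = ix 0 c := fun c => by simp only [ix]; rw [hρN, hρ 0 hN0]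
    show f (ix N b) (ix N (b + 1)) (P N (b + 1)) = f (ix 0 b) (ix 0 (b + 1)) (P 0 (b + 1))
    rw [e, e, hP1]
    exact h.perf _ _ v hv _ (hix 0 b (Nat.zero_le _) hb.le _ (hlo 0) _ (hhi b))
      (hix 0 (b + 1) (Nat.zero_le _) hb _ (hlo 0) _ (hlo _))
  -- total
  have htot : per ξ z v w = ∑ a ∈ Finset.range N, ∑ b ∈ Finset.range N,
      (- f (ix a b) (ix (a + 1) b) (P (a + 1) (b + 1))
        + f (ix a (b + 1)) (ix (a + 1) (b + 1)) (P (a + 1) (b + 1))
        + f (ix a b) (ix a (b + 1)) (P (a + 1) (b + 1))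
        - f (ix (a + 1) b) (ix (a + 1) (b + 1)) (P (a + 1) (b + 1))) := by
    have e1 : per ξ z v w = ∑ a ∈ Finset.range N, ∑ b ∈ Finset.range N,
        ((V (ix a b) (a + 1) b - V (ix a b) a b)
          + (H (ix a b) a b - H (ix a b) a (b + 1))) := by
      unfold per
      rw [grid (F := fun s t => ξ (pt z v w s t) v w) hF hN0]
      refine Finset.sum_congr rfl fun a ha => Finset.sum_congr rfl fun b hb => ?_
      rw [Finset.mem_range] at ha hb
      rw [hcellint a b ha hb]; ring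
    have e2 : ∑ a ∈ Finset.range N, ∑ b ∈ Finset.range N,
        (V (ix a b) (a + 1) b - V (ix a b) a b) =
        ∑ a ∈ Finset.range N, ∑ b ∈ Finset.range N,
        (- f (ix a b) (ix (a + 1) b) (P (a + 1) (b + 1))
          + f (ix a (b + 1)) (ix (a + 1) (b + 1)) (P (a + 1) (b + 1))) := by
      rw [Finset.sum_comm]
      calc _ = ∑ b ∈ Finset.range N, - ∑ a ∈ Finset.range N,
            (f (ix a b) (ix (a + 1) b) (P (a + 1) (b + 1))
              - f (ix a b) (ix (a + 1) b) (P (a + 1) b)) :=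
            Finset.sum_congr rfl fun b hb => hrowV b (Finset.mem_range.1 hb)
        _ = ∑ a ∈ Finset.range N, ∑ b ∈ Finset.range N,
            (- f (ix a b) (ix (a + 1) b) (P (a + 1) (b + 1))
              + f (ix a b) (ix (a + 1) b) (P (a + 1) b)) := by
            rw [Finset.sum_comm]
            refine Finset.sum_congr rfl fun b _ => ?_
            rw [← Finset.sum_neg_distrib]
            refine Finset.sum_congr rfl fun a _ => ?_
            ring
        _ = _ := by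
            refine Finset.sum_congr rfl fun a ha => ?_
            rw [Finset.sum_add_distrib, Finset.sum_add_distrib,
              hshiftb a (Finset.mem_range.1 ha)]
    have e3 : ∑ a ∈ Finset.range N, ∑ b ∈ Finset.range N,
        (H (ix a b) a b - H (ix a b) a (b + 1)) =
        ∑ a ∈ Finset.range N, ∑ b ∈ Finset.range N,
        (f (ix a b) (ix a (b + 1)) (P (a + 1) (b + 1))
          - f (ix (a + 1) b) (ix (a + 1) (b + 1)) (P (a + 1) (b + 1))) := by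
      calc _ = ∑ a ∈ Finset.range N, ∑ b ∈ Finset.range N,
            (f (ix a b) (ix a (b + 1)) (P (a + 1) (b + 1))
              - f (ix a b) (ix a (b + 1)) (P a (b + 1))) :=
            Finset.sum_congr rfl fun a ha => hcolH a (Finset.mem_range.1 ha)
        _ = _ := by
            rw [Finset.sum_comm]
            conv_rhs => rw [Finset.sum_comm]
            refine Finset.sum_congr rfl fun b hb => ?_
            rw [Finset.sum_sub_distrib, Finset.sum_sub_distrib,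
              hshifta b (Finset.mem_range.1 hb)]
    rw [e1]
    have e4 : ∑ a ∈ Finset.range N, ∑ b ∈ Finset.range N,
        ((V (ix a b) (a + 1) b - V (ix a b) a b)
          + (H (ix a b) a b - H (ix a b) a (b + 1))) =
        (∑ a ∈ Finset.range N, ∑ b ∈ Finset.range N,
          (V (ix a b) (a + 1) b - V (ix a b) a b)) +
        ∑ a ∈ Finset.range N, ∑ b ∈ Finset.range N,
          (H (ix a b) a b - H (ix a b) a (b + 1)) := by
      simp only [Finset.sum_add_distrib]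
    rw [e4, e2, e3]
    rw [← Finset.sum_add_distrib]
    refine Finset.sum_congr rfl fun a _ => ?_
    rw [← Finset.sum_add_distrib]
    refine Finset.sum_congr rfl fun b _ => ?_
    ring
  rw [htot]
  have hterm : ∀ a b, a < N → b < N → ∃ m : ℤ,
      (- f (ix a b) (ix (a + 1) b) (P (a + 1) (b + 1))
        + f (ix a (b + 1)) (ix (a + 1) (b + 1)) (P (a + 1) (b + 1))
        + f (ix a b) (ix a (b + 1)) (P (a + 1) (b + 1))
        - f (ix (a + 1) b) (ix (a + 1) (b + 1)) (P (a + 1) (b + 1))) = m := by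
    intro a b ha hb
    have mA : P (a + 1) (b + 1) ∈ U (ix a b) := hix a b ha.le hb.le _ (hhi a) _ (hhi b)
    have mB : P (a + 1) (b + 1) ∈ U (ix a (b + 1)) :=
      hix a (b + 1) ha.le hb _ (hhi a) _ (hlo _)
    have mC : P (a + 1) (b + 1) ∈ U (ix (a + 1) b) :=
      hix (a + 1) b ha hb.le _ (hlo _) _ (hhi b)
    have mD : P (a + 1) (b + 1) ∈ U (ix (a + 1) (b + 1)) :=
      hix (a + 1) (b + 1) ha hb _ (hlo _) _ (hlo _)
    obtain ⟨m1, h1⟩ := h.coc _ _ _ _ mA mB mD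
    obtain ⟨m2, h2⟩ := h.coc _ _ _ _ mA mC mD
    refine ⟨m1 - m2, ?_⟩
    push_cast
    rw [← h1, ← h2]; ring
  choose! m hm using hterm
  refine ⟨∑ a ∈ Finset.range N, ∑ b ∈ Finset.range N, m a b, ?_⟩
  push_cast
  exact Finset.sum_congr rfl fun a ha => Finset.sum_congr rfl fun b hb =>
    hm a b (Finset.mem_range.1 ha) (Finset.mem_range.1 hb)

end Crest.Agent.R281.Per_368
end

-- ▼ part R281/Per4_368

/-!
S-PER (task 1725), part 4: pull back of the closed real 2-forms `F2 C` (835) and of the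
Cech--de Rham data `CD w α` (234) along a map `Φ : S → X` which is smooth in the charts.

* `SmI C S Φ`    : `S` open, `Φ` continuous on `S`, smooth in the charts
* `pull w Φ`     : the pull back, `pull_eq` (any chart), `pull_smooth`, `pull_cl : Cl S (pull w Φ)`
* `Per.pull_add` : periodicity
* `intCl_pull`   : `IntF w` ==> `IntCl` data for `pull w Φ`
* `per_pull_int` : the periods of `pull w Φ` are integers
* `per_pull_ex`  : the periods of an exact form are zero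
* `per_pull_zero`: integral class + small mean ==> the period is zero
-/

set_option maxSynthPendingDepth 3

open MeasureTheory Set Filter
open scoped Topology ENNReal ContDiff

namespace Crest.Agent.R281.Per_368

open Crest.Agent.R281.HkR_835
open Crest.Agent.R281.Cdr_234 (sh CD IntF)
open Crest.Agent.R281.Ti_846 (F1 IsD Ex)

section loc

variable {V V' : Type*} [NormedAddCommGroup V] [NormedSpace ℝ V] [NormedAddCommGroup V']
  [NormedSpace ℝ V']

/-- the exterior derivative of a 1-form -/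
noncomputable def dd (θ : V → V →L[ℝ] ℝ) (z : V) : V →L[ℝ] V →L[ℝ] ℝ :=
  fderiv ℝ θ z - (fderiv ℝ θ z).flip

@[simp] theorem dd_apply (θ : V → V →L[ℝ] ℝ) (z u v : V) :
    dd θ z u v = fderiv ℝ θ z u v - fderiv ℝ θ z v u := rfl

/-- pull back of a 1-form -/
noncomputable def pb1 (θ : V → V →L[ℝ] ℝ) (φ : V' → V) (z : V') : V' →L[ℝ] ℝ :=
  (θ (φ z)).comp (fderiv ℝ φ z)

@[simp] theorem pb1_apply (θ : V → V →L[ℝ] ℝ) (φ : V' → V) (z u : V') :
    pb1 θ φ z u = θ (φ z) (fderiv ℝ φ z u) := rfl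

theorem contDiffOn_pb1 {θ : V → V →L[ℝ] ℝ} {φ : V' → V} {U : Set V} {U' : Set V'}
    (hU' : IsOpen U') (hθ : ContDiffOn ℝ ∞ θ U) (hφ : ContDiffOn ℝ ∞ φ U') (hm : MapsTo φ U' U) :
    ContDiffOn ℝ ∞ (pb1 θ φ) U' := by
  have h1 : ContDiffOn ℝ ∞ (fun z => θ (φ z)) U' := hθ.comp hφ hm
  have h2 : ContDiffOn ℝ ∞ (fderiv ℝ φ) U' := hφ.fderiv_of_isOpen hU' (by simp)
  exact h1.clm_comp h2

/-- the exterior derivative commutes with pull back -/
theorem dd_pb1 {θ : V → V →L[ℝ] ℝ} {φ : V' → V} {z : V'}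
    (hθ : DifferentiableAt ℝ θ (φ z)) (hφ : ContDiffAt ℝ ∞ φ z) (u v : V') :
    dd (pb1 θ φ) z u v = dd θ (φ z) (fderiv ℝ φ z u) (fderiv ℝ φ z v) :=
  Crest.Agent.R281.Cdr_234.d_pb1 hθ hφ u v

theorem fdP_app {w : V → V →L[ℝ] V →L[ℝ] ℝ} {z : V} (hw : DifferentiableAt ℝ w z) (v u a : V) :
    fderiv ℝ (fun y => w y v u) z a = fderiv ℝ w z a v u := by
  have h1 : HasFDerivAt w (fderiv ℝ w z) z := hw.hasFDerivAt
  have h4 : HasFDerivAt (fun y => w y v) _ z := h1.clm_apply (hasFDerivAt_const v z)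
  have h5 := (h4.clm_apply (hasFDerivAt_const u z)).fderiv
  rw [h5]
  simp

/-- `d d = 0` -/
theorem dd_closed [FiniteDimensional ℝ V] {θ : V → V →L[ℝ] ℝ} {z : V}
    (hθ : ContDiffAt ℝ ∞ θ z) (a b c : V) :
    fderiv ℝ (dd θ) z a b c + fderiv ℝ (dd θ) z b c a + fderiv ℝ (dd θ) z c a b = 0 := by
  have hd2 : DifferentiableAt ℝ (fderiv ℝ θ) z :=
    (hθ.fderiv_right (m := ∞) (by simp)).differentiableAt (by simp)
  have hs : ∀ p q, fderiv ℝ (fderiv ℝ θ) z p q = fderiv ℝ (fderiv ℝ θ) z q p := fun p q =>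
    (hθ.isSymmSndFDerivAt (by
      rw [minSmoothness_of_isRCLikeNormedField]; exact WithTop.coe_le_coe.2 le_top)) p q
  have happ : ∀ q r : V, HasFDerivAt (fun y => fderiv ℝ θ y q r)
      (fderiv ℝ (fun y => fderiv ℝ θ y q r) z) z := fun q r =>
    ((hd2.clm_apply (differentiableAt_const q)).clm_apply
      (differentiableAt_const r)).hasFDerivAt
  have hdd : DifferentiableAt ℝ (dd θ) z := by
    have h1 : ContDiffAt ℝ 1 (dd θ) z := by
      have h2 : ContDiffAt ℝ 1 (fderiv ℝ θ) z :=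
        (hθ.fderiv_right (m := ∞) (by simp)).of_le (by exact_mod_cast le_top)
      have h3 : dd θ = fun y => fderiv ℝ θ y -
          (ContinuousLinearMap.flipₗᵢ ℝ V V ℝ) (fderiv ℝ θ y) := rfl
      rw [h3]
      have h4 : ContDiffAt ℝ 1 (fun y => (ContinuousLinearMap.flipₗᵢ ℝ V V ℝ)
          (fderiv ℝ θ y)) z :=
        ((ContinuousLinearMap.flipₗᵢ ℝ V V ℝ).contDiff.contDiffAt).comp z h2
      exact h2.sub h4
    exact h1.differentiableAt (by norm_num)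
  have key : ∀ p q r, fderiv ℝ (dd θ) z p q r =
      fderiv ℝ (fderiv ℝ θ) z p q r - fderiv ℝ (fderiv ℝ θ) z p r q := by
    intro p q r
    rw [← fdP_app hdd q r p, ← fdP_app hd2 q r p, ← fdP_app hd2 r q p]
    have h1 : (fun y => dd θ y q r) = fun y => fderiv ℝ θ y q r - fderiv ℝ θ y r q := rfl
    rw [h1, ((happ q r).fun_sub (happ r q)).fderiv]
    rfl
  rw [key, key, key, hs a b, hs b c, hs c a]
  ring

end loc

variable {V X : Type} [NormedAddCommGroup V] [NormedSpace ℝ V] [TopologicalSpace X]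
variable {E : Type*} [NormedAddCommGroup E] [NormedSpace ℝ E]

/-- `Φ` is a map from the open set `S` to `X`, smooth in the charts -/
structure SmI (C : RCh V X) (S : Set E) (Φ : E → X) : Prop where
  op : IsOpen S
  cont : ContinuousOn Φ S
  sm : ∀ i, ContDiffOn ℝ ∞ (fun ζ => C.e i (Φ ζ)) (S ∩ Φ ⁻¹' (C.e i).source)

/-- a chart at `x` -/
noncomputable def ci (C : RCh V X) (x : X) : C.ι := (C.cover x).choose

lemma ci_mem (C : RCh V X) (x : X) : x ∈ (C.e (ci C x)).source := (C.cover x).choose_spec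

/-- pull back of a 2-tensor -/
noncomputable def pl (b : V → Bil V) (φ : E → V) (ζ : E) : E →L[ℝ] E →L[ℝ] ℝ :=
  (b (φ ζ)).bilinearComp (fderiv ℝ φ ζ) (fderiv ℝ φ ζ)

@[simp] lemma pl_apply (b : V → Bil V) (φ : E → V) (ζ u v : E) :
    pl b φ ζ u v = b (φ ζ) (fderiv ℝ φ ζ u) (fderiv ℝ φ ζ v) := rfl

/-- pull back of a closed 2-form -/
noncomputable def pull {C : RCh V X} (w : F2 C) (Φ : E → X) (ζ : E) : E →L[ℝ] E →L[ℝ] ℝ :=
  pl (w.w (ci C (Φ ζ))) (fun y => C.e (ci C (Φ ζ)) (Φ y)) ζ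

/-- pull back of a family of local 1-forms -/
noncomputable def pull1 (C : RCh V X) (θ : C.ι → V → V →L[ℝ] ℝ) (Φ : E → X) (ζ : E) :
    E →L[ℝ] ℝ :=
  pb1 (θ (ci C (Φ ζ))) (fun y => C.e (ci C (Φ ζ)) (Φ y)) ζ

namespace SmI

variable {C : RCh V X} {S : Set E} {Φ : E → X}

lemma isOpen_pre (h : SmI C S Φ) {U : Set X} (hU : IsOpen U) : IsOpen (S ∩ Φ ⁻¹' U) :=
  h.cont.isOpen_inter_preimage h.op hU

lemma smAt (h : SmI C S Φ) {i : C.ι} {ζ : E} (hζ : ζ ∈ S) (hi : Φ ζ ∈ (C.e i).source) :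
    ContDiffAt ℝ ∞ (fun ζ => C.e i (Φ ζ)) ζ :=
  (h.sm i).contDiffAt ((h.isOpen_pre (C.e i).open_source).mem_nhds ⟨hζ, hi⟩)

lemma diffAt (h : SmI C S Φ) {i : C.ι} {ζ : E} (hζ : ζ ∈ S) (hi : Φ ζ ∈ (C.e i).source) :
    DifferentiableAt ℝ (fun ζ => C.e i (Φ ζ)) ζ :=
  (h.smAt hζ hi).differentiableAt (by simp)

lemma mem_ov {i j : C.ι} {x : X} (hi : x ∈ (C.e i).source)
    (hj : x ∈ (C.e j).source) : C.e i x ∈ C.ov i j := by
  refine ⟨(C.e i).map_source hi, ?_⟩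
  rw [(C.e i).left_inv hi]; exact hj

lemma t_e {i j : C.ι} {x : X} (hi : x ∈ (C.e i).source) : C.t i j (C.e i x) = C.e j x := by
  show C.e j ((C.e i).symm (C.e i x)) = _
  rw [(C.e i).left_inv hi]

/-- change of charts for the differential -/
lemma fderiv_change (h : SmI C S Φ) {i j : C.ι} {ζ : E} (hζ : ζ ∈ S)
    (hi : Φ ζ ∈ (C.e i).source) (hj : Φ ζ ∈ (C.e j).source) :
    fderiv ℝ (fun y => C.e j (Φ y)) ζ =
      (fderiv ℝ (C.t i j) (C.e i (Φ ζ))).comp (fderiv ℝ (fun y => C.e i (Φ y)) ζ) := by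
  have h1 : (fun y => C.e j (Φ y)) =ᶠ[𝓝 ζ] fun y => C.t i j (C.e i (Φ y)) := by
    filter_upwards [(h.isOpen_pre (C.e i).open_source).mem_nhds ⟨hζ, hi⟩] with y hy
    exact (t_e hy.2).symm
  rw [h1.fderiv_eq]
  have h2 : HasFDerivAt (C.t i j) _ (C.e i (Φ ζ)) :=
    (RCh.t_diff (mem_ov hi hj)).hasFDerivAt
  have h3 := HasFDerivAt.comp (g := C.t i j) (f := fun y => C.e i (Φ y)) ζ h2
    (h.diffAt hζ hi).hasFDerivAt
  exact h3.fderiv

/-- the pull back may be computed in any chart -/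
theorem pull_eq (h : SmI C S Φ) (w : F2 C) {i : C.ι} {ζ : E} (hζ : ζ ∈ S)
    (hi : Φ ζ ∈ (C.e i).source) :
    pull w Φ ζ = pl (w.w i) (fun y => C.e i (Φ y)) ζ := by
  refine ContinuousLinearMap.ext fun a => ContinuousLinearMap.ext fun b => ?_
  have hj := ci_mem C (Φ ζ)
  show w.w (ci C (Φ ζ)) (C.e (ci C (Φ ζ)) (Φ ζ))
      (fderiv ℝ (fun y => C.e (ci C (Φ ζ)) (Φ y)) ζ a)
      (fderiv ℝ (fun y => C.e (ci C (Φ ζ)) (Φ y)) ζ b) =
    w.w i (C.e i (Φ ζ)) (fderiv ℝ (fun y => C.e i (Φ y)) ζ a)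
      (fderiv ℝ (fun y => C.e i (Φ y)) ζ b)
  rw [h.fderiv_change hζ hi hj, w.tr i (ci C (Φ ζ)) _ (mem_ov hi hj), t_e hi]
  rfl

theorem pull1_eq (h : SmI C S Φ) {θ : C.ι → V → V →L[ℝ] ℝ} {U : Set X}
    (hθ : ∀ i j, ∀ z ∈ C.ov i j, (C.e i).symm z ∈ U → ∀ u,
      θ i z u = θ j (C.t i j z) (fderiv ℝ (C.t i j) z u)) {i : C.ι} {ζ : E} (hζ : ζ ∈ S)
    (hU : Φ ζ ∈ U) (hi : Φ ζ ∈ (C.e i).source) :
    pull1 C θ Φ ζ = pb1 (θ i) (fun y => C.e i (Φ y)) ζ := by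
  refine ContinuousLinearMap.ext fun a => ?_
  have hj := ci_mem C (Φ ζ)
  show θ (ci C (Φ ζ)) (C.e (ci C (Φ ζ)) (Φ ζ))
      (fderiv ℝ (fun y => C.e (ci C (Φ ζ)) (Φ y)) ζ a) =
    θ i (C.e i (Φ ζ)) (fderiv ℝ (fun y => C.e i (Φ y)) ζ a)
  rw [h.fderiv_change hζ hi hj, hθ i (ci C (Φ ζ)) _ (mem_ov hi hj)
    (by rw [(C.e i).left_inv hi]; exact hU), t_e hi]
  rfl

theorem pull_eventually (h : SmI C S Φ) (w : F2 C) {i : C.ι} {ζ : E} (hζ : ζ ∈ S)
    (hi : Φ ζ ∈ (C.e i).source) :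
    pull w Φ =ᶠ[𝓝 ζ] pl (w.w i) (fun y => C.e i (Φ y)) := by
  filter_upwards [(h.isOpen_pre (C.e i).open_source).mem_nhds ⟨hζ, hi⟩] with y hy
  exact h.pull_eq w hy.1 hy.2

/-- smoothness of the pull back -/
theorem pull_smooth [FiniteDimensional ℝ E] (h : SmI C S Φ) (w : F2 C) :
    ContDiffOn ℝ ∞ (pull w Φ) S := by
  intro ζ hζ
  have hi := ci_mem C (Φ ζ)
  set i := ci C (Φ ζ) with hidef
  have hO := h.isOpen_pre (C.e i).open_source
  have h0 : ContDiffOn ℝ ∞ (pl (w.w i) (fun y => C.e i (Φ y)))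
      (S ∩ Φ ⁻¹' (C.e i).source) := by
    rw [contDiffOn_clm_apply]
    intro u
    rw [contDiffOn_clm_apply]
    intro v
    have h1 : ContDiffOn ℝ ∞ (fun y => w.w i (C.e i (Φ y))) (S ∩ Φ ⁻¹' (C.e i).source) :=
      (w.sm i).comp (h.sm i) (fun y hy => (C.e i).map_source hy.2)
    have h2 : ContDiffOn ℝ ∞ (fun y => fderiv ℝ (fun y => C.e i (Φ y)) y)
        (S ∩ Φ ⁻¹' (C.e i).source) := (h.sm i).fderiv_of_isOpen hO (by simp)
    exact (h1.clm_apply (h2.clm_apply contDiffOn_const)).clm_apply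
      (h2.clm_apply contDiffOn_const)
  have h1 : ContDiffAt ℝ ∞ (pl (w.w i) (fun y => C.e i (Φ y))) ζ :=
    h0.contDiffAt (hO.mem_nhds ⟨hζ, hi⟩)
  exact (h1.congr_of_eventuallyEq (h.pull_eventually w hζ hi)).contDiffWithinAt

/-- `Φ^* w` is a closed 2-form on `S` -/
theorem pull_cl [FiniteDimensional ℝ E] [FiniteDimensional ℝ V] (h : SmI C S Φ) (w : F2 C) :
    Cl S (pull w Φ) where
  sm := (h.pull_smooth w).of_le (by exact_mod_cast le_top)
  alt := by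
    intro ζ hζ a b
    have hi := ci_mem C (Φ ζ)
    rw [h.pull_eq w hζ hi, pl_apply, pl_apply]
    exact w.alt _ _ ((C.e _).map_source hi) _ _
  closed := by
    intro ζ hζ a b c
    have hi := ci_mem C (Φ ζ)
    set i := ci C (Φ ζ) with hidef
    have hz : C.e i (Φ ζ) ∈ (C.e i).target := (C.e i).map_source hi
    obtain ⟨ε, hε, hb⟩ := Metric.isOpen_iff.1 (C.e i).open_target _ hz
    obtain ⟨θ, hθ, hθd⟩ := Poi_234.poincare2 (E := V) Metric.isOpen_ball (convex_ball _ _)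
      ((w.sm i).mono hb)
      (fun z hz v => by have := w.alt i z (hb hz) v v; linarith)
      (fun z hz u v x => w.closed i z (hb hz) u v x)
    have hφ := h.smAt hζ hi
    have hOm : (S ∩ Φ ⁻¹' (C.e i).source) ∩ (fun y => C.e i (Φ y)) ⁻¹'
        (Metric.ball (C.e i (Φ ζ)) ε) ∈ 𝓝 ζ := by
      refine inter_mem ((h.isOpen_pre (C.e i).open_source).mem_nhds ⟨hζ, hi⟩) ?_
      exact hφ.continuousAt (Metric.ball_mem_nhds _ hε)
    have hev : pull w Φ =ᶠ[𝓝 ζ] dd (pb1 θ (fun y => C.e i (Φ y))) := by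
      filter_upwards [hOm] with y hy
      rw [h.pull_eq w hy.1.1 hy.1.2]
      refine ContinuousLinearMap.ext fun u => ContinuousLinearMap.ext fun v => ?_
      have hyd : DifferentiableAt ℝ θ (C.e i (Φ y)) :=
        (hθ.contDiffAt (Metric.isOpen_ball.mem_nhds hy.2)).differentiableAt (by simp)
      rw [dd_pb1 (φ := fun y => C.e i (Φ y)) hyd (h.smAt hy.1.1 hy.1.2), dd_apply, hθd _ hy.2,
        pl_apply]
    rw [hev.fderiv_eq]
    have hsm : ContDiffAt ℝ ∞ (pb1 θ (fun y => C.e i (Φ y))) ζ := by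
      have h1 : ContDiffAt ℝ ∞ (fun y => θ (C.e i (Φ y))) ζ :=
        ContDiffAt.comp (g := θ) ζ (hθ.contDiffAt (Metric.ball_mem_nhds _ hε)) hφ
      have h2 : ContDiffAt ℝ ∞ (fderiv ℝ (fun y => C.e i (Φ y))) ζ :=
        hφ.fderiv_right (by simp)
      exact h1.clm_comp h2
    exact dd_closed hsm a b c

/-- periodicity of the pull back -/
theorem pull_add (h : SmI C S Φ) (w : F2 C) {l : E}
    (hl : ∀ ζ ∈ S, ζ + l ∈ S ∧ Φ (ζ + l) = Φ ζ) {ζ : E} (hζ : ζ ∈ S) :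
    pull w Φ (ζ + l) = pull w Φ ζ := by
  have hi := ci_mem C (Φ ζ)
  have hi' : Φ (ζ + l) ∈ (C.e (ci C (Φ ζ))).source := by rw [(hl ζ hζ).2]; exact hi
  rw [h.pull_eq w hζ hi, h.pull_eq w (hl ζ hζ).1 hi']
  have e1 : fderiv ℝ (fun y => C.e (ci C (Φ ζ)) (Φ y)) (ζ + l) =
      fderiv ℝ (fun y => C.e (ci C (Φ ζ)) (Φ y)) ζ := by
    have e2 := fderiv_comp_add_right (f := fun y => C.e (ci C (Φ ζ)) (Φ y)) (x := ζ) (𝕜 := ℝ) l
    rw [← e2]
    refine Filter.EventuallyEq.fderiv_eq ?_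
    filter_upwards [h.op.mem_nhds hζ] with y hy
    rw [(hl y hy).2]
  refine ContinuousLinearMap.ext fun a => ContinuousLinearMap.ext fun b => ?_
  rw [pl_apply, pl_apply, e1, (hl ζ hζ).2]

theorem pull1_add (h : SmI C S Φ) {θ : C.ι → V → V →L[ℝ] ℝ} {U : Set X}
    (hθ : ∀ i j, ∀ z ∈ C.ov i j, (C.e i).symm z ∈ U → ∀ u,
      θ i z u = θ j (C.t i j z) (fderiv ℝ (C.t i j) z u)) {l : E}
    (hl : ∀ ζ ∈ S, ζ + l ∈ S ∧ Φ (ζ + l) = Φ ζ) {ζ : E} (hζ : ζ ∈ S) (hU : Φ ζ ∈ U) :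
    pull1 C θ Φ (ζ + l) = pull1 C θ Φ ζ := by
  have hi := ci_mem C (Φ ζ)
  have hi' : Φ (ζ + l) ∈ (C.e (ci C (Φ ζ))).source := by rw [(hl ζ hζ).2]; exact hi
  rw [h.pull1_eq hθ hζ hU hi, h.pull1_eq hθ (hl ζ hζ).1 (by rw [(hl ζ hζ).2]; exact hU) hi']
  have e1 : fderiv ℝ (fun y => C.e (ci C (Φ ζ)) (Φ y)) (ζ + l) =
      fderiv ℝ (fun y => C.e (ci C (Φ ζ)) (Φ y)) ζ := by
    have e2 := fderiv_comp_add_right (f := fun y => C.e (ci C (Φ ζ)) (Φ y)) (x := ζ) (𝕜 := ℝ) l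
    rw [← e2]
    refine Filter.EventuallyEq.fderiv_eq ?_
    filter_upwards [h.op.mem_nhds hζ] with y hy
    rw [(hl y hy).2]
  refine ContinuousLinearMap.ext fun a => ?_
  rw [pb1_apply, pb1_apply, e1, (hl ζ hζ).2]

/-- local smoothness of the pull back of a 1-form -/
theorem pull1_smooth (h : SmI C S Φ) {θ : C.ι → V → V →L[ℝ] ℝ} {U : Set X} (hU : IsOpen U)
    (hθs : ∀ i, ContDiffOn ℝ ∞ (θ i) (sh C i U))
    (hθ : ∀ i j, ∀ z ∈ C.ov i j, (C.e i).symm z ∈ U → ∀ u,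
      θ i z u = θ j (C.t i j z) (fderiv ℝ (C.t i j) z u)) :
    ContDiffOn ℝ ∞ (pull1 C θ Φ) (S ∩ Φ ⁻¹' U) := by
  rintro ζ ⟨hζ, hζU⟩
  have hi := ci_mem C (Φ ζ)
  set i := ci C (Φ ζ) with hidef
  have hO := h.isOpen_pre ((C.e i).open_source.inter hU)
  have h1 : ContDiffOn ℝ ∞ (pb1 (θ i) (fun y => C.e i (Φ y)))
      (S ∩ Φ ⁻¹' ((C.e i).source ∩ U)) := by
    refine contDiffOn_pb1 hO (hθs i) ((h.sm i).mono fun y hy => ⟨hy.1, hy.2.1⟩) ?_
    intro y hy
    refine ⟨(C.e i).map_source hy.2.1, ?_⟩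
    show (C.e i).symm (C.e i (Φ y)) ∈ U
    rw [(C.e i).left_inv hy.2.1]; exact hy.2.2
  have h2 : ContDiffAt ℝ ∞ (pb1 (θ i) (fun y => C.e i (Φ y))) ζ :=
    h1.contDiffAt (hO.mem_nhds ⟨hζ, hi, hζU⟩)
  refine (h2.congr_of_eventuallyEq ?_).contDiffWithinAt
  filter_upwards [hO.mem_nhds ⟨hζ, hi, hζU⟩] with y hy
  exact h.pull1_eq hθ hy.1 hy.2.2 hy.2.1

/-- the exterior derivative of the pull back of a local primitive -/
theorem pull1_d (h : SmI C S Φ) (w : F2 C) {θ : C.ι → V → V →L[ℝ] ℝ} {U : Set X}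
    (hU : IsOpen U) (hθs : ∀ i, ContDiffOn ℝ ∞ (θ i) (sh C i U))
    (hθ : ∀ i j, ∀ z ∈ C.ov i j, (C.e i).symm z ∈ U → ∀ u,
      θ i z u = θ j (C.t i j z) (fderiv ℝ (C.t i j) z u))
    (hd : ∀ i, ∀ z ∈ sh C i U, ∀ u v,
      fderiv ℝ (θ i) z u v - fderiv ℝ (θ i) z v u = w.w i z u v) {ζ : E} (hζ : ζ ∈ S)
    (hζU : Φ ζ ∈ U) (a b : E) :
    pull w Φ ζ a b = fderiv ℝ (pull1 C θ Φ) ζ a b - fderiv ℝ (pull1 C θ Φ) ζ b a := by
  have hi := ci_mem C (Φ ζ)
  set i := ci C (Φ ζ) with hidef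
  have hO := h.isOpen_pre ((C.e i).open_source.inter hU)
  have hev : pull1 C θ Φ =ᶠ[𝓝 ζ] pb1 (θ i) (fun y => C.e i (Φ y)) := by
    filter_upwards [hO.mem_nhds ⟨hζ, hi, hζU⟩] with y hy
    exact h.pull1_eq hθ hy.1 hy.2.2 hy.2.1
  have hmem : C.e i (Φ ζ) ∈ sh C i U := by
    refine ⟨(C.e i).map_source hi, ?_⟩
    rw [(C.e i).left_inv hi]; exact hζU
  have hshO : IsOpen (sh C i U) := (C.e i).isOpen_inter_preimage_symm hU
  have hθd : DifferentiableAt ℝ (θ i) (C.e i (Φ ζ)) :=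
    ((hθs i).contDiffAt (hshO.mem_nhds hmem)).differentiableAt (by simp)
  rw [hev.fderiv_eq, h.pull_eq w hζ hi, pl_apply, ← hd i _ hmem]
  exact (dd_pb1 (φ := fun y => C.e i (Φ y)) hθd (h.smAt hζ hi) a b).symm

/-- the differential of the pull back of a function -/
theorem pull0_d (h : SmI C S Φ) {θ θ' : C.ι → V → V →L[ℝ] ℝ} {U U' : Set X} {f : X → ℝ}
    (hθ : ∀ i j, ∀ z ∈ C.ov i j, (C.e i).symm z ∈ U → ∀ u,
      θ i z u = θ j (C.t i j z) (fderiv ℝ (C.t i j) z u))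
    (hθ' : ∀ i j, ∀ z ∈ C.ov i j, (C.e i).symm z ∈ U' → ∀ u,
      θ' i z u = θ' j (C.t i j z) (fderiv ℝ (C.t i j) z u))
    (hf : ∀ i, ∀ z ∈ sh C i (U ∩ U'),
      HasFDerivAt (fun y => f ((C.e i).symm y)) (θ' i z - θ i z) z) {ζ : E}
    (hζ : ζ ∈ S) (hζU : Φ ζ ∈ U) (hζU' : Φ ζ ∈ U') :
    HasFDerivAt (fun y => f (Φ y)) (pull1 C θ' Φ ζ - pull1 C θ Φ ζ) ζ := by
  have hi := ci_mem C (Φ ζ)
  set i := ci C (Φ ζ) with hidef
  have hmem : C.e i (Φ ζ) ∈ sh C i (U ∩ U') := by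
    refine ⟨(C.e i).map_source hi, ?_⟩
    rw [(C.e i).left_inv hi]; exact ⟨hζU, hζU'⟩
  have h1 := HasFDerivAt.comp (g := fun y => f ((C.e i).symm y))
    (f := fun y => C.e i (Φ y)) ζ (hf i _ hmem) (h.diffAt hζ hi).hasFDerivAt
  have h2 : (fun y => f (Φ y)) =ᶠ[𝓝 ζ] (fun y => f ((C.e i).symm y)) ∘ fun y => C.e i (Φ y) := by
    filter_upwards [(h.isOpen_pre (C.e i).open_source).mem_nhds ⟨hζ, hi⟩] with y hy
    show f (Φ y) = f ((C.e i).symm (C.e i (Φ y)))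
    rw [(C.e i).left_inv hy.2]
  have h3 := h1.congr_of_eventuallyEq h2
  rw [h.pull1_eq hθ hζ hζU hi, h.pull1_eq hθ' hζ hζU' hi]
  refine h3.congr_fderiv ?_
  refine ContinuousLinearMap.ext fun a => ?_
  simp [pb1]

end SmI

/-- integral classes pull back to `IntCl` data -/
theorem intCl_pull {C : RCh V X} {S Λ : Set E} {Φ : E → X} (h : SmI C S Φ)
    (hΛ : ∀ l ∈ Λ, ∀ ζ ∈ S, ζ + l ∈ S ∧ Φ (ζ + l) = Φ ζ) {w : F2 C} {I : Type}
    (D : CD w I)
    (hD : ∀ a b c, ∀ x ∈ D.U a ∩ D.U b ∩ D.U c,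
      D.f a b x + D.f b c x - D.f a c x ∈ (Int.castAddHom ℝ).range) :
    IntCl Λ S (pull w Φ) (fun a => S ∩ Φ ⁻¹' (D.U a)) (fun a => pull1 C (D.th a) Φ)
      (fun a b ζ => D.f a b (Φ ζ)) where
  op a := h.isOpen_pre (D.op a)
  cov x hx := by
    obtain ⟨a, ha⟩ := D.cov (Φ x)
    exact ⟨a, hx, ha⟩
  perU a l hl x hx := by
    refine ⟨(hΛ l hl x hx.1).1, ?_⟩
    show Φ (x + l) ∈ D.U a
    rw [(hΛ l hl x hx.1).2]; exact hx.2
  sm a := (h.pull1_smooth (D.op a) (D.th_sm a) (D.th_tr a)).of_le (by exact_mod_cast le_top)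
  pera a l hl x hx := h.pull1_add (D.th_tr a) (hΛ l hl) hx.1 hx.2
  d a x hx u v := h.pull1_d w (D.op a) (D.th_sm a) (D.th_tr a) (D.th_d a) hx.1 hx.2 u v
  df a b x hx hy := h.pull0_d (D.th_tr a) (D.th_tr b) (D.f_d a b) hx.1 hx.2 hy.2
  perf a b l hl x hx _ := by
    show D.f a b (Φ (x + l)) = D.f a b (Φ x)
    rw [(hΛ l hl x hx.1).2]
  coc a b c x hx hy hz := by
    obtain ⟨m, hm⟩ := hD a b c (Φ x) ⟨⟨hx.2, hy.2⟩, hz.2⟩
    exact ⟨m, hm.symm⟩

section final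

variable {C : RCh V X} {S Λ : Set E} {Φ : E → X}

/-- the periods of an integral class are integers -/
theorem per_pull_int [FiniteDimensional ℝ E] (h : SmI C S Φ)
    (hΛ : ∀ l ∈ Λ, ∀ ζ ∈ S, ζ + l ∈ S ∧ Φ (ζ + l) = Φ ζ) {w : F2 C} (hI : IntF w) {z v v' : E}
    (hv : v ∈ Λ) (hv' : v' ∈ Λ) (hin : ∀ s t : ℝ, pt z v v' s t ∈ S) :
    ∃ m : ℤ, per (pull w Φ) z v v' = m := by
  obtain ⟨I, D, hD⟩ := hI
  exact per_int (intCl_pull h hΛ D hD) (h.pull_smooth w).continuousOn hv hv' hin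

/-- the periods of an exact form are zero -/
theorem per_pull_ex (h : SmI C S Φ)
    (hΛ : ∀ l ∈ Λ, ∀ ζ ∈ S, ζ + l ∈ S ∧ Φ (ζ + l) = Φ ζ) {w : F2 C} (hE : Ex w) {z v v' : E}
    (hv : v ∈ Λ) (hv' : v' ∈ Λ) (hin : ∀ s t : ℝ, pt z v v' s t ∈ S) :
    per (pull w Φ) z v v' = 0 := by
  obtain ⟨β, hβ⟩ := hE
  have htr : ∀ i j, ∀ z ∈ C.ov i j, (C.e i).symm z ∈ (univ : Set X) → ∀ u,
      β.η i z u = β.η j (C.t i j z) (fderiv ℝ (C.t i j) z u) := fun i j z hz _ u =>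
    β.tr i j z hz u
  have hsm : ∀ i, ContDiffOn ℝ ∞ (β.η i) (sh C i univ) := fun i =>
    (β.sm i).mono fun z hz => hz.1
  have hS : S ∩ Φ ⁻¹' univ = S := by simp
  refine per_exact (U := S) h.op (η := pull1 C β.η Φ) ?_ (fun s _ t _ => hin s t)
    (fun x hx => ?_) (fun x hx _ => ?_) (fun x hx _ => ?_)
  · have := h.pull1_smooth isOpen_univ hsm htr
    rw [hS] at this
    exact this.of_le (by exact_mod_cast le_top)
  · exact h.pull1_d w isOpen_univ hsm htr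
      (fun i z hz u v => (hβ i z hz.1 u v).symm) hx (mem_univ _) v v'
  · exact h.pull1_add htr (hΛ v hv) hx (mem_univ _)
  · exact h.pull1_add htr (hΛ v' hv') hx (mem_univ _)

/-- **integral class + small mean ==> the period vanishes** -/
theorem per_pull_zero [FiniteDimensional ℝ E] [FiniteDimensional ℝ V]
    [MeasurableSpace E] [BorelSpace E] (μ : Measure E) [μ.IsAddHaarMeasure] (h : SmI C S Φ)
    (hconv : Convex ℝ S)
    (hΛ : ∀ l ∈ Λ, ∀ ζ ∈ S, (∀ s : ℝ, ζ + s • l ∈ S) ∧ Φ (ζ + l) = Φ ζ) {w : F2 C}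
    (hI : IntF w) {z : E} (hz : z ∈ S) {v v' : E} (hv : v ∈ Λ) (hv' : v' ∈ Λ) {R : ℝ}
    (hvv : ‖v‖ + ‖v'‖ ≤ R / 2) (hball : Metric.ball z (R / 2) ⊆ S)
    {g : E → ℝ≥0∞} (hm : Measurable g)
    (hg : ∀ x ∈ Metric.ball z R, x ∈ S → ENNReal.ofReal |pull w Φ x v v'| ≤ g x)
    (hsm : ∫⁻ x in Metric.ball z R, g x ∂μ < μ (Metric.ball z (R / 2))) {z' : E} (hz' : z' ∈ S) :
    per (pull w Φ) z' v v' = 0 := by
  have hΛ' : ∀ l ∈ Λ, ∀ ζ ∈ S, ζ + l ∈ S ∧ Φ (ζ + l) = Φ ζ := fun l hl ζ hζ =>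
    ⟨by have := (hΛ l hl ζ hζ).1 1; rwa [one_smul] at this, (hΛ l hl ζ hζ).2⟩
  have hin : ∀ x ∈ S, ∀ s t : ℝ, pt x v v' s t ∈ S := fun x hx s t =>
    (hΛ v' hv' _ ((hΛ v hv x hx).1 s)).1 t
  have hcl := h.pull_cl w
  have hvS : ∀ x ∈ S, ∀ s : ℝ, x + s • v ∈ S := fun x hx s => (hΛ v hv x hx).1 s
  have hvS' : ∀ x ∈ S, ∀ s : ℝ, x + s • v' ∈ S := fun x hx s => (hΛ v' hv' x hx).1 s
  have hp : ∀ x ∈ S, pull w Φ (x + v) = pull w Φ x := fun x hx => h.pull_add w (hΛ' v hv) hx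
  have hp' : ∀ x ∈ S, pull w Φ (x + v') = pull w Φ x := fun x hx =>
    h.pull_add w (hΛ' v' hv') hx
  rw [per_const h.op hconv hcl hvS hvS' hp hp' hz' hz]
  obtain ⟨m, hmz⟩ := per_pull_int h hΛ' hI hv hv' (hin z hz)
  have hlt := abs_per_lt μ h.op hconv hcl hvS hvS' hp hp' hz hvv hball hm hg hsm
  rw [hmz] at hlt ⊢
  have : |m| < 1 := by exact_mod_cast hlt
  rw [Int.abs_lt_one_iff] at this
  simp [this]

end final

end Crest.Agent.R281.Per_368
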