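import Mathlib
import Crest.Agent.R281.Per4_368
import Crest.Agent.R281.Mc5_673

-- ▼ part R281/OT1_763
section

/-!
# Row 281, OPEN-TORI (helper763), part 1: families of functions converging in `C^n`, locally
uniformly, along a filter (Mathlib only)

* `TT l O n f f1` : `f p → f1` together with all derivatives up to order `n`, locally uniformly on
  `O`, along `p → l`
* `TT.bil`        : closed under fixed bounded bilinear maps
* `TT.comp`       : closed under composition with a fixed smooth map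
* `TT.unif`       : uniform convergence on compact sets
-/

set_option autoImplicit false

open Set Filter Topology
open scoped ContDiff

namespace Crest.Agent.R281.OT_763

noncomputable section

variable {P : Type*}

/-- `f p → f1` with all derivatives up to order `n`, locally uniformly on `O` -/
def TT {E : Type} [NormedAddCommGroup E] [NormedSpace ℝ E] (l : Filter P) (O : Set E) :
    (n : ℕ) → {F : Type} → [NormedAddCommGroup F] → [NormedSpace ℝ F] → (P → E → F) → (E → F) →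
    Prop
  | 0, _, _, _, f, f1 => ∀ z ∈ O, Tendsto (fun q : P × E => f q.1 q.2) (l ×ˢ 𝓝 z) (𝓝 (f1 z))
  | n + 1, _, _, _, f, f1 =>
    (∀ z ∈ O, Tendsto (fun q : P × E => f q.1 q.2) (l ×ˢ 𝓝 z) (𝓝 (f1 z))) ∧
      TT l O n (fun p => fderiv ℝ (f p)) (fderiv ℝ f1)

namespace TT

variable {E : Type} [NormedAddCommGroup E] [NormedSpace ℝ E] {l : Filter P} {O : Set E}



theorem c0 {n : ℕ} {F : Type} [NormedAddCommGroup F] [NormedSpace ℝ F] {f : P → E → F} {f1 : E → F}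
    (h : TT l O n f f1) {z : E} (hz : z ∈ O) :
    Tendsto (fun q : P × E => f q.1 q.2) (l ×ˢ 𝓝 z) (𝓝 (f1 z)) := by
  cases n with
  | zero => exact h z hz
  | succ n => exact h.1 z hz

theorem fd {n : ℕ} {F : Type} [NormedAddCommGroup F] [NormedSpace ℝ F] {f : P → E → F} {f1 : E → F}
    (h : TT l O (n + 1) f f1) : TT l O n (fun p => fderiv ℝ (f p)) (fderiv ℝ f1) := h.2

theorem of_succ {n : ℕ} : ∀ {F : Type} [NormedAddCommGroup F] [NormedSpace ℝ F] {f : P → E → F}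
    {f1 : E → F}, TT l O (n + 1) f f1 → TT l O n f f1 := by
  induction n with
  | zero => intro F _ _ f f1 h; exact h.1
  | succ n ih => intro F _ _ f f1 h; exact ⟨h.1, ih h.2⟩

theorem mono {n : ℕ} : ∀ {F : Type} [NormedAddCommGroup F] [NormedSpace ℝ F] {f : P → E → F}
    {f1 : E → F} {O' : Set E}, TT l O n f f1 → O' ⊆ O → TT l O' n f f1 := by
  induction n with
  | zero => intro F _ _ f f1 O' h hO z hz; exact h z (hO hz)
  | succ n ih => intro F _ _ f f1 O' h hO; exact ⟨fun z hz => h.1 z (hO hz), ih h.2 hO⟩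

omit [NormedSpace ℝ E] in
/-- a property of small points of `O`, locally uniformly -/
theorem eventually_mem (hO : IsOpen O) {z : E} (hz : z ∈ O) : ∀ᶠ q in l ×ˢ 𝓝 z, q.2 ∈ O :=
  tendsto_snd.eventually (hO.mem_nhds hz)

theorem congr {n : ℕ} (hO : IsOpen O) : ∀ {F : Type} [NormedAddCommGroup F] [NormedSpace ℝ F]
    {f g : P → E → F} {f1 g1 : E → F}, TT l O n f f1 → (∀ᶠ p in l, EqOn (g p) (f p) O) →
    EqOn g1 f1 O → TT l O n g g1 := by
  have key : ∀ {F : Type} [NormedAddCommGroup F] [NormedSpace ℝ F]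
      {f g : P → E → F} {f1 g1 : E → F},
      (∀ z ∈ O, Tendsto (fun q : P × E => f q.1 q.2) (l ×ˢ 𝓝 z) (𝓝 (f1 z))) →
      (∀ᶠ p in l, EqOn (g p) (f p) O) → EqOn g1 f1 O →
      (∀ z ∈ O, Tendsto (fun q : P × E => g q.1 q.2) (l ×ˢ 𝓝 z) (𝓝 (g1 z))) := by
    intro F _ _ f g f1 g1 h hg hg1 z hz
    rw [hg1 hz]
    refine (h z hz).congr' ?_
    filter_upwards [tendsto_fst.eventually hg, eventually_mem hO hz] with q h1 h2
    exact (h1 h2).symm
  induction n with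
  | zero => intro F _ _ f g f1 g1 h hg hg1; exact key h hg hg1
  | succ n ih =>
    intro F _ _ f g f1 g1 h hg hg1
    refine ⟨key h.1 hg hg1, ih h.2 ?_ ?_⟩
    · filter_upwards [hg] with p hp z hz
      exact Filter.EventuallyEq.fderiv_eq (hp.eventuallyEq_of_mem (hO.mem_nhds hz))
    · intro z hz
      exact Filter.EventuallyEq.fderiv_eq (hg1.eventuallyEq_of_mem (hO.mem_nhds hz))

theorem const {n : ℕ} (hO : IsOpen O) : ∀ {F : Type} [NormedAddCommGroup F] [NormedSpace ℝ F]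
    {f1 : E → F}, ContDiffOn ℝ n f1 O → TT l O n (fun _ => f1) f1 := by
  have key : ∀ {F : Type} [NormedAddCommGroup F] [NormedSpace ℝ F] {f1 : E → F},
      ContinuousOn f1 O → ∀ z ∈ O, Tendsto (fun q : P × E => f1 q.2) (l ×ˢ 𝓝 z) (𝓝 (f1 z)) := by
    intro F _ _ f1 hf z hz
    exact ((hf z hz).continuousAt (hO.mem_nhds hz)).tendsto.comp tendsto_snd
  induction n with
  | zero => intro F _ _ f1 h; exact key h.continuousOn
  | succ n ih =>
    intro F _ _ f1 h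
    refine ⟨key h.continuousOn, ih ?_⟩
    exact h.fderiv_of_isOpen hO (by push_cast; exact le_rfl)

theorem add {n : ℕ} (hO : IsOpen O) : ∀ {F : Type} [NormedAddCommGroup F] [NormedSpace ℝ F]
    {f g : P → E → F} {f1 g1 : E → F},
    (∀ᶠ p in l, ContDiffOn ℝ n (f p) O) → (∀ᶠ p in l, ContDiffOn ℝ n (g p) O) →
    ContDiffOn ℝ n f1 O → ContDiffOn ℝ n g1 O → TT l O n f f1 → TT l O n g g1 →
    TT l O n (fun p z => f p z + g p z) (fun z => f1 z + g1 z) := by
  induction n with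
  | zero =>
    intro F _ _ f g f1 g1 _ _ _ _ h1 h2 z hz
    exact (h1 z hz).add (h2 z hz)
  | succ n ih =>
    intro F _ _ f g f1 g1 hf hg hf1 hg1 h1 h2
    refine ⟨fun z hz => (h1.1 z hz).add (h2.1 z hz), ?_⟩
    have hd : ∀ {f : E → F}, ContDiffOn ℝ (n + 1 : ℕ) f O → ContDiffOn ℝ n (fderiv ℝ f) O :=
      fun h => h.fderiv_of_isOpen hO (by push_cast; exact le_rfl)
    have hda : ∀ {f : E → F}, ContDiffOn ℝ (n + 1 : ℕ) f O → ∀ z ∈ O, DifferentiableAt ℝ f z :=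
      fun h z hz => (h.differentiableOn (by simp) z hz).differentiableAt (hO.mem_nhds hz)
    refine congr hO (ih (hf.mono fun p h => hd h) (hg.mono fun p h => hd h) (hd hf1) (hd hg1)
      h1.2 h2.2) ?_ ?_
    · filter_upwards [hf, hg] with p h3 h4 z hz
      exact fderiv_fun_add (hda h3 z hz) (hda h4 z hz)
    · intro z hz
      exact fderiv_fun_add (hda hf1 z hz) (hda hg1 z hz)

/-- closed under bounded bilinear maps -/
theorem bil {n : ℕ} (hO : IsOpen O) : ∀ {F G H : Type} [NormedAddCommGroup F] [NormedSpace ℝ F]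
    [NormedAddCommGroup G] [NormedSpace ℝ G] [NormedAddCommGroup H] [NormedSpace ℝ H]
    (B : F →L[ℝ] G →L[ℝ] H)
    {f : P → E → F} {g : P → E → G} {f1 : E → F} {g1 : E → G},
    (∀ᶠ p in l, ContDiffOn ℝ n (f p) O) → (∀ᶠ p in l, ContDiffOn ℝ n (g p) O) →
    ContDiffOn ℝ n f1 O → ContDiffOn ℝ n g1 O → TT l O n f f1 → TT l O n g g1 →
    TT l O n (fun p z => B (f p z) (g p z)) (fun z => B (f1 z) (g1 z)) := by
  have key : ∀ {F G H : Type} [NormedAddCommGroup F] [NormedSpace ℝ F]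
    [NormedAddCommGroup G] [NormedSpace ℝ G] [NormedAddCommGroup H] [NormedSpace ℝ H]
    (B : F →L[ℝ] G →L[ℝ] H)
    {f : P → E → F} {g : P → E → G} {f1 : E → F} {g1 : E → G},
    (∀ z ∈ O, Tendsto (fun q : P × E => f q.1 q.2) (l ×ˢ 𝓝 z) (𝓝 (f1 z))) →
    (∀ z ∈ O, Tendsto (fun q : P × E => g q.1 q.2) (l ×ˢ 𝓝 z) (𝓝 (g1 z))) →
    (∀ z ∈ O, Tendsto (fun q : P × E => B (f q.1 q.2) (g q.1 q.2)) (l ×ˢ 𝓝 z)
      (𝓝 (B (f1 z) (g1 z)))) := by
    intro F G H _ _ _ _ _ _ B f g f1 g1 h1 h2 z hz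
    have hc : Continuous fun q : F × G => B q.1 q.2 := by fun_prop
    exact (hc.tendsto (f1 z, g1 z)).comp ((h1 z hz).prodMk_nhds (h2 z hz))
  induction n with
  | zero => intro F G H _ _ _ _ _ _ B f g f1 g1 _ _ _ _ h1 h2; exact key B h1 h2
  | succ n ih =>
    intro F G H _ _ _ _ _ _ B f g f1 g1 hf hg hf1 hg1 h1 h2
    refine ⟨key B h1.1 h2.1, ?_⟩
    have hdF : ∀ {f : E → F}, ContDiffOn ℝ (n + 1 : ℕ) f O → ContDiffOn ℝ n (fderiv ℝ f) O :=
      fun h => h.fderiv_of_isOpen hO (by push_cast; exact le_rfl)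
    have hdG : ∀ {f : E → G}, ContDiffOn ℝ (n + 1 : ℕ) f O → ContDiffOn ℝ n (fderiv ℝ f) O :=
      fun h => h.fderiv_of_isOpen hO (by push_cast; exact le_rfl)
    have hdaF : ∀ {f : E → F}, ContDiffOn ℝ (n + 1 : ℕ) f O → ∀ z ∈ O, DifferentiableAt ℝ f z :=
      fun h z hz => (h.differentiableOn (by simp) z hz).differentiableAt (hO.mem_nhds hz)
    have hdaG : ∀ {f : E → G}, ContDiffOn ℝ (n + 1 : ℕ) f O → ∀ z ∈ O, DifferentiableAt ℝ f z :=
      fun h z hz => (h.differentiableOn (by simp) z hz).differentiableAt (hO.mem_nhds hz)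
    have hle : ((n : ℕ) : WithTop ℕ∞) ≤ ((n + 1 : ℕ) : WithTop ℕ∞) := by
      exact_mod_cast Nat.le_succ n
    have hl : ∀ {F : Type} [NormedAddCommGroup F] [NormedSpace ℝ F] {f : E → F},
        ContDiffOn ℝ (n + 1 : ℕ) f O → ContDiffOn ℝ n f O := fun h => h.of_le hle
    have e1 := ih (B.precompR E) (hf.mono fun p h => hl h) (hg.mono fun p h => hdG h) (hl hf1)
      (hdG hg1) (of_succ h1) h2.2
    have e2 := ih (B.precompL E) (hf.mono fun p h => hdF h) (hg.mono fun p h => hl h) (hdF hf1)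
      (hl hg1) h1.2 (of_succ h2)
    have hb : ∀ {F G H : Type} [NormedAddCommGroup F] [NormedSpace ℝ F]
        [NormedAddCommGroup G] [NormedSpace ℝ G] [NormedAddCommGroup H] [NormedSpace ℝ H]
        (B : F →L[ℝ] G →L[ℝ] H) {f : E → F} {g : E → G}, ContDiffOn ℝ n f O → ContDiffOn ℝ n g O →
        ContDiffOn ℝ n (fun z => B (f z) (g z)) O := by
      intro F G H _ _ _ _ _ _ B f g h1 h2
      exact B.isBoundedBilinearMap.contDiff.comp_contDiffOn (h1.prodMk h2)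
    have e3 := add hO (hf.and hg |>.mono fun p h => hb (B.precompR E) (hl h.1) (hdG h.2))
      (hf.and hg |>.mono fun p h => hb (B.precompL E) (hdF h.1) (hl h.2))
      (hb (B.precompR E) (hl hf1) (hdG hg1)) (hb (B.precompL E) (hdF hf1) (hl hg1)) e1 e2
    refine congr hO e3 ?_ ?_
    · filter_upwards [hf, hg] with p h3 h4 z hz
      exact (B.hasFDerivAt_of_bilinear (hdaF h3 z hz).hasFDerivAt
        (hdaG h4 z hz).hasFDerivAt).fderiv
    · intro z hz
      exact (B.hasFDerivAt_of_bilinear (hdaF hf1 z hz).hasFDerivAt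
        (hdaG hg1 z hz).hasFDerivAt).fderiv

/-- closed under composition with a fixed smooth map -/
theorem comp {n : ℕ} {E' : Type} [NormedAddCommGroup E'] [NormedSpace ℝ E'] {O' : Set E'}
    (hO : IsOpen O) (hO' : IsOpen O') {φ : E' → E} (hφ : ContDiffOn ℝ ∞ φ O')
    (hm : MapsTo φ O' O) : ∀ {F : Type} [NormedAddCommGroup F] [NormedSpace ℝ F]
    {f : P → E → F} {f1 : E → F},
    (∀ᶠ p in l, ContDiffOn ℝ n (f p) O) → ContDiffOn ℝ n f1 O → TT l O n f f1 →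
    TT l O' n (fun p z => f p (φ z)) (fun z => f1 (φ z)) := by
  have key : ∀ {F : Type} [NormedAddCommGroup F] [NormedSpace ℝ F]
      {f : P → E → F} {f1 : E → F},
      (∀ z ∈ O, Tendsto (fun q : P × E => f q.1 q.2) (l ×ˢ 𝓝 z) (𝓝 (f1 z))) →
      (∀ z ∈ O', Tendsto (fun q : P × E' => f q.1 (φ q.2)) (l ×ˢ 𝓝 z) (𝓝 (f1 (φ z)))) := by
    intro F _ _ f f1 h z hz
    have hc : ContinuousAt φ z := (hφ.continuousOn z hz).continuousAt (hO'.mem_nhds hz)
    exact (h (φ z) (hm hz)).comp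
      ((tendsto_fst).prodMk (hc.tendsto.comp tendsto_snd))
  induction n with
  | zero => intro F _ _ f f1 _ _ h; exact key h
  | succ n ih =>
    intro F _ _ f f1 hf hf1 h
    refine ⟨key h.1, ?_⟩
    have hd : ∀ {f : E → F}, ContDiffOn ℝ (n + 1 : ℕ) f O → ContDiffOn ℝ n (fderiv ℝ f) O :=
      fun h => h.fderiv_of_isOpen hO (by push_cast; exact le_rfl)
    have hda : ∀ {f : E → F}, ContDiffOn ℝ (n + 1 : ℕ) f O → ∀ z ∈ O, DifferentiableAt ℝ f z :=
      fun h z hz => (h.differentiableOn (by simp) z hz).differentiableAt (hO.mem_nhds hz)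
    have hφd : ∀ z ∈ O', DifferentiableAt ℝ φ z :=
      fun z hz => (hφ.differentiableOn (by simp) z hz).differentiableAt (hO'.mem_nhds hz)
    have hφn : ContDiffOn ℝ n φ O' := hφ.of_le (by exact_mod_cast le_top)
    have hφ' : ContDiffOn ℝ n (fderiv ℝ φ) O' :=
      hφ.fderiv_of_isOpen hO' (by exact_mod_cast le_top)
    have e1 := ih (hf.mono fun p h => hd h) (hd hf1) h.2
    have e2 : TT l O' n (fun _ : P => fderiv ℝ φ) (fderiv ℝ φ) := const hO' hφ'
    have e3 := bil hO' (ContinuousLinearMap.compL ℝ E' E F)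
      (hf.mono fun p h => (hd h).comp hφn hm)
      (Eventually.of_forall fun _ => hφ') ((hd hf1).comp hφn hm) hφ' e1 e2
    refine congr hO' e3 ?_ ?_
    · filter_upwards [hf] with p h3 z hz
      exact (HasFDerivAt.comp (g := f p) (f := φ) z (hda h3 _ (hm hz)).hasFDerivAt
        (hφd z hz).hasFDerivAt).fderiv
    · intro z hz
      exact (HasFDerivAt.comp (g := f1) (f := φ) z (hda hf1 _ (hm hz)).hasFDerivAt
        (hφd z hz).hasFDerivAt).fderiv

omit [NormedSpace ℝ E] in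
/-- uniform convergence on compact sets -/
theorem unif0 {F : Type} [NormedAddCommGroup F] [NormedSpace ℝ F] {f : P → E → F} {f1 : E → F}
    {K : Set E} (hK : IsCompact K)
    (h : ∀ z ∈ K, Tendsto (fun q : P × E => f q.1 q.2) (l ×ˢ 𝓝 z) (𝓝 (f1 z)))
    (h1 : ∀ z ∈ K, ContinuousAt f1 z) {d : ℝ} (hd : 0 < d) :
    ∀ᶠ p in l, ∀ z ∈ K, ‖f p z - f1 z‖ ≤ d := by
  have h2 : {q : P × E | ‖f q.1 q.2 - f1 q.2‖ ≤ d} ∈ l ×ˢ 𝓝ˢ K := by
    refine hK.mem_prod_nhdsSet_of_forall fun z hz => ?_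
    have h3 : Tendsto (fun q : P × E => f q.1 q.2 - f1 q.2) (l ×ˢ 𝓝 z) (𝓝 (f1 z - f1 z)) :=
      (h z hz).sub ((h1 z hz).tendsto.comp tendsto_snd)
    rw [sub_self] at h3
    have h4 := h3.norm
    rw [norm_zero] at h4
    exact h4.eventually (ge_mem_nhds hd)
  obtain ⟨s, hs, t, ht, hst⟩ := Filter.mem_prod_iff.1 h2
  filter_upwards [hs] with p hp z hz
  exact hst (Set.mk_mem_prod hp (subset_of_mem_nhdsSet ht hz))

end TT

end

end Crest.Agent.R281.OT_763
end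

-- ▼ part R281/OT2_763

/-!
# Row 281, OPEN-TORI (helper763), part 2: definitions, convergence of the pulled back forms

* `Sy x y I`      : `x (I u) w = - y u w`, `I² = -1`, `x` nondegenerate
* `TC2 l w w1`    : `w p → w1` in `C²`, locally uniformly in the charts, along `l`
* `Prd`           : product coordinates around a torus
* `tt_pull`       : `TC2 l w w1 → TT l S 2 (pull (w p) Psi) (pull w1 Psi)`
* `clF_pull`      : `ClF r (pull w Psi)`
* `exists_tube`   : an open periodic set containing the zero section contains a tube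
-/

set_option autoImplicit false
set_option maxSynthPendingDepth 3

open Set Filter Topology
open scoped ContDiff

namespace Crest.Agent.R281.OT_763

open Crest.Agent.R281.HkR_835 Crest.Agent.R281.Per_368
open Crest.Agent.R281.Mc673 (W Fo tube ClF kv mn isOpen_tube cube isCompact_cube exists_cube)
open Crest.Agent.R238.Sch (ee)

noncomputable section

theorem two_le_inf : (2 : WithTop ℕ∞) ≤ ((⊤ : ℕ∞) : WithTop ℕ∞) := by
  have h : ((2 : ℕ∞) : WithTop ℕ∞) ≤ ((⊤ : ℕ∞) : WithTop ℕ∞) := WithTop.coe_le_coe.2 le_top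
  exact h

theorem three_le_inf : (2 + 1 : WithTop ℕ∞) ≤ ((⊤ : ℕ∞) : WithTop ℕ∞) := by
  have h : ((2 + 1 : ℕ∞) : WithTop ℕ∞) ≤ ((⊤ : ℕ∞) : WithTop ℕ∞) := WithTop.coe_le_coe.2 le_top
  exact h

variable {P : Type*}
variable {V X : Type} [NormedAddCommGroup V] [NormedSpace ℝ V] [TopologicalSpace X]

/-- the Euclidean space of 673 -/
abbrev VN (N : ℕ) := Crest.Agent.R281.Mc673.V N

/-- holomorphic symplectic pair -/
structure Sy {C : RCh V X} (x y : F2 C) (I : C.ι → V → V →L[ℝ] V) : Prop where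
  sq : ∀ i, ∀ z ∈ (C.e i).target, ∀ u, I i z (I i z u) = -u
  rel : ∀ i, ∀ z ∈ (C.e i).target, ∀ u w, x.w i z (I i z u) w = - y.w i z u w
  nd : ∀ i, ∀ z ∈ (C.e i).target, ∀ u, (∀ w, x.w i z u w = 0) → u = 0

theorem sy_hkT {C : RCh V X} (H : HkT C) {k l m : Fin 3} (h : (k, l, m) = (0, 1, 2) ∨
    (k, l, m) = (1, 2, 0) ∨ (k, l, m) = (2, 0, 1)) : Sy (H.om l) (H.om m) (H.J k) where
  sq := H.J_sq k
  rel _ _ hz u w := (H.om_J h hz u w).1
  nd _ _ hz u hu := H.nondeg l hz u hu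

/-- convergence in `C²`, locally uniformly in the charts -/
def TC2 {C : RCh V X} (l : Filter P) (w : P → F2 C) (w1 : F2 C) : Prop :=
  ∀ i, TT l (C.e i).target 2 (fun p => (w p).w i) (w1.w i)

theorem tc2_iff {C : RCh V X} {l : Filter P} {w : P → F2 C} {w1 : F2 C} :
    TC2 l w w1 ↔ ∀ i, ∀ z ∈ (C.e i).target,
      Tendsto (fun q : P × V => (w q.1).w i q.2) (l ×ˢ 𝓝 z) (𝓝 (w1.w i z)) ∧
      Tendsto (fun q : P × V => fderiv ℝ ((w q.1).w i) q.2) (l ×ˢ 𝓝 z)
        (𝓝 (fderiv ℝ (w1.w i) z)) ∧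
      Tendsto (fun q : P × V => fderiv ℝ (fderiv ℝ ((w q.1).w i)) q.2) (l ×ˢ 𝓝 z)
        (𝓝 (fderiv ℝ (fderiv ℝ (w1.w i)) z)) := by
  refine forall_congr' fun i => ?_
  show (_ ∧ (_ ∧ _)) ↔ _
  constructor
  · rintro ⟨h0, h1, h2⟩ z hz
    exact ⟨h0 z hz, h1 z hz, h2 z hz⟩
  · intro h
    exact ⟨fun z hz => (h z hz).1, fun z hz => (h z hz).2.1, fun z hz => (h z hz).2.2⟩

theorem TC2.comp_tendsto {P' : Type*} {C : RCh V X} {l : Filter P} {l' : Filter P'} {w : P → F2 C}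
    {w1 : F2 C} (h : TC2 l w w1) {φ : P' → P} (hφ : Tendsto φ l' l) :
    TC2 l' (fun p => w (φ p)) w1 := by
  rw [tc2_iff] at h ⊢
  intro i z hz
  have h1 : Tendsto (fun q : P' × V => (φ q.1, q.2)) (l' ×ˢ 𝓝 z) (l ×ˢ 𝓝 z) :=
    (hφ.comp tendsto_fst).prodMk tendsto_snd
  exact ⟨(h i z hz).1.comp h1, (h i z hz).2.1.comp h1, (h i z hz).2.2.comp h1⟩

/-! ## convergence of the pull backs -/

section pull

variable {E : Type} [NormedAddCommGroup E] [NormedSpace ℝ E]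

theorem TT.of_local {l : Filter P} {O : Set E} {n : ℕ} : ∀ {F : Type} [NormedAddCommGroup F]
    [NormedSpace ℝ F] {f : P → E → F} {f1 : E → F},
    (∀ z ∈ O, ∃ U, z ∈ U ∧ TT l U n f f1) → TT l O n f f1 := by
  induction n with
  | zero =>
    intro F _ _ f f1 h z hz
    obtain ⟨U, hzU, hU⟩ := h z hz
    exact hU z hzU
  | succ n ih =>
    intro F _ _ f f1 h
    refine ⟨fun z hz => ?_, ih fun z hz => ?_⟩
    · obtain ⟨U, hzU, hU⟩ := h z hz
      exact hU.1 z hzU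
    · obtain ⟨U, hzU, hU⟩ := h z hz
      exact ⟨U, hzU, hU.2⟩

/-- `pl` through fixed bilinear maps -/
def B1 (V E : Type) [NormedAddCommGroup V] [NormedSpace ℝ V] [NormedAddCommGroup E]
    [NormedSpace ℝ E] : Bil V →L[ℝ] (E →L[ℝ] V) →L[ℝ] (E →L[ℝ] V →L[ℝ] ℝ) :=
  ContinuousLinearMap.compL ℝ E V (V →L[ℝ] ℝ)

def B2 (V E : Type) [NormedAddCommGroup V] [NormedSpace ℝ V] [NormedAddCommGroup E]
    [NormedSpace ℝ E] : (E →L[ℝ] V) →L[ℝ] (E →L[ℝ] V →L[ℝ] ℝ) →L[ℝ] (E →L[ℝ] E →L[ℝ] ℝ) :=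
  (ContinuousLinearMap.compL ℝ E (V →L[ℝ] ℝ) (E →L[ℝ] ℝ)).comp
    (ContinuousLinearMap.compL ℝ E V ℝ).flip

theorem pl_eq (b : V → Bil V) (φ : E → V) (ζ : E) :
    pl b φ ζ = B2 V E (fderiv ℝ φ ζ) (B1 V E (b (φ ζ)) (fderiv ℝ φ ζ)) := by
  ext u w
  rfl

theorem tt_pl {l : Filter P} {O : Set E} {T : Set V} (hO : IsOpen O) (hT : IsOpen T)
    {b : P → V → Bil V} {b1 : V → Bil V} (hb : ∀ᶠ p in l, ContDiffOn ℝ 2 (b p) T)
    (hb1 : ContDiffOn ℝ 2 b1 T) (h : TT l T 2 b b1) {φ : E → V} (hφ : ContDiffOn ℝ ∞ φ O)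
    (hm : MapsTo φ O T) : TT l O 2 (fun p => pl (b p) φ) (pl b1 φ) := by
  have hφ2 : ContDiffOn ℝ 2 φ O := hφ.of_le two_le_inf
  have hD : ContDiffOn ℝ 2 (fderiv ℝ φ) O := hφ.fderiv_of_isOpen hO three_le_inf
  have h1 : TT l O 2 (fun p z => b p (φ z)) (fun z => b1 (φ z)) := TT.comp hT hO hφ hm hb hb1 h
  have h2 : TT l O 2 (fun _ : P => fderiv ℝ φ) (fderiv ℝ φ) := TT.const hO hD
  have hbφ : ∀ᶠ p in l, ContDiffOn ℝ 2 (fun z => b p (φ z)) O :=
    hb.mono fun p h => h.comp hφ2 hm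
  have hb1φ : ContDiffOn ℝ 2 (fun z => b1 (φ z)) O := hb1.comp hφ2 hm
  have h3 := TT.bil hO (B1 V E) hbφ (Eventually.of_forall fun _ => hD) hb1φ hD h1 h2
  have hbb : ∀ {f : E → Bil V}, ContDiffOn ℝ 2 f O →
      ContDiffOn ℝ 2 (fun z => B1 V E (f z) (fderiv ℝ φ z)) O := fun hf =>
    (B1 V E).isBoundedBilinearMap.contDiff.comp_contDiffOn (hf.prodMk hD)
  have h4 := TT.bil hO (B2 V E) (Eventually.of_forall fun _ => hD) (hbφ.mono fun p h => hbb h) hD
    (hbb hb1φ) h2 h3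
  have e1 : (fun p z => B2 V E (fderiv ℝ φ z) (B1 V E (b p (φ z)) (fderiv ℝ φ z))) =
      fun p => pl (b p) φ := by
    funext p z; exact (pl_eq _ _ _).symm
  have e2 : (fun z => B2 V E (fderiv ℝ φ z) (B1 V E (b1 (φ z)) (fderiv ℝ φ z))) = pl b1 φ := by
    funext z; exact (pl_eq _ _ _).symm
  rwa [e1, e2] at h4

/-- convergence of the pull backs -/
theorem tt_pull {C : RCh V X} {S : Set E} {Psi : E → X} (hS : SmI C S Psi) {l : Filter P}
    {w : P → F2 C} {w1 : F2 C} (h : TC2 l w w1) :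
    TT l S 2 (fun p => pull (w p) Psi) (pull w1 Psi) := by
  refine TT.of_local fun ζ hζ => ?_
  obtain ⟨i, hi⟩ := C.cover (Psi ζ)
  have hO := hS.isOpen_pre (C.e i).open_source
  refine ⟨S ∩ Psi ⁻¹' (C.e i).source, ⟨hζ, hi⟩, ?_⟩
  have h1 := tt_pl (l := l) hO (C.e i).open_target
    (b := fun p => (w p).w i) (b1 := w1.w i)
    (Eventually.of_forall fun p => ((w p).sm i).of_le two_le_inf)
    ((w1.sm i).of_le two_le_inf) (h i) (hS.sm i)
    (fun z hz => (C.e i).map_source hz.2)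
  refine TT.congr hO h1 (Eventually.of_forall fun p z hz => ?_) fun z hz => ?_
  · exact hS.pull_eq (w p) hz.1 hz.2
  · exact hS.pull_eq w1 hz.1 hz.2

end pull

/-! ## product coordinates -/

/-- the vector `(kv k, 0)` -/
def kz {N : ℕ} (k : Fin N → ℤ) : W N := (kv k, 0)

/-- product coordinates around a torus on which the forms are in normal form -/
structure Prd (C : RCh V X) (N : ℕ) (r : ℝ) (Psi : W N → X) (x1 y1 : F2 C)
    (Cc : VN N →L[ℝ] VN N) : Prop where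
  r0 : 0 < r
  sm : SmI C (tube N r) Psi
  per : ∀ (k : Fin N → ℤ), ∀ ζ ∈ tube N r, Psi (ζ.1 + kv k, ζ.2) = Psi ζ
  sq : ∀ v, Cc (Cc v) = -v
  xtt : ∀ θ u w, pull x1 Psi (θ, 0) (u, 0) (w, 0) = 0
  ytt : ∀ θ u w, pull y1 Psi (θ, 0) (u, 0) (w, 0) = 0
  xvt : ∀ θ v w, pull x1 Psi (θ, 0) (0, v) (w, 0) = inner ℝ v w
  yvt : ∀ θ v w, pull y1 Psi (θ, 0) (0, v) (w, 0) = inner ℝ (Cc v) w

section prd

variable {C : RCh V X} {N : ℕ} {r : ℝ} {Psi : W N → X}

theorem clF_pull [FiniteDimensional ℝ V] (hS : SmI C (tube N r) Psi)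
    (hper : ∀ (k : Fin N → ℤ), ∀ ζ ∈ tube N r, Psi (ζ.1 + kv k, ζ.2) = Psi ζ) (w : F2 C) :
    ClF r (pull w Psi) where
  sm := hS.pull_smooth w
  alt p hp u v := (hS.pull_cl w).alt p hp u v
  cl p hp u v z := (hS.pull_cl w).closed p hp u v z
  per k p hp := by
    have h : ∀ ζ ∈ tube N r, ζ + kz k ∈ tube N r ∧ Psi (ζ + kz k) = Psi ζ := by
      intro ζ hζ
      have e : ζ + kz k = (ζ.1 + kv k, ζ.2) := by
        ext1 <;> simp [kz]
      rw [e]
      exact ⟨hζ, hper k ζ hζ⟩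
    have := hS.pull_add w h hp
    have e : p + kz k = (p.1 + kv k, p.2) := by
      ext1 <;> simp [kz]
    rwa [e] at this

/-- an open periodic set which contains the zero section contains a tube -/
theorem exists_tube {U : Set (W N)} (hU : IsOpen U)
    (hper : ∀ (k : Fin N → ℤ) θ v, (θ, v) ∈ U → (θ + kv k, v) ∈ U)
    (h0 : ∀ θ, (θ, (0 : VN N)) ∈ U) : ∃ s, 0 < s ∧ tube N s ⊆ U := by
  have hc : cube N ×ˢ {(0 : VN N)} ⊆ U := by
    rintro ⟨θ, v⟩ ⟨-, hv⟩
    rw [mem_singleton_iff] at hv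
    simp only at hv
    subst hv
    exact h0 θ
  obtain ⟨A, B, hA, hB, hAc, hBc, hAB⟩ := generalized_tube_lemma isCompact_cube
    (isCompact_singleton (x := (0 : VN N))) hU hc
  obtain ⟨s, hs, hsB⟩ := Metric.isOpen_iff.1 hB 0 (hBc (mem_singleton _))
  refine ⟨s, hs, ?_⟩
  rintro ⟨θ, v⟩ hv
  obtain ⟨k, y, hy, rfl⟩ := exists_cube θ
  refine hper k y v (hAB (mk_mem_prod (hAc hy) (hsB ?_)))
  rw [mem_ball_zero_iff]
  exact hv

end prd

end

end Crest.Agent.R281.OT_763
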