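import Crest.Agent.R281.OT3_763
import Crest.Agent.R281.Mc12_673
import Crest.Agent.R281.Mc16_673
import Crest.Agent.R281.PL2_713
import Crest.Agent.R281.OpT3_330

-- ▼ part R281/OT4_763
section

/-!
# Row 281, OPEN-TORI (helper763), part 4: the hypotheses of LAGT-G for the nearby forms

* `near_ev` : `∀ᶠ p, NearG r K δ (pull (w p) Psi) Cw`
* `ev_torus`: for every `ε > 0`, `∀ᶠ p` there is a torus `a` with `‖a‖, ‖Da‖ ≤ ε`
* `exists_sel` : selection of tori which tend to `0` in `C¹`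
-/

set_option autoImplicit false
set_option maxSynthPendingDepth 3

open Set Filter Topology
open scoped ContDiff

namespace Crest.Agent.R281.OT_763

open Crest.Agent.R281.HkR_835 Crest.Agent.R281.Per_368
open Crest.Agent.R281.Mc673 (W Fo tube ClF kv mn isOpen_tube cube isCompact_cube exists_cube)
open Crest.Agent.R238.Sch (ee)

noncomputable section

/-- periodic -/
abbrev PerN {N : ℕ} {F : Type*} (f : VN N → F) : Prop := Crest.Agent.R281.Mc673.Per f

variable {P : Type*}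
variable {V X : Type} [NormedAddCommGroup V] [NormedSpace ℝ V] [TopologicalSpace X]
variable {C : RCh V X} {N : ℕ} {r : ℝ} {Psi : W N → X}

/-! ## periodicity of derivatives -/

/-- periodic on the tube -/
def PerT (N : ℕ) {F : Type*} (r : ℝ) (f : W N → F) : Prop :=
  ∀ (k : Fin N → ℤ), ∀ p ∈ tube N r, f (p.1 + kv k, p.2) = f p

theorem add_kz (p : W N) (k : Fin N → ℤ) : p + kz k = (p.1 + kv k, p.2) := by
  ext1 <;> simp [kz]

theorem PerT.fderiv {F : Type*} [NormedAddCommGroup F] [NormedSpace ℝ F] {f : W N → F}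
    (h : PerT N r f) : PerT N r (fderiv ℝ f) := by
  intro k p hp
  rw [← add_kz]
  have e1 := fderiv_comp_add_right (f := f) (x := p) (𝕜 := ℝ) (kz k)
  rw [← e1]
  refine Filter.EventuallyEq.fderiv_eq ?_
  filter_upwards [(isOpen_tube r).mem_nhds hp] with q hq
  rw [add_kz]
  exact h k q hq

/-- the compact fundamental set of a closed tube -/
def fd (N : ℕ) (s : ℝ) : Set (W N) := cube N ×ˢ Metric.closedBall (0 : VN N) s

theorem isCompact_fd (s : ℝ) : IsCompact (fd N s) :=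
  isCompact_cube.prod (isCompact_closedBall _ _)

theorem fd_sub {s : ℝ} (hs : s < r) : fd N s ⊆ tube N r := by
  rintro ⟨θ, v⟩ ⟨-, hv⟩
  rw [mem_closedBall_zero_iff] at hv
  exact lt_of_le_of_lt hv hs

theorem PerT.forall_of_fd {F : Type*} {f : W N → F} (h : PerT N r f) {s : ℝ} (hs : s < r)
    {Q : F → Prop} (hQ : ∀ p ∈ fd N s, Q (f p)) : ∀ p : W N, ‖p.2‖ ≤ s → Q (f p) := by
  rintro ⟨θ, v⟩ hv
  obtain ⟨k, y, hy, rfl⟩ := exists_cube θ
  have h1 : ((y, v) : W N) ∈ fd N s := ⟨hy, mem_closedBall_zero_iff.2 hv⟩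
  have h2 := h k (y, v) (fd_sub hs h1)
  simp only at h2
  rw [h2]
  exact hQ _ h1

theorem PerT.norm_le {F : Type*} [NormedAddCommGroup F] {f : W N → F} (h : PerT N r f) {s : ℝ}
    (hs : s < r) {B : ℝ} (hQ : ∀ p ∈ fd N s, ‖f p‖ ≤ B) : ∀ p : W N, ‖p.2‖ ≤ s → ‖f p‖ ≤ B :=
  h.forall_of_fd (Q := fun x => ‖x‖ ≤ B) hs hQ

/-! ## the forms near the model -/

section near

variable {x1 y1 : F2 C} {Cc : VN N →L[ℝ] VN N}

theorem norm_pr1 (u : VN N) : ‖((u, 0) : W N)‖ = ‖u‖ := by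
  rw [Prod.norm_def]; simp

theorem norm_pr2 (u : VN N) : ‖((0, u) : W N)‖ = ‖u‖ := by
  rw [Prod.norm_def]; simp

theorem bil_le {L : W N →L[ℝ] W N →L[ℝ] ℝ} {d : ℝ} (hL : ‖L‖ ≤ d) {u v : W N} :
    |L u v| ≤ d * ‖u‖ * ‖v‖ := by
  have h1 := L.le_opNorm₂ u v
  rw [Real.norm_eq_abs] at h1
  exact h1.trans (by gcongr)

theorem tri_le {L : W N →L[ℝ] W N →L[ℝ] W N →L[ℝ] ℝ} {d : ℝ} (hL : ‖L‖ ≤ d) {t u v : W N} :
    |L t u v| ≤ d * ‖t‖ * ‖u‖ * ‖v‖ := by
  have h1 : ‖L t‖ ≤ d * ‖t‖ := (L.le_opNorm t).trans (by gcongr)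
  exact bil_le h1

/-- the derivative of a constant along the zero section -/
theorem dconst {w : Fo N} {θ : VN N} (hd : DifferentiableAt ℝ w (θ, 0)) (t : VN N) (u v : W N)
    (hc : ∀ θ', w (θ', 0) u v = w (θ, 0) u v) : fderiv ℝ w (θ, 0) (t, 0) u v = 0 := by
  have h1 : HasFDerivAt (fun q : W N => w q u v)
      (((ContinuousLinearMap.apply ℝ ℝ v).comp
        (ContinuousLinearMap.apply ℝ (W N →L[ℝ] ℝ) u)).comp (fderiv ℝ w (θ, 0))) (θ, 0) :=
    ((ContinuousLinearMap.apply ℝ ℝ v).comp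
        (ContinuousLinearMap.apply ℝ (W N →L[ℝ] ℝ) u)).hasFDerivAt.comp _ hd.hasFDerivAt
  have h2 : HasFDerivAt (fun θ' : VN N => ((θ', (0 : VN N)) : W N))
      (ContinuousLinearMap.inl ℝ (VN N) (VN N)) θ :=
    (ContinuousLinearMap.id ℝ (VN N)).hasFDerivAt.prodMk (hasFDerivAt_const (0 : VN N) θ)
  have h3 := HasFDerivAt.comp (g := fun q : W N => w q u v) θ h1 h2
  have h4 : HasFDerivAt (fun θ' : VN N => w (θ', 0) u v) (0 : VN N →L[ℝ] ℝ) θ := by
    have : (fun θ' : VN N => w (θ', 0) u v) = fun _ => w (θ, 0) u v := funext hc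
    rw [this]
    exact hasFDerivAt_const _ _
  have h5 := congrArg (fun L : VN N →L[ℝ] ℝ => L t) (h3.unique h4)
  exact h5

theorem bd_ev {F : Type} [NormedAddCommGroup F] [NormedSpace ℝ F] {l : Filter P}
    {f : P → W N → F} {f1 : W N → F}
    (hT : ∀ z ∈ tube N r, Tendsto (fun q : P × W N => f q.1 q.2) (l ×ˢ 𝓝 z) (𝓝 (f1 z)))
    (hc : ContinuousOn f1 (tube N r)) (hP : ∀ p, PerT N r (f p)) (hP1 : PerT N r f1) {s : ℝ}
    (hs : s < r) : (∃ B, ∀ z : W N, ‖z.2‖ ≤ s → ‖f1 z‖ ≤ B) ∧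
      ∀ d, 0 < d → ∀ᶠ p in l, ∀ z : W N, ‖z.2‖ ≤ s → ‖f p z - f1 z‖ ≤ d := by
  constructor
  · obtain ⟨B, hB⟩ := (isCompact_fd s).exists_bound_of_continuousOn (hc.mono (fd_sub hs))
    exact ⟨B, hP1.norm_le hs hB⟩
  · intro d hd
    have h1 := TT.unif0 (l := l) (f := f) (f1 := f1) (isCompact_fd s)
      (fun z hz => hT z (fd_sub hs hz))
      (fun z hz => (hc z (fd_sub hs hz)).continuousAt ((isOpen_tube r).mem_nhds (fd_sub hs hz))) hd
    filter_upwards [h1] with p hp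
    have h2 : PerT N r (fun z => f p z - f1 z) := fun k z hz => by
      simp only [hP p k z hz, hP1 k z hz]
    exact h2.norm_le hs hp

theorem bd_ev' {F : Type} [NormedAddCommGroup F] [NormedSpace ℝ F] {l : Filter P}
    {f : P → W N → F} {f1 : W N → F}
    (hT : ∀ z ∈ tube N r, Tendsto (fun q : P × W N => f q.1 q.2) (l ×ˢ 𝓝 z) (𝓝 (f1 z)))
    (hc : ContinuousOn f1 (tube N r)) (hP : ∀ p, PerT N r (f p)) (hP1 : PerT N r f1) {s : ℝ}
    (hs : s < r) : ∃ K0, ∀ K, K0 ≤ K → ∀ᶠ p in l, ∀ z : W N, ‖z.2‖ ≤ s → ‖f p z‖ ≤ K := by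
  obtain ⟨⟨B, hB⟩, h2⟩ := bd_ev hT hc hP hP1 hs
  refine ⟨B + 1, fun K hK => ?_⟩
  filter_upwards [h2 1 one_pos] with p hp z hz
  have h3 := norm_add_le (f p z - f1 z) (f1 z)
  rw [sub_add_cancel] at h3
  linarith [hp z hz, hB z hz]

set_option maxHeartbeats 1000000 in
theorem near_ev [FiniteDimensional ℝ V] (h : Prd C N r Psi x1 y1 Cc) {s : ℝ}
    (hs0 : 0 < s) (hs : s < r) {l : Filter P} {wp : P → F2 C} {w1 : F2 C} (hw : TC2 l wp w1)
    {Cw : VN N →L[ℝ] VN N} (h1 : ∀ θ u v, pull w1 Psi (θ, 0) (u, 0) (v, 0) = 0)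
    (h2 : ∀ θ v u, pull w1 Psi (θ, 0) (0, v) (u, 0) = inner ℝ (Cw v) u)
    (hper : ∀ᶠ p in l, ∀ j k, mn (fun θ => pull (wp p) Psi (θ, 0) (ee j, 0) (ee k, 0)) = 0) :
    ∃ K0, ∀ K, K0 ≤ K → ∀ δ, 0 < δ → ∀ᶠ p in l, Mc673.NearG s K δ (pull (wp p) Psi) Cw := by
  have hT := tt_pull h.sm hw
  have hF1 : ClF r (pull w1 Psi) := clF_pull h.sm h.per w1
  have hPp : ∀ p, PerT N r (pull (wp p) Psi) := fun p => (clF_pull h.sm h.per (wp p)).per
  have hP1 : PerT N r (pull w1 Psi) := hF1.per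
  have hsm1 : ContDiffOn ℝ ∞ (pull w1 Psi) (tube N r) := hF1.sm
  have hsm2 : ContDiffOn ℝ ∞ (fderiv ℝ (pull w1 Psi)) (tube N r) :=
    hsm1.fderiv_of_isOpen (isOpen_tube r) (by simp)
  have hsm3 : ContDiffOn ℝ ∞ (fderiv ℝ (fderiv ℝ (pull w1 Psi))) (tube N r) :=
    hsm2.fderiv_of_isOpen (isOpen_tube r) (by simp)
  obtain ⟨K1, hK1⟩ := bd_ev' (fun z hz => TT.c0 hT hz) hsm1.continuousOn hPp hP1 hs
  obtain ⟨K2, hK2⟩ := bd_ev' (fun z hz => TT.c0 hT.fd hz) hsm2.continuousOn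
    (fun p => (hPp p).fderiv) hP1.fderiv hs
  obtain ⟨K3, hK3⟩ := bd_ev' (fun z hz => TT.c0 hT.fd.fd hz) hsm3.continuousOn
    (fun p => (hPp p).fderiv.fderiv) hP1.fderiv.fderiv hs
  refine ⟨max K1 (max K2 K3), fun K hK δ hδ => ?_⟩
  have e0 := (bd_ev (fun z hz => TT.c0 hT hz) hsm1.continuousOn hPp hP1 hs).2 δ hδ
  have e1 := (bd_ev (fun z hz => TT.c0 hT.fd hz) hsm2.continuousOn
    (fun p => (hPp p).fderiv) hP1.fderiv hs).2 δ hδ
  filter_upwards [e0, e1, hK1 K ((le_max_left _ _).trans hK),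
    hK2 K (((le_max_left _ _).trans (le_max_right _ _)).trans hK),
    hK3 K (((le_max_right _ _).trans (le_max_right _ _)).trans hK), hper] with p q0 q1 b0 b1 b2 p3
  have z0 : ∀ θ : VN N, ‖((θ, (0 : VN N)) : W N).2‖ ≤ s := fun θ => by
    show ‖(0 : VN N)‖ ≤ s
    rw [norm_zero]; exact hs0.le
  have zt : ∀ θ : VN N, (θ, (0 : VN N)) ∈ tube N r := fun θ => h.zero_mem θ
  have hda : ∀ θ : VN N, DifferentiableAt ℝ (pull w1 Psi) (θ, 0) := fun θ => hF1.da (zt θ)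
  -- the `hv` components of the limit
  have hv1 : ∀ θ u v, pull w1 Psi (θ, 0) (u, 0) (0, v) = - inner ℝ (Cw v) u := by
    intro θ u v
    rw [hF1.alt _ (zt θ), h2]
  refine
  { cf := clF_pull (h.mono hs0 hs.le).sm (h.mono hs0 hs.le).per (wp p)
    d1 := fun z hz => b1 z (le_of_lt hz)
    d2 := fun z hz => b2 z (le_of_lt hz)
    hh := fun θ u v => ?_
    hv := fun θ u v => ?_
    vv := fun θ u v => ?_
    dhh := fun θ t u v => ?_
    dhv := fun θ t u v => ?_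
    per0 := p3 }
  · have h3 := bil_le (q0 _ (z0 θ)) (u := (u, 0)) (v := (v, 0))
    rwa [sub_apply, sub_apply, h1, sub_zero, norm_pr1, norm_pr1] at h3
  · have h3 := bil_le (q0 _ (z0 θ)) (u := (u, 0)) (v := (0, v))
    rwa [sub_apply, sub_apply, hv1, sub_neg_eq_add, norm_pr1, norm_pr2] at h3
  · have h3 := bil_le (b0 _ (z0 θ)) (u := (0, u)) (v := (0, v))
    rwa [norm_pr2, norm_pr2] at h3
  · have h3 := tri_le (q1 _ (z0 θ)) (t := (t, 0)) (u := (u, 0)) (v := (v, 0))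
    rwa [sub_apply, sub_apply, sub_apply, dconst (hda θ) t (u, 0) (v, 0)
      (fun θ' => by rw [h1, h1]), sub_zero, norm_pr1, norm_pr1, norm_pr1] at h3
  · have h3 := tri_le (q1 _ (z0 θ)) (t := (t, 0)) (u := (u, 0)) (v := (0, v))
    rwa [sub_apply, sub_apply, sub_apply, dconst (hda θ) t (u, 0) (0, v)
      (fun θ' => by rw [hv1, hv1]), sub_zero, norm_pr1, norm_pr1, norm_pr2] at h3

end near

end

end Crest.Agent.R281.OT_763
end

-- ▼ part R281/OT5_763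
section

/-!
# Row 281, OPEN-TORI (helper763), part 5: existence and selection of the nearby tori

* `Tor`       : a torus for the pair `x, y` as a graph of `a`
* `ev_torus`  : for every `ε > 0`, `∀ᶠ p` there is a torus `a` with `‖a‖, ‖Da‖ ≤ ε`
* `exists_sel`: a selection `a p` with `‖a p‖, ‖D (a p)‖ → 0` uniformly
-/

set_option autoImplicit false
set_option maxSynthPendingDepth 3

open Set Filter Topology
open scoped ContDiff

namespace Crest.Agent.R281.OT_763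

open Crest.Agent.R281.HkR_835 Crest.Agent.R281.Per_368
open Crest.Agent.R281.Mc673 (W Fo tube ClF kv mn isOpen_tube cube isCompact_cube exists_cube)
open Crest.Agent.R238.Sch (ee)

noncomputable section

variable {P : Type*}
variable {V X : Type} [NormedAddCommGroup V] [NormedSpace ℝ V] [TopologicalSpace X]
variable {C : RCh V X} {N : ℕ} {r : ℝ} {Psi : W N → X}

/-- the graph of `a` is a torus on which `x` and `y` vanish -/
structure Tor (x y : Fo N) (a : VN N → VN N) : Prop where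
  c1 : ContDiff ℝ 1 a
  per : PerN a
  x0 : ∀ θ u v, x (θ, a θ) (gr (fderiv ℝ a θ) u) (gr (fderiv ℝ a θ) v) = 0
  y0 : ∀ θ u v, y (θ, a θ) (gr (fderiv ℝ a θ) u) (gr (fderiv ℝ a θ) v) = 0

/-- `C¹` bound -/
def Bd (a : VN N → VN N) (ε : ℝ) : Prop := ∀ θ, ‖a θ‖ ≤ ε ∧ ‖fderiv ℝ a θ‖ ≤ ε

theorem Bd.mono {a : VN N → VN N} {ε ε' : ℝ} (h : Bd a ε) (hle : ε ≤ ε') : Bd a ε' :=
  fun θ => ⟨(h θ).1.trans hle, (h θ).2.trans hle⟩


theorem lim_zero {w : Fo N} (hw : ∀ θ, ContinuousAt w (θ, 0)) {a : ℕ → VN N → VN N}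
    (hb : ∀ n : ℕ, Bd (a n) (1 / ((n : ℝ) + 1)))
    (h0 : ∀ n θ u v, w (θ, a n θ) (gr (fderiv ℝ (a n) θ) u) (gr (fderiv ℝ (a n) θ) v) = 0)
    (θ u v : VN N) : w (θ, 0) (gr 0 u) (gr 0 v) = 0 := by
  have t0 : Tendsto (fun n : ℕ => 1 / ((n : ℝ) + 1)) atTop (𝓝 0) :=
    tendsto_one_div_add_atTop_nhds_zero_nat
  have t1 : Tendsto (fun n => a n θ) atTop (𝓝 0) :=
    squeeze_zero_norm (fun n => ((hb n) θ).1) t0
  have t2 : Tendsto (fun n => fderiv ℝ (a n) θ) atTop (𝓝 0) :=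
    squeeze_zero_norm (fun n => ((hb n) θ).2) t0
  have t3 : Tendsto (fun n => w (θ, a n θ)) atTop (𝓝 (w (θ, 0))) :=
    (hw θ).tendsto.comp (tendsto_const_nhds.prodMk_nhds t1)
  have hc : Continuous fun q : (W N →L[ℝ] W N →L[ℝ] ℝ) × (VN N →L[ℝ] VN N) =>
      q.1 (gr q.2 u) (gr q.2 v) := by
    have e : ∀ u : VN N, Continuous fun q : (W N →L[ℝ] W N →L[ℝ] ℝ) × (VN N →L[ℝ] VN N) =>
        gr q.2 u := fun u =>
      continuous_const.prodMk (continuous_snd.clm_apply continuous_const)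
    exact (continuous_fst.clm_apply (e u)).clm_apply (e v)
  have t4 := (hc.tendsto (w (θ, 0), 0)).comp (t3.prodMk_nhds t2)
  refine tendsto_nhds_unique t4 ?_
  have : (fun n => w (θ, a n θ) (gr (fderiv ℝ (a n) θ) u) (gr (fderiv ℝ (a n) θ) v)) =
      fun _ => 0 := by
    funext n; exact h0 n θ u v
  show Tendsto (fun n => w (θ, a n θ) (gr (fderiv ℝ (a n) θ) u) (gr (fderiv ℝ (a n) θ) v))
    atTop (𝓝 0)
  rw [this]
  exact tendsto_const_nhds

theorem fderiv_zero_fun : fderiv ℝ (fun _ : VN N => (0 : VN N)) = fun _ => 0 := by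
  funext θ; simp

/-- the selection of tori -/
theorem exists_sel {l : Filter P} {x y : P → Fo N}
    (hxc : ∀ᶠ p in l, ∀ θ, ContinuousAt (x p) (θ, 0))
    (hyc : ∀ᶠ p in l, ∀ θ, ContinuousAt (y p) (θ, 0))
    (h : ∀ ε, 0 < ε → ∀ᶠ p in l, ∃ a, Tor (x p) (y p) a ∧ Bd a ε) :
    ∃ a : P → VN N → VN N, ∀ ε, 0 < ε → ∀ᶠ p in l, Tor (x p) (y p) (a p) ∧ Bd (a p) ε := by
  classical
  set Q : P → ℝ → Prop := fun p ε => ∃ a, Tor (x p) (y p) a ∧ Bd a ε with hQ
  -- the infimum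
  set s : P → ℝ := fun p => sInf {ε | 0 < ε ∧ Q p ε} with hs
  have hbdd : ∀ p, BddBelow {ε | 0 < ε ∧ Q p ε} := fun p => ⟨0, fun ε hε => hε.1.le⟩
  -- for good `p` a torus with `Bd (2 s p)`
  have key : ∀ p, (∀ θ, ContinuousAt (x p) (θ, 0)) → (∀ θ, ContinuousAt (y p) (θ, 0)) →
      (∃ ε, 0 < ε ∧ Q p ε) → Q p (2 * s p) := by
    intro p hx hy hne
    have hne' : {ε | 0 < ε ∧ Q p ε}.Nonempty := hne
    have hs0 : 0 ≤ s p := le_csInf hne' fun ε hε => hε.1.le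
    rcases hs0.eq_or_lt with h0 | h0
    · have h1 : ∀ n : ℕ, ∃ a, Tor (x p) (y p) a ∧ Bd a (1 / ((n : ℝ) + 1)) := by
        intro n
        have hp : (0 : ℝ) < 1 / ((n : ℝ) + 1) := by positivity
        obtain ⟨ε, ⟨-, a, ha, hb⟩, hε⟩ := exists_lt_of_csInf_lt hne' (h0 ▸ hp : s p < _)
        exact ⟨a, ha, hb.mono hε.le⟩
      choose a ha hb using h1
      refine ⟨fun _ => 0, ⟨contDiff_const, fun _ _ => rfl, fun θ u v => ?_, fun θ u v => ?_⟩,
        fun θ => ?_⟩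
      · rw [fderiv_zero_fun]
        exact lim_zero hx hb (fun n => (ha n).x0) θ u v
      · rw [fderiv_zero_fun]
        exact lim_zero hy hb (fun n => (ha n).y0) θ u v
      · rw [fderiv_zero_fun, norm_zero, norm_zero, ← h0]
        simp
    · obtain ⟨ε, ⟨-, a, ha, hb⟩, hε⟩ := exists_lt_of_csInf_lt hne'
        (show s p < 2 * s p by linarith)
      exact ⟨a, ha, hb.mono hε.le⟩
  refine ⟨fun p => if hp : Q p (2 * s p) then hp.choose else fun _ => 0, fun ε hε => ?_⟩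
  have hε2 : 0 < ε / 2 := half_pos hε
  filter_upwards [h (ε / 2) hε2, hxc, hyc] with p h1 h2 h3
  have hp : Q p (2 * s p) := key p h2 h3 ⟨ε / 2, hε2, h1⟩
  rw [dif_pos hp]
  have h4 : s p ≤ ε / 2 := csInf_le (hbdd p) ⟨hε2, h1⟩
  exact ⟨hp.choose_spec.1, hp.choose_spec.2.mono (by linarith)⟩

/-- **the nearby tori** -/
theorem ev_torus [FiniteDimensional ℝ V] {x1 y1 : F2 C} {Cc : VN N →L[ℝ] VN N}
    (h : Prd C N r Psi x1 y1 Cc) (hI : Imm C Psi (tube N r)) {l : Filter P} {x y : P → F2 C}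
    {I : P → C.ι → V → V →L[ℝ] V} (hS : ∀ᶠ p in l, Sy (x p) (y p) (I p))
    (hx : TC2 l x x1) (hy : TC2 l y y1)
    (hpx : ∀ᶠ p in l, ∀ j k, mn (fun θ => pull (x p) Psi (θ, 0) (ee j, 0) (ee k, 0)) = 0)
    (hpy : ∀ᶠ p in l, ∀ j k, mn (fun θ => pull (y p) Psi (θ, 0) (ee j, 0) (ee k, 0)) = 0)
    {ε : ℝ} (hε : 0 < ε) :
    ∀ᶠ p in l, ∃ a, Tor (pull (x p) Psi) (pull (y p) Psi) a ∧ Bd a ε := by
  have hr := h.r0
  have hs0 : 0 < r / 2 := half_pos hr
  have hsr : r / 2 < r := half_lt_self hr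
  obtain ⟨K1, hK1⟩ := near_ev h hs0 hsr hx (Cw := ContinuousLinearMap.id ℝ (VN N)) h.xtt
    (fun θ v u => h.xvt θ v u) hpx
  obtain ⟨K2, hK2⟩ := near_ev h hs0 hsr hy (Cw := Cc) h.ytt h.yvt hpy
  obtain ⟨δ, hδ, rho, hrho, hL⟩ := Mc673.lagtG N ‖Cc‖ (max K1 K2) (r / 2) ε hs0 hε
  filter_upwards [hS, hK1 _ (le_max_left _ _) δ hδ, hK2 _ (le_max_right _ _) δ hδ] with p p1 p2 p3
  have hsub : tube N (r / 2) ⊆ tube N r := fun q (hq : ‖q.2‖ < r / 2) => lt_trans hq hsr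
  obtain ⟨a, ha⟩ := hL Cc h.sq le_rfl _ _ p2 p3 (fun ζ hζ => by
    refine ⟨II (x p) (y p) Psi ζ, II_sq h.sm hI p1 (hsub hζ), fun u w => ?_⟩
    exact pull_II (pull_inv h.sm hI p1 (hsub hζ)) u w)
  have h0 : ‖(0 : VN N)‖ ≤ rho := by rw [norm_zero]; exact hrho.le
  refine ⟨a 0, ⟨ha.c1 0 h0, ha.per 0 h0, ha.x0 0 h0, ha.y0 0 h0⟩, fun θ => ⟨?_, ha.dnear 0 h0 θ⟩⟩
  have := ha.near 0 h0 θ
  rwa [sub_zero] at this

/-- **the nearby tori, selected** -/
theorem exists_tori [FiniteDimensional ℝ V] {x1 y1 : F2 C} {Cc : VN N →L[ℝ] VN N}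
    (h : Prd C N r Psi x1 y1 Cc) (hI : Imm C Psi (tube N r)) {l : Filter P} {x y : P → F2 C}
    {I : P → C.ι → V → V →L[ℝ] V} (hS : ∀ᶠ p in l, Sy (x p) (y p) (I p))
    (hx : TC2 l x x1) (hy : TC2 l y y1)
    (hpx : ∀ᶠ p in l, ∀ j k, mn (fun θ => pull (x p) Psi (θ, 0) (ee j, 0) (ee k, 0)) = 0)
    (hpy : ∀ᶠ p in l, ∀ j k, mn (fun θ => pull (y p) Psi (θ, 0) (ee j, 0) (ee k, 0)) = 0) :
    ∃ a : P → VN N → VN N, ∀ ε, 0 < ε → ∀ᶠ p in l,
      Tor (pull (x p) Psi) (pull (y p) Psi) (a p) ∧ Bd (a p) ε := by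
  have hc : ∀ w : F2 C, ∀ θ : VN N, ContinuousAt (pull w Psi) (θ, 0) := fun w θ =>
    ((clF_pull h.sm h.per w).cda (h.zero_mem θ)).continuousAt
  exact exists_sel (Eventually.of_forall fun p => hc (x p))
    (Eventually.of_forall fun p => hc (y p)) fun ε hε => ev_torus h hI hS hx hy hpx hpy hε

end

end Crest.Agent.R281.OT_763
end

-- ▼ part R281/OT6_763
section

/-!
# Row 281, OPEN-TORI (helper763), part 6: **open_tori**

* `TorM x y I F J` : `F` a `C¹` periodic immersion on which `x`, `y` vanish, `DF ∘ J = I ∘ DF`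
* `torM_of`        : the graph of `a` in the product coordinates gives `TorM`
* `open_tori`      : the tori at the nearby structures converge to the given one, `J p → J1` constant
-/

set_option autoImplicit false
set_option maxSynthPendingDepth 3

open Set Filter Topology
open scoped ContDiff

namespace Crest.Agent.R281.OT_763

open Crest.Agent.R281.HkR_835 Crest.Agent.R281.Per_368
open Crest.Agent.R281.Mc673 (W Fo tube ClF kv mn isOpen_tube cube isCompact_cube exists_cube)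
open Crest.Agent.R238.Sch (ee)

noncomputable section

variable {P : Type*}
variable {V X : Type} [NormedAddCommGroup V] [NormedSpace ℝ V] [TopologicalSpace X]
variable {C : RCh V X} {N : ℕ} {r : ℝ} {Psi : W N → X}

/-- a periodic `C¹` immersion on which `x`, `y` vanish, with `DF ∘ J = I ∘ DF` -/
structure TorM (x y : F2 C) (I : C.ι → V → V →L[ℝ] V) (F : VN N → X)
    (J : VN N → VN N →L[ℝ] VN N) : Prop where
  cont : Continuous F
  per : PerN F
  jc : Continuous J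
  jp : PerN J
  jsq : ∀ θ v, J θ (J θ v) = -v
  c1 : ∀ θ i, F θ ∈ (C.e i).source → ContDiffAt ℝ 1 (fun y => C.e i (F y)) θ
  inj : ∀ θ i, F θ ∈ (C.e i).source → Function.Injective (fderiv ℝ (fun y => C.e i (F y)) θ)
  jeq : ∀ θ i, F θ ∈ (C.e i).source → ∀ v, fderiv ℝ (fun y => C.e i (F y)) θ (J θ v) =
    I i (C.e i (F θ)) (fderiv ℝ (fun y => C.e i (F y)) θ v)
  isox : ∀ θ i, F θ ∈ (C.e i).source → ∀ u v, x.w i (C.e i (F θ))
    (fderiv ℝ (fun y => C.e i (F y)) θ u) (fderiv ℝ (fun y => C.e i (F y)) θ v) = 0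
  isoy : ∀ θ i, F θ ∈ (C.e i).source → ∀ u v, y.w i (C.e i (F θ))
    (fderiv ℝ (fun y => C.e i (F y)) θ u) (fderiv ℝ (fun y => C.e i (F y)) θ v) = 0

/-- the torus of the graph of `a` -/
def Ft (Psi : W N → X) (a : VN N → VN N) (θ : VN N) : X := Psi (θ, a θ)

/-- its complex structure -/
def Jt (x y : F2 C) (Psi : W N → X) (a : VN N → VN N) (θ : VN N) : VN N →L[ℝ] VN N :=
  Jg x y Psi θ (a θ) (fderiv ℝ a θ)

theorem fderiv_per {F : Type*} [NormedAddCommGroup F] [NormedSpace ℝ F] {a : VN N → F}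
    (h : PerN a) : PerN (fderiv ℝ a) := by
  intro k θ
  have e1 := fderiv_comp_add_right (f := a) (x := θ) (𝕜 := ℝ) (kv k)
  rw [← e1]
  have : (fun y => a (y + kv k)) = a := funext fun y => h k y
  rw [this]

theorem continuous_gr : Continuous fun A : VN N →L[ℝ] VN N => gr A := by
  have e : (fun A : VN N →L[ℝ] VN N => gr A) = fun A =>
      ContinuousLinearMap.inl ℝ (VN N) (VN N) +
        (ContinuousLinearMap.inr ℝ (VN N) (VN N)).comp A := by
    funext A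
    refine ContinuousLinearMap.ext fun u => ?_
    ext1 <;> simp
  rw [e]
  exact continuous_const.add (continuous_const.clm_comp continuous_id)

section one

variable {x y : F2 C} {I : C.ι → V → V →L[ℝ] V} {a : VN N → VN N} {ε : ℝ}

theorem cont_II {S : Set (W N)} (hS : SmI C S Psi) [FiniteDimensional ℝ V]
    (hinv : ∀ ζ ∈ S, (pull x Psi ζ).IsInvertible) {ζ : W N} (hζ : ζ ∈ S) :
    ContinuousAt (II x y Psi) ζ := by
  have h1 : ∀ w : F2 C, ContinuousAt (pull w Psi) ζ := fun w =>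
    ((hS.pull_smooth w).continuousOn ζ hζ).continuousAt (hS.op.mem_nhds hζ)
  exact tendsto_II (h1 x) (h1 y) (hinv ζ hζ)

theorem hasFDerivAt_Ft (hS : SmI C (tube N r) Psi) (ha : ContDiff ℝ 1 a) (hb : Bd a ε) (hr : ε < r)
    {θ : VN N} {i : C.ι} (hi : Ft Psi a θ ∈ (C.e i).source) :
    HasFDerivAt (fun y => C.e i (Ft Psi a y))
      ((fderiv ℝ (fun y => C.e i (Psi y)) (θ, a θ)).comp (gr (fderiv ℝ a θ))) θ := by
  have hζ : (θ, a θ) ∈ tube N r := lt_of_le_of_lt (hb θ).1 hr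
  have h1 := (hS.diffAt (i := i) hζ hi).hasFDerivAt
  have h2 : HasFDerivAt (fun θ => ((θ, a θ) : W N)) (gr (fderiv ℝ a θ)) θ :=
    (hasFDerivAt_id θ).prodMk ((ha.differentiable (by norm_num)) θ).hasFDerivAt
  exact HasFDerivAt.comp (g := fun y => C.e i (Psi y)) θ h1 h2

theorem torM_of [FiniteDimensional ℝ V] (hS : SmI C (tube N r) Psi)
    (hper : ∀ (k : Fin N → ℤ), ∀ ζ ∈ tube N r, Psi (ζ.1 + kv k, ζ.2) = Psi ζ)
    (hI : Imm C Psi (tube N r)) (h : Sy x y I) (ha : Tor (pull x Psi) (pull y Psi) a)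
    (hb : Bd a ε) (hr : ε < r) : TorM x y I (Ft Psi a) (Jt x y Psi a) := by
  have hζ : ∀ θ, (θ, a θ) ∈ tube N r := fun θ => lt_of_le_of_lt (hb θ).1 hr
  have hinv : ∀ ζ ∈ tube N r, (pull x Psi ζ).IsInvertible := fun ζ hζ => pull_inv hS hI h hζ
  have hac : Continuous a := ha.c1.continuous
  have hac' : Continuous (fderiv ℝ a) := ha.c1.continuous_fderiv (by norm_num)
  have hst : ∀ θ u, II x y Psi (θ, a θ) (gr (fderiv ℝ a θ) u) =
      gr (fderiv ℝ a θ) (Jt x y Psi a θ u) := fun θ u =>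
    gr_stable hS hI h (hζ θ) (ha.x0 θ) (ha.y0 θ) u
  have hD : ∀ θ i, Ft Psi a θ ∈ (C.e i).source → fderiv ℝ (fun y => C.e i (Ft Psi a y)) θ =
      (fderiv ℝ (fun y => C.e i (Psi y)) (θ, a θ)).comp (gr (fderiv ℝ a θ)) := fun θ i hi =>
    (hasFDerivAt_Ft hS ha.c1 hb hr hi).fderiv
  have hgi : ∀ (A : VN N →L[ℝ] VN N), Function.Injective (gr A) := fun A u v huv =>
    congrArg Prod.fst huv
  exact
  { cont := by
      rw [continuous_iff_continuousAt]
      intro θ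
      have h1 : ContinuousAt Psi (θ, a θ) :=
        (hS.cont _ (hζ θ)).continuousAt ((isOpen_tube r).mem_nhds (hζ θ))
      exact ContinuousAt.comp (f := fun θ => ((θ, a θ) : W N)) h1
        (continuousAt_id.prodMk hac.continuousAt)
    per := fun k θ => by
      show Psi (θ + kv k, a (θ + kv k)) = Psi (θ, a θ)
      rw [ha.per k θ]
      exact hper k (θ, a θ) (hζ θ)
    jc := by
      rw [continuous_iff_continuousAt]
      intro θ
      have h1 : ContinuousAt (fun θ => II x y Psi (θ, a θ)) θ :=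
        ContinuousAt.comp (f := fun θ => ((θ, a θ) : W N)) (cont_II hS hinv (hζ θ))
          (continuousAt_id.prodMk hac.continuousAt)
      have h2 : ContinuousAt (fun θ => gr (fderiv ℝ a θ)) θ := by
        exact (continuous_gr.comp hac').continuousAt
      exact continuousAt_const.clm_comp (h1.clm_comp h2)
    jp := fun k θ => by
      have h1 : II x y Psi (θ + kv k, a θ) = II x y Psi (θ, a θ) := by
        have e : ∀ w : F2 C, pull w Psi (θ + kv k, a θ) = pull w Psi (θ, a θ) := fun w =>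
          (clF_pull hS hper w).per k (θ, a θ) (hζ θ)
        show -((pull x Psi (θ + kv k, a θ)).inverse.comp (pull y Psi (θ + kv k, a θ))) = _
        rw [e x, e y]; rfl
      show (ContinuousLinearMap.fst ℝ (VN N) (VN N)).comp
        ((II x y Psi (θ + kv k, a (θ + kv k))).comp (gr (fderiv ℝ a (θ + kv k)))) = _
      rw [ha.per k θ, h1, fderiv_per ha.per k θ]; rfl
    jsq := fun θ v => by
      have h1 := hst θ (Jt x y Psi a θ v)
      rw [← hst θ v, II_sq hS hI h (hζ θ)] at h1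
      have h2 := congrArg Prod.fst h1
      exact h2.symm
    c1 := fun θ i hi => by
      have h1 := hS.smAt (i := i) (hζ θ) hi
      exact ContDiffAt.comp (g := fun y => C.e i (Psi y)) θ (h1.of_le (by simp))
        (contDiffAt_id.prodMk ha.c1.contDiffAt)
    inj := fun θ i hi => by
      rw [hD θ i hi]
      exact (hI _ (hζ θ) i hi).1.comp (hgi _)
    jeq := fun θ i hi v => by
      rw [hD θ i hi]
      show fderiv ℝ (fun y => C.e i (Psi y)) (θ, a θ) (gr (fderiv ℝ a θ) (Jt x y Psi a θ v)) = _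
      rw [← hst θ v, II_spec hS hI h (hζ θ) hi]
      rfl
    isox := fun θ i hi u v => by
      rw [hD θ i hi]
      have h1 := ha.x0 θ u v
      rwa [hS.pull_eq x (hζ θ) hi, pl_apply] at h1
    isoy := fun θ i hi u v => by
      rw [hD θ i hi]
      have h1 := ha.y0 θ u v
      rwa [hS.pull_eq y (hζ θ) hi, pl_apply] at h1 }

end one

section zero

variable {x1 y1 : F2 C} {I1 : C.ι → V → V →L[ℝ] V} {Cc : VN N →L[ℝ] VN N}

theorem Prd.tor (h : Prd C N r Psi x1 y1 Cc) : Tor (pull x1 Psi) (pull y1 Psi) (fun _ => 0) where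
  c1 := contDiff_const
  per := fun _ _ => rfl
  x0 := fun θ u v => by rw [fderiv_zero_fun]; exact h.xtt θ u v
  y0 := fun θ u v => by rw [fderiv_zero_fun]; exact h.ytt θ u v

theorem bd_zero : Bd (fun _ : VN N => (0 : VN N)) 0 := fun θ => by
  rw [fderiv_zero_fun]; simp

/-- the constant complex structure of the central torus -/
theorem Prd.J1_eq [FiniteDimensional ℝ V] (h : Prd C N r Psi x1 y1 Cc)
    (hI : Imm C Psi (tube N r)) (hS1 : Sy x1 y1 I1) (θ : VN N) :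
    Jt x1 y1 Psi (fun _ => 0) θ = -(ContinuousLinearMap.adjoint Cc) := by
  have hζ := h.zero_mem θ
  have hinv := pull_inv h.sm hI hS1 hζ
  ext1 u
  have h1 := gr_stable h.sm hI hS1 hζ (A := 0) (fun u w => h.xtt θ u w) (fun u w => h.ytt θ u w) u
  have e : Jt x1 y1 Psi (fun _ => 0) θ = Jg x1 y1 Psi θ 0 0 := by
    unfold Jt; rw [fderiv_zero_fun]
  rw [e]
  set J := Jg x1 y1 Psi θ 0 0 u with hJ
  refine ext_inner_left ℝ fun v => ?_
  have h2 := pull_II (y := y1) hinv (gr 0 u) (0, v)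
  rw [h1] at h2
  have h3 : pull x1 Psi (θ, 0) (gr 0 J) (0, v) = - inner ℝ v J := by
    rw [h.alt x1 hζ]
    exact congrArg Neg.neg (h.xvt θ v J)
  have h4 : pull y1 Psi (θ, 0) (gr 0 u) (0, v) = - inner ℝ (Cc v) u := by
    rw [h.alt y1 hζ]
    exact congrArg Neg.neg (h.yvt θ v u)
  rw [h3, h4] at h2
  show inner ℝ v J = inner ℝ v (-((ContinuousLinearMap.adjoint Cc) u))
  rw [inner_neg_right, ContinuousLinearMap.adjoint_inner_right]
  linarith

end zero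

/-! ## convergence -/

theorem tendsto_compL {α E F G : Type*} [NormedAddCommGroup E] [NormedSpace ℝ E]
    [NormedAddCommGroup F] [NormedSpace ℝ F] [NormedAddCommGroup G] [NormedSpace ℝ G]
    {l : Filter α} {f : α → F →L[ℝ] G} {g : α → E →L[ℝ] F} {A : F →L[ℝ] G} {B : E →L[ℝ] F}
    (h : Tendsto f l (𝓝 A)) (h' : Tendsto g l (𝓝 B)) :
    Tendsto (fun a => (f a).comp (g a)) l (𝓝 (A.comp B)) := by
  have h3 : Continuous fun q : (F →L[ℝ] G) × (E →L[ℝ] F) => q.1.comp q.2 :=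
    isBoundedBilinearMap_comp.continuous
  exact (h3.tendsto (A, B)).comp (h.prodMk_nhds h')

section conv

variable {l : Filter P} {a : P → VN N → VN N} (ha : ∀ ε, 0 < ε → ∀ᶠ p in l, Bd (a p) ε)
include ha

theorem tend_a (θ : VN N) : Tendsto (fun q : P × VN N => a q.1 q.2) (l ×ˢ 𝓝 θ) (𝓝 0) := by
  rw [Metric.tendsto_nhds]
  intro ε hε
  filter_upwards [tendsto_fst.eventually (ha (ε / 2) (half_pos hε))] with q hq
  rw [dist_zero_right]
  exact lt_of_le_of_lt (hq q.2).1 (half_lt_self hε)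

theorem tend_da (θ : VN N) :
    Tendsto (fun q : P × VN N => fderiv ℝ (a q.1) q.2) (l ×ˢ 𝓝 θ) (𝓝 0) := by
  rw [Metric.tendsto_nhds]
  intro ε hε
  filter_upwards [tendsto_fst.eventually (ha (ε / 2) (half_pos hε))] with q hq
  rw [dist_zero_right]
  exact lt_of_le_of_lt (hq q.2).2 (half_lt_self hε)

theorem tend_z (θ : VN N) : Tendsto (fun q : P × VN N => ((q.2, a q.1 q.2) : W N)) (l ×ˢ 𝓝 θ)
    (𝓝 (θ, 0)) := tendsto_snd.prodMk_nhds (tend_a ha θ)

theorem tend_gr (θ : VN N) : Tendsto (fun q : P × VN N => gr (fderiv ℝ (a q.1) q.2)) (l ×ˢ 𝓝 θ)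
    (𝓝 (gr 0)) := (continuous_gr.tendsto 0).comp (tend_da ha θ)

theorem tend_pull (hS : SmI C (tube N r) Psi) (hr : 0 < r) {w : P → F2 C} {w1 : F2 C}
    (hw : TC2 l w w1) (θ : VN N) :
    Tendsto (fun q : P × VN N => pull (w q.1) Psi (q.2, a q.1 q.2)) (l ×ˢ 𝓝 θ)
      (𝓝 (pull w1 Psi (θ, 0))) := by
  have hz : (θ, (0 : VN N)) ∈ tube N r := by
    show ‖(0 : VN N)‖ < r
    rwa [norm_zero]
  exact Tendsto.comp (g := fun q : P × W N => pull (w q.1) Psi q.2)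
    (f := fun q : P × VN N => (q.1, ((q.2, a q.1 q.2) : W N)))
    (TT.c0 (tt_pull hS hw) hz) (tendsto_fst.prodMk (tend_z ha θ))

theorem tend_Ft (hS : SmI C (tube N r) Psi) (hr : 0 < r) (θ : VN N) :
    Tendsto (fun q : P × VN N => Ft Psi (a q.1) q.2) (l ×ˢ 𝓝 θ) (𝓝 (Psi (θ, 0))) := by
  have hz : (θ, (0 : VN N)) ∈ tube N r := by
    show ‖(0 : VN N)‖ < r
    rwa [norm_zero]
  have h1 : ContinuousAt Psi (θ, 0) :=
    (hS.cont _ hz).continuousAt ((isOpen_tube r).mem_nhds hz)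
  exact h1.tendsto.comp (tend_z ha θ)

theorem tend_dFt (hS : SmI C (tube N r) Psi) (hr : 0 < r) (hc : ∀ᶠ p in l, ContDiff ℝ 1 (a p))
    {θ : VN N} {i : C.ι} (hi : Psi (θ, 0) ∈ (C.e i).source) :
    Tendsto (fun q : P × VN N => fderiv ℝ (fun y => C.e i (Ft Psi (a q.1) y)) q.2) (l ×ˢ 𝓝 θ)
      (𝓝 (fderiv ℝ (fun y => C.e i (Psi (y, 0))) θ)) := by
  have hz : (θ, (0 : VN N)) ∈ tube N r := by
    show ‖(0 : VN N)‖ < r
    rwa [norm_zero]
  have hO := hS.isOpen_pre (C.e i).open_source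
  have hmem : ((θ, (0 : VN N)) : W N) ∈ tube N r ∩ Psi ⁻¹' (C.e i).source := ⟨hz, hi⟩
  have h1 : ContinuousAt (fderiv ℝ (fun y => C.e i (Psi y))) (θ, 0) :=
    ((hS.smAt (i := i) hz hi).fderiv_right (m := 0) (by simp)).continuousAt
  have h2 := h1.tendsto.comp (tend_z ha θ)
  have h4 : Tendsto (fun q : P × VN N => (fderiv ℝ (fun y => C.e i (Psi y))
      (q.2, a q.1 q.2)).comp (gr (fderiv ℝ (a q.1) q.2))) (l ×ˢ 𝓝 θ)
      (𝓝 ((fderiv ℝ (fun y => C.e i (Psi y)) (θ, 0)).comp (gr 0))) :=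
    tendsto_compL h2 (tend_gr ha θ)
  have h5 : fderiv ℝ (fun y => C.e i (Psi (y, 0))) θ =
      (fderiv ℝ (fun y => C.e i (Psi y)) (θ, 0)).comp (gr 0) := by
    have h6 := (hasFDerivAt_Ft hS (contDiff_const (c := (0 : VN N))) bd_zero hr
      (θ := θ) (i := i) hi).fderiv
    rw [fderiv_zero_fun] at h6
    exact h6
  rw [h5]
  refine h4.congr' ?_
  have h7 : ∀ᶠ q : P × VN N in l ×ˢ 𝓝 θ, ((q.2, a q.1 q.2) : W N) ∈
      tube N r ∩ Psi ⁻¹' (C.e i).source := (tend_z ha θ).eventually (hO.mem_nhds hmem)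
  filter_upwards [h7, tendsto_fst.eventually hc,
    tendsto_fst.eventually (ha (r / 2) (half_pos hr))] with q hq hq' hq''
  exact (hasFDerivAt_Ft hS hq' hq'' (half_lt_self hr) (θ := q.2) (i := i) hq.2).fderiv.symm

end conv

theorem tend_Jg {α : Type*} {l : Filter α} {xf yf : α → F2 C} {x1 y1 : F2 C} {θf vf : α → VN N}
    {Af : α → VN N →L[ℝ] VN N} {θ : VN N}
    (hX : Tendsto (fun a => pull (xf a) Psi (θf a, vf a)) l (𝓝 (pull x1 Psi (θ, 0))))
    (hY : Tendsto (fun a => pull (yf a) Psi (θf a, vf a)) l (𝓝 (pull y1 Psi (θ, 0))))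
    (hg : Tendsto (fun a => gr (Af a)) l (𝓝 (gr 0)))
    (hinv : (pull x1 Psi (θ, 0)).IsInvertible) :
    Tendsto (fun a => Jg (xf a) (yf a) Psi (θf a) (vf a) (Af a)) l
      (𝓝 (Jg x1 y1 Psi θ 0 0)) := by
  have h1 : Tendsto (fun a => II (xf a) (yf a) Psi (θf a, vf a)) l (𝓝 (II x1 y1 Psi (θ, 0))) :=
    tendsto_II hX hY hinv
  have h2 : Tendsto (fun a => (II (xf a) (yf a) Psi (θf a, vf a)).comp (gr (Af a))) l
      (𝓝 ((II x1 y1 Psi (θ, 0)).comp (gr 0))) := tendsto_compL h1 hg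
  exact tendsto_compL (tendsto_const_nhds (x := ContinuousLinearMap.fst ℝ (VN N) (VN N))) h2

/-- **OPEN-TORI** -/
theorem open_tori [FiniteDimensional ℝ V] {x1 y1 : F2 C}
    {I1 : C.ι → V → V →L[ℝ] V} {Cc : VN N →L[ℝ] VN N}
    (h : Prd C N r Psi x1 y1 Cc) (hd : Module.finrank ℝ V = 2 * N) (hS1 : Sy x1 y1 I1)
    {l : Filter P} {x y : P → F2 C}
    {I : P → C.ι → V → V →L[ℝ] V} (hS : ∀ᶠ p in l, Sy (x p) (y p) (I p))
    (hx : TC2 l x x1) (hy : TC2 l y y1)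
    (hpx : ∀ᶠ p in l, ∀ j k, mn (fun θ => pull (x p) Psi (θ, 0) (ee j, 0) (ee k, 0)) = 0)
    (hpy : ∀ᶠ p in l, ∀ j k, mn (fun θ => pull (y p) Psi (θ, 0) (ee j, 0) (ee k, 0)) = 0) :
    ∃ (F : P → VN N → X) (J : P → VN N → VN N →L[ℝ] VN N),
      (∀ᶠ p in l, TorM (x p) (y p) (I p) (F p) (J p)) ∧
      TorM x1 y1 I1 (fun θ => Psi (θ, 0)) (fun _ => -(ContinuousLinearMap.adjoint Cc)) ∧
      (∀ θ, Tendsto (fun q : P × VN N => F q.1 q.2) (l ×ˢ 𝓝 θ) (𝓝 (Psi (θ, 0)))) ∧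
      (∀ θ i, Psi (θ, 0) ∈ (C.e i).source →
        Tendsto (fun q : P × VN N => fderiv ℝ (fun y => C.e i (F q.1 y)) q.2) (l ×ˢ 𝓝 θ)
          (𝓝 (fderiv ℝ (fun y => C.e i (Psi (y, 0))) θ))) ∧
      (∀ θ, Tendsto (fun q : P × VN N => J q.1 q.2) (l ×ˢ 𝓝 θ)
          (𝓝 (-(ContinuousLinearMap.adjoint Cc)))) := by
  obtain ⟨s, hs, hsr, hI, -⟩ := exists_imm hd h
  have hP := h.mono hs hsr
  obtain ⟨a, ha⟩ := exists_tori hP hI hS hx hy hpx hpy
  have hb : ∀ ε, 0 < ε → ∀ᶠ p in l, Bd (a p) ε := fun ε hε => (ha ε hε).mono fun p hp => hp.2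
  have hev := ha (s / 2) (half_pos hs)
  refine ⟨fun p => Ft Psi (a p), fun p => Jt (x p) (y p) Psi (a p), ?_, ?_, ?_, ?_, ?_⟩
  · filter_upwards [hev, hS] with p hp hp'
    exact torM_of hP.sm hP.per hI hp' hp.1 hp.2 (half_lt_self hs)
  · have h1 := torM_of hP.sm hP.per hI hS1 hP.tor bd_zero hP.r0
    have h2 : Jt x1 y1 Psi (fun _ => 0) = fun _ => -(ContinuousLinearMap.adjoint Cc) :=
      funext fun θ => hP.J1_eq hI hS1 θ
    rw [h2] at h1
    exact h1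
  · exact fun θ => tend_Ft hb hP.sm hP.r0 θ
  · exact fun θ i hi => tend_dFt hb hP.sm hP.r0 (hev.mono fun p hp => hp.1.c1) hi
  · intro θ
    have e : Jt x1 y1 Psi (fun _ => 0) θ = Jg x1 y1 Psi θ 0 0 := by
      unfold Jt; rw [fderiv_zero_fun]
    rw [← hP.J1_eq hI hS1 θ, e]
    exact tend_Jg (tend_pull hb hP.sm hP.r0 hx θ) (tend_pull hb hP.sm hP.r0 hy θ) (tend_gr hb θ)
      (pull_inv hP.sm hI hS1 (hP.zero_mem θ))

end

end Crest.Agent.R281.OT_763
end

-- ▼ part R281/OT7_763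

/-!
# Row 281, OPEN-TORI (helper763), part 7: from `TorM` (charts of `C`) to 569's `TorF` (charts of `A`)

* `chart_comp` : derivative of `e a ∘ F` in another system of charts
* `eN`         : `(Fin N → ℝ) ≃L[ℝ] VN N`
* `RelJ C A I D` : the field `D.I` on the charts of `A` is the field `I` on the charts of `C`
* `torF_of`    : `TorM x y I F J → TorF D (F ∘ eN) (eN⁻¹ ∘ J ∘ eN)`
* `cDF_of`     : continuous convergence of the derivatives in the charts of `A`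
-/

set_option autoImplicit false
set_option maxSynthPendingDepth 3
set_option linter.unusedSectionVars false

open Set Filter Topology
open scoped ContDiff

namespace Crest.Agent.R281.OT_763

open Crest.Agent.R281.HkR_835 Crest.Agent.R281.Per_368 Crest.Agent.R281.PL_713
open Crest.Agent.R281.Mc673 (W Fo tube ClF kv mn isOpen_tube)
open Crest.Agent.R275.Geo (Cn Atl)
open Crest.Agent.R281.Op3_569 (MovD TorF CC)

noncomputable section

variable {V V' X : Type} [NormedAddCommGroup V] [NormedSpace ℝ V] [NormedAddCommGroup V']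
  [NormedSpace ℝ V'] [TopologicalSpace X] {C : RCh V X} {C' : RCh V' X}

/-! ## change of charts -/

section chg

variable {E : Type*} [NormedAddCommGroup E] [NormedSpace ℝ E] {F : E → X}

theorem mem_mov {i : C.ι} {a : C'.ι} {x : X} (hi : x ∈ (C.e i).source) (ha : x ∈ (C'.e a).source) :
    C'.e a x ∈ mov C C' i a := by
  refine ⟨(C'.e a).map_source ha, ?_⟩
  rw [(C'.e a).left_inv ha]; exact hi

theorem mt_e {i : C.ι} {a : C'.ι} {x : X} (ha : x ∈ (C'.e a).source) :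
    mt C C' i a (C'.e a x) = C.e i x := by
  show C.e i ((C'.e a).symm (C'.e a x)) = _
  rw [(C'.e a).left_inv ha]

/-- `e a ∘ F` near `θ` through the chart `i` of `C` -/
theorem ev_chart {θ : E} {i : C.ι} (a : C'.ι) (hF : ContinuousAt F θ)
    (hi : F θ ∈ (C.e i).source) :
    (fun y => C'.e a (F y)) =ᶠ[𝓝 θ] fun y => mt C' C a i (C.e i (F y)) := by
  filter_upwards [hF.eventually_mem ((C.e i).open_source.mem_nhds hi)] with y hy
  exact (mt_e hy).symm

theorem contDiffAt_chart (h : Cmp C C') {θ : E} {i : C.ι} {a : C'.ι} {n : WithTop ℕ∞}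
    (hn : n ≤ ∞) (hF : ContinuousAt F θ) (hi : F θ ∈ (C.e i).source)
    (ha : F θ ∈ (C'.e a).source) (hd : ContDiffAt ℝ n (fun y => C.e i (F y)) θ) :
    ContDiffAt ℝ n (fun y => C'.e a (F y)) θ := by
  have h1 : ContDiffAt ℝ ∞ (mt C' C a i) (C.e i (F θ)) :=
    (h.s' i a).contDiffAt ((Cmp.isOpen_mov C' C a i).mem_nhds (mem_mov ha hi))
  exact (ContDiffAt.comp (g := mt C' C a i) θ (h1.of_le hn) hd).congr_of_eventuallyEq
    (ev_chart a hF hi)

theorem fderiv_chart (h : Cmp C C') {θ : E} {i : C.ι} {a : C'.ι} (hF : ContinuousAt F θ)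
    (hi : F θ ∈ (C.e i).source) (ha : F θ ∈ (C'.e a).source)
    (hd : DifferentiableAt ℝ (fun y => C.e i (F y)) θ) :
    fderiv ℝ (fun y => C'.e a (F y)) θ =
      (fderiv ℝ (mt C' C a i) (C.e i (F θ))).comp (fderiv ℝ (fun y => C.e i (F y)) θ) := by
  have h1 : DifferentiableAt ℝ (mt C' C a i) (C.e i (F θ)) := h.symm.diff (mem_mov ha hi)
  rw [(ev_chart a hF hi).fderiv_eq]
  exact (HasFDerivAt.comp (g := mt C' C a i) θ h1.hasFDerivAt hd.hasFDerivAt).fderiv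

/-- `D(mt)` is injective -/
theorem dmt_inj (h : Cmp C C') {i : C.ι} {a : C'.ι} {x : X} (hi : x ∈ (C.e i).source)
    (ha : x ∈ (C'.e a).source) : Function.Injective (fderiv ℝ (mt C' C a i) (C.e i x)) := by
  intro u v huv
  have h1 := fun u => h.symm.d_d (mem_mov ha hi) u
  rw [← h1 u, huv, h1 v]

end chg

/-! ## the coordinates of the torus -/

section eN

variable {N : ℕ}

/-- `(Fin N → ℝ) ≃ VN N` -/
def eN (N : ℕ) : (Fin N → ℝ) ≃L[ℝ] VN N := (EuclideanSpace.equiv (Fin N) ℝ).symm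

@[simp] theorem eN_apply (x : Fin N → ℝ) (i : Fin N) : eN N x i = x i := rfl

@[simp] theorem eN_symm_apply (x : VN N) (i : Fin N) : (eN N).symm x i = x i := rfl

theorem eN_add (x : Fin N → ℝ) (k : Fin N → ℤ) : eN N (x + fun i => (k i : ℝ)) = eN N x + kv k := by
  rw [map_add]; rfl

theorem per_eN {F : Type*} {f : VN N → F} (h : PerN f) :
    Crest.Agent.R281.Op3_569.Per (fun x : Fin N → ℝ => f (eN N x)) := by
  intro k x
  show f (eN N (x + fun i => (k i : ℝ))) = f (eN N x)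
  rw [eN_add]; exact h k _

/-- conjugation with `eN` -/
def cj (J : VN N →L[ℝ] VN N) : (Fin N → ℝ) →L[ℝ] (Fin N → ℝ) :=
  ((eN N).symm : VN N →L[ℝ] (Fin N → ℝ)).comp (J.comp (eN N : (Fin N → ℝ) →L[ℝ] VN N))

@[simp] theorem eN_cj (J : VN N →L[ℝ] VN N) (v : Fin N → ℝ) : eN N (cj J v) = J (eN N v) := by
  show eN N ((eN N).symm (J (eN N v))) = _
  exact (eN N).apply_symm_apply _

theorem continuous_cj : Continuous (cj : (VN N →L[ℝ] VN N) → _) := by
  have h1 : Continuous fun J : VN N →L[ℝ] VN N =>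
      (J.comp (eN N : (Fin N → ℝ) →L[ℝ] VN N)) := continuous_id.clm_comp continuous_const
  exact continuous_const.clm_comp h1

end eN

/-! ## the bridge -/

section bridge

variable {n : ℕ} {A : Atl n X} {N : ℕ}

/-- the field `D.I` on the charts of `A` is the field `I` on the charts of `C` -/
def RelJ (C : RCh V X) (A : Atl n X) (I : C.ι → V → V →L[ℝ] V) (D : MovD A) : Prop :=
  ∀ i a, ∀ z ∈ mov C (ofAtl A) i a, ∀ v : Cn n,
    fderiv ℝ (mt C (ofAtl A) i a) z (D.I a ((A.e a).symm z) v) =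
      I i (mt C (ofAtl A) i a z) (fderiv ℝ (mt C (ofAtl A) i a) z v)

/-- `RelJ` for the inverse transition -/
theorem RelJ.inv {I : C.ι → V → V →L[ℝ] V} {D : MovD A} (h : Cmp C (ofAtl A)) (hD : RelJ C A I D)
    {i : C.ι} {a : A.ι} {x : X} (hi : x ∈ (C.e i).source) (ha : x ∈ (A.e a).source) (w : V) :
    fderiv ℝ (mt (ofAtl A) C a i) (C.e i x) (I i (C.e i x) w) =
      D.I a x (fderiv ℝ (mt (ofAtl A) C a i) (C.e i x) w) := by
  have hz : A.e a x ∈ mov C (ofAtl A) i a := mem_mov (C' := ofAtl A) hi ha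
  have e1 : mt C (ofAtl A) i a (A.e a x) = C.e i x := mt_e (C' := ofAtl A) ha
  have e2 : (A.e a).symm (A.e a x) = x := (A.e a).left_inv ha
  have h1 := h.d_d hz (D.I a x (fderiv ℝ (mt (ofAtl A) C a i) (C.e i x) w))
  have h2 := hD i a _ hz (fderiv ℝ (mt (ofAtl A) C a i) (C.e i x) w)
  have h3 := h.d_d' hz w
  rw [e1] at h1 h3
  rw [e1, e2] at h2
  rw [← h1, h2, h3]

variable {x y : F2 C} {I : C.ι → V → V →L[ℝ] V} {F : VN N → X} {J : VN N → VN N →L[ℝ] VN N}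

theorem TorM.fd (h : TorM x y I F J) {C' : RCh V' X} (hc : Cmp C C') {θ : VN N} {i : C.ι}
    {a : C'.ι} (hi : F θ ∈ (C.e i).source) (ha : F θ ∈ (C'.e a).source) :
    fderiv ℝ (fun y => C'.e a (F y)) θ =
      (fderiv ℝ (mt C' C a i) (C.e i (F θ))).comp (fderiv ℝ (fun y => C.e i (F y)) θ) :=
  fderiv_chart hc h.cont.continuousAt hi ha ((h.c1 θ i hi).differentiableAt (by norm_num))

/-- `D(e a ∘ F ∘ eN)` -/
theorem fd_eN {G : Type*} [NormedAddCommGroup G] [NormedSpace ℝ G] {f : VN N → G} {x : Fin N → ℝ}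
    (hf : DifferentiableAt ℝ f (eN N x)) : fderiv ℝ (fun y => f (eN N y)) x =
      (fderiv ℝ f (eN N x)).comp (eN N : (Fin N → ℝ) →L[ℝ] VN N) :=
  (HasFDerivAt.comp (g := f) x hf.hasFDerivAt (eN N).hasFDerivAt).fderiv

theorem torF_of (hc : Cmp C (ofAtl A)) {D : MovD A} (hD : RelJ C A I D) (h : TorM x y I F J) :
    TorF D (fun x : Fin N → ℝ => F (eN N x)) (fun x => cj (J (eN N x))) where
  cont := h.cont.comp (eN N).continuous
  per := per_eN h.per
  jc := continuous_cj.comp (h.jc.comp (eN N).continuous)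
  jp := fun k x => by
    show cj (J (eN N (x + fun i => (k i : ℝ)))) = cj (J (eN N x))
    rw [eN_add, h.jp k]
  c1 := fun x a ha => by
    obtain ⟨i, hi⟩ := C.cover (F (eN N x))
    have h1 : ContDiffAt ℝ 1 (fun y => A.e a (F y)) (eN N x) :=
      contDiffAt_chart (C' := ofAtl A) hc (by simp) h.cont.continuousAt hi ha (h.c1 _ i hi)
    exact ContDiffAt.comp (g := fun y => A.e a (F y)) x h1 (eN N).contDiff.contDiffAt
  jeq := fun x a ha v => by
    obtain ⟨i, hi⟩ := C.cover (F (eN N x))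
    have h1 : ContDiffAt ℝ 1 (fun y => A.e a (F y)) (eN N x) :=
      contDiffAt_chart (C' := ofAtl A) hc (by simp) h.cont.continuousAt hi ha (h.c1 _ i hi)
    have h2 := fd_eN (h1.differentiableAt (by norm_num))
    have h3 : fderiv ℝ (fun y => A.e a (F y)) (eN N x) =
      (fderiv ℝ (mt (ofAtl A) C a i) (C.e i (F (eN N x)))).comp
        (fderiv ℝ (fun y => C.e i (F y)) (eN N x)) := h.fd (C' := ofAtl A) hc hi ha
    rw [h2, h3]
    show fderiv ℝ (mt (ofAtl A) C a i) (C.e i (F (eN N x)))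
      (fderiv ℝ (fun y => C.e i (F y)) (eN N x) (eN N (cj (J (eN N x)) v))) =
      D.I a (F (eN N x)) (fderiv ℝ (mt (ofAtl A) C a i) (C.e i (F (eN N x)))
        (fderiv ℝ (fun y => C.e i (F y)) (eN N x) (eN N v)))
    rw [eN_cj, h.jeq _ i hi, hD.inv hc hi ha]

variable {P : Type*} {l : Filter P} {xp yp : P → F2 C} {Ip : P → C.ι → V → V →L[ℝ] V}
  {Fp : P → VN N → X} {Jp : P → VN N → VN N →L[ℝ] VN N}

/-- convergence of the derivatives in the charts of `C'` -/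
theorem cD_chart (C' : RCh V' X) (hc : Cmp C C') (hT : ∀ᶠ p in l, TorM (xp p) (yp p) (Ip p) (Fp p) (Jp p))
    (h0 : TorM x y I F J)
    (hF : ∀ θ, Tendsto (fun q : P × VN N => Fp q.1 q.2) (l ×ˢ 𝓝 θ) (𝓝 (F θ)))
    (hD : ∀ θ i, F θ ∈ (C.e i).source →
        Tendsto (fun q : P × VN N => fderiv ℝ (fun y => C.e i (Fp q.1 y)) q.2) (l ×ˢ 𝓝 θ)
          (𝓝 (fderiv ℝ (fun y => C.e i (F y)) θ))) {θ : VN N} {a : C'.ι}
    (ha : F θ ∈ (C'.e a).source) :
    Tendsto (fun q : P × VN N => fderiv ℝ (fun y => C'.e a (Fp q.1 y)) q.2) (l ×ˢ 𝓝 θ)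
          (𝓝 (fderiv ℝ (fun y => C'.e a (F y)) θ)) := by
  obtain ⟨i, hi⟩ := C.cover (F θ)
  rw [h0.fd hc hi ha]
  have h1 : ContinuousAt (fderiv ℝ (mt C' C a i)) (C.e i (F θ)) := by
    have h2 : ContDiffAt ℝ ∞ (mt C' C a i) (C.e i (F θ)) :=
      (hc.s' i a).contDiffAt ((Cmp.isOpen_mov C' C a i).mem_nhds (mem_mov ha hi))
    exact (h2.fderiv_right (m := 0) (by simp)).continuousAt
  have h2 : Tendsto (fun q : P × VN N => C.e i (Fp q.1 q.2)) (l ×ˢ 𝓝 θ) (𝓝 (C.e i (F θ))) :=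
    (((C.e i).continuousAt hi).tendsto).comp (hF θ)
  have h3 := tendsto_compL (h1.tendsto.comp h2) (hD θ i hi)
  refine h3.congr' ?_
  have h4 : ∀ᶠ q : P × VN N in l ×ˢ 𝓝 θ, Fp q.1 q.2 ∈ (C.e i).source ∩ (C'.e a).source :=
    (hF θ).eventually (((C.e i).open_source.inter (C'.e a).open_source).mem_nhds ⟨hi, ha⟩)
  filter_upwards [h4, tendsto_fst.eventually hT] with q hq hq'
  exact (hq'.fd hc hq.1 hq.2).symm

/-- transfer of continuous convergence to `Fin N → ℝ` -/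
theorem cc_eN {Y : Type*} [TopologicalSpace Y] {f : P → VN N → Y} {f0 : VN N → Y}
    (h : ∀ θ, Tendsto (fun q : P × VN N => f q.1 q.2) (l ×ˢ 𝓝 θ) (𝓝 (f0 θ)))
    (x : Fin N → ℝ) : CC l (fun p x => f p (eN N x)) (fun x => f0 (eN N x)) x := by
  have h1 : Tendsto (fun q : P × (Fin N → ℝ) => (q.1, eN N q.2)) (l ×ˢ 𝓝 x)
      (l ×ˢ 𝓝 (eN N x)) :=
    tendsto_fst.prodMk (((eN N).continuous.tendsto x).comp tendsto_snd)
  exact (h (eN N x)).comp h1

end bridge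

end

end Crest.Agent.R281.OT_763
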