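import Crest.Agent.R281.Om1_854
import Crest.Agent.R273.KahI_645
import Crest.Agent.R273.MassA_5
import Crest.Agent.R281.S6D_664

-- ▼ part R281/Om2_854
section

/-!
# R281 (S0424), S6-OMEGA (helper854), part 2: the local estimate (LOC), pointwise part

`g` : product chart `M → Cn d × Cn m` with second component `f`; `i` a chart of `A`.
* `JJ`     : Jacobian of `A.e i ∘ g.symm ∘ spl`
* `Jp_JJ`  : the Jacobian of the leaf is the block of `JJ`
* `Df_JJ`  : `Df * JJ = Pm`
* `low_pt` : `(c/δ)^m det (leaf block of Jᵀ β J̄) ≤ |det J|² det K_δ`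
-/

set_option autoImplicit false
set_option linter.unusedSectionVars false

open Set Filter Topology Complex MeasureTheory
open scoped ContDiff Matrix ComplexConjugate Manifold ComplexOrder ENNReal

namespace Crest.Agent.R281.Om_854

open Crest.Agent.R275.Geo Crest.Agent.R275.Core144 Crest.Agent.R275.EDR890
open Crest.Agent.R273.Defs_333 Crest.Agent.R273.Hess_333 Crest.Agent.R273.HessB_333
open Crest.Agent.R273.HM_333 Crest.Agent.R273.Kah_333 Crest.Agent.R273.Vol_333
open Crest.Agent.R273.Vm_333 Crest.Agent.R273.Map_835 Crest.Agent.R273.KahI_645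
open Crest.Agent.R275.Pai323 Crest.Agent.R275.C1d194 Crest.Agent.R273

noncomputable section

variable {d m : ℕ}

/-! ### linear algebra -/

/-- the projection matrix -/
def Pm (d m : ℕ) : Matrix (Fin m) (Fin (d + m)) ℂ :=
  Matrix.of fun b a => if a = Fin.natAdd d b then 1 else 0

/-- the leaf block -/
def lb (G : Matrix (Fin (d + m)) (Fin (d + m)) ℂ) : Matrix (Fin d) (Fin d) ℂ :=
  G.submatrix (Fin.castAdd m) (Fin.castAdd m)

theorem det_mono {n : ℕ} {G S : Matrix (Fin n) (Fin n) ℂ} (hG : G.PosDef) (hS : S.PosSemidef) :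
    G.det.re ≤ (G + S).det.re := by
  have h1 := Crest.Agent.R273.FIlin_332.det_re_eq_sum hG hS 1
  have h3 : (G + S).det.re = (G + ((1 : ℝ) : ℂ) • S).det.re := by simp
  rw [h3, h1, Finset.sum_range_succ', Crest.Agent.R273.MassA_5.dp_coeff_zero]
  have h2 : 0 ≤ ∑ k ∈ Finset.range n, ((Crest.Agent.R273.VolInv_5.dp G S).coeff (k + 1)).re * (1:ℝ) ^ (k + 1) :=
    Finset.sum_nonneg fun k _ => mul_nonneg (Crest.Agent.R273.FIlin_332.coeff_dp_nonneg hG hS _) (by positivity)
  simp only [pow_zero, mul_one] at h2 ⊢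
  linarith

theorem det_one_add {S : Matrix (Fin m) (Fin m) ℂ} (hS : S.PosSemidef) {c : ℝ} (hc : 0 ≤ c) :
    c ^ m ≤ (S + (c : ℂ) • (1 : Matrix (Fin m) (Fin m) ℂ)).det.re := by
  rcases hc.eq_or_lt with h | h
  · subst h
    rcases Nat.eq_zero_or_pos m with hm | hm
    · subst hm
      simp
    · rw [zero_pow hm.ne']
      simp only [Complex.ofReal_zero, zero_smul, add_zero]
      exact (Complex.le_def.1 hS.det_nonneg).1
  · have h1 : ((c : ℂ) • (1 : Matrix (Fin m) (Fin m) ℂ)).PosDef :=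
      Matrix.PosDef.one.smul (by exact_mod_cast h)
    have h2 := det_mono h1 hS
    rw [Matrix.det_smul, Matrix.det_one, mul_one, Fintype.card_fin, add_comm] at h2
    refine le_trans (le_of_eq ?_) h2
    rw [← Complex.ofReal_pow, Complex.ofReal_re]

theorem det_block {G : Matrix (Fin d ⊕ Fin m) (Fin d ⊕ Fin m) ℂ} (hG : G.PosDef) {c : ℝ}
    (hc : 0 ≤ c) : c ^ m * G.toBlocks₁₁.det.re ≤
      (G + (Matrix.fromBlocks 0 0 0 ((c : ℂ) • (1 : Matrix (Fin m) (Fin m) ℂ)))).det.re := by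
  set X := G.toBlocks₁₁ with hX
  set Y := G.toBlocks₁₂ with hY
  set Z := G.toBlocks₂₂ with hZ
  have hYs : G.toBlocks₂₁ = Yᴴ := by
    ext a b
    exact (hG.1.apply (Sum.inr a) (Sum.inl b)).symm
  have e0 : G = Matrix.fromBlocks X Y Yᴴ Z := by
    rw [← hYs]; exact (Matrix.fromBlocks_toBlocks G).symm
  have hXp : X.PosDef := by
    have := hG.submatrix (e := (Sum.inl : Fin d → Fin d ⊕ Fin m)) Sum.inl_injective
    exact this
  have : Invertible X := hXp.isUnit.invertible
  have hS : (Z - Yᴴ * X⁻¹ * Y).PosSemidef := by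
    rw [← hXp.fromBlocks₁₁, ← e0]
    exact hG.posSemidef
  have e1 : G + (Matrix.fromBlocks 0 0 0 ((c : ℂ) • (1 : Matrix (Fin m) (Fin m) ℂ))) =
      Matrix.fromBlocks X Y Yᴴ (Z + (c : ℂ) • (1 : Matrix (Fin m) (Fin m) ℂ)) := by
    rw [e0, Matrix.fromBlocks_add]
    simp
  rw [e1, Matrix.det_fromBlocks₁₁, Matrix.invOf_eq_nonsing_inv]
  have e2 : Z + (c : ℂ) • (1 : Matrix (Fin m) (Fin m) ℂ) - Yᴴ * X⁻¹ * Y =
      (Z - Yᴴ * X⁻¹ * Y) + (c : ℂ) • 1 := by abel
  rw [e2]
  have h1 := det_one_add hS hc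
  have h2 : X.det = ((X.det.re : ℝ) : ℂ) := (Crest.Agent.R273.Vol_333.det_real hXp.1).symm
  have h3 : 0 < X.det.re := Crest.Agent.R273.Vol_333.det_re_pos hXp
  rw [h2, Complex.re_ofReal_mul, Complex.ofReal_re, mul_comm]
  exact mul_le_mul_of_nonneg_left h1 h3.le

theorem Pm_block (c : ℂ) : (c • ((Pm d m)ᵀ * (Pm d m).map conj)).submatrix finSumFinEquiv
    finSumFinEquiv = Matrix.fromBlocks 0 0 0 (c • (1 : Matrix (Fin m) (Fin m) ℂ)) := by
  have h1 : ∀ (a : Fin d) (b : Fin m), Fin.castAdd m a ≠ Fin.natAdd d b := fun a b h => by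
    have := congrArg Fin.val h
    simp only [Fin.val_castAdd, Fin.val_natAdd] at this
    omega
  ext a b
  rw [Matrix.submatrix_apply, Matrix.smul_apply, Matrix.mul_apply]
  simp only [Matrix.transpose_apply, Matrix.map_apply, Pm, Matrix.of_apply]
  rcases a with a | a <;> rcases b with b | b
  · simp [h1]
  · simp [h1]
  · simp [h1]
  · simp only [finSumFinEquiv_apply_right, Matrix.fromBlocks_apply₂₂, Matrix.smul_apply,
      Matrix.one_apply, smul_eq_mul]
    have h2 : ∀ x y : Fin m, (Fin.natAdd d x = Fin.natAdd d y) = (x = y) := fun x y =>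
      propext ⟨fun h => by simpa [Fin.ext_iff] using h, fun h => by rw [h]⟩
    simp only [h2]
    congr 1
    rw [Finset.sum_eq_single a]
    · by_cases hab : a = b
      · simp [hab]
      · have : ¬ b = a := fun h => hab h.symm
        simp [hab, this]
    · intro c _ hc
      have : ¬ a = c := fun h => hc h.symm
      simp [this]
    · simp

theorem det_low {X G : Matrix (Fin (d + m)) (Fin (d + m)) ℂ} (hG : G.PosDef) {c : ℝ} (hc : 0 ≤ c)
    (h : (X - G - (c : ℂ) • ((Pm d m)ᵀ * (Pm d m).map conj)).PosSemidef) :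
    c ^ m * (lb G).det.re ≤ X.det.re := by
  set Q : Matrix (Fin (d + m)) (Fin (d + m)) ℂ := (c : ℂ) • ((Pm d m)ᵀ * (Pm d m).map conj) with hQ
  have hQp : Q.PosSemidef := by
    have h1 : ((Pm d m).map conj)ᴴ = (Pm d m)ᵀ := by
      ext a b
      simp [Matrix.conjTranspose_apply]
    have h2 := Matrix.posSemidef_conjTranspose_mul_self ((Pm d m).map conj)
    rw [h1] at h2
    exact h2.smul (by exact_mod_cast hc)
  have h1 : (G + Q).det.re ≤ X.det.re := by
    have h2 := det_mono (hG.add_posSemidef hQp) h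
    have h3 : G + Q + (X - G - Q) = X := by abel
    rwa [h3] at h2
  refine le_trans ?_ h1
  have h4 := det_block (hG.submatrix (e := (finSumFinEquiv : Fin d ⊕ Fin m ≃ Fin (d + m)))
    finSumFinEquiv.injective) hc
  have h5 : G.submatrix finSumFinEquiv finSumFinEquiv +
      Matrix.fromBlocks 0 0 0 ((c : ℂ) • (1 : Matrix (Fin m) (Fin m) ℂ)) =
      (G + Q).submatrix finSumFinEquiv finSumFinEquiv := by
    rw [← Pm_block]
    rfl
  rw [h5, Matrix.det_submatrix_equiv_self] at h4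
  exact h4

theorem jac_det {n : ℕ} (J G : Matrix (Fin n) (Fin n) ℂ) :
    (Jᵀ * G * J.map conj).det.re = ‖J.det‖ ^ 2 * G.det.re := by
  have h1 : (J.map conj).det = conj J.det := by
    rw [← RingHom.mapMatrix_apply, ← RingHom.map_det]
  rw [Matrix.det_mul, Matrix.det_mul, Matrix.det_transpose, h1]
  have h2 : J.det * G.det * conj J.det = ((‖J.det‖ ^ 2 : ℝ) : ℂ) * G.det := by
    rw [mul_right_comm, Complex.mul_conj, Complex.normSq_eq_norm_sq]
  rw [h2, Complex.re_ofReal_mul]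

/-! ### the Jacobians -/

variable {M : Type} [TopologicalSpace M] {A : Atl (d + m) M} {T : Type} [TopologicalSpace T]
  {B : Atl d T} {jj : T → M}

/-- the Jacobian of the product chart -/
def JJ (A : Atl (d + m) M) (g : OpenPartialHomeomorph M (Cn d × Cn m)) (i : A.ι)
    (p : Cn d × Cn m) : Matrix (Fin (d + m)) (Fin (d + m)) ℂ :=
  mt (fderiv ℂ (fun z => A.e i (g.symm (spl d m z))) (glu d m p))

/-- compatibility of a product chart with the atlas -/
def PCpt (A : Atl (d + m) M) (g : OpenPartialHomeomorph M (Cn d × Cn m)) : Prop :=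
  ∀ i, ∀ p ∈ g.target, g.symm p ∈ (A.e i).source →
    DifferentiableAt ℂ (fun q => A.e i (g.symm q)) p

variable {g : OpenPartialHomeomorph M (Cn d × Cn m)} {i : A.ι}

theorem diff_JJ (hg : PCpt A g) {p : Cn d × Cn m} (hp : p ∈ g.target)
    (hi : g.symm p ∈ (A.e i).source) :
    DifferentiableAt ℂ (fun z => A.e i (g.symm (spl d m z))) (glu d m p) := by
  have h1 := hg i p hp hi
  have h2 : DifferentiableAt ℂ (fun q => A.e i (g.symm q)) (splE d m (glu d m p)) := by
    rw [splE_apply, spl_glu]; exact h1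
  exact h2.comp (glu d m p) (splE d m).differentiableAt

/-- the Jacobian of the leaf is a block of the Jacobian of the product chart -/
theorem Jp_JJ (hg : PCpt A g) {k : B.ι} {t : T} (ht : t ∈ (B.e k).source)
    (hi : jj t ∈ (A.e i).source)
    (hsy : ∀ z ∈ (B.e k).target, (z, 0) ∈ g.target ∧ g.symm (z, 0) = jj ((B.e k).symm z)) :
    Jp B A jj k i t = (JJ A g i (B.e k t, 0)).submatrix id (Fin.castAdd m) := by
  have hz : B.e k t ∈ (B.e k).target := (B.e k).map_source ht
  obtain ⟨h1, h2⟩ := hsy _ hz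
  rw [(B.e k).left_inv ht] at h2
  have e1 : rd B A jj k i =ᶠ[𝓝 (B.e k t)]
      fun z => A.e i (g.symm (spl d m (glu d m (z, 0)))) := by
    filter_upwards [(B.e k).open_target.mem_nhds hz] with z hz
    show A.e i (jj ((B.e k).symm z)) = _
    rw [spl_glu, (hsy z hz).2]
  have h3 := diff_JJ hg h1 (by rw [h2]; exact hi)
  let inc : Cn d →L[ℂ] Cn (d + m) :=
    ((splE d m).symm : (Cn d × Cn m) →L[ℂ] Cn (d + m)).comp (ContinuousLinearMap.inl ℂ (Cn d) (Cn m))
  have hinc : ∀ z, inc z = glu d m (z, 0) := fun z => by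
    show (splE d m).symm (z, 0) = _
    rw [ContinuousLinearEquiv.symm_apply_eq, splE_apply, spl_glu]
  have h4 : fderiv ℂ (rd B A jj k i) (B.e k t) =
      (fderiv ℂ (fun z => A.e i (g.symm (spl d m z))) (glu d m (B.e k t, 0))).comp inc := by
    rw [e1.fderiv_eq]
    have h5 : HasFDerivAt (fun z => A.e i (g.symm (spl d m z)))
      (fderiv ℂ (fun z => A.e i (g.symm (spl d m z))) (glu d m (B.e k t, 0))) (inc (B.e k t)) := by
      rw [hinc]; exact h3.hasFDerivAt
    have h6 := h5.comp (B.e k t) inc.hasFDerivAt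
    have h7 : ((fun z => A.e i (g.symm (spl d m z))) ∘ inc) =
        fun z => A.e i (g.symm (spl d m (glu d m (z, 0)))) := by
      funext z
      show A.e i (g.symm (spl d m (inc z))) = _
      rw [hinc]
    rw [h7] at h6
    exact h6.fderiv
  rw [Jp_eq, h4, mt_comp]
  ext a b
  rw [Matrix.mul_apply, Matrix.submatrix_apply]
  have h8 : ∀ c, mt inc c b = if c = Fin.castAdd m b then 1 else 0 := by
    intro c
    show (inc (EuclideanSpace.single b 1)) c = _
    rw [hinc]
    refine Fin.addCases (fun c => ?_) (fun c => ?_) c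
    · simp [glu, Pi.single_apply, Fin.ext_iff]
    · simp [glu, Fin.ext_iff]
      omega
  simp only [h8]
  simp [JJ]

/-- derivative of `f` in the chart `i` -/
def Df (A : Atl (d + m) M) (f : M → Cn m) (i : A.ι) (x : M) : Matrix (Fin m) (Fin (d + m)) ℂ :=
  mt (fderiv ℂ (fun z => f ((A.e i).symm z)) (A.e i x))

/-- `Df * J = Pm` -/
theorem Df_JJ (hg : PCpt A g) {f : M → Cn m} (hsnd : ∀ x ∈ g.source, (g x).2 = f x)
    {p : Cn d × Cn m} (hp : p ∈ g.target) (hi : g.symm p ∈ (A.e i).source)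
    (hf : DifferentiableAt ℂ (fun z => f ((A.e i).symm z)) (A.e i (g.symm p))) :
    Df A f i (g.symm p) * JJ A g i p = Pm d m := by
  have h3 := diff_JJ hg hp hi
  have h5 : HasFDerivAt (fun z => f ((A.e i).symm z))
      (fderiv ℂ (fun z => f ((A.e i).symm z)) (A.e i (g.symm p)))
      (A.e i (g.symm (spl d m (glu d m p)))) := by
    rw [spl_glu]; exact hf.hasFDerivAt
  have h6 := h5.comp (glu d m p) h3.hasFDerivAt
  let pr : Cn (d + m) →L[ℂ] Cn m :=
    (ContinuousLinearMap.snd ℂ (Cn d) (Cn m)).comp ((splE d m) : Cn (d + m) →L[ℂ] (Cn d × Cn m))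
  have h7 : ((fun z => f ((A.e i).symm z)) ∘ fun z => A.e i (g.symm (spl d m z))) =ᶠ[𝓝 (glu d m p)]
      pr := by
    have h8 : ∀ᶠ z in 𝓝 (glu d m p), spl d m z ∈ g.target ∧ g.symm (spl d m z) ∈ (A.e i).source := by
      have h9 : ContinuousAt (spl d m) (glu d m p) := (splE d m).continuous.continuousAt
      refine h9.eventually (p := fun q => q ∈ g.target ∧ g.symm q ∈ (A.e i).source) ?_
      rw [spl_glu]
      exact (g.symm.isOpen_inter_preimage (A.e i).open_source).mem_nhds ⟨hp, hi⟩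
    filter_upwards [h8] with z hz
    show f ((A.e i).symm (A.e i (g.symm (spl d m z)))) = (spl d m z).2
    rw [(A.e i).left_inv hz.2, ← hsnd _ (g.map_target hz.1), g.right_inv hz.1]
  have h9 : (fderiv ℂ (fun z => f ((A.e i).symm z)) (A.e i (g.symm p))).comp
      (fderiv ℂ (fun z => A.e i (g.symm (spl d m z))) (glu d m p)) = pr := by
    rw [← h6.fderiv, h7.fderiv_eq]
    exact pr.fderiv
  rw [Df, JJ, ← mt_comp, h9]
  ext b a
  show (spl d m (EuclideanSpace.single a 1)).2 b = _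
  simp only [spl, Pm, Matrix.of_apply, PiLp.single_apply]
  simp only [eq_comm]

/-- the Jacobian is invertible -/
theorem det_JJ (hg : PCpt A g)
    (hg' : ∀ i, ∀ x ∈ g.source, x ∈ (A.e i).source →
      DifferentiableAt ℂ (fun z => g ((A.e i).symm z)) (A.e i x))
    {p : Cn d × Cn m} (hp : p ∈ g.target) (hi : g.symm p ∈ (A.e i).source) :
    (JJ A g i p).det ≠ 0 := by
  have h3 := diff_JJ hg hp hi
  have h4 := hg' i _ (g.map_target hp) hi
  have h5 : HasFDerivAt (fun z => g ((A.e i).symm z))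
      (fderiv ℂ (fun z => g ((A.e i).symm z)) (A.e i (g.symm p)))
      (A.e i (g.symm (spl d m (glu d m p)))) := by
    rw [spl_glu]; exact h4.hasFDerivAt
  have h6 := ((splE d m).symm.hasFDerivAt (x := g ((A.e i).symm (A.e i (g.symm
    (spl d m (glu d m p))))))).comp (glu d m p) (h5.comp (glu d m p) h3.hasFDerivAt)
  have h7 : (((splE d m).symm : (Cn d × Cn m) → Cn (d + m)) ∘
      ((fun z => g ((A.e i).symm z)) ∘ fun z => A.e i (g.symm (spl d m z)))) =ᶠ[𝓝 (glu d m p)]
      id := by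
    have h8 : ∀ᶠ z in 𝓝 (glu d m p), spl d m z ∈ g.target ∧ g.symm (spl d m z) ∈ (A.e i).source := by
      have h9 : ContinuousAt (spl d m) (glu d m p) := (splE d m).continuous.continuousAt
      refine h9.eventually (p := fun q => q ∈ g.target ∧ g.symm q ∈ (A.e i).source) ?_
      rw [spl_glu]
      exact (g.symm.isOpen_inter_preimage (A.e i).open_source).mem_nhds ⟨hp, hi⟩
    filter_upwards [h8] with z hz
    show (splE d m).symm (g ((A.e i).symm (A.e i (g.symm (spl d m z))))) = z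
    rw [(A.e i).left_inv hz.2, g.right_inv hz.1, ContinuousLinearEquiv.symm_apply_eq]
    rfl
  have h9 := h6.congr_of_eventuallyEq h7.symm
  have h10 := h9.unique (hasFDerivAt_id _)
  have h11 := congrArg Map_835.mt h10
  rw [← ContinuousLinearMap.comp_assoc, mt_comp] at h11
  have h12 := congrArg Matrix.det h11
  rw [Matrix.det_mul, mt_id, Matrix.det_one] at h12
  exact right_ne_zero_of_mul (h12.trans_ne one_ne_zero)

/-- **the pointwise estimate** -/
theorem low_pt (hg : PCpt A g) {f : M → Cn m} (hsnd : ∀ x ∈ g.source, (g x).2 = f x)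
    {p : Cn d × Cn m} (hp : p ∈ g.target) (hi : g.symm p ∈ (A.e i).source)
    (hf : DifferentiableAt ℂ (fun z => f ((A.e i).symm z)) (A.e i (g.symm p)))
    {K be : Kah A} {c : ℝ} (hc : 0 ≤ c)
    (hJ : (JJ A g i p).det ≠ 0)
    (hlow : (K.g i (g.symm p) - be.g i (g.symm p) -
      (c : ℂ) • ((Df A f i (g.symm p))ᵀ * (Df A f i (g.symm p)).map conj)).PosSemidef) :
    c ^ m * (lb ((JJ A g i p)ᵀ * be.g i (g.symm p) * (JJ A g i p).map conj)).det.re ≤
      ‖(JJ A g i p).det‖ ^ 2 * (volK K).w i (g.symm p) := by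
  set x := g.symm p with hx
  set J := JJ A g i p with hJd
  have hJs : (J.map conj)ᴴ = Jᵀ := by
    ext a b
    simp [Matrix.conjTranspose_apply]
  have h1 := hlow.conjTranspose_mul_mul_same (J.map conj)
  rw [hJs] at h1
  have e1 : Jᵀ * (K.g i x - be.g i x - (c : ℂ) • ((Df A f i x)ᵀ * (Df A f i x).map conj)) *
      J.map conj = Jᵀ * K.g i x * J.map conj - Jᵀ * be.g i x * J.map conj -
        (c : ℂ) • ((Pm d m)ᵀ * (Pm d m).map conj) := by
    rw [← Df_JJ hg hsnd hp hi hf, ← hx, ← hJd, Matrix.transpose_mul, Matrix.map_mul]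
    simp only [Matrix.mul_sub, Matrix.sub_mul, Matrix.mul_smul, Matrix.smul_mul, Matrix.mul_assoc]
  rw [e1] at h1
  have h2 : (Jᵀ * be.g i x * J.map conj).PosDef := by
    have h3 := (be.pos i x hi).conjTranspose_mul_mul_same (B := J.map conj) ?_
    · rwa [hJs] at h3
    · refine Matrix.mulVec_injective_of_isUnit ?_
      rw [Matrix.isUnit_iff_isUnit_det, ← RingHom.mapMatrix_apply, ← RingHom.map_det, isUnit_iff_ne_zero]
      simpa using hJ
  refine (det_low h2 hc h1).trans (le_of_eq ?_)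
  rw [jac_det]
  rfl

end

end Crest.Agent.R281.Om_854
end

-- ▼ part R281/Om3_854

/-!
# R281 (S0424), S6-OMEGA (helper854), part 3: (LOC), the volume of a leaf is at most the volume of
thin tubes around it
-/

set_option autoImplicit false
set_option linter.unusedSectionVars false

open Set Filter Topology Complex MeasureTheory Metric
open scoped ContDiff Matrix ComplexConjugate Manifold ComplexOrder ENNReal Pointwise

namespace Crest.Agent.R281.Om_854

open Crest.Agent.R275.Geo Crest.Agent.R275.Core144 Crest.Agent.R275.EDR890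
open Crest.Agent.R273.Defs_333 Crest.Agent.R273.Hess_333 Crest.Agent.R273.HessB_333
open Crest.Agent.R273.HM_333 Crest.Agent.R273.Kah_333 Crest.Agent.R273.Vol_333
open Crest.Agent.R273.Vm_333 Crest.Agent.R273.Map_835 Crest.Agent.R273.KahI_645
open Crest.Agent.R275.Pai323 Crest.Agent.R275.C1d194 Crest.Agent.R273
open Crest.Agent.R281.S6D_664

noncomputable section

variable {d m : ℕ}

/-! ### balls -/

theorem volume_bl {δ : ℝ} (hδ : 0 < δ) :
    volume (bl m δ) = ENNReal.ofReal (δ ^ m) * volume (bl m 1) := by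
  have hs : 0 < Real.sqrt δ := Real.sqrt_pos.2 hδ
  have h1 : bl m δ = (Real.sqrt δ) • bl m 1 := by
    ext y
    rw [mem_smul_set_iff_inv_smul_mem₀ hs.ne']
    show ‖(cc y : Cn m)‖ ^ 2 ≤ δ ↔ ‖(cc ((Real.sqrt δ)⁻¹ • y) : Cn m)‖ ^ 2 ≤ 1
    have h2 : (cc ((Real.sqrt δ)⁻¹ • y) : Cn m) = (Real.sqrt δ)⁻¹ • cc y :=
      (rcE m).symm.map_smul _ _
    rw [h2, norm_smul, mul_pow, Real.norm_eq_abs, sq_abs, inv_pow, Real.sq_sqrt hδ.le,
      inv_mul_le_iff₀ hδ, mul_one]
  rw [h1, Measure.addHaar_smul]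
  congr 2
  have h3 : Module.finrank ℝ (RI m → ℝ) = 2 * m := by
    rw [Module.finrank_fintype_fun_eq_card, Fintype.card_prod, Fintype.card_fin, Fintype.card_fin,
      mul_comm]
  rw [h3, pow_mul, Real.sq_sqrt hδ.le, abs_of_nonneg (by positivity)]

/-! ### continuity -/

variable {M : Type} [TopologicalSpace M] {A : Atl (d + m) M} {T : Type} [TopologicalSpace T]
  {B : Atl d T} {jj : T → M}
  {g : OpenPartialHomeomorph M (Cn d × Cn m)} {i : A.ι}

theorem continuousAt_JJ (hg : PCpt A g) {p : Cn d × Cn m} (hp : p ∈ g.target)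
    (hi : g.symm p ∈ (A.e i).source) (a b : Fin (d + m)) :
    ContinuousAt (fun p => JJ A g i p a b) p := by
  set O1 : Set (Cn d × Cn m) := g.target ∩ g.symm ⁻¹' (A.e i).source with hO1
  have oO : IsOpen O1 := g.symm.isOpen_inter_preimage (A.e i).open_source
  have h1 : ∀ᶠ z in 𝓝 (glu d m p), DifferentiableAt ℂ (fun z => A.e i (g.symm (spl d m z))) z := by
    have h8 : ∀ᶠ z in 𝓝 (glu d m p), spl d m z ∈ O1 := by
      have h9 : ContinuousAt (spl d m) (glu d m p) := (splE d m).continuous.continuousAt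
      refine h9.eventually (p := fun q => q ∈ O1) ?_
      rw [spl_glu]
      exact oO.mem_nhds ⟨hp, hi⟩
    filter_upwards [h8] with z hz
    have := diff_JJ hg hz.1 hz.2
    rwa [glu_spl] at this
  have h2 := (je_smooth h1 b a).continuousAt
  have h3 : ContinuousAt (glu d m) p := (splE d m).symm.continuous.continuousAt
  exact ContinuousAt.comp (g := Je (fun z => A.e i (g.symm (spl d m z))) b a) h2 h3

theorem continuousAt_g (K : Kah A) {p : Cn d × Cn m} (hp : p ∈ g.target)
    (hi : g.symm p ∈ (A.e i).source) (a b : Fin (d + m)) :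
    ContinuousAt (fun p => K.g i (g.symm p) a b) p := by
  have h1 : ContinuousAt (fun z => K.g i ((A.e i).symm z) a b) (A.e i (g.symm p)) :=
    ((K.sm i a b).continuousOn).continuousAt
      ((A.e i).open_target.mem_nhds ((A.e i).map_source hi))
  have h2 : ContinuousAt (fun p => A.e i (g.symm p)) p :=
    ContinuousAt.comp (g := A.e i) ((A.e i).continuousAt hi) (g.continuousAt_symm hp)
  have h3 : ContinuousAt (fun p => K.g i ((A.e i).symm (A.e i (g.symm p))) a b) p :=
    ContinuousAt.comp (g := fun z => K.g i ((A.e i).symm z) a b) h1 h2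
  refine h3.congr ?_
  filter_upwards [(g.symm.isOpen_inter_preimage (A.e i).open_source).mem_nhds ⟨hp, hi⟩] with q hq
  rw [(A.e i).left_inv hq.2]

/-- the density of the leaf block in the product chart -/
def qq (K : Kah A) (g : OpenPartialHomeomorph M (Cn d × Cn m)) (i : A.ι) (p : Cn d × Cn m) : ℝ :=
  (lb ((JJ A g i p)ᵀ * K.g i (g.symm p) * (JJ A g i p).map conj)).det.re

theorem continuousAt_qq (K : Kah A) (hg : PCpt A g) {p : Cn d × Cn m} (hp : p ∈ g.target)
    (hi : g.symm p ∈ (A.e i).source) : ContinuousAt (qq K g i) p := by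
  have h1 : ContinuousAt (fun p => lb ((JJ A g i p)ᵀ * K.g i (g.symm p) *
      (JJ A g i p).map conj)) p := by
    rw [ContinuousAt]
    refine tendsto_pi_nhds.2 fun a => tendsto_pi_nhds.2 fun b => ?_
    simp only [lb, Matrix.submatrix_apply, Matrix.mul_apply, Matrix.transpose_apply,
      Matrix.map_apply]
    refine tendsto_finsetSum _ fun c _ => Tendsto.mul (tendsto_finsetSum _ fun e _ =>
      Tendsto.mul (continuousAt_JJ hg hp hi _ _) (continuousAt_g K hp hi _ _)) ?_
    exact (continuous_conj.tendsto _).comp (continuousAt_JJ hg hp hi _ _)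
  have h2 : Continuous fun X : Matrix (Fin d) (Fin d) ℂ => X.det.re :=
    Complex.continuous_re.comp continuous_id.matrix_det
  exact h2.continuousAt.comp h1

/-- at the leaf the density is that of the induced metric -/
theorem qq_leaf (K : Kah A) (hg : PCpt A g) (hol : HolMap B A jj)
    (imm : Imm B A jj) {k : B.ι} {t : T} (ht : t ∈ (B.e k).source)
    (hi : jj t ∈ (A.e i).source)
    (hsy : ∀ z ∈ (B.e k).target, (z, 0) ∈ g.target ∧ g.symm (z, 0) = jj ((B.e k).symm z)) :
    qq K g i (B.e k t, 0) = ((pullI K hol imm).g k t).det.re := by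
  have hz : B.e k t ∈ (B.e k).target := (B.e k).map_source ht
  have h2 := (hsy _ hz).2
  rw [(B.e k).left_inv ht] at h2
  rw [pullI_g K hol imm ht hi, Jp_JJ hg ht hi hsy, qq, h2]
  congr 2

/-- product charts along the leaf `T` over `f = 0` -/
def PCs (A : Atl (d + m) M) (X0 : Set M) (f : M → Cn m) (B : Atl d T) (jj : T → M) : Prop :=
  ∀ k : B.ι, ∃ g : OpenPartialHomeomorph M (Cn d × Cn m), g.source ⊆ X0 ∧ PCpt A g ∧
    (∀ i, ∀ x ∈ g.source, x ∈ (A.e i).source →
      DifferentiableAt ℂ (fun z => g ((A.e i).symm z)) (A.e i x)) ∧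
    (∀ x ∈ g.source, (g x).2 = f x) ∧
    ∀ z ∈ (B.e k).target, (z, 0) ∈ g.target ∧ g.symm (z, 0) = jj ((B.e k).symm z)

variable [T2Space M] [MeasurableSpace M] [BorelSpace M] [T2Space T] [MeasurableSpace T] [BorelSpace T]
  [Countable A.ι] [Countable B.ι]

/-- **(LOC)** -/
theorem loc {X0 : Set M} {f : M → Cn m} (hpc : PCs A X0 f B jj) (cj : Continuous jj)
    (hf : ∀ i, ∀ x ∈ X0, x ∈ (A.e i).source →
      DifferentiableAt ℂ (fun z => f ((A.e i).symm z)) (A.e i x))
    (hol : HolMap B A jj) (imm : Imm B A jj)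
    (be : Kah A) (Kd : ℝ → Kah A) {c : ℝ} (hc : 0 ≤ c)
    (hlow : ∀ i, ∀ C, IsCompact C → C ⊆ (A.e i).source ∩ X0 → ∀ᶠ δ in 𝓝[>] (0 : ℝ),
      ∀ x ∈ C, ‖f x‖ ^ 2 ≤ δ → ((Kd δ).g i x - be.g i x -
        ((c / δ : ℝ) : ℂ) • ((Df A f i x)ᵀ * (Df A f i x).map conj)).PosSemidef) :
    ∀ t : T, ∃ U ∈ 𝓝 t, ∀ E ⊆ U, IsCompact E → ∀ O, IsOpen O → jj '' E ⊆ O →
      ∀ᶠ δ in 𝓝[>] (0 : ℝ), (ENNReal.ofReal (c ^ m / 2) * volume (bl m 1)) *
        vm (volK (pullI be hol imm)) E ≤ vm (volK (Kd δ)) O := by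
  intro t
  obtain ⟨k, hk⟩ := B.cover t
  obtain ⟨i, hi⟩ := A.cover (jj t)
  obtain ⟨g, hgX, hg, hg', hsnd, hsy⟩ := hpc k
  have oU : IsOpen ((B.e k).source ∩ jj ⁻¹' (A.e i).source) :=
    (B.e k).open_source.inter ((A.e i).open_source.preimage cj)
  refine ⟨_, oU.mem_nhds ⟨hk, hi⟩, fun E hE cE O oO hEO => ?_⟩
  set E' : Set (Cn d) := B.e k '' E with hE'
  have cE' : IsCompact E' := cE.image_of_continuousOn
    ((B.e k).continuousOn.mono fun x hx => (hE hx).1)
  have hE't : ∀ z ∈ E', z ∈ (B.e k).target ∧ (B.e k).symm z ∈ E := by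
    rintro _ ⟨x, hx, rfl⟩
    exact ⟨(B.e k).map_source (hE hx).1, by rw [(B.e k).left_inv (hE hx).1]; exact hx⟩
  set O1 : Set (Cn d × Cn m) := g.target ∩ g.symm ⁻¹' ((A.e i).source ∩ O) with hO1
  have oO1 : IsOpen O1 := g.symm.isOpen_inter_preimage ((A.e i).open_source.inter oO)
  have cq : ∀ p ∈ O1, ContinuousAt (qq be g i) p := fun p hp => continuousAt_qq be hg hp.1 hp.2.1
  have ci : Continuous fun p : Cn d × Cn m => ((p.1, 0) : Cn d × Cn m) := by fun_prop
  set W : Set (Cn d × Cn m) :=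
    {p | p ∈ O1 ∧ (p.1, (0 : Cn m)) ∈ O1 ∧ qq be g i (p.1, 0) < 2 * qq be g i p} with hW
  have oW : IsOpen W := by
    rw [isOpen_iff_mem_nhds]
    rintro p ⟨h1, h2, h3⟩
    have h4 : ContinuousAt (fun p : Cn d × Cn m => qq be g i (p.1, 0)) p :=
      ContinuousAt.comp (g := qq be g i) (cq _ h2) ci.continuousAt
    have h5 : ContinuousAt (fun p : Cn d × Cn m => 2 * qq be g i p) p :=
      (cq _ h1).const_mul 2
    filter_upwards [oO1.mem_nhds h1, ci.continuousAt.preimage_mem_nhds (oO1.mem_nhds h2),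
      h4.eventually_lt h5 h3] with q hq1 hq2 hq3
    exact ⟨hq1, hq2, hq3⟩
  have hz0 : ∀ z ∈ E', (z, (0 : Cn m)) ∈ O1 ∧ qq be g i (z, 0) =
      ((pullI be hol imm).g k ((B.e k).symm z)).det.re := by
    intro z hz
    obtain ⟨h1, h2⟩ := hE't z hz
    obtain ⟨h3, h4⟩ := hsy z h1
    refine ⟨⟨h3, ?_, ?_⟩, ?_⟩
    · rw [h4]; exact (hE h2).2
    · rw [h4]; exact hEO ⟨_, h2, rfl⟩
    · have h5 := qq_leaf be hg hol imm (hE h2).1 (hE h2).2 hsy
      rwa [(B.e k).right_inv h1] at h5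
  have hpos : ∀ z ∈ E', 0 < qq be g i (z, 0) := by
    intro z hz
    rw [(hz0 z hz).2]
    exact det_re_pos ((pullI be hol imm).pos k _ (hE (hE't z hz).2).1)
  have hEW : E' ×ˢ ({0} : Set (Cn m)) ⊆ W := by
    rintro ⟨z, w⟩ ⟨hz, hw⟩
    obtain rfl : w = 0 := hw
    exact ⟨(hz0 z hz).1, (hz0 z hz).1, by linarith [hpos z hz]⟩
  obtain ⟨u, v, ou, ov, hu, hv, huv⟩ := generalized_tube_lemma cE' isCompact_singleton oW hEW
  obtain ⟨r, hr, hrv⟩ := Metric.isOpen_iff.1 ov 0 (hv rfl)
  set C : Set M := g.symm '' (E' ×ˢ closedBall (0 : Cn m) (r / 2)) with hC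
  have hball : closedBall (0 : Cn m) (r / 2) ⊆ v :=
    (closedBall_subset_ball (by linarith)).trans hrv
  have hsubW : E' ×ˢ closedBall (0 : Cn m) (r / 2) ⊆ W :=
    (prod_mono hu hball).trans huv
  have cC : IsCompact C := (cE'.prod (isCompact_closedBall _ _)).image_of_continuousOn
    (g.continuousOn_symm.mono fun p hp => (hsubW hp).1.1)
  have hCs : C ⊆ (A.e i).source ∩ X0 := by
    rintro _ ⟨p, hp, rfl⟩
    exact ⟨(hsubW hp).1.2.1, hgX (g.map_target (hsubW hp).1.1)⟩
  have hev : ∀ᶠ δ in 𝓝[>] (0 : ℝ), δ < (r / 2) ^ 2 :=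
    mem_nhdsWithin_of_mem_nhds (Iio_mem_nhds (by positivity))
  filter_upwards [hlow i C cC hCs, hev, self_mem_nhdsWithin] with δ h1 h2 h3
  have hδ : 0 < δ := h3
  have hsub : E' ×ˢ {w : Cn m | ‖w‖ ^ 2 ≤ δ} ⊆ E' ×ˢ closedBall (0 : Cn m) (r / 2) := by
    refine prod_mono le_rfl fun w hw => ?_
    rw [mem_closedBall_zero_iff]
    have h4 : ‖w‖ ^ 2 ≤ (r / 2) ^ 2 := le_trans hw h2.le
    exact (pow_le_pow_iff_left₀ (norm_nonneg _) (by positivity) two_ne_zero).1 h4
  set h' := volK (pullI be hol imm) with hh'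
  have hm : AEMeasurable (fun y : RI d → ℝ => ENNReal.ofReal
      (((pullI be hol imm).g k ((B.e k).symm (cc y))).det.re))
      (volume.restrict {y : RI d → ℝ | cc y ∈ E'}) :=
    (aemeas_dn h' k).mono_measure (Measure.restrict_mono
      (show {y : RI d → ℝ | cc y ∈ E'} ⊆ Ui B k from fun y hy => (hE't _ hy).1) le_rfl)
  have key := vm_box (volK (Kd δ)) i cE' (δ := δ) (κ := (c / δ) ^ m / 2) (by positivity)
    (Ψ := g.symm) (O := O1) oO1 (hsub.trans (hsubW.trans fun p hp => hp.1))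
    (fun p hp => hp.2.1) (g.continuousOn_symm.mono fun p hp => hp.1)
    (fun p hp => (hg i p hp.1 hp.2.1).differentiableWithinAt)
    (g.symm.injOn.mono fun p hp => hp.1)
    (ρ := fun z => ((pullI be hol imm).g k ((B.e k).symm z)).det.re) hm ?_
  · have h5 : g.symm '' (E' ×ˢ {w : Cn m | ‖w‖ ^ 2 ≤ δ}) ⊆ O := by
      rintro _ ⟨p, hp, rfl⟩
      exact (hsubW (hsub hp)).1.2.2
    refine le_trans (le_of_eq ?_) (key.trans (measure_mono h5))
    have h6 : vm h' E = ∫⁻ y in {y : RI d → ℝ | cc y ∈ E'}, ENNReal.ofReal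
        (((pullI be hol imm).g k ((B.e k).symm (cc y))).det.re) := by
      rw [vm_apply_chart h' cE.isClosed.measurableSet (fun x hx => (hE hx).1),
        chm_apply h' k cE.isClosed.measurableSet]
      have h7 : {y : RI d → ℝ | y ∈ Ui B k ∧ sg B k y ∈ E} = {y : RI d → ℝ | cc y ∈ E'} := by
        ext y
        constructor
        · rintro ⟨hy, hyE⟩
          exact ⟨_, hyE, (B.e k).right_inv hy⟩
        · intro hy
          exact hE't _ hy
      rw [h7]
      rfl
    rw [h6, volume_bl hδ]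
    have h8 : ENNReal.ofReal (c ^ m / 2) = ENNReal.ofReal ((c / δ) ^ m / 2) *
        ENNReal.ofReal (δ ^ m) := by
      rw [← ENNReal.ofReal_mul (by positivity)]
      congr 1
      rw [div_pow]
      field_simp
    rw [h8]
    ring
  · intro z hz w hw
    have hp : (z, w) ∈ E' ×ˢ {w : Cn m | ‖w‖ ^ 2 ≤ δ} := ⟨hz, hw⟩
    have hpW := hsubW (hsub hp)
    have h5 : ‖f (g.symm (z, w))‖ ^ 2 ≤ δ := by
      rw [← hsnd _ (g.map_target hpW.1.1), g.right_inv hpW.1.1]
      exact hw
    have h6 := low_pt (c := c / δ) hg hsnd hpW.1.1 hpW.1.2.1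
      (hf i _ (hgX (g.map_target hpW.1.1)) hpW.1.2.1) (K := Kd δ) (be := be) (by positivity)
      (det_JJ hg hg' hpW.1.1 hpW.1.2.1) (h1 _ ⟨_, hsub hp, rfl⟩ h5)
    have h7 := hpW.2.2
    have h8 : ((pullI be hol imm).g k ((B.e k).symm z)).det.re ≤ 2 * qq be g i (z, w) := by
      rw [← (hz0 z hz).2]; exact h7.le
    have h9 : 0 ≤ (c / δ) ^ m := by positivity
    calc (c / δ) ^ m / 2 * ((pullI be hol imm).g k ((B.e k).symm z)).det.re
        ≤ (c / δ) ^ m / 2 * (2 * qq be g i (z, w)) :=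
          mul_le_mul_of_nonneg_left h8 (by positivity)
      _ = (c / δ) ^ m * qq be g i (z, w) := by ring
      _ ≤ _ := h6

end

end Crest.Agent.R281.Om_854
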