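import Mathlib
import Crest.Agent.R281.S6D_664
import Crest.Agent.R281.ThnM_280
import Crest.Agent.R281.Thin3_524

-- ▼ part R281/Tube1_989
section

/-!
# R281 (S0424), DIV 6: (TUBE) of helper524 #7478 (= OM-TOP of helper854 #7436) — helper989

`X` Hausdorff, `X0` a set, `y : X → B`.  A point is regular when near it `y` is the first
coordinate of a chart into `B × F`.  The leaf of `x` is the connected component of `x` in
`X0 ∩ y⁻¹{y x}`.  A point is good when its leaf is compact and consists of regular points.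

`tube` : a compact regular leaf has arbitrarily small open neighbourhoods `W` that are saturated,
with `y(W)` a ball, whose leaves are exactly the (compact, connected) fibres of `y` in `W`, and
`y : W → ball` proper.  `isOpen_good` : the good points are open.
-/

set_option autoImplicit false
set_option linter.unusedSectionVars false

open Set Filter Topology Metric

namespace Crest.Agent.R281.Tube1_989

variable {X B F : Type*} [TopologicalSpace X]
  [NormedAddCommGroup B] [NormedSpace ℝ B] [NormedAddCommGroup F] [NormedSpace ℝ F]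

/-- regular points: `y` is the first coordinate of a chart -/
def Reg (F : Type*) [NormedAddCommGroup F] (X0 : Set X) (y : X → B) : Set X :=
  {p | ∃ e : OpenPartialHomeomorph X (B × F), p ∈ e.source ∧ e.source ⊆ X0 ∧
    ∀ q ∈ e.source, (e q).1 = y q}

/-- the leaf of `x` -/
def leaf (X0 : Set X) (y : X → B) (x : X) : Set X :=
  connectedComponentIn (X0 ∩ y ⁻¹' {y x}) x

/-- good points: compact regular leaf -/
def Good (F : Type*) [NormedAddCommGroup F] (X0 : Set X) (y : X → B) (x : X) : Prop :=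
  x ∈ X0 ∧ IsCompact (leaf X0 y x) ∧ leaf X0 y x ⊆ Reg F X0 y

variable {X0 : Set X} {y : X → B}

lemma leaf_subset (x : X) : leaf X0 y x ⊆ X0 ∩ y ⁻¹' {y x} := connectedComponentIn_subset _ _

lemma mem_leaf {x : X} (hx : x ∈ X0) : x ∈ leaf X0 y x :=
  mem_connectedComponentIn ⟨hx, rfl⟩

lemma leaf_preconnected (x : X) : IsPreconnected (leaf X0 y x) :=
  isPreconnected_connectedComponentIn

lemma leaf_connected {x : X} (hx : x ∈ X0) : IsConnected (leaf X0 y x) :=
  ⟨⟨x, mem_leaf hx⟩, leaf_preconnected x⟩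

lemma leaf_y {x p : X} (hp : p ∈ leaf X0 y x) : y p = y x := (leaf_subset x hp).2

lemma leaf_X0 {x p : X} (hp : p ∈ leaf X0 y x) : p ∈ X0 := (leaf_subset x hp).1


/-- a preconnected subset of the fibre that meets the leaf is in the leaf -/
lemma subset_leaf {x p : X} {S : Set X} (hS : IsPreconnected S) (hSX : S ⊆ X0)
    (hSy : ∀ q ∈ S, y q = y x) (hpS : p ∈ S) (hp : p ∈ leaf X0 y x) : S ⊆ leaf X0 y x := by
  have h1 : S ⊆ connectedComponentIn (X0 ∩ y ⁻¹' {y x}) p :=
    hS.subset_connectedComponentIn hpS fun q hq => ⟨hSX hq, hSy q hq⟩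
  have h2 : leaf X0 y x = connectedComponentIn (X0 ∩ y ⁻¹' {y x}) p :=
    connectedComponentIn_eq hp
  rwa [h2]


/-- the box of a chart -/
def bx (e : OpenPartialHomeomorph X (B × F)) (b : B) (c : F) (r ρ : ℝ) : Set X :=
  e.source ∩ e ⁻¹' (ball b r ×ˢ ball c ρ)

lemma bx_open (e : OpenPartialHomeomorph X (B × F)) (b : B) (c : F) (r ρ : ℝ) :
    IsOpen (bx e b c r ρ) :=
  e.isOpen_inter_preimage (isOpen_ball.prod isOpen_ball)

variable [FiniteDimensional ℝ F]

/-- **(TUBE)** -/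
theorem tube [T2Space X] {x : X} (hx : Good F X0 y x) {O : Set X} (hO : IsOpen O)
    (hLO : leaf X0 y x ⊆ O) :
    ∃ r : ℝ, 0 < r ∧ ∃ W : Set X, IsOpen W ∧ leaf X0 y x ⊆ W ∧ W ⊆ O ∧ W ⊆ Reg F X0 y ∧
      y '' W = ball (y x) r ∧
      (∀ x' ∈ W, leaf X0 y x' = W ∩ y ⁻¹' {y x'} ∧ Good F X0 y x') ∧
      ∀ K ⊆ ball (y x) r, IsCompact K → IsCompact (W ∩ y ⁻¹' K) := by
  classical
  obtain ⟨hx0, hLc, hLR⟩ := hx
  set L := leaf X0 y x with hL
  set b0 := y x with hb0
  -- local data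
  have loc : ∀ p ∈ L, ∃ (e : OpenPartialHomeomorph X (B × F)) (c : F) (ρ : ℝ), 0 < ρ ∧
      p ∈ e.source ∧ e p = (b0, c) ∧ e.source ⊆ X0 ∧ (∀ q ∈ e.source, (e q).1 = y q) ∧
      closedBall b0 ρ ×ˢ closedBall c ρ ⊆ e.target ∩ e.symm ⁻¹' O := by
    intro p hp
    obtain ⟨e, he, heX, hey⟩ := hLR hp
    have h1 : e p = (b0, (e p).2) := by
      ext
      · rw [hey p he]; exact leaf_y hp
      · rfl
    have h2 : IsOpen (e.target ∩ e.symm ⁻¹' O) := e.isOpen_inter_preimage_symm hO
    have h3 : (b0, (e p).2) ∈ e.target ∩ e.symm ⁻¹' O := by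
      rw [← h1]
      refine ⟨e.map_source he, ?_⟩
      simp only [mem_preimage, e.left_inv he]
      exact hLO hp
    obtain ⟨ρ, hρ, hρs⟩ := Metric.isOpen_iff.1 h2 _ h3
    refine ⟨e, (e p).2, ρ / 2, by positivity, he, h1, heX, hey, ?_⟩
    rw [closedBall_prod_same]
    exact (closedBall_subset_ball (by linarith)).trans hρs
  haveI : Nonempty (OpenPartialHomeomorph X (B × F)) := ⟨(hLR (mem_leaf hx0)).choose⟩
  choose! E c ρ hρ hpE hEp hEX hEy hEt using loc
  -- plaques over `b0` are in the leaf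
  have plaque : ∀ p ∈ L, ∀ f ∈ closedBall (c p) (ρ p), (E p).symm (b0, f) ∈ L := by
    intro p hp f hf
    have hsub : ({b0} : Set B) ×ˢ closedBall (c p) (ρ p) ⊆ (E p).target := by
      rintro ⟨b, f'⟩ ⟨hb, hf'⟩
      rw [mem_singleton_iff] at hb
      simp only at hb hf'
      subst hb
      exact (hEt p hp ⟨mem_closedBall_self (hρ p hp).le, hf'⟩).1
    have hconn : IsPreconnected ((E p).symm '' (({b0} : Set B) ×ˢ closedBall (c p) (ρ p))) := by
      refine IsPreconnected.image ?_ _ ((E p).continuousOn_symm.mono hsub)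
      exact (isPreconnected_singleton).prod (convex_closedBall _ _).isPreconnected
    refine subset_leaf (p := p) hconn ?_ ?_ ?_ ?_ ⟨(b0, f), ⟨rfl, hf⟩, rfl⟩
    · rintro _ ⟨⟨b, f'⟩, hbf, rfl⟩
      exact hEX p hp ((E p).map_target (hsub hbf))
    · rintro _ ⟨⟨b, f'⟩, hbf, rfl⟩
      have h := hEy p hp _ ((E p).map_target (hsub hbf))
      rw [(E p).right_inv (hsub hbf)] at h
      rw [← h]
      exact hbf.1
    · refine ⟨(b0, c p), ⟨rfl, mem_closedBall_self (hρ p hp).le⟩, ?_⟩
      rw [← hEp p hp]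
      exact (E p).left_inv (hpE p hp)
    · exact hp
  -- finite cover
  set N : X → Set X := fun p => bx (E p) b0 (c p) (ρ p) (ρ p) with hN
  have hNo : ∀ p, IsOpen (N p) := fun p => bx_open _ _ _ _ _
  have hpN : ∀ p ∈ L, p ∈ N p := by
    intro p hp
    refine ⟨hpE p hp, ?_⟩
    simp only [mem_preimage, hEp p hp]
    exact ⟨mem_ball_self (hρ p hp), mem_ball_self (hρ p hp)⟩
  obtain ⟨t, htL, htc⟩ := hLc.elim_nhds_subcover N
    (fun p hp => (hNo p).mem_nhds (hpN p hp))
  have htne : t.Nonempty := by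
    have hxL : x ∈ L := mem_leaf hx0
    obtain ⟨p, hp⟩ := mem_iUnion.1 (htc hxL)
    simp only [mem_iUnion, exists_prop] at hp
    exact ⟨p, hp.1⟩
  set N' : Set X := ⋃ p ∈ t, N p with hN'
  have hN'o : IsOpen N' := isOpen_biUnion fun p _ => hNo p
  -- (a) closed plaques over nearby points are in `N'`
  have ha : ∀ p ∈ t, ∀ᶠ b in 𝓝 b0, ∀ f ∈ closedBall (c p) (ρ p),
      (b, f) ∈ (E p).target ∧ (E p).symm (b, f) ∈ N' := by
    intro p hp
    have hopen : IsOpen ((E p).target ∩ (E p).symm ⁻¹' N') :=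
      (E p).isOpen_inter_preimage_symm hN'o
    have hsub : ({b0} : Set B) ×ˢ closedBall (c p) (ρ p) ⊆
        (E p).target ∩ (E p).symm ⁻¹' N' := by
      rintro ⟨b, f⟩ ⟨hb, hf⟩
      rw [mem_singleton_iff] at hb
      simp only at hb hf
      subst hb
      exact ⟨(hEt p (htL p hp) ⟨mem_closedBall_self (hρ p (htL p hp)).le, hf⟩).1,
        htc (plaque p (htL p hp) f hf)⟩
    obtain ⟨u, v, hu, hv, hbu, hcv, huv⟩ := generalized_tube_lemma isCompact_singleton
      (isCompact_closedBall (c p) (ρ p)) hopen hsub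
    filter_upwards [hu.mem_nhds (hbu rfl)] with b hb f hf
    exact huv ⟨hb, hcv hf⟩
  -- (b) overlaps persist
  have hb : ∀ p ∈ t, ∀ q ∈ t, (L ∩ (N p ∩ N q)).Nonempty →
      ∀ᶠ b in 𝓝 b0, ∃ z ∈ N p ∩ N q, y z = b := by
    rintro p hp q hq ⟨z, hzL, hzN⟩
    have hzs : z ∈ (E p).source := hzN.1.1
    have hz1 : E p z = (b0, (E p z).2) := by
      ext
      · rw [hEy p (htL p hp) z hzs]; exact leaf_y hzL
      · rfl
    have hopen : IsOpen ((E p).target ∩ (E p).symm ⁻¹' (N p ∩ N q)) :=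
      (E p).isOpen_inter_preimage_symm ((hNo p).inter (hNo q))
    have hmem : (b0, (E p z).2) ∈ (E p).target ∩ (E p).symm ⁻¹' (N p ∩ N q) := by
      rw [← hz1]
      refine ⟨(E p).map_source hzs, ?_⟩
      simp only [mem_preimage, (E p).left_inv hzs]
      exact hzN
    have hcont : Continuous fun b : B => (b, (E p z).2) := by fun_prop
    filter_upwards [hcont.continuousAt.preimage_mem_nhds (hopen.mem_nhds hmem)] with b hb
    refine ⟨(E p).symm (b, (E p z).2), hb.2, ?_⟩
    rw [← hEy p (htL p hp) _ ((E p).map_target hb.1), (E p).right_inv hb.1]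
  have hall : ∀ᶠ b in 𝓝 b0, (∀ p ∈ t, ∀ f ∈ closedBall (c p) (ρ p),
      (b, f) ∈ (E p).target ∧ (E p).symm (b, f) ∈ N') ∧
      (∀ p ∈ t, ∀ q ∈ t, (L ∩ (N p ∩ N q)).Nonempty → ∃ z ∈ N p ∩ N q, y z = b) ∧
      (∀ p ∈ t, b ∈ ball b0 (ρ p)) := by
    refine ((Filter.eventually_all_finset t).2 ha).and (((Filter.eventually_all_finset t).2
      fun p hp => (Filter.eventually_all_finset t).2 fun q hq => ?_).and
      ((Filter.eventually_all_finset t).2 fun p hp => ?_))
    · by_cases h : (L ∩ (N p ∩ N q)).Nonempty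
      · filter_upwards [hb p hp q hq h] with b hb _ using hb
      · exact Eventually.of_forall fun b h' => absurd h' h
    · exact ball_mem_nhds _ (hρ p (htL p hp))
  obtain ⟨r, hr, hrb⟩ := Metric.eventually_nhds_iff_ball.1 hall
  -- the tube
  set W : Set X := ⋃ p ∈ t, bx (E p) b0 (c p) r (ρ p) with hW
  have hWo : IsOpen W := isOpen_biUnion fun p _ => bx_open _ _ _ _ _
  have hWy : ∀ z ∈ W, y z ∈ ball b0 r := by
    intro z hz
    simp only [hW, mem_iUnion, exists_prop] at hz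
    obtain ⟨p, hp, hz⟩ := hz
    rw [← hEy p (htL p hp) z hz.1]
    exact hz.2.1
  have hNW : ∀ z ∈ N', y z ∈ ball b0 r → z ∈ W := by
    intro z hz hzr
    simp only [hN', mem_iUnion, exists_prop] at hz
    obtain ⟨p, hp, hz⟩ := hz
    simp only [hW, mem_iUnion, exists_prop]
    refine ⟨p, hp, hz.1, ?_, hz.2.2⟩
    rw [hEy p (htL p hp) z hz.1]
    exact hzr
  -- fibre description with closed plaques
  have hclosed : ∀ K ⊆ ball b0 r, W ∩ y ⁻¹' K =
      ⋃ p ∈ t, (E p).symm '' (K ×ˢ closedBall (c p) (ρ p)) := by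
    intro K hK
    ext z
    simp only [mem_inter_iff, mem_iUnion, exists_prop, mem_preimage]
    constructor
    · rintro ⟨hz, hzK⟩
      simp only [hW, mem_iUnion, exists_prop] at hz
      obtain ⟨p, hp, hz⟩ := hz
      refine ⟨p, hp, E p z, ⟨?_, ball_subset_closedBall hz.2.2⟩, (E p).left_inv hz.1⟩
      rw [hEy p (htL p hp) z hz.1]
      exact hzK
    · rintro ⟨p, hp, ⟨b, f⟩, ⟨hbK, hf⟩, rfl⟩
      have h1 := (hrb b (hK hbK)).1 p hp f hf
      have h2 : y ((E p).symm (b, f)) = b := by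
        rw [← hEy p (htL p hp) _ ((E p).map_target h1.1), (E p).right_inv h1.1]
      refine ⟨hNW _ h1.2 ?_, ?_⟩
      · rw [h2]; exact hK hbK
      · rw [h2]; exact hbK
  have hcomp : ∀ K ⊆ ball b0 r, IsCompact K → IsCompact (W ∩ y ⁻¹' K) := by
    intro K hK hKc
    rw [hclosed K hK]
    refine t.finite_toSet.isCompact_biUnion fun p hp => ?_
    refine (hKc.prod (isCompact_closedBall _ _)).image_of_continuousOn
      ((E p).continuousOn_symm.mono ?_)
    rintro ⟨b, f⟩ ⟨hbK, hf⟩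
    exact ((hrb b (hK hbK)).1 p hp f hf).1
  have hWR : W ⊆ Reg F X0 y := by
    intro z hz
    simp only [hW, mem_iUnion, exists_prop] at hz
    obtain ⟨p, hp, hz⟩ := hz
    exact ⟨E p, hz.1, hEX p (htL p hp), hEy p (htL p hp)⟩
  have hWX : W ⊆ X0 := by
    intro z hz
    obtain ⟨e, he, heX, _⟩ := hWR hz
    exact heX he
  have hWO : W ⊆ O := by
    intro z hz
    simp only [hW, mem_iUnion, exists_prop] at hz
    obtain ⟨p, hp, hz⟩ := hz
    have h1 : E p z ∈ closedBall b0 (ρ p) ×ˢ closedBall (c p) (ρ p) :=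
      ⟨ball_subset_closedBall ((hrb _ hz.2.1).2.2 p hp), ball_subset_closedBall hz.2.2⟩
    have h2 := (hEt p (htL p hp) h1).2
    simp only [mem_preimage, (E p).left_inv hz.1] at h2
    exact h2
  have hLW : L ⊆ W := fun z hz => hNW z (htc hz) (by
    rw [leaf_y hz]; exact mem_ball_self hr)
  -- the graph is connected
  have graph : ∀ p ∈ t, ∀ q ∈ t, Relation.ReflTransGen
      (fun i j => (L ∩ (N i ∩ N j)).Nonempty ∧ i ∈ t ∧ j ∈ t) p q := by
    intro p hp q hq
    by_contra hcon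
    set R : X → X → Prop := fun i j => (L ∩ (N i ∩ N j)).Nonempty ∧ i ∈ t ∧ j ∈ t with hR
    set U1 : Set X := ⋃ j ∈ {j | j ∈ t ∧ Relation.ReflTransGen R p j}, N j with hU1
    set U2 : Set X := ⋃ j ∈ {j | j ∈ t ∧ ¬ Relation.ReflTransGen R p j}, N j with hU2
    have ho1 : IsOpen U1 := isOpen_biUnion fun j _ => hNo j
    have ho2 : IsOpen U2 := isOpen_biUnion fun j _ => hNo j
    have hcov : L ⊆ U1 ∪ U2 := by
      intro z hz
      obtain ⟨j, hj⟩ := mem_iUnion.1 (htc hz)
      simp only [mem_iUnion, exists_prop] at hj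
      by_cases h : Relation.ReflTransGen R p j
      · left; simp only [hU1, mem_iUnion, exists_prop]; exact ⟨j, ⟨hj.1, h⟩, hj.2⟩
      · right; simp only [hU2, mem_iUnion, exists_prop]; exact ⟨j, ⟨hj.1, h⟩, hj.2⟩
    have hn1 : (L ∩ U1).Nonempty := ⟨p, htL p hp, by
      simp only [hU1, mem_iUnion, exists_prop]
      exact ⟨p, ⟨hp, Relation.ReflTransGen.refl⟩, hpN p (htL p hp)⟩⟩
    have hn2 : (L ∩ U2).Nonempty := ⟨q, htL q hq, by
      simp only [hU2, mem_iUnion, exists_prop]
      exact ⟨q, ⟨hq, hcon⟩, hpN q (htL q hq)⟩⟩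
    obtain ⟨z, hzL, hz1, hz2⟩ := (leaf_preconnected x) U1 U2 ho1 ho2 hcov hn1 hn2
    simp only [hU1, mem_iUnion, exists_prop] at hz1
    simp only [hU2, mem_iUnion, exists_prop] at hz2
    obtain ⟨j, ⟨hjt, hj⟩, hzj⟩ := hz1
    obtain ⟨k, ⟨hkt, hk⟩, hzk⟩ := hz2
    exact hk (hj.tail ⟨⟨z, hzL, hzj, hzk⟩, hjt, hkt⟩)
  -- fibres are connected
  have hconn : ∀ b ∈ ball b0 r, IsPreconnected (W ∩ y ⁻¹' {b}) := by
    intro b hbr
    have hfib : W ∩ y ⁻¹' {b} = ⋃ p : t, (E p).symm '' (({b} : Set B) ×ˢ closedBall (c p) (ρ p)) := by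
      rw [hclosed {b} (by simpa using hbr), iUnion_subtype]
    rw [hfib]
    refine IsPreconnected.iUnion_of_reflTransGen (fun p => ?_) fun p q => ?_
    · refine IsPreconnected.image ?_ _ ((E p).continuousOn_symm.mono ?_)
      · exact (isPreconnected_singleton).prod (convex_closedBall _ _).isPreconnected
      · rintro ⟨b', f⟩ ⟨hb', hf⟩
        rw [mem_singleton_iff] at hb'
        simp only at hb' hf
        subst hb'
        exact ((hrb _ hbr).1 p p.2 f hf).1
    · have key : ∀ i j : X, Relation.ReflTransGen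
          (fun i j => (L ∩ (N i ∩ N j)).Nonempty ∧ i ∈ t ∧ j ∈ t) i j →
          ∀ (hi : i ∈ t) (hj : j ∈ t), Relation.ReflTransGen (fun i j : t =>
            ((E i).symm '' (({b} : Set B) ×ˢ closedBall (c i) (ρ i)) ∩
             (E j).symm '' (({b} : Set B) ×ˢ closedBall (c j) (ρ j))).Nonempty)
            ⟨i, hi⟩ ⟨j, hj⟩ := by
        intro i j hij
        induction hij with
        | refl => intro hi hj; exact Relation.ReflTransGen.refl
        | tail h1 h2 ih =>
          intro hi hj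
          refine (ih hi h2.2.1).tail ?_
          obtain ⟨z, hz, hzb⟩ := (hrb b hbr).2.1 _ h2.2.1 _ h2.2.2 h2.1
          refine ⟨z, ⟨E _ z, ⟨?_, ball_subset_closedBall hz.1.2.2⟩, (E _).left_inv hz.1.1⟩,
            ⟨E _ z, ⟨?_, ball_subset_closedBall hz.2.2.2⟩, (E _).left_inv hz.2.1⟩⟩
          · rw [hEy _ (htL _ h2.2.1) z hz.1.1, hzb]; rfl
          · rw [hEy _ (htL _ h2.2.2) z hz.2.1, hzb]; rfl
      exact key p q (graph p p.2 q q.2) p.2 q.2
  -- leaves are fibres
  have hleaf : ∀ x' ∈ W, leaf X0 y x' = W ∩ y ⁻¹' {y x'} := by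
    intro x' hx'
    have hbr := hWy x' hx'
    apply subset_antisymm
    · intro z hz
      refine ⟨?_, leaf_y hz⟩
      by_contra hzW
      have hcK : IsCompact (W ∩ y ⁻¹' {y x'}) :=
        hcomp {y x'} (by simpa using hbr) isCompact_singleton
      have hcov : leaf X0 y x' ⊆ W ∪ (W ∩ y ⁻¹' {y x'})ᶜ := by
        intro w _
        by_cases h : w ∈ W
        · exact Or.inl h
        · exact Or.inr fun h' => h h'.1
      obtain ⟨w, hwl, hw1, hw2⟩ := (leaf_preconnected x') W _ hWo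
        hcK.isClosed.isOpen_compl hcov ⟨x', mem_leaf (hWX hx'), hx'⟩
        ⟨z, hz, fun h' => hzW h'.1⟩
      exact hw2 ⟨hw1, leaf_y hwl⟩
    · exact subset_leaf (p := x') (hconn _ hbr) (fun q hq => hWX hq.1) (fun q hq => hq.2)
        ⟨hx', rfl⟩ (mem_leaf (hWX hx'))
  refine ⟨r, hr, W, hWo, hLW, hWO, hWR, ?_, fun x' hx' => ⟨hleaf x' hx', hWX hx', ?_, ?_⟩, hcomp⟩
  · apply subset_antisymm
    · rintro _ ⟨z, hz, rfl⟩; exact hWy z hz
    · intro b hbr
      obtain ⟨p, hp⟩ := htne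
      have h1 := (hrb b hbr).1 p hp (c p) (mem_closedBall_self (hρ p (htL p hp)).le)
      have h2 : y ((E p).symm (b, c p)) = b := by
        rw [← hEy p (htL p hp) _ ((E p).map_target h1.1), (E p).right_inv h1.1]
      exact ⟨_, hNW _ h1.2 (by rw [h2]; exact hbr), h2⟩
  · rw [hleaf x' hx']
    exact hcomp {y x'} (by simpa using hWy x' hx') isCompact_singleton
  · rw [hleaf x' hx']
    exact fun z hz => hWR hz.1


end Crest.Agent.R281.Tube1_989
end

-- ▼ part R281/Tube2_989
section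

/-!
# R281 (S0424), DIV 6: OM-TOP of helper854 #7436, manifold side — helper989

`M` with an atlas `A : Atl N M`, `X0` open, `y : M → Cn m` holomorphic on `X0` in the charts,
`N = d + m`.

* `reg_of_surj` : points where `dy` is surjective are regular in the sense of `Tube1_989`;
* `exists_tube` : `x` with compact leaf along which `dy` is surjective ==> helper664's `Tube`.
-/

set_option autoImplicit false
set_option linter.unusedSectionVars false

open Set Filter Topology Metric Function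

namespace Crest.Agent.R281.Tube2_989

open Crest.Agent.R275.Geo Crest.Agent.R281.S6D_664 Crest.Agent.R281.Tube1_989

noncomputable section

variable {N d m : ℕ} {M : Type} [TopologicalSpace M] {A : Atl N M} {X0 : Set M} {y : M → Cn m}

/-- `y` is holomorphic on `X0` in the charts -/
def HolOn (A : Atl N M) (X0 : Set M) (y : M → Cn m) : Prop :=
  ∀ i, DifferentiableOn ℂ (fun z => y ((A.e i).symm z)) ((A.e i).target ∩ (A.e i).symm ⁻¹' X0)

/-- `dy` is surjective at `p` in the chart `i` -/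
def Sj (A : Atl N M) (y : M → Cn m) (i : A.ι) (p : M) : Prop :=
  Surjective (fderiv ℂ (fun z => y ((A.e i).symm z)) (A.e i p))

lemma isOpen_dom (A : Atl N M) (hX0 : IsOpen X0) (i : A.ι) :
    IsOpen ((A.e i).target ∩ (A.e i).symm ⁻¹' X0) :=
  (A.e i).isOpen_inter_preimage_symm hX0

lemma mem_dom {i : A.ι} {p : M} (hp : p ∈ (A.e i).source) (hpX : p ∈ X0) :
    A.e i p ∈ (A.e i).target ∩ (A.e i).symm ⁻¹' X0 :=
  ⟨(A.e i).map_source hp, by simpa only [mem_preimage, (A.e i).left_inv hp] using hpX⟩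

lemma HolOn.contDiffAt (hX0 : IsOpen X0) (hy : HolOn A X0 y) {i : A.ι} {p : M}
    (hp : p ∈ (A.e i).source) (hpX : p ∈ X0) :
    ContDiffAt ℂ 1 (fun z => y ((A.e i).symm z)) (A.e i p) :=
  ((Crest.Agent.R266.SCV.contDiffOn_omega_of_differentiableOn (isOpen_dom A hX0 i)
    (hy i)).of_le le_top).contDiffAt ((isOpen_dom A hX0 i).mem_nhds (mem_dom hp hpX))

/-- surjectivity of `dy` does not depend on the chart -/
lemma Sj.change (hX0 : IsOpen X0) (hy : HolOn A X0 y) {i j : A.ι} {p : M}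
    (hi : p ∈ (A.e i).source) (hj : p ∈ (A.e j).source) (hpX : p ∈ X0) (h : Sj A y i p) :
    Sj A y j p := by
  have hmem : A.e i p ∈ A.ov i j :=
    ⟨(A.e i).map_source hi, by rw [(A.e i).left_inv hi]; exact hj⟩
  have hov : IsOpen (A.ov i j) := isOpen_ov i j
  have h1 : DifferentiableAt ℂ (fun z => A.e j ((A.e i).symm z)) (A.e i p) :=
    (A.holo i j).differentiableAt (hov.mem_nhds hmem)
  have h2 : DifferentiableAt ℂ (fun z => y ((A.e j).symm z)) (A.e j p) :=
    (hy.contDiffAt hX0 hj hpX).differentiableAt one_ne_zero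
  have h3 : (fun z => y ((A.e i).symm z)) =ᶠ[𝓝 (A.e i p)]
      (fun z => y ((A.e j).symm z)) ∘ (fun z => A.e j ((A.e i).symm z)) := by
    filter_upwards [hov.mem_nhds hmem] with z hz
    simp only [Function.comp_apply, (A.e j).left_inv hz.2]
  have h4 : A.e j ((A.e i).symm (A.e i p)) = A.e j p := by rw [(A.e i).left_inv hi]
  have h5 : fderiv ℂ (fun z => y ((A.e i).symm z)) (A.e i p) =
      (fderiv ℂ (fun z => y ((A.e j).symm z)) (A.e j p)).comp
        (fderiv ℂ (fun z => A.e j ((A.e i).symm z)) (A.e i p)) := by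
    rw [h3.fderiv_eq, fderiv_comp _ (by rw [h4]; exact h2) h1, h4]
  intro w
  obtain ⟨v, hv⟩ := h w
  rw [h5] at hv
  exact ⟨_, hv⟩

/-- points where `dy` is surjective are regular -/
theorem reg_of_surj (hN : N = d + m) (hX0 : IsOpen X0) (hy : HolOn A X0 y) {i : A.ι} {p : M}
    (hp : p ∈ (A.e i).source) (hpX : p ∈ X0) (hs : Sj A y i p) :
    p ∈ Reg (Cn d) X0 y := by
  set f : Cn N → Cn m := fun z => y ((A.e i).symm z) with hf
  set z0 := A.e i p with hz0
  have hcd : ContDiffAt ℂ 1 f z0 := hy.contDiffAt hX0 hp hpX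
  have hstr : HasStrictFDerivAt f (fderiv ℂ f z0) z0 := hcd.hasStrictFDerivAt one_ne_zero
  have hr : (fderiv ℂ f z0).range = ⊤ := LinearMap.range_eq_top.2 hs
  have hk : Module.finrank ℂ (fderiv ℂ f z0).ker = Module.finrank ℂ (Cn d) := by
    have h1 := LinearMap.finrank_range_add_finrank_ker (fderiv ℂ f z0).toLinearMap
    have h2 : Module.finrank ℂ (LinearMap.range (fderiv ℂ f z0).toLinearMap) = m := by
      have : LinearMap.range (fderiv ℂ f z0).toLinearMap = ⊤ := LinearMap.range_eq_top.2 hs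
      rw [this, finrank_top]; simp
    rw [h2] at h1
    simp only [finrank_euclideanSpace, Fintype.card_fin] at h1 ⊢
    have h3 : Module.finrank ℂ (fderiv ℂ f z0).ker =
        Module.finrank ℂ (LinearMap.ker (fderiv ℂ f z0).toLinearMap) := rfl
    omega
  let T : (fderiv ℂ f z0).ker ≃L[ℂ] Cn d := ContinuousLinearEquiv.ofFinrankEq hk
  let g := hstr.implicitToOpenPartialHomeomorph f (fderiv ℂ f z0) hr
  let e0 : OpenPartialHomeomorph M (Cn m × Cn d) :=
    ((A.e i).trans g).trans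
      ((Homeomorph.refl (Cn m)).prodCongr T.toHomeomorph).toOpenPartialHomeomorph
  have he0 : p ∈ e0.source := by
    simp only [e0, OpenPartialHomeomorph.trans_source, Homeomorph.toOpenPartialHomeomorph_source,
      preimage_univ, inter_univ, mem_inter_iff, mem_preimage]
    exact ⟨hp, hstr.mem_implicitToOpenPartialHomeomorph_source hr⟩
  refine ⟨e0.restrOpen X0 hX0, ?_, ?_, ?_⟩
  · rw [OpenPartialHomeomorph.restrOpen_source]
    exact ⟨he0, hpX⟩
  · rw [OpenPartialHomeomorph.restrOpen_source]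
    exact inter_subset_right
  · intro q hq
    rw [OpenPartialHomeomorph.restrOpen_source] at hq
    have hqi : q ∈ (A.e i).source := by
      have := hq.1
      simp only [e0, OpenPartialHomeomorph.trans_source] at this
      exact this.1.1
    have h1 : (e0 q).1 = f (A.e i q) := by
      simp [e0, g]
    have h2 : (e0.restrOpen X0 hX0) q = e0 q := rfl
    rw [h2, h1, hf]
    simp only [(A.e i).left_inv hqi]

/-- surjectivity is an open condition -/
lemma eventually_surjective (L : Cn N →L[ℂ] Cn m) (hL : Surjective L) :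
    ∀ᶠ L' : Cn N →L[ℂ] Cn m in 𝓝 L, Surjective L' := by
  obtain ⟨g, hg⟩ := L.toLinearMap.exists_rightInverse_of_surjective (LinearMap.range_eq_top.2 hL)
  set R : Cn m →L[ℂ] Cn N := LinearMap.toContinuousLinearMap g with hR
  have h1 : L.comp R = 1 := by
    ext1 w
    exact LinearMap.congr_fun hg w
  have h2 : Continuous fun L' : Cn N →L[ℂ] Cn m => L'.comp R := by fun_prop
  have h3 : IsUnit (L.comp R) := by rw [h1]; exact isUnit_one
  filter_upwards [h2.continuousAt.eventually (Units.isOpen.mem_nhds h3)] with L' hL'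
  obtain ⟨u, hu⟩ := hL'
  intro w
  refine ⟨R ((↑u⁻¹ : Cn m →L[ℂ] Cn m) w), ?_⟩
  have h4 : (L'.comp R) * (↑u⁻¹ : Cn m →L[ℂ] Cn m) = 1 := by
    rw [← hu]; exact u.mul_inv
  exact DFunLike.congr_fun h4 w

/-- the points of `X0` where `dy` is surjective form an open set -/
theorem isOpen_surj (hX0 : IsOpen X0) (hy : HolOn A X0 y) :
    IsOpen {p | p ∈ X0 ∧ ∀ i, p ∈ (A.e i).source → Sj A y i p} := by
  rw [isOpen_iff_mem_nhds]
  rintro p ⟨hpX, hp⟩
  obtain ⟨i, hi⟩ := A.cover p
  have h1 : ContinuousAt (fderiv ℂ (fun z => y ((A.e i).symm z))) (A.e i p) :=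
    ((hy.contDiffAt hX0 hi hpX).fderiv_right (m := 0) (by simp)).continuousAt
  have h2 : ∀ᶠ L : Cn N →L[ℂ] Cn m in 𝓝 (fderiv ℂ (fun z => y ((A.e i).symm z)) (A.e i p)), Surjective L := by
    exact eventually_surjective _ (hp i hi)
  have h3 : ∀ᶠ q in 𝓝 p, Surjective (fderiv ℂ (fun z => y ((A.e i).symm z)) (A.e i q)) :=
    ((A.e i).continuousAt hi).eventually (h1.eventually h2)
  filter_upwards [h3, (A.e i).open_source.mem_nhds hi, hX0.mem_nhds hpX] with q hq hqi hqX
  exact ⟨hqX, fun j hj => Sj.change hX0 hy hqi hj hqX hq⟩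

/-- **OM-TOP, tube form**: a compact leaf along which `dy` is surjective has a tube -/
theorem exists_tube [T2Space M] (hN : N = d + m) (hX0 : IsOpen X0) (hy : HolOn A X0 y) {x : M}
    (hx : x ∈ X0) (hc : IsCompact (leaf X0 y x))
    (hs : ∀ p ∈ leaf X0 y x, ∀ i, p ∈ (A.e i).source → Sj A y i p)
    {O : Set M} (hO : IsOpen O) (hLO : leaf X0 y x ⊆ O) :
    ∃ τ : Tube A m (leaf X0 y), leaf X0 y x ⊆ τ.W ∧ τ.W ⊆ O ∧ τ.W ⊆ X0 ∧ τ.f = y ∧
      (∃ r, 0 < r ∧ τ.U = ball (y x) r) ∧ ∀ p ∈ τ.W, IsCompact (leaf X0 y p) := by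
  set R : Set M := {p | p ∈ X0 ∧ ∀ i, p ∈ (A.e i).source → Sj A y i p} with hR
  have hRo : IsOpen R := isOpen_surj hX0 hy
  have hLR : leaf X0 y x ⊆ R := fun p hp => ⟨leaf_X0 hp, hs p hp⟩
  have hg : Good (Cn d) X0 y x := by
    refine ⟨hx, hc, fun p hp => ?_⟩
    obtain ⟨i, hi⟩ := A.cover p
    exact reg_of_surj hN hX0 hy hi (leaf_X0 hp) (hs p hp i hi)
  obtain ⟨r, hr, W, hWo, hLW, hWO, -, hyW, hW, hpr⟩ :=
    tube hg (hO.inter hRo) (subset_inter hLO hLR)
  refine ⟨{
    W := W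
    U := ball (y x) r
    f := y
    oW := hWo
    oU := isOpen_ball
    hol := fun i => (hy i).mono fun z hz => ⟨hz.1, (hWO hz.2).2.1⟩
    sub := fun i p hp => (hWO hp.2).2.2 i hp.1
    maps := fun p hp => hyW ▸ mem_image_of_mem y hp
    onto := fun b hb => by rw [← hyW] at hb; exact hb
    proper := hpr
    fib := fun p hp => (hW p hp).1
    conn := fun p hp => leaf_connected (hWO hp).2.1 }, hLW, fun p hp => (hWO hp).1,
    fun p hp => (hWO hp).2.1, rfl, ⟨r, hr, rfl⟩, fun p hp => (hW p hp).2.2.1⟩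

end

end Crest.Agent.R281.Tube2_989
end

-- ▼ part R281/OmA_524

/-!
# R281 (S0424), DIV 6, OM-ASM (helper524): from ratios of sections to `LFib`

`X0 ⊆ M` open, `y : M → Cn n` holomorphic on `X0` in the charts.

* `RegAt A y p`  : `dy` is surjective at `p` (in every chart);
* `Bad A X0 y`   : the points of `X0` over critical values;
* `exists_lfib`  : if `X0ᶜ ∪ Bad` is `σ`-thin in the charts (helper280), every leaf over a regular
  value is compact (helper854) and `ker dy` is isotropic at the regular points (helper677), then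
  the compact regular leaves form a Lagrangian fibration `LFib A σ` (helper664).
-/

set_option autoImplicit false
set_option linter.unusedSectionVars false

open Set Filter Topology Metric Function

namespace Crest.Agent.R281.OmA_524

open Crest.Agent.R275.Geo Crest.Agent.R281.Defs_273 Crest.Agent.R281.S6D_664
open Crest.Agent.R281.Tube1_989 Crest.Agent.R281.Tube2_989 Crest.Agent.R281.Thn_280
open Crest.Agent.R281.ThnM_280 (SThM)
open Crest.Agent.R281.Thin3_524 (LT LTM preconnected_of_thin)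

noncomputable section

variable {N m n : ℕ} {M : Type} [TopologicalSpace M]

/-- `dy` is surjective at `p`, in every chart -/
def RegAt (A : Atl N M) (y : M → Cn m) (p : M) : Prop := ∀ i, p ∈ (A.e i).source → Sj A y i p

/-- the points over critical values -/
def Bad (A : Atl N M) (X0 : Set M) (y : M → Cn m) : Set M :=
  {x | x ∈ X0 ∧ ∃ p ∈ X0, y p = y x ∧ ¬ RegAt A y p}

theorem ltm_of_sthM {A : Atl N M} {S : Set M} (h : SThM A S) : LTM A.e S := by
  intro i z _
  exact (h i).dense_line z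

/-- **OM-ASM** -/
theorem exists_lfib [T2Space M] [PreconnectedSpace M] (A : Atl (2 * n) M) (σ : HSymp A)
    {X0 : Set M} (hX0 : IsOpen X0) {y : M → Cn n} (hy : HolOn A X0 y)
    (hth : SThM A (X0ᶜ ∪ Bad A X0 y))
    (hcpt : ∀ x ∈ X0, x ∉ Bad A X0 y → IsCompact (leaf X0 y x))
    (hlag : ∀ i, ∀ x ∈ (A.e i).source, x ∈ X0 → Sj A y i x → ∀ v w : Cn (2 * n),
      fderiv ℂ (fun z => y ((A.e i).symm z)) (A.e i x) v = 0 →
      fderiv ℂ (fun z => y ((A.e i).symm z)) (A.e i x) w = 0 →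
      ∑ a, ∑ b, v a * σ.s i x a b * w b = 0) :
    ∃ F : LFib A σ, F.Om = {x | x ∈ X0 ∧ IsCompact (leaf X0 y x) ∧
      ∀ p ∈ leaf X0 y x, RegAt A y p} ∧ F.Tf = leaf X0 y := by
  set Om : Set M := {x | x ∈ X0 ∧ IsCompact (leaf X0 y x) ∧ ∀ p ∈ leaf X0 y x, RegAt A y p}
    with hOm
  have htube : ∀ x ∈ Om, ∃ τ : Tube A n (leaf X0 y), x ∈ τ.W ∧ τ.W ⊆ Om ∧ τ.W ⊆ X0 ∧
      τ.f = y := by
    rintro x ⟨hx, hc, hr⟩
    obtain ⟨τ, h1, -, h3, h4, -, h5⟩ := exists_tube (d := n) (by omega) hX0 hy hx hc hr isOpen_univ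
      (subset_univ _)
    refine ⟨τ, h1 (mem_leaf hx), fun p hp => ⟨h3 hp, h5 p hp, fun q hq i hi => ?_⟩, h3, h4⟩
    have h6 : q ∈ τ.W := by
      have := τ.fib p hp
      rw [this] at hq
      exact hq.1
    have h7 := τ.sub i q ⟨hi, h6⟩
    rw [h4] at h7
    exact h7
  have hop : IsOpen Om := by
    rw [isOpen_iff_mem_nhds]
    intro x hx
    obtain ⟨τ, h1, h2, -, -⟩ := htube x hx
    exact mem_of_superset (τ.oW.mem_nhds h1) h2
  have hcompl : Omᶜ ⊆ X0ᶜ ∪ Bad A X0 y := by
    intro x hx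
    by_cases hx0 : x ∈ X0
    · right
      by_contra hb
      refine hx ⟨hx0, hcpt x hx0 hb, fun p hp => ?_⟩
      by_contra hp'
      exact hb ⟨hx0, p, leaf_X0 hp, leaf_y hp, hp'⟩
    · exact Or.inl hx0
  have hS : SThM A Omᶜ := hth.mono hcompl
  have hdns : Dense Om := by
    have := hS.dense_compl
    rwa [compl_compl] at this
  refine ⟨{
    Om := Om
    Tf := leaf X0 y
    op := hop
    dns := hdns
    cn := ?_
    tube := ?_
    thin := ?_
    sth := hS }, rfl, rfl⟩
  · refine preconnected_of_thin A.cover hop ?_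
    exact ltm_of_sthM (hS.mono fun x hx => hx.2)
  · intro x hx
    obtain ⟨τ, h1, h2, h3, h4⟩ := htube x hx
    refine ⟨τ, h1, h2, fun i x' hx' v w hv hw => ?_⟩
    rw [h4] at hv hw
    refine hlag i x' hx'.1 (h3 hx'.2) ?_ v w hv hw
    have := τ.sub i x' hx'
    rw [h4] at this
    exact this
  · intro i z hz _
    exact (hS i).dense_line z

end

end Crest.Agent.R281.OmA_524
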