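import Crest.Agent.R273.AppA_834
import Crest.Agent.R281.Glob1_484
import Crest.Agent.R281.LfS_901
import Crest.Agent.R273.TLs_201
import Mathlib
import Crest.Agent.R281.Om1_854

-- ▼ part R281/OmM1_980
section

/-!
# R281 (S0424), OM-MASS (helper980), part 1: positivity of the concentrating forms

* `fsb`     : `∂∂̄ log (|F|² + δ) ≥ (4δ)⁻¹ Dᵀ D̄` where `|F|² ≤ δ`
* `lse`     : `cur h' + e K + ∂∂̄ log (N + κ) ≥ (N / (N + κ)) ∂∂̄ log ∑ |C_j|²` where `N > 0`
* `lse_nn`  : `cur h' + e K + ∂∂̄ log (N + κ) ≥ 0`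
* `kahOf`   : a positive definite closed field as a Kaehler metric
-/

set_option autoImplicit false
set_option linter.unusedSectionVars false

open Set Filter Topology Complex MeasureTheory
open scoped ContDiff Matrix ComplexConjugate ComplexOrder

namespace Crest.Agent.R281.OmM_980

open Crest.Agent.R275 Crest.Agent.R275.Geo Crest.Agent.R275.Core144 Crest.Agent.R275.EDR890
open Crest.Agent.R273.Defs_333 Crest.Agent.R273.Hess_333 Crest.Agent.R273.HessB_333
open Crest.Agent.R273.HM_333 Crest.Agent.R273.Kah_333 Crest.Agent.R273.FS_333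
open Crest.Agent.R273.Green_5 Crest.Agent.R273.FIa0_597 Crest.Agent.R273.FIb0_597
open Crest.Agent.R273.FIc0_597 Crest.Agent.R273.AppA_834 Crest.Agent.R273
open Crest.Agent.R273.TVolA_332

noncomputable section

variable {n : ℕ}

/-! ### the local Fubini-Study bound -/

/-- the Jacobian matrix -/
def DF {m : ℕ} (F : Cn n → Fin m → ℂ) (z : Cn n) : Matrix (Fin m) (Fin n) ℂ :=
  Matrix.of fun b a => fderiv ℂ (fun w => F w b) z (EuclideanSpace.single a 1)

/-- `a |y|² - b |∑ F_k y_k|² ≥ 0` -/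
theorem cs_form {m : ℕ} (F y : Fin m → ℂ) {a b : ℝ} (hb : 0 ≤ b)
    (hab : b * ∑ k, ‖F k‖ ^ 2 ≤ a) :
    0 ≤ a * ∑ k, ‖y k‖ ^ 2 - b * ‖∑ k, F k * y k‖ ^ 2 := by
  have h1 : ‖∑ k, F k * y k‖ ≤ ∑ k, ‖F k‖ * ‖y k‖ := by
    refine (norm_sum_le _ _).trans (le_of_eq ?_)
    exact Finset.sum_congr rfl fun k _ => norm_mul _ _
  have h2 : (∑ k, ‖F k‖ * ‖y k‖) ^ 2 ≤ (∑ k, ‖F k‖ ^ 2) * ∑ k, ‖y k‖ ^ 2 :=
    Finset.sum_mul_sq_le_sq_mul_sq _ _ _
  have h3 : ‖∑ k, F k * y k‖ ^ 2 ≤ (∑ k, ‖F k‖ ^ 2) * ∑ k, ‖y k‖ ^ 2 :=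
    (pow_le_pow_left₀ (norm_nonneg _) h1 2).trans h2
  have h4 : 0 ≤ ∑ k, ‖y k‖ ^ 2 := Finset.sum_nonneg fun _ _ => by positivity
  nlinarith [mul_le_mul_of_nonneg_left h3 hb, mul_le_mul_of_nonneg_right hab h4]

/-- **(FSB)** -/
theorem fsb {m : ℕ} {F : Cn n → Fin m → ℂ} {U : Set (Cn n)} (hU : IsOpen U)
    (hF : ∀ k, DifferentiableOn ℂ (fun z => F z k) U) {z : Cn n} (hz : z ∈ U) {δ : ℝ} (hδ : 0 < δ)
    (hs : FS_333.sq F z ≤ δ) :
    (hess (fun w => Real.log (FS_333.sq F w + δ)) z -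
      (((4 * δ)⁻¹ : ℝ) : ℂ) • ((DF F z)ᵀ * (DF F z).map conj)).PosSemidef := by
  have hs0 := sq_nonneg' F z
  have hp : 0 < FS_333.sq F z + δ := by positivity
  have hsm : ContDiffAt ℝ ∞ (FS_333.sq F) z := by
    refine ContDiffAt.sum fun k _ => ?_
    exact (contDiffAt_of_hol hU (hF k) hz).norm_sq ℝ
  have hH : hess (FS_333.sq F) z = (DF F z)ᵀ * (DF F z).map conj := by
    ext a b
    rw [hess_sq hU hF hz, Matrix.mul_apply]
    rfl
  have hherm : ((DF F z)ᵀ * (DF F z).map conj).IsHermitian := by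
    rw [← hH]; exact hess_herm hsm
  have hlogsm : ContDiffAt ℝ ∞ (fun w => Real.log (FS_333.sq F w + δ)) z :=
    (hsm.add contDiffAt_const).log hp.ne'
  refine Matrix.PosSemidef.of_dotProduct_mulVec_nonneg ?_ ?_
  · refine (hess_herm hlogsm).sub ?_
    rw [Matrix.IsHermitian, Matrix.conjTranspose_smul, hherm.eq]
    simp
  intro x
  set a : ℝ := (FS_333.sq F z + δ)⁻¹ - (4 * δ)⁻¹ with ha
  set b : ℝ := ((FS_333.sq F z + δ) ^ 2)⁻¹ with hb
  -- `y = D̄ x`
  set y : Fin m → ℂ := (DF F z).map conj *ᵥ x with hy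
  have e0 : hess (fun w => Real.log (FS_333.sq F w + δ)) z -
      (((4 * δ)⁻¹ : ℝ) : ℂ) • ((DF F z)ᵀ * (DF F z).map conj) =
      (a : ℂ) • ((DF F z)ᵀ * (DF F z).map conj) -
        (b : ℂ) • Matrix.vecMulVec (gr (FS_333.sq F) z) (star (gr (FS_333.sq F) z)) := by
    rw [hess_log_add_mat δ hsm hp, hH, ha, hb]
    have e1 : ∀ (r : ℝ) (X : Matrix (Fin n) (Fin n) ℂ), r • X = (r : ℂ) • X := by
      intro r X
      ext p q
      simp
    rw [e1, e1]
    push_cast
    module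
  have hgr : gr (FS_333.sq F) z = (DF F z)ᵀ *ᵥ fun k => conj (F z k) := by
    funext c
    show wd (false, c) (cu (FS_333.sq F)) z = _
    rw [wd_sq' hU hF hz]
    rfl
  have hst : star y = star x ᵥ* (DF F z)ᵀ := by
    rw [hy, Matrix.star_mulVec]
    congr 1
    ext p q
    simp [Matrix.conjTranspose_apply]
  have e2 : star x ⬝ᵥ (((DF F z)ᵀ * (DF F z).map conj) *ᵥ x) = ((∑ k, ‖y k‖ ^ 2 : ℝ) : ℂ) := by
    rw [← Matrix.mulVec_mulVec, Matrix.dotProduct_mulVec, ← hst, ← hy]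
    simp only [dotProduct, Pi.star_apply, RCLike.star_def, Complex.conj_mul']
    push_cast
    rfl
  have e3 : star x ⬝ᵥ gr (FS_333.sq F) z = conj (∑ k, F z k * y k) := by
    rw [hgr, Matrix.dotProduct_mulVec, ← hst, map_sum]
    simp only [dotProduct, Pi.star_apply, RCLike.star_def, map_mul]
    exact Finset.sum_congr rfl fun k _ => mul_comm _ _
  have e4 : star (gr (FS_333.sq F) z) ⬝ᵥ x = ∑ k, F z k * y k := by
    have h := congrArg (fun c => conj c) e3
    simp only [Complex.conj_conj] at h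
    rw [← h]
    simp only [dotProduct, map_sum, map_mul, Pi.star_apply, RCLike.star_def, Complex.conj_conj]
    exact Finset.sum_congr rfl fun k _ => mul_comm _ _
  have e5 : star x ⬝ᵥ (Matrix.vecMulVec (gr (FS_333.sq F) z) (star (gr (FS_333.sq F) z)) *ᵥ x) =
      ((‖∑ k, F z k * y k‖ ^ 2 : ℝ) : ℂ) := by
    rw [Matrix.vecMulVec_mulVec, e4]
    have : star x ⬝ᵥ (MulOpposite.op (∑ k, F z k * y k) • gr (FS_333.sq F) z) =
        (star x ⬝ᵥ gr (FS_333.sq F) z) * ∑ k, F z k * y k := by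
      simp only [dotProduct, Finset.sum_mul, Pi.smul_apply, MulOpposite.smul_eq_mul_unop,
        MulOpposite.unop_op, mul_assoc]
    rw [this, e3, mul_comm, Complex.mul_conj, Complex.normSq_eq_norm_sq]
  rw [e0, Matrix.sub_mulVec, dotProduct_sub, Matrix.smul_mulVec, Matrix.smul_mulVec,
    dotProduct_smul, dotProduct_smul, e2, e5, smul_eq_mul, smul_eq_mul]
  have hfin : 0 ≤ a * ∑ k, ‖y k‖ ^ 2 - b * ‖∑ k, F z k * y k‖ ^ 2 := by
    refine cs_form (F z) y (by positivity) ?_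
    show b * FS_333.sq F z ≤ a
    set U0 : ℝ := FS_333.sq F z with hU0
    have h1 : (0 : ℝ) < (U0 + δ) ^ 2 := by positivity
    have h2 : a - b * U0 = δ / (U0 + δ) ^ 2 - 1 / (4 * δ) := by
      rw [ha, hb]
      field_simp
      ring
    have h3 : 1 / (4 * δ) ≤ δ / (U0 + δ) ^ 2 := by
      rw [div_le_div_iff₀ (by positivity) h1]
      nlinarith
    linarith
  have e6 : (a : ℂ) * ((∑ k, ‖y k‖ ^ 2 : ℝ) : ℂ) - (b : ℂ) * ((‖∑ k, F z k * y k‖ ^ 2 : ℝ) : ℂ) =
      ((a * ∑ k, ‖y k‖ ^ 2 - b * ‖∑ k, F z k * y k‖ ^ 2 : ℝ) : ℂ) := by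
    push_cast
    ring
  rw [e6]
  exact_mod_cast hfin

/-! ### metrics -/

section Metric

variable {M : Type} [TopologicalSpace M] {A : Atl n M} {L E : LB A} {N : ℕ}

/-- a positive definite closed field is a Kaehler metric -/
def kahOf {g : A.ι → M → Matrix (Fin n) (Fin n) ℂ} (hg : CF A g)
    (hp : ∀ i, ∀ x ∈ (A.e i).source, (g i x).PosDef) : Kah A where
  g := g
  sm := hg.sm
  pos := hp
  tr := hg.tr
  closed := hg.closed
  closed' i z hz a b c := by
    have hd : ∀ a b, DifferentiableAt ℝ (fun w => g i ((A.e i).symm w) a b) z := fun a b =>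
      hg.diffAt hz a b
    have h1 : ∀ a b c, wd (true, c) (fun w => g i ((A.e i).symm w) a b) z =
        conj (wd (false, c) (fun w => g i ((A.e i).symm w) b a) z) := by
      intro a b c
      rw [conj_wd _ (hd b a)]
      apply wd_congr
      filter_upwards [(A.e i).open_target.mem_nhds hz] with w hw
      have := congrFun (congrFun (hp i _ ((A.e i).map_target hw)).1.eq a) b
      simpa [Matrix.conjTranspose_apply] using this.symm
    rw [h1, h1, hg.closed i z hz]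


variable {h' : HM E} {C : Fin N → A.ι → M → ℂ}

/-- **(LSE)**, at the points where `N > 0` -/
theorem lse (hC : ∀ j, IsHS E univ (C j)) {κ : ℝ} (hκ : 0 < κ) {G : Matrix (Fin n) (Fin n) ℂ}
    {i : A.ι} {x : M} (hx : x ∈ (A.e i).source) (hG : G.PosSemidef)
    (hpos : (cur h' i x + G).PosSemidef) (hN : 0 < nrm h' C x) :
    (cur h' i x + G + hsf A (fun y => Real.log (nrm h' C y + κ)) i x -
      ((nrm h' C x / (nrm h' C x + κ) : ℝ) : ℂ) •
        hess (fun z => Real.log (FS_333.sq (rd C i) z)) (A.e i x)).PosSemidef := by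
  have hz := (A.e i).map_source hx
  have hUz : ContDiffAt ℝ ∞ (fun z => nrm h' C ((A.e i).symm z)) (A.e i x) :=
    sm_contDiffAt (sm_nrm hC) i hz
  have hp' : 0 < (fun z => nrm h' C ((A.e i).symm z)) (A.e i x) := by
    simpa only [(A.e i).left_inv hx] using hN
  have h1 := hess_log_cmp hκ.le hUz hp'
  simp only [(A.e i).left_inv hx] at h1
  have h2 : hsf A (fun y => Real.log (nrm h' C y + κ)) i x =
      (nrm h' C x / (nrm h' C x + κ) : ℝ) • hsf A (fun y => Real.log (nrm h' C y)) i x +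
      (κ / (nrm h' C x * (nrm h' C x + κ) ^ 2) : ℝ) • Matrix.vecMulVec
        (gr (fun z => nrm h' C ((A.e i).symm z)) (A.e i x))
        (star (gr (fun z => nrm h' C ((A.e i).symm z)) (A.e i x))) := by
    unfold hsf
    exact h1
  set r : ℝ := nrm h' C x / (nrm h' C x + κ) with hr
  have hr0 : 0 ≤ r := by positivity
  have hr1 : 0 ≤ 1 - r := by
    rw [hr, sub_nonneg, div_le_one (by positivity)]; linarith
  have e1 : ∀ (r : ℝ) (X : Matrix (Fin n) (Fin n) ℂ), (r : ℂ) • X = r • X := by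
    intro r X
    ext p q
    simp
  have h3 : cur h' i x + G + hsf A (fun y => Real.log (nrm h' C y + κ)) i x -
      (r : ℂ) • hess (fun z => Real.log (FS_333.sq (rd C i) z)) (A.e i x) =
      (1 - r : ℝ) • (cur h' i x + G) + r • G +
      (κ / (nrm h' C x * (nrm h' C x + κ) ^ 2) : ℝ) • Matrix.vecMulVec
        (gr (fun z => nrm h' C ((A.e i).symm z)) (A.e i x))
        (star (gr (fun z => nrm h' C ((A.e i).symm z)) (A.e i x))) := by
    rw [h2, hsf_log hC hx hN, e1]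
    module
  rw [h3]
  have h4 : 0 ≤ κ / (nrm h' C x * (nrm h' C x + κ) ^ 2) := by positivity
  exact ((hpos.smul hr1).add (hG.smul hr0)).add
    ((Matrix.posSemidef_vecMulVec_self_star _).smul h4)

/-- **positivity** of `cur h' + e K + ∂∂̄ log (N + κ)` -/
theorem lse_nn (K : Kah A) {e : ℝ} (he : 0 ≤ e)
    (hp : ∀ i, ∀ x ∈ (A.e i).source, (cur h' i x + (e : ℂ) • K.g i x).PosSemidef)
    (hC : ∀ j, IsHS E univ (C j)) {κ : ℝ} (hκ : 0 < κ) (i : A.ι) {x : M}
    (hx : x ∈ (A.e i).source) :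
    (cur h' i x + (e : ℂ) • K.g i x +
      hsf A (fun y => Real.log (nrm h' C y + κ)) i x).PosSemidef := by
  have hS := sm_log_add (sm_nrm (h' := h') hC) (nrm_nonneg hC) hκ
  have hG : ∀ y ∈ (A.e i).source, ((e : ℂ) • K.g i y).PosSemidef := fun y hy =>
    (K.pos i y hy).posSemidef.smul (by exact_mod_cast he)
  -- at the points where `N > 0`
  have hpos : ∀ y ∈ (A.e i).source, 0 < nrm h' C y →
      (cur h' i y + (e : ℂ) • K.g i y +
        hsf A (fun y => Real.log (nrm h' C y + κ)) i y).PosSemidef := by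
    intro y hy hNy
    have h1 := lse hC hκ hy (hG y hy) (hp i y hy) hNy
    have hr0 : 0 ≤ nrm h' C y / (nrm h' C y + κ) := by positivity
    have h2 := h1.add ((lev_log_sq_nonneg hC hy hNy).smul
      (show (0 : ℂ) ≤ ((nrm h' C y / (nrm h' C y + κ) : ℝ) : ℂ) by exact_mod_cast hr0))
    rwa [sub_add_cancel] at h2
  by_cases hx' : ∃ᶠ y in 𝓝 x, 0 < nrm h' C y
  · have hcont : ContinuousAt (fun y => cur h' i y + (e : ℂ) • K.g i y +
        hsf A (fun y => Real.log (nrm h' C y + κ)) i y) x := by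
      refine continuousAt_pi.2 fun a => continuousAt_pi.2 fun b => ?_
      have h1 : A.SmAt i (fun y => (cur h' i y + (e : ℂ) • K.g i y +
          hsf A (fun y => Real.log (nrm h' C y + κ)) i y) a b) :=
        ((cur_smooth h' i a b).add (contDiffOn_const.mul (K.sm i a b))).add
          ((hsf_cf hS).sm i a b)
      have h2 : ContinuousAt (fun z => (fun y => (cur h' i y + (e : ℂ) • K.g i y +
          hsf A (fun y => Real.log (nrm h' C y + κ)) i y) a b) ((A.e i).symm z)) (A.e i x) :=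
        (ContDiffOn.continuousOn h1).continuousAt
          ((A.e i).open_target.mem_nhds ((A.e i).map_source hx))
      have h3 := ContinuousAt.comp (f := fun y => A.e i y) h2 ((A.e i).continuousAt hx)
      refine h3.congr ?_
      filter_upwards [(A.e i).open_source.mem_nhds hx] with y hy
      simp only [Function.comp, (A.e i).left_inv hy]
    have h5 : ∃ᶠ y in 𝓝 x, (cur h' i y + (e : ℂ) • K.g i y +
        hsf A (fun y => Real.log (nrm h' C y + κ)) i y) ∈
          {X : Matrix (Fin n) (Fin n) ℂ | X.PosSemidef} :=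
      (hx'.and_eventually ((A.e i).open_source.mem_nhds hx)).mono
        fun y hy => hpos y hy.2 hy.1
    exact isClosed_psd.mem_of_frequently_of_tendsto h5 hcont
  · rw [not_frequently] at hx'
    have h2 : hsf A (fun y => Real.log (nrm h' C y + κ)) i x = 0 := by
      unfold hsf
      have h3 : (fun z => Real.log (nrm h' C ((A.e i).symm z) + κ)) =ᶠ[𝓝 (A.e i x)]
          fun _ => Real.log κ := by
        have hc : Tendsto (A.e i).symm (𝓝 (A.e i x)) (𝓝 x) := by
          have := (A.e i).continuousAt_symm ((A.e i).map_source hx)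
          rwa [ContinuousAt, (A.e i).left_inv hx] at this
        filter_upwards [hc.eventually hx'] with z hz
        rw [le_antisymm (not_lt.1 hz) (nrm_nonneg hC _), zero_add]
      rw [hess_congr h3]
      ext a b
      rw [hess_apply]
      have h4 : wd (true, b) (cu fun _ : Cn n => Real.log κ) = fun _ => 0 := by
        funext w
        exact wd_const _ _ _
      rw [h4, wd_const]
      rfl
    rw [h2, add_zero]
    exact hp i x hx

end Metric

end

end Crest.Agent.R281.OmM_980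
end

-- ▼ part R281/OmM2_980
section

/-!
# R281 (S0424), OM-MASS (helper980), part 2: the concentrating Kaehler metrics

`s_0, …, s_m` sections of `L^k`, `h : HM L` with `cur h + e K ≥ 0`.
* `sd s δ`  : the sections `√δ s_0, s_1, …, s_m`
* `be`      : `(1 + 2 k e R) K + k R cur h = K + R k (cur h + 2 e K)`
* `Kd δ`    : `be + R (k cur h + k e K + ∂∂̄ log (∑ |(sd s δ)_j|² + δ²))`
* `hlow`    : `Kd δ ≥ be + (R / (8 δ)) (df)ᵀ (df)‾` on compacts of `{s_0 ≠ 0}` where `|f|² ≤ δ`,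
              `δ → 0+`, `f = (s_b / s_0)`
-/

set_option autoImplicit false
set_option linter.unusedSectionVars false

open Set Filter Topology Complex MeasureTheory
open scoped ContDiff Matrix ComplexConjugate ComplexOrder

namespace Crest.Agent.R281.OmM_980

open Crest.Agent.R275 Crest.Agent.R275.Geo Crest.Agent.R275.Core144 Crest.Agent.R275.EDR890
open Crest.Agent.R273.Defs_333 Crest.Agent.R273.Hess_333 Crest.Agent.R273.HessB_333
open Crest.Agent.R273.HM_333 Crest.Agent.R273.Kah_333 Crest.Agent.R273.FS_333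
open Crest.Agent.R273.Map_835 (mt)
open Crest.Agent.R273.Green_5 Crest.Agent.R273.FIa0_597 Crest.Agent.R273.FIb0_597
open Crest.Agent.R273.FIc0_597 Crest.Agent.R273.AppA_834 Crest.Agent.R273
open Crest.Agent.R281.LfS_901 (U0 qf qf_eq mem_u0 hf_qf qf_symm_eventuallyEq diffAt
  hasFDerivAt_quot)

noncomputable section

variable {n m : ℕ} {M : Type} [TopologicalSpace M] {A : Atl n M} {L E : LB A}

/-! ### the sections `√δ s_0, s_1, …, s_m` -/

/-- the factor -/
def fac (m : ℕ) (δ : ℝ) (j : Fin (m + 1)) : ℂ := if j = 0 then ((√δ : ℝ) : ℂ) else 1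

/-- the sections `√δ s_0, s_1, …, s_m` -/
def sd (s : Fin (m + 1) → A.ι → M → ℂ) (δ : ℝ) (j : Fin (m + 1)) : A.ι → M → ℂ := fac m δ j • s j

theorem sd_apply (s : Fin (m + 1) → A.ι → M → ℂ) (δ : ℝ) (j : Fin (m + 1)) (i : A.ι) (x : M) :
    sd s δ j i x = fac m δ j * s j i x := rfl

variable {s : Fin (m + 1) → A.ι → M → ℂ}

theorem isHS_sd (hs : ∀ a, IsHS E univ (s a)) (δ : ℝ) (j : Fin (m + 1)) :
    IsHS E univ (sd s δ j) := (hs j).smul _

theorem sq_sd (s : Fin (m + 1) → A.ι → M → ℂ) {δ : ℝ} (hδ : 0 ≤ δ) (i : A.ι) (z : Cn n) :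
    FS_333.sq (AppA_834.rd (sd s δ) i) z = δ * ‖s 0 i ((A.e i).symm z)‖ ^ 2 +
      ∑ b : Fin m, ‖s b.succ i ((A.e i).symm z)‖ ^ 2 := by
  unfold FS_333.sq AppA_834.rd
  rw [Fin.sum_univ_succ]
  congr 1
  · rw [sd_apply, norm_mul, mul_pow]
    congr 1
    simp [fac, Real.sq_sqrt hδ]
  · refine Finset.sum_congr rfl fun b _ => ?_
    rw [sd_apply]
    simp [fac, Fin.succ_ne_zero]

/-- the quotients in the chart `i` -/
def Qf (s : Fin (m + 1) → A.ι → M → ℂ) (i : A.ι) (z : Cn n) (b : Fin m) : ℂ :=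
  s b.succ i ((A.e i).symm z) / s 0 i ((A.e i).symm z)

theorem sq_Qf (hs : ∀ a, IsHS E univ (s a)) {i : A.ι} {z : Cn n} (hz : z ∈ (A.e i).target) :
    FS_333.sq (Qf s i) z = ‖qf s ((A.e i).symm z)‖ ^ 2 := by
  rw [EuclideanSpace.norm_sq_eq]
  unfold FS_333.sq Qf
  refine Finset.sum_congr rfl fun b _ => ?_
  rw [qf_eq hs ((A.e i).map_target hz)]

theorem sq_sd_Qf (s : Fin (m + 1) → A.ι → M → ℂ) {δ : ℝ} (hδ : 0 ≤ δ) (i : A.ι) {z : Cn n}
    (h0 : s 0 i ((A.e i).symm z) ≠ 0) :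
    FS_333.sq (AppA_834.rd (sd s δ) i) z =
      ‖s 0 i ((A.e i).symm z)‖ ^ 2 * (FS_333.sq (Qf s i) z + δ) := by
  rw [sq_sd s hδ]
  unfold FS_333.sq Qf
  have h1 : ‖s 0 i ((A.e i).symm z)‖ ≠ 0 := norm_ne_zero_iff.2 h0
  rw [mul_add, Finset.mul_sum, add_comm, mul_comm δ]
  congr 1
  refine Finset.sum_congr rfl fun b _ => ?_
  rw [norm_div]
  field_simp

/-- the open set where `s_0 ≠ 0`, in the chart `i` -/
def Vi (s : Fin (m + 1) → A.ι → M → ℂ) (i : A.ι) : Set (Cn n) :=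
  (A.e i).target ∩ (fun z => s 0 i ((A.e i).symm z)) ⁻¹' {0}ᶜ

theorem sec_don (hs : ∀ a, IsHS E univ (s a)) (a : Fin (m + 1)) (i : A.ι) :
    DifferentiableOn ℂ (fun z => s a i ((A.e i).symm z)) (A.e i).target := by
  have := (hs a).hol i
  unfold HolAt at this
  rw [preimage_univ, inter_univ] at this
  exact this

theorem isOpen_Vi (hs : ∀ a, IsHS E univ (s a)) (i : A.ι) : IsOpen (Vi s i) :=
  (sec_don hs 0 i).continuousOn.isOpen_inter_preimage (A.e i).open_target isOpen_compl_singleton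

theorem don_Qf (hs : ∀ a, IsHS E univ (s a)) (i : A.ι) (b : Fin m) :
    DifferentiableOn ℂ (fun z => Qf s i z b) (Vi s i) := by
  intro z hz
  have h1 : DifferentiableAt ℂ (fun z => s b.succ i ((A.e i).symm z)) z :=
    (sec_don hs b.succ i).differentiableAt ((A.e i).open_target.mem_nhds hz.1)
  have h2 : DifferentiableAt ℂ (fun z => s 0 i ((A.e i).symm z)) z :=
    (sec_don hs 0 i).differentiableAt ((A.e i).open_target.mem_nhds hz.1)
  have h3 := DifferentiableAt.fun_mul h1 (DifferentiableAt.fun_inv h2 hz.2)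
  have e : (fun z => Qf s i z b) = fun z => s b.succ i ((A.e i).symm z) *
      (s 0 i ((A.e i).symm z))⁻¹ := by
    funext w
    exact div_eq_mul_inv _ _
  rw [e]
  exact h3.differentiableWithinAt

theorem mem_Vi {i : A.ι} {x : M} (hx : x ∈ (A.e i).source) (h0 : s 0 i x ≠ 0) :
    A.e i x ∈ Vi s i := by
  refine ⟨(A.e i).map_source hx, ?_⟩
  show s 0 i ((A.e i).symm (A.e i x)) ≠ 0
  rwa [(A.e i).left_inv hx]

/-- `∂∂̄ log ∑ |(sd s δ)_j|² = ∂∂̄ log (|f|² + δ)` -/
theorem hess_sd (hs : ∀ a, IsHS E univ (s a)) {δ : ℝ} (hδ : 0 < δ) {i : A.ι} {x : M}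
    (hx : x ∈ (A.e i).source) (h0 : s 0 i x ≠ 0) :
    hess (fun z => Real.log (FS_333.sq (AppA_834.rd (sd s δ) i) z)) (A.e i x) =
      hess (fun z => Real.log (FS_333.sq (Qf s i) z + δ)) (A.e i x) := by
  have hV := isOpen_Vi hs i
  have hm := mem_Vi hx h0
  have h00 : s 0 i ((A.e i).symm (A.e i x)) ≠ 0 := hm.2
  have hev : (fun z => Real.log (FS_333.sq (AppA_834.rd (sd s δ) i) z)) =ᶠ[𝓝 (A.e i x)]
      fun z => Real.log (‖s 0 i ((A.e i).symm z)‖ ^ 2) +
        Real.log (FS_333.sq (Qf s i) z + δ) := by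
    filter_upwards [hV.mem_nhds hm] with z hz
    have h2 : s 0 i ((A.e i).symm z) ≠ 0 := hz.2
    have h3 := sq_nonneg' (Qf s i) z
    rw [sq_sd_Qf s hδ.le i h2, Real.log_mul]
    · exact pow_ne_zero 2 (norm_ne_zero_iff.2 h2)
    · positivity
  have hsc : ContDiffAt ℝ ∞ (fun z => s 0 i ((A.e i).symm z)) (A.e i x) :=
    contDiffAt_of_hol (A.e i).open_target (sec_don hs 0 i) ((A.e i).map_source hx)
  have hl1 : ContDiffAt ℝ ∞ (fun z => Real.log (‖s 0 i ((A.e i).symm z)‖ ^ 2)) (A.e i x) :=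
    (hsc.norm_sq ℝ).log (pow_ne_zero 2 (norm_ne_zero_iff.2 h00))
  have hl2 : ContDiffAt ℝ ∞ (fun z => Real.log (FS_333.sq (Qf s i) z + δ)) (A.e i x) := by
    have h3 : ContDiffAt ℝ ∞ (FS_333.sq (Qf s i)) (A.e i x) :=
      ContDiffAt.sum fun b _ => (contDiffAt_of_hol hV (don_Qf hs i b) hm).norm_sq ℝ
    refine (h3.add contDiffAt_const).log ?_
    have h4 := sq_nonneg' (Qf s i) (A.e i x)
    positivity
  have hsd : ∀ᶠ z in 𝓝 (A.e i x), DifferentiableAt ℂ (fun z => s 0 i ((A.e i).symm z)) z := by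
    filter_upwards [(A.e i).open_target.mem_nhds ((A.e i).map_source hx)] with z hz
    exact (sec_don hs 0 i).differentiableAt ((A.e i).open_target.mem_nhds hz)
  rw [hess_congr hev, hess_add hl1 hl2, hess_log_norm hsd h00, zero_add]

/-- the Jacobian matrix of `f = (s_b / s_0)` -/
def Df (A : Atl n M) (f : M → Cn m) (i : A.ι) (x : M) : Matrix (Fin m) (Fin n) ℂ :=
  mt (fderiv ℂ (fun z => f ((A.e i).symm z)) (A.e i x))

theorem DF_Qf (hs : ∀ a, IsHS E univ (s a)) {i : A.ι} {x : M} (hx : x ∈ (A.e i).source)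
    (h0 : s 0 i x ≠ 0) : DF (Qf s i) (A.e i x) = Df A (qf s) i x := by
  ext b a
  show fderiv ℂ (fun w => Qf s i w b) (A.e i x) (EuclideanSpace.single a 1) =
    (fderiv ℂ (fun z => qf s ((A.e i).symm z)) (A.e i x) (EuclideanSpace.single a 1)) b
  have hd : DifferentiableAt ℂ (fun z => qf s ((A.e i).symm z)) (A.e i x) :=
    hf_qf hs x ((mem_u0 hs hx).2 h0) i hx
  have h2 := ((EuclideanSpace.proj b : Cn m →L[ℂ] ℂ).hasFDerivAt.comp
    (A.e i x) hd.hasFDerivAt).fderiv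
  have h3 : fderiv ℂ (fun z => qf s ((A.e i).symm z) b) (A.e i x) =
      (EuclideanSpace.proj b : Cn m →L[ℂ] ℂ).comp
        (fderiv ℂ (fun z => qf s ((A.e i).symm z)) (A.e i x)) := h2
  have h4 : (fun z => qf s ((A.e i).symm z) b) =ᶠ[𝓝 (A.e i x)] fun w => Qf s i w b := by
    filter_upwards [qf_symm_eventuallyEq hs hx] with z hz
    rw [hz]
    rfl
  rw [← h4.fderiv_eq, h3]
  rfl

/-- the lower bound of the Fubini-Study part -/
theorem fsb_sd (hs : ∀ a, IsHS E univ (s a)) {δ : ℝ} (hδ : 0 < δ) {i : A.ι} {x : M}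
    (hx : x ∈ (A.e i).source) (h0 : s 0 i x ≠ 0) (hq : ‖qf s x‖ ^ 2 ≤ δ) :
    (hess (fun z => Real.log (FS_333.sq (AppA_834.rd (sd s δ) i) z)) (A.e i x) -
      (((4 * δ)⁻¹ : ℝ) : ℂ) • ((Df A (qf s) i x)ᵀ * (Df A (qf s) i x).map conj)).PosSemidef := by
  rw [hess_sd hs hδ hx h0, ← DF_Qf hs hx h0]
  refine fsb (isOpen_Vi hs i) (don_Qf hs i) (mem_Vi hx h0) hδ ?_
  rw [sq_Qf hs ((A.e i).map_source hx), (A.e i).left_inv hx]
  exact hq

/-! ### the metrics -/

variable {k : ℕ} (K : Kah A) (h : HM L) (e R : ℝ)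

/-- `(1 + 2 k e R) K + k R cur h` -/
def beG (k : ℕ) (i : A.ι) (x : M) : Matrix (Fin n) (Fin n) ℂ :=
  ((1 + 2 * k * e * R : ℝ) : ℂ) • K.g i x + ((k * R : ℝ) : ℂ) • cur h i x

/-- `(1 + 3 k e R) K + 2 k R cur h + R ∂∂̄ log (∑ |(sd s δ)_j|² + δ²)` -/
def kdG (k : ℕ) (s : Fin (m + 1) → A.ι → M → ℂ) (δ : ℝ) (i : A.ι) (x : M) :
    Matrix (Fin n) (Fin n) ℂ :=
  ((1 + 3 * k * e * R : ℝ) : ℂ) • K.g i x + ((2 * k * R : ℝ) : ℂ) • cur h i x +
    hsf A (fun y => R * Real.log (nrm (pow h k) (sd s δ) y + δ ^ 2)) i x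

theorem cf_beG (k : ℕ) : CF A (beG K h e R k) :=
  ((kah_cf K).smul _).add ((cur_cf h).smul _)

theorem sm_log (hs : ∀ a, IsHS (L ^ k) univ (s a)) {δ : ℝ} (hδ : 0 < δ) :
    A.Sm (fun y => Real.log (nrm (pow h k) (sd s δ) y + δ ^ 2)) :=
  sm_log_add (sm_nrm (isHS_sd hs δ)) (nrm_nonneg (isHS_sd hs δ)) (by positivity)

theorem sm_Rlog (hs : ∀ a, IsHS (L ^ k) univ (s a)) {δ : ℝ} (hδ : 0 < δ) :
    A.Sm (fun y => R * Real.log (nrm (pow h k) (sd s δ) y + δ ^ 2)) :=
  TLs_201.sm_smul R (sm_log h hs hδ)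

theorem cf_kdG (hs : ∀ a, IsHS (L ^ k) univ (s a)) {δ : ℝ} (hδ : 0 < δ) :
    CF A (kdG K h e R k s δ) :=
  (((kah_cf K).smul _).add ((cur_cf h).smul _)).add (hsf_cf (sm_Rlog h R hs hδ))

variable {e R}

/-- `be = K + R k (cur h + 2 e K)` -/
theorem beG_eq (k : ℕ) (i : A.ι) (x : M) : beG K h e R k i x =
    K.g i x + ((R * k : ℝ) : ℂ) • (cur h i x + ((2 * e : ℝ) : ℂ) • K.g i x) := by
  unfold beG
  push_cast
  module

theorem psd_two (he : 0 ≤ e)
    (hp : ∀ i, ∀ x ∈ (A.e i).source, (cur h i x + (e : ℂ) • K.g i x).PosSemidef) {i : A.ι} {x : M}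
    (hx : x ∈ (A.e i).source) : (cur h i x + ((2 * e : ℝ) : ℂ) • K.g i x).PosSemidef := by
  have h1 : cur h i x + ((2 * e : ℝ) : ℂ) • K.g i x =
      (cur h i x + (e : ℂ) • K.g i x) + (e : ℂ) • K.g i x := by
    push_cast
    module
  rw [h1]
  exact (hp i x hx).add ((K.pos i x hx).posSemidef.smul (by exact_mod_cast he))

theorem beG_pos (he : 0 ≤ e) (hR : 0 ≤ R)
    (hp : ∀ i, ∀ x ∈ (A.e i).source, (cur h i x + (e : ℂ) • K.g i x).PosSemidef) (k : ℕ)
    (i : A.ι) (x : M) (hx : x ∈ (A.e i).source) : (beG K h e R k i x).PosDef := by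
  rw [beG_eq]
  refine (K.pos i x hx).add_posSemidef ((psd_two K h he hp hx).smul ?_)
  have : 0 ≤ R * k := by positivity
  exact_mod_cast this

/-- `Kd δ = be + R (cur (h^k) + k e K + ∂∂̄ log)` -/
theorem kdG_eq (hs : ∀ a, IsHS (L ^ k) univ (s a)) {δ : ℝ} (hδ : 0 < δ) {i : A.ι} {x : M}
    (hx : x ∈ (A.e i).source) : kdG K h e R k s δ i x = beG K h e R k i x +
      (R : ℂ) • (cur (pow h k) i x + ((k * e : ℝ) : ℂ) • K.g i x +
        hsf A (fun y => Real.log (nrm (pow h k) (sd s δ) y + δ ^ 2)) i x) := by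
  unfold kdG beG
  rw [TLs_201.hsf_smul R (sm_log h hs hδ) hx, cur_pow h k i hx]
  push_cast
  module

theorem hp_pow (hp : ∀ i, ∀ x ∈ (A.e i).source, (cur h i x + (e : ℂ) • K.g i x).PosSemidef)
    (k : ℕ) (i : A.ι) (x : M) (hx : x ∈ (A.e i).source) :
    (cur (pow h k) i x + ((k * e : ℝ) : ℂ) • K.g i x).PosSemidef := by
  rw [cur_pow h k i hx]
  have h1 : (k : ℂ) • cur h i x + ((k * e : ℝ) : ℂ) • K.g i x =
      (k : ℂ) • (cur h i x + (e : ℂ) • K.g i x) := by
    push_cast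
    module
  rw [h1]
  exact (hp i x hx).smul (by positivity)

theorem kdG_pos (he : 0 ≤ e) (hR : 0 ≤ R)
    (hp : ∀ i, ∀ x ∈ (A.e i).source, (cur h i x + (e : ℂ) • K.g i x).PosSemidef)
    (hs : ∀ a, IsHS (L ^ k) univ (s a)) {δ : ℝ} (hδ : 0 < δ)
    (i : A.ι) (x : M) (hx : x ∈ (A.e i).source) : (kdG K h e R k s δ i x).PosDef := by
  rw [kdG_eq K h hs hδ hx]
  refine (beG_pos K h he hR hp k i x hx).add_posSemidef (Matrix.PosSemidef.smul ?_
    (by exact_mod_cast hR))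
  exact lse_nn K (by positivity) (hp_pow K h hp k) (isHS_sd hs δ) (by positivity) i hx

/-- the metric `be` -/
def be (he : 0 ≤ e) (hR : 0 ≤ R)
    (hp : ∀ i, ∀ x ∈ (A.e i).source, (cur h i x + (e : ℂ) • K.g i x).PosSemidef) (k : ℕ) : Kah A :=
  kahOf (cf_beG K h e R k) (beG_pos K h he hR hp k)

open Classical in
/-- the metrics `Kd δ` -/
def Kd (he : 0 ≤ e) (hR : 0 ≤ R)
    (hp : ∀ i, ∀ x ∈ (A.e i).source, (cur h i x + (e : ℂ) • K.g i x).PosSemidef)
    (hs : ∀ a, IsHS (L ^ k) univ (s a)) (δ : ℝ) : Kah A :=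
  if hδ : 0 < δ then kahOf (cf_kdG K h e R hs hδ) (kdG_pos K h he hR hp hs hδ) else K

theorem Kd_g (he : 0 ≤ e) (hR : 0 ≤ R)
    (hp : ∀ i, ∀ x ∈ (A.e i).source, (cur h i x + (e : ℂ) • K.g i x).PosSemidef)
    (hs : ∀ a, IsHS (L ^ k) univ (s a)) {δ : ℝ} (hδ : 0 < δ) :
    (Kd K h he hR hp hs δ).g = kdG K h e R k s δ := by
  unfold Kd
  rw [dif_pos hδ]
  rfl

/-- **the lower bound** -/
theorem hlow (he : 0 ≤ e) (hR : 0 ≤ R)
    (hp : ∀ i, ∀ x ∈ (A.e i).source, (cur h i x + (e : ℂ) • K.g i x).PosSemidef)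
    (hs : ∀ a, IsHS (L ^ k) univ (s a)) (i : A.ι) (C : Set M) (hC : IsCompact C)
    (hCs : C ⊆ (A.e i).source ∩ U0 s) :
    ∀ᶠ δ in 𝓝[>] (0 : ℝ), ∀ x ∈ C, ‖qf s x‖ ^ 2 ≤ δ →
      ((Kd K h he hR hp hs δ).g i x - (be K h he hR hp k).g i x -
        (((R / 8) / δ : ℝ) : ℂ) • ((Df A (qf s) i x)ᵀ * (Df A (qf s) i x).map conj)).PosSemidef := by
  -- lower bound of `|s_0|²` on `C`
  obtain ⟨c0, hc0, hc⟩ : ∃ c0 : ℝ, 0 < c0 ∧ ∀ x ∈ C, c0 ≤ ‖s 0 i x‖ ^ 2 * (pow h k).w i x := by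
    rcases C.eq_empty_or_nonempty with rfl | hne
    · exact ⟨1, one_pos, fun x hx => absurd hx (notMem_empty x)⟩
    have hcont : ContinuousOn (fun x => ‖s 0 i x‖ ^ 2 * (pow h k).w i x) C := by
      intro x hx
      have hxs := (hCs hx).1
      have h1 : ContinuousAt (s 0 i) x := LfS_901.continuousAt_sec hs 0 hxs
      have h2 : ContinuousAt ((pow h k).w i) x := by
        have h3 : ContinuousAt (fun z => (pow h k).w i ((A.e i).symm z)) (A.e i x) :=
          ((pow h k).sm i).continuousOn.continuousAt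
            ((A.e i).open_target.mem_nhds ((A.e i).map_source hxs))
        have h4 := ContinuousAt.comp (f := fun y => A.e i y) h3 ((A.e i).continuousAt hxs)
        refine h4.congr ?_
        filter_upwards [(A.e i).open_source.mem_nhds hxs] with y hy
        simp only [Function.comp, (A.e i).left_inv hy]
      exact ((h1.norm.pow 2).mul h2).continuousWithinAt
    obtain ⟨x0, hx0, hmin⟩ := hC.exists_isMinOn hne hcont
    refine ⟨_, ?_, fun x hx => hmin hx⟩
    have h1 : s 0 i x0 ≠ 0 := (mem_u0 hs (hCs hx0).1).1 (hCs hx0).2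
    have h2 := (pow h k).pos i x0 (hCs hx0).1
    positivity
  filter_upwards [self_mem_nhdsWithin, Ioo_mem_nhdsGT hc0] with δ hδ hδ2 x hx hq
  rw [mem_Ioi] at hδ
  have hxs := (hCs hx).1
  have h0 : s 0 i x ≠ 0 := (mem_u0 hs hxs).1 (hCs hx).2
  have hN0 : δ * (‖s 0 i x‖ ^ 2 * (pow h k).w i x) ≤ nrm (pow h k) (sd s δ) x := by
    rw [nrm_eq (isHS_sd hs δ) hxs, sq_sd s hδ.le, (A.e i).left_inv hxs]
    have h1 : 0 ≤ ∑ b : Fin m, ‖s b.succ i x‖ ^ 2 := Finset.sum_nonneg fun _ _ => by positivity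
    have h2 := (pow h k).pos i x hxs
    nlinarith [mul_nonneg h1 h2.le]
  have hN1 : δ ^ 2 ≤ nrm (pow h k) (sd s δ) x := by
    have := hc x hx
    nlinarith [hδ2.2]
  have hN : 0 < nrm (pow h k) (sd s δ) x := lt_of_lt_of_le (by positivity) hN1
  set r : ℝ := nrm (pow h k) (sd s δ) x / (nrm (pow h k) (sd s δ) x + δ ^ 2) with hr
  have hr2 : 1 / 2 ≤ r := by
    rw [hr, div_le_div_iff₀ (by positivity) (by positivity)]
    linarith
  have hke : 0 ≤ (k : ℝ) * e := by positivity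
  have l1 := lse (h' := pow h k) (C := sd s δ) (isHS_sd hs δ) (κ := δ ^ 2) (by positivity)
    (G := ((k * e : ℝ) : ℂ) • K.g i x) hxs
    ((K.pos i x hxs).posSemidef.smul (by exact_mod_cast hke)) (hp_pow K h hp k i x hxs) hN
  rw [← hr] at l1
  have l2 := (fsb_sd hs hδ hxs h0 hq).smul (show (0 : ℂ) ≤ (r : ℂ) by
    exact_mod_cast (by linarith : (0:ℝ) ≤ r))
  have l3 : (((r / (4 * δ) - 1 / (8 * δ) : ℝ) : ℂ) •
      ((Df A (qf s) i x)ᵀ * (Df A (qf s) i x).map conj)).PosSemidef := by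
    have h1 : ((Df A (qf s) i x)ᵀ * (Df A (qf s) i x).map conj).PosSemidef := by
      have h2 := Matrix.posSemidef_conjTranspose_mul_self ((Df A (qf s) i x).map conj)
      have h3 : ((Df A (qf s) i x).map conj)ᴴ = (Df A (qf s) i x)ᵀ := by
        ext a b
        simp [Matrix.conjTranspose_apply]
      rwa [h3] at h2
    refine h1.smul ?_
    have h2 : 0 ≤ r / (4 * δ) - 1 / (8 * δ) := by
      rw [sub_nonneg, div_le_div_iff₀ (by positivity) (by positivity)]
      nlinarith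
    exact_mod_cast h2
  have l4 := ((l1.add l2).add l3).smul (show (0 : ℂ) ≤ (R : ℂ) by exact_mod_cast hR)
  rw [Kd_g K h he hR hp hs hδ, kdG_eq K h hs hδ hxs]
  have e1 : (be K h he hR hp k).g i x = beG K h e R k i x := rfl
  rw [e1]
  convert l4 using 1
  have hδ' : (δ : ℂ) ≠ 0 := by exact_mod_cast hδ.ne'
  push_cast
  simp only [smul_add, smul_sub, smul_smul, add_sub_cancel_left, sub_smul]
  have e2 : (R : ℂ) / 8 / δ = R * (1 / (8 * δ)) := by field_simp
  have e3 : (R : ℂ) * (r * (4 * (δ : ℂ))⁻¹) = R * (r / (4 * (δ : ℂ))) := by rw [div_eq_mul_inv]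
  rw [e2, e3]
  abel

end

end Crest.Agent.R281.OmM_980
end

-- ▼ part R281/OmG_467
section

/-!
# R281 (S0424), OM-MASS (854 #7836), piece (GL) + (BALL) (helper467)

* `gl`   : a local lower bound on compact pieces of an injectively immersed space becomes a
  global bound of the total mass (inner regularity + disjoint neighbourhoods of disjoint compacts)
* `ball` : volume of `{y | ∑ y² ≤ δ}`
-/

set_option autoImplicit false

open Set Filter Topology MeasureTheory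
open scoped ENNReal NNReal Pointwise

namespace Crest.Agent.R281.OmG_467

section GLsec

variable {T M : Type*} [TopologicalSpace T] [TopologicalSpace M]
  [MeasurableSpace T] [MeasurableSpace M]

/-- the property of a compact piece which is stable under disjoint unions -/
def PP (μ : Measure T) (i : T → M) (ν : ℝ → Measure M) (c : ℝ≥0∞) (E : Set T) : Prop :=
  ∀ O : Set M, IsOpen O → i '' E ⊆ O → ∀ᶠ δ in 𝓝[>] (0:ℝ), c * μ E ≤ ν δ O

theorem PP.union [T2Space M] [OpensMeasurableSpace M] {μ : Measure T} {i : T → M}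
    (hi : Continuous i) (hinj : Function.Injective i) {ν : ℝ → Measure M} {c : ℝ≥0∞}
    {E F : Set T} (hE : IsCompact E) (hF : IsCompact F) (hEF : Disjoint E F)
    (pE : PP μ i ν c E) (pF : PP μ i ν c F) : PP μ i ν c (E ∪ F) := by
  intro O hO hsub
  have h1 : Disjoint (i '' E) (i '' F) := (disjoint_image_iff hinj).2 hEF
  obtain ⟨O1, O2, hO1, hO2, hs1, hs2, hd⟩ :=
    SeparatedNhds.of_isCompact_isCompact (hE.image hi) (hF.image hi) h1
  have e1 : i '' E ⊆ O := (image_mono subset_union_left).trans hsub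
  have e2 : i '' F ⊆ O := (image_mono subset_union_right).trans hsub
  filter_upwards [pE (O1 ∩ O) (hO1.inter hO) (subset_inter hs1 e1),
    pF (O2 ∩ O) (hO2.inter hO) (subset_inter hs2 e2)] with δ a b
  calc c * μ (E ∪ F) ≤ c * (μ E + μ F) := by gcongr; exact measure_union_le _ _
    _ = c * μ E + c * μ F := mul_add _ _ _
    _ ≤ ν δ (O1 ∩ O) + ν δ (O2 ∩ O) := add_le_add a b
    _ = ν δ ((O1 ∩ O) ∪ (O2 ∩ O)) := by
        rw [measure_union (hd.mono inter_subset_left inter_subset_left)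
          (hO2.inter hO).measurableSet]
    _ ≤ ν δ O := measure_mono (union_subset inter_subset_right inter_subset_right)

/-- **(GL), general form.** -/
theorem gl [LocallyCompactSpace T] [T2Space T] [SecondCountableTopology T] [BorelSpace T]
    [T2Space M] [OpensMeasurableSpace M] (μ : Measure T) [IsFiniteMeasureOnCompacts μ]
    {i : T → M} (hi : Continuous i) (hinj : Function.Injective i) (ν : ℝ → Measure M)
    {c C : ℝ≥0∞} (hC : ∀ᶠ δ in 𝓝[>] (0:ℝ), ν δ univ ≤ C)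
    (hloc : ∀ p : T, ∃ U ∈ 𝓝 p, ∀ E ⊆ U, IsCompact E → ∀ O : Set M, IsOpen O → i '' E ⊆ O →
      ∀ᶠ δ in 𝓝[>] (0:ℝ), c * μ E ≤ ν δ O) :
    c * μ univ ≤ C := by
  haveI : T3Space T := inferInstance
  haveI : TopologicalSpace.MetrizableSpace T :=
    TopologicalSpace.metrizableSpace_of_t3_secondCountable T
  haveI : IsLocallyFiniteMeasure μ := isLocallyFiniteMeasure_of_isFiniteMeasureOnCompacts
  haveI : μ.Regular := Measure.Regular.of_sigmaCompactSpace_of_isLocallyFiniteMeasure μ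
  -- the approximation property
  have key : ∀ K : Set T, IsCompact K → ∃ V : Set T, MeasurableSet V ∧ K ⊆ V ∧
      ∀ B ⊆ V, MeasurableSet B → μ B ≠ ∞ → ∀ ε : ℝ≥0∞, ε ≠ 0 →
        ∃ E ⊆ B, IsCompact E ∧ PP μ i ν c E ∧ μ B ≤ μ E + ε := by
    intro K hK
    refine hK.induction_on (p := fun K => ∃ V : Set T, MeasurableSet V ∧ K ⊆ V ∧
      ∀ B ⊆ V, MeasurableSet B → μ B ≠ ∞ → ∀ ε : ℝ≥0∞, ε ≠ 0 →
        ∃ E ⊆ B, IsCompact E ∧ PP μ i ν c E ∧ μ B ≤ μ E + ε) ?_ ?_ ?_ ?_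
    · refine ⟨∅, MeasurableSet.empty, subset_rfl, fun B hB _ _ ε _ => ⟨∅, empty_subset _,
        isCompact_empty, ?_, ?_⟩⟩
      · intro O _ _
        filter_upwards with δ
        simp
      · rw [subset_empty_iff.1 hB]; simp
    · rintro s t hst ⟨V, hV, htV, h⟩
      exact ⟨V, hV, hst.trans htV, h⟩
    · rintro s t ⟨V1, hV1, hs, h1⟩ ⟨V2, hV2, ht, h2⟩
      refine ⟨V1 ∪ V2, hV1.union hV2, union_subset_union hs ht, fun B hB hBm hBf ε hε => ?_⟩
      have hB1 : μ (B ∩ V1) ≠ ∞ := ne_top_of_le_ne_top hBf (measure_mono inter_subset_left)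
      have hB2 : μ (B \ V1) ≠ ∞ := ne_top_of_le_ne_top hBf (measure_mono sdiff_subset)
      have hε2 : ε / 2 ≠ 0 := (ENNReal.half_pos hε).ne'
      obtain ⟨E1, a1, b1, c1, d1⟩ := h1 (B ∩ V1) inter_subset_right (hBm.inter hV1) hB1 _ hε2
      have hs2 : B \ V1 ⊆ V2 := by
        rintro x ⟨hx, hx1⟩
        exact (hB hx).resolve_left hx1
      obtain ⟨E2, a2, b2, c2, d2⟩ := h2 (B \ V1) hs2 (hBm.diff hV1) hB2 _ hε2
      have hdisj : Disjoint E1 E2 := by
        refine disjoint_left.2 fun x h1 h2 => (a2 h2).2 (a1 h1).2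
      refine ⟨E1 ∪ E2, union_subset (a1.trans inter_subset_left) (a2.trans sdiff_subset),
        b1.union b2, PP.union hi hinj b1 b2 hdisj c1 c2, ?_⟩
      calc μ B = μ (B ∩ V1) + μ (B \ V1) := (measure_inter_add_sdiff B hV1).symm
        _ ≤ (μ E1 + ε / 2) + (μ E2 + ε / 2) := add_le_add d1 d2
        _ = (μ E1 + μ E2) + (ε / 2 + ε / 2) := by ring
        _ = μ (E1 ∪ E2) + ε := by
            rw [ENNReal.add_halves, measure_union hdisj b2.measurableSet]
    · intro x _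
      obtain ⟨U, hU, h⟩ := hloc x
      refine ⟨interior U, mem_nhdsWithin_of_mem_nhds (interior_mem_nhds.2 hU), interior U,
        isOpen_interior.measurableSet, subset_rfl, fun B hB hBm hBf ε hε => ?_⟩
      obtain ⟨E, hEB, hE, hlt⟩ := hBm.exists_isCompact_lt_add hBf hε
      exact ⟨E, hEB, hE, fun O hO hs => h E (hEB.trans (hB.trans interior_subset)) hE O hO hs,
        hlt.le⟩
  -- a compact set
  have comp : ∀ K : Set T, IsCompact K → c * μ K ≤ C := by
    intro K hK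
    obtain ⟨V, hV, hKV, h⟩ := key K hK
    have hex : ∀ n : ℕ, ∃ E : Set T, c * μ E ≤ C ∧ μ K ≤ μ E + ((n : ℝ≥0∞) + 1)⁻¹ := by
      intro n
      obtain ⟨E, _, _, pE, hE⟩ := h K hKV hK.measurableSet hK.measure_lt_top.ne
        ((n : ℝ≥0∞) + 1)⁻¹ (ENNReal.inv_ne_zero.2 (by finiteness))
      have h2 := (pE univ isOpen_univ (subset_univ _)).and hC
      obtain ⟨δ, hδ1, hδ2⟩ := h2.exists
      exact ⟨E, hδ1.trans hδ2, hE⟩
    choose E hE1 hE2 using hex
    have hsup : μ K ≤ ⨆ n, μ (E n) := by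
      refine ENNReal.le_of_forall_pos_le_add fun ε hε _ => ?_
      obtain ⟨n, hn⟩ := ENNReal.exists_inv_nat_lt (a := (ε : ℝ≥0∞)) (by exact_mod_cast hε.ne')
      calc μ K ≤ μ (E n) + ((n : ℝ≥0∞) + 1)⁻¹ := hE2 n
        _ ≤ (⨆ n, μ (E n)) + ε := by
            refine add_le_add (le_iSup (fun n => μ (E n)) n) (le_trans ?_ hn.le)
            exact ENNReal.inv_le_inv.2 (by exact le_self_add)
    calc c * μ K ≤ c * ⨆ n, μ (E n) := by gcongr
      _ = ⨆ n, c * μ (E n) := ENNReal.mul_iSup _ _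
      _ ≤ C := iSup_le hE1
  -- exhaustion
  have hun : μ univ = ⨆ n, μ (compactCovering T n) := by
    rw [← iUnion_compactCovering T]
    exact (Monotone.measure_iUnion (compactCovering_subset T))
  rw [hun, ENNReal.mul_iSup]
  exact iSup_le fun n => comp _ (isCompact_compactCovering T n)


end GLsec

section Ball

variable {I : Type*} [Fintype I]

/-- the Euclidean ball of radius `√δ` in plain coordinates -/
def bb (I : Type*) [Fintype I] (δ : ℝ) : Set (I → ℝ) := {y | ∑ i, y i ^ 2 ≤ δ}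


theorem bb_subset {δ : ℝ} (_hδ : 0 ≤ δ) : bb I δ ⊆ Set.Icc (fun _ => -√δ) (fun _ => √δ) := by
  intro y hy
  have h : ∀ i, y i ^ 2 ≤ δ := fun i =>
    (Finset.single_le_sum (f := fun i => y i ^ 2) (fun j _ => sq_nonneg _)
      (Finset.mem_univ i)).trans hy
  constructor
  · intro i
    have := Real.abs_le_sqrt (h i)
    exact (abs_le.1 this).1
  · intro i
    have := Real.abs_le_sqrt (h i)
    exact (abs_le.1 this).2

theorem volume_bb_lt_top (δ : ℝ) : volume (bb I δ) < ∞ := by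
  rcases le_or_gt 0 δ with h | h
  · exact (measure_mono (bb_subset h)).trans_lt isCompact_Icc.measure_lt_top
  · have : bb I δ = ∅ := by
      refine eq_empty_of_forall_notMem fun y hy => ?_
      have h0 : (0:ℝ) ≤ ∑ i, y i ^ 2 := Finset.sum_nonneg fun i _ => sq_nonneg _
      exact absurd (h0.trans hy) (not_le.2 h)
    rw [this]; simp

theorem volume_bb_pos {δ : ℝ} (hδ : 0 < δ) : 0 < volume (bb I δ) := by
  have hopen : IsOpen {y : I → ℝ | ∑ i, y i ^ 2 < δ} := by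
    refine isOpen_lt ?_ continuous_const
    fun_prop
  have hne : {y : I → ℝ | ∑ i, y i ^ 2 < δ}.Nonempty := ⟨0, by simpa using hδ⟩
  exact (hopen.measure_pos volume hne).trans_le
    (measure_mono fun y (hy : ∑ i, y i ^ 2 < δ) => hy.le)




end Ball

end Crest.Agent.R281.OmG_467
end

-- ▼ part R281/OmG2_467

/-!
# R281 (S0424), OM-MASS: (BALL) for the literal ball `Om_854.bl` (helper467)
-/

set_option autoImplicit false

open Set Filter Topology Complex MeasureTheory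
open scoped ENNReal

namespace Crest.Agent.R281.OmG2_467

open Crest.Agent.R275.Geo Crest.Agent.R281.Om_854 Crest.Agent.R281.OmG_467

theorem norm_cc_sq {m : ℕ} (y : RI m → ℝ) : ‖(cc y : Cn m)‖ ^ 2 = ∑ p, y p ^ 2 := by
  rw [EuclideanSpace.norm_sq_eq, Fintype.sum_prod_type]
  refine Finset.sum_congr rfl fun a _ => ?_
  rw [Fin.sum_univ_two, cc_apply, ← Complex.normSq_eq_norm_sq, Complex.normSq_add_mul_I]

theorem bl_eq (m : ℕ) (δ : ℝ) : bl m δ = bb (Fin m × Fin 2) δ := by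
  ext y
  simp only [bl, bb, mem_setOf_eq, norm_cc_sq]


theorem volume_bl_lt_top (m : ℕ) (δ : ℝ) : volume (bl m δ) < ∞ := by
  rw [bl_eq]
  exact volume_bb_lt_top δ

theorem volume_bl_pos (m : ℕ) {δ : ℝ} (hδ : 0 < δ) : 0 < volume (bl m δ) := by
  rw [bl_eq]
  exact volume_bb_pos hδ

end Crest.Agent.R281.OmG2_467
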