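import Crest.Agent.R281.OmG2_467_Mg
import Crest.Agent.R281.Om3_854
import Crest.Agent.R281.Lf1_703
import Crest.Agent.R273.FId0_597
import Crest.Agent.R273.MassA_5
import Crest.Agent.R272.Lev_54
import Crest.Agent.R281.S6D_664
import Crest.Agent.R281.LfS_901
import Crest.Agent.R281.OmA_524
import Crest.Agent.R281.OmB_524
import Crest.Agent.R281.Har5_331
import Crest.Agent.R281.Har1_331

-- ▼ part R281/OmM3_980
section

/-!
# R281 (S0424), OM-MASS (helper980), part 3: mass concentration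

* `vm_congr`, `vm_ratio`, `vm_mono`, `lint_vm_le` : comparison of volume measures
* `det_ge`    : `det (G + t S) ≥ det G (1 + t tr (G⁻¹ S))`
* `vm_univ_eq`: `vm (volK K) univ = ∫ det K`
* `VolB`      : the bound of the total determinants (847)
* `mass_be`   : `vm (be|_T) ≤ CM C k m` for every leaf, every `R ≥ 1`, `e R ≤ 1`
-/

set_option autoImplicit false
set_option linter.unusedSectionVars false

open Set Filter Topology Complex MeasureTheory Function
open scoped ContDiff Matrix ComplexConjugate ComplexOrder ENNReal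

namespace Crest.Agent.R281.OmM_980

open Crest.Agent.R275 Crest.Agent.R275.Geo Crest.Agent.R275.Core144 Crest.Agent.R275.EDR890
open Crest.Agent.R273.Defs_333 Crest.Agent.R273.Hess_333 Crest.Agent.R273.HessB_333
open Crest.Agent.R273.HM_333 Crest.Agent.R273.Kah_333 Crest.Agent.R273.Vol_333
open Crest.Agent.R273.Vm_333 Crest.Agent.R273.Map_835 Crest.Agent.R273.KahI_645
open Crest.Agent.R275.Pai323 Crest.Agent.R273.StV_37
open Crest.Agent.R273.Fam_835 (fam)
open Crest.Agent.R273.Green_5 Crest.Agent.R273.FIa0_597 Crest.Agent.R273.FIb0_597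
open Crest.Agent.R273.FIc0_597 Crest.Agent.R273.FId0_597 Crest.Agent.R273.AppA_834
open Crest.Agent.R273
open Crest.Agent.R281.LfS_901 (U0 qf)
open Crest.Agent.R281.S6D_664 Crest.Agent.R281.Om_854

noncomputable section

/-! ### comparison of volume measures -/

section Cmp

variable {n : ℕ} {M : Type} [TopologicalSpace M] {A : Atl n M} [MeasurableSpace M] [BorelSpace M]

theorem chm_congr {h h' : HM (KB A)⁻¹} {i : A.ι}
    (H : ∀ x ∈ (A.e i).source, h.w i x = h'.w i x) : chm h i = chm h' i := by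
  ext E hE
  rw [chm_apply h i hE, chm_apply h' i hE]
  refine setLIntegral_congr_fun (meas_inter i hE) fun y hy => ?_
  show ENNReal.ofReal _ = ENNReal.ofReal _
  rw [H _ (sg_mem hy.1)]

variable [Countable A.ι]

theorem vm_congr {h h' : HM (KB A)⁻¹} (H : ∀ i, ∀ x ∈ (A.e i).source, h.w i x = h'.w i x) :
    vm h = vm h' := by
  apply ext_vm
  intro i
  rw [vm_restrict]
  exact chm_congr (H i)

theorem vm_ratio (h h' : HM (KB A)⁻¹) :
    vm h' = (vm h).withDensity (fun x => ENNReal.ofReal (Real.exp (ratio h h' x))) := by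
  have hsm : A.Sm (fun x => -ratio h h' x) := fun i => (sm_ratio h h' i).neg
  have h1 := vm_tw h (fun x => -ratio h h' x) hsm
  simp only [neg_neg] at h1
  rw [← h1]
  apply vm_congr
  intro i x hx
  have h2 : (tw h (fun x => -ratio h h' x) hsm).w i x =
      h.w i x * Real.exp (-(-ratio h h' x)) := rfl
  rw [h2, w_ratio h h' hx, neg_neg, mul_comm]

/-- integration against a smaller volume form -/
theorem lint_vm_le (h h' : HM (KB A)⁻¹) {τ : M → ℝ}
    (H : ∀ x, ∃ i, x ∈ (A.e i).source ∧ h.w i x * τ x ≤ h'.w i x) :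
    ∫⁻ x, ENNReal.ofReal (τ x) ∂(vm h) ≤ vm h' univ := by
  rw [vm_ratio h h', withDensity_apply _ MeasurableSet.univ, Measure.restrict_univ]
  refine lintegral_mono fun x => ENNReal.ofReal_le_ofReal ?_
  obtain ⟨i, hi, h1⟩ := H x
  rw [w_ratio h h' hi, mul_comm] at h1
  exact le_of_mul_le_mul_right h1 (h.pos i x hi)


end Cmp

/-! ### linear algebra -/

theorem det_ge {n : ℕ} {G S : Matrix (Fin n) (Fin n) ℂ} (hG : G.PosDef) (hS : S.PosSemidef)
    {t : ℝ} (ht : 0 ≤ t) :
    G.det.re * (1 + t * ((G⁻¹ * S).trace).re) ≤ ((G + (t : ℂ) • S).det).re := by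
  have h1 := MassA_5.det_add_ge hG hS ht
  have h2 : ((G.adjugate * S).trace).re = G.det.re * ((G⁻¹ * S).trace).re := by
    have h3 : G.adjugate = G.det • G⁻¹ := by
      rw [Matrix.inv_def, smul_smul, Ring.inverse_eq_inv', mul_inv_cancel₀ hG.det_pos.ne', one_smul]
    have h4 : G.det = ((G.det.re : ℝ) : ℂ) := (det_real hG.1).symm
    rw [h3, Matrix.smul_mul, Matrix.trace_smul, smul_eq_mul]
    rw [h4, Complex.re_ofReal_mul, Complex.ofReal_re]
  rw [h2] at h1
  linarith

/-! ### total mass -/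

section Tot

variable {n : ℕ} {M : Type} [TopologicalSpace M] {A : Atl n M} {L : LB A}
  [T2Space M] [CompactSpace M] [MeasurableSpace M] [BorelSpace M] [Finite A.ι]

theorem vm_univ_eq (P : Part A) (K : Kah A) :
    vm (volK K) univ = ENNReal.ofReal ((totc P (fun i x => (K.g i x).det)).re) := by
  let _ := Fintype.ofFinite A.ι
  have h1 := int_dtM P (volK K) (tf_kah K)
  have h2 : ∀ x, dtM (volK K) K.g x = 1 := by
    intro x
    have hx := mem_ch A x
    show (K.g (ch A x) x).det.re / (volK K).w (ch A x) x = 1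
    exact div_self ((volK K).pos _ x hx).ne'
  simp only [h2] at h1
  have h3 := isFinite_vm (volK K)
  rw [integral_const, smul_eq_mul, mul_one] at h1
  rw [← h1, Measure.real, ENNReal.ofReal_toReal (measure_ne_top _ _)]

/-- the bound of the total determinants (`Vol_847.vol_le'`) -/
def VolB (P : Part A) (K : Kah A) (L : LB A) (p : ℕ) (C : ℝ) : Prop :=
  0 ≤ C ∧ ∀ (h : HM L) (s t : ℝ) (u : M → ℝ), A.Sm u → 0 ≤ s → 0 ≤ t →
    (totc P (fun i x => ((s : ℂ) • K.g i x + (t : ℂ) • cur h i x + hsf A u i x).det)).re ≤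
      C * s ^ p * (s + t) ^ p

variable {P : Part A} {K : Kah A} {p : ℕ} {C : ℝ} {m k : ℕ} {s : Fin (m + 1) → A.ι → M → ℂ}

theorem mass_Kd (hV : VolB P K L p C) (h : HM L) {e R : ℝ} (he : 0 ≤ e) (hR : 0 ≤ R) (hR1 : 1 ≤ R)
    (heR : e * R ≤ 1)
    (hp : ∀ i, ∀ x ∈ (A.e i).source, (cur h i x + (e : ℂ) • K.g i x).PosSemidef)
    (hs : ∀ a, IsHS (L ^ k) univ (s a)) {δ : ℝ} (hδ : 0 < δ) :
    vm (volK (Kd K h he hR hp hs δ)) univ ≤
      ENNReal.ofReal (C * (1 + 3 * k) ^ p * ((1 + 5 * k) * R) ^ p) := by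
  rw [vm_univ_eq P]
  refine ENNReal.ofReal_le_ofReal ?_
  have h1 : (fun i x => ((Kd K h he hR hp hs δ).g i x).det) =
      fun i x => (((1 + 3 * k * e * R : ℝ) : ℂ) • K.g i x + ((2 * k * R : ℝ) : ℂ) • cur h i x +
        hsf A (fun y => R * Real.log (nrm (pow h k) (sd s δ) y + δ ^ 2)) i x).det := by
    rw [Kd_g K h he hR hp hs hδ]
    rfl
  rw [h1]
  have hk : (0 : ℝ) ≤ k := Nat.cast_nonneg k
  have h2 := hV.2 h (1 + 3 * k * e * R) (2 * k * R) _ (sm_Rlog h R hs hδ) (by positivity)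
    (by positivity)
  refine h2.trans ?_
  have h3 : 1 + 3 * k * e * R ≤ 1 + 3 * (k : ℝ) := by
    nlinarith [mul_le_mul_of_nonneg_left heR hk]
  have h4 : 1 + 3 * k * e * R + 2 * k * R ≤ (1 + 5 * (k : ℝ)) * R := by
    nlinarith [mul_nonneg hk (sub_nonneg.2 hR1)]
  have h5 : (0 : ℝ) ≤ 1 + 3 * k * e * R := by positivity
  have h6 : (0 : ℝ) ≤ 1 + 3 * k * e * R + 2 * k * R := by positivity
  have hC := hV.1
  gcongr

end Tot

/-! ### the mass of a leaf -/

/-- the constant -/
def CM (C : ℝ) (k m : ℕ) : ℝ :=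
  C * (1 + 3 * k) ^ m * (1 + 5 * k) ^ m * 8 ^ m * 2 / (volume (bl m 1)).toReal

theorem CM_nonneg {C : ℝ} (hC : 0 ≤ C) (k m : ℕ) : 0 ≤ CM C k m := by
  unfold CM
  positivity

section Leaf

variable {d m k : ℕ} {M : Type} [TopologicalSpace M] {A : Atl (d + m) M} {L : LB A}
  [T2Space M] [CompactSpace M] [MeasurableSpace M] [BorelSpace M] [Finite A.ι]
  {P : Part A} {K : Kah A} {C : ℝ} {s : Fin (m + 1) → A.ι → M → ℂ}
  {T : Type} [TopologicalSpace T] [T2Space T] [MeasurableSpace T] [BorelSpace T]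
  {B : Atl d T} [Countable B.ι] {jj : T → M}

theorem mass_be (hV : VolB P K L m C) (h : HM L) {e R : ℝ} (he : 0 ≤ e) (hR : 0 ≤ R)
    (hR1 : 1 ≤ R) (heR : e * R ≤ 1)
    (hp : ∀ i, ∀ x ∈ (A.e i).source, (cur h i x + (e : ℂ) • K.g i x).PosSemidef)
    (hs : ∀ a, IsHS (L ^ k) univ (s a)) (hpc : PCs A (U0 s) (qf s) B jj) (cj : Continuous jj)
    (inj : Injective jj) (hol : HolMap B A jj) (imm : Imm B A jj) :
    vm (volK (pullI (be K h he hR hp k) hol imm)) univ ≤ ENNReal.ofReal (CM C k m) := by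
  have : LocallyCompactSpace T := Lf_703.locallyCompact (fam B)
  have : SecondCountableTopology T := Lf_703.secondCountable_of_atl B
  have := isLocallyFinite_vm (volK (pullI (be K h he hR hp k) hol imm))
  have hRp : 0 < R := by linarith
  have hv0 := OmG2_467.volume_bl_pos m (δ := 1) one_pos
  have hv1 := OmG2_467.volume_bl_lt_top m 1
  have hloc := loc hpc cj (fun i x hx hi => LfS_901.hf_qf hs x hx i hi) hol imm
    (be K h he hR hp k) (Kd K h he hR hp hs) (c := R / 8) (by positivity)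
    (hlow K h he hR hp hs)
  have hC : ∀ᶠ δ in 𝓝[>] (0 : ℝ), vm (volK (Kd K h he hR hp hs δ)) univ ≤
      ENNReal.ofReal (C * (1 + 3 * k) ^ m * ((1 + 5 * k) * R) ^ m) := by
    filter_upwards [self_mem_nhdsWithin] with δ hδ
    exact mass_Kd hV h he hR hR1 heR hp hs hδ
  have hgl := OmG_467.gl (vm (volK (pullI (be K h he hR hp k) hol imm))) cj inj
    (fun δ => vm (volK (Kd K h he hR hp hs δ))) hC hloc
  set μ := vm (volK (pullI (be K h he hR hp k) hol imm)) univ with hμ
  set v : ℝ := (volume (bl m 1)).toReal with hv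
  have hvp : 0 < v := ENNReal.toReal_pos hv0.ne' hv1.ne
  have hc : ENNReal.ofReal ((R / 8) ^ m / 2) * volume (bl m 1) =
      ENNReal.ofReal ((R / 8) ^ m / 2 * v) := by
    rw [ENNReal.ofReal_mul (by positivity), hv, ENNReal.ofReal_toReal hv1.ne]
  rw [hc] at hgl
  have hc0 : 0 < (R / 8) ^ m / 2 * v := by positivity
  have h2 : μ ≤ ENNReal.ofReal (C * (1 + 3 * k) ^ m * ((1 + 5 * k) * R) ^ m) /
      ENNReal.ofReal ((R / 8) ^ m / 2 * v) := by
    rw [ENNReal.le_div_iff_mul_le (Or.inl (ENNReal.ofReal_pos.2 hc0).ne')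
      (Or.inl ENNReal.ofReal_ne_top), mul_comm]
    exact hgl
  rw [← ENNReal.ofReal_div_of_pos hc0] at h2
  refine h2.trans (le_of_eq ?_)
  congr 1
  unfold CM
  rw [← hv, mul_pow, div_pow]
  have hR0 : R ^ m ≠ 0 := by positivity
  field_simp

/-- **the mass bounds**: `∫_T (1 + R k tr (cur h + 2 e K)) ≤ CM` -/
theorem lint_tr (hV : VolB P K L m C) (h : HM L) {e R : ℝ} (he : 0 ≤ e)
    (hR1 : 1 ≤ R) (heR : e * R ≤ 1)
    (hp : ∀ i, ∀ x ∈ (A.e i).source, (cur h i x + (e : ℂ) • K.g i x).PosSemidef)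
    (hs : ∀ a, IsHS (L ^ k) univ (s a)) (hpc : PCs A (U0 s) (qf s) B jj) (cj : Continuous jj)
    (inj : Injective jj) (hol : HolMap B A jj) (imm : Imm B A jj) :
    ∫⁻ t, ENNReal.ofReal (1 + R * k * ((((pullI K hol imm).g (ch B t) t)⁻¹ *
      ((Jp B A jj (ch B t) (ch A (jj t)) t)ᵀ *
        (cur h (ch A (jj t)) (jj t) + ((2 * e : ℝ) : ℂ) • K.g (ch A (jj t)) (jj t)) *
        (Jp B A jj (ch B t) (ch A (jj t)) t).map conj)).trace).re)
      ∂(vm (volK (pullI K hol imm))) ≤ ENNReal.ofReal (CM C k m) := by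
  have hR : 0 ≤ R := by linarith
  refine le_trans ?_ (mass_be hV h he hR hR1 heR hp hs hpc cj inj hol imm)
  refine lint_vm_le _ _ fun t => ⟨ch B t, mem_ch B t, ?_⟩
  have hi := mem_ch A (jj t)
  have hj := mem_ch B t
  set J := Jp B A jj (ch B t) (ch A (jj t)) t with hJ
  have hJs : (J.map conj)ᴴ = Jᵀ := by
    ext a b
    simp [Matrix.conjTranspose_apply]
  set S := cur h (ch A (jj t)) (jj t) + ((2 * e : ℝ) : ℂ) • K.g (ch A (jj t)) (jj t) with hS
  have hS0 : (Jᵀ * S * J.map conj).PosSemidef := by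
    have := (psd_two K h he hp hi).conjTranspose_mul_mul_same (J.map conj)
    rwa [hJs] at this
  have e1 : (volK (pullI (be K h he hR hp k) hol imm)).w (ch B t) t =
      ((pullI K hol imm).g (ch B t) t + ((R * k : ℝ) : ℂ) • (Jᵀ * S * J.map conj)).det.re := by
    show ((pullI (be K h he hR hp k) hol imm).g (ch B t) t).det.re = _
    rw [pullI_g (be K h he hR hp k) hol imm hj hi, pullI_g K hol imm hj hi]
    have e2 : (be K h he hR hp k).g (ch A (jj t)) (jj t) = K.g (ch A (jj t)) (jj t) +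
        ((R * k : ℝ) : ℂ) • S := beG_eq K h k _ _
    rw [e2, Matrix.mul_add, Matrix.add_mul, Matrix.mul_smul, Matrix.smul_mul]
  rw [e1]
  exact det_ge ((pullI K hol imm).pos _ t hj) hS0 (by positivity)

end Leaf

end

end Crest.Agent.R281.OmM_980
end

-- ▼ part R281/Lf2_703
section

/-!
# R281 (S0424), OM-LF (helper703), file 2: the components of a regular fibre

`F : Fam N M`, `X0 ⊆ M` open, `f : M → Cn m` holomorphic on `X0`, `y : Cn m`.

* `Ad F X0 f d`      : a holomorphic chart `g` of `M` with values in `Cn d × Cn m`, `(g x).2 = f x`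
* `exists_ad`        : it exists near every point of `X0` where `df` is surjective
* `TI`, `TI.ch`      : plaques and the charts of `T = connectedComponentIn (X0 ∩ f⁻¹{y}) p`
* `famT`             : the complex structure of `T`; `famT_hol` (the inclusion is holomorphic)
-/

set_option autoImplicit false
set_option linter.unusedSectionVars false

open Set Filter Topology Metric

namespace Crest.Agent.R281.Lf_703

open Crest.Agent.R275 Crest.Agent.R275.Geo Crest.Agent.R275.GC293
open Crest.Agent.R273.Fam_835 Crest.Agent.R272.DCov_426 Crest.Agent.R272.FamP_54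
open Crest.Agent.R272.Lev_54

noncomputable section

variable {N d m : ℕ} {M : Type} [TopologicalSpace M]

section Cpt

variable {E E' : Type*} [NormedAddCommGroup E] [NormedSpace ℂ E] [NormedAddCommGroup E']
  [NormedSpace ℂ E'] {F : Fam N M}

/-- transition between two compatible charts -/
theorem cpt_trans {g : OpenPartialHomeomorph M E} {g' : OpenPartialHomeomorph M E'}
    (hg : Cpt F g) (hg' : Cpt F g') {z : E} (hz : z ∈ g.target) (hz' : g.symm z ∈ g'.source) :
    DifferentiableAt ℂ (fun z => g' (g.symm z)) z := by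
  obtain ⟨i, hi⟩ := F.cover (g.symm z)
  have h1 := hg.hol' i z hz hi
  have h2 := hg'.hol _ hz' i hi
  have h3 : DifferentiableAt ℂ (fun w => g' ((F.e i).symm (F.e i (g.symm w)))) z :=
    DifferentiableAt.comp z (g := fun w => g' ((F.e i).symm w)) h2 h1
  refine h3.congr_of_eventuallyEq ?_
  have h4 : ∀ᶠ w in 𝓝 z, g.symm w ∈ (F.e i).source :=
    (g.continuousAt_symm hz).preimage_mem_nhds ((F.e i).open_source.mem_nhds hi)
  filter_upwards [h4] with w hw
  rw [(F.e i).left_inv hw]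

end Cpt

/-- a chart of `M` adapted to `f` -/
structure Ad (F : Fam N M) (X0 : Set M) (f : M → Cn m) (d : ℕ) where
  g : OpenPartialHomeomorph M (Cn d × Cn m)
  sub : g.source ⊆ X0
  cpt : Cpt F g
  snd : ∀ x ∈ g.source, (g x).2 = f x

variable {F : Fam N M} {X0 : Set M} {f : M → Cn m} {y : Cn m}

/-- adapted charts exist at the regular points -/
theorem exists_ad (hN : N = d + m) (hX0 : IsOpen X0) (hf : HF F X0 f) {p : M} (hp : p ∈ X0)
    (j : F.ι) (hj : p ∈ (F.e j).source)
    (hs : Function.Surjective (fderiv ℂ (fun z => f ((F.e j).symm z)) (F.e j p))) :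
    ∃ a : Ad F X0 f d, p ∈ a.g.source := by
  have hW : IsOpen ((F.e j).target ∩ (F.e j).symm ⁻¹' X0) :=
    (F.e j).isOpen_inter_preimage_symm hX0
  obtain ⟨χ, h1, h2, h3, h4, h5⟩ := straighten (V := Cn d) (Φ := fun z => f ((F.e j).symm z))
    (a := F.e j p) hW (by
      rintro z ⟨hz, hzO⟩
      have h1 := hf _ hzO j ((F.e j).map_target hz)
      rw [(F.e j).right_inv hz] at h1
      exact h1.differentiableWithinAt)
    ⟨(F.e j).map_source hj, by rw [mem_preimage, (F.e j).left_inv hj]; exact hp⟩ hs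
    (by simpa using hN)
  have hsrc : ∀ x, x ∈ ((F.e j).trans χ).source ↔ x ∈ (F.e j).source ∧ F.e j x ∈ χ.source :=
    fun x => Iff.rfl
  refine ⟨⟨(F.e j).trans χ, ?_, ⟨?_, ?_⟩, ?_⟩, ?_⟩
  · intro x hx
    obtain ⟨hx1, hx2⟩ := (hsrc x).1 hx
    have h6 := (h2 hx2).2
    rw [mem_preimage, (F.e j).left_inv hx1] at h6
    exact h6
  · intro x hx
    obtain ⟨hx1, hx2⟩ := (hsrc x).1 hx
    exact HFA.comp_left (f := fun y => F.e j y) (g := χ)
      (h4.differentiableAt (χ.open_source.mem_nhds hx2)) (hfa_chart hx1)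
  · intro i z hz hi
    have hz1 : z ∈ χ.target := hz.1
    have hz2 : χ.symm z ∈ (F.e j).target := hz.2
    have hi' : (F.e j).symm (χ.symm z) ∈ (F.e i).source := hi
    have h6 : DifferentiableAt ℂ χ.symm z := h5.differentiableAt (χ.open_target.mem_nhds hz1)
    have h7 : DifferentiableAt ℂ (fun z => F.e i ((F.e j).symm z)) (χ.symm z) :=
      (F.holo j i).differentiableAt (((F.e j).isOpen_inter_preimage_symm
        (F.e i).open_source).mem_nhds ⟨hz2, hi'⟩)
    exact DifferentiableAt.comp z (g := fun z => F.e i ((F.e j).symm z)) h7 h6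
  · intro x hx
    obtain ⟨hx1, hx2⟩ := (hsrc x).1 hx
    show (χ (F.e j x)).2 = f x
    rw [h3, (F.e j).left_inv hx1]
  · exact (hsrc p).2 ⟨hj, h1⟩

/-! ### the component -/

/-- the fibre component -/
abbrev cmpt (X0 : Set M) (f : M → Cn m) (y : Cn m) (p : M) : Set M :=
  connectedComponentIn (X0 ∩ f ⁻¹' {y}) p

variable {p : M}

theorem cmpt_f {x : M} (hx : x ∈ cmpt X0 f y p) : f x = y :=
  (connectedComponentIn_subset _ _ hx).2

theorem cmpt_X0 {x : M} (hx : x ∈ cmpt X0 f y p) : x ∈ X0 :=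
  (connectedComponentIn_subset _ _ hx).1

/-- index of a plaque of the fibre component -/
structure TI (F : Fam N M) (X0 : Set M) (f : M → Cn m) (y : Cn m) (p : M) (d : ℕ) where
  a : Ad F X0 f d
  z0 : Cn d
  r : ℝ
  hr : 0 < r
  sub : ball z0 r ×ˢ ball y r ⊆ a.g.target
  mem : a.g.symm (z0, y) ∈ cmpt X0 f y p

namespace TI

variable (t : TI F X0 f y p d)

theorem mem_target {z : Cn d} (hz : z ∈ ball t.z0 t.r) : (z, y) ∈ t.a.g.target :=
  t.sub ⟨hz, mem_ball_self t.hr⟩

theorem mem_source {z : Cn d} (hz : z ∈ ball t.z0 t.r) : t.a.g.symm (z, y) ∈ t.a.g.source :=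
  t.a.g.map_target (t.mem_target hz)

theorem plaque {z : Cn d} (hz : z ∈ ball t.z0 t.r) : t.a.g.symm (z, y) ∈ cmpt X0 f y p := by
  have h1 : ContinuousOn (fun z => t.a.g.symm (z, y)) (ball t.z0 t.r) :=
    t.a.g.continuousOn_symm.comp (by fun_prop) fun z hz => t.mem_target hz
  have h2 : IsPreconnected ((fun z => t.a.g.symm (z, y)) '' ball t.z0 t.r) :=
    ((convex_ball t.z0 t.r).isPreconnected).image _ h1
  have h3 : (fun z => t.a.g.symm (z, y)) '' ball t.z0 t.r ⊆ X0 ∩ f ⁻¹' {y} := by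
    rintro _ ⟨w, hw, rfl⟩
    refine ⟨t.a.sub (t.mem_source hw), ?_⟩
    show f (t.a.g.symm (w, y)) = y
    rw [← t.a.snd _ (t.mem_source hw), t.a.g.right_inv (t.mem_target hw)]
  have h4 := h2.subset_connectedComponentIn ⟨t.z0, mem_ball_self t.hr, rfl⟩ h3
  have h5 : connectedComponentIn (X0 ∩ f ⁻¹' {y}) p =
      connectedComponentIn (X0 ∩ f ⁻¹' {y}) (t.a.g.symm (t.z0, y)) :=
    connectedComponentIn_eq t.mem
  show _ ∈ connectedComponentIn (X0 ∩ f ⁻¹' {y}) p
  rw [h5]
  exact h4 ⟨z, hz, rfl⟩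

theorem eq_mk {x : M} (hx : x ∈ cmpt X0 f y p) (hs : x ∈ t.a.g.source) :
    t.a.g x = ((t.a.g x).1, y) := by
  have h1 := t.a.snd x hs
  rw [cmpt_f hx] at h1
  exact Prod.ext rfl h1

open Classical in
/-- the chart of the component -/
def ch : OpenPartialHomeomorph (cmpt X0 f y p) (Cn d) where
  toFun x := (t.a.g x.1).1
  invFun z := if h : t.a.g.symm (z, y) ∈ cmpt X0 f y p then ⟨_, h⟩ else ⟨_, t.mem⟩
  source := {x | x.1 ∈ t.a.g.source ∧ (t.a.g x.1).1 ∈ ball t.z0 t.r}
  target := ball t.z0 t.r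
  map_source' x hx := hx.2
  map_target' z hz := by
    rw [dif_pos (t.plaque hz)]
    refine ⟨t.mem_source hz, ?_⟩
    show (t.a.g (t.a.g.symm (z, y))).1 ∈ _
    rw [t.a.g.right_inv (t.mem_target hz)]
    exact hz
  left_inv' x hx := by
    have h1 : t.a.g.symm ((t.a.g x.1).1, y) = x.1 := by
      rw [← t.eq_mk x.2 hx.1, t.a.g.left_inv hx.1]
    have h2 : t.a.g.symm ((t.a.g x.1).1, y) ∈ cmpt X0 f y p := by rw [h1]; exact x.2
    rw [dif_pos h2]
    exact Subtype.ext h1
  right_inv' z hz := by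
    rw [dif_pos (t.plaque hz)]
    show (t.a.g (t.a.g.symm (z, y))).1 = z
    rw [t.a.g.right_inv (t.mem_target hz)]
  open_source := by
    have h1 : IsOpen (t.a.g.source ∩ t.a.g ⁻¹' (Prod.fst ⁻¹' ball t.z0 t.r)) :=
      t.a.g.isOpen_inter_preimage (isOpen_ball.preimage continuous_fst)
    exact h1.preimage continuous_subtype_val
  open_target := isOpen_ball
  continuousOn_toFun := by
    have h1 : ContinuousOn (fun x => (t.a.g x).1) t.a.g.source :=
      continuous_fst.comp_continuousOn t.a.g.continuousOn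
    exact h1.comp continuous_subtype_val.continuousOn fun x hx => hx.1
  continuousOn_invFun := by
    rw [Topology.IsInducing.subtypeVal.continuousOn_iff]
    have h1 : ContinuousOn (fun z => t.a.g.symm (z, y)) (ball t.z0 t.r) :=
      t.a.g.continuousOn_symm.comp (by fun_prop) fun z hz => t.mem_target hz
    refine h1.congr ?_
    intro z hz
    simp only [Function.comp]
    rw [dif_pos (t.plaque hz)]

theorem ch_apply (x : cmpt X0 f y p) : t.ch x = (t.a.g x.1).1 := rfl

theorem mem_ch_source {x : cmpt X0 f y p} :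
    x ∈ t.ch.source ↔ x.1 ∈ t.a.g.source ∧ (t.a.g x.1).1 ∈ ball t.z0 t.r := Iff.rfl


theorem ch_symm {z : Cn d} (hz : z ∈ ball t.z0 t.r) :
    (t.ch.symm z).1 = t.a.g.symm (z, y) := by
  have h1 : t.ch.symm z = (open Classical in if h : t.a.g.symm (z, y) ∈ cmpt X0 f y p
    then ⟨_, h⟩ else ⟨_, t.mem⟩ : cmpt X0 f y p) := rfl
  rw [h1, dif_pos (t.plaque hz)]

/-- transition -/
theorem trans_diffAt (t' : TI F X0 f y p d) {z : Cn d} (hz : z ∈ ball t.z0 t.r)
    (h : t.ch.symm z ∈ t'.ch.source) :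
    DifferentiableAt ℂ (fun z => t'.ch (t.ch.symm z)) z := by
  have h1 : t.a.g.symm (z, y) ∈ t'.a.g.source := by
    rw [← t.ch_symm hz]
    exact (t'.mem_ch_source.1 h).1
  have h2 : DifferentiableAt ℂ (fun w => t'.a.g (t.a.g.symm w)) (z, y) :=
    cpt_trans t.a.cpt t'.a.cpt (t.mem_target hz) h1
  have h3 : DifferentiableAt ℂ (fun z => t'.a.g (t.a.g.symm (z, y))) z :=
    DifferentiableAt.comp z (g := fun w => t'.a.g (t.a.g.symm w))
      (f := fun z : Cn d => (z, y)) h2 (by fun_prop)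
  refine h3.fst.congr_of_eventuallyEq ?_
  filter_upwards [isOpen_ball.mem_nhds hz] with w hw
  rw [t'.ch_apply, t.ch_symm hw]

end TI

/-- **the complex structure of the fibre component** -/
def famT (hN : N = d + m) (hX0 : IsOpen X0) (hf : HF F X0 f)
    (hs : ∀ x ∈ X0, f x = y → ∀ j, x ∈ (F.e j).source →
      Function.Surjective (fderiv ℂ (fun z => f ((F.e j).symm z)) (F.e j x))) :
    Fam d (cmpt X0 f y p) where
  ι := TI F X0 f y p d
  e t := t.ch
  cover x := by
    obtain ⟨j, hj⟩ := F.cover x.1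
    obtain ⟨a, ha⟩ := exists_ad (d := d) hN hX0 hf (cmpt_X0 x.2) j hj
      (hs x.1 (cmpt_X0 x.2) (cmpt_f x.2) j hj)
    have h1 : a.g x.1 = ((a.g x.1).1, y) := by
      have h1 := a.snd x.1 ha
      rw [cmpt_f x.2] at h1
      exact Prod.ext rfl h1
    have h2 : ((a.g x.1).1, y) ∈ a.g.target := by
      rw [← h1]; exact a.g.map_source ha
    obtain ⟨r, hr, h3⟩ := Metric.mem_nhds_iff.1 (a.g.open_target.mem_nhds h2)
    rw [← ball_prod_same] at h3
    refine ⟨⟨a, (a.g x.1).1, r, hr, h3, ?_⟩, ?_⟩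
    · rw [← h1, a.g.left_inv ha]
      exact x.2
    · exact ⟨ha, mem_ball_self hr⟩
  holo t t' := by
    intro z hz
    exact (t.trans_diffAt t' hz.1 hz.2).differentiableWithinAt

section hol

variable (hN : N = d + m) (hX0 : IsOpen X0) (hf : HF F X0 f)
    (hs : ∀ x ∈ X0, f x = y → ∀ j, x ∈ (F.e j).source →
      Function.Surjective (fderiv ℂ (fun z => f ((F.e j).symm z)) (F.e j x)))

/-- the inclusion is holomorphic -/
theorem famT_hol : HolC (famT (p := p) hN hX0 hf hs) F Subtype.val := by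
  refine holC_of_local continuous_subtype_val fun x => ?_
  obtain ⟨t, ht⟩ := (famT (p := p) hN hX0 hf hs).cover x
  obtain ⟨j, hj⟩ := F.cover x.1
  refine ⟨t, j, ht, hj, ?_⟩
  obtain ⟨h1, h2⟩ := (TI.mem_ch_source t).1 ht
  have e1 : (TI.a t).g.symm (((TI.a t).g x.1).1, y) = x.1 := by
    rw [← TI.eq_mk t x.2 h1, (TI.a t).g.left_inv h1]
  have h3 : DifferentiableAt ℂ (fun w => F.e j ((TI.a t).g.symm w)) (((TI.a t).g x.1).1, y) :=
    (TI.a t).cpt.hol' j _ (TI.mem_target t h2) (by rw [e1]; exact hj)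
  have h4 : DifferentiableAt ℂ (fun z => F.e j ((TI.a t).g.symm (z, y))) ((TI.a t).g x.1).1 :=
    DifferentiableAt.comp _ (g := fun w => F.e j ((TI.a t).g.symm w))
      (f := fun z : Cn d => (z, y)) h3 (by fun_prop)
  refine h4.congr_of_eventuallyEq ?_
  filter_upwards [isOpen_ball.mem_nhds h2] with w hw
  show F.e j (((TI.ch t).symm w).1) = _
  rw [TI.ch_symm t hw]

end hol

end

end Crest.Agent.R281.Lf_703
end

-- ▼ part R281/Lf3_703
section

/-!
# R281 (S0424), OM-LF (helper703), file 3: leaves as noncompact complex manifolds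

* `Lf A n X0`   : 854's record (#7579)
* `PC T X0 f y` : product charts of the ambient manifold along the leaf
* `exists_Lf`   : every component of a regular fibre is an `Lf` with product charts
-/

set_option autoImplicit false
set_option linter.unusedSectionVars false

open Set Filter Topology Metric

namespace Crest.Agent.R281.Lf_703

open Crest.Agent.R275 Crest.Agent.R275.Geo Crest.Agent.R275.GC293
open Crest.Agent.R273.Fam_835 Crest.Agent.R272.DCov_426 Crest.Agent.R272.FamP_54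
open Crest.Agent.R272.Lev_54 Crest.Agent.R273.Map_835 Crest.Agent.R281.S6D_664

noncomputable section

variable {N n m : ℕ} {M : Type} [TopologicalSpace M]

/-- **a leaf**: an embedded connected manifold, closed in `X0` (854, #7579) -/
structure Lf (A : Atl N M) (n : ℕ) (X0 : Set M) where
  V : Type
  [top : TopologicalSpace V]
  [t2 : T2Space V]
  [conn : ConnectedSpace V]
  B : Atl n V
  [cnt : Countable B.ι]
  P : Part B
  i : V → M
  hol : HolMap B A i
  imm : Imm B A i
  inj : Function.Injective i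
  mem : ∀ v, i v ∈ X0
  cls : ∀ C ⊆ X0, IsCompact C → IsCompact (i ⁻¹' C)
  ind : IsInducing i
  ψ_nonneg : ∀ k v, 0 ≤ P.ψ k v
  χ_mem : ∀ k v, P.χ k v ∈ Icc (0 : ℝ) 1
  lf : LocallyFinite fun k => (B.e k).source
  rc : ∀ k, IsCompact (closure (B.e k).source)

attribute [instance] Lf.top Lf.t2 Lf.conn Lf.cnt

/-- **product charts of the ambient manifold along the leaf** `{f = y}` -/
structure PC {A : Atl N M} {O : Set M} (T : Lf A n O) (X0 : Set M) (f : M → Cn m) (y : Cn m) where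
  G : T.B.ι → OpenPartialHomeomorph M (Cn n × Cn m)
  r : T.B.ι → ℝ
  hr : ∀ k, 0 < r k
  sub : ∀ k, (G k).source ⊆ X0
  cpt : ∀ k, Cpt (fam A) (G k)
  snd : ∀ k, ∀ x ∈ (G k).source, (G k x).2 = f x
  tgt : ∀ k, (G k).target = (T.B.e k).target ×ˢ ball y (r k)
  src : ∀ k v, v ∈ (T.B.e k).source ↔ T.i v ∈ (G k).source
  fst : ∀ k v, v ∈ (T.B.e k).source → (G k (T.i v)).1 = T.B.e k v

/-! ### auxiliary facts -/

/-- components are closed in the set -/
theorem cmpt_closed {Z : Set M} {p x : M} (hp : p ∈ Z) (hx : x ∈ closure (connectedComponentIn Z p))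
    (hxZ : x ∈ Z) : x ∈ connectedComponentIn Z p := by
  have h1 : IsPreconnected (insert x (connectedComponentIn Z p)) :=
    isPreconnected_connectedComponentIn.subset_closure (subset_insert _ _)
      (insert_subset hx subset_closure)
  have h2 : insert x (connectedComponentIn Z p) ⊆ Z :=
    insert_subset hxZ (connectedComponentIn_subset _ _)
  exact h1.subset_connectedComponentIn (mem_insert_of_mem _ (mem_connectedComponentIn hp)) h2
    (mem_insert _ _)

/-- a map with a differentiable left inverse has an injective derivative -/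
theorem inj_of_left {E E' : Type*} [NormedAddCommGroup E] [NormedSpace ℂ E]
    [NormedAddCommGroup E'] [NormedSpace ℂ E'] {φ : E → E'} {ψ : E' → E} {z : E}
    (hφ : DifferentiableAt ℂ φ z) (hψ : DifferentiableAt ℂ ψ (φ z))
    (h : ∀ᶠ w in 𝓝 z, ψ (φ w) = w) : Function.Injective (fderiv ℂ φ z) := by
  have h1 : HasFDerivAt (fun w => ψ (φ w)) ((fderiv ℂ ψ (φ z)).comp (fderiv ℂ φ z)) z :=
    hψ.hasFDerivAt.comp z hφ.hasFDerivAt
  have h2 : HasFDerivAt (fun w => ψ (φ w)) (ContinuousLinearMap.id ℂ E) z :=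
    (hasFDerivAt_id z).congr_of_eventuallyEq h
  have h3 := h1.unique h2
  intro v w hvw
  have h4 := congrArg (fun L : E →L[ℂ] E => L v) h3
  have h5 := congrArg (fun L : E →L[ℂ] E => L w) h3
  simp only [ContinuousLinearMap.comp_apply, ContinuousLinearMap.id_apply] at h4 h5
  rw [← h4, ← h5, hvw]

/-- normalisation of the first factor -/
def nrm (m : ℕ) (z0 : Cn n) (r : ℝ) (hr : 0 < r) : Cn n × Cn m ≃ₜ Cn n × Cn m :=
  (aff z0 r hr).prodCongr (Homeomorph.refl _)



theorem differentiable_nrm (z0 : Cn n) (r : ℝ) (hr : 0 < r) :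
    Differentiable ℂ (nrm m z0 r hr) :=
  ((differentiable_aff z0 r hr).comp differentiable_fst).prodMk differentiable_snd

theorem differentiable_nrm_symm (z0 : Cn n) (r : ℝ) (hr : 0 < r) :
    Differentiable ℂ (nrm m z0 r hr).symm :=
  ((differentiable_aff_symm z0 r hr).comp differentiable_fst).prodMk differentiable_snd

/-- restriction of a chart to a product of balls, with the first factor normalised -/
def pch (g : OpenPartialHomeomorph M (Cn n × Cn m)) (z0 : Cn n) (r : ℝ) (hr : 0 < r) (y : Cn m)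
    (ρ : ℝ) : OpenPartialHomeomorph M (Cn n × Cn m) :=
  g.trans ((nrm m z0 r hr).toOpenPartialHomeomorph.restrOpen (ball z0 r ×ˢ ball y ρ)
    (isOpen_ball.prod isOpen_ball))

section pch

variable {g : OpenPartialHomeomorph M (Cn n × Cn m)} {z0 : Cn n} {r : ℝ} {hr : 0 < r} {y : Cn m}
  {ρ : ℝ}



theorem mem_pch_source {x : M} : x ∈ (pch g z0 r hr y ρ).source ↔
    x ∈ g.source ∧ (g x).1 ∈ ball z0 r ∧ (g x).2 ∈ ball y ρ := by
  constructor
  · intro h
    exact ⟨h.1, h.2.2⟩
  · intro h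
    exact ⟨h.1, mem_univ _, h.2⟩

theorem mem_pch_target (hsub : ball z0 r ×ˢ ball y ρ ⊆ g.target) {w : Cn n × Cn m} :
    w ∈ (pch g z0 r hr y ρ).target ↔
      (aff z0 r hr).symm w.1 ∈ ball z0 r ∧ w.2 ∈ ball y ρ := by
  constructor
  · intro h
    exact h.1.2
  · intro h
    exact ⟨⟨mem_univ _, h⟩, hsub h⟩

theorem cpt_pch {F : Fam N M} (hg : Cpt F g) (hsub : ball z0 r ×ˢ ball y ρ ⊆ g.target) :
    Cpt F (pch g z0 r hr y ρ) := by
  refine ⟨fun x hx => ?_, fun i w hw hi => ?_⟩
  · exact HFA.comp_left (f := g) (g := nrm m z0 r hr)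
      (differentiable_nrm z0 r hr).differentiableAt (hg.hol x (mem_pch_source.1 hx).1)
  · have h1 := (mem_pch_target hsub).1 hw
    have h2 : DifferentiableAt ℂ (fun w => F.e i (g.symm w)) ((nrm m z0 r hr).symm w) :=
      hg.hol' i _ (hsub h1) hi
    exact DifferentiableAt.comp w (g := fun w => F.e i (g.symm w)) h2
      (differentiable_nrm_symm z0 r hr).differentiableAt

end pch

/-- **every component of a regular fibre is a leaf with product charts** -/
theorem exists_Lf {A : Atl N M} [T2Space M] [SecondCountableTopology M] (hN : N = n + m)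
    {X0 : Set M} (hX0 : IsOpen X0) {f : M → Cn m} (hf : HF (fam A) X0 f) {y : Cn m}
    (hs : ∀ x ∈ X0, f x = y → ∀ j, x ∈ (A.e j).source →
      Function.Surjective (fderiv ℂ (fun z => f ((A.e j).symm z)) (A.e j x)))
    {p : M} (hp : p ∈ X0) (hpy : f p = y) {O : Set M} (hZO : X0 ∩ f ⁻¹' {y} ⊆ O)
    (hO : ∀ x ∈ closure (X0 ∩ f ⁻¹' {y}), x ∈ O → x ∈ X0 ∩ f ⁻¹' {y}) :
    ∃ T : Lf A n O, range T.i = connectedComponentIn (X0 ∩ f ⁻¹' {y}) p ∧
      Nonempty (PC T X0 f y) := by
  have hpZ : p ∈ X0 ∩ f ⁻¹' {y} := ⟨hp, hpy⟩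
  set C := famT (F := fam A) (d := n) (p := p) hN hX0 hf hs with hC
  have hconn : ConnectedSpace (cmpt X0 f y p) :=
    isConnected_iff_connectedSpace.1 (isConnected_connectedComponentIn_iff.2 hpZ)
  have := locallyCompact C
  obtain ⟨α, G, h1, h2, h3, h4, -⟩ := exists_lf C (fun _ : Unit => (univ : Set (cmpt X0 f y p)))
    (fun _ => isOpen_univ) (fun x => ⟨(), trivial⟩)
  obtain ⟨P, hψ, hχ⟩ := exists_part_lf (subAtl G h2) h3 h4
  have hcnt : Countable (subAtl G h2).ι := h1
  have hholC : HolC (fam (subAtl G h2)) (fam A) Subtype.val :=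
    (famT_hol (F := fam A) (d := n) (p := p) hN hX0 hf hs).comp (cmp_subAtl G h2).fwd
  have hhol : HolMap (subAtl G h2) A Subtype.val := holC_iff.1 hholC
  -- the ambient chart of the index `a`
  have hbs : ∀ a : α, ball (G a).z0 (G a).r ⊆ ball (TI.z0 (G a).c) (TI.r (G a).c) := by
    intro a z hz
    exact ((G a).sub z hz).1
  have hbp : ∀ a : α, ball (G a).z0 (G a).r ×ˢ ball y (TI.r (G a).c) ⊆
      (TI.a (G a).c).g.target := by
    intro a w hw
    exact TI.sub (G a).c ⟨hbs a hw.1, hw.2⟩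
  have hsrc : ∀ (a : α) (v : cmpt X0 f y p), v ∈ (G a).e.source ↔
      v.1 ∈ (TI.a (G a).c).g.source ∧ ((TI.a (G a).c).g v.1).1 ∈ ball (G a).z0 (G a).r := by
    intro a v
    rw [(G a).mem_source]
    constructor
    · rintro ⟨h5, h6⟩
      exact ⟨((TI.mem_ch_source (G a).c).1 h5).1, h6⟩
    · rintro ⟨h5, h6⟩
      exact ⟨(TI.mem_ch_source (G a).c).2 ⟨h5, hbs a h6⟩, h6⟩
  have hap : ∀ (a : α) (v : cmpt X0 f y p), (G a).e v =
      aff (G a).z0 (G a).r (G a).hr ((TI.a (G a).c).g v.1).1 := fun a v => rfl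
  have himm : Imm (subAtl G h2) A Subtype.val := by
    intro a i v hv hi
    have hvs := (hsrc a v).1 hv
    have e1 : ((G a).e.symm ((G a).e v)) = v := (G a).e.left_inv hv
    have hd := hhol.diffAt (mem_dm hv hi)
    have e2 : rd (subAtl G h2) A Subtype.val a i ((subAtl G h2).e a v) = A.e i v.1 := by
      show A.e i ((G a).e.symm ((G a).e v)).1 = _
      rw [e1]
    refine inj_of_left (ψ := fun w => aff (G a).z0 (G a).r (G a).hr
      ((TI.a (G a).c).g ((A.e i).symm w)).1) hd ?_ ?_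
    · rw [e2]
      have h5 : DifferentiableAt ℂ (fun w => (TI.a (G a).c).g ((A.e i).symm w)) (A.e i v.1) :=
        (TI.a (G a).c).cpt.hol _ hvs.1 i hi
      exact (differentiable_aff (G a).z0 (G a).r (G a).hr).differentiableAt.comp _ h5.fst
    · have h6 : ∀ᶠ z in 𝓝 ((G a).e v), z ∈ (G a).e.target ∧
          (((G a).e.symm z).1 ∈ (A.e i).source) := by
        refine ((G a).e.open_target.eventually_mem ((G a).e.map_source hv)).and ?_
        have h7 : ContinuousAt (fun z => ((G a).e.symm z).1) ((G a).e v) :=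
          continuous_subtype_val.continuousAt.comp
            ((G a).e.continuousAt_symm ((G a).e.map_source hv))
        refine h7.preimage_mem_nhds ((A.e i).open_source.mem_nhds ?_)
        show ((G a).e.symm ((G a).e v)).1 ∈ _
        rw [e1]
        exact hi
      filter_upwards [h6] with z hz
      show aff (G a).z0 (G a).r (G a).hr
        ((TI.a (G a).c).g ((A.e i).symm (A.e i ((G a).e.symm z).1))).1 = z
      rw [(A.e i).left_inv hz.2, ← hap, (G a).e.right_inv hz.1]
  let T : Lf A n O :=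
    { V := cmpt X0 f y p
      B := subAtl G h2
      cnt := hcnt
      P := P
      i := Subtype.val
      hol := hhol
      imm := himm
      inj := Subtype.val_injective
      mem := fun v => hZO (connectedComponentIn_subset _ _ v.2)
      cls := by
        intro K hKO hK
        rw [Topology.IsEmbedding.subtypeVal.isCompact_iff]
        have h5 : Subtype.val '' (Subtype.val ⁻¹' K : Set (cmpt X0 f y p)) =
            K ∩ closure (cmpt X0 f y p) := by
          ext x
          constructor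
          · rintro ⟨v, hv, rfl⟩
            exact ⟨hv, subset_closure v.2⟩
          · rintro ⟨hxK, hx⟩
            have h6 : x ∈ X0 ∩ f ⁻¹' {y} :=
              hO x (closure_mono (connectedComponentIn_subset _ _) hx) (hKO hxK)
            exact ⟨⟨x, cmpt_closed hpZ hx h6⟩, hxK, rfl⟩
        rw [h5]
        exact hK.inter_right isClosed_closure
      ind := Topology.IsInducing.subtypeVal
      ψ_nonneg := hψ
      χ_mem := hχ
      lf := h3
      rc := h4 }
  refine ⟨T, Subtype.range_coe, ⟨⟨fun a => pch (TI.a (G a).c).g (G a).z0 (G a).r (G a).hr y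
    (TI.r (G a).c), fun a => TI.r (G a).c, fun a => TI.hr (G a).c, ?_, ?_, ?_, ?_, ?_, ?_⟩⟩⟩
  · intro a x hx
    exact (TI.a (G a).c).sub (mem_pch_source.1 hx).1
  · intro a
    exact cpt_pch (TI.a (G a).c).cpt (hbp a)
  · intro a x hx
    exact (TI.a (G a).c).snd x (mem_pch_source.1 hx).1
  · intro a
    ext w
    rw [mem_pch_target (hbp a)]
    constructor
    · rintro ⟨h5, h6⟩
      exact ⟨(G a).mem_target.2 h5, h6⟩
    · rintro ⟨h5, h6⟩
      exact ⟨(G a).mem_target.1 h5, h6⟩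
  · intro a v
    show v ∈ (G a).e.source ↔ _
    rw [hsrc a v, mem_pch_source]
    constructor
    · rintro ⟨h5, h6⟩
      refine ⟨h5, h6, ?_⟩
      rw [(TI.a (G a).c).snd _ h5, cmpt_f v.2]
      exact mem_ball_self (TI.hr (G a).c)
    · rintro ⟨h5, h6, -⟩
      exact ⟨h5, h6⟩
  · intro a v _
    rfl

end

end Crest.Agent.R281.Lf_703
end

-- ▼ part R281/OmM4_980
section

/-!
# R281 (S0424), OM-MASS (helper980), part 4: the output

`A : Atl N M`, `N = d + m`, `s_0, …, s_m` sections of `L^k`, `T` a leaf over the value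
`[1 : 0 : … : 0]` (helper703).
* `M1 K L C0 …` : the volumes of all leaves are bounded by one constant
* `m1`          : (M1), uniform over all leaves
* `m2`          : (M2), `∫_T tr (cur h' + 2 e K) ≤ μ` for `e < e0(μ)`, uniform over all leaves
-/

set_option autoImplicit false
set_option linter.unusedSectionVars false

open Set Filter Topology Complex MeasureTheory Function
open scoped ContDiff Matrix ComplexConjugate ComplexOrder ENNReal

namespace Crest.Agent.R281.OmM_980

open Crest.Agent.R275 Crest.Agent.R275.Geo Crest.Agent.R275.Core144 Crest.Agent.R275.EDR890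
open Crest.Agent.R273.Defs_333 Crest.Agent.R273.Hess_333 Crest.Agent.R273.HessB_333
open Crest.Agent.R273.HM_333 Crest.Agent.R273.Kah_333 Crest.Agent.R273.Vol_333
open Crest.Agent.R273.Vm_333 Crest.Agent.R273.Map_835 Crest.Agent.R273.KahI_645
open Crest.Agent.R273.StV_37 Crest.Agent.R273.Fam_835 Crest.Agent.R272.FamP_54
open Crest.Agent.R273.Green_5 Crest.Agent.R273.FIa0_597 Crest.Agent.R273.FIb0_597
open Crest.Agent.R273
open Crest.Agent.R281.LfS_901 (U0 qf)
open Crest.Agent.R281.S6D_664 Crest.Agent.R281.Om_854 Crest.Agent.R281.Lf_703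
open Crest.Agent.R281.Defs_273 (NefW)

noncomputable section

/-! ### 703's product charts -/

section pcs

variable {d m : ℕ} {M : Type} [TopologicalSpace M] {A : Atl (d + m) M} {O X0 : Set M}

theorem pcs_of (T : Lf A d O) {f : M → Cn m} (pc : PC T X0 f 0) (hz : ∀ v, f (T.i v) = 0) :
    PCs A X0 f T.B T.i := by
  intro k
  refine ⟨pc.G k, pc.sub k, fun i p hp hi => (pc.cpt k).hol' i p hp hi,
    fun i x hx hi => (pc.cpt k).hol x hx i hi, pc.snd k, fun z hzt => ?_⟩
  have h1 : (z, (0 : Cn m)) ∈ (pc.G k).target := by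
    rw [pc.tgt k]
    exact ⟨hzt, Metric.mem_ball_self (pc.hr k)⟩
  refine ⟨h1, ?_⟩
  set v := (T.B.e k).symm z with hv
  have hvs : v ∈ (T.B.e k).source := (T.B.e k).map_target hzt
  have h2 : T.i v ∈ (pc.G k).source := (pc.src k v).1 hvs
  have h3 : pc.G k (T.i v) = (z, 0) := by
    refine Prod.ext ?_ ?_
    · rw [pc.fst k v hvs, hv, (T.B.e k).right_inv hzt]
    · rw [pc.snd k _ h2, hz]
  rw [← h3, (pc.G k).left_inv h2]

end pcs

section out

variable {N d m k : ℕ} {M : Type} [TopologicalSpace M] {A : Atl N M} {L : LB A}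
  [T2Space M] [CompactSpace M] [MeasurableSpace M] [BorelSpace M] [Finite A.ι]
  {P : Part A} {K : Kah A} {C : ℝ} {s : Fin (m + 1) → A.ι → M → ℂ} {O : Set M}

/-- the trace of `cur h` along the leaf -/
def trT (K : Kah A) {T : Type} [TopologicalSpace T] {B : Atl d T} {f : T → M} (hol : HolMap B A f)
    (imm : Imm B A f) (h : HM L) (t : T) : ℝ :=
  ((((pullI K hol imm).g (ch B t) t)⁻¹ *
    ((Jp B A f (ch B t) (ch A (f t)) t)ᵀ * cur h (ch A (f t)) (f t) *
      (Jp B A f (ch B t) (ch A (f t)) t).map conj)).trace).re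

theorem trT_add (K : Kah A) {T : Type} [TopologicalSpace T] {B : Atl d T} {f : T → M}
    (hol : HolMap B A f) (imm : Imm B A f) (h : HM L) (e : ℝ) (t : T) :
    ((((pullI K hol imm).g (ch B t) t)⁻¹ *
      ((Jp B A f (ch B t) (ch A (f t)) t)ᵀ *
        (cur h (ch A (f t)) (f t) + ((2 * e : ℝ) : ℂ) • K.g (ch A (f t)) (f t)) *
        (Jp B A f (ch B t) (ch A (f t)) t).map conj)).trace).re =
      trT K hol imm h t + 2 * e * d := by
  have hi := mem_ch A (f t)
  have hj := mem_ch B t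
  have h2 := pullI_g K hol imm hj hi
  have h3 := (pullI K hol imm).pos _ t hj
  set J := Jp B A f (ch B t) (ch A (f t)) t with hJ
  have h6 : Jᵀ * (cur h (ch A (f t)) (f t) + ((2 * e : ℝ) : ℂ) • K.g (ch A (f t)) (f t)) *
      J.map conj = Jᵀ * cur h (ch A (f t)) (f t) * J.map conj +
        ((2 * e : ℝ) : ℂ) • (pullI K hol imm).g (ch B t) t := by
    rw [h2, Matrix.mul_add, Matrix.add_mul, Matrix.mul_smul, Matrix.smul_mul]
  rw [h6, Matrix.mul_add, Matrix.trace_add, Matrix.mul_smul, Matrix.trace_smul, tr_self h3,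
    Complex.add_re, smul_eq_mul, Complex.re_ofReal_mul, Complex.natCast_re]
  rfl

theorem trT_nonneg (K : Kah A) {T : Type} [TopologicalSpace T] {B : Atl d T} {f : T → M}
    (hol : HolMap B A f) (imm : Imm B A f) (h : HM L) {e : ℝ} (he : 0 ≤ e)
    (hp : ∀ i, ∀ x ∈ (A.e i).source, (cur h i x + (e : ℂ) • K.g i x).PosSemidef) (t : T) :
    0 ≤ trT K hol imm h t + 2 * e * d := by
  rw [← trT_add]
  have hi := mem_ch A (f t)
  set J := Jp B A f (ch B t) (ch A (f t)) t with hJ
  have hJs : (J.map conj)ᴴ = Jᵀ := by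
    ext a b
    simp [Matrix.conjTranspose_apply]
  refine tr_re_nonneg ((pullI K hol imm).pos _ t (mem_ch B t)) ?_
  have := (psd_two K h he hp hi).conjTranspose_mul_mul_same (J.map conj)
  rwa [hJs] at this

/-- the inequality for one leaf -/
theorem lint_leaf (hN : N = d + m) (hV : VolB P K L m C) (h : HM L) {e R : ℝ} (he : 0 ≤ e)
    (hR1 : 1 ≤ R) (heR : e * R ≤ 1)
    (hp : ∀ i, ∀ x ∈ (A.e i).source, (cur h i x + (e : ℂ) • K.g i x).PosSemidef)
    (hs : ∀ a, IsHS (L ^ k) univ (s a)) (T : Lf A d O) (pc : PC T (U0 s) (qf s) 0)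
    (hz : ∀ v, qf s (T.i v) = 0) [MeasurableSpace T.V] [BorelSpace T.V] :
    ∫⁻ t, ENNReal.ofReal (1 + R * k * (trT K T.hol T.imm h t + 2 * e * d))
      ∂(vm (volK (pullI K T.hol T.imm))) ≤ ENNReal.ofReal (CM C k m) := by
  subst hN
  have h1 := lint_tr hV h he hR1 heR hp hs (pcs_of T pc hz) T.ind.continuous T.inj T.hol T.imm
  simp only [trT_add] at h1
  exact h1

/-- **(M1)** for one leaf, with a constant which depends only on `C`, `k`, `m` -/
theorem m1_leaf (hN : N = d + m) (hV : VolB P K L m C) (hnef : NefW K L)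
    (hs : ∀ a, IsHS (L ^ k) univ (s a)) (T : Lf A d O) (pc : PC T (U0 s) (qf s) 0)
    (hz : ∀ v, qf s (T.i v) = 0) [MeasurableSpace T.V] [BorelSpace T.V] :
    vm (volK (pullI K T.hol T.imm)) univ ≤ ENNReal.ofReal (CM C k m) := by
  obtain ⟨h, hp⟩ := hnef 1 one_pos
  have h1 := lint_leaf hN hV h (e := 1) (R := 1) zero_le_one le_rfl (by norm_num) hp hs T pc hz
  refine le_trans ?_ h1
  have h2 : vm (volK (pullI K T.hol T.imm)) univ =
      ∫⁻ _, ENNReal.ofReal 1 ∂(vm (volK (pullI K T.hol T.imm))) := by simp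
  rw [h2]
  refine lintegral_mono fun t => ENNReal.ofReal_le_ofReal ?_
  have h3 := trT_nonneg K T.hol T.imm h zero_le_one hp t
  have h4 : 0 ≤ 1 * (k : ℝ) * (trT K T.hol T.imm h t + 2 * 1 * d) := by positivity
  linarith

/-- **(M2)** for one leaf -/
theorem m2_leaf (hN : N = d + m) (hV : VolB P K L m C) (h : HM L) {e R : ℝ} (he : 0 ≤ e)
    (hR1 : 1 ≤ R) (heR : e * R ≤ 1) (hk : 0 < k)
    (hp : ∀ i, ∀ x ∈ (A.e i).source, (cur h i x + (e : ℂ) • K.g i x).PosSemidef)
    (hs : ∀ a, IsHS (L ^ k) univ (s a)) (T : Lf A d O) (pc : PC T (U0 s) (qf s) 0)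
    (hz : ∀ v, qf s (T.i v) = 0) [MeasurableSpace T.V] [BorelSpace T.V] :
    ∫ t, (trT K T.hol T.imm h t + 2 * e * d) ∂(vm (volK (pullI K T.hol T.imm))) ≤
      CM C k m / (R * k) := by
  have hC := CM_nonneg hV.1 k m
  have hk' : (0 : ℝ) < k := by exact_mod_cast hk
  have hRk : 0 < R * k := by positivity
  set g : T.V → ℝ := fun t => trT K T.hol T.imm h t + 2 * e * d with hg
  have hg0 : ∀ t, 0 ≤ g t := trT_nonneg K T.hol T.imm h he hp
  set μ := vm (volK (pullI K T.hol T.imm)) with hμ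
  show ∫ t, g t ∂μ ≤ _
  by_cases hint : Integrable g μ
  · have h1 := lint_leaf hN hV h he hR1 heR hp hs T pc hz
    have h2 : ENNReal.ofReal (R * k) * ∫⁻ t, ENNReal.ofReal (g t) ∂μ ≤
        ENNReal.ofReal (CM C k m) := by
      rw [← lintegral_const_mul' _ _ ENNReal.ofReal_ne_top]
      refine le_trans (lintegral_mono fun t => ?_) h1
      show ENNReal.ofReal (R * k) * ENNReal.ofReal (g t) ≤ ENNReal.ofReal (1 + R * k * g t)
      rw [← ENNReal.ofReal_mul hRk.le]
      exact ENNReal.ofReal_le_ofReal (by linarith)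
    have h3 : ∫⁻ t, ENNReal.ofReal (g t) ∂μ ≤ ENNReal.ofReal (CM C k m / (R * k)) := by
      rw [ENNReal.ofReal_div_of_pos hRk, ENNReal.le_div_iff_mul_le
        (Or.inl (ENNReal.ofReal_pos.2 hRk).ne') (Or.inl ENNReal.ofReal_ne_top), mul_comm]
      exact h2
    rw [integral_eq_lintegral_of_nonneg_ae (Eventually.of_forall hg0) hint.1]
    refine ENNReal.toReal_le_of_le_ofReal (by positivity) h3
  · rw [integral_undef hint]
    positivity

/-- **(M1)**: one constant for all leaves of all sections of `L^k` -/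
theorem m1 (hN : N = d + m) (hV : VolB P K L m C) (hnef : NefW K L) (k : ℕ) :
    ∃ v : ℝ, 0 ≤ v ∧ ∀ (s : Fin (m + 1) → A.ι → M → ℂ), (∀ a, IsHS (L ^ k) univ (s a)) →
      ∀ (O : Set M) (T : Lf A d O) (_ : PC T (U0 s) (qf s) 0), (∀ v, qf s (T.i v) = 0) →
      ∀ [MeasurableSpace T.V] [BorelSpace T.V],
        vm (volK (pullI K T.hol T.imm)) univ ≤ ENNReal.ofReal v :=
  ⟨CM C k m, CM_nonneg hV.1 k m, fun _ hs _ T pc hz _ _ => m1_leaf hN hV hnef hs T pc hz⟩

/-- **(M2)**: uniform over all leaves of all sections of `L^k` -/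
theorem m2 (hN : N = d + m) (hV : VolB P K L m C) {k : ℕ} (hk : 0 < k) {μ : ℝ} (hμ : 0 < μ) :
    ∃ e0 : ℝ, 0 < e0 ∧ ∀ e : ℝ, 0 < e → e < e0 → ∀ h : HM L,
      (∀ i, ∀ x ∈ (A.e i).source, (cur h i x + (e : ℂ) • K.g i x).PosSemidef) →
      ∀ (s : Fin (m + 1) → A.ι → M → ℂ), (∀ a, IsHS (L ^ k) univ (s a)) →
      ∀ (O : Set M) (T : Lf A d O) (_ : PC T (U0 s) (qf s) 0), (∀ v, qf s (T.i v) = 0) →
      ∀ [MeasurableSpace T.V] [BorelSpace T.V],
        ∫ t, (trT K T.hol T.imm h t + 2 * e * d) ∂(vm (volK (pullI K T.hol T.imm))) ≤ μ := by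
  have hC := CM_nonneg hV.1 k m
  have hk' : (0 : ℝ) < k := by exact_mod_cast hk
  set R : ℝ := max 1 (CM C k m / (k * μ)) with hR
  have hR1 : 1 ≤ R := le_max_left _ _
  have hRp : 0 < R := by linarith
  refine ⟨1 / R, by positivity, fun e he he0 h hp s hs O T pc hz _ _ => ?_⟩
  have heR : e * R ≤ 1 := by
    rw [lt_div_iff₀ hRp] at he0
    exact he0.le
  refine (m2_leaf hN hV h he.le hR1 heR hk hp hs T pc hz).trans ?_
  have h1 : CM C k m / (k * μ) ≤ R := le_max_right _ _
  rw [div_le_iff₀ (by positivity)] at h1 ⊢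
  linarith

end out

end

end Crest.Agent.R281.OmM_980
end

-- ▼ part R281/Om4_854
section

/-!
# R281 (S0424), S6-OMEGA (helper854), part 4: the leaf through a regular point, normalised sections

* `pcs_of_pc`  : 703's product charts give `PCs`
* `nzs s c`    : `(s_0, s_{a+1} - c_a s_0)`
* `exists_leaf`: the leaf of `qf s` through a point over a regular value, as an `Lf`
-/

set_option autoImplicit false
set_option linter.unusedSectionVars false

open Set Filter Topology Complex MeasureTheory Metric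
open scoped ContDiff Matrix ComplexConjugate Manifold ComplexOrder ENNReal Pointwise

namespace Crest.Agent.R281.Om_854

open Crest.Agent.R275.Geo Crest.Agent.R275.Core144 Crest.Agent.R275.EDR890
open Crest.Agent.R273.Defs_333 Crest.Agent.R273.Kah_333 Crest.Agent.R273.Vol_333
open Crest.Agent.R273.Vm_333 Crest.Agent.R273.Map_835 Crest.Agent.R273.KahI_645
open Crest.Agent.R273.Fam_835 Crest.Agent.R272.FamP_54 Crest.Agent.R273
open Crest.Agent.R281.S6D_664 Crest.Agent.R281.Lf_703 Crest.Agent.R281.LfS_901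
open Crest.Agent.R281.Tube1_989 Crest.Agent.R281.Tube2_989 Crest.Agent.R281.OmA_524

noncomputable section

variable {N d m : ℕ} {M : Type} [TopologicalSpace M]

/-! ### product charts -/


/-! ### normalisation of the sections -/

variable {A : Atl N M} {L : LB A} {s : Fin (m + 1) → A.ι → M → ℂ}

/-- the sections `(s_0, s_{a+1} - c_a s_0)` -/
def nzs (s : Fin (m + 1) → A.ι → M → ℂ) (c : Cn m) : Fin (m + 1) → A.ι → M → ℂ :=
  Fin.cons (s 0) fun a => fun i x => s a.succ i x - c a * s 0 i x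

theorem nzs_zero (c : Cn m) : nzs s c 0 = s 0 := rfl

theorem nzs_succ (c : Cn m) (a : Fin m) (i : A.ι) (x : M) :
    nzs s c a.succ i x = s a.succ i x - c a * s 0 i x := rfl

theorem isHS_nzs (h : ∀ a, IsHS L univ (s a)) (c : Cn m) (a : Fin (m + 1)) :
    IsHS L univ (nzs s c a) := by
  refine Fin.cases ?_ (fun a => ?_) a
  · exact h 0
  · have h1 : nzs s c a.succ = s a.succ + (-(c a)) • s 0 := by
      funext i x
      rw [nzs_succ]
      simp only [Pi.add_apply, Pi.smul_apply, smul_eq_mul]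
      ring
    rw [h1]
    exact (h a.succ).add ((h 0).smul _)

theorem u0_nzs (c : Cn m) : U0 (nzs s c) = U0 s := rfl

theorem qf_nzs {x : M} (h : ∀ a, IsHS L univ (s a)) (hx : x ∈ U0 s) (c : Cn m) :
    qf (nzs s c) x = qf s x - c := by
  ext a
  have hc := LfS_901.ch_mem A x
  have h0 := (mem_u0 h hc).1 hx
  show nzs s c a.succ (LfS_901.ch A x) x / nzs s c 0 (LfS_901.ch A x) x =
    s a.succ (LfS_901.ch A x) x / s 0 (LfS_901.ch A x) x - c a
  rw [nzs_succ, nzs_zero, sub_div, mul_div_cancel_right₀ _ h0]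

theorem set_nzs (h : ∀ a, IsHS L univ (s a)) (c : Cn m) :
    U0 (nzs s c) ∩ qf (nzs s c) ⁻¹' {0} = U0 s ∩ qf s ⁻¹' {c} := by
  rw [u0_nzs]
  ext x
  constructor
  · rintro ⟨hx, h1⟩
    have h2 : qf (nzs s c) x = 0 := h1
    rw [qf_nzs h hx, sub_eq_zero] at h2
    exact ⟨hx, h2⟩
  · rintro ⟨hx, h1⟩
    have h2 : qf s x = c := h1
    refine ⟨hx, ?_⟩
    show qf (nzs s c) x = 0
    rw [qf_nzs h hx, h2, sub_self]

theorem surj_nzs (h : ∀ a, IsHS L univ (s a)) (c : Cn m) {x : M} (hx : x ∈ U0 s) {j : A.ι}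
    (hj : x ∈ (A.e j).source) (hs : Sj A (qf s) j x) : Sj A (qf (nzs s c)) j x := by
  unfold Sj at hs ⊢
  have h1 : (fun z => qf (nzs s c) ((A.e j).symm z)) =ᶠ[𝓝 (A.e j x)]
      fun z => qf s ((A.e j).symm z) - c := by
    have h2 : ContinuousAt (A.e j).symm (A.e j x) := (A.e j).continuousAt_symm ((A.e j).map_source hj)
    have h3 : ∀ᶠ z in 𝓝 (A.e j x), (A.e j).symm z ∈ U0 s := by
      refine h2.eventually ?_
      rw [(A.e j).left_inv hj]
      exact (isOpen_u0 h).mem_nhds hx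
    filter_upwards [h3] with z hz
    exact qf_nzs h hz c
  rw [h1.fderiv_eq, fderiv_sub_const]
  exact hs

/-- **the leaf through a point over a regular value** -/
theorem exists_leaf [T2Space M] [SecondCountableTopology M] (hN : N = d + m)
    (h : ∀ a, IsHS L univ (s a)) {x : M} (hx : x ∈ U0 s) (hb : x ∉ Bad A (U0 s) (qf s)) :
    ∃ T : Lf A d (U0 (nzs s (qf s x))), range T.i = leaf (U0 s) (qf s) x ∧
      Nonempty (PC T (U0 (nzs s (qf s x))) (qf (nzs s (qf s x))) 0) ∧
      ∀ v, qf (nzs s (qf s x)) (T.i v) = 0 := by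
  set c := qf s x with hc
  set s' := nzs s c with hs'
  have h' := isHS_nzs h c
  have hset := set_nzs h c
  have hreg : ∀ p ∈ U0 s', qf s' p = 0 → ∀ j, p ∈ (A.e j).source →
      Function.Surjective (fderiv ℂ (fun z => qf s' ((A.e j).symm z)) (A.e j p)) := by
    intro p hp hp0 j hj
    have h1 : p ∈ U0 s ∩ qf s ⁻¹' {c} := by rw [← hset]; exact ⟨hp, hp0⟩
    refine surj_nzs h c h1.1 hj ?_
    by_contra hne
    exact hb ⟨hx, p, h1.1, h1.2, fun hr => hne (hr j hj)⟩
  have hpx : x ∈ U0 s' := hx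
  have hpy : qf s' x = 0 := by rw [qf_nzs h hx, sub_self]
  obtain ⟨T, h1, h2⟩ := exists_Lf (n := d) hN (isOpen_u0 h') (hf_qf h') hreg hpx hpy
    (O := U0 s') (fun p hp => hp.1) (by
      intro p hp hpO
      refine ⟨hpO, ?_⟩
      have h3 : ContinuousAt (qf s') p := by
        obtain ⟨j, hj⟩ := A.cover p
        have h4 : ContinuousAt (fun q => qf s' ((A.e j).symm (A.e j q))) p :=
          ContinuousAt.comp (g := fun z => qf s' ((A.e j).symm z))
            (hf_qf h' p hpO j hj).continuousAt ((A.e j).continuousAt hj)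
        refine h4.congr ?_
        filter_upwards [(A.e j).open_source.mem_nhds hj] with q hq
        rw [(A.e j).left_inv hq]
      have h5 : p ∈ closure (qf s' ⁻¹' {0}) := closure_mono inter_subset_right hp
      show qf s' p = 0
      by_contra hne
      obtain ⟨q, hq1, hq2⟩ := mem_closure_iff_nhds.1 h5 _ (h3.eventually_ne hne)
      exact hq1 hq2)
  refine ⟨T, ?_, h2, fun v => ?_⟩
  · rw [h1, hset]
    rfl
  · have h3 : T.i v ∈ U0 s' ∩ qf s' ⁻¹' {0} := by
      have h4 : T.i v ∈ range T.i := ⟨v, rfl⟩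
      rw [h1] at h4
      exact connectedComponentIn_subset _ _ h4
    exact h3.2

end

end Crest.Agent.R281.Om_854
end

-- ▼ part R281/Om5_854
section

/-!
# R281 (S0424), S6-OMEGA (helper854), part 5: compactness of the leaves over regular values

* `x0s_eq`, `ys_eq_qf` : 524's carriers are 901's
* `proper_rho`  : `{a ≤ ρ}` is compact in the leaf
* `hcpt_of`     : 524's `hcpt` from `CompactSpace` of the leaves
-/

set_option autoImplicit false
set_option linter.unusedSectionVars false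

open Set Filter Topology Complex MeasureTheory Metric
open scoped ContDiff Matrix ComplexConjugate Manifold ComplexOrder ENNReal Pointwise

namespace Crest.Agent.R281.Om_854

open Crest.Agent.R275.Geo Crest.Agent.R275.Core144 Crest.Agent.R275.EDR890
open Crest.Agent.R273.Defs_333 Crest.Agent.R273.Kah_333 Crest.Agent.R273.Vol_333
open Crest.Agent.R273.HM_333 Crest.Agent.R273
open Crest.Agent.R273.Vm_333 Crest.Agent.R273.Map_835 Crest.Agent.R273.KahI_645
open Crest.Agent.R273.Fam_835 Crest.Agent.R272.FamP_54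
open Crest.Agent.R281.S6D_664 Crest.Agent.R281.Lf_703 Crest.Agent.R281.LfS_901
open Crest.Agent.R281.Tube1_989 Crest.Agent.R281.Tube2_989 Crest.Agent.R281.OmA_524
open Crest.Agent.R281.OmB_524 Crest.Agent.R281.Rk_599 Crest.Agent.R281.Glob1_484
open Crest.Agent.R281.Har_331

noncomputable section

variable {N d m : ℕ} {M : Type} [TopologicalSpace M] {A : Atl N M} {L : LB A}
  {s : Fin (m + 1) → A.ι → M → ℂ}

theorem x0s_eq (h : ∀ a, IsHS L univ (s a)) : X0s A s = U0 s := by
  ext x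
  have hx := LfS_901.ch_mem A x
  rw [mem_X0s_iff h hx, mem_u0 h hx]

theorem ys_eq_qf (h : ∀ a, IsHS L univ (s a)) : ys A s = qf s := by
  funext x
  ext a
  rw [ys_eq h (LfS_901.ch_mem A x), qf_eq h (LfS_901.ch_mem A x)]

theorem nsM_pos (h' : HM L) (h : ∀ a, IsHS L univ (s a)) {x : M} (hx : x ∈ U0 s) :
    0 < nsM h' (s 0) x :=
  nsM_pos_of h' fun _ hi => (mem_u0 h hi).1 hx

theorem mem_u0_of_pos (h' : HM L) (h : ∀ a, IsHS L univ (s a)) {x : M}
    (hx : 0 < nsM h' (s 0) x) : x ∈ U0 s := by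
  have hc := LfS_901.ch_mem A x
  rw [mem_u0 h hc]
  intro h0
  rw [nsM_eq h' (h 0) hc, nsq, h0] at hx
  simp at hx

/-- `{a ≤ ρ}` is compact in a leaf -/
theorem proper_rho [CompactSpace M] (h' : HM L) (h : ∀ a, IsHS L univ (s a))
    (T : Lf A d (U0 s)) (a : ℝ) : IsCompact {t | a ≤ rho h' (s 0) T.i t} := by
  have h1 : Continuous (nsM h' (s 0)) := FIc0_597.cont_sm (sm_nsM h' (h 0))
  have h2 : IsCompact {x : M | Real.exp a ≤ nsM h' (s 0) x} :=
    (isClosed_le continuous_const h1).isCompact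
  have h3 := T.cls _ (fun x hx => mem_u0_of_pos h' h ((Real.exp_pos a).trans_le hx)) h2
  convert h3 using 1
  ext t
  have h4 := nsM_pos h' h (T.mem t)
  show a ≤ Real.log (nsM h' (s 0) (T.i t)) ↔ Real.exp a ≤ nsM h' (s 0) (T.i t)
  rw [Real.le_log_iff_exp_le h4]

/-- **524's `hcpt`** from the compactness of the leaves of the normalised sections -/
theorem hcpt_of [T2Space M] [SecondCountableTopology M] (hN : N = d + m)
    (h : ∀ a, IsHS L univ (s a))
    (HC : ∀ (c : Cn m) (T : Lf A d (U0 (nzs s c))), PC T (U0 (nzs s c)) (qf (nzs s c)) 0 →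
      (∀ v, qf (nzs s c) (T.i v) = 0) → CompactSpace T.V) :
    ∀ x ∈ X0s A s, (∀ p ∈ X0s A s, ys A s p = ys A s x → ∃ i, Rk A s i p) →
      IsCompact (leaf (X0s A s) (ys A s) x) := by
  intro x hx hreg
  have hb : x ∉ Bad A (X0s A s) (ys A s) := by
    rintro ⟨-, p, hp, hpx, hr⟩
    exact hr ((regAt_iff h hp).2 (hreg p hp hpx))
  rw [x0s_eq h, ys_eq_qf h] at hb ⊢
  rw [x0s_eq h] at hx
  obtain ⟨T, h1, ⟨G⟩, h2⟩ := exists_leaf hN h hx hb
  have := HC _ T G h2
  rw [← h1]
  exact isCompact_range T.ind.continuous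

end

end Crest.Agent.R281.Om_854
end

-- ▼ part R281/OmH1_331
section

/-!
# R281 (S0424), leaf OM-HAR (helper331), part 1: Green's formula with compact support

`T` not compact, countable atlas with a partition of unity:
* `integral_F`   : `∫ f d(vm h) = ∑_{i ∈ F} lint B i (ψ_i w_i f)` for continuous `f` with compact
  support;
* `int_Gb_cs`    : `∫ <du, dv> = - ∫ u Lap v`, `u` with compact support;
* `volinv_cs`    : `∫ det(g + ∂∂̄u) - det g = 0`, `u` with compact support.
-/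

set_option autoImplicit false
set_option linter.unusedSectionVars false

open Set Filter Topology Complex MeasureTheory Function
open scoped ContDiff Matrix ComplexConjugate ComplexOrder Polynomial

namespace Crest.Agent.R281.Har_331

open Crest.Agent.R275 Crest.Agent.R275.Geo Crest.Agent.R275.Core144 Crest.Agent.R275.EDR890
open Crest.Agent.R275.Pai323 Crest.Agent.R275.C1d194
open Crest.Agent.R275.SerG398 (lint dens OffZ)
open Crest.Agent.R275.OmT75 (dj dl dl_chain dl_mul db_chain dj_sum dj_congr)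
open Crest.Agent.R273.Defs_333 Crest.Agent.R273.Hess_333 Crest.Agent.R273.HessB_333
open Crest.Agent.R273.HM_333 Crest.Agent.R273.Kah_333 Crest.Agent.R273.Vol_333
open Crest.Agent.R273.Vm_333
open Crest.Agent.R273.Green_5 Crest.Agent.R273.FIa0_597 Crest.Agent.R273.FIb0_597
open Crest.Agent.R273.FIc0_597 Crest.Agent.R273
open Crest.Agent.R273.SchI_152 (Dg sm_sq Dg_nonneg continuous_Dg)
open Crest.Agent.R273.StV_37 (tot tot_congr tot_add tot_smul tot_sum)
open Crest.Agent.R273.VolInv_5 (dp eval_dp natDegree_dp smAt_coeff_dp eval_derivative_dp)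
open Crest.Agent.R273.GreenM_5 (Dn Tn fnD fnD_div sm_fnD integral_fnD_re sm_re CF.tn adj_dn)
open Crest.Agent.R273.GreenG_5 (grd grd_qa grd_dn qa qa_eq adjugate_eq db_ofReal totc_grd smAt_trA
  trA_dn)
open Crest.Agent.R281.Glob1_484

noncomputable section

variable {n : ℕ} {M : Type} [TopologicalSpace M] {A : Atl n M} {L L' : LB A}

theorem trC_det' (K : Kah A) (S : A.ι → M → Matrix (Fin n) (Fin n) ℂ) {i : A.ι} {x : M}
    (hx : x ∈ (A.e i).source) :
    (K.g i x).det * trC K S i x = ((K.g i x).adjugate * S i x).trace := by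
  unfold trC
  have h0 : (K.g i x).det ≠ 0 := (K.pos i x hx).det_pos.ne'
  rw [Matrix.inv_def, Ring.inverse_eq_inv', Matrix.smul_mul, Matrix.trace_smul, smul_eq_mul,
    ← mul_assoc, mul_inv_cancel₀ h0, one_mul]

theorem near_zero {u : M → ℂ} {i : A.ι} {x : M} (hx : x ∈ (A.e i).source) (h : u =ᶠ[𝓝 x] 0) :
    (fun z => u ((A.e i).symm z)) =ᶠ[𝓝 (A.e i x)] fun _ => (0 : ℂ) := by
  have hc : Tendsto (A.e i).symm (𝓝 (A.e i x)) (𝓝 x) := by
    have := (A.e i).continuousAt_symm ((A.e i).map_source hx)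
    rw [ContinuousAt, (A.e i).left_inv hx] at this
    exact this
  exact hc.eventually h

theorem dl_zero_of {u : M → ℂ} {i : A.ι} {x : M} (hx : x ∈ (A.e i).source) (h : u =ᶠ[𝓝 x] 0)
    (a : Fin n) : dl A i a u x = 0 := by
  unfold OmT75.dl
  rw [dj_eq_wd, wd_congr (near_zero hx h)]
  exact wd_const _ _ _

theorem ev_zero [T2Space M] {u : M → ℂ} {C : Set M} (hC : IsCompact C) (h0 : ∀ x ∉ C, u x = 0)
    {x : M} (hx : x ∉ C) : u =ᶠ[𝓝 x] 0 := by
  filter_upwards [hC.isClosed.isOpen_compl.mem_nhds hx] with y hy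
  exact h0 y hy



section meas

variable [T2Space M] [Countable A.ι] [MeasurableSpace M] [BorelSpace M]

theorem integrable_cs {E : Type*} [NormedAddCommGroup E] (h : HM (KB A)⁻¹) {f : M → E}
    (hf : Continuous f) {C : Set M} (hC : IsCompact C) (h0 : ∀ x ∉ C, f x = 0) :
    Integrable f (vm h) := by
  have := isLocallyFinite_vm h
  exact hf.integrable_of_hasCompactSupport (HasCompactSupport.intro hC h0)

/-- the global formula with a partition of unity, compact support -/
theorem integral_F (h : HM (KB A)⁻¹) (P : Part A) {C : Set M} (hC : IsCompact C)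
    {F : Finset A.ι} (hF : Fn P hC ⊆ F) {f : M → ℂ} (hf : Continuous f) (h0 : ∀ x ∉ C, f x = 0) :
    ∫ x, f x ∂(vm h) = ∑ i ∈ F, lint A i (fun x => (P.ψ i x : ℂ) * ((h.w i x : ℂ) * f x)) := by
  have hint : ∀ i, Integrable (fun x => (P.ψ i x : ℂ) * f x) (vm h) := by
    intro i
    refine integrable_cs h ?_ hC fun x hx => by rw [h0 x hx, mul_zero]
    exact (Complex.continuous_ofReal.comp (sm_continuous (P.ψ_sm i))).mul hf
  have h1 : (fun x => f x) = fun x => ∑ i ∈ F, (P.ψ i x : ℂ) * f x := by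
    funext x
    by_cases hx : x ∈ C
    · rw [← Finset.sum_mul]
      have h2 : ∑ i ∈ F, (P.ψ i x : ℂ) = 1 := by
        rw [← Complex.ofReal_sum, sum_psi P hC hF hx, Complex.ofReal_one]
      rw [h2, one_mul]
    · simp [h0 x hx]
  calc ∫ x, f x ∂(vm h) = ∫ x, ∑ i ∈ F, (P.ψ i x : ℂ) * f x ∂(vm h) := by rw [← h1]
    _ = ∑ i ∈ F, ∫ x, (P.ψ i x : ℂ) * f x ∂(vm h) := integral_finsetSum _ fun i _ => hint i
    _ = _ := by
      refine Finset.sum_congr rfl fun i _ => ?_
      have h3 : ∫ x, (P.ψ i x : ℂ) * f x ∂(vm h) =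
          ∫ x in (A.e i).source, (P.ψ i x : ℂ) * f x ∂(vm h) := by
        symm
        refine setIntegral_eq_integral_of_forall_compl_eq_zero fun x hx => ?_
        rw [psi_off P hx, Complex.ofReal_zero, zero_mul]
      rw [h3, setIntegral_vm h i (hint i).aestronglyMeasurable]
      unfold Crest.Agent.R275.SerG398.lint
      symm
      rw [← setIntegral_eq_integral_of_forall_compl_eq_zero (s := Ui A i)
        (fun y hy => rd_off hy)]
      refine setIntegral_congr_fun (Vm_333.isOpen_Ui i).measurableSet fun y hy => ?_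
      rw [rd_of_mem hy]
      change (P.ψ i (sg A i y) : ℂ) * ((h.w i (sg A i y) : ℂ) * f (sg A i y)) =
        (h.w i (sg A i y)) • ((P.ψ i (sg A i y) : ℂ) * f (sg A i y))
      rw [Complex.real_smul]
      ring

/-- the integral of a density with compact support -/
theorem integral_fnD_cs (K : Kah A) (P : Part A) {f : A.ι → M → ℂ} (hf : Dn A f)
    (hs : ∀ i, A.SmAt i (f i)) {C : Set M} (hC : IsCompact C) {F : Finset A.ι} (hF : Fn P hC ⊆ F)
    (h0 : ∀ i, ∀ x ∈ (A.e i).source, x ∉ C → f i x = 0) :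
    ∫ x, fnD K f x ∂(vm (volK K)) = tot P F f := by
  have hc : Continuous (fnD K f) := cont_sm (sm_fnD K hf hs)
  rw [integral_F (volK K) P hC hF hc fun x hx => ?_]
  · refine Finset.sum_congr rfl fun i _ => lint_congr fun x hx => ?_
    have hd : (K.g i x).det ≠ 0 := (K.pos i x hx).det_pos.ne'
    show (P.ψ i x : ℂ) * (((volK K).w i x : ℂ) * fnD K f x) = (P.ψ i x : ℂ) * f i x
    rw [volK_w K i hx, fnD_div K hf hx, mul_div_cancel₀ _ hd]
  · have hx' := mem_ch A x
    rw [fnD_div K hf hx', h0 _ x hx' hx, zero_div]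

theorem integral_fnD_cs_re (K : Kah A) (P : Part A) {f : A.ι → M → ℂ} (hf : Dn A f)
    (hs : ∀ i, A.SmAt i (f i)) {C : Set M} (hC : IsCompact C) {F : Finset A.ι} (hF : Fn P hC ⊆ F)
    (h0 : ∀ i, ∀ x ∈ (A.e i).source, x ∉ C → f i x = 0) :
    ∫ x, (fnD K f x).re ∂(vm (volK K)) = (tot P F f).re := by
  rw [← integral_fnD_cs K P hf hs hC hF h0]
  have hc : Continuous (fnD K f) := cont_sm (sm_fnD K hf hs)
  have h := integrable_cs (volK K) hc hC fun x hx => by
    have hx' := mem_ch A x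
    rw [fnD_div K hf hx', h0 _ x hx' hx, zero_div]
  exact integral_re h

/-- **Green's formula**, compact support -/
theorem int_Gb_cs (P : Part A) (K : Kah A) {u v : M → ℝ} (hu : A.Sm u) (hv : A.Sm v)
    {C : Set M} (hC : IsCompact C) (h0 : ∀ x ∉ C, u x = 0) :
    ∫ x, Gb K u v x ∂(vm (volK K)) = - ∫ x, u x * Lap K v x ∂(vm (volK K)) := by
  set F := Fn P hC with hFd
  have hF : Fn P hC ⊆ F := Finset.Subset.refl _
  have h0c : ∀ x ∉ C, (u x : ℂ) = 0 := fun x hx => by rw [h0 x hx]; simp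
  have h1 : ∫ x, Gb K u v x ∂(vm (volK K)) =
      (tot P F (grd K.g (fun y => (u y : ℂ)) (fun y => (v y : ℂ)))).re := by
    refine integral_fnD_cs_re K P (grdK_dn K hu hv)
      (GreenG_5.smAt_grd (kah_cf K) (sc hu) (sc hv)) hC hF fun i x hx hxC => ?_
    refine Finset.sum_eq_zero fun a _ => Finset.sum_eq_zero fun b _ => ?_
    rw [dl_zero_of hx (ev_zero (u := fun y => (u y : ℂ)) hC h0c hxC) a, mul_zero, zero_mul]
  have hD : Dn A (fun i x => (u x : ℂ) * ((K.g i x).adjugate * hsf A v i x).trace) := by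
    have h0 := trA_dn (CF.tn (kah_cf K)) (CF.tn (hsf_cf hv))
    intro i j x hx
    have h2 := h0 i j x hx
    show (u x : ℂ) * ((K.g i x).adjugate * hsf A v i x).trace =
      dens A i j x * ((u x : ℂ) * ((K.g j x).adjugate * hsf A v j x).trace)
    have h3 : ((K.g i x).adjugate * hsf A v i x).trace =
      dens A i j x * ((K.g j x).adjugate * hsf A v j x).trace := h2
    rw [h3]; ring
  have h2 : ∫ x, u x * Lap K v x ∂(vm (volK K)) =
      (tot P F (fun i x => (u x : ℂ) * ((K.g i x).adjugate * hsf A v i x).trace)).re := by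
    rw [← integral_fnD_cs_re K P hD (fun i => (sc hu i).mul (smAt_trA (kah_cf K) (hsf_cf hv) i))
      hC hF fun i x hx hxC => by rw [h0c x hxC, zero_mul]]
    refine integral_congr_ae (Eventually.of_forall fun x => ?_)
    have hx := mem_ch A x
    show u x * Lap K v x = (fnD K _ x).re
    rw [fnD_div K hD hx, Lap_read K hv hx, ← trC_det' K (hsf A v) hx, mul_div_assoc,
      mul_div_cancel_left₀ _ (K.pos _ x hx).det_pos.ne', Complex.re_ofReal_mul]
  have h3 := green P (kah_cf K) (φ := fun y => (u y : ℂ)) (u := fun y => (v y : ℂ)) (sc hu) (sc hv)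
    hC hF h0c
  have h4 : tot P F (fun i x => (u x : ℂ) * ((K.g i x).adjugate *
      hm A (fun y => (v y : ℂ)) i x).trace) =
      tot P F (fun i x => (u x : ℂ) * ((K.g i x).adjugate * hsf A v i x).trace) := by
    refine tot_congr P F fun i _ x hx => ?_
    rw [hm_ofReal v i hx]
  rw [h4] at h3
  rw [h1, h2, h3, Complex.neg_re, neg_neg]
  rfl


end meas

end

end Crest.Agent.R281.Har_331
end

-- ▼ part R281/OmH2_331
section

/-!
# R281 (S0424), leaf OM-HAR (helper331), part 2: from test functions vanishing near `-∞` to `Har`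

`Har0` : the calculus for `ψ(ρ)`, `ψ = 0` near `-∞`, on a finite measure space.
* `Har0.int_zero` : `∫ Φ = 0` (`Φ = Lap φ`)
* `Har0.har`      : `∫ Q = 0` implies `Har`.
-/

set_option autoImplicit false

open MeasureTheory Set Filter Topology
open scoped ContDiff

namespace Crest.Agent.R281.Har_331

noncomputable section

theorem dstp_zero_right {a s : ℝ} (h : a + 1 < s) : dstp a s = 0 := by
  have h1 : stp a =ᶠ[𝓝 s] fun _ => 1 := by
    filter_upwards [lt_mem_nhds h] with t ht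
    exact stp_one ht.le
  rw [← (hasDerivAt_stp a s).deriv, h1.deriv_eq, deriv_const]

theorem dstp_zero_left {a s : ℝ} (h : s < a) : dstp a s = 0 := by
  have h1 : stp a =ᶠ[𝓝 s] fun _ => 0 := by
    filter_upwards [gt_mem_nhds h] with t ht
    exact stp_zero ht.le
  rw [← (hasDerivAt_stp a s).deriv, h1.deriv_eq, deriv_const]

theorem dstp_bound : ∃ c : ℝ, ∀ a s, dstp a s ≤ c := by
  obtain ⟨c, hc⟩ := (isCompact_Icc (a := (0 : ℝ)) (b := 1)).exists_bound_of_continuousOn
    (continuous_dstp 0).continuousOn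
  have hc0 : 0 ≤ c := (norm_nonneg _).trans (hc 0 ⟨le_rfl, zero_le_one⟩)
  refine ⟨c, fun a s => ?_⟩
  have e : dstp a s = dstp 0 (s - a) := by unfold dstp; rw [sub_zero]
  by_cases h1 : s < a
  · rw [dstp_zero_left h1]; exact hc0
  · by_cases h2 : a + 1 < s
    · rw [dstp_zero_right h2]; exact hc0
    · rw [e]
      exact (le_abs_self _).trans (hc _ ⟨by linarith, by linarith⟩)

variable {T : Type*} [MeasurableSpace T] {μ : Measure T} {ρ G Q Φ W : T → ℝ} {k D : ℝ}

/-- calculus with test functions which vanish near `-∞` -/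
structure Har0 (μ : Measure T) (ρ G Q Φ W : T → ℝ) (k D : ℝ) : Prop where
  k0 : 0 ≤ k
  mρ : Measurable ρ
  mW : Measurable W
  G0 : ∀ x, 0 ≤ G x
  iG : ∀ f : ℝ → ℝ, Continuous f → (∃ a, ∀ s ≤ a, f s = 0) →
    Integrable (fun x => f (ρ x) * G x) μ
  iQ : Integrable Q μ
  iΦ : Integrable Φ μ
  hW : ∀ x, W x ^ 2 ≤ D ^ 2 * G x
  A0 : ∀ ψ ψ' : ℝ → ℝ, ContDiff ℝ ∞ ψ → (∀ s, HasDerivAt ψ (ψ' s) s) → (∃ a, ∀ s ≤ a, ψ s = 0) →
    ∫ x, ψ' (ρ x) * G x ∂μ = k * ∫ x, ψ (ρ x) * Q x ∂μ
  B0 : ∀ ψ ψ' : ℝ → ℝ, ContDiff ℝ ∞ ψ → (∀ s, HasDerivAt ψ (ψ' s) s) → (∃ a, ∀ s ≤ a, ψ s = 0) →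
    ∫ x, ψ (ρ x) * Φ x ∂μ = - ∫ x, ψ' (ρ x) * W x ∂μ

theorem stp_left (a : ℝ) : ∃ b, ∀ s ≤ b, stp a s = 0 := ⟨a, fun _ h => stp_zero h⟩

theorem Har0.iD (H : Har0 μ ρ G Q Φ W k D) (a : ℝ) :
    Integrable (fun x => dstp a (ρ x) * G x) μ :=
  H.iG _ (continuous_dstp a) ⟨a - 1, fun s hs => dstp_zero_left (by linarith)⟩

theorem Har0.energy [IsFiniteMeasure μ] (H : Har0 μ ρ G Q Φ W k D) (a : ℝ) :
    ∫ x, dstp a (ρ x) * G x ∂μ ≤ k * ∫ x, |Q x| ∂μ := by
  rw [H.A0 _ _ (contDiff_stp a) (hasDerivAt_stp a) (stp_left a)]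
  refine mul_le_mul_of_nonneg_left ?_ H.k0
  refine integral_mono (integrable_comp_mul (C := 1) H.mρ (contDiff_stp a).continuous
    (fun s => ?_) H.iQ) H.iQ.abs fun x => ?_
  · rw [abs_of_nonneg (stp_nonneg a s)]; exact stp_le_one a s
  · have h1 := stp_nonneg a (ρ x)
    have h2 := stp_le_one a (ρ x)
    show stp a (ρ x) * Q x ≤ |Q x|
    calc stp a (ρ x) * Q x ≤ stp a (ρ x) * |Q x| :=
          mul_le_mul_of_nonneg_left (le_abs_self _) h1
      _ ≤ 1 * |Q x| := mul_le_mul_of_nonneg_right h2 (abs_nonneg _)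
      _ = _ := one_mul _

/-- `∫ Lap φ = 0` -/
theorem Har0.int_zero [IsFiniteMeasure μ] (H : Har0 μ ρ G Q Φ W k D) : ∫ x, Φ x ∂μ = 0 := by
  obtain ⟨c, hc⟩ := dstp_bound
  set E := k * ∫ x, |Q x| ∂μ with hE
  have hE0 : 0 ≤ E := mul_nonneg H.k0 (integral_nonneg fun _ => abs_nonneg _)
  -- the limit of the left side
  have L1 : Tendsto (fun N : ℕ => ∫ x, stp (-(N : ℝ)) (ρ x) * Φ x ∂μ) atTop
      (𝓝 (∫ x, Φ x ∂μ)) := by
    refine tendsto_integral_of_dominated_convergence (fun x => |Φ x|) (fun N => ?_) H.iΦ.abs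
      (fun N => Eventually.of_forall fun x => ?_) (Eventually.of_forall fun x => ?_)
    · exact ((contDiff_stp _).continuous.measurable.comp H.mρ).aestronglyMeasurable.mul
        H.iΦ.aestronglyMeasurable
    · rw [Real.norm_eq_abs, abs_mul, abs_of_nonneg (stp_nonneg _ _)]
      exact mul_le_of_le_one_left (abs_nonneg _) (stp_le_one _ _)
    · obtain ⟨N0, hN0⟩ := exists_nat_ge (1 - ρ x)
      refine tendsto_const_nhds.congr' ?_
      filter_upwards [eventually_ge_atTop N0] with N hN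
      have : (N0 : ℝ) ≤ N := by exact_mod_cast hN
      rw [stp_one (by linarith), one_mul]
  have L2 : Tendsto (fun N : ℕ => ∫ x, dstp (-(N : ℝ)) (ρ x) ∂μ) atTop (𝓝 0) := by
    have h0 : ∫ _x : T, (0 : ℝ) ∂μ = 0 := by simp
    rw [← h0]
    refine tendsto_integral_of_dominated_convergence (fun _ => c) (fun N => ?_)
      (integrable_const _) (fun N => Eventually.of_forall fun x => ?_)
      (Eventually.of_forall fun x => ?_)
    · exact ((continuous_dstp _).measurable.comp H.mρ).aestronglyMeasurable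
    · rw [Real.norm_eq_abs, abs_of_nonneg (dstp_nonneg _ _)]
      exact hc _ _
    · obtain ⟨N0, hN0⟩ := exists_nat_gt (1 - ρ x)
      refine tendsto_const_nhds.congr' ?_
      filter_upwards [eventually_ge_atTop N0] with N hN
      have : (N0 : ℝ) ≤ N := by exact_mod_cast hN
      exact (dstp_zero_right (by linarith)).symm
  -- the bound
  have bd : ∀ t : ℝ, 0 < t → ∀ N : ℕ, |∫ x, stp (-(N : ℝ)) (ρ x) * Φ x ∂μ| ≤
      t / 2 * (D ^ 2 * E) + 1 / (2 * t) * ∫ x, dstp (-(N : ℝ)) (ρ x) ∂μ := by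
    intro t ht N
    have iG := H.iD (-(N : ℝ))
    have i1 : Integrable (fun x => dstp (-(N : ℝ)) (ρ x)) μ := by
      have := integrable_comp_mul (μ := μ) H.mρ (continuous_dstp (-(N : ℝ))) (C := c)
        (fun s => by rw [abs_of_nonneg (dstp_nonneg _ _)]; exact hc _ _)
        (integrable_const (1 : ℝ))
      simpa using this
    have hpt : ∀ x, |dstp (-(N : ℝ)) (ρ x) * W x| ≤
        t / 2 * D ^ 2 * (dstp (-(N : ℝ)) (ρ x) * G x) + 1 / (2 * t) * dstp (-(N : ℝ)) (ρ x) := by
      intro x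
      have h1 := dstp_nonneg (-(N : ℝ)) (ρ x)
      have h3 := H.hW x
      rw [abs_mul, abs_of_nonneg h1]
      have h4 : |W x| ≤ t / 2 * D ^ 2 * G x + 1 / (2 * t) := by
        have h5 : 2 * |W x| ≤ t * W x ^ 2 + 1 / t := by
          have h6 : 0 ≤ (t * |W x| - 1) ^ 2 / t := by positivity
          have h7 : (t * |W x| - 1) ^ 2 / t = t * W x ^ 2 + 1 / t - 2 * |W x| := by
            rw [← sq_abs (W x)]; field_simp; ring
          linarith
        have h8 : t * W x ^ 2 ≤ t * (D ^ 2 * G x) := mul_le_mul_of_nonneg_left h3 ht.le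
        have h9 : 1 / (2 * t) = 1 / t / 2 := by field_simp
        rw [h9]; linarith
      calc dstp (-(N : ℝ)) (ρ x) * |W x| ≤
            dstp (-(N : ℝ)) (ρ x) * (t / 2 * D ^ 2 * G x + 1 / (2 * t)) :=
            mul_le_mul_of_nonneg_left h4 h1
        _ = _ := by ring
    have iR := (iG.const_mul (t / 2 * D ^ 2)).add (i1.const_mul (1 / (2 * t)))
    rw [H.B0 _ _ (contDiff_stp _) (hasDerivAt_stp _) (stp_left _), abs_neg]
    calc |∫ x, dstp (-(N : ℝ)) (ρ x) * W x ∂μ| ≤ ∫ x, |dstp (-(N : ℝ)) (ρ x) * W x| ∂μ :=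
          abs_integral_le_integral_abs
      _ ≤ ∫ x, (t / 2 * D ^ 2 * (dstp (-(N : ℝ)) (ρ x) * G x) +
            1 / (2 * t) * dstp (-(N : ℝ)) (ρ x)) ∂μ := by
          refine integral_mono_of_nonneg (Eventually.of_forall fun _ => abs_nonneg _) iR
            (Eventually.of_forall hpt)
      _ = t / 2 * D ^ 2 * ∫ x, dstp (-(N : ℝ)) (ρ x) * G x ∂μ +
            1 / (2 * t) * ∫ x, dstp (-(N : ℝ)) (ρ x) ∂μ := by
          rw [integral_add (iG.const_mul _) (i1.const_mul _), integral_const_mul,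
            integral_const_mul]
      _ ≤ t / 2 * D ^ 2 * E + 1 / (2 * t) * ∫ x, dstp (-(N : ℝ)) (ρ x) ∂μ := by
          have := mul_le_mul_of_nonneg_left (H.energy (-(N : ℝ)))
            (by positivity : 0 ≤ t / 2 * D ^ 2)
          linarith
      _ = _ := by ring
  have key : ∀ t : ℝ, 0 < t → |∫ x, Φ x ∂μ| ≤ t / 2 * (D ^ 2 * E) := by
    intro t ht
    have h1 := L1.abs
    have h2 : Tendsto (fun N : ℕ => t / 2 * (D ^ 2 * E) +
        1 / (2 * t) * ∫ x, dstp (-(N : ℝ)) (ρ x) ∂μ) atTop (𝓝 (t / 2 * (D ^ 2 * E))) := by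
      have := (L2.const_mul (1 / (2 * t))).const_add (t / 2 * (D ^ 2 * E))
      simpa using this
    exact le_of_tendsto_of_tendsto' h1 h2 (bd t ht)
  have h3 : |∫ x, Φ x ∂μ| ≤ 0 := by
    refine le_of_forall_pos_le_add fun ε hε => ?_
    have hF : 0 ≤ D ^ 2 * E := by positivity
    have h4 := key (2 * ε / (D ^ 2 * E + 1)) (by positivity)
    refine h4.trans ?_
    have h5 : 2 * ε / (D ^ 2 * E + 1) / 2 * (D ^ 2 * E) = ε * ((D ^ 2 * E) / (D ^ 2 * E + 1)) := by
      field_simp
    rw [h5, zero_add]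
    have h6 : (D ^ 2 * E) / (D ^ 2 * E + 1) ≤ 1 := by
      rw [div_le_one (by positivity)]; linarith
    exact mul_le_of_le_one_right hε.le h6
  exact abs_eq_zero.1 (le_antisymm h3 (abs_nonneg _))

/-- a function with compactly supported derivative is bounded and constant near `-∞` -/
theorem prim_facts {ψ ψ' : ℝ → ℝ} (hψ : ContDiff ℝ ∞ ψ) (h1 : ∀ s, HasDerivAt ψ (ψ' s) s)
    (hc : HasCompactSupport ψ') : (∃ C, ∀ s, |ψ s| ≤ C) ∧ ∃ a c, ∀ s ≤ a, ψ s = c := by
  have cψ' : Continuous ψ' := by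
    have : deriv ψ = ψ' := funext fun t => (h1 t).deriv
    rw [← this]; exact hψ.continuous_deriv (by simp)
  have ftc : ∀ s t, ∫ x in s..t, ψ' x = ψ t - ψ s := fun s t =>
    intervalIntegral.integral_eq_sub_of_hasDerivAt (fun x _ => h1 x) (cψ'.intervalIntegrable _ _)
  have iψ' : Integrable ψ' := cψ'.integrable_of_hasCompactSupport hc
  refine ⟨⟨|ψ 0| + ∫ x, |ψ' x|, fun s => ?_⟩, ?_⟩
  · have h2 := ftc 0 s
    have h3 : |∫ x in (0:ℝ)..s, ψ' x| ≤ ∫ x, |ψ' x| := by
      have h5 := intervalIntegral.norm_integral_le_integral_norm_uIoc (f := ψ') (a := 0) (b := s)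
        (μ := volume)
      exact h5.trans
        (setIntegral_le_integral iψ'.norm (Eventually.of_forall fun _ => norm_nonneg _))
    rw [h2] at h3
    have h4 := abs_add_le (ψ s - ψ 0) (ψ 0)
    rw [sub_add_cancel] at h4
    linarith
  · obtain ⟨R, hR⟩ := hc.isCompact.isBounded.subset_closedBall 0
    refine ⟨-R - 1, ψ (-R - 1), fun s hs => ?_⟩
    have h2 := ftc s (-R - 1)
    rw [intervalIntegral.integral_congr (g := fun _ => (0 : ℝ))] at h2
    · simp only [intervalIntegral.integral_zero] at h2; linarith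
    · intro x hx
      rw [uIcc_of_le hs] at hx
      by_contra hne
      have h3 := hR (subset_tsupport _ (Function.mem_support.2 hne))
      rw [mem_closedBall_zero_iff, Real.norm_eq_abs] at h3
      have h4 := abs_le.1 h3
      linarith [hx.2]

/-- **from `Har0` to `Har`** -/
theorem Har0.har [IsFiniteMeasure μ] (H : Har0 μ ρ G Q Φ W k D) (hQ : ∫ x, Q x ∂μ = 0) {e : ℝ}
    (e0 : 0 ≤ e) (hle : ∀ x, -e ≤ Q x + Φ x) :
    Har μ ρ G Q (fun x => Q x + Φ x) W k e D where
  k0 := H.k0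
  e0 := e0
  mρ := H.mρ
  mW := H.mW
  G0 := H.G0
  iG f hf hc := by
    refine H.iG f hf ?_
    obtain ⟨R, hR⟩ := hc.isCompact.isBounded.subset_closedBall 0
    refine ⟨-R - 1, fun s hs => ?_⟩
    by_contra hne
    have h3 := hR (subset_tsupport _ (Function.mem_support.2 hne))
    rw [mem_closedBall_zero_iff, Real.norm_eq_abs] at h3
    have h4 := abs_le.1 h3
    linarith
  iQ := H.iQ
  iQe := H.iQ.add H.iΦ
  hW := H.hW
  lQe := hle
  A ψ ψ' hψ h1 hc := by
    obtain ⟨⟨C, hC⟩, a, c, hac⟩ := prim_facts hψ h1 hc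
    have h2 := H.A0 (fun s => ψ s - c) ψ' (hψ.sub contDiff_const) (fun s => (h1 s).sub_const c)
      ⟨a, fun s hs => by rw [hac s hs, sub_self]⟩
    rw [h2]
    have i1 := integrable_comp_mul H.mρ hψ.continuous hC H.iQ
    have e1 : ∫ x, (ψ (ρ x) - c) * Q x ∂μ = ∫ x, (ψ (ρ x) * Q x - c * Q x) ∂μ :=
      integral_congr_ae (Eventually.of_forall fun x => by ring)
    rw [e1, integral_sub i1 (H.iQ.const_mul c), integral_const_mul, hQ, mul_zero, sub_zero]
  B ψ ψ' hψ h1 hc := by
    obtain ⟨⟨C, hC⟩, a, c, hac⟩ := prim_facts hψ h1 hc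
    have h2 := H.B0 (fun s => ψ s - c) ψ' (hψ.sub contDiff_const) (fun s => (h1 s).sub_const c)
      ⟨a, fun s hs => by rw [hac s hs, sub_self]⟩
    rw [← h2]
    have i1 := integrable_comp_mul H.mρ hψ.continuous hC H.iΦ
    have e1 : ∫ x, (ψ (ρ x) - c) * Φ x ∂μ = ∫ x, (ψ (ρ x) * Φ x - c * Φ x) ∂μ :=
      integral_congr_ae (Eventually.of_forall fun x => by ring)
    rw [e1, integral_sub i1 (H.iΦ.const_mul c), integral_const_mul, H.int_zero, mul_zero, sub_zero]
    refine integral_congr_ae (Eventually.of_forall fun x => ?_)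
    show ψ (ρ x) * (Q x + Φ x - Q x) = ψ (ρ x) * Φ x
    ring

end

end Crest.Agent.R281.Har_331
end

-- ▼ part R281/OmH3_331
section

/-!
# R281 (S0424), leaf OM-HAR (helper331), part 3: a leaf of finite volume

* `dom_near` (copied from helper986, D6c), `exists_dom` : `B K ≥ S` on compact `M`
* `trT` : trace of the pulled back `(1,1)`-form; bounds
* `har0_leaf` : the structure `Har0` on a leaf `T` with `{a ≤ ρ}` compact and finite volume.
-/

set_option autoImplicit false
set_option linter.unusedSectionVars false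

open Set Filter Topology Complex MeasureTheory Function
open scoped ContDiff Matrix ComplexConjugate ComplexOrder

namespace Crest.Agent.R281.Har_331

open Crest.Agent.R275 Crest.Agent.R275.Geo Crest.Agent.R275.Core144 Crest.Agent.R275.EDR890
open Crest.Agent.R273.Defs_333 Crest.Agent.R273.Hess_333 Crest.Agent.R273.HessB_333
open Crest.Agent.R273.HM_333 Crest.Agent.R273.Kah_333 Crest.Agent.R273.Vol_333
open Crest.Agent.R273.Vm_333 Crest.Agent.R273.Map_835 Crest.Agent.R273.KahI_645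
open Crest.Agent.R273.Green_5 Crest.Agent.R273.FIa0_597 Crest.Agent.R273.FIb0_597
open Crest.Agent.R273.FIc0_597 Crest.Agent.R273
open Crest.Agent.R273.SchI_152 (Dg sm_sq Dg_nonneg continuous_Dg)
open Crest.Agent.R281.Glob1_484 Crest.Agent.R281.S6D_664 Crest.Agent.R281.Defs_273

noncomputable section

section Mat

variable {N : ℕ}

theorem psd_congr {J H : Matrix (Fin N) (Fin N) ℂ} (h : H.PosSemidef) :
    (Jᵀ * H * J.map conj).PosSemidef := by
  have h1 := h.conjTranspose_mul_mul_same (J.map conj)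
  have h2 : (J.map conj)ᴴ = Jᵀ := by
    ext a b
    simp [Matrix.conjTranspose_apply]
  rwa [h2] at h1

/-- the real part of the Hermitian form -/
def hfm (H : Matrix (Fin N) (Fin N) ℂ) (v : Fin N → ℂ) : ℝ := (star v ⬝ᵥ (H *ᵥ v)).re

theorem continuous_hfm : Continuous fun p : Matrix (Fin N) (Fin N) ℂ × (Fin N → ℂ) =>
    hfm p.1 p.2 := by
  unfold hfm
  fun_prop

theorem hfm_smul (H : Matrix (Fin N) (Fin N) ℂ) (c : ℝ) (v : Fin N → ℂ) :
    hfm H ((c : ℂ) • v) = c ^ 2 * hfm H v := by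
  simp only [hfm, star_smul, Matrix.mulVec_smul, dotProduct_smul, smul_dotProduct, smul_eq_mul]
  have h1 : star (c : ℂ) = c := Complex.conj_ofReal c
  rw [h1, ← mul_assoc, ← ofReal_mul, re_ofReal_mul]
  ring

theorem hfm_sub (B : ℝ) (H H' : Matrix (Fin N) (Fin N) ℂ) (v : Fin N → ℂ) :
    hfm ((B : ℂ) • H - H') v = B * hfm H v - hfm H' v := by
  simp only [hfm, Matrix.sub_mulVec, Matrix.smul_mulVec, dotProduct_sub, dotProduct_smul,
    smul_eq_mul, sub_re, re_ofReal_mul]

theorem psd_of_hfm {H : Matrix (Fin N) (Fin N) ℂ} (hH : H.IsHermitian)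
    (h : ∀ v ∈ Metric.sphere (0 : Fin N → ℂ) 1, 0 ≤ hfm H v) : H.PosSemidef := by
  refine Matrix.PosSemidef.of_dotProduct_mulVec_nonneg hH fun v => ?_
  rw [Complex.le_def]
  refine ⟨?_, ?_⟩
  · show (0 : ℝ) ≤ hfm _ v
    rcases eq_or_ne v 0 with rfl | hv
    · simp [hfm]
    · have hn : 0 < ‖v‖ := norm_pos_iff.2 hv
      have hv1 : (((‖v‖⁻¹ : ℝ) : ℂ)) • v ∈ Metric.sphere (0 : Fin N → ℂ) 1 := by
        rw [mem_sphere_zero_iff_norm, norm_smul, Complex.norm_real, Real.norm_eq_abs,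
          abs_of_pos (inv_pos.2 hn), inv_mul_cancel₀ hn.ne']
      have h2 := h _ hv1
      rw [hfm_smul] at h2
      have h3 : 0 < ‖v‖⁻¹ ^ 2 := by positivity
      exact nonneg_of_mul_nonneg_right h2 h3
  · have := hH.im_star_dotProduct_mulVec_self v
    simpa using this.symm

theorem dom_near {X : Type*} [TopologicalSpace X] {x0 : X}
    {K G : X → Matrix (Fin N) (Fin N) ℂ} (hK : ContinuousAt K x0) (hG : ContinuousAt G x0)
    (hKh : ∀ᶠ x in 𝓝 x0, (K x).IsHermitian) (hGh : ∀ᶠ x in 𝓝 x0, (G x).IsHermitian)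
    (hp : (K x0).PosDef) :
    ∃ B : ℝ, 0 < B ∧ ∀ᶠ x in 𝓝 x0, ((B : ℂ) • K x - G x).PosSemidef := by
  have hS : IsCompact (Metric.sphere (0 : Fin N → ℂ) 1) := isCompact_sphere _ _
  have hpos : ∀ v ∈ Metric.sphere (0 : Fin N → ℂ) 1, 0 < hfm (K x0) v := by
    intro v hv
    have hv0 : v ≠ 0 := by
      rintro rfl
      simp at hv
    exact hp.re_dotProduct_pos hv0
  have hc1 : ∀ H : Matrix (Fin N) (Fin N) ℂ, Continuous fun v => hfm H v := fun H =>
    continuous_hfm.comp (continuous_const.prodMk continuous_id)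
  obtain ⟨C, hC⟩ := hS.exists_bound_of_continuousOn
    (f := fun v => hfm (G x0) v / hfm (K x0) v)
    ((hc1 _).continuousOn.div (hc1 _).continuousOn fun v hv => (hpos v hv).ne')
  have hB : 0 < |C| + 1 := by positivity
  refine ⟨|C| + 1, hB, ?_⟩
  have h1 : ∀ᶠ x in 𝓝 x0, ∀ v ∈ Metric.sphere (0 : Fin N → ℂ) 1,
      0 < (|C| + 1) * hfm (K x) v - hfm (G x) v := by
    refine hS.eventually_forall_of_forall_eventually
      (P := fun x v => 0 < (|C| + 1) * hfm (K x) v - hfm (G x) v) fun v hv => ?_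
    have hK' : ContinuousAt (fun p : X × (Fin N → ℂ) => hfm (K p.1) p.2) (x0, v) :=
      ContinuousAt.comp (f := fun p : X × (Fin N → ℂ) => (K p.1, p.2))
        (g := fun q : Matrix (Fin N) (Fin N) ℂ × (Fin N → ℂ) => hfm q.1 q.2)
        continuous_hfm.continuousAt
        ((hK.comp (x := (x0, v)) continuousAt_fst).prodMk continuousAt_snd)
    have hG' : ContinuousAt (fun p : X × (Fin N → ℂ) => hfm (G p.1) p.2) (x0, v) :=
      ContinuousAt.comp (f := fun p : X × (Fin N → ℂ) => (G p.1, p.2))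
        (g := fun q : Matrix (Fin N) (Fin N) ℂ × (Fin N → ℂ) => hfm q.1 q.2)
        continuous_hfm.continuousAt
        ((hG.comp (x := (x0, v)) continuousAt_fst).prodMk continuousAt_snd)
    have h2 := (hK'.const_mul (|C| + 1)).sub hG'
    have h3 := hpos v hv
    have h4 := hC v hv
    rw [Real.norm_eq_abs, abs_div, abs_of_pos h3, div_le_iff₀ h3] at h4
    have h5 := le_abs_self (hfm (G x0) v)
    have h6 := mul_le_mul_of_nonneg_right (le_abs_self C) h3.le
    have h7 : 0 < (|C| + 1) * hfm (K x0) v - hfm (G x0) v := by linarith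
    exact h2.eventually (lt_mem_nhds h7)
  filter_upwards [h1, hKh, hGh] with x hx hxK hxG
  have hH : ((((|C| + 1 : ℝ) : ℂ)) • K x - G x).IsHermitian := by
    refine Matrix.IsHermitian.sub ?_ hxG
    unfold Matrix.IsHermitian at hxK ⊢
    rw [Matrix.conjTranspose_smul, hxK]
    congr 1
    exact Complex.conj_ofReal _
  refine psd_of_hfm hH fun v hv => ?_
  rw [hfm_sub]
  exact (hx v hv).le

end Mat

section Dom

variable {N : ℕ} {M : Type} [TopologicalSpace M] {A : Atl N M}

theorem contAt_of_chart {f : M → ℂ} {i : A.ι} {x : M} (hx : x ∈ (A.e i).source)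
    (hf : ContinuousOn (fun z => f ((A.e i).symm z)) (A.e i).target) : ContinuousAt f x := by
  have h1 : ContinuousAt (fun z => f ((A.e i).symm z)) (A.e i x) :=
    hf.continuousAt ((A.e i).open_target.mem_nhds ((A.e i).map_source hx))
  have h2 : ContinuousAt (fun y => f ((A.e i).symm (A.e i y))) x :=
    h1.comp (f := A.e i) (x := x) ((A.e i).continuousAt hx)
  refine h2.congr ?_
  filter_upwards [(A.e i).open_source.mem_nhds hx] with y hy
  rw [(A.e i).left_inv hy]

theorem contAt_field {S : A.ι → M → Matrix (Fin N) (Fin N) ℂ} (hS : TF A S) {i : A.ι} {x : M}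
    (hx : x ∈ (A.e i).source) : ContinuousAt (fun y => S i y) x := by
  refine continuousAt_pi.2 fun a => continuousAt_pi.2 fun b => ?_
  exact contAt_of_chart (f := fun y => S i y a b) hx (hS.sm i a b).continuousOn

/-- `B K ≥ S` on compact `M` -/
theorem exists_dom [CompactSpace M] (K : Kah A) {S : A.ι → M → Matrix (Fin N) (Fin N) ℂ}
    (hS : TF A S) (hH : ∀ i, ∀ x ∈ (A.e i).source, (S i x).IsHermitian) :
    ∃ B : ℝ, 0 < B ∧ ∀ i, ∀ x ∈ (A.e i).source, ((B : ℂ) • K.g i x - S i x).PosSemidef := by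
  have hind : ∀ (B : ℝ) (i j : A.ι) (x : M), x ∈ (A.e i).source ∩ (A.e j).source →
      ((B : ℂ) • K.g j x - S j x).PosSemidef → ((B : ℂ) • K.g i x - S i x).PosSemidef := by
    intro B i j x hx h
    have h1 := psd_congr (J := Jm A i j x) h
    have h2 : (Jm A i j x)ᵀ * ((B : ℂ) • K.g j x - S j x) * (Jm A i j x).map conj =
        (B : ℂ) • K.g i x - S i x := by
      rw [Matrix.mul_sub, Matrix.sub_mul, Matrix.mul_smul, Matrix.smul_mul, ← K.tr i j x hx,
        ← hS.tr i j x hx]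
    rwa [h2] at h1
  have hmono : ∀ (B B' : ℝ), B ≤ B' → ∀ i, ∀ x ∈ (A.e i).source,
      ((B : ℂ) • K.g i x - S i x).PosSemidef → ((B' : ℂ) • K.g i x - S i x).PosSemidef := by
    intro B B' hBB i x hx h
    have h1 := h.add ((K.pos i x hx).posSemidef.smul (sub_nonneg.2 hBB) :
      ((B' - B) • K.g i x).PosSemidef)
    have h2 : ((B : ℂ) • K.g i x - S i x) + (B' - B) • K.g i x = (B' : ℂ) • K.g i x - S i x := by
      ext a b
      simp only [Matrix.add_apply, Matrix.sub_apply, Matrix.smul_apply, smul_eq_mul,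
        Complex.real_smul]
      push_cast
      ring
    rwa [h2] at h1
  have key : ∀ x : M, ∃ B : ℝ, 0 < B ∧ ∀ᶠ y in 𝓝 x, ∀ i, y ∈ (A.e i).source →
      ((B : ℂ) • K.g i y - S i y).PosSemidef := by
    intro x
    obtain ⟨j, hj⟩ := A.cover x
    obtain ⟨B, hB, hBx⟩ := dom_near (K := fun y => K.g j y) (G := fun y => S j y)
      (contAt_field (tf_kah K) hj) (contAt_field hS hj)
      (by
        filter_upwards [(A.e j).open_source.mem_nhds hj] with y hy
        exact (K.pos j y hy).1)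
      (by
        filter_upwards [(A.e j).open_source.mem_nhds hj] with y hy
        exact hH j y hy)
      (K.pos j x hj)
    refine ⟨B, hB, ?_⟩
    filter_upwards [hBx, (A.e j).open_source.mem_nhds hj] with y h1 h2
    intro i hi
    exact hind B i j y ⟨hi, h2⟩ h1
  choose B hB hBx using key
  obtain ⟨t, -, ht⟩ := isCompact_univ.elim_nhds_subcover
    (fun x => {y | ∀ i, y ∈ (A.e i).source → ((B x : ℂ) • K.g i y - S i y).PosSemidef})
    (fun x _ => hBx x)
  refine ⟨1 + ∑ x ∈ t, B x, ?_, fun i x hx => ?_⟩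
  · have : 0 ≤ ∑ x ∈ t, B x := Finset.sum_nonneg fun x _ => (hB x).le
    linarith
  · obtain ⟨y, hyt, hy⟩ := mem_iUnion₂.1 (ht (mem_univ x))
    refine hmono (B y) _ ?_ i x hx (hy i hx)
    have := Finset.single_le_sum (f := B) (fun x _ => (hB x).le) hyt
    linarith

end Dom

variable {m n : ℕ}
variable {M T : Type} [TopologicalSpace M] [TopologicalSpace T] {A : Atl n M} {B : Atl m T}
  {L L' : LB A}

section imm

variable (K : Kah A) {f : T → M} (hf : HolMap B A f) (hi : Imm B A f)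

/-- the trace of the pull-back of a `(1,1)`-form with respect to the pulled back metric -/
def trT (S : A.ι → M → Matrix (Fin n) (Fin n) ℂ) (y : T) : ℝ :=
  ((((pullI K hf hi).g (ch B y) y)⁻¹ * ((Jp B A f (ch B y) (ch A (f y)) y)ᵀ *
    S (ch A (f y)) (f y) * (Jp B A f (ch B y) (ch A (f y)) y).map conj)).trace).re

theorem trT_ge {S : A.ι → M → Matrix (Fin n) (Fin n) ℂ} {e : ℝ}
    (hS : ∀ i, ∀ x ∈ (A.e i).source, (S i x + (e : ℂ) • K.g i x).PosSemidef) (y : T) :
    -(e * m) ≤ trT K hf hi S y :=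
  tr_pull K hf hi (mem_ch B y) (mem_ch A (f y)) (hS _ _ (mem_ch A (f y)))

theorem trT_add (S S' : A.ι → M → Matrix (Fin n) (Fin n) ℂ) (y : T) :
    trT K hf hi (fun i x => S i x + S' i x) y = trT K hf hi S y + trT K hf hi S' y := by
  unfold trT
  rw [Matrix.mul_add, Matrix.add_mul, Matrix.mul_add, Matrix.trace_add, Complex.add_re]

theorem trT_neg (S : A.ι → M → Matrix (Fin n) (Fin n) ℂ) (y : T) :
    trT K hf hi (fun i x => - S i x) y = - trT K hf hi S y := by
  unfold trT
  rw [Matrix.mul_neg, Matrix.neg_mul, Matrix.mul_neg, Matrix.trace_neg, Complex.neg_re]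

theorem lap_trT {u : M → ℝ} (hu : A.Sm u) (y : T) :
    Lap (pullI K hf hi) (fun t => u (f t)) y = trT K hf hi (hsf A u) y :=
  lap_pull K hf hi (sm_pull hf hu) (mem_ch A (f y)) (sm_at hu (mem_ch A (f y)))

/-- `Lap ρ = - k tr Θ` -/
theorem lap_rho_trT (h : HM L) (k : ℕ) {s : A.ι → M → ℂ} (hs : IsHS (L ^ k) univ s)
    (hp : ∀ t, 0 < nsM (pow h k) s (f t)) (y : T) :
    Lap (pullI K hf hi) (rho (pow h k) s f) y = -(k * trT K hf hi (cur h) y) := by
  rw [lap_rho K hf hi (pow h k) hs hp (mem_ch A (f y)), cur_pow h k _ (mem_ch A (f y)),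
    Matrix.mul_smul, Matrix.smul_mul, Matrix.mul_smul, Matrix.trace_smul, smul_eq_mul,
    ← Complex.ofReal_natCast, Complex.re_ofReal_mul]
  rfl

theorem trT_cur (h h' : HM L) (y : T) :
    trT K hf hi (cur h') y = trT K hf hi (cur h) y +
      Lap (pullI K hf hi) (fun t => ratio h' h (f t)) y := by
  have hx := mem_ch A (f y)
  have h1 : cur h' (ch A (f y)) (f y) = cur h (ch A (f y)) (f y) +
      hsf A (ratio h' h) (ch A (f y)) (f y) := by
    rw [cur_ratio h' h _ hx, sub_add_cancel]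
  rw [lap_trT K hf hi (sm_ratio h' h), ← trT_add]
  unfold trT
  simp only [h1]

theorem trT_bdd [CompactSpace M] {S : A.ι → M → Matrix (Fin n) (Fin n) ℂ}
    (hS : TF A S) (hH : ∀ i, ∀ x ∈ (A.e i).source, (S i x).IsHermitian) :
    ∃ C : ℝ, ∀ y, |trT K hf hi S y| ≤ C := by
  obtain ⟨B1, -, h1⟩ := exists_dom K hS hH
  obtain ⟨B2, -, h2⟩ := exists_dom K (S := fun i x => - S i x)
    (by
      have := hS.smul (-1 : ℂ)
      simpa only [neg_smul, one_smul] using this)
    (fun i x hx => (hH i x hx).neg)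
  refine ⟨max (B1 * m) (B2 * m), fun y => ?_⟩
  have h3 := trT_ge K hf hi (S := fun i x => - S i x) (e := B1)
    (fun i x hx => by
      have := h1 i x hx
      rwa [sub_eq_add_neg, add_comm] at this) y
  have h4 := trT_ge K hf hi (S := S) (e := B2)
    (fun i x hx => by
      have := h2 i x hx
      rwa [sub_neg_eq_add, add_comm] at this) y
  rw [trT_neg] at h3
  rw [abs_le]
  constructor
  · linarith [le_max_right (B1 * m) (B2 * m)]
  · linarith [le_max_left (B1 * m) (B2 * m)]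

end imm

section leaf

variable [T2Space T] [MeasurableSpace T] [BorelSpace T] [Countable B.ι]

/-- **`Har0` on a leaf** of finite volume with `{a ≤ ρ}` compact -/
theorem har0_leaf [CompactSpace M] (K : Kah A) {f : T → M} (hf : HolMap B A f) (hi : Imm B A f)
    (P : Part B) (h : HM L) {k : ℕ} {s : A.ι → M → ℂ} (hs : IsHS (L ^ k) univ s)
    (hp : ∀ t, 0 < nsM (pow h k) s (f t))
    (hprop : ∀ a, IsCompact {t | a ≤ rho (pow h k) s f t})
    (hfin : IsFiniteMeasure (vm (volK (pullI K hf hi)))) (hk : 0 < k) {φ : M → ℝ} (hφ : A.Sm φ)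
    {D : ℝ} (hD : ∀ x, Dg K φ x ≤ D ^ 2) :
    Har0 (vm (volK (pullI K hf hi))) (rho (pow h k) s f) (Dg (pullI K hf hi) (rho (pow h k) s f))
      (trT K hf hi (cur h)) (Lap (pullI K hf hi) fun t => φ (f t))
      (Gb (pullI K hf hi) (rho (pow h k) s f) fun t => φ (f t)) k D := by
  set KT := pullI K hf hi with hKT
  set ρ := rho (pow h k) s f with hρ
  have sρ : B.Sm ρ := sm_rho _ hs hf hp
  have cρ : Continuous ρ := cont_sm sρ
  have sφT : B.Sm fun t => φ (f t) := sm_pull hf hφ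
  have hk0 : (k : ℝ) ≠ 0 := by exact_mod_cast hk.ne'
  have hL : ∀ y, Lap KT ρ y = -(k * trT K hf hi (cur h) y) := lap_rho_trT K hf hi h k hs hp
  have cQ : Continuous (trT K hf hi (cur h)) := by
    have : trT K hf hi (cur h) = fun y => -(1 / (k : ℝ)) * Lap KT ρ y := by
      funext y; rw [hL]; field_simp
    rw [this]
    exact continuous_const.mul (cont_sm (sm_Lap KT sρ))
  obtain ⟨C1, hC1⟩ := trT_bdd K hf hi (tf_cur h) fun i x hx => cur_herm h i hx
  obtain ⟨C2, hC2⟩ := trT_bdd K hf hi (tf_hsf hφ) fun i x hx =>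
    hess_herm (sm_at hφ hx)
  have key : ∀ {ψ ψ' : ℝ → ℝ}, ContDiff ℝ ∞ ψ → (∀ s, HasDerivAt ψ (ψ' s) s) →
      (∃ a, ∀ s ≤ a, ψ s = 0) → ∀ {v : T → ℝ}, B.Sm v →
      ∫ x, ψ' (ρ x) * Gb KT ρ v x ∂(vm (volK KT)) = - ∫ x, ψ (ρ x) * Lap KT v x ∂(vm (volK KT)) := by
    intro ψ ψ' hψ h1 ha v hv
    obtain ⟨a, ha⟩ := ha
    have h2 := int_Gb_cs P KT (sm_comp hψ sρ) hv (hprop a) fun x hx => by
      have : ¬ a ≤ ρ x := hx
      exact ha _ (not_le.1 this).le
    simp only [Gb_comp KT hψ h1 sρ hv] at h2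
    exact h2
  refine ⟨Nat.cast_nonneg k, cρ.measurable, (cont_sm (sm_Gb KT sρ sφT)).measurable,
    Dg_nonneg KT sρ, ?_, ?_, ?_, fun x => ?_, ?_, ?_⟩
  · rintro g hg ⟨a, ha⟩
    refine integrable_cs (volK KT) ((hg.comp cρ).mul (continuous_Dg KT sρ)) (hprop a)
      fun x hx => ?_
    have : ¬ a ≤ ρ x := hx
    show g (ρ x) * _ = 0
    rw [ha _ (not_le.1 this).le, zero_mul]
  · exact Integrable.of_bound cQ.measurable.aestronglyMeasurable C1 (Eventually.of_forall hC1)
  · refine Integrable.of_bound (cont_sm (sm_Lap KT sφT)).measurable.aestronglyMeasurable C2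
      (Eventually.of_forall fun y => ?_)
    rw [hKT, lap_trT K hf hi hφ]
    exact hC2 y
  · have h1 := Gb_sq_le KT sρ sφT x
    have h2 := Dg_nonneg KT sρ x
    have h3 := (Dg_pull K hf hi hφ sφT x).trans (hD _)
    nlinarith
  · intro ψ ψ' hψ h1 ha
    have h2 := key hψ h1 ha sρ
    simp only [Gb_self KT sρ] at h2
    rw [h2, ← integral_neg, ← integral_const_mul]
    refine integral_congr_ae (Eventually.of_forall fun x => ?_)
    show -(ψ (ρ x) * Lap KT ρ x) = k * (ψ (ρ x) * trT K hf hi (cur h) x)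
    rw [hL]; ring
  · intro ψ ψ' hψ h1 ha
    have h2 := key hψ h1 ha sφT
    rw [h2, neg_neg]

end leaf

end

end Crest.Agent.R281.Har_331
end

-- ▼ part R281/OmH4_331

/-!
# R281 (S0424), leaf OM-HAR (helper331), part 4: a leaf of finite volume is compact

* `LowP` : the lower bound for `T` with `{a ≤ ρ}` compact; `LowP.low`
* `compact_leaf` : `T` compact.
-/

set_option autoImplicit false
set_option linter.unusedSectionVars false

open Set Filter Topology Complex MeasureTheory Function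
open scoped ContDiff Matrix ComplexConjugate ComplexOrder

namespace Crest.Agent.R281.Har_331

open Crest.Agent.R275 Crest.Agent.R275.Geo Crest.Agent.R275.Core144 Crest.Agent.R275.EDR890
open Crest.Agent.R273.Defs_333 Crest.Agent.R273.Hess_333 Crest.Agent.R273.HessB_333
open Crest.Agent.R273.HM_333 Crest.Agent.R273.Kah_333 Crest.Agent.R273.Vol_333
open Crest.Agent.R273.Vm_333 Crest.Agent.R273.Map_835 Crest.Agent.R273.KahI_645
open Crest.Agent.R273.Green_5 Crest.Agent.R273.FIa0_597 Crest.Agent.R273.FIb0_597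
open Crest.Agent.R273.FIc0_597 Crest.Agent.R273
open Crest.Agent.R273.SchI_152 (Dg sm_sq Dg_nonneg continuous_Dg)
open Crest.Agent.R281.Glob1_484 Crest.Agent.R281.S6D_664 Crest.Agent.R281.Defs_273

noncomputable section

variable {n : ℕ} {M : Type} [TopologicalSpace M] {A : Atl n M} {L L' : LB A}

/-- the lower bound, `T` not necessarily compact -/
def LowP (K : Kah A) (h : HM L) (d : ℕ) (c1 : ℝ) : Prop :=
  ∀ (T : Type) [TopologicalSpace T] [T2Space T] [ConnectedSpace T]
    [MeasurableSpace T] [BorelSpace T] (B : Atl d T) [Countable B.ι] (_ : Part B) (f : T → M)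
    (hf : HolMap B A f) (hi : Imm B A f) (s : A.ι → M → ℂ), IsHS L univ s →
    (∀ t, 0 < nsM h s (f t)) → (∀ a, IsCompact {t | a ≤ rho h s f t}) → ∀ q : T,
    c1 ≤ (vm (volK (pullI K hf hi))).real
        {x | rho h s f q - 1 < rho h s f x ∧ rho h s f x < rho h s f q + 1} +
      ∫ x in {x | rho h s f q - 1 < rho h s f x ∧ rho h s f x < rho h s f q + 1},
        Dg (pullI K hf hi) (rho h s f) x ∂(vm (volK (pullI K hf hi)))


theorem exists_D [CompactSpace M] (K : Kah A) {φ : M → ℝ} (hφ : A.Sm φ) :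
    ∃ D : ℝ, ∀ x, Dg K φ x ≤ D ^ 2 := by
  obtain ⟨D0, hD0⟩ := isCompact_univ.exists_bound_of_continuousOn
    (continuous_Dg K hφ).continuousOn
  refine ⟨max D0 1, fun x => ?_⟩
  have h1 := (le_abs_self _).trans (hD0 x (mem_univ x))
  have h2 : D0 ≤ max D0 1 := le_max_left _ _
  have h3 : 1 ≤ max D0 1 := le_max_right _ _
  nlinarith

variable {T : Type} [TopologicalSpace T] {d : ℕ} {B : Atl d T}
variable [T2Space T] [MeasurableSpace T] [BorelSpace T] [Countable B.ι]

section leaf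

variable [CompactSpace M] (K : Kah A) {f : T → M} (hf : HolMap B A f) (hi : Imm B A f)
    (P : Part B) (h : HM L) {k : ℕ} {s : A.ι → M → ℂ} (hs : IsHS (L ^ k) univ s)
    (hp : ∀ t, 0 < nsM (pow h k) s (f t))
    (hprop : ∀ a, IsCompact {t | a ≤ rho (pow h k) s f t})
    (hfin : IsFiniteMeasure (vm (volK (pullI K hf hi)))) (hk : 0 < k)

include P h hs hp hprop hfin hk

/-- `∫ tr Θ'` does not depend on the metric -/
theorem int_trT_eq (h' : HM L) :
    Integrable (trT K hf hi (cur h')) (vm (volK (pullI K hf hi))) ∧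
    ∫ t, trT K hf hi (cur h') t ∂(vm (volK (pullI K hf hi))) =
      ∫ t, trT K hf hi (cur h) t ∂(vm (volK (pullI K hf hi))) := by
  obtain ⟨D, hD⟩ := exists_D K (sm_ratio h' h)
  have H := har0_leaf K hf hi P h hs hp hprop hfin hk (sm_ratio h' h) hD
  have e : trT K hf hi (cur h') = fun y => trT K hf hi (cur h) y +
      Lap (pullI K hf hi) (fun t => ratio h' h (f t)) y := funext fun y => trT_cur K hf hi h h' y
  have iQ := H.iQ
  have iΦ := H.iΦ
  have h0 := H.int_zero
  rw [e]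
  refine ⟨iQ.add iΦ, ?_⟩
  rw [integral_add iQ iΦ, h0, add_zero]

/-- the mass bounds give `∫ tr Θ = 0` -/
theorem int_trT_zero (hnef : NefW K L)
    (hM2 : ∀ μ : ℝ, 0 < μ → ∃ e0 : ℝ, 0 < e0 ∧ ∀ e : ℝ, 0 < e → e < e0 → ∀ h' : HM L,
      (∀ i, ∀ x ∈ (A.e i).source, (cur h' i x + (e : ℂ) • K.g i x).PosSemidef) →
      ∫ t, (trT K hf hi (cur h') t + 2 * e * d) ∂(vm (volK (pullI K hf hi))) ≤ μ) :
    ∫ t, trT K hf hi (cur h) t ∂(vm (volK (pullI K hf hi))) = 0 := by
  set μT := vm (volK (pullI K hf hi)) with hμT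
  set V := μT.real univ with hV
  have hV0 : 0 ≤ V := measureReal_nonneg
  refine le_antisymm ?_ ?_
  · refine le_of_forall_pos_le_add fun μ hμ => ?_
    obtain ⟨e0, he0, hM⟩ := hM2 μ hμ
    obtain ⟨h', hh'⟩ := hnef (e0 / 2) (by positivity)
    have h1 := hM (e0 / 2) (by positivity) (by linarith) h' hh'
    obtain ⟨i1, h2⟩ := int_trT_eq K hf hi P h hs hp hprop hfin hk h'
    rw [integral_add i1 (integrable_const _), h2, integral_const, smul_eq_mul] at h1
    have h3 : 0 ≤ μT.real univ * (2 * (e0 / 2) * d) := by positivity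
    linarith
  · refine le_of_forall_pos_le_add fun μ hμ => ?_
    obtain ⟨h', hh'⟩ := hnef (μ / (d * V + 1)) (by positivity)
    obtain ⟨i1, h2⟩ := int_trT_eq K hf hi P h hs hp hprop hfin hk h'
    have h3 : ∫ _t : T, -(μ / (d * V + 1) * d) ∂μT ≤ ∫ t, trT K hf hi (cur h') t ∂μT :=
      integral_mono (integrable_const _) i1 fun t => trT_ge K hf hi hh' t
    rw [integral_const, smul_eq_mul, h2, ← hV] at h3
    have h4 : V * (μ / (d * V + 1) * d) ≤ μ := by
      have h5 : V * (μ / (d * V + 1) * d) = μ * ((d * V) / (d * V + 1)) := by field_simp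
      rw [h5]
      refine mul_le_of_le_one_right hμ.le ?_
      rw [div_le_one (by positivity)]; linarith
    linarith

/-- **a leaf of finite volume with `{a ≤ ρ}` compact and small mass is compact** -/
theorem compact_leaf [ConnectedSpace T] (hnef : NefW K L) {c1 : ℝ} (hc1 : 0 < c1)
    (hlow : LowP K (pow h k) d c1)
    (hM2 : ∀ μ : ℝ, 0 < μ → ∃ e0 : ℝ, 0 < e0 ∧ ∀ e : ℝ, 0 < e → e < e0 → ∀ h' : HM L,
      (∀ i, ∀ x ∈ (A.e i).source, (cur h' i x + (e : ℂ) • K.g i x).PosSemidef) →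
      ∫ t, (trT K hf hi (cur h') t + 2 * e * d) ∂(vm (volK (pullI K hf hi))) ≤ μ) :
    CompactSpace T := by
  set KT := pullI K hf hi with hKT
  set μT := vm (volK KT) with hμT
  set V := μT.real univ with hV
  have hV0 : 0 ≤ V := measureReal_nonneg
  set ρ := rho (pow h k) s f with hρ
  have sρ : B.Sm ρ := sm_rho _ hs hf hp
  have cρ : Continuous ρ := cont_sm sρ
  have hQ0 := int_trT_zero K hf hi P h hs hp hprop hfin hk hnef hM2
  set ε : ℝ := c1 / (8 * (k * d * V) + 1) with hε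
  have hden : 0 < 8 * ((k : ℝ) * d * V) + 1 := by positivity
  have hε0 : 0 < ε := div_pos hc1 hden
  obtain ⟨h', hh'⟩ := hnef ε hε0
  obtain ⟨D, hD⟩ := exists_D K (sm_ratio h' h)
  have H0 := har0_leaf K hf hi P h hs hp hprop hfin hk (sm_ratio h' h) hD
  have H := H0.har hQ0 (e := ε * d) (by positivity) fun x => by
    rw [← trT_cur K hf hi h h' x]
    exact trT_ge K hf hi hh' x
  have he : 8 * (k * (ε * d) * μT.real univ) ≤ c1 := by
    have h2 : 8 * ((k : ℝ) * (ε * d) * V) = ε * (8 * (k * d * V)) := by ring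
    have h3 : ε * (8 * ((k : ℝ) * d * V) + 1) = c1 := div_mul_cancel₀ _ hden.ne'
    rw [← hV, h2]
    linarith
  set C := 6 + 4 / c1 * (μT.real univ + (k : ℝ) ^ 2 * D ^ 2 * μT.real univ) with hC
  have hC0 : 0 ≤ C := by positivity
  obtain ⟨x⟩ := (inferInstance : Nonempty T)
  have key : ∀ y : T, ρ x - C ≤ ρ y := by
    intro y
    rcases le_total (ρ x) (ρ y) with hxy | hxy
    · linarith
    · have h1 := H.osc_le (continuous_Dg KT sρ).measurable hc1 hxy (fun c h0 h1 => by
        obtain ⟨q, rfl⟩ := mem_range_of_exists_le_of_exists_ge cρ ⟨y, h0⟩ ⟨x, h1⟩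
        exact hlow T B P f hf hi s hs hp hprop q) he
      linarith
  have hu : {t | ρ x - C ≤ ρ t} = univ := eq_univ_of_forall key
  have h1 := hprop (ρ x - C)
  rw [hu] at h1
  exact ⟨h1⟩

end leaf

end

end Crest.Agent.R281.Har_331
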