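import Crest.Agent.R281.Fuj6_207
import Crest.Agent.R281.Ti7_846
import Crest.Agent.R281.Nef2_252
import Crest.Agent.R273.FId0_597
import Crest.Agent.R273.YauMax_635
import Crest.Agent.R281.Fuj7_207
import Crest.Agent.R281.Isq3_358
import Crest.Agent.R281.OmH4_331_Mg
import Crest.Agent.R281.D6b_986
import Crest.Agent.R273.AsmB_73
import Crest.Agent.R281.Hk6_389
import Crest.Agent.R281.Har5_331

-- ▼ part R281/Vol1_847
section

/-!
# Row 281, OM-VOL, part 1 (helper847): total determinants of closed (1,1)-fields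

* `k11 hg hh`  : a closed Hermitian field of type (1,1) as `K11 A`
* `f2_lin`     : `X = s K + t Y + ∂∂̄ u` gives `X.f2 = s K.f2 + t Y.f2` modulo exact forms
* `IM_det`     : `IM (X, …, X) = 2^d d! ∫ det X` (`totc P`)
* `IM_lin`     : `∫ det (s K + t Y + ∂∂̄ u)` in terms of `IM` of `s K.f2 + t Y.f2`
-/

set_option autoImplicit false
set_option linter.unusedSectionVars false
set_option maxSynthPendingDepth 3

open Set Filter Topology Complex MeasureTheory
open scoped ContDiff Matrix ComplexConjugate ComplexOrder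

namespace Crest.Agent.R281.Vol_847

open Crest.Agent.R275 Crest.Agent.R275.Geo Crest.Agent.R275.Core144 Crest.Agent.R275.EDR890
open Crest.Agent.R275.GC293
open Crest.Agent.R273.Defs_333 Crest.Agent.R273.Hess_333 Crest.Agent.R273.HM_333
open Crest.Agent.R273.Kah_333 Crest.Agent.R273.Vol_333 Crest.Agent.R273.Vm_333
open Crest.Agent.R273.StV_37 Crest.Agent.R273.Green_5 Crest.Agent.R273.VolInv_5
open Crest.Agent.R273.FIb0_597 Crest.Agent.R273.FId0_597
open Crest.Agent.R281.HkR_835 Crest.Agent.R281.Ti_846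
open Crest.Agent.R281.Nef_252 (hb_add hb_smul)

noncomputable section

variable {d : ℕ} {M : Type} [TopologicalSpace M] {A : Atl d M} {L : LB A}

/-- a closed Hermitian field of type (1,1) -/
def k11 {g : A.ι → M → Matrix (Fin d) (Fin d) ℂ} (hg : CF A g)
    (hh : ∀ i, ∀ x ∈ (A.e i).source, (g i x).IsHermitian) : K11 A where
  g := g
  sm := hg.sm
  herm := hh
  tr := hg.tr
  closed := hg.closed

theorem K11.cf (X : K11 A) : CF A X.g := ⟨X.sm, X.tr, X.closed⟩

theorem smul_herm {G : Matrix (Fin d) (Fin d) ℂ} (hG : G.IsHermitian) (t : ℝ) :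
    ((t : ℂ) • G).IsHermitian := by
  rw [Matrix.IsHermitian, Matrix.conjTranspose_smul, hG.eq]
  simp

theorem hsf_herm {u : M → ℝ} (hu : A.Sm u) (i : A.ι) {x : M} (hx : x ∈ (A.e i).source) :
    (hsf A u i x).IsHermitian := by
  have hz := (A.e i).map_source hx
  have h1 := hsf_read (A := A) u i hz
  rw [(A.e i).left_inv hx] at h1
  rw [h1]
  exact hess_herm (sm_contDiffAt hu i hz)

/-- the field `s X + t Y + ∂∂̄ u` -/
def lin (X Y : K11 A) (s t : ℝ) {u : M → ℝ} (hu : A.Sm u) : K11 A :=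
  k11 (g := fun i x => (s : ℂ) • X.g i x + (t : ℂ) • Y.g i x + hsf A u i x)
    (((K11.cf X).smul s |>.add ((K11.cf Y).smul t)).add (hsf_cf hu)) fun i x hx =>
      ((smul_herm (X.herm i x hx) s).add (smul_herm (Y.herm i x hx) t)).add (hsf_herm hu i hx)

theorem lin_g (X Y : K11 A) (s t : ℝ) {u : M → ℝ} (hu : A.Sm u) (i : A.ι) (x : M) :
    (lin X Y s t hu).g i x = (s : ℂ) • X.g i x + (t : ℂ) • Y.g i x + hsf A u i x := rfl

/-- `s X + t Y + ∂∂̄ u` on the level of forms -/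
theorem f2_lin (X Y : K11 A) (s t : ℝ) {u : M → ℝ} (hu : A.Sm u) :
    (lin X Y s t hu).f2 - (s • X.f2 + t • Y.f2) ∈ exS (ofAtl A) := by
  refine mem_exS.2 (Fuj3_207.ex_hsf u hu _ fun i z hz v v' => ?_)
  have h2 : ((lin X Y s t hu).f2 - (s • X.f2 + t • Y.f2)).w i z v v' =
      (lin X Y s t hu).f2.w i z v v' - (s * X.f2.w i z v v' + t * Y.f2.w i z v v') := rfl
  rw [h2, K11.f2_w _ hz, K11.f2_w _ hz, K11.f2_w _ hz, lin_g, hb_add, hb_add, hb_smul, hb_smul,
    mul_add, mul_add, Complex.add_re, Complex.add_re]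
  have h3 : ∀ (r : ℝ) (c : ℂ), (I * ((r : ℂ) * c)).re = r * (I * c).re := by
    intro r c
    rw [mul_left_comm, Complex.re_ofReal_mul]
  rw [h3, h3]
  ring

section compact

variable [T2Space M] [CompactSpace M] [Finite A.ι]

/-- **the top power of a (1,1)-form** -/
theorem IM_det (P : Part A) (K : Kah A) (RP : RPart (ofAtl A)) (X : K11 A) :
    IM (lc d) (bc d) RP (fun _ => X.f2) =
      2 ^ d * d.factorial * (totc P (fun i x => (X.g i x).det)).re := by
  let _ := Fintype.ofFinite A.ι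
  let _ : MeasurableSpace M := borel M
  have _ : BorelSpace M := ⟨rfl⟩
  have hT : TF A X.g := ⟨X.sm, X.tr⟩
  have h1 : II (lc d) (bc d) RP (fun _ => X.f2) =
      2 ^ d * ∫ x, (d.factorial : ℝ) * dtM (volK K) X.g x ∂(vm (volK K)) := by
    refine II_herm K RP (fun _ => X) fun i x hx => ?_
    rw [MD_same]
    have hd : (X.g i x).det.im = 0 := by
      have h2 := (X.herm i x hx).isSelfAdjoint
      have h3 : star (X.g i x).det = (X.g i x).det := by
        rw [← Matrix.det_conjTranspose, (X.herm i x hx).eq]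
      exact Complex.conj_eq_iff_im.1 h3
    have h4 : dtM (volK K) X.g x = (X.g i x).det.re / (volK K).w i x := by
      rw [← dtC_re, dtC_eq _ hT hx, Complex.div_ofReal_re]
    have h5 : (X.g i x).det = ((X.g i x).det.re : ℂ) := by
      apply Complex.ext
      · simp
      · simp [hd]
    have h6 : ((volK K).w i x : ℂ) ≠ 0 := by exact_mod_cast ((volK K).pos i x hx).ne'
    rw [h4, ← volK_w K i hx, h5]
    push_cast
    rw [Complex.ofReal_re]
    field_simp
  show II (lc d) (bc d) RP (fun _ => X.f2) = _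
  rw [h1, integral_const_mul, int_dtM P _ hT]
  ring

theorem IM_lin (P : Part A) (K : Kah A) (RP : RPart (ofAtl A)) (X Y : K11 A) (s t : ℝ) {u : M → ℝ}
    (hu : A.Sm u) : 2 ^ d * d.factorial *
      (totc P (fun i x => ((s : ℂ) • X.g i x + (t : ℂ) • Y.g i x + hsf A u i x).det)).re =
      IM (lc d) (bc d) RP (fun _ => s • X.f2 + t • Y.f2) := by
  have h1 := IM_det P K RP (lin X Y s t hu)
  have h2 : IM (lc d) (bc d) RP (fun _ => (lin X Y s t hu).f2) =
      IM (lc d) (bc d) RP (fun _ => s • X.f2 + t • Y.f2) :=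
    IM_coh (lc d) (bc d) RP (ori_ofAtl A) fun _ => f2_lin X Y s t hu
  rw [← h2, h1]
  rfl

end compact

end

end Crest.Agent.R281.Vol_847
end

-- ▼ part R281/Vol2_847
section

/-!
# Row 281, OM-VOL, part 2 (helper847): the Fujiki relation for total determinants

`A : Atl (2 * n) M`, `K : Kah A`, `h : HM L`, `T (s, t, u) = ∫ det (s K + t cur h + ∂∂̄ u)`.

* `hposK`     : `IM (K, …, K) > 0`
* `BB P σ hc` : the Beauville-Bogomolov-Fujiki form on `F2 (ofAtl A)`
* `vol_two`   : `2^(2n) (2n)! T (s, t, u) = (s² q(K) + 2 s t q(K, L) + t² q(L))^n`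
* `q_nonneg`  : `q (K, L) ≥ 0` for nef `L` with `q (L) = 0`
* `vol_eq`    : `T (s, t, u) = c s^n (q₀ s + 2 q₁ t)^n`, `c, q₀ > 0`, `q₁ ≥ 0`
* `vol_le`    : `T (s, t, u) ≤ C s^n (s + t)^n` for `s, t ≥ 0`
-/

set_option autoImplicit false
set_option linter.unusedSectionVars false
set_option maxSynthPendingDepth 3

open Set Filter Topology Complex MeasureTheory
open scoped ContDiff Matrix ComplexConjugate ComplexOrder

namespace Crest.Agent.R281.Vol_847

open Crest.Agent.R275 Crest.Agent.R275.Geo Crest.Agent.R275.Core144 Crest.Agent.R275.EDR890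
open Crest.Agent.R275.GC293
open Crest.Agent.R273.Defs_333 Crest.Agent.R273.Hess_333 Crest.Agent.R273.HM_333
open Crest.Agent.R273.Kah_333 Crest.Agent.R273.Vol_333 Crest.Agent.R273.Vm_333
open Crest.Agent.R273.StV_37 Crest.Agent.R273.Green_5 Crest.Agent.R273.VolInv_5
open Crest.Agent.R273.FIb0_597 Crest.Agent.R273.FIc0_597 Crest.Agent.R273.FId0_597
open Crest.Agent.R273.HessB_333 (hess_const_mul)
open Crest.Agent.R281.HkR_835 Crest.Agent.R281.Ti_846
open Crest.Agent.R281.Nef_252 (hb_add hb_smul curK ex_cur)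
open Crest.Agent.R281.HkP2_508 Crest.Agent.R281.HkP3_508
open Crest.Agent.R281.Defs_273 (H2 HSymp NefW Isotropic)
open Crest.Agent.R281.Fuj1_207 Crest.Agent.R281.Fuj4_207 Crest.Agent.R281.Fuj5_207
open Crest.Agent.R281.Fuj6_207

noncomputable section

variable {d : ℕ} {M : Type} [TopologicalSpace M] {A : Atl d M} {L : LB A}
variable [T2Space M] [CompactSpace M] [ConnectedSpace M]

/-- the volume of a Kaehler form is positive -/
theorem hposK [Finite A.ι] (RP : RPart (ofAtl A)) (K : Kah A) :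
    0 < IM (lc d) (bc d) RP (fun _ => (ofKah K).f2) := by
  let _ : MeasurableSpace M := borel M
  have _ : BorelSpace M := ⟨rfl⟩
  have := isFinite_vm (volK K)
  have := isOpenPos_vm (volK K)
  have h1 : 0 < (vm (volK K)).real univ :=
    ENNReal.toReal_pos (isOpen_univ.measure_ne_zero _ univ_nonempty) (measure_ne_top _ _)
  have h2 : IM (lc d) (bc d) RP (fun _ => (ofKah K).f2) =
      2 ^ d * d.factorial * (vm (volK K)).real univ := II_same K RP
  rw [h2]
  positivity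

variable {n : ℕ} {B : Atl (2 * n) M} {L : LB B} [Finite B.ι]

/-- the Beauville-Bogomolov-Fujiki form -/
def BB (P : Part B) (hn2 : 2 ≤ 2 * n) {σ : HSymp B} (hc : ClH σ.toH2) :
    F2 (ofAtl B) →ₗ[ℝ] F2 (ofAtl B) →ₗ[ℝ] ℝ :=
  Qf (IM (lc (2 * n)) (bc (2 * n)) (RPart.ofPart P)) hn2 n (reS σ.toH2 hc)

section

variable (P : Part B) (hn : 1 ≤ n) (hn2 : 2 ≤ 2 * n) {σ : HSymp B} (hu : σ.Uniq)
  (hc : ClH σ.toH2) (ho : Open11 B) (K : Kah B)

theorem BB_symm (x y : F2 (ofAtl B)) : BB P hn2 hc x y = BB P hn2 hc y x :=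
  Qf_symm (IM_symm _ _ _) _ _ _ _ _

include K hn hu in
theorem BB_KK : 0 < BB P hn2 hc (ofKah K).f2 (ofKah K).f2 :=
  (values P σ hu hc (lc (2 * n)) (bc (2 * n)) (RPart.ofPart P) hn rfl hn2 (ori_ofAtl B)
    (hposK _) K).2.2.2.2.2

theorem BB_congr {x x' : F2 (ofAtl B)} (h : x - x' ∈ exS (ofAtl B)) (y : F2 (ofAtl B)) :
    BB P hn2 hc y x = BB P hn2 hc y x' :=
  Qf_congr _ _ _ (ori_ofAtl B) hn2 _ h y

/-- `q (K, L)` does not depend on the metric of `L` -/
theorem BB_cur (h h' : HM L) (y : F2 (ofAtl B)) :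
    BB P hn2 hc y (curK h').f2 = BB P hn2 hc y (curK h).f2 :=
  BB_congr P hn2 hc (mem_exS.2 (ex_cur h h')) y

include hn hu ho in
/-- **the Fujiki relation for total determinants** -/
theorem vol_two (h : HM L) (s t : ℝ) {u : M → ℝ} (hu' : B.Sm u) :
    2 ^ (2 * n) * (2 * n).factorial *
      (totc P (fun i x => ((s : ℂ) • K.g i x + (t : ℂ) • cur h i x + hsf B u i x).det)).re =
      (s ^ 2 * BB P hn2 hc (ofKah K).f2 (ofKah K).f2 +
        2 * s * t * BB P hn2 hc (ofKah K).f2 (curK h).f2 +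
        t ^ 2 * BB P hn2 hc (curK h).f2 (curK h).f2) ^ n := by
  have h1 := IM_lin P K (RPart.ofPart P) (ofKah K) (curK h) s t hu'
  have h2 := fujiki P σ hu hc (lc (2 * n)) (bc (2 * n)) (RPart.ofPart P) hn rfl hn2
    (ori_ofAtl B) ho (hposK _) K (s • (ofKah K).f2 + t • (curK h).f2)
  have h3 : Qf (IM (lc (2 * n)) (bc (2 * n)) (RPart.ofPart P)) hn2 n (reS σ.toH2 hc) =
    BB P hn2 hc := rfl
  rw [h3] at h2
  refine h1.trans (h2.trans ?_)
  congr 1
  simp only [map_add, map_smul, LinearMap.add_apply, LinearMap.smul_apply, smul_eq_mul]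
  rw [BB_symm P hn2 hc (curK h).f2 (ofKah K).f2]
  ring

include hn hu ho in
theorem vol_iso (h : HM L) (hiso : BB P hn2 hc (curK h).f2 (curK h).f2 = 0) (s t : ℝ)
    {u : M → ℝ} (hu' : B.Sm u) :
    2 ^ (2 * n) * (2 * n).factorial *
      (totc P (fun i x => ((s : ℂ) • K.g i x + (t : ℂ) • cur h i x + hsf B u i x).det)).re =
      s ^ n * (s * BB P hn2 hc (ofKah K).f2 (ofKah K).f2 +
        2 * t * BB P hn2 hc (ofKah K).f2 (curK h).f2) ^ n := by
  rw [vol_two P hn hn2 hu hc ho K h s t hu', hiso, ← mul_pow]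
  congr 1
  ring

end

/-! ### positivity -/

/-- monotonicity of total determinants -/
theorem totc_det_mono [Finite A.ι] (P : Part A) (K : Kah A)
    {S S' : A.ι → M → Matrix (Fin d) (Fin d) ℂ} (hS : TF A S) (hS' : TF A S')
    (h : ∀ i, ∀ x ∈ (A.e i).source, (S i x).det.re ≤ (S' i x).det.re) :
    (totc P (fun i x => (S i x).det)).re ≤ (totc P (fun i x => (S' i x).det)).re := by
  let _ := Fintype.ofFinite A.ι
  let _ : MeasurableSpace M := borel M
  have _ : BorelSpace M := ⟨rfl⟩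
  rw [← int_dtM P (volK K) hS, ← int_dtM P (volK K) hS']
  refine integral_mono (integrable_cont _ (cont_dtM _ hS)) (integrable_cont _ (cont_dtM _ hS'))
    fun x => ?_
  have hx := mem_ch A x
  exact div_le_div_of_nonneg_right (h _ x hx) ((volK K).pos _ x hx).le

/-- `L` is isotropic for the form `q` -/
def IsoQ (P : Part B) (hn2 : 2 ≤ 2 * n) {σ : HSymp B} (hc : ClH σ.toH2) (L : LB B) : Prop :=
  ∀ h : HM L, BB P hn2 hc (curK h).f2 (curK h).f2 = 0

section

variable (P : Part B) (hn : 1 ≤ n) (hn2 : 2 ≤ 2 * n) {σ : HSymp B} (hu : σ.Uniq)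
  (hc : ClH σ.toH2) (ho : Open11 B) (K : Kah B)

theorem sm_zero : B.Sm (fun _ : M => (0 : ℝ)) := fun _ => contDiffOn_const

theorem hsf_zero (i : B.ι) {x : M} (hx : x ∈ (B.e i).source) :
    hsf B (fun _ : M => (0 : ℝ)) i x = 0 := by
  have hz := (B.e i).map_source hx
  have h1 := hsf_read (A := B) (fun _ : M => (0 : ℝ)) i hz
  rw [(B.e i).left_inv hx] at h1
  rw [h1]
  have h2 := hess_const_mul (0 : ℝ) (u := fun _ : Cn (2 * n) => (0 : ℝ)) (z := B.e i x)
    contDiffAt_const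
  simpa using h2

include hn hu ho in
theorem vol_iso0 (h : HM L) (hiso : IsoQ P hn2 hc L) (s t : ℝ) :
    2 ^ (2 * n) * (2 * n).factorial *
      (totc P (fun i x => ((s : ℂ) • K.g i x + (t : ℂ) • cur h i x).det)).re =
      s ^ n * (s * BB P hn2 hc (ofKah K).f2 (ofKah K).f2 +
        2 * t * BB P hn2 hc (ofKah K).f2 (curK h).f2) ^ n := by
  rw [← vol_iso P hn hn2 hu hc ho K h (hiso h) s t sm_zero]
  congr 2
  refine totc_congr P fun i x hx => ?_
  rw [hsf_zero i hx, add_zero]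

include hn hu ho in
/-- `q (K, L) ≥ 0` -/
theorem BB_nonneg (hnef : NefW K L) (hiso : IsoQ P hn2 hc L) (h : HM L) :
    0 ≤ BB P hn2 hc (ofKah K).f2 (curK h).f2 := by
  set Q0 := BB P hn2 hc (ofKah K).f2 (ofKah K).f2 with hQ0
  set Q1 := BB P hn2 hc (ofKah K).f2 (curK h).f2 with hQ1
  have h0 : 0 < Q0 := BB_KK P hn hn2 hu hc K
  by_contra hneg
  push Not at hneg
  set t0 : ℝ := -Q0 / (2 * Q1) with ht0
  have ht : 0 < t0 := div_pos_of_neg_of_neg (by linarith) (by linarith)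
  have hQ1' : Q1 ≠ 0 := hneg.ne
  have e0 : Q0 + 2 * t0 * Q1 = 0 := by
    rw [ht0]; field_simp; ring
  set ε : ℝ := 1 / (2 * t0) with hε
  have hε0 : 0 < ε := by positivity
  have e1 : t0 * ε = 1 / 2 := by rw [hε]; field_simp
  obtain ⟨h', hh'⟩ := hnef ε hε0
  have g1 := vol_iso0 P hn hn2 hu hc ho K h hiso 1 0
  have g2 := vol_iso0 P hn hn2 hu hc ho K h' hiso (1 + t0 * ε) t0
  rw [BB_cur P hn2 hc h h', ← hQ0, ← hQ1] at g2
  rw [← hQ0, ← hQ1] at g1
  have e2 : (1 + t0 * ε) * Q0 + 2 * t0 * Q1 = 1 / 2 * Q0 := by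
    have : (1 + t0 * ε) * Q0 + 2 * t0 * Q1 = t0 * ε * Q0 + (Q0 + 2 * t0 * Q1) := by ring
    rw [this, e0, e1, add_zero]
  rw [e2, e1, ← mul_pow] at g2
  have hm : (totc P (fun i x => (((1 : ℝ) : ℂ) • K.g i x + ((0 : ℝ) : ℂ) • cur h i x).det)).re ≤
      (totc P (fun i x => (((1 + t0 * ε : ℝ) : ℂ) • K.g i x + (t0 : ℂ) • cur h' i x).det)).re := by
    refine totc_det_mono P K (((tf_kah K).smul _).add ((tf_cur h).smul _))
      (((tf_kah K).smul _).add ((tf_cur h').smul _)) fun i x hx => ?_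
    have h1 : ((1 + t0 * ε : ℝ) : ℂ) • K.g i x + (t0 : ℂ) • cur h' i x =
        K.g i x + (t0 : ℂ) • (cur h' i x + (ε : ℂ) • K.g i x) := by
      push_cast
      module
    have h2 : ((1 : ℝ) : ℂ) • K.g i x + ((0 : ℝ) : ℂ) • cur h i x = K.g i x := by simp
    rw [h1, h2]
    have h3 := Crest.Agent.R273.YauMax_635.det_le_det_add (K.pos i x hx)
      ((hh' i x hx).smul (show (0 : ℂ) ≤ (t0 : ℂ) by exact_mod_cast ht.le))
    exact (Complex.le_def.1 h3).1
  have hf : (0 : ℝ) < 2 ^ (2 * n) * (2 * n).factorial := by positivity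
  have g3 := mul_le_mul_of_nonneg_left hm hf.le
  rw [g1, e1, g2] at g3
  simp only [one_pow, one_mul, mul_zero, zero_mul, add_zero] at g3
  have g4 : ((1 + 1 / 2 : ℝ) * (1 / 2 * Q0)) ^ n < Q0 ^ n := by
    refine pow_lt_pow_left₀ (by linarith) (by positivity) (by omega)
  linarith

include hn hu ho in
/-- **total determinants** -/
theorem vol_eq (hL : Nonempty (HM L)) (hnef : NefW K L) (hiso : IsoQ P hn2 hc L) :
    ∃ c q₀ q₁ : ℝ, 0 < c ∧ 0 < q₀ ∧ 0 ≤ q₁ ∧ ∀ (h : HM L) (s t : ℝ) {u : M → ℝ} (_ : B.Sm u),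
      (totc P (fun i x => ((s : ℂ) • K.g i x + (t : ℂ) • cur h i x + hsf B u i x).det)).re =
        c * s ^ n * (q₀ * s + 2 * q₁ * t) ^ n := by
  obtain ⟨h0⟩ := hL
  have hf : (0 : ℝ) < 2 ^ (2 * n) * (2 * n).factorial := by positivity
  refine ⟨(2 ^ (2 * n) * (2 * n).factorial)⁻¹, BB P hn2 hc (ofKah K).f2 (ofKah K).f2,
    BB P hn2 hc (ofKah K).f2 (curK h0).f2, inv_pos.2 hf, BB_KK P hn hn2 hu hc K,
    BB_nonneg P hn hn2 hu hc ho K hnef hiso h0, fun h s t u hu' => ?_⟩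
  have h1 := vol_iso P hn hn2 hu hc ho K h (hiso h) s t hu'
  rw [BB_cur P hn2 hc h0 h] at h1
  rw [mul_assoc, eq_inv_mul_iff_mul_eq₀ hf.ne', h1]
  ring


end

end

end Crest.Agent.R281.Vol_847
end

-- ▼ part R281/Vol3_847
section

/-!
# Row 281, OM-VOL, part 3 (helper847): unconditional forms

`vol_eq'`, `vol_le'` : `Open11` and the closedness of `σ` are discharged.
-/

set_option autoImplicit false
set_option linter.unusedSectionVars false
set_option maxSynthPendingDepth 3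

open Set Filter Topology Complex MeasureTheory
open scoped ContDiff Matrix ComplexConjugate ComplexOrder

namespace Crest.Agent.R281.Vol_847

open Crest.Agent.R275 Crest.Agent.R275.Geo Crest.Agent.R275.Core144
open Crest.Agent.R275.GC293
open Crest.Agent.R273.Defs_333 Crest.Agent.R273.HM_333
open Crest.Agent.R273.Kah_333 Crest.Agent.R273.StV_37 Crest.Agent.R273.Green_5
open Crest.Agent.R281.HkR_835 Crest.Agent.R281.Ti_846
open Crest.Agent.R281.Nef_252 (curK)
open Crest.Agent.R281.HkP2_508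
open Crest.Agent.R281.Defs_273 (H2 HSymp NefW Isotropic)
open Crest.Agent.R281.Fuj5_207 Crest.Agent.R281.Fuj7_207

noncomputable section

variable {n : ℕ} {M : Type} [TopologicalSpace M] [T2Space M] [CompactSpace M] [ConnectedSpace M]
  {B : Atl (2 * n) M} {L : LB B} [Finite B.ι] (P : Part B) (hn : 1 ≤ n) (hn2 : 2 ≤ 2 * n)
  {σ : HSymp B} (hu : σ.Uniq) (hc : ClH σ.toH2) (K : Kah B)


include hn hu in
theorem vol_eq' (hL : Nonempty (HM L)) (hnef : NefW K L) (hiso : IsoQ P hn2 hc L) :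
    ∃ c q₀ q₁ : ℝ, 0 < c ∧ 0 < q₀ ∧ 0 ≤ q₁ ∧ ∀ (h : HM L) (s t : ℝ) {u : M → ℝ} (_ : B.Sm u),
      (totc P (fun i x => ((s : ℂ) • K.g i x + (t : ℂ) • cur h i x + hsf B u i x).det)).re =
        c * s ^ n * (q₀ * s + 2 * q₁ * t) ^ n :=
  vol_eq P hn hn2 hu hc open11 K hL hnef hiso


end

end Crest.Agent.R281.Vol_847
end

-- ▼ part R281/Vol4_847
section

/-!
# Row 281, OM-VOL, part 4 (helper847): the final forms, with `Isotropic` of `Defs_273`

* `isoQ`    : `Isotropic P σ L → IsoQ`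
* `vol`     : `∫ det (s K + t cur h + ∂∂̄ u) = c s^n (q₀ s + 2 q₁ t)^n`, `c, q₀ > 0`, `q₁ ≥ 0`
* `vol_bd`  : `∫ det (s K + t cur h) ≤ C s^n (s + t)^n`
* `qd_eq`   : `intD P (qd σ X X) = c q(X, X)`, `c > 0`, for every `X : K11 B`
* `qd_vol`  : `intD P (qd σ F F) = c (q₀ s² + 2 q₁ s t)` for `F = s K + t cur h + ∂∂̄ u`
-/

set_option autoImplicit false
set_option linter.unusedSectionVars false
set_option maxSynthPendingDepth 3

open Set Filter Topology Complex MeasureTheory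
open scoped ContDiff Matrix ComplexConjugate ComplexOrder

namespace Crest.Agent.R281.Vol_847

open Crest.Agent.R275 Crest.Agent.R275.Geo Crest.Agent.R275.Core144
open Crest.Agent.R275.GC293
open Crest.Agent.R273.Defs_333 Crest.Agent.R273.HM_333
open Crest.Agent.R273.Kah_333 Crest.Agent.R273.StV_37 Crest.Agent.R273.Green_5
open Crest.Agent.R273.VolInv_5
open Crest.Agent.R273.StokesV_332 (intD)
open Crest.Agent.R281.HkR_835 Crest.Agent.R281.Ti_846
open Crest.Agent.R281.Nef_252 (curK)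
open Crest.Agent.R281.HkP2_508
open Crest.Agent.R281.FujP_513 (mixv)
open Crest.Agent.R281.Defs_273 (H2 HSymp NefW Isotropic qd)
open Crest.Agent.R281.Fuj1_207 Crest.Agent.R281.Fuj5_207 Crest.Agent.R281.Fuj7_207

noncomputable section

variable {n : ℕ} {M : Type} [TopologicalSpace M] [T2Space M] [CompactSpace M] [ConnectedSpace M]
  {B : Atl (2 * n) M} {L : LB B} [Finite B.ι] (P : Part B) (hn : 1 ≤ n) (hn2 : 2 ≤ 2 * n)
  {σ : HSymp B} (hu : σ.Uniq) (hc : ClH σ.toH2) (K : Kah B)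

include hn hu K in
theorem isoQ (h : Isotropic P σ L) : IsoQ P hn2 hc L := fun h' =>
  (Isq3_358.iso_iff P σ hu hc hn rfl hn2 K (lc (2 * n)) (bc (2 * n)) (RPart.ofPart P)
    (Isq3_358.S_pos P σ hu hc rfl K _) h').1 h

/-- **OM-VOL** -/
theorem vol (σ : HSymp B) (hu : σ.Uniq) (hn : 1 ≤ n) (hL : NefW K L) (hiso : Isotropic P σ L) :
    ∃ c q₀ q₁ : ℝ, 0 < c ∧ 0 < q₀ ∧ 0 ≤ q₁ ∧ ∀ (h : HM L) (s t : ℝ) {u : M → ℝ} (_ : B.Sm u),
      (totc P (fun i x => ((s : ℂ) • K.g i x + (t : ℂ) • cur h i x + hsf B u i x).det)).re =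
        c * s ^ n * (q₀ * s + 2 * q₁ * t) ^ n := by
  have hn2 : 2 ≤ 2 * n := by omega
  have hc : ClH σ.toH2 := clH P K σ hu _
  obtain ⟨h0, -⟩ := hL 1 one_pos
  exact vol_eq' P hn hn2 hu hc K ⟨h0⟩ hL (isoQ P hn hn2 hu hc K hiso)




end

end Crest.Agent.R281.Vol_847
end

-- ▼ part R281/OmM5_980
section

/-!
# R281 (S0424), OM-MASS (helper980), part 5: the output for `X` of dimension `2 n`

* `volB` : the bound of the total determinants (847)
* `M1`   : the volumes of the leaves of `n + 1` sections of `L^k` are bounded by one constant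
* `M2`   : `∫_T tr (cur h' + 2 e K) ≤ μ` for all leaves, `e < e0(μ)`
-/

set_option autoImplicit false
set_option linter.unusedSectionVars false

open Set Filter Topology Complex MeasureTheory Function
open scoped ContDiff Matrix ComplexConjugate ComplexOrder ENNReal

namespace Crest.Agent.R281.OmM_980

open Crest.Agent.R275 Crest.Agent.R275.Geo Crest.Agent.R275.Core144
open Crest.Agent.R273.Defs_333 Crest.Agent.R273.HM_333 Crest.Agent.R273.Kah_333
open Crest.Agent.R273.Vol_333 Crest.Agent.R273.Vm_333 Crest.Agent.R273.KahI_645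
open Crest.Agent.R281.LfS_901 (U0 qf)
open Crest.Agent.R281.Lf_703
open Crest.Agent.R281.Defs_273 (HSymp NefW Isotropic)

noncomputable section

variable {n : ℕ} {M : Type} [TopologicalSpace M] [T2Space M] [CompactSpace M] [ConnectedSpace M]
  {A : Atl (2 * n) M} {L : LB A} [Finite A.ι] (P : Part A) (K : Kah A) (σ : HSymp A)

theorem volB (hu : σ.Uniq) (hn : 1 ≤ n) (hL : NefW K L) (hiso : Isotropic P σ L) :
    ∃ C, VolB P K L n C := by
  obtain ⟨c, q₀, q₁, hc, h0, h1, h⟩ := Vol_847.vol P K σ hu hn hL hiso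
  refine ⟨c * (q₀ + 2 * q₁) ^ n, by positivity, fun hh s t u hu' hs ht => ?_⟩
  rw [h hh s t hu']
  have e1 : c * (q₀ + 2 * q₁) ^ n * s ^ n * (s + t) ^ n =
      c * s ^ n * ((q₀ + 2 * q₁) * (s + t)) ^ n := by
    rw [mul_pow]; ring
  rw [e1]
  refine mul_le_mul_of_nonneg_left ?_ (by positivity)
  refine pow_le_pow_left₀ (by positivity) ?_ n
  nlinarith [mul_nonneg h0.le ht, mul_nonneg h1 hs]

variable [MeasurableSpace M] [BorelSpace M]

/-- **(M1)** -/
theorem M1 (hu : σ.Uniq) (hn : 1 ≤ n) (hL : NefW K L) (hiso : Isotropic P σ L) (k : ℕ) :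
    ∃ v : ℝ, 0 ≤ v ∧ ∀ (s : Fin (n + 1) → A.ι → M → ℂ), (∀ a, IsHS (L ^ k) univ (s a)) →
      ∀ (O : Set M) (T : Lf A n O) (_ : PC T (U0 s) (qf s) 0), (∀ v, qf s (T.i v) = 0) →
      ∀ [MeasurableSpace T.V] [BorelSpace T.V],
        vm (volK (pullI K T.hol T.imm)) univ ≤ ENNReal.ofReal v := by
  obtain ⟨C, hC⟩ := volB P K σ hu hn hL hiso
  exact m1 (two_mul n) hC hL k

/-- **(M2)** -/
theorem M2 (hu : σ.Uniq) (hn : 1 ≤ n) (hL : NefW K L) (hiso : Isotropic P σ L) {k : ℕ}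
    (hk : 0 < k) {μ : ℝ} (hμ : 0 < μ) :
    ∃ e0 : ℝ, 0 < e0 ∧ ∀ e : ℝ, 0 < e → e < e0 → ∀ h : HM L,
      (∀ i, ∀ x ∈ (A.e i).source, (cur h i x + (e : ℂ) • K.g i x).PosSemidef) →
      ∀ (s : Fin (n + 1) → A.ι → M → ℂ), (∀ a, IsHS (L ^ k) univ (s a)) →
      ∀ (O : Set M) (T : Lf A n O) (_ : PC T (U0 s) (qf s) 0), (∀ v, qf s (T.i v) = 0) →
      ∀ [MeasurableSpace T.V] [BorelSpace T.V],
        ∫ t, (trT K T.hol T.imm h t + 2 * e * n) ∂(vm (volK (pullI K T.hol T.imm))) ≤ μ := by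
  obtain ⟨C, hC⟩ := volB P K σ hu hn hL hiso
  exact m2 (two_mul n) hC hk hμ

end

end Crest.Agent.R281.OmM_980
end

-- ▼ part R281/Om6_854
section

/-!
# R281 (S0424), S6-OMEGA (helper854), part 6: the assembly

* `MassP`      : output of OM-MASS (helper980), as a Prop
* `BrP`        : output of OM-LAG (helper677), as a Prop
* `omOut_of`   : rank `n` somewhere ⟹ `OmOut σ L`
-/

set_option autoImplicit false
set_option linter.unusedSectionVars false

open Set Filter Topology Complex MeasureTheory Metric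
open scoped ContDiff Matrix ComplexConjugate Manifold ComplexOrder ENNReal Pointwise

namespace Crest.Agent.R281.Om_854

open Crest.Agent.R275.Geo Crest.Agent.R275.Core144 Crest.Agent.R275.EDR890
open Crest.Agent.R273.Defs_333 Crest.Agent.R273.Kah_333 Crest.Agent.R273.Vol_333
open Crest.Agent.R273.HM_333 Crest.Agent.R273
open Crest.Agent.R273.Vm_333 Crest.Agent.R273.Map_835 Crest.Agent.R273.KahI_645
open Crest.Agent.R273.Fam_835 Crest.Agent.R272.FamP_54
open Crest.Agent.R281.S6D_664 Crest.Agent.R281.Lf_703 Crest.Agent.R281.LfS_901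
open Crest.Agent.R281.Tube1_989 Crest.Agent.R281.Tube2_989 Crest.Agent.R281.OmA_524
open Crest.Agent.R281.OmB_524 Crest.Agent.R281.Rk_599 Crest.Agent.R281.Glob1_484
open Crest.Agent.R281.Har_331 Crest.Agent.R281.Defs_273 Crest.Agent.R281.D6_986

noncomputable section

variable {N d m n : ℕ} {M : Type} [TopologicalSpace M]

/-- output of OM-MASS -/
def MassP {A : Atl N M} (K : Kah A) (L : LB A) (k d m : ℕ) : Prop :=
  ∀ (s : Fin (m + 1) → A.ι → M → ℂ), (∀ a, IsHS (L ^ k) univ (s a)) → ∀ (T : Lf A d (U0 s)),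
    PC T (U0 s) (qf s) 0 → (∀ v, qf s (T.i v) = 0) →
    ∀ [MeasurableSpace T.V] [BorelSpace T.V],
      vm (volK (pullI K T.hol T.imm)) univ < ⊤ ∧
      ∀ μ : ℝ, 0 < μ → ∃ e0 : ℝ, 0 < e0 ∧ ∀ e : ℝ, 0 < e → e < e0 → ∀ h' : HM L,
        (∀ i, ∀ x ∈ (A.e i).source, (cur h' i x + (e : ℂ) • K.g i x).PosSemidef) →
        ∫ t, (trT K T.hol T.imm (cur h') t + 2 * e * d) ∂(vm (volK (pullI K T.hol T.imm))) ≤ μ

/-- output of OM-LAG -/
def BrP {A : Atl (2 * n) M} (σ : HSymp A) {m : ℕ} (s : Fin (m + 1) → A.ι → M → ℂ) : Prop :=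
  ∀ i, ∀ x ∈ (A.e i).source, s 0 i x ≠ 0 → Dm A s i x * (σ.s i x)⁻¹ * (Dm A s i x)ᵀ = 0

/-- **the leaves over regular values are compact** -/
theorem compact_lf [CompactSpace M] {A : Atl N M} {L : LB A} (K : Kah A) (hnef : NefW K L)
    {k : ℕ} (hk : 0 < k) (hmass : MassP K L k d m) (h : HM L) {c1 : ℝ} (hc1 : 0 < c1)
    (hlow : LowP K (pow h k) d c1) (s : Fin (m + 1) → A.ι → M → ℂ)
    (hs : ∀ a, IsHS (L ^ k) univ (s a)) (T : Lf A d (U0 s)) (G : PC T (U0 s) (qf s) 0)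
    (hfy : ∀ v, qf s (T.i v) = 0) : CompactSpace T.V := by
  let _ : MeasurableSpace T.V := borel T.V
  have : BorelSpace T.V := ⟨rfl⟩
  obtain ⟨h1, h2⟩ := hmass s hs T G hfy
  exact compact_leaf K T.hol T.imm T.P h (hs 0) (fun t => nsM_pos (pow h k) hs (T.mem t))
    (proper_rho (pow h k) hs T) ⟨h1⟩ hk hnef hc1 hlow h2

/-- **S6-OMEGA**: rank `n` somewhere gives the Lagrangian fibration -/
theorem omOut_of [T2Space M] [CompactSpace M] [ConnectedSpace M] {A : Atl (2 * n) M} [Finite A.ι]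
    (K : Kah A) (σ : HSymp A) {L : LB A} (hnef : NefW K L) {k : ℕ} (hk : 0 < k)
    (hmass : MassP K L k n n) (hlow : ∀ h : HM L, ∃ c1, 0 < c1 ∧ LowP K (pow h k) n c1)
    {s : Fin (n + 1) → A.ι → M → ℂ} (hs : ∀ a, IsHS (L ^ k) univ (s a)) (hbr : BrP σ s)
    {i₀ : A.ι} {x₀ : M} (h₀ : Rk A s i₀ x₀) :
    ∃ o : OmOut σ L, o.k = k ∧ o.s = s 0 ∧ o.F.Tf = leaf (X0s A s) (ys A s) ∧
      o.F.Om = {x | x ∈ X0s A s ∧ IsCompact (leaf (X0s A s) (ys A s) x) ∧
        ∀ p ∈ leaf (X0s A s) (ys A s) x, ∃ i, Rk A s i p} := by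
  have : SecondCountableTopology M := Crest.Agent.R273.AsmA_73.secM (A := A)
  obtain ⟨h, -⟩ := hnef 1 one_pos
  obtain ⟨c1, hc1, hl⟩ := hlow h
  have hcpt := hcpt_of (d := n) (by omega) hs fun c T G hfy =>
    compact_lf K hnef hk hmass h hc1 hl (nzs s c) (isHS_nzs hs c) T G hfy
  obtain ⟨F, h1, h2⟩ := exists_lfib_sec A σ hs h₀ hcpt hbr
  refine ⟨⟨F, k, hk, s 0, hs 0, fun x hx i hi => ?_⟩, rfl, rfl, h2, h1⟩
  rw [h1] at hx
  exact hx.1 i hi

end

end Crest.Agent.R281.Om_854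
end

-- ▼ part R281/OmH5_331

/-!
# R281 (S0424), leaf OM-HAR (helper331), part 5: unconditional

* `lowP_of`        : `LowP` from helper389's `exists_c1`
* `compact_leaf_u` : a leaf of finite volume, `{a ≤ ρ}` compact, small mass, is compact.
-/

set_option autoImplicit false
set_option linter.unusedSectionVars false

open Set Filter Topology Complex MeasureTheory Function
open scoped ContDiff Matrix ComplexConjugate ComplexOrder

namespace Crest.Agent.R281.Har_331

open Crest.Agent.R275 Crest.Agent.R275.Geo Crest.Agent.R275.Core144 Crest.Agent.R275.EDR890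
open Crest.Agent.R273.Defs_333 Crest.Agent.R273.Hess_333 Crest.Agent.R273.HessB_333
open Crest.Agent.R273.HM_333 Crest.Agent.R273.Kah_333 Crest.Agent.R273.Vol_333
open Crest.Agent.R273.Vm_333 Crest.Agent.R273.Map_835 Crest.Agent.R273.KahI_645
open Crest.Agent.R273.Green_5 Crest.Agent.R273.FIa0_597 Crest.Agent.R273.FIb0_597
open Crest.Agent.R273.FIc0_597 Crest.Agent.R273
open Crest.Agent.R273.SchI_152 (Dg sm_sq Dg_nonneg continuous_Dg)
open Crest.Agent.R281.Glob1_484 Crest.Agent.R281.S6D_664 Crest.Agent.R281.Defs_273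

noncomputable section

variable {n : ℕ} {M : Type} [TopologicalSpace M] {A : Atl n M} {L L' : LB A}

/-- compact sets of `{s ≠ 0}` have compact preimage -/
theorem proper_of {T : Type} [TopologicalSpace T] (h : HM L) {s : A.ι → M → ℂ}
    (hs : IsHS L univ s) {f : T → M} (cf : Continuous f) [T2Space M]
    (hprop : ∀ a, IsCompact {t | a ≤ rho h s f t}) {Q : Set M} (hQ : IsCompact Q)
    (hpos : ∀ x ∈ Q, 0 < nsM h s x) : IsCompact (f ⁻¹' Q) := by
  rcases Q.eq_empty_or_nonempty with rfl | hne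
  · simp
  · have cn : Continuous (nsM h s) := cont_sm (sm_nsM h hs)
    obtain ⟨x0, hx0, hmin⟩ := hQ.exists_isMinOn hne cn.continuousOn
    refine (hprop (Real.log (nsM h s x0))).of_isClosed_subset (hQ.isClosed.preimage cf)
      fun t ht => ?_
    exact Real.log_le_log (hpos x0 hx0) (hmin ht)


/-- **`LowP`** -/
theorem lowP_of [T2Space M] [CompactSpace M] (K : Kah A) (h : HM L) {d : ℕ} (hd : 0 < d) :
    ∃ c1 : ℝ, 0 < c1 ∧ LowP K h d c1 := by
  obtain ⟨c1, hc1, H⟩ := Hk_389.exists_c1 K h hd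
  refine ⟨c1, hc1, ?_⟩
  intro T _ _ _ _ _ B _ P f hf hi s hs hp hprop q
  obtain ⟨Z, hZ, hZs, hZc⟩ := H T B P f hf hi s hs hp
    (fun Q hQ hpos => proper_of h hs hf.cont hprop hQ hpos) q
  set KT := pullI K hf hi with hKT
  set μ := vm (volK KT) with hμ
  set S : Set T := {x | rho h s f q - 1 < rho h s f x ∧ rho h s f x < rho h s f q + 1} with hS
  have sρ : B.Sm (rho h s f) := sm_rho h hs hf hp
  have cG : Continuous (Dg KT (rho h s f)) := continuous_Dg KT sρ
  have : IsLocallyFiniteMeasure μ := isLocallyFinite_vm _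
  have hC := hprop (rho h s f q - 1)
  have hsub : S ⊆ {t | rho h s f q - 1 ≤ rho h s f t} := fun x hx => hx.1.le
  have hZS : Z ⊆ S := fun x hx => hZs x hx
  have hfinS : μ S ≠ ⊤ := ((measure_mono hsub).trans_lt hC.measure_lt_top).ne
  have iS : IntegrableOn (Dg KT (rho h s f)) S μ :=
    (cG.continuousOn.integrableOn_compact hC).mono_set hsub
  refine hZc.trans (add_le_add ?_ ?_)
  · exact measureReal_mono hZS hfinS
  · exact setIntegral_mono_set iS (Eventually.of_forall fun x => Dg_nonneg KT sρ x)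
      (LE.le.eventuallyLE hZS)


end

end Crest.Agent.R281.Har_331
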