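import Crest.Agent.R273.LimB_505
import Crest.Agent.R273.Vol_333

/-!
# R281 (S0424), DIV 7, lemma OPEN, part O2 (helper849), file 1: forms of type (0,1) with values in `L`

Step (b) of 286's lemma OPEN (#7046), from the Bochner-Kodaira-Nakano identity of R273 (37, 243).

* `IsQ L q` : smooth (0,1)-forms with values in `L` (`q i x k` = coefficient of `dz̄_k`);
* `IsX L X` : smooth vector fields with values in `L`;
* `shp K`, `flt K` : raising and lowering of the index;
* `e1 X = X ∧ 1` : the polyvector of degree one; `duV`, `delV`, `dbV`, `NullV` of `e1 X`.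
-/

set_option autoImplicit false
set_option linter.unusedSectionVars false

open Set Filter Topology Complex Matrix
open scoped ContDiff Matrix ComplexConjugate Manifold ComplexOrder

namespace Crest.Agent.R281.OpB_849

open Crest.Agent.R273 Crest.Agent.R275 Crest.Agent.R275.Geo Crest.Agent.R275.Core144
open Crest.Agent.R275.OmT75 (dl)
open Crest.Agent.R273.Defs_333 Crest.Agent.R273.HM_333 Crest.Agent.R273.Kah_333
open Crest.Agent.R273.Vol_333
open Crest.Agent.R273.Fock_243 Crest.Agent.R273.Calc_243 Crest.Agent.R273.Bkn_243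
open Crest.Agent.R273.LamN127 Crest.Agent.R273.DVec_733 Crest.Agent.R273.DMet_733
open Crest.Agent.R273.DMetB_733 Crest.Agent.R273.StV_37
open Crest.Agent.R273.BKNa_37 Crest.Agent.R273.BKNb_37 Crest.Agent.R273.BKNc_37
open Crest.Agent.R273.BKNd_37 Crest.Agent.R273.BKNe_37

noncomputable section

variable {n : ℕ} {M : Type} [TopologicalSpace M] {A : Atl n M}

/-! ### the objects -/

/-- smooth (0,1)-forms with values in `L`: `q i x k` is the coefficient of `dz̄_k` -/
structure IsQ (L : LB A) (q : A.ι → M → Fin n → ℂ) : Prop where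
  sm : ∀ i k, A.SmAt i (fun x => q i x k)
  tr : ∀ i j, ∀ x ∈ (A.e i).source ∩ (A.e j).source, q i x = L.g i j x • (Jb A i j x *ᵥ q j x)

/-- smooth vector fields of type (1,0) with values in `L` -/
structure IsX (L : LB A) (X : A.ι → M → Fin n → ℂ) : Prop where
  sm : ∀ i k, A.SmAt i (fun x => X i x k)
  tr : ∀ i j, ∀ x ∈ (A.e i).source ∩ (A.e j).source, X i x = L.g i j x • (Jm A j i x *ᵥ X j x)

/-- raising the index -/
def shp (K : Kah A) (q : A.ι → M → Fin n → ℂ) : A.ι → M → Fin n → ℂ :=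
  fun i x => ((K.g i x)ᵀ)⁻¹ *ᵥ q i x

/-- lowering the index -/
def flt (K : Kah A) (X : A.ι → M → Fin n → ℂ) : A.ι → M → Fin n → ℂ :=
  fun i x => (K.g i x)ᵀ *ᵥ X i x

variable (K : Kah A) {L : LB A}

theorem flt_shp (q : A.ι → M → Fin n → ℂ) {i : A.ι} {x : M} (hx : x ∈ (A.e i).source) :
    flt K (shp K q) i x = q i x := by
  unfold flt shp
  rw [Matrix.mulVec_mulVec, DVec_733.mul_inv K hx, Matrix.one_mulVec]


theorem T_tr {i j : A.ι} {x : M} (hx : x ∈ (A.e i).source ∩ (A.e j).source) :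
    (K.g i x)ᵀ * Jm A j i x = Jb A i j x * (K.g j x)ᵀ := by
  rw [K.tr i j x hx, Matrix.transpose_mul, Matrix.transpose_mul, Matrix.transpose_transpose,
    Matrix.mul_assoc, Matrix.mul_assoc, Jm_mul_symm hx, Matrix.mul_one]
  rfl

theorem Ti_tr {i j : A.ι} {x : M} (hx : x ∈ (A.e i).source ∩ (A.e j).source) :
    ((K.g i x)ᵀ)⁻¹ * Jb A i j x = Jm A j i x * ((K.g j x)ᵀ)⁻¹ := by
  have h : ((K.g i x)ᵀ)⁻¹ * ((K.g i x)ᵀ * Jm A j i x) * ((K.g j x)ᵀ)⁻¹ =
      ((K.g i x)ᵀ)⁻¹ * (Jb A i j x * (K.g j x)ᵀ) * ((K.g j x)ᵀ)⁻¹ := by rw [T_tr K hx]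
  rw [← Matrix.mul_assoc, DVec_733.inv_mul K hx.1, Matrix.one_mul,
    Matrix.mul_assoc ((K.g i x)ᵀ)⁻¹, Matrix.mul_assoc (Jb A i j x), DVec_733.mul_inv K hx.2,
    Matrix.mul_one] at h
  exact h.symm

theorem gT_sm (i : A.ι) (a b : Fin n) : A.SmAt i (fun x => (K.g i x)ᵀ a b) := K.sm i b a

theorem gTi_sm (i : A.ι) (a b : Fin n) : A.SmAt i (fun x => ((K.g i x)ᵀ)⁻¹ a b) :=
  DVec_733.smAt_inv (m := fun x => (K.g i x)ᵀ) (fun a b => gT_sm K i a b)
    (fun _ hx => DVec_733.det_ne K hx) a b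

theorem IsQ.shp {q : A.ι → M → Fin n → ℂ} (hq : IsQ L q) : IsX L (shp K q) where
  sm i k := DVec_733.smAt_mulVec (m := fun x => ((K.g i x)ᵀ)⁻¹) (fun a b => gTi_sm K i a b)
    (hq.sm i) k
  tr i j x hx := by
    unfold OpB_849.shp
    rw [hq.tr i j x hx, Matrix.mulVec_smul, Matrix.mulVec_mulVec, Matrix.mulVec_mulVec,
      Ti_tr K hx]

theorem IsX.flt {X : A.ι → M → Fin n → ℂ} (hX : IsX L X) : IsQ L (flt K X) where
  sm i k := DVec_733.smAt_mulVec (m := fun x => (K.g i x)ᵀ) (fun a b => gT_sm K i a b)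
    (hX.sm i) k
  tr i j x hx := by
    unfold OpB_849.flt
    rw [hX.tr i j x hx, Matrix.mulVec_smul, Matrix.mulVec_mulVec, Matrix.mulVec_mulVec,
      T_tr K hx]

/-! ### polyvectors of degree one -/

/-- the vacuum -/
def vac (n : ℕ) : FI n → ℂ := Pi.single ∅ 1

/-- the polyvector `X ∧ 1` -/
def e1 (X : Fin n → ℂ) : FI n → ℂ := eW X *ᵥ vac n


theorem e1_smul (c : ℂ) (X : Fin n → ℂ) : e1 (c • X) = c • e1 X := by
  unfold e1; rw [eW_smul, Matrix.smul_mulVec]

theorem e1_ep (a : Fin n) : e1 (ep a) = Pi.single {a} 1 := by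
  unfold e1 vac
  rw [eW_single (by simp)]
  rfl

theorem e1_eq (X : Fin n → ℂ) : e1 X = ∑ a, X a • (Pi.single {a} 1 : FI n → ℂ) := by
  unfold e1
  rw [eW_eq_sum, Matrix.sum_mulVec]
  refine Finset.sum_congr rfl fun a _ => ?_
  rw [Matrix.smul_mulVec, ← e1_ep]
  rfl

theorem e1_apply (X : Fin n → ℂ) (a : Fin n) : e1 X {a} = X a := by
  rw [e1_eq, Finset.sum_apply, Finset.sum_eq_single a]
  · simp
  · intro b _ hb
    have h1 : ({a} : FI n) ≠ {b} := fun h => hb (Finset.singleton_injective h).symm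
    simp [h1]
  · simp

theorem e1_off (X : Fin n → ℂ) {S : FI n} (hS : S.card ≠ 1) : e1 X S = 0 := by
  rw [e1_eq, Finset.sum_apply]
  refine Finset.sum_eq_zero fun b _ => ?_
  have h1 : S ≠ {b} := fun h => hS (by rw [h]; simp)
  simp [h1]


theorem e1_zero : e1 (0 : Fin n → ℂ) = 0 := by
  unfold e1
  simp


theorem Gam_e1 (m : Matrix (Fin n) (Fin n) ℂ) (X : Fin n → ℂ) :
    Gam m *ᵥ e1 X = e1 (m *ᵥ X) := by
  unfold e1 vac
  have h1 : Gam m *ᵥ (Pi.single ∅ 1 : FI n → ℂ) = Pi.single ∅ 1 := by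
    funext S
    rw [Matrix.mulVec_single_one]
    show Gam m S ∅ = _
    rw [Gam_vac]
    by_cases h : S = ∅
    · subst h; simp
    · simp [h]
  rw [Matrix.mulVec_mulVec, Gam_eW, ← Matrix.mulVec_mulVec, h1]



/-- the family of polyvectors -/
def E1 (X : A.ι → M → Fin n → ℂ) : A.ι → M → FI n → ℂ := fun i x => e1 (X i x)

theorem e1_sm {i : A.ι} {X : M → Fin n → ℂ} (h : ∀ k, A.SmAt i (fun x => X x k)) (T : FI n) :
    A.SmAt i (fun x => e1 (X x) T) := by
  by_cases hT : T.card = 1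
  · obtain ⟨a, rfl⟩ := Finset.card_eq_one.1 hT
    simp only [e1_apply]
    exact h a
  · simp only [e1_off _ hT]
    exact contDiffOn_const

theorem IsX.isV {X : A.ι → M → Fin n → ℂ} (hX : IsX L X) : IsV L (E1 X) where
  sm i T := e1_sm (hX.sm i) T
  tr i j x hx := by
    show e1 (X i x) = L.g i j x • (Gam (Jm A j i x) *ᵥ e1 (X j x))
    rw [Gam_e1, hX.tr i j x hx, e1_smul]





/-! ### closed forms -/


theorem db_congr' {i : A.ι} {f g : M → ℂ} (h : ∀ x ∈ (A.e i).source, f x = g x) {k : Fin n} {x : M}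
    (hx : x ∈ (A.e i).source) : A.db i k f x = A.db i k g x := by
  rw [db_eq_dS, db_eq_dS]
  refine dS_congr ?_
  filter_upwards [(A.e i).open_target.mem_nhds ((A.e i).map_source hx)] with z hz
  exact h _ ((A.e i).map_target hz)




/-! ### the divergence -/

/-- the metric of `K_M⁻¹ ⊗ L` -/
def HKL (h : HM L) : HM ((KB A)⁻¹ * L) := mul (volK K) h




/-- flatness of the metric of the volume: `cur (volK K ⊗ h) = cur h` -/
theorem cur_HKL (hR : ∀ i, ∀ x ∈ (A.e i).source, cur (volK K) i x = 0) (h : HM L) {i : A.ι} {x : M}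
    (hx : x ∈ (A.e i).source) : cur (HKL K h) i x = cur h i x := by
  have hz := (A.e i).map_source hx
  have h1 : (HKL K h).wt i =ᶠ[𝓝 (A.e i x)] fun z => (volK K).wt i z + h.wt i z := by
    filter_upwards [(A.e i).open_target.mem_nhds hz] with z hz'
    exact wt_mul (volK K) h i hz'
  unfold cur
  rw [Crest.Agent.R273.HessB_333.hess_congr h1,
    Crest.Agent.R273.HessB_333.hess_add (wt_contDiffAt _ i hz) (wt_contDiffAt h i hz)]
  have h2 := hR i x hx
  unfold cur at h2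
  rw [h2, zero_add]

theorem HKL_semipos (hR : ∀ i, ∀ x ∈ (A.e i).source, cur (volK K) i x = 0) {h : HM L}
    (hs : h.Semipos) : (HKL K h).Semipos :=
  semipos_of_cur fun i x hx => by
    rw [cur_HKL K hR h hx]
    exact cur_posSemidef hs i hx


/-! ### the theorem -/

/-- holomorphic components -/
def HolX (X : A.ι → M → Fin n → ℂ) : Prop := ∀ i k, HolAt A i univ (fun x => X i x k)

/-- null for the curvature of `h` -/
def NulX (h : HM L) (X : A.ι → M → Fin n → ℂ) : Prop :=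
  ∀ i, ∀ x ∈ (A.e i).source, ∀ c, ∑ d, cur h i x d c * X i x d = 0



end

end Crest.Agent.R281.OpB_849
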