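import Crest.Agent.R281.AgM1_313_Mg
import Crest.Agent.R281.Dvp2_326
import Crest.Agent.R281.OTB1_280
import Crest.Agent.R281.OT3_763
import Crest.Agent.R281.OT2_763
import Crest.Agent.R281.Mc2_673
import Crest.Agent.R281.Per5_368
import Crest.Agent.R281.OT7_763
import Crest.Agent.R281.OpN3_396
import Crest.Agent.R281.RkD_902
import Crest.Agent.R281.OpD7_569
import Crest.Agent.R281.OpT3_330
import Crest.Agent.R273.Levi_145
import Crest.Agent.R281.Rk2_599
import Crest.Agent.R281.OpB7_849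
import Crest.Agent.R281.Tub2_836
import Crest.Agent.R281.TubT_831
import Crest.Agent.R281.Rk3_599
import Crest.Agent.R281.PL4_713
import Crest.Agent.R281.Rkd5_386
import Crest.Agent.R281.OpG5_941

-- ▼ part R281/Aga3_581
section

/-!
# R281 (S0424), DIV 2 (helper581): the node `RoadP`

* `memMk`   : the markings with the prescribed classes carry `MemA` (helper313, 592, 957)
* `algP`    : **helper957's (d)** in the context
* `div2P`   : **DIV 2** : `Div2P Alg_867.Alg`
* `road`    : **the node `RoadP Alg_867.Alg`** (helper326)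
-/

set_option autoImplicit false
set_option linter.unusedSectionVars false
set_option maxSynthPendingDepth 3

open Set Filter Topology
open scoped ContDiff

namespace Crest.Agent.R281.Aga_581

open Crest.Agent.R275.Geo Crest.Agent.R275.Core144
open Crest.Agent.R281.HkR_835 Crest.Agent.R281.Ehr2_268 Crest.Agent.R281.Dif_268
  Crest.Agent.R281.Ehr4_268 Crest.Agent.R281.Ehr6_268 Crest.Agent.R281.Ehr7_268
  Crest.Agent.R281.Ehr8_268 Crest.Agent.R281.Cdr_234 Crest.Agent.R281.Alg_998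
  Crest.Agent.R281.Dv_957 Crest.Agent.R281.Pe_313 Crest.Agent.R281.RkD_902
open Crest.Agent.R281.Sta2_684 (QS)
open Crest.Agent.R281.Hmi_790 (qs hmOut)
open Crest.Agent.R281.Rd_326 (Div2P roadP)
open Crest.Agent.R281.Dvp_326 (liftP AlgP div2P_of roadP_of)

noncomputable section

section mk

variable {n : ℕ} {X : Type} [TopologicalSpace X] [CompactSpace X] [T2Space X]
  {C : RCh (Cn (2 * n)) X} {Q : F2 C →ₗ[ℝ] F2 C →ₗ[ℝ] ℝ}

theorem Cl_of_cl {w w' : F2 C} (h : cl w = cl w') : Cl w w' :=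
  (ex_sub_iff w w').mpr (cl_eq_iff.mp h)

/-- **the markings with the prescribed classes carry the algebraic data** -/
theorem memMk {T : Ty (2 * n) C} {F : Frm C Q} {A : F2 C} (rel : T.Rel A) :
    ∃ κ : ℝ, 0 < κ ∧ MemMk T F A κ := by
  obtain ⟨c, hc, h⟩ := rel
  exact ⟨Real.pi * c, mul_pos Real.pi_pos hc, fun m β τ H hcx hcls h1 h2 =>
    ⟨AgM_313.memA_of_mark T m hcx (Cl_of_cl (cl_eq_iff.mpr (T.ex_tot hcls h))) (Cl_of_cl h1)
      (Cl_of_cl h2)⟩⟩

end mk

/-- **the algebraic data of all ends** (957's (d)) -/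
theorem algP : AlgP liftP Alg_867.Alg := by
  intro n X _ _ _ _ C Q hC F
  exact algAll_of_mk (hmOut hC F) (liftP n X C Q hC F) fun T ok A hA rel => memMk rel


/-- **the node `RoadP`** -/
theorem road : RoadP Alg_867.Alg := roadP_of liftP algP

end

end Crest.Agent.R281.Aga_581
end

-- ▼ part R281/OTB2_280
section

/-!
# Row 281, OPEN-TORI, part (OT-B) 2 (helper280): the real coordinates `(θ, v)` on a `HolTube`
-/

set_option autoImplicit false
set_option linter.unusedSectionVars false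
set_option maxSynthPendingDepth 3

open Set Filter Topology Complex
open scoped ContDiff

namespace Crest.Agent.R281.OTB_280

open Crest.Agent.R275.Geo (Cn)
open Crest.Agent.R281.HkR_835 Crest.Agent.R281.Per_368 Crest.Agent.R281.Tub_831
open Crest.Agent.R281.Mc673 (V W tube kv ClF isOpen_tube)

noncomputable section

variable {n : ℕ}

/-- the real coordinates of `Cn n × Cn n` over `D` -/
def GG (y0 : Cn n) (Y : V (2 * n) →L[ℝ] Cn n) (l : Fin (2 * n) → Cn n → Cn n)
    (p : W (2 * n)) : Cn n × Cn n :=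
  (y0 + Y p.2, ∑ j, p.1 j • l j (y0 + Y p.2))

section G

variable {D : Set (Cn n)} {l : Fin (2 * n) → Cn n → Cn n} {y0 : Cn n}
  {Y : V (2 * n) ≃L[ℝ] Cn n} {r : ℝ}

theorem lsm (hD : IsOpen D) (hl : ∀ k, DifferentiableOn ℂ (l k) D) (k : Fin (2 * n)) :
    ContDiffOn ℝ ∞ (l k) D :=
  ((Crest.Agent.R266.SCV.contDiffOn_omega_of_differentiableOn hD (hl k)).restrict_scalars ℝ).of_le
    le_top

theorem GG_sm (hD : IsOpen D) (hl : ∀ k, DifferentiableOn ℂ (l k) D)
    (hr : ∀ v : V (2 * n), ‖v‖ < r → y0 + Y v ∈ D) :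
    ContDiffOn ℝ ∞ (GG y0 (Y : V (2 * n) →L[ℝ] Cn n) l) (tube (2 * n) r) := by
  have h1 : ContDiffOn ℝ ∞ (fun p : W (2 * n) => y0 + Y p.2) (tube (2 * n) r) := by
    refine (contDiff_const.add ?_).contDiffOn
    exact Y.contDiff.comp contDiff_snd
  refine h1.prodMk ?_
  refine ContDiffOn.sum fun j _ => ?_
  have h2 : ContDiffOn ℝ ∞ (fun p : W (2 * n) => p.1 j) (tube (2 * n) r) :=
    (((EuclideanSpace.proj j : V (2 * n) →L[ℝ] ℝ).contDiff).comp contDiff_fst).contDiffOn
  have h3 : ContDiffOn ℝ ∞ (fun p : W (2 * n) => l j (y0 + Y p.2)) (tube (2 * n) r) :=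
    (lsm hD hl j).comp h1 fun p hp => hr p.2 hp
  exact h2.smul h3

theorem GG_fd (hD : IsOpen D) (hl : ∀ k, DifferentiableOn ℂ (l k) D)
    (hr : ∀ v : V (2 * n), ‖v‖ < r → y0 + Y v ∈ D) {p : W (2 * n)} (hp : p ∈ tube (2 * n) r)
    (u : W (2 * n)) :
    fderiv ℝ (GG y0 (Y : V (2 * n) →L[ℝ] Cn n) l) p u =
      (Y u.2, ∑ j, (p.1 j • fderiv ℝ (l j) (y0 + Y p.2) (Y u.2) +
        u.1 j • l j (y0 + Y p.2))) := by
  have h1 : HasFDerivAt (fun p : W (2 * n) => y0 + Y p.2)
      ((Y : V (2 * n) →L[ℝ] Cn n).comp (ContinuousLinearMap.snd ℝ (V (2 * n)) (V (2 * n)))) p :=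
    (((Y : V (2 * n) →L[ℝ] Cn n).comp
      (ContinuousLinearMap.snd ℝ (V (2 * n)) (V (2 * n)))).hasFDerivAt).const_add y0
  have h2 : ∀ j, HasFDerivAt (l j) (fderiv ℝ (l j) (y0 + Y p.2)) (y0 + Y p.2) := fun j =>
    (((lsm hD hl j).contDiffAt (hD.mem_nhds (hr p.2 hp))).differentiableAt
      (by simp)).hasFDerivAt
  have h3 : ∀ j, HasFDerivAt (fun p : W (2 * n) => l j (y0 + Y p.2)) _ p := fun j =>
    HasFDerivAt.comp (g := l j) p (h2 j) h1
  have h4 : ∀ j, HasFDerivAt (fun p : W (2 * n) => p.1 j)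
      ((EuclideanSpace.proj j : V (2 * n) →L[ℝ] ℝ).comp
        (ContinuousLinearMap.fst ℝ (V (2 * n)) (V (2 * n)))) p := fun j =>
    ((EuclideanSpace.proj j : V (2 * n) →L[ℝ] ℝ).comp
        (ContinuousLinearMap.fst ℝ (V (2 * n)) (V (2 * n)))).hasFDerivAt
  have h5 := HasFDerivAt.fun_sum (u := Finset.univ) fun j _ => (h4 j).smul (h3 j)
  have h6 := h1.prodMk h5
  have h7 : HasFDerivAt (GG y0 (Y : V (2 * n) →L[ℝ] Cn n) l) _ p := h6
  rw [h7.fderiv]
  refine Prod.ext rfl ?_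
  simp

end G

section tube

variable {M X : Type} [NormedAddCommGroup M] [NormedSpace ℝ M] [TopologicalSpace X]
variable {C : RCh M X} {J : C.ι → M → M →L[ℝ] M} {w w' : F2 C} {D : Set (Cn n)}
  {Ψ : Cn n × Cn n → X} {l : Fin (2 * n) → Cn n → Cn n} {τ : Cn n → Cn n → Cn n → ℂ}
  {y0 : Cn n} {Y : V (2 * n) ≃L[ℝ] Cn n} {r : ℝ}

theorem GG_maps (hr : ∀ v : V (2 * n), ‖v‖ < r → y0 + Y v ∈ D) :
    MapsTo (GG y0 (Y : V (2 * n) →L[ℝ] Cn n) l) (tube (2 * n) r) (D ×ˢ univ) :=
  fun p hp => ⟨hr p.2 hp, mem_univ _⟩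

/-- the form in the coordinates `(y, x)` -/
def sg (a b : Cn n × Cn n) : ℂ := bl a.2 b.1 - bl a.1 b.2

theorem symp' (h : HolTube C J w w' n D Ψ l τ) {p : Cn n × Cn n} (hp : p.1 ∈ D)
    (u v : Cn n × Cn n) :
    ((pull w Ψ p u v : ℝ) : ℂ) + I * ((pull w' Ψ p u v : ℝ) : ℂ) =
      sg u v + τ p.1 u.1 v.1 := by
  rw [h.symp p hp u v]
  unfold sg bl
  rw [← Finset.sum_sub_distrib]

theorem tau_zero (h : HolTube C J w w' n D Ψ l τ) {y : Cn n} (hy : y ∈ D) (a : Cn n) :
    τ y a 0 = 0 := by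
  have h1 := symp' h (p := (y, 0)) hy (a, 0) (0, 0)
  have h2 : ((a, 0) : Cn n × Cn n) = (a, 0) := rfl
  have h3 : (((0 : Cn n), (0 : Cn n)) : Cn n × Cn n) = 0 := rfl
  rw [h3, map_zero, map_zero] at h1
  simp only [sg, bl_zero, Prod.fst_zero, Prod.snd_zero] at h1
  simpa using h1.symm

/-- **real coordinates on a holomorphic tube of Lagrangian tori** -/
theorem exists_prd (h : HolTube C J w w' n D Ψ l τ) (hy0 : y0 ∈ D) :
    ∃ (r : ℝ) (Y : V (2 * n) ≃L[ℝ] Cn n) (Cc : V (2 * n) →L[ℝ] V (2 * n)) (Psi : W (2 * n) → X),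
      0 < r ∧ (∀ v, ‖v‖ < r → y0 + Y v ∈ D) ∧
      (∀ p, Psi p = Ψ (y0 + Y p.2, ∑ j, p.1 j • l j (y0 + Y p.2))) ∧
      (∀ v, Cc (Cc v) = -v) ∧ (∀ v, Y (Cc v) = -(I • Y v)) ∧
      SmI C (tube (2 * n) r) Psi ∧
      (∀ p ∈ tube (2 * n) r, ∀ k, Psi (p.1 + kv k, p.2) = Psi p) ∧
      (∀ p ∈ tube (2 * n) r, ∀ p' ∈ tube (2 * n) r, Psi p = Psi p' ↔
        p.2 = p'.2 ∧ ∃ k, p.1 = p'.1 + kv k) ∧
      (∀ p ∈ tube (2 * n) r, ∀ i, Psi p ∈ (C.e i).source →
        Function.Injective (fderiv ℝ (fun q => C.e i (Psi q)) p)) ∧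
      (∀ θ u v, pull w Psi (θ, 0) (u, 0) (v, 0) = 0) ∧
      (∀ θ u v, pull w' Psi (θ, 0) (u, 0) (v, 0) = 0) ∧
      (∀ θ v u, pull w Psi (θ, 0) (0, v) (u, 0) = inner ℝ v u) ∧
      (∀ θ v u, pull w' Psi (θ, 0) (0, v) (u, 0) = inner ℝ (Cc v) u) := by
  obtain ⟨Y, hY⟩ := exists_dual (h.lli y0 hy0)
  have hcont : Continuous fun v : V (2 * n) => y0 + Y v := continuous_const.add Y.continuous
  have hn : ∀ᶠ v in 𝓝 (0 : V (2 * n)), y0 + Y v ∈ D := by
    refine hcont.continuousAt.eventually_mem (h.op.mem_nhds ?_)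
    simpa using hy0
  obtain ⟨r, hr0, hr1⟩ := Metric.eventually_nhds_iff.1 hn
  have hr : ∀ v : V (2 * n), ‖v‖ < r → y0 + Y v ∈ D := fun v hv =>
    hr1 (by simpa [dist_eq_norm] using hv)
  set G := GG y0 (Y : V (2 * n) →L[ℝ] Cn n) l with hG
  have hGs : ContDiffOn ℝ ∞ G (tube (2 * n) r) := GG_sm h.op h.lhol hr
  have hGm : MapsTo G (tube (2 * n) r) (D ×ˢ univ) := GG_maps hr
  have h0 : ∀ θ : V (2 * n), ((θ, 0) : W (2 * n)) ∈ tube (2 * n) r := fun θ => by
    show ‖(0 : V (2 * n))‖ < r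
    simpa using hr0
  have hG0 : ∀ θ : V (2 * n), (G (θ, 0)).1 = y0 := fun θ => by
    show y0 + Y 0 = y0
    simp
  -- the differential on the vectors `(u, 0)` and `(0, v)`
  have hGu : ∀ θ u : V (2 * n), fderiv ℝ G (θ, 0) (u, 0) = (0, ∑ j, u j • l j y0) := by
    intro θ u
    rw [hG, GG_fd h.op h.lhol hr (h0 θ)]
    refine Prod.ext (by simp) ?_
    simp
  have hGv : ∀ θ v : V (2 * n), (fderiv ℝ G (θ, 0) (0, v)).1 = Y v := by
    intro θ v
    rw [hG, GG_fd h.op h.lhol hr (h0 θ)]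
  have huu : ∀ θ u v : V (2 * n),
      ((pull w (fun p => Ψ (G p)) (θ, 0) (u, 0) (v, 0) : ℝ) : ℂ) +
        I * ((pull w' (fun p => Ψ (G p)) (θ, 0) (u, 0) (v, 0) : ℝ) : ℂ) = 0 := by
    intro θ u v
    rw [pull_comp h.sm (isOpen_tube r) hGs hGm w (h0 θ),
      pull_comp h.sm (isOpen_tube r) hGs hGm w' (h0 θ), symp' h (hGm (h0 θ)).1, hGu, hGu]
    simp only [sg, bl_zero, zero_bl, sub_zero, zero_add]
    exact tau_zero h (hGm (h0 θ)).1 _
  have huv : ∀ θ v u : V (2 * n),
      ((pull w (fun p => Ψ (G p)) (θ, 0) (0, v) (u, 0) : ℝ) : ℂ) +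
        I * ((pull w' (fun p => Ψ (G p)) (θ, 0) (0, v) (u, 0) : ℝ) : ℂ) =
        ∑ j, ((u j : ℝ) : ℂ) * (-bl (l j y0) (Y v)) := by
    intro θ v u
    rw [pull_comp h.sm (isOpen_tube r) hGs hGm w (h0 θ),
      pull_comp h.sm (isOpen_tube r) hGs hGm w' (h0 θ), symp' h (hGm (h0 θ)).1, hGu]
    simp only [sg, bl_zero, zero_sub]
    rw [tau_zero h (hGm (h0 θ)).1, add_zero, hGv, bl_comm, sum_bl, ← Finset.sum_neg_distrib]
    refine Finset.sum_congr rfl fun j _ => ?_
    rw [smul_bl]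
    ring
  refine ⟨r, Y, CcL (fun j => l j y0) Y, fun p => Ψ (G p), hr0, hr, fun p => rfl,
    CcL_CcL (h.lli y0 hy0) hY, Y_CcL (h.lli y0 hy0) hY,
    SmI.comp h.sm (isOpen_tube r) hGs hGm, ?_, ?_, ?_, ?_, ?_, ?_, ?_⟩
  · intro p hp k
    refine (h.eq_iff _ (hr p.2 hp) _ (hr p.2 hp) _ _).2 ⟨rfl, k, ?_⟩
    rw [← Finset.sum_sub_distrib]
    refine Finset.sum_congr rfl fun j _ => ?_
    rw [← sub_smul]
    congr 1
    show p.1 j + (k j : ℝ) - p.1 j = _
    ring
  · intro p hp p' hp'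
    constructor
    · intro he
      obtain ⟨h1, m, hm⟩ := (h.eq_iff _ (hr p.2 hp) _ (hr p'.2 hp') _ _).1 he
      have h2 : p.2 = p'.2 := Y.injective (add_left_cancel h1)
      refine ⟨h2, m, ?_⟩
      have h3 : ∑ j, (p.1 j - p'.1 j - (m j : ℝ)) • l j (y0 + Y p.2) = 0 := by
        have h4 : (∑ j, p.1 j • l j (y0 + Y p.2)) - ∑ j, p'.1 j • l j (y0 + Y p.2) =
            ∑ k, (m k : ℝ) • l k (y0 + Y p.2) := by
          have h5 := hm
          change (∑ j, p.1 j • l j (y0 + Y p.2)) - ∑ j, p'.1 j • l j (y0 + Y p'.2) =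
            ∑ k, (m k : ℝ) • l k (y0 + Y p.2) at h5
          rw [← h2] at h5
          exact h5
        simp only [sub_smul, Finset.sum_sub_distrib]
        rw [h4, sub_self]
      have h4 := Fintype.linearIndependent_iff.1 (h.lli _ (hr p.2 hp)) _ h3
      ext j
      show p.1 j = p'.1 j + (m j : ℝ)
      linarith [h4 j]
    · rintro ⟨h2, m, hm⟩
      refine (h.eq_iff _ (hr p.2 hp) _ (hr p'.2 hp') _ _).2 ⟨?_, m, ?_⟩
      · show y0 + Y p.2 = y0 + Y p'.2
        rw [h2]
      · show (∑ j, p.1 j • l j (y0 + Y p.2)) - ∑ j, p'.1 j • l j (y0 + Y p'.2) =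
          ∑ k, (m k : ℝ) • l k (y0 + Y p.2)
        rw [← h2, ← Finset.sum_sub_distrib]
        refine Finset.sum_congr rfl fun j _ => ?_
        rw [← sub_smul]
        congr 1
        rw [hm]
        show p'.1 j + (m j : ℝ) - p'.1 j = _
        ring
  · intro p hp i hi
    rw [fderiv_comp_e h.sm (isOpen_tube r) hGs hGm hp hi]
    refine (h.inj (G p) (hGm hp).1 i hi).comp ?_
    rw [← LinearMap.coe_coe, ← LinearMap.ker_eq_bot, LinearMap.ker_eq_bot']
    intro u hu
    have hu' : fderiv ℝ G p u = 0 := hu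
    rw [hG, GG_fd h.op h.lhol hr hp] at hu'
    have h1 : Y u.2 = 0 := congrArg Prod.fst hu'
    have h2 : u.2 = 0 := Y.injective (by rw [h1, map_zero])
    have h3 := congrArg Prod.snd hu'
    simp only [h1, map_zero, smul_zero, zero_add, Prod.snd_zero] at h3
    have h4 := Fintype.linearIndependent_iff.1 (h.lli _ (hr p.2 hp)) _ h3
    exact Prod.ext (by ext j; exact h4 j) h2
  · intro θ u v
    have := congrArg Complex.re (huu θ u v)
    simpa using this
  · intro θ u v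
    have := congrArg Complex.im (huu θ u v)
    simpa using this
  · intro θ v u
    have := congrArg Complex.re (huv θ v u)
    simp only [Complex.add_re, Complex.ofReal_re, Complex.re_sum, Complex.re_ofReal_mul,
      Complex.neg_re, hY] at this
    rw [PiLp.inner_apply]
    simpa using this
  · intro θ v u
    have := congrArg Complex.im (huv θ v u)
    simp only [Complex.add_im, Complex.ofReal_im, Complex.im_sum, Complex.im_ofReal_mul,
      Complex.neg_im] at this
    rw [PiLp.inner_apply]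
    simpa [CcL_apply] using this

end tube

end

end Crest.Agent.R281.OTB_280
end

-- ▼ part R281/OTB3_280
section

/-!
# Row 281, OPEN-TORI, part (OT-B) 3 (helper280): bridge to `Prd`, `Imm` of helper763
-/

set_option autoImplicit false
set_option linter.unusedSectionVars false
set_option maxSynthPendingDepth 3

open Set Filter Topology Complex
open scoped ContDiff

namespace Crest.Agent.R281.OTB_280

open Crest.Agent.R275.Geo (Cn)
open Crest.Agent.R281.HkR_835 Crest.Agent.R281.Per_368 Crest.Agent.R281.Tub_831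
open Crest.Agent.R281.Mc673 (V W tube kv ClF isOpen_tube)
open Crest.Agent.R281.OT_763 (Prd Imm finrank_W)

noncomputable section

variable {n : ℕ}
variable {M X : Type} [NormedAddCommGroup M] [NormedSpace ℝ M] [TopologicalSpace X]
variable {C : RCh M X} {J : C.ι → M → M →L[ℝ] M} {w w' : F2 C} {D : Set (Cn n)}
  {Ψ : Cn n × Cn n → X} {l : Fin (2 * n) → Cn n → Cn n} {τ : Cn n → Cn n → Cn n → ℂ}
  {y0 : Cn n}

/-- **(OT-B)** -/
theorem exists_Prd [FiniteDimensional ℝ M] (hd : Module.finrank ℝ M = 2 * (2 * n))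
    (h : HolTube C J w w' n D Ψ l τ) (hy0 : y0 ∈ D) :
    ∃ (r : ℝ) (Y : V (2 * n) ≃L[ℝ] Cn n) (Psi : W (2 * n) → X)
      (Cc : V (2 * n) →L[ℝ] V (2 * n)),
      Prd C (2 * n) r Psi w w' Cc ∧ Imm C Psi (tube (2 * n) r) ∧
      (∀ v, ‖v‖ < r → y0 + Y v ∈ D) ∧
      (∀ p, Psi p = Ψ (y0 + Y p.2, ∑ j, p.1 j • l j (y0 + Y p.2))) ∧
      (∀ θ, Psi (θ, 0) = Ψ (y0, ∑ j, θ j • l j y0)) ∧ (∀ v, Y (Cc v) = -(I • Y v)) ∧
      (∀ p ∈ tube (2 * n) r, ∀ p' ∈ tube (2 * n) r, Psi p = Psi p' ↔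
        p.2 = p'.2 ∧ ∃ k, p.1 = p'.1 + kv k) := by
  obtain ⟨r, Y, Cc, Psi, h1, h2, h3, h4, h5, h6, h7, h8, h9, h10, h11, h12, h13⟩ :=
    exists_prd h hy0
  refine ⟨r, Y, Psi, Cc, ⟨h1, h6, fun k ζ hζ => h7 ζ hζ k, h4, h10, h11, h12, h13⟩,
    fun ζ hζ i hi => ?_, h2, h3, fun θ => ?_, h5, h8⟩
  · have hi' := h9 ζ hζ i hi
    refine ⟨hi', ?_⟩
    have hf : Module.finrank ℝ (W (2 * n)) = Module.finrank ℝ M := by
      rw [finrank_W, hd, finrank_euclideanSpace, Fintype.card_fin]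
    exact (LinearMap.injective_iff_surjective_of_finrank_eq_finrank
      (f := (fderiv ℝ (fun y => C.e i (Psi y)) ζ : W (2 * n) →ₗ[ℝ] M)) hf).1 hi'
  · rw [h3]
    simp

/-- the image of every open part of the tube is open -/
theorem isOpen_image {E : Type} [NormedAddCommGroup E] [NormedSpace ℝ E] [CompleteSpace E]
    [CompleteSpace M] {S : Set E} {Psi : E → X} (h : SmI C S Psi) (hI : Imm C Psi S) {O : Set E}
    (hO : IsOpen O) (hOS : O ⊆ S) : IsOpen (Psi '' O) := by
  rw [isOpen_iff_mem_nhds]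
  rintro _ ⟨p, hp, rfl⟩
  obtain ⟨i, hi⟩ := C.cover (Psi p)
  have h1 := h.smAt (hOS hp) hi
  have h2 : HasStrictFDerivAt (fun y => C.e i (Psi y)) (fderiv ℝ (fun y => C.e i (Psi y)) p) p :=
    h1.hasStrictFDerivAt (by simp)
  have h3 : (fderiv ℝ (fun y => C.e i (Psi y)) p).range = ⊤ :=
    LinearMap.range_eq_top.2 (hI p (hOS hp) i hi).2
  have h4 := h2.map_nhds_eq_of_surj h3
  -- the set of points of `O` sent into the chart domain
  have h5 : O ∩ Psi ⁻¹' (C.e i).source ∈ 𝓝 p :=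
    ((h.cont.mono hOS).isOpen_inter_preimage hO (C.e i).open_source).mem_nhds ⟨hp, hi⟩
  have h6 : (fun y => C.e i (Psi y)) '' (O ∩ Psi ⁻¹' (C.e i).source) ∈ 𝓝 (C.e i (Psi p)) := by
    rw [← h4]
    exact image_mem_map h5
  have h7 : (C.e i).source ∩ C.e i ⁻¹' ((fun y => C.e i (Psi y)) ''
      (O ∩ Psi ⁻¹' (C.e i).source)) ∈ 𝓝 (Psi p) :=
    inter_mem ((C.e i).open_source.mem_nhds hi) ((C.e i).continuousAt hi h6)
  refine mem_of_superset h7 ?_
  rintro x ⟨hx, q, hq, hqe⟩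
  exact ⟨q, hq.1, (C.e i).injOn hq.2 hx hqe⟩

end

end Crest.Agent.R281.OTB_280
end

-- ▼ part R281/OtP1_16
section

/-!
# Row 281, OPEN-TORI (PER) (helper16)

* `mn_shift`   : the mean over the torus is invariant under translations
* `mn_of_per`  : if all the periods over the coordinate squares `(j, k)` vanish, the mean is zero
* `mn_pull`    : `per (pull v Psi) (θ, 0) (e_j, 0) (e_k, 0) = 0` for all `θ` ==> zero mean
* `mn_of_PVT`  : zero mean on the zero section of `Psi` (helper280) from `PVT` (helper831)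
-/

set_option autoImplicit false
set_option maxSynthPendingDepth 3

open Set Filter Topology MeasureTheory
open scoped ContDiff

namespace Crest.Agent.R281.OtP_16

open Crest.Agent.R275.Geo (Cn)
open Crest.Agent.R281.HkR_835
open Crest.Agent.R281.Per_368 (SmI pull per pt)
open Crest.Agent.R281.Tub_831 (HolTube PVT)
open Crest.Agent.R281.Mc673 (W tube kv mn SP toS toS_apply isOpen_tube mn_eq_box mn_const)
open Crest.Agent.R238.Sch (ee)
open Crest.Agent.R275.Tor812 (box volume_box box_measurable desc bdd)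

noncomputable section

abbrev VN (N : ℕ) := Crest.Agent.R281.Mc673.V N

variable {N : ℕ}

theorem mn_shift {f : VN N → ℝ} (hf : SP f) (c : VN N) : mn (fun x => f (x + c)) = mn f := by
  rw [mn_eq_box hf (fun i => c i)]
  set G : (Fin N → ℝ) → ℝ := fun x => f (WithLp.toLp 2 x) with hG
  show ∫ x in box (0 : Fin N → ℝ), f (WithLp.toLp 2 x + c) = ∫ x in box (fun i => c i), G x
  have h0 : ∀ x : Fin N → ℝ, f (WithLp.toLp 2 x + c) = G (x + fun i => c i) := fun x => rfl
  simp_rw [h0]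
  have h1 : (fun x : Fin N → ℝ => x + fun i => c i) ⁻¹' (box fun i => c i) = box 0 := by
    ext x
    simp only [box, mem_preimage, mem_ofPred_eq, Pi.add_apply, Pi.zero_apply, mem_Ioc]
    refine forall_congr' fun i => ?_
    constructor
    · rintro ⟨h1, h2⟩; constructor <;> linarith
    · rintro ⟨h1, h2⟩; constructor <;> linarith
  rw [← h1]
  exact (measurePreserving_add_right volume (fun i => c i : Fin N → ℝ)).setIntegral_preimage_emb
    (MeasurableEquiv.addRight (fun i => c i : Fin N → ℝ)).measurableEmbedding G _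

theorem sp_bdd {f : VN N → ℝ} (hf : SP f) : ∃ K, ∀ x, |f x| ≤ K := by
  refine ⟨‖desc (toS f hf)‖, fun x => ?_⟩
  have h1 := bdd (toS f hf) (WithLp.ofLp x)
  rw [toS_apply] at h1
  simpa using h1

/-- zero integrals over the unit squares in the directions `a`, `b` ==> zero mean -/
theorem mn_of_sq {f : VN N → ℝ} (hf : SP f) (a b : VN N)
    (h : ∀ x, ∫ s in (0:ℝ)..1, ∫ t in (0:ℝ)..1, f (x + s • a + t • b) = 0) : mn f = 0 := by
  obtain ⟨K, hK⟩ := sp_bdd hf
  have : IsFiniteMeasure (volume.restrict (box (0 : Fin N → ℝ))) :=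
    ⟨by rw [Measure.restrict_apply_univ, volume_box]; exact ENNReal.one_lt_top⟩
  have hc : Continuous f := hf.cont
  have hF : Continuous fun p : (Fin N → ℝ) × ℝ × ℝ =>
      f (WithLp.toLp 2 p.1 + p.2.1 • a + p.2.2 • b) := by
    refine hc.comp ?_
    exact (((PiLp.continuous_toLp 2 _).comp continuous_fst).add
      ((continuous_fst.comp continuous_snd).smul continuous_const)).add
      ((continuous_snd.comp continuous_snd).smul continuous_const)
  -- inner
  have e1 : ∀ s : ℝ, ∫ t in (0:ℝ)..1, mn (fun x => f (x + s • a + t • b)) =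
      ∫ x in box (0 : Fin N → ℝ), ∫ t in (0:ℝ)..1, f (WithLp.toLp 2 x + s • a + t • b) := by
    intro s
    simp only [intervalIntegral.integral_of_le zero_le_one, mn]
    refine integral_integral_swap ?_
    refine Integrable.of_bound (C := K) ?_ (ae_of_all _ fun p => by
      simpa [Function.uncurry] using hK _)
    refine Continuous.aestronglyMeasurable ?_
    exact hF.comp (continuous_snd.prodMk (continuous_const.prodMk continuous_fst))
  have e2 : ∫ s in (0:ℝ)..1, ∫ x in box (0 : Fin N → ℝ), ∫ t in (0:ℝ)..1,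
      f (WithLp.toLp 2 x + s • a + t • b) =
      ∫ x in box (0 : Fin N → ℝ), ∫ s in (0:ℝ)..1, ∫ t in (0:ℝ)..1,
        f (WithLp.toLp 2 x + s • a + t • b) := by
    rw [intervalIntegral.integral_of_le zero_le_one]
    have hI : ∀ x : Fin N → ℝ, ∫ s in (0:ℝ)..1, ∫ t in (0:ℝ)..1,
        f (WithLp.toLp 2 x + s • a + t • b) = ∫ s in Ioc (0:ℝ) 1, ∫ t in (0:ℝ)..1,
        f (WithLp.toLp 2 x + s • a + t • b) := fun x =>
      intervalIntegral.integral_of_le zero_le_one
    simp_rw [hI]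
    refine integral_integral_swap ?_
    refine Integrable.of_bound (C := K) ?_ (ae_of_all _ fun p => ?_)
    · refine Continuous.aestronglyMeasurable ?_
      refine intervalIntegral.continuous_parametric_intervalIntegral_of_continuous'
        (f := fun (p : ℝ × (Fin N → ℝ)) t => f (WithLp.toLp 2 p.2 + p.1 • a + t • b)) ?_ 0 1
      exact hF.comp ((continuous_snd.comp continuous_fst).prodMk
        ((continuous_fst.comp continuous_fst).prodMk continuous_snd))
    · have := intervalIntegral.norm_integral_le_of_norm_le_const (a := 0) (b := 1) (C := K)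
        (f := fun t => f (WithLp.toLp 2 p.2 + p.1 • a + t • b)) (fun t _ => hK _)
      simpa [Function.uncurry] using this
  have e3 : ∫ s in (0:ℝ)..1, ∫ t in (0:ℝ)..1, mn (fun x => f (x + s • a + t • b)) = 0 := by
    simp_rw [e1]
    rw [e2]
    simp_rw [h]
    simp
  have e4 : ∀ s t : ℝ, mn (fun x => f (x + s • a + t • b)) = mn f := by
    intro s t
    have := mn_shift hf (s • a + t • b)
    simpa [add_assoc] using this
  simp_rw [e4] at e3
  simpa using e3

variable {V X : Type} [NormedAddCommGroup V] [NormedSpace ℝ V] [TopologicalSpace X] {C : RCh V X}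

/-- the coefficient functions on the zero section are smooth and periodic -/
theorem sp_pull {r : ℝ} (hr : 0 < r) {Psi : W N → X} (h : SmI C (tube N r) Psi)
    (hper : ∀ p ∈ tube N r, ∀ k, Psi (p.1 + kv k, p.2) = Psi p) (v : F2 C) (a b : W N) :
    SP (fun θ : VN N => pull v Psi (θ, 0) a b) := by
  have h0 : ∀ θ : VN N, ((θ, 0) : W N) ∈ tube N r := fun θ => by
    show ‖(0 : VN N)‖ < r
    simpa using hr
  refine ⟨?_, fun k θ => ?_⟩
  · have h1 : ContDiff ℝ ∞ fun θ : VN N => pull v Psi (θ, 0) := by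
      rw [← contDiffOn_univ]
      exact (h.pull_smooth v).comp (contDiff_id.prodMk contDiff_const).contDiffOn
        (fun θ _ => h0 θ)
    exact (h1.clm_apply contDiff_const).clm_apply contDiff_const
  · have h2 := h.pull_add v (l := ((kv k, 0) : W N)) (ζ := (θ, 0)) (fun ζ hζ => ?_) (h0 θ)
    · have h3 : ((θ + kv k, 0) : W N) = (θ, 0) + (kv k, 0) := by simp
      show pull v Psi (θ + kv k, 0) a b = _
      rw [h3, h2]
    · have h4 : ζ + ((kv k, 0) : W N) = (ζ.1 + kv k, ζ.2) := by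
        refine Prod.ext rfl ?_
        simp
      rw [h4]
      exact ⟨hζ, hper ζ hζ k⟩

/-- **zero periods over the coordinate squares ==> zero mean** -/
theorem mn_pull {r : ℝ} (hr : 0 < r) {Psi : W N → X} (h : SmI C (tube N r) Psi)
    (hper : ∀ p ∈ tube N r, ∀ k, Psi (p.1 + kv k, p.2) = Psi p) (v : F2 C) (j k : Fin N)
    (h0 : ∀ θ : VN N, per (pull v Psi) (θ, 0) (ee j, 0) (ee k, 0) = 0) :
    mn (fun θ : VN N => pull v Psi (θ, 0) (ee j, 0) (ee k, 0)) = 0 := by
  refine mn_of_sq (sp_pull hr h hper v _ _) (ee j) (ee k) fun x => ?_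
  have h1 := h0 x
  refine Eq.trans ?_ h1
  have h2 : ∀ s t : ℝ, pt ((x, 0) : W N) (ee j, 0) (ee k, 0) s t =
      (x + s • ee j + t • ee k, 0) := fun s t => by simp [pt]
  have h3 : per (pull v Psi) (x, 0) (ee j, 0) (ee k, 0) = ∫ s in (0:ℝ)..1, ∫ t in (0:ℝ)..1,
      pull v Psi (pt (x, 0) (ee j, 0) (ee k, 0) s t) (ee j, 0) (ee k, 0) := rfl
  rw [h3]
  simp_rw [h2]

section tub

variable {J : C.ι → V → V →L[ℝ] V} {w w' : F2 C} {n : ℕ} {D : Set (Cn n)} {Ψ : Cn n × Cn n → X}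
  {l : Fin (2 * n) → Cn n → Cn n} {τ : Cn n → Cn n → Cn n → ℂ}

/-- the linear map `(θ, v) ↦ (0, ∑ θ_j l_j(y0))` -/
def Lm (l : Fin (2 * n) → Cn n → Cn n) (y0 : Cn n) : W (2 * n) →L[ℝ] Cn n × Cn n :=
  (ContinuousLinearMap.inr ℝ (Cn n) (Cn n)).comp
    (∑ j, ((EuclideanSpace.proj j : VN (2 * n) →L[ℝ] ℝ).comp
      (ContinuousLinearMap.fst ℝ (VN (2 * n)) (VN (2 * n)))).smulRight (l j y0))

theorem Lm_apply (y0 : Cn n) (p : W (2 * n)) : Lm l y0 p = (0, ∑ j, p.1 j • l j y0) := by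
  show ((0 : Cn n), (∑ j, ((EuclideanSpace.proj j : VN (2 * n) →L[ℝ] ℝ).comp
      (ContinuousLinearMap.fst ℝ (VN (2 * n)) (VN (2 * n)))).smulRight (l j y0)) p) = _
  rw [sum_apply]
  rfl

theorem Lm_ee (y0 : Cn n) (k : Fin (2 * n)) : Lm l y0 (ee k, 0) = (0, l k y0) := by
  rw [Lm_apply]
  refine Prod.ext rfl ?_
  show ∑ j, (ee k : VN (2 * n)) j • l j y0 = l k y0
  rw [Finset.sum_eq_single k]
  · simp [ee]
  · intro j _ hj
    simp [ee, hj]
  · simp

/-- the pull back to the zero section -/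
theorem pull_zero (h : HolTube C J w w' n D Ψ l τ) {y0 : Cn n} (hy0 : y0 ∈ D) {r : ℝ} (hr0 : 0 < r)
    {Psi : W (2 * n) → X} (hsm : SmI C (tube (2 * n) r) Psi)
    (hPsi : ∀ θ, Psi (θ, 0) = Ψ (y0, ∑ j, θ j • l j y0)) (v : F2 C)
    (θ a b : VN (2 * n)) : pull v Psi (θ, 0) (a, 0) (b, 0) =
      pull v Ψ (y0, ∑ j, θ j • l j y0) (Lm l y0 (a, 0)) (Lm l y0 (b, 0)) := by
  have h0 : ∀ θ : VN (2 * n), ((θ, 0) : W (2 * n)) ∈ tube (2 * n) r := fun θ => by
    show ‖(0 : VN (2 * n))‖ < r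
    simpa using hr0
  set ι : VN (2 * n) → W (2 * n) := fun θ => (θ, 0) with hι
  have hιs : ContDiff ℝ ∞ ι := contDiff_id.prodMk contDiff_const
  have hιd : ∀ a, fderiv ℝ ι θ a = (a, 0) := by
    intro a
    have : HasFDerivAt ι (ContinuousLinearMap.inl ℝ (VN (2 * n)) (VN (2 * n))) θ :=
      (ContinuousLinearMap.inl ℝ (VN (2 * n)) (VN (2 * n))).hasFDerivAt
    rw [this.fderiv]; rfl
  set κ : VN (2 * n) → Cn n × Cn n := fun θ => (y0, 0) + Lm l y0 (θ, 0) with hκ
  have hκe : ∀ θ, κ θ = (y0, ∑ j, θ j • l j y0) := fun θ => by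
    rw [hκ]; simp only [Lm_apply]; simp
  have hκs : ContDiff ℝ ∞ κ := contDiff_const.add ((Lm l y0).contDiff.comp hιs)
  have hκd : ∀ a, fderiv ℝ κ θ a = Lm l y0 (a, 0) := by
    intro a
    have : HasFDerivAt κ ((Lm l y0).comp (ContinuousLinearMap.inl ℝ (VN (2 * n)) (VN (2 * n)))) θ :=
      ((Lm l y0).comp (ContinuousLinearMap.inl ℝ (VN (2 * n)) (VN (2 * n)))).hasFDerivAt.const_add _
    rw [this.fderiv]; rfl
  have e1 := OTB_280.pull_comp hsm isOpen_univ hιs.contDiffOn (fun θ _ => h0 θ) v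
    (mem_univ θ) a b
  have e2 := OTB_280.pull_comp h.sm isOpen_univ hκs.contDiffOn
    (fun θ _ => by rw [hκe]; exact ⟨hy0, mem_univ _⟩) v (mem_univ θ) a b
  have e3 : (fun q => Psi (ι q)) = fun q => Ψ (κ q) := by
    funext q
    rw [hκe]; exact hPsi q
  rw [e3] at e1
  rw [hιd, hιd] at e1
  rw [hκd, hκd, hκe] at e2
  exact e1.symm.trans e2

/-- **zero mean from zero periods over one torus** (local form: one class `v`, one point `y0`) -/
theorem mn_of_loc (h : HolTube C J w w' n D Ψ l τ) {y0 : Cn n} (hy0 : y0 ∈ D) {r : ℝ} (hr0 : 0 < r)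
    {Psi : W (2 * n) → X} (hsm : SmI C (tube (2 * n) r) Psi)
    (hper : ∀ p ∈ tube (2 * n) r, ∀ k, Psi (p.1 + kv k, p.2) = Psi p)
    (hPsi : ∀ θ, Psi (θ, 0) = Ψ (y0, ∑ j, θ j • l j y0)) {v : F2 C} {j k : Fin (2 * n)}
    (hv : ∀ x, per (pull v Ψ) (y0, x) (0, l j y0) (0, l k y0) = 0) :
    mn (fun θ : VN (2 * n) => pull v Psi (θ, 0) (ee j, 0) (ee k, 0)) = 0 := by
  refine mn_pull hr0 hsm hper v j k fun θ => ?_
  have h1 := Per_368.per_affine (ξ := pull v Ψ) (η := pull v Psi) (Lm l y0) (y0, 0)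
    (z := ((θ, 0) : W (2 * n))) (v := (ee j, 0)) (w := (ee k, 0)) (fun s _ t _ => by
      have h2 : pt ((θ, 0) : W (2 * n)) (ee j, 0) (ee k, 0) s t =
          (θ + s • ee j + t • ee k, 0) := by simp [pt]
      rw [h2, Lm_apply (l := l) y0 (θ + s • ee j + t • ee k, 0)]
      have h3 : ((y0, 0) + (0, ∑ i, (θ + s • ee j + t • ee k : VN (2 * n)) i • l i y0) :
          Cn n × Cn n) = (y0, ∑ i, (θ + s • ee j + t • ee k : VN (2 * n)) i • l i y0) := by simp
      show _ = pull v Ψ ((y0, 0) + (0, ∑ i, (θ + s • ee j + t • ee k : VN (2 * n)) i • l i y0)) _ _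
      rw [h3]
      exact pull_zero h hy0 hr0 hsm hPsi v _ _ _)
  rw [h1, Lm_ee, Lm_ee, Lm_apply]
  have h2 : ((y0, 0) + (0, ∑ j, ((θ, 0) : W (2 * n)).1 j • l j y0) : Cn n × Cn n) =
      (y0, ∑ j, θ j • l j y0) := by simp
  rw [h2]
  exact hv _


/-- **zero mean from `PVT`** -/
theorem mn_of_PVT {Q : F2 C →ₗ[ℝ] F2 C →ₗ[ℝ] ℝ} {e : F2 C} (h : HolTube C J w w' n D Ψ l τ)
    (hP : PVT Q e D Ψ l) {y0 : Cn n} (hy0 : y0 ∈ D) {r : ℝ} (hr0 : 0 < r) {Psi : W (2 * n) → X}
    (hsm : SmI C (tube (2 * n) r) Psi)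
    (hper : ∀ p ∈ tube (2 * n) r, ∀ k, Psi (p.1 + kv k, p.2) = Psi p)
    (hPsi : ∀ θ, Psi (θ, 0) = Ψ (y0, ∑ j, θ j • l j y0))
    {v : F2 C} (hv : Q v e = 0) (j k : Fin (2 * n)) :
    mn (fun θ : VN (2 * n) => pull v Psi (θ, 0) (ee j, 0) (ee k, 0)) = 0 :=
  mn_of_loc h hy0 hr0 hsm hper hPsi fun x => hP v hv y0 hy0 x j k

/-- **zero mean from `PVT`**, for helper763's product coordinates -/
theorem mn_of_prd {Q : F2 C →ₗ[ℝ] F2 C →ₗ[ℝ] ℝ} {e : F2 C} (h : HolTube C J w w' n D Ψ l τ)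
    (hP : PVT Q e D Ψ l) {y0 : Cn n} (hy0 : y0 ∈ D) {r : ℝ} {Psi : W (2 * n) → X} {x1 y1 : F2 C}
    {Cc : VN (2 * n) →L[ℝ] VN (2 * n)} (hp : OT_763.Prd C (2 * n) r Psi x1 y1 Cc)
    (hPsi : ∀ θ, Psi (θ, 0) = Ψ (y0, ∑ j, θ j • l j y0))
    {v : F2 C} (hv : Q v e = 0) (j k : Fin (2 * n)) :
    mn (fun θ : VN (2 * n) => pull v Psi (θ, 0) (ee j, 0) (ee k, 0)) = 0 :=
  mn_of_PVT h hP hy0 hp.r0 hp.sm (fun p hp' k => hp.per k p hp') hPsi hv j k

end tub

end

end Crest.Agent.R281.OtP_16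
end

-- ▼ part R281/OT8_763
section

/-!
# Row 281, OPEN-TORI (helper763), part 8: **exists_mtor**

`HolTube` (831) for `w + i w'` at the centre, forms `xp p → w`, `yp p → w'` in `C²` with zero periods:
330's `MTor` for the fields `Dp p` on the charts of the holomorphic atlas `A`, for every `y0 ∈ D`.
-/

set_option autoImplicit false
set_option maxSynthPendingDepth 3
set_option linter.unusedSectionVars false

open Set Filter Topology Complex
open scoped ContDiff

namespace Crest.Agent.R281.OT_763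

open Crest.Agent.R281.HkR_835 Crest.Agent.R281.Per_368 Crest.Agent.R281.PL_713
open Crest.Agent.R281.Mc673 (W Fo tube ClF kv mn isOpen_tube)
open Crest.Agent.R275.Geo (Cn Atl)
open Crest.Agent.R281.Op3_569 (MovD TorF CC)
open Crest.Agent.R281.OpT_330 (HTor MTor)
open Crest.Agent.R281.Tub_831 (HolTube PVT Tub)
open Crest.Agent.R238.Sch (ee)

noncomputable section

/-! ## complex differentiability -/

section cd

variable {E F : Type*} [NormedAddCommGroup E] [NormedSpace ℂ E] [NormedAddCommGroup F]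
  [NormedSpace ℂ F]

/-- a real linear map which commutes with `i` is complex linear -/
def toCL (L : E →L[ℝ] F) (h : ∀ v, L (I • v) = I • L v) : E →L[ℂ] F where
  toFun := L
  map_add' := map_add L
  map_smul' := by
    intro c v
    have h1 : c • v = c.re • v + c.im • (I • v) := by
      conv_lhs => rw [← Complex.re_add_im c, add_smul, mul_smul]
      rfl
    have h2 : c • L v = c.re • L v + c.im • (I • L v) := by
      conv_lhs => rw [← Complex.re_add_im c, add_smul, mul_smul]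
      rfl
    simp only [RingHom.id_apply]
    rw [h1, map_add, map_smul, map_smul, h, h2]
  cont := L.cont

theorem hasFDerivAt_toCL {f : E → F} {L : E →L[ℝ] F} {x : E} (hf : HasFDerivAt f L x)
    (h : ∀ v, L (I • v) = I • L v) : HasFDerivAt f (toCL L h) x :=
  hasFDerivAt_of_restrictScalars ℝ hf (by ext; rfl)

end cd

variable {V X : Type} [NormedAddCommGroup V] [NormedSpace ℝ V] [TopologicalSpace X] {C : RCh V X}
variable {n d : ℕ} {A : Atl d X} {J : C.ι → V → V →L[ℝ] V} {w w' : F2 C}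
  {D : Set (Cn n)} {Ψ : Cn n × Cn n → X} {l : Fin (2 * n) → Cn n → Cn n}
  {τ : Cn n → Cn n → Cn n → ℂ} {y0 : Cn n}

/-- multiplication by `i` -/
def iM (A : Atl d X) : MovD A where
  I _ _ := (I : ℂ) • ContinuousLinearMap.id ℝ (Cn d)
  a _ _ := 0

theorem relJ_iM (h : JC C J A) : RelJ C A J (iM A) := fun i a z hz v => h.lin i a z hz v

/-- the fibre torus is a holomorphic torus -/
theorem hTor_of (h : HolTube C J w w' n D Ψ l τ) (hJ : JC C J A) (hy0 : y0 ∈ D)
    {T : (Fin (2 * n) → ℝ) ≃L[ℝ] Cn n} (hT : ∀ s, T s = ∑ k, s k • l k y0) :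
    HTor A T (fun s => Ψ (y0, T s)) := by
  have hmem : ∀ z : Cn n, (y0, z) ∈ D ×ˢ (univ : Set (Cn n)) := fun z => ⟨hy0, mem_univ _⟩
  have hcont : Continuous fun z : Cn n => Ψ (y0, z) := by
    rw [continuous_iff_continuousAt]
    intro z
    exact ContinuousAt.comp (f := fun z : Cn n => (y0, z))
      ((h.sm.cont _ (hmem z)).continuousAt (h.sm.op.mem_nhds (hmem z)))
      (continuousAt_const.prodMk continuousAt_id)
  -- the derivative in the charts of `C`
  have hC : ∀ (i : C.ι) (z : Cn n), Ψ (y0, z) ∈ (C.e i).source →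
      HasFDerivAt (fun z => C.e i (Ψ (y0, z)))
        ((fderiv ℝ (fun q => C.e i (Ψ q)) (y0, z)).comp (ContinuousLinearMap.inr ℝ (Cn n) (Cn n)))
        z := by
    intro i z hi
    have h1 := (h.sm.diffAt (i := i) (hmem z) hi).hasFDerivAt
    have h2 : HasFDerivAt (fun z : Cn n => (y0, z)) (ContinuousLinearMap.inr ℝ (Cn n) (Cn n)) z :=
      (hasFDerivAt_const y0 z).prodMk (hasFDerivAt_id z)
    exact HasFDerivAt.comp (g := fun q => C.e i (Ψ q)) z h1 h2
  -- the derivative in the charts of `A`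
  have hA : ∀ (a : A.ι) (z : Cn n), Ψ (y0, z) ∈ (A.e a).source →
      ∃ L : Cn n →L[ℝ] Cn d, HasFDerivAt (fun z => A.e a (Ψ (y0, z))) L z ∧
        (∀ v, L (I • v) = I • L v) ∧ Function.Injective L := by
    intro a z ha
    obtain ⟨i, hi⟩ := C.cover (Ψ (y0, z))
    have h1 := hC i z hi
    have h2 := fderiv_chart (F := fun z => Ψ (y0, z)) (C' := ofAtl A) (a := a) hJ.cmp
      hcont.continuousAt hi ha h1.differentiableAt
    have h3 : ContDiffAt ℝ 1 (fun z => C.e i (Ψ (y0, z))) z := by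
      have h4 := (h.sm.smAt (i := i) (hmem z) hi).of_le (m := 1) (by simp)
      exact ContDiffAt.comp (g := fun q => C.e i (Ψ q)) z h4 (contDiffAt_const.prodMk contDiffAt_id)
    have h5 := contDiffAt_chart (F := fun z => Ψ (y0, z)) (C' := ofAtl A) (a := a) hJ.cmp
      (by simp) hcont.continuousAt hi ha h3
    have h6 : HasFDerivAt (fun z => A.e a (Ψ (y0, z)))
        (fderiv ℝ (fun z => A.e a (Ψ (y0, z))) z) z :=
      (h5.differentiableAt (by norm_num)).hasFDerivAt
    have h7 : fderiv ℝ (fun z => A.e a (Ψ (y0, z))) z =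
        (fderiv ℝ (mt (ofAtl A) C a i) (C.e i (Ψ (y0, z)))).comp
          ((fderiv ℝ (fun q => C.e i (Ψ q)) (y0, z)).comp
            (ContinuousLinearMap.inr ℝ (Cn n) (Cn n))) := by
      rw [← h1.fderiv]; exact h2
    rw [h7] at h6
    refine ⟨_, h6, ?_, ?_⟩
    · intro v
      show fderiv ℝ (mt (ofAtl A) C a i) (C.e i (Ψ (y0, z)))
        (fderiv ℝ (fun q => C.e i (Ψ q)) (y0, z) (0, I • v)) = I •
        fderiv ℝ (mt (ofAtl A) C a i) (C.e i (Ψ (y0, z)))
          (fderiv ℝ (fun q => C.e i (Ψ q)) (y0, z) (0, v))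
      have h8 : ((0, I • v) : Cn n × Cn n) = I • ((0, v) : Cn n × Cn n) := by simp
      rw [h8, h.hol (y0, z) hy0 i hi, (relJ_iM hJ).inv hJ.cmp hi ha]
      rfl
    · have h9 : Function.Injective (ContinuousLinearMap.inr ℝ (Cn n) (Cn n)) := fun u v huv =>
        congrArg Prod.snd huv
      exact (dmt_inj (C' := ofAtl A) hJ.cmp hi ha).comp ((h.inj (y0, z) hy0 i hi).comp h9)
  exact
  { cont := hcont.comp T.continuous
    per := fun k s => by
      refine (h.eq_iff y0 hy0 y0 hy0 _ _).2 ⟨rfl, k, ?_⟩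
      rw [map_add, add_sub_cancel_left, hT]
    hol := fun a z ha => by
      simp only [T.apply_symm_apply] at ha ⊢
      obtain ⟨L, h1, h2, -⟩ := hA a z ha
      exact (hasFDerivAt_toCL h1 h2).differentiableAt
    inj := fun a z ha => by
      simp only [T.apply_symm_apply] at ha ⊢
      obtain ⟨L, h1, h2, h3⟩ := hA a z ha
      rw [(hasFDerivAt_toCL h1 h2).fderiv]
      exact h3 }

/-- **exists_mtor**, forms version -/
theorem exists_mtor_of [FiniteDimensional ℝ V] (hd : Module.finrank ℝ V = 2 * (2 * n))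
    (h : HolTube C J w w' n D Ψ l τ) {Q : F2 C →ₗ[ℝ] F2 C →ₗ[ℝ] ℝ} {e : F2 C}
    (hP : PVT Q e D Ψ l) (hJ : JC C J A) (hS1 : Sy w w' J) (hy0 : y0 ∈ D)
    {P : Type*} {L : Filter P} {xp yp : P → F2 C} {Ip : P → C.ι → V → V →L[ℝ] V}
    (hS : ∀ᶠ p in L, Sy (xp p) (yp p) (Ip p)) (hx : TC2 L xp w) (hy : TC2 L yp w')
    (hqx : ∀ᶠ p in L, Q (xp p) e = 0) (hqy : ∀ᶠ p in L, Q (yp p) e = 0)
    {Dp : P → MovD A} (hD : ∀ᶠ p in L, RelJ C A (Ip p) (Dp p))
    {T : (Fin (2 * n) → ℝ) ≃L[ℝ] Cn n} (hT : ∀ s, T s = ∑ k, s k • l k y0) (z : Cn n) :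
    ∃ t : MTor (Fin (2 * n)) n L Dp (Ψ (y0, z)), t.T = T ∧ t.F0 = fun s => Ψ (y0, T s) := by
  obtain ⟨r, Y, Psi, Cc, hp, -, -, -, hPsi, -, -⟩ := OTB_280.exists_Prd hd h hy0
  obtain ⟨F, Jt, hM, hM1, hF, hDF, hJt⟩ := open_tori hp hd hS1 hS hx hy
    (hqx.mono fun p hq j k => OtP_16.mn_of_prd h hP hy0 hp hPsi hq j k)
    (hqy.mono fun p hq j k => OtP_16.mn_of_prd h hP hy0 hp hPsi hq j k)
  have e0 : ∀ s : Fin (2 * n) → ℝ, Psi (eN (2 * n) s, 0) = Ψ (y0, T s) := by
    intro s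
    rw [hPsi, hT]; rfl
  have e1 : (fun s => Ψ (y0, T s)) = fun s : Fin (2 * n) → ℝ => Psi (eN (2 * n) s, 0) :=
    funext fun s => (e0 s).symm
  refine ⟨{ T := T
            F := fun p s => F p (eN (2 * n) s)
            J := fun p s => cj (Jt p (eN (2 * n) s))
            F0 := fun s => Ψ (y0, T s)
            J0 := cj (-(ContinuousLinearMap.adjoint Cc))
            tor := ?_
            cF := ?_
            cDF := ?_
            cJ := ?_
            h := hTor_of h hJ hy0 hT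
            mem := ⟨T.symm z, by simp⟩ }, rfl, rfl⟩
  · filter_upwards [hM, hD] with p hp hp'
    exact torF_of hJ.cmp hp' hp
  · intro s
    rw [e1]
    exact cc_eN (f0 := fun θ => Psi (θ, 0)) hF s
  · intro s a ha
    have ha' : Psi (eN (2 * n) s, 0) ∈ (A.e a).source := by rw [e0]; exact ha
    have h1 := cD_chart (ofAtl A) hJ.cmp hM hM1 hF hDF (θ := eN (2 * n) s) (a := a) ha'
    have h2 : Tendsto (fun q : P × (Fin (2 * n) → ℝ) => (q.1, eN (2 * n) q.2)) (L ×ˢ 𝓝 s)
        (L ×ˢ 𝓝 (eN (2 * n) s)) :=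
      tendsto_fst.prodMk (((eN (2 * n)).continuous.tendsto s).comp tendsto_snd)
    have h3 := h1.comp h2
    have h4 := tendsto_compL h3 (tendsto_const_nhds
      (x := ((eN (2 * n) : (Fin (2 * n) → ℝ) →L[ℝ] VN (2 * n)))))
    have hdiff : ∀ {x y : F2 C} {I : C.ι → V → V →L[ℝ] V} {F : VN (2 * n) → X}
        {J : VN (2 * n) → VN (2 * n) →L[ℝ] VN (2 * n)}, TorM x y I F J → ∀ s : Fin (2 * n) → ℝ,
        F (eN (2 * n) s) ∈ (A.e a).source →
        fderiv ℝ (fun y => A.e a (F (eN (2 * n) y))) s =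
          (fderiv ℝ (fun y => A.e a (F y)) (eN (2 * n) s)).comp
            (eN (2 * n) : (Fin (2 * n) → ℝ) →L[ℝ] VN (2 * n)) := by
      intro x y I F J hM s hs
      obtain ⟨i, hi⟩ := C.cover (F (eN (2 * n) s))
      have h5 : ContDiffAt ℝ 1 (fun y => A.e a (F y)) (eN (2 * n) s) :=
        contDiffAt_chart (C' := ofAtl A) hJ.cmp (by simp) hM.cont.continuousAt hi hs
          (hM.c1 _ i hi)
      exact fd_eN (h5.differentiableAt (by norm_num))
    have h5 := hdiff hM1 s ha'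
    show Tendsto (fun q : P × (Fin (2 * n) → ℝ) =>
      fderiv ℝ (fun y => A.e a (F q.1 (eN (2 * n) y))) q.2) (L ×ˢ 𝓝 s)
      (𝓝 (fderiv ℝ (fun y => A.e a (Ψ (y0, T y))) s))
    have h6 : (fun y => A.e a (Ψ (y0, T y))) = fun y => A.e a (Psi (eN (2 * n) y, 0)) := by
      funext y; rw [e0]
    rw [h6, h5]
    refine h4.congr' ?_
    have h7 : ∀ᶠ q : P × (Fin (2 * n) → ℝ) in L ×ˢ 𝓝 s,
        F q.1 (eN (2 * n) q.2) ∈ (A.e a).source :=
      ((hF (eN (2 * n) s)).comp h2).eventually ((A.e a).open_source.mem_nhds ha')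
    filter_upwards [h7, tendsto_fst.eventually hM] with q hq hq'
    exact (hdiff hq' q.2 hq).symm
  · intro s
    exact (continuous_cj.tendsto _).comp (cc_eN
      (f0 := fun _ => -(ContinuousLinearMap.adjoint Cc)) hJt s)

end

end Crest.Agent.R281.OT_763
end

-- ▼ part R281/OT9_763
section

/-!
# Row 281, OPEN-TORI (helper763), part 9: the literal forms for `OpenP`

* `tc2_of_sm`   : a jointly smooth family of closed 2-forms converges in `C²`
* `exists_mtor` : `HolTube`/`PVT` at `H q1`, `SmB O H`: `MTor` along every `π → q1`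
* `exists_mtor_box` : the same for the box of 902
-/

set_option autoImplicit false
set_option maxSynthPendingDepth 3
set_option linter.unusedSectionVars false

open Set Filter Topology Complex
open scoped ContDiff

namespace Crest.Agent.R281.OT_763

open Crest.Agent.R281.HkR_835 Crest.Agent.R281.Per_368 Crest.Agent.R281.PL_713
open Crest.Agent.R281.Ti_846 Crest.Agent.R281.Cdr_234 Crest.Agent.R281.Dif_268
open Crest.Agent.R275.Geo (Cn Atl)
open Crest.Agent.R281.Op3_569 (MovD TorF CC)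
open Crest.Agent.R281.OpT_330 (HTor MTor)
open Crest.Agent.R281.Tub_831 (HolTube PVT)
open Crest.Agent.R281.RkD_902 (SmB Box Ctx Given lco)
open Crest.Agent.R281.NefO_476 (ofHk)

noncomputable section

variable {V X : Type} [NormedAddCommGroup V] [NormedSpace ℝ V] [TopologicalSpace X] {C : RCh V X}

/-- a jointly smooth family converges in `C²` -/
theorem tc2_of_sm {E : Type*} [NormedAddCommGroup E] [NormedSpace ℝ E] {O : Set E} (hO : IsOpen O)
    {q1 : E} (hq : q1 ∈ O) {w : E → F2 C}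
    (hw : ∀ i, ContDiffOn ℝ ∞ (fun y : E × V => (w y.1).w i y.2) (O ×ˢ (C.e i).target)) :
    TC2 (𝓝 q1) w (w q1) := by
  rw [tc2_iff]
  intro i z hz
  have hW : IsOpen (O ×ˢ (C.e i).target) := hO.prod (C.e i).open_target
  have hm : (q1, z) ∈ O ×ˢ (C.e i).target := ⟨hq, hz⟩
  have h0 := hw i
  have h1 := OpN396.contDiffOn_fderiv_snd (f := fun q z => (w q).w i z) hW h0
  have h2 := OpN396.contDiffOn_fderiv_snd (f := fun q z => fderiv ℝ ((w q).w i) z) hW h1
  have key : ∀ {G : Type _} [NormedAddCommGroup G] [NormedSpace ℝ G] {f : E × V → G},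
      ContDiffOn ℝ ∞ f (O ×ˢ (C.e i).target) → Tendsto f (𝓝 q1 ×ˢ 𝓝 z) (𝓝 (f (q1, z))) := by
    intro G _ _ f hf
    rw [← nhds_prod_eq]
    exact (hf.continuousOn.continuousAt (hW.mem_nhds hm)).tendsto
  exact ⟨key h0, key h1, key h2⟩

/-- `RelJ` from a field of endomorphisms in the charts of `A` (396's `Jx`, 941's `pJ`) -/
theorem relJ_of {d : ℕ} {A : Atl d X} {I : C.ι → V → V →L[ℝ] V}
    {J' : A.ι → Cn d → Cn d →L[ℝ] Cn d} {D : MovD A}
    (hDI : ∀ a, ∀ x ∈ (A.e a).source, D.I a x = J' a (A.e a x))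
    (h : ∀ i a, ∀ z ∈ mov C (ofAtl A) i a, ∀ v : Cn d,
      fderiv ℝ (mt C (ofAtl A) i a) z (J' a z v) =
        I i (mt C (ofAtl A) i a z) (fderiv ℝ (mt C (ofAtl A) i a) z v)) : RelJ C A I D := by
  intro i a z hz v
  have h1 : z ∈ (A.e a).target := hz.1
  rw [hDI a _ ((A.e a).map_target h1), (A.e a).right_inv h1]
  exact h i a z hz v

variable {n d : ℕ} {A : Atl d X} {D : Set (Cn n)} {Ψ : Cn n × Cn n → X}
  {l : Fin (2 * n) → Cn n → Cn n} {τ : Cn n → Cn n → Cn n → ℂ} {y0 : Cn n}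

/-- **exists_mtor**: families of hyperkaehler structures -/
theorem exists_mtor [FiniteDimensional ℝ V] (hd : Module.finrank ℝ V = 2 * (2 * n))
    {E : Type} [NormedAddCommGroup E] [NormedSpace ℝ E] {O : Set E} (hO : IsOpen O) {q1 : E}
    (hq : q1 ∈ O) {H : E → HkT C} (sm : SmB O H) {Q : F2 C →ₗ[ℝ] F2 C →ₗ[ℝ] ℝ} {e : F2 C}
    (h : HolTube C ((H q1).J 0) ((H q1).om 1) ((H q1).om 2) n D Ψ l τ)
    (hP : PVT Q e D Ψ l) (hJ : JC C ((H q1).J 0) A) (h1 : ∀ q ∈ O, Q ((H q).om 1) e = 0)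
    (h2 : ∀ q ∈ O, Q ((H q).om 2) e = 0) {α : Type*} {L : Filter α} {π : α → E}
    (hπ : Tendsto π L (𝓝 q1)) {Dp : α → MovD A}
    (hD : ∀ᶠ a in L, RelJ C A ((H (π a)).J 0) (Dp a)) (hy0 : y0 ∈ D)
    {T : (Fin (2 * n) → ℝ) ≃L[ℝ] Cn n} (hT : ∀ s, T s = ∑ k, s k • l k y0) (z : Cn n) :
    ∃ t : MTor (Fin (2 * n)) n L Dp (Ψ (y0, z)), t.T = T ∧ t.F0 = fun s => Ψ (y0, T s) := by
  have hOe : ∀ᶠ a in L, π a ∈ O := hπ.eventually (hO.mem_nhds hq)
  exact exists_mtor_of hd h hP hJ (sy_hkT (H q1) (Or.inl rfl)) hy0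
    (xp := fun a => (H (π a)).om 1) (yp := fun a => (H (π a)).om 2)
    (Ip := fun a => (H (π a)).J 0)
    (Eventually.of_forall fun a => sy_hkT (H (π a)) (Or.inl rfl))
    ((tc2_of_sm (w := fun q => (H q).om 1) hO hq (sm.om 1)).comp_tendsto hπ)
    ((tc2_of_sm (w := fun q => (H q).om 2) hO hq (sm.om 2)).comp_tendsto hπ)
    (hOe.mono fun a ha => h1 _ ha) (hOe.mono fun a ha => h2 _ ha) hD hT z

/-- **exists_mtor** for the box -/
theorem exists_mtor_box {X : Type} [TopologicalSpace X] [CompactSpace X] {n : ℕ}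
    {C : RCh (Cn (2 * n)) X} {d : ℕ} {A : Atl d X}
    {D : Set (Cn n)} {Ψ : Cn n × Cn n → X}
    {l : Fin (2 * n) → Cn n → Cn n} {τ : Cn n → Cn n → Cn n → ℂ} {y0 : Cn n}
    {Q : F2 C →ₗ[ℝ] F2 C →ₗ[ℝ] ℝ} (hc : Ctx n C Q) {H0 : HkT C}
    {e : F2 C} (B : Box Q H0 e) {b c : Fin B.m → ℝ} (hb : b ∈ B.B) (hcD : c ∈ B.D)
    (h : HolTube C ((B.H b c).J 0) ((B.H b c).om 1) ((B.H b c).om 2) n D Ψ l τ)
    (hP : PVT Q e D Ψ l) (hJ : JC C ((B.H b c).J 0) A)
    {α : Type*} {L : Filter α} {π : α → (Fin B.m → ℝ) × (Fin B.m → ℝ)}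
    (hπ : Tendsto π L (𝓝 (b, c))) {Dp : α → MovD A}
    (hD : ∀ᶠ a in L, RelJ C A ((B.H (π a).1 (π a).2).J 0) (Dp a)) (hy0 : y0 ∈ D)
    {T : (Fin (2 * n) → ℝ) ≃L[ℝ] Cn n} (hT : ∀ s, T s = ∑ k, s k • l k y0) (z : Cn n) :
    ∃ t : MTor (Fin (2 * n)) n L Dp (Ψ (y0, z)), t.T = T ∧ t.F0 = fun s => Ψ (y0, T s) := by
  have hQ : ∀ x y : F2 C, Crest.Agent.R281.Alg_998.Cl x y → Q x e = Q y e := by
    intro x y hxy
    have h1 := hc.ex (x - y) e hxy
    rw [map_sub, LinearMap.sub_apply, sub_eq_zero] at h1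
    exact h1
  have hl : ∀ b : Fin B.m → ℝ, Q (lco B.bas b) e = 0 := by
    intro b
    unfold RkD_902.lco
    rw [map_sum, LinearMap.sum_apply]
    refine Finset.sum_eq_zero fun j _ => ?_
    rw [map_smul, LinearMap.smul_apply, B.orth, smul_zero]
  have hfin : Module.finrank ℝ (Cn (2 * n)) = 2 * (2 * n) := by
    rw [← Module.finrank_mul_finrank ℝ ℂ, Complex.finrank_real_complex, finrank_euclideanSpace,
      Fintype.card_fin]
  refine exists_mtor (H := fun q : (Fin B.m → ℝ) × (Fin B.m → ℝ) => B.H q.1 q.2)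
    (q1 := (b, c)) hfin (B.oB.prod B.oD) ⟨hb, hcD⟩ B.sm h hP hJ ?_ ?_ hπ hD hy0 hT z
  · rintro ⟨b', c'⟩ ⟨hb', hc'⟩
    obtain ⟨s, -, hs⟩ := B.cl1 b' hb' c' hc'
    rw [hQ _ _ hs, map_smul, LinearMap.smul_apply, hl, smul_zero]
  · rintro ⟨b', c'⟩ ⟨hb', hc'⟩
    obtain ⟨s, t, -, hs⟩ := B.cl2 b' hb' c' hc'
    rw [hQ _ _ hs, map_add, LinearMap.add_apply, map_smul, map_smul, LinearMap.smul_apply,
      LinearMap.smul_apply, hl, hl, smul_zero, smul_zero, add_zero]

end

end Crest.Agent.R281.OT_763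
end

-- ▼ part R281/OpL1_450
section

/-!
# Row 281, OPEN' (helper450): tori and all sections

330 proves `Fib`, `Ver` for a basis `G.s` of the sections; 569's `hno_bel` uses the family of all
sections.
-/

set_option autoImplicit false
set_option linter.unusedSectionVars false

open Set Filter Topology Complex

namespace Crest.Agent.R281.OpL_450

open Crest.Agent.R273 Crest.Agent.R273.Defs_333
open Crest.Agent.R275 Crest.Agent.R275.Geo Crest.Agent.R275.Core144
open Crest.Agent.R273.LamN127 (BN)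
open Crest.Agent.R281.OpB_849 Crest.Agent.R281.OpI_450 Crest.Agent.R281.OpT_330
open Crest.Agent.R281.OpD_569

noncomputable section

variable {N m : ℕ} {M : Type} [TopologicalSpace M] {A : Atl N M} {L : LB A}
variable {d : Type} [Fintype d] {F : (d → ℝ) → M}

/-- all sections are constant on the torus -/
theorem fib_all {c : ℕ} {G : GG L c} (bs : Module.Basis (Fin c) ℂ (H0S L))
    (hbs : ∀ a, G.s a = sOf (bs a).1) (h : Fib G.s F) :
    Fib (fun v : HolB (BN L) => sOf v.1) F := by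
  intro v w i j x y hx hy
  set xs : M := F x
  set ys : M := F y
  have h1 : ∀ a b, evH L i xs (bs a) * evH L j ys (bs b) =
      evH L i xs (bs b) * evH L j ys (bs a) := by
    intro a b
    have h2 := h a b i j x y hx hy
    rw [hbs, hbs] at h2
    exact h2
  have e1 : ∀ a, ∀ w : H0S L, evH L i xs (bs a) * evH L j ys w =
      evH L i xs w * evH L j ys (bs a) := by
    intro a w
    have e2 : evH L i xs (bs a) • evH L j ys = evH L j ys (bs a) • evH L i xs := by
      refine bs.ext fun b => ?_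
      simp only [LinearMap.smul_apply, smul_eq_mul]
      rw [h1 a b, mul_comm]
    have e3 := LinearMap.congr_fun e2 w
    simp only [LinearMap.smul_apply, smul_eq_mul] at e3
    rw [e3, mul_comm]
  have e4 : ∀ v w : H0S L, evH L i xs v * evH L j ys w = evH L i xs w * evH L j ys v := by
    intro v w
    have e2 : evH L j ys w • evH L i xs = evH L i xs w • evH L j ys := by
      refine bs.ext fun a => ?_
      simp only [LinearMap.smul_apply, smul_eq_mul]
      rw [← e1 a w, mul_comm]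
    have e3 := LinearMap.congr_fun e2 v
    simp only [LinearMap.smul_apply, smul_eq_mul] at e3
    rw [← e3, mul_comm]
  exact e4 ⟨v.1, v.2⟩ ⟨w.1, w.2⟩

/-- verticality against all sections is stronger than against a basis -/
theorem ver_all {c : ℕ} {G : GG L c} (bs : Module.Basis (Fin c) ℂ (H0S L))
    (hbs : ∀ a, G.s a = sOf (bs a).1) {T : (d → ℝ) ≃L[ℝ] Cn m} (h : Ver G.s T F) :
    Ver (fun v : HolB (BN L) => sOf v.1) T F := by
  intro i z hz X hX
  refine h i z hz X fun a b => ?_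
  rw [hbs, hbs]
  exact hX ⟨(bs a).1, (bs a).2⟩ ⟨(bs b).1, (bs b).2⟩

/-- the basis spans -/
theorem span_of {c : ℕ} {G : GG L c} (bs : Module.Basis (Fin c) ℂ (H0S L))
    (hbs : ∀ a, G.s a = sOf (bs a).1) {s : A.ι → M → ℂ} (hs : IsHS L univ s) :
    ∃ k : Fin c → ℂ, ∀ i, ∀ x ∈ (A.e i).source, s i x = ∑ a, k a * G.s a i x := by
  set u : H0S L := ⟨_, ofS_mem hs⟩ with hu
  refine ⟨fun a => bs.repr u a, fun i x hx => ?_⟩
  have h1 : evH L i x u = s i x := sOf_ofS (isS_of_isHS hs) hx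
  have h2 : evH L i x u = ∑ a, bs.repr u a * evH L i x (bs a) := by
    conv_lhs => rw [← bs.sum_repr u]
    simp only [map_sum, LinearMap.map_smul, smul_eq_mul]
  rw [← h1, h2]
  refine Finset.sum_congr rfl fun a _ => ?_
  rw [hbs]
  rfl

variable [Finite A.ι] [T2Space M] [CompactSpace M]

/-- a basis of the sections of a globally generated bundle -/
theorem exists_GGB (P : Part A)
    (hg : ∀ i, ∀ x ∈ (A.e i).source, ∃ s, IsHS L univ s ∧ s i x ≠ 0) :
    ∃ (c : ℕ) (G : GG L c) (bs : Module.Basis (Fin c) ℂ (H0S L)), ∀ a, G.s a = sOf (bs a).1 := by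
  have hfd : FiniteDimensional ℂ (H0S L) := H0S_fin (L := L) P
  have hfree : Module.Free ℂ (H0S L) := Module.Free.of_divisionRing ℂ (H0S L)
  let b := Module.finBasis ℂ (H0S L)
  refine ⟨_, ⟨fun a => sOf (b a).1, fun a => isHS_of_ker (b a).2.2, fun i x hx => ?_⟩,
    b, fun a => rfl⟩
  by_contra hcon
  push Not at hcon
  obtain ⟨s, hs, hne⟩ := hg i x hx
  apply hne
  have h1 : evH L i x = 0 := b.ext fun a => by
    rw [LinearMap.zero_apply]
    exact hcon a
  have h2 := LinearMap.congr_fun h1 ⟨ofS s (isS_of_isHS hs), ofS_mem hs⟩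
  have h3 : sOf (ofS s (isS_of_isHS hs)) i x = 0 := h2
  rwa [sOf_ofS _ hx] at h3

end

end Crest.Agent.R281.OpL_450
end

-- ▼ part R281/OpF1_330
section

/-!
# Row 281, OPEN-FIB (helper330), file 1: zero periods imply that the sections are constant on a torus

`lvT h T F i x v` : the Levi form of the weight of `h : HM L` along the torus.

* `mean_fun`  : the mean of the Levi form of a function vanishes;
* `mean_hm`   : the mean of `lvT h` does not depend on `h`;
* `lvT_fs`    : if the mean vanishes, the Fubini-Study form vanishes along the torus;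
* `fib_of_mean` : the sections `s_a` define a constant map on the torus.
-/

set_option autoImplicit false
set_option linter.unusedSectionVars false

open Set Filter Topology Complex Matrix MeasureTheory Module
open scoped ContDiff Matrix ComplexConjugate ComplexOrder

namespace Crest.Agent.R281.OpT_330

open Crest.Agent.R273 Crest.Agent.R275 Crest.Agent.R275.Geo Crest.Agent.R275.Core144
open Crest.Agent.R273.Defs_333 Crest.Agent.R273.HM_333 Crest.Agent.R273.Kah_333
open Crest.Agent.R273.Vol_333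
open Crest.Agent.R281.Op3_569
open Crest.Agent.R281.OpB_849
open Crest.Agent.R275.Tor812 (box)

noncomputable section

variable {m N : ℕ} {M : Type} [TopologicalSpace M] {A : Atl N M} {L : LB A} {d : Type} [Fintype d]
  {T : (d → ℝ) ≃L[ℝ] Cn m} {F : (d → ℝ) → M}

/-! ### Levi forms -/

theorem one_one_le : (1 : WithTop ℕ∞) + 1 ≤ ∞ := by
  have h : ((2 : ℕ∞) : WithTop ℕ∞) ≤ ((⊤ : ℕ∞) : WithTop ℕ∞) := WithTop.coe_le_coe.2 le_top
  have h2 : (1 : WithTop ℕ∞) + 1 = ((2 : ℕ∞) : WithTop ℕ∞) := by norm_num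
  rw [h2]; exact h

theorem two_le_inf : (2 : WithTop ℕ∞) ≤ ∞ := by
  have := one_one_le
  rwa [one_add_one_eq_two] at this

theorem lev_eq_lev {k : ℕ} (u : Cn k → ℝ) (z v : Cn k) : lev u z v = 4 * Levi_145.lev u z v := by
  unfold lev Levi_145.lev
  rw [iteratedFDeriv_two_apply, iteratedFDeriv_two_apply]
  simp only [Matrix.cons_val_zero, Matrix.cons_val_one]
  ring

theorem lev_comp' {k : ℕ} {u : Cn N → ℝ} {f : Cn k → Cn N} {z : Cn k} (hf : AnalyticAt ℂ f z)
    (hu : ContDiffAt ℝ 2 u (f z)) (v : Cn k) :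
    lev (fun w => u (f w)) z v = lev u (f z) (fderiv ℂ f z v) := by
  rw [lev_eq_lev, lev_eq_lev, Levi_145.lev_comp hf hu]

/-- analyticity of the reading -/
theorem HTor.rd_an (hF : HTor A T F) {i : A.ι} {z : Cn m}
    (hz : F (T.symm z) ∈ (A.e i).source) : AnalyticAt ℂ (rd A T F i) z := by
  set U : Set (Cn m) := {w | F (T.symm w) ∈ (A.e i).source} with hU
  have hUo : IsOpen U := (A.e i).open_source.preimage (hF.cont.comp T.symm.continuous)
  have h1 : DifferentiableOn ℂ (rd A T F i) U := fun w hw => (hF.hol i w hw).differentiableWithinAt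
  exact R266.SCV.analyticOnNhd_of_differentiableOn hUo h1 z hz

/-- a smooth function along the torus -/
theorem HTor.fun_smooth (hF : HTor A T F) {f : M → ℝ} (hf : A.Sm f) :
    ContDiff ℝ ∞ fun z => f (F (T.symm z)) := by
  rw [contDiff_iff_contDiffAt]
  intro z
  obtain ⟨i, hi⟩ := A.cover (F (T.symm z))
  have h1 : ContDiffAt ℝ ∞ (rd A T F i) z := ((hF.rd_an hi).contDiffAt).restrict_scalars ℝ
  have h2 : ContDiffAt ℝ ∞ (fun y => f ((A.e i).symm y)) (rd A T F i z) :=
    sm_contDiffAt hf i ((A.e i).map_source hi)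
  have h3 : ContDiffAt ℝ ∞ (fun w => f ((A.e i).symm (rd A T F i w))) z :=
    ContDiffAt.comp (g := fun y => f ((A.e i).symm y)) z h2 h1
  refine h3.congr_of_eventuallyEq ?_
  filter_upwards [hF.nhds hi] with w hw
  unfold rd
  rw [(A.e i).left_inv hw]

/-- the mean of a second derivative vanishes -/
theorem mean_second {g : Cn m → ℝ} (hg : ContDiff ℝ ∞ g) (hp : Per fun x => g (T x)) (v : d → ℝ) :
    ∫ x in box (0 : d → ℝ), fderiv ℝ (fderiv ℝ g) (T x) (T v) (T v) = 0 := by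
  have hfd : ContDiff ℝ 1 (fderiv ℝ g) := hg.fderiv_right one_one_le
  set G : (d → ℝ) → ℂ := fun x => ((fderiv ℝ g (T x) (T v) : ℝ) : ℂ) with hG
  have hGc : ContDiff ℝ 1 G := by
    have h1 : ContDiff ℝ 1 fun x : d → ℝ => fderiv ℝ g (T x) (T v) :=
      (hfd.comp T.contDiff).clm_apply contDiff_const
    exact Complex.ofRealCLM.contDiff.comp h1
  have hper : ∀ (k : d → ℤ) (x : d → ℝ), fderiv ℝ g (T (x + fun i => (k i : ℝ))) =
      fderiv ℝ g (T x) := by
    intro k x
    have h1 : (fun w => g (w + T fun j => (k j : ℝ))) = g := by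
      funext w
      have h2 := hp k (T.symm w)
      simp only [map_add, ContinuousLinearEquiv.apply_symm_apply] at h2
      exact h2
    have h2 : fderiv ℝ (fun w => g (w + T fun j => (k j : ℝ))) (T x) =
        fderiv ℝ g (T x + T fun j => (k j : ℝ)) := fderiv_comp_add_right _
    rw [map_add, ← h2, h1]
  have hGp : Per G := by
    intro k x
    simp only [hG]
    rw [hper k x]
  have hD : ∀ x, Dv G v x = ((fderiv ℝ (fderiv ℝ g) (T x) (T v) (T v) : ℝ) : ℂ) := by
    intro x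
    have h1 : HasFDerivAt (fderiv ℝ g) (fderiv ℝ (fderiv ℝ g) (T x)) (T x) :=
      (hfd.differentiable (by norm_num) _).hasFDerivAt
    have h2 : HasFDerivAt (fun x : d → ℝ => fderiv ℝ g (T x))
        ((fderiv ℝ (fderiv ℝ g) (T x)).comp (T : (d → ℝ) →L[ℝ] Cn m)) x :=
      h1.comp x T.hasFDerivAt
    have h3 : HasFDerivAt (fun x : d → ℝ => fderiv ℝ g (T x) (T v))
        (((fderiv ℝ (fderiv ℝ g) (T x)).comp (T : (d → ℝ) →L[ℝ] Cn m)).flip (T v)) x := by
      have h4 := h2.clm_apply (hasFDerivAt_const (T v) x)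
      simpa using h4
    have h4 : HasFDerivAt G (Complex.ofRealCLM.comp
        (((fderiv ℝ (fderiv ℝ g) (T x)).comp (T : (d → ℝ) →L[ℝ] Cn m)).flip (T v))) x :=
      Complex.ofRealCLM.hasFDerivAt.comp x h3
    unfold Dv
    rw [h4.fderiv]
    rfl
  have h1 := int_Dv hGc hGp v
  simp only [hD] at h1
  have h2 : ∫ x in box (0 : d → ℝ), ((fderiv ℝ (fderiv ℝ g) (T x) (T v) (T v) : ℝ) : ℂ) =
      ((∫ x in box (0 : d → ℝ), fderiv ℝ (fderiv ℝ g) (T x) (T v) (T v) : ℝ) : ℂ) :=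
    integral_ofReal
  rw [h2] at h1
  exact_mod_cast h1

/-- **the mean of the Levi form of a function on the torus vanishes** -/
theorem mean_lev {g : Cn m → ℝ} (hg : ContDiff ℝ ∞ g) (hp : Per fun x => g (T x)) (v : d → ℝ) :
    ∫ x in box (0 : d → ℝ), lev g (T x) (T v) = 0 := by
  have h1 := mean_second hg hp v
  have h2 := mean_second hg hp (T.symm (Complex.I • T v))
  rw [ContinuousLinearEquiv.apply_symm_apply] at h2
  have hfd2 : Continuous (fderiv ℝ (fderiv ℝ g)) :=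
    (hg.fderiv_right (m := 1) one_one_le).continuous_fderiv (by norm_num)
  have hc : ∀ w : Cn m, Continuous fun x : d → ℝ => fderiv ℝ (fderiv ℝ g) (T x) w w := fun w =>
    ((hfd2.comp T.continuous).clm_apply continuous_const).clm_apply continuous_const
  have h3 : ∀ x : d → ℝ, lev g (T x) (T v) = fderiv ℝ (fderiv ℝ g) (T x) (T v) (T v) +
      fderiv ℝ (fderiv ℝ g) (T x) (Complex.I • T v) (Complex.I • T v) := by
    intro x
    unfold lev
    rw [iteratedFDeriv_two_apply, iteratedFDeriv_two_apply]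
    simp only [Matrix.cons_val_zero, Matrix.cons_val_one]
  simp only [h3]
  rw [integral_add (integrable_box (hc _)) (integrable_box (hc _)), h1, h2, add_zero]

/-! ### metrics of a line bundle along a torus -/

/-- the Levi form of the weight along the torus -/
def lvT (h : HM L) (T : (d → ℝ) ≃L[ℝ] Cn m) (F : (d → ℝ) → M) (i : A.ι) (x v : d → ℝ) : ℝ :=
  lev (h.wt i) (rd A T F i (T x)) (fderiv ℂ (rd A T F i) (T x) (T v))

theorem rd_T (i : A.ι) (x : d → ℝ) : rd A T F i (T x) = A.e i (F x) := by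
  unfold rd
  rw [ContinuousLinearEquiv.symm_apply_apply]

theorem src_T {i : A.ι} {x : d → ℝ} (hx : F x ∈ (A.e i).source) :
    F (T.symm (T x)) ∈ (A.e i).source := by
  rwa [ContinuousLinearEquiv.symm_apply_apply]

theorem lvT_eq (h : HM L) {i : A.ι} {x : d → ℝ} (hx : F x ∈ (A.e i).source) (v : d → ℝ) :
    ((lvT h T F i x v : ℝ) : ℂ) = 4 * (WithLp.ofLp (fderiv ℂ (rd A T F i) (T x) (T v)) ⬝ᵥ
      cur h i (F x) *ᵥ star (WithLp.ofLp (fderiv ℂ (rd A T F i) (T x) (T v)))) := by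
  have hz : A.e i (F x) ∈ (A.e i).target := (A.e i).map_source hx
  unfold lvT
  rw [rd_T, Hess_333.lev_eq (wt_contDiffAt h i hz)]
  congr 1
  unfold Hess_333.hq cur dotProduct mulVec dotProduct
  refine Finset.sum_congr rfl fun a _ => ?_
  rw [Finset.mul_sum]
  refine Finset.sum_congr rfl fun b _ => ?_
  simp only [Pi.star_apply, RCLike.star_def]
  ring

/-- independence of the chart -/
theorem lvT_indep (hF : HTor A T F) (h : HM L) {i j : A.ι} {x : d → ℝ}
    (hi : F x ∈ (A.e i).source) (hj : F x ∈ (A.e j).source) (v : d → ℝ) :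
    lvT h T F i x v = lvT h T F j x v := by
  have h1 : ((lvT h T F i x v : ℝ) : ℂ) = ((lvT h T F j x v : ℝ) : ℂ) := by
    rw [lvT_eq h hi, lvT_eq h hj, cur_tr h ⟨hi, hj⟩, hF.rd_change (src_T hi) (src_T hj),
      ContinuousLinearEquiv.symm_apply_apply]
    congr 1
    set W := WithLp.ofLp (fderiv ℂ (rd A T F i) (T x) (T v))
    set J := Jm A i j (F x)
    have h2 : (J.map conj) *ᵥ star W = star (J *ᵥ W) := by
      rw [Matrix.star_mulVec, ← Matrix.mulVec_transpose]
      congr 1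
    rw [← Matrix.mulVec_mulVec, ← Matrix.mulVec_mulVec, h2, Matrix.dotProduct_mulVec,
      Matrix.vecMul_transpose]
  exact_mod_cast h1

/-- the Levi form along the torus, in the chosen chart -/
def lvC (h : HM L) (T : (d → ℝ) ≃L[ℝ] Cn m) (F : (d → ℝ) → M) (x v : d → ℝ) : ℝ :=
  lvT h T F (chA A (F x)) x v

theorem lvC_eq (hF : HTor A T F) (h : HM L) {i : A.ι} {x : d → ℝ}
    (hi : F x ∈ (A.e i).source) (v : d → ℝ) : lvC h T F x v = lvT h T F i x v :=
  lvT_indep hF h (chA_mem _) hi v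

theorem cont_lev_aux {X : Type*} [TopologicalSpace X] {u : Cn N → ℝ} {z W : X → Cn N} (x0 : X)
    (h2 : ContinuousAt (fun x => fderiv ℝ (fderiv ℝ u) (z x)) x0) (hW : ContinuousAt W x0) :
    ContinuousAt (fun x => lev u (z x) (W x)) x0 := by
  have hI : ContinuousAt (fun x => Complex.I • W x) x0 := hW.const_smul Complex.I
  have h3 : (fun x => lev u (z x) (W x)) = fun x =>
      fderiv ℝ (fderiv ℝ u) (z x) (W x) (W x) +
        fderiv ℝ (fderiv ℝ u) (z x) (Complex.I • W x) (Complex.I • W x) := by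
    funext x
    unfold lev
    rw [iteratedFDeriv_two_apply, iteratedFDeriv_two_apply]
    simp only [Matrix.cons_val_zero, Matrix.cons_val_one]
  rw [h3]
  have a1 : ContinuousAt (fun x => fderiv ℝ (fderiv ℝ u) (z x) (W x)) x0 := h2.clm_apply hW
  have a2 : ContinuousAt (fun x => fderiv ℝ (fderiv ℝ u) (z x) (W x) (W x)) x0 := a1.clm_apply hW
  have b1 : ContinuousAt (fun x => fderiv ℝ (fderiv ℝ u) (z x) (Complex.I • W x)) x0 :=
    h2.clm_apply hI
  have b2 : ContinuousAt (fun x => fderiv ℝ (fderiv ℝ u) (z x) (Complex.I • W x)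
      (Complex.I • W x)) x0 := b1.clm_apply hI
  exact a2.add b2

theorem lvC_cont (hF : HTor A T F) (h : HM L) (v : d → ℝ) : Continuous fun x => lvC h T F x v := by
  rw [continuous_iff_continuousAt]
  intro x0
  obtain ⟨i, hi⟩ := A.cover (F x0)
  have hz : A.e i (F x0) ∈ (A.e i).target := (A.e i).map_source hi
  have hnb : ∀ᶠ x in 𝓝 x0, F x ∈ (A.e i).source :=
    hF.cont.continuousAt.eventually_mem ((A.e i).open_source.mem_nhds hi)
  have h1 : ContinuousAt (fun x => lvT h T F i x v) x0 := by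
    have hw : ContDiffAt ℝ ∞ (h.wt i) (rd A T F i (T x0)) := by
      rw [rd_T]
      exact wt_contDiffAt h i hz
    have hw2 : ContinuousAt (fderiv ℝ (fderiv ℝ (h.wt i))) (rd A T F i (T x0)) := by
      have e1 : ContDiffAt ℝ 1 (fderiv ℝ (h.wt i)) (rd A T F i (T x0)) :=
        hw.fderiv_right one_one_le
      exact (e1.fderiv_right (m := 0) (by norm_num)).continuousAt
    have hr : ContinuousAt (fun x => rd A T F i (T x)) x0 :=
      ContinuousAt.comp (g := rd A T F i) (f := fun x => T x) (hF.rd_diff (src_T hi)).continuousAt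
        T.continuous.continuousAt
    have hfr : ContinuousAt (fun x => fderiv ℂ (rd A T F i) (T x) (T v)) x0 := by
      have e1 : ContinuousAt (fderiv ℂ (rd A T F i)) (T x0) := (hF.fd_diff (src_T hi)).continuousAt
      have e2 : ContinuousAt (fun x => fderiv ℂ (rd A T F i) (T x)) x0 :=
        ContinuousAt.comp (g := fderiv ℂ (rd A T F i)) (f := fun x => T x) e1
          T.continuous.continuousAt
      exact e2.clm_apply continuousAt_const
    have h2 : ContinuousAt (fun x => fderiv ℝ (fderiv ℝ (h.wt i)) (rd A T F i (T x))) x0 :=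
      ContinuousAt.comp (g := fderiv ℝ (fderiv ℝ (h.wt i))) (f := fun x => rd A T F i (T x)) hw2 hr
    exact cont_lev_aux _ h2 hfr
  refine h1.congr ?_
  filter_upwards [hnb] with x hx
  exact (lvC_eq hF h hx v).symm

/-! ### two metrics -/

theorem exists_diff (h h' : HM L) : ∃ f : M → ℝ, A.Sm f ∧
    ∀ i, ∀ z ∈ (A.e i).target, h'.wt i z = h.wt i z + f ((A.e i).symm z) := by
  set f : M → ℝ := fun x => Real.log (h.w (chA A x) x) - Real.log (h'.w (chA A x) x) with hf
  have key : ∀ i, ∀ x ∈ (A.e i).source, f x = Real.log (h.w i x) - Real.log (h'.w i x) := by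
    intro i x hx
    have hc := chA_mem (A := A) x
    have hg : 0 < ‖L.g i (chA A x) x‖ ^ 2 := by
      have := L.ne_zero i (chA A x) x
      positivity
    rw [hf]
    simp only []
    rw [h.tr i _ x ⟨hx, hc⟩, h'.tr i _ x ⟨hx, hc⟩, Real.log_mul hg.ne' (h.pos i x hx).ne',
      Real.log_mul hg.ne' (h'.pos i x hx).ne']
    ring
  have key2 : ∀ i, ∀ z ∈ (A.e i).target, h'.wt i z = h.wt i z + f ((A.e i).symm z) := by
    intro i z hz
    rw [key i _ ((A.e i).map_target hz)]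
    unfold HM.wt
    ring
  refine ⟨f, fun i => ?_, key2⟩
  have h1 : ContDiffOn ℝ ∞ (fun z => h'.wt i z - h.wt i z) (A.e i).target := fun z hz =>
    ((wt_contDiffAt h' i hz).sub (wt_contDiffAt h i hz)).contDiffWithinAt
  refine h1.congr fun z hz => ?_
  show f ((A.e i).symm z) = h'.wt i z - h.wt i z
  rw [key2 i z hz]
  ring

theorem lev_add' {u w : Cn N → ℝ} {z : Cn N} (hu : ContDiffAt ℝ ∞ u z) (hw : ContDiffAt ℝ ∞ w z)
    (v : Cn N) : lev (fun y => u y + w y) z v = lev u z v + lev w z v := by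
  have h1 : ((lev (fun y => u y + w y) z v : ℝ) : ℂ) = ((lev u z v + lev w z v : ℝ) : ℂ) := by
    rw [ofReal_add, Hess_333.lev_eq (hu.add hw), Hess_333.lev_eq hu, Hess_333.lev_eq hw]
    unfold Hess_333.hq
    rw [HessB_333.hess_add hu hw, ← mul_add, ← Finset.sum_add_distrib]
    congr 1
    refine Finset.sum_congr rfl fun a _ => ?_
    rw [← Finset.sum_add_distrib]
    refine Finset.sum_congr rfl fun b _ => ?_
    rw [Matrix.add_apply]
    ring
  exact_mod_cast h1

theorem lev_congr' {k : ℕ} {u w : Cn k → ℝ} {z : Cn k} (h : u =ᶠ[𝓝 z] w) (v : Cn k) :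
    lev u z v = lev w z v := by
  unfold lev
  rw [(h.iteratedFDeriv ℝ 2).eq_of_nhds]

/-- two metrics differ by the Levi form of a function -/
theorem lvC_diff (hF : HTor A T F) (h h' : HM L) : ∃ g : Cn m → ℝ, ContDiff ℝ ∞ g ∧
    (Per fun x => g (T x)) ∧ ∀ x v, lvC h' T F x v = lvC h T F x v + lev g (T x) (T v) := by
  obtain ⟨f, hf, hff⟩ := exists_diff h h'
  refine ⟨fun z => f (F (T.symm z)), hF.fun_smooth hf, fun k x => ?_, fun x v => ?_⟩
  · simp only [ContinuousLinearEquiv.symm_apply_apply]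
    rw [hF.per k x]
  · set i := chA A (F x) with hi
    have hx : F x ∈ (A.e i).source := chA_mem _
    have hz : A.e i (F x) ∈ (A.e i).target := (A.e i).map_source hx
    have h1 : h'.wt i =ᶠ[𝓝 (rd A T F i (T x))] fun z => h.wt i z + f ((A.e i).symm z) := by
      rw [rd_T]
      filter_upwards [(A.e i).open_target.mem_nhds hz] with z hz'
      exact hff i z hz'
    have hfc : ContDiffAt ℝ ∞ (fun z => f ((A.e i).symm z)) (rd A T F i (T x)) := by
      rw [rd_T]; exact sm_contDiffAt hf i hz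
    have hwc : ContDiffAt ℝ ∞ (h.wt i) (rd A T F i (T x)) := by
      rw [rd_T]; exact wt_contDiffAt h i hz
    have h2 : lev (fun z => f (F (T.symm z))) (T x) (T v) =
        lev (fun z => f ((A.e i).symm z)) (rd A T F i (T x)) (fderiv ℂ (rd A T F i) (T x) (T v)) := by
      have h3 := lev_comp' (u := fun z => f ((A.e i).symm z)) (f := rd A T F i) (z := T x)
        (hF.rd_an (src_T hx)) (hfc.of_le two_le_inf) (T v)
      rw [← h3]
      have h4 : (fun z => f (F (T.symm z))) =ᶠ[𝓝 (T x)]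
          fun w => f ((A.e i).symm (rd A T F i w)) := by
        filter_upwards [hF.nhds (src_T hx)] with w hw
        unfold rd
        rw [(A.e i).left_inv hw]
      exact lev_congr' h4 _
    unfold lvC lvT
    rw [← hi, lev_congr' h1, lev_add' hwc hfc, h2]

theorem cont_lev {g : Cn m → ℝ} (hg : ContDiff ℝ ∞ g) (v : d → ℝ) :
    Continuous fun x : d → ℝ => lev g (T x) (T v) := by
  rw [continuous_iff_continuousAt]
  intro x0
  have hfd2 : Continuous (fderiv ℝ (fderiv ℝ g)) :=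
    (hg.fderiv_right (m := 1) one_one_le).continuous_fderiv (by norm_num)
  exact cont_lev_aux x0 (hfd2.comp T.continuous).continuousAt continuousAt_const

/-- **the mean of the curvature along the torus does not depend on the metric** -/
theorem mean_hm (hF : HTor A T F) (h h' : HM L) {v : d → ℝ}
    (h0 : ∫ x in box (0 : d → ℝ), lvC h T F x v = 0) :
    ∫ x in box (0 : d → ℝ), lvC h' T F x v = 0 := by
  obtain ⟨g, hg, hgp, hd⟩ := lvC_diff hF h h'
  simp only [hd]
  rw [integral_add (integrable_box (lvC_cont hF h v)) (integrable_box (cont_lev hg v)), h0,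
    mean_lev hg hgp, add_zero]

/-! ### nonnegative functions with zero mean -/

theorem zero_of_mean {φ : (d → ℝ) → ℝ} (hc : Continuous φ) (hp : Per φ) (h0 : ∀ x, 0 ≤ φ x)
    (hm : ∫ x in box (0 : d → ℝ), φ x = 0) (x0 : d → ℝ) : φ x0 = 0 := by
  by_contra hne
  have hpos : 0 < φ x0 := lt_of_le_of_ne (h0 x0) (Ne.symm hne)
  set a : d → ℝ := fun i => x0 i - 1 / 2 with ha
  have hC : Continuous fun x => ((φ x : ℝ) : ℂ) := Complex.continuous_ofReal.comp hc
  have hP : Per fun x => ((φ x : ℝ) : ℂ) := fun k x => by simp only []; rw [hp k x]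
  have h1 := fcc_eq hC hP 0 a
  have h2 := fcc_eq hC hP 0 0
  rw [h1] at h2
  have hch : ∀ x : d → ℝ, Crest.Agent.R275.Tor812.ch (-(0 : d → ℤ)) x = 1 := fun x => by
    simp [Crest.Agent.R275.Tor812.ch]
  simp only [hch, one_mul] at h2
  have e1 : ∀ b : d → ℝ, ∫ x in box b, ((φ x : ℝ) : ℂ) = ((∫ x in box b, φ x : ℝ) : ℂ) :=
    fun b => integral_ofReal
  rw [e1, e1, hm] at h2
  have h3 : ∫ x in box a, φ x = 0 := by exact_mod_cast h2
  have hint : IntegrableOn φ (box a) volume := by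
    have hK : IsCompact (Icc a (fun i => a i + 1)) := isCompact_Icc
    refine (hc.continuousOn.integrableOn_compact hK).mono_set ?_
    intro x hx
    exact ⟨fun i => (hx i).1.le, fun i => (hx i).2⟩
  have h4 : 0 < ∫ x in box a, φ x := by
    rw [setIntegral_pos_iff_support_of_nonneg_ae (Eventually.of_forall h0) hint]
    have ho : IsOpen (Function.support φ ∩ Set.pi univ fun i => Ioo (a i) (a i + 1)) :=
      (hc.isOpen_support).inter (isOpen_set_pi finite_univ fun i _ => isOpen_Ioo)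
    have hne2 : (Function.support φ ∩ Set.pi univ fun i => Ioo (a i) (a i + 1)).Nonempty :=
      ⟨x0, hne, fun i _ => by
        constructor
        · simp [ha]
        · simp only [ha]; linarith⟩
    refine lt_of_lt_of_le (ho.measure_pos volume hne2) (measure_mono ?_)
    intro x hx
    exact ⟨hx.1, fun i => ⟨(hx.2 i (mem_univ i)).1, (hx.2 i (mem_univ i)).2.le⟩⟩
  exact h4.ne' h3

theorem Per.lvC (hF : HTor A T F) (h : HM L) (v : d → ℝ) : Per fun x => lvC h T F x v := by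
  intro k x
  unfold OpT_330.lvC lvT
  simp only []
  rw [hF.per k x, hF.fd_per, rd_T, rd_T, hF.per k x]

/-- the Fubini-Study form vanishes along a torus with zero mean curvature -/
theorem fs_zero {c : ℕ} (G : GG L c) (hF : HTor A T F) {v : d → ℝ}
    (h0 : ∫ x in box (0 : d → ℝ), lvC (fsL G) T F x v = 0) (x : d → ℝ) :
    lvC (fsL G) T F x v = 0 := by
  refine zero_of_mean (lvC_cont hF (fsL G) v) (Per.lvC hF (fsL G) v) (fun x => ?_) h0 x
  unfold lvC lvT
  refine fsL_semipos G _ _ ?_ _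
  rw [rd_T]
  exact (A.e _).map_source (chA_mem _)

/-- the sections are infinitesimally proportional along the torus -/
theorem fs_null {c : ℕ} (G : GG L c) (hF : HTor A T F) {v : d → ℝ}
    (h0 : ∫ x in box (0 : d → ℝ), lvC (fsL G) T F x v = 0) {i : A.ι} {x : d → ℝ}
    (hx : F x ∈ (A.e i).source) (a b : Fin c) :
    G.F i (rd A T F i (T x)) a * fderiv ℂ (fun z => G.F i z b) (rd A T F i (T x))
        (fderiv ℂ (rd A T F i) (T x) (T v)) =
      G.F i (rd A T F i (T x)) b * fderiv ℂ (fun z => G.F i z a) (rd A T F i (T x))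
        (fderiv ℂ (rd A T F i) (T x) (T v)) := by
  have h1 := fs_zero G hF h0 x
  rw [lvC_eq hF _ hx] at h1
  unfold lvT at h1
  have hz : rd A T F i (T x) ∈ (A.e i).target := by rw [rd_T]; exact (A.e i).map_source hx
  set z := rd A T F i (T x)
  set W := fderiv ℂ (rd A T F i) (T x) (T v)
  rw [lev_fsL G hz] at h1
  have hp := FS_333.sq_pos (G.F_ne (i := i) hz)
  have h2 := (lag (G.F i z) (fun k => fderiv ℂ (fun z => G.F i z k) z W) hp).2
  refine h2 ?_ a b
  rcases mul_eq_zero.1 h1 with h | h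
  · norm_num at h
  · rcases div_eq_zero_iff.1 h with h | h
    · exact h
    · exact absurd h (by positivity)

/-- **the sections define a constant map on the torus** -/
theorem fib_of_mean {c : ℕ} (G : GG L c) (hF : HTor A T F)
    (h0 : ∀ v : d → ℝ, ∫ x in box (0 : d → ℝ), lvC (fsL G) T F x v = 0) : Fib G.s F := by
  -- a section which does not vanish at `F 0`
  set i0 := chA A (F 0) with hi0
  have hx0 : F 0 ∈ (A.e i0).source := chA_mem _
  obtain ⟨a0, ha0⟩ := G.ne i0 (F 0) hx0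
  set r : Fin c → ℂ := fun b => G.s b i0 (F 0) / G.s a0 i0 (F 0) with hr
  set S : Set (d → ℝ) := {x | ∀ b i, F x ∈ (A.e i).source → G.s b i (F x) = r b * G.s a0 i (F x)}
    with hS
  have hch : ∀ {b : Fin c} {i j : A.ι} {x : d → ℝ}, F x ∈ (A.e i).source → F x ∈ (A.e j).source →
      G.s b i (F x) = r b * G.s a0 i (F x) → G.s b j (F x) = r b * G.s a0 j (F x) := by
    intro b i j x hi hj h
    rw [(G.hs b).tr j i _ ⟨hj, hi⟩ (mem_univ _), (G.hs a0).tr j i _ ⟨hj, hi⟩ (mem_univ _), h]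
    ring
  have h0S : (0 : d → ℝ) ∈ S := by
    intro b i hi
    refine hch hx0 hi ?_
    rw [hr]
    simp only []
    rw [div_mul_cancel₀ _ ha0]
  have hsm : ∀ (b : Fin c) (i : A.ι) {x : d → ℝ}, F x ∈ (A.e i).source →
      ContinuousAt (fun y => G.s b i (F y)) x := by
    intro b i x hx
    have h1 := hF.comp ((G.hs b).hol i) (src_T hx)
    have h2 : ContinuousAt (fun y => G.s b i (F (T.symm (T y)))) x :=
      ContinuousAt.comp (g := fun w => G.s b i (F (T.symm w))) (f := fun y => T y)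
        h1.continuousAt T.continuous.continuousAt
    simpa only [ContinuousLinearEquiv.symm_apply_apply] using h2
  have hnb : ∀ {i : A.ι} {x : d → ℝ}, F x ∈ (A.e i).source → ∀ᶠ y in 𝓝 x, F y ∈ (A.e i).source :=
    fun {i x} hx => hF.cont.continuousAt.eventually_mem ((A.e i).open_source.mem_nhds hx)
  have hcl : IsClosed S := by
    rw [← isOpen_compl_iff, isOpen_iff_mem_nhds]
    intro x hx
    have hx' : ¬ ∀ b i, F x ∈ (A.e i).source → G.s b i (F x) = r b * G.s a0 i (F x) := hx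
    push Not at hx'
    obtain ⟨b, i, hi, hne⟩ := hx'
    have h1 : ContinuousAt (fun y => G.s b i (F y) - r b * G.s a0 i (F y)) x :=
      (hsm b i hi).sub ((hsm a0 i hi).const_mul _)
    filter_upwards [h1.eventually_ne (sub_ne_zero.2 hne), hnb hi] with y hy hyi hyS
    exact hy (sub_eq_zero.2 (hyS b i hyi))
  have hop : IsOpen S := by
    rw [isOpen_iff_mem_nhds]
    intro x hx
    set i := chA A (F x) with hi
    have hxi : F x ∈ (A.e i).source := chA_mem _
    have hne : G.s a0 i (F x) ≠ 0 := by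
      intro h
      obtain ⟨b, hb⟩ := G.ne i (F x) hxi
      rw [hx b i hxi, h, mul_zero] at hb
      exact hb rfl
    have hev : ∀ᶠ w in 𝓝 (T x), F (T.symm w) ∈ (A.e i).source ∧ G.s a0 i (F (T.symm w)) ≠ 0 := by
      refine (hF.nhds (src_T hxi)).and ?_
      have h1 := (hF.comp ((G.hs a0).hol i) (src_T hxi)).continuousAt
      refine h1.eventually_ne ?_
      rwa [ContinuousLinearEquiv.symm_apply_apply]
    obtain ⟨ε, hε, hball⟩ := Metric.eventually_nhds_iff_ball.1 hev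
    have hmem : ∀ᶠ y in 𝓝 x, T y ∈ Metric.ball (T x) ε :=
      T.continuous.continuousAt.eventually_mem (Metric.ball_mem_nhds _ hε)
    filter_upwards [hmem] with y hy
    have hyi : F y ∈ (A.e i).source := by
      have := (hball _ hy).1
      rwa [ContinuousLinearEquiv.symm_apply_apply] at this
    intro b j hj
    refine hch hyi hj ?_
    -- the ratio is constant on the ball
    set R : Cn m → ℂ := fun w => G.F i (rd A T F i w) b * (G.F i (rd A T F i w) a0)⁻¹ with hR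
    have hGF : ∀ w, F (T.symm w) ∈ (A.e i).source → ∀ k,
        G.F i (rd A T F i w) k = G.s k i (F (T.symm w)) := by
      intro w hw k
      unfold GG.F rd
      rw [(A.e i).left_inv hw]
    have hder : ∀ w ∈ Metric.ball (T x) ε, HasFDerivAt R (0 : Cn m →L[ℂ] ℂ) w := by
      intro w hw
      obtain ⟨hw1, hw2⟩ := hball w hw
      have hz : rd A T F i w ∈ (A.e i).target := (A.e i).map_source hw1
      have hd : ∀ k, HasFDerivAt (fun z => G.F i z k) (fderiv ℂ (fun z => G.F i z k)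
          (rd A T F i w)) (rd A T F i w) := fun k =>
        ((G.F_hol i k).differentiableAt ((A.e i).open_target.mem_nhds hz)).hasFDerivAt
      have hc : ∀ k, HasFDerivAt (fun w => G.F i (rd A T F i w) k)
          ((fderiv ℂ (fun z => G.F i z k) (rd A T F i w)).comp (fderiv ℂ (rd A T F i) w)) w :=
        fun k => (hd k).comp w (hF.rd_diff hw1).hasFDerivAt
      have hne' : G.F i (rd A T F i w) a0 ≠ 0 := by rw [hGF w hw1]; exact hw2
      have h1 : HasFDerivAt (fun w => (G.F i (rd A T F i w) a0)⁻¹)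
          ((-((G.F i (rd A T F i w) a0) ^ 2)⁻¹) •
            ((fderiv ℂ (fun z => G.F i z a0) (rd A T F i w)).comp (fderiv ℂ (rd A T F i) w))) w :=
        (hasDerivAt_inv hne').comp_hasFDerivAt w (hc a0)
      have h2 := (hc b).mul h1
      have h3 : (G.F i (rd A T F i w) b • ((-((G.F i (rd A T F i w) a0) ^ 2)⁻¹) •
            ((fderiv ℂ (fun z => G.F i z a0) (rd A T F i w)).comp (fderiv ℂ (rd A T F i) w))) +
          (G.F i (rd A T F i w) a0)⁻¹ •
            ((fderiv ℂ (fun z => G.F i z b) (rd A T F i w)).comp (fderiv ℂ (rd A T F i) w))) =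
          (0 : Cn m →L[ℂ] ℂ) := by
        ext t
        have h3 := fs_null G hF (h0 (T.symm t)) (x := T.symm w) (i := i) hw1 a0 b
        simp only [ContinuousLinearEquiv.apply_symm_apply] at h3
        simp only [_root_.zero_apply, _root_.add_apply, _root_.smul_apply, smul_eq_mul,
          ContinuousLinearMap.comp_apply]
        field_simp
        linear_combination h3
      rw [← h3]
      exact h2
    have hconst : R (T y) = R (T x) := by
      refine (convex_ball (T x) ε).is_const_of_fderivWithin_eq_zero (𝕜 := ℂ)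
        (fun w hw => (hder w hw).differentiableAt.differentiableWithinAt) (fun w hw => ?_) hy
        (Metric.mem_ball_self hε)
      rw [fderivWithin_of_isOpen Metric.isOpen_ball hw]
      exact (hder w hw).fderiv
    have hy2 := hball _ hy
    have e1 : R (T y) = G.s b i (F y) * (G.s a0 i (F y))⁻¹ := by
      rw [hR]
      simp only []
      rw [hGF _ (src_T hyi), hGF _ (src_T hyi), ContinuousLinearEquiv.symm_apply_apply]
    have e2 : R (T x) = G.s b i (F x) * (G.s a0 i (F x))⁻¹ := by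
      rw [hR]
      simp only []
      rw [hGF _ (src_T hxi), hGF _ (src_T hxi), ContinuousLinearEquiv.symm_apply_apply]
    rw [e1, e2, hx b i hxi] at hconst
    have hyne : G.s a0 i (F y) ≠ 0 := by
      have := hy2.2
      rwa [ContinuousLinearEquiv.symm_apply_apply] at this
    field_simp at hconst
    rw [hconst, mul_comm]
  have huniv : S = univ := IsClopen.eq_univ ⟨hcl, hop⟩ ⟨0, h0S⟩
  have hall : ∀ x, x ∈ S := fun x => by rw [huniv]; exact mem_univ x
  intro a b i j x y hxi hyj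
  rw [hall x a i hxi, hall y b j hyj, hall x b i hxi, hall y a j hyj]
  ring

/-- **(F1)**: zero mean curvature of ONE metric ⟹ the sections are constant on the torus -/
theorem fib_of_hm {c : ℕ} (G : GG L c) (hF : HTor A T F) (h : HM L)
    (h0 : ∀ v : d → ℝ, ∫ x in box (0 : d → ℝ), lvC h T F x v = 0) : Fib G.s F :=
  fib_of_mean G hF fun v => mean_hm hF h (fsL G) (h0 v)

end

end Crest.Agent.R281.OpT_330
end

-- ▼ part R281/OpF2_330
section

/-!
# Row 281, OPEN-FIB (helper330), file 2: maximal rank implies that vertical vectors are tangent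

`LTub A r m D Φ` : `Φ : D × ℂ^m → M` holomorphic with injective derivative.

* `LTub.htor`  : the tori;
* `ver_of_rk`  : if the sections `t_0 .. t_r` are proportional on all tori near `y0` and have rank `r`
                 at one point of the torus of `y0`, then `Ver t` on this torus (`N = r + m`).
-/

set_option autoImplicit false
set_option linter.unusedSectionVars false

open Set Filter Topology Complex Matrix MeasureTheory Module
open scoped ContDiff Matrix ComplexConjugate ComplexOrder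

namespace Crest.Agent.R281.OpT_330

open Crest.Agent.R273 Crest.Agent.R275 Crest.Agent.R275.Geo Crest.Agent.R275.Core144
open Crest.Agent.R273.Defs_333 Crest.Agent.R273.HM_333 Crest.Agent.R273.Kah_333
open Crest.Agent.R273.Vol_333
open Crest.Agent.R281.Op3_569
open Crest.Agent.R281.OpB_849

noncomputable section

variable {r m N : ℕ} {M : Type} [TopologicalSpace M] {A : Atl N M} {L : LB A} {d : Type} [Fintype d]
  {D : Set (Cn r)} {Φ : Cn r × Cn m → M}

/-- a tube of complex tori -/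
structure LTub (A : Atl N M) (D : Set (Cn r)) (Φ : Cn r × Cn m → M) : Prop where
  op : IsOpen D
  cont : ContinuousOn Φ (D ×ˢ univ)
  hol : ∀ p ∈ D ×ˢ (univ : Set (Cn m)), ∀ i, Φ p ∈ (A.e i).source →
    DifferentiableAt ℂ (fun q => A.e i (Φ q)) p
  inj : ∀ p ∈ D ×ˢ (univ : Set (Cn m)), ∀ i, Φ p ∈ (A.e i).source →
    Function.Injective (fderiv ℂ (fun q => A.e i (Φ q)) p)

theorem LTub.mem {y : Cn r} (hy : y ∈ D) (x : Cn m) : (y, x) ∈ D ×ˢ (univ : Set (Cn m)) :=
  ⟨hy, mem_univ x⟩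

theorem LTub.isOpen (h : LTub A D Φ) : IsOpen (D ×ˢ (univ : Set (Cn m))) := h.op.prod isOpen_univ

theorem LTub.nhds (h : LTub A D Φ) {p : Cn r × Cn m} (hp : p ∈ D ×ˢ (univ : Set (Cn m))) {i : A.ι}
    (hi : Φ p ∈ (A.e i).source) : ∀ᶠ q in 𝓝 p, Φ q ∈ (A.e i).source :=
  (h.cont.continuousAt (h.isOpen.mem_nhds hp)).eventually_mem ((A.e i).open_source.mem_nhds hi)

/-- the tori of a tube -/
theorem LTub.htor (h : LTub A D Φ) {y : Cn r} (hy : y ∈ D) (T : (d → ℝ) ≃L[ℝ] Cn m)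
    (hper : ∀ (k : d → ℤ) (x : Cn m), Φ (y, x + T fun j => (k j : ℝ)) = Φ (y, x)) :
    HTor A T (fun t => Φ (y, T t)) where
  cont := by
    rw [continuous_iff_continuousAt]
    intro t
    have h1 : ContinuousAt Φ (y, T t) := h.cont.continuousAt (h.isOpen.mem_nhds (LTub.mem hy _))
    exact ContinuousAt.comp (g := Φ) (f := fun t => (y, T t)) h1
      (continuousAt_const.prodMk T.continuous.continuousAt)
  per k x := by
    show Φ (y, T (x + fun i => (k i : ℝ))) = Φ (y, T x)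
    rw [map_add]
    exact hper k (T x)
  hol i z hz := by
    simp only [ContinuousLinearEquiv.apply_symm_apply] at hz ⊢
    exact DifferentiableAt.comp (g := fun q => A.e i (Φ q)) (f := fun w => (y, w)) z
      (h.hol _ (LTub.mem hy z) i hz) ((differentiableAt_const y).prodMk differentiableAt_id)
  inj i z hz := by
    simp only [ContinuousLinearEquiv.apply_symm_apply] at hz ⊢
    have h1 : HasFDerivAt (fun w : Cn m => (y, w)) (ContinuousLinearMap.inr ℂ (Cn r) (Cn m)) z :=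
      hasFDerivAt_prodMk_right y z
    have h2 := (h.hol _ (LTub.mem hy z) i hz).hasFDerivAt.comp z h1
    have h3 : HasFDerivAt (fun w => A.e i (Φ (y, w)))
        ((fderiv ℂ (fun q => A.e i (Φ q)) (y, z)).comp (ContinuousLinearMap.inr ℂ (Cn r) (Cn m))) z :=
      h2
    rw [h3.fderiv]
    intro u v huv
    have h4 := h.inj _ (LTub.mem hy z) i hz huv
    simpa using h4

/-- the derivative of a section along a vector field -/
theorem dX_eq {s : A.ι → M → ℂ} (hs : IsHS L univ s) (X : A.ι → M → Fin N → ℂ) {i : A.ι} {x : M}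
    (hx : x ∈ (A.e i).source) : dX X s i x =
      fderiv ℂ (fun z => s i ((A.e i).symm z)) (A.e i x) (WithLp.toLp 2 (X i x)) := by
  have e1 : (WithLp.toLp 2 (X i x) : Cn N) =
      ∑ c, X i x c • (EuclideanSpace.single c (1 : ℂ) : Cn N) := by
    ext d
    simp [Finset.sum_apply, Pi.single_apply]
  rw [e1, map_sum]
  unfold dX
  refine Finset.sum_congr rfl fun l _ => ?_
  rw [map_smul, smul_eq_mul, dl_hol (hs.hol i) hx]

/-- `Fib` on the torus of `y`, without periods -/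
def FibT {σ : Type*} (A : Atl N M) (s : σ → A.ι → M → ℂ) (Φ : Cn r × Cn m → M) (y : Cn r) : Prop :=
  ∀ a b i j x x', Φ (y, x) ∈ (A.e i).source → Φ (y, x') ∈ (A.e j).source →
    s a i (Φ (y, x)) * s b j (Φ (y, x')) = s b i (Φ (y, x)) * s a j (Φ (y, x'))

theorem fibT_iff {σ : Type*} {s : σ → A.ι → M → ℂ} {y : Cn r} (T : (d → ℝ) ≃L[ℝ] Cn m) :
    FibT A s Φ y ↔ Fib s (fun t => Φ (y, T t)) := by
  constructor
  · intro h a b i j x x' hx hx'
    exact h a b i j (T x) (T x') hx hx'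
  · intro h a b i j x x' hx hx'
    have h1 := h a b i j (T.symm x) (T.symm x')
    simp only [ContinuousLinearEquiv.apply_symm_apply] at h1
    exact h1 hx hx'

/-- the value of a section along the tube is holomorphic -/
theorem LTub.sec (h : LTub A D Φ) {s : A.ι → M → ℂ} (hs : IsHS L univ s) {p : Cn r × Cn m}
    (hp : p ∈ D ×ˢ (univ : Set (Cn m))) {i : A.ι} (hi : Φ p ∈ (A.e i).source) :
    HasFDerivAt (fun q => s i (Φ q)) ((fderiv ℂ (fun z => s i ((A.e i).symm z)) (A.e i (Φ p))).comp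
      (fderiv ℂ (fun q => A.e i (Φ q)) p)) p := by
  have h1 : HasFDerivAt (fun z => s i ((A.e i).symm z))
      (fderiv ℂ (fun z => s i ((A.e i).symm z)) (A.e i (Φ p))) (A.e i (Φ p)) :=
    (holAt_diff (hs.hol i) hi).hasFDerivAt
  have h2 : HasFDerivAt (fun q => s i ((A.e i).symm (A.e i (Φ q)))) _ p :=
    HasFDerivAt.comp (g := fun z => s i ((A.e i).symm z)) (f := fun q => A.e i (Φ q)) p h1
      (h.hol p hp i hi).hasFDerivAt
  refine h2.congr_of_eventuallyEq ?_
  filter_upwards [h.nhds hp hi] with q hq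
  rw [(A.e i).left_inv hq]

/-- the ratios as functions of `y` -/
def Rt (A : Atl N M) (t : Fin (r + 1) → A.ι → M → ℂ) (Φ : Cn r × Cn m → M) (i1 : A.ι) (x1 : Cn m)
    (b : Fin (r + 1)) (y : Cn r) : ℂ := t b i1 (Φ (y, x1)) / t 0 i1 (Φ (y, x1))

theorem Rt_diff (h : LTub A D Φ) {y0 : Cn r} (hy0 : y0 ∈ D) {t : Fin (r + 1) → A.ι → M → ℂ}
    (ht : ∀ a, IsHS L univ (t a)) {x1 : Cn m} {i1 : A.ι} (hi1 : Φ (y0, x1) ∈ (A.e i1).source)
    (hne : t 0 i1 (Φ (y0, x1)) ≠ 0) (b : Fin (r + 1)) :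
    DifferentiableAt ℂ (Rt A t Φ i1 x1 b) y0 := by
  have h1 : ∀ a, DifferentiableAt ℂ (fun y => t a i1 (Φ (y, x1))) y0 := fun a =>
    DifferentiableAt.comp (g := fun q => t a i1 (Φ q)) (f := fun y => (y, x1)) y0
      (h.sec (ht a) (LTub.mem hy0 x1) hi1).differentiableAt
      (differentiableAt_id.prodMk (differentiableAt_const x1))
  have h2 : DifferentiableAt ℂ (fun y => t b i1 (Φ (y, x1)) * (t 0 i1 (Φ (y, x1)))⁻¹) y0 :=
    (h1 b).mul ((h1 0).inv hne)
  unfold Rt
  simp only [div_eq_mul_inv]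
  exact h2

/-- `t_b = R_b(y) t_0` near every point of the torus -/
theorem rel (h : LTub A D Φ) {y0 : Cn r} (hy0 : y0 ∈ D) {t : Fin (r + 1) → A.ι → M → ℂ}
    (ht : ∀ a, IsHS L univ (t a)) (hfib : ∀ᶠ y in 𝓝 y0, FibT A t Φ y)
    {x1 : Cn m} {i1 : A.ι} (hi1 : Φ (y0, x1) ∈ (A.e i1).source)
    (hne : t 0 i1 (Φ (y0, x1)) ≠ 0) {z : Cn m} {i : A.ι} (hi : Φ (y0, z) ∈ (A.e i).source)
    (b : Fin (r + 1)) :
    ∀ᶠ q in 𝓝 ((y0, z) : Cn r × Cn m), t b i (Φ q) = Rt A t Φ i1 x1 b q.1 * t 0 i (Φ q) := by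
  have h1 : ∀ᶠ y in 𝓝 y0, Φ (y, x1) ∈ (A.e i1).source := by
    have h2 := h.nhds (LTub.mem hy0 x1) hi1
    have h3 : Tendsto (fun y : Cn r => (y, x1)) (𝓝 y0) (𝓝 (y0, x1)) :=
      (continuousAt_id.prodMk continuousAt_const)
    exact h3.eventually h2
  have h2 : ∀ᶠ y in 𝓝 y0, t 0 i1 (Φ (y, x1)) ≠ 0 := by
    have h3 : ContinuousAt (fun q => t 0 i1 (Φ q)) (y0, x1) :=
      (h.sec (ht 0) (LTub.mem hy0 x1) hi1).continuousAt
    have h4 : Tendsto (fun y : Cn r => (y, x1)) (𝓝 y0) (𝓝 (y0, x1)) :=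
      (continuousAt_id.prodMk continuousAt_const)
    exact h4.eventually (h3.eventually_ne hne)
  have h3 : Tendsto (fun q : Cn r × Cn m => q.1) (𝓝 (y0, z)) (𝓝 y0) := continuous_fst.tendsto _
  filter_upwards [h3.eventually h1, h3.eventually h2, h3.eventually hfib,
    h.nhds (LTub.mem hy0 z) hi] with q e1 e2 e3 e4
  have h4 := e3 b 0 i i1 q.2 x1 e4 e1
  unfold Rt
  rw [div_mul_eq_mul_div, eq_div_iff e2]
  linear_combination h4

/-- **(F2)**: rank at one point of the torus ⟹ vertical vectors are tangent -/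
theorem ver_of_rk (hN : N = r + m) (h : LTub A D Φ) {y0 : Cn r} (hy0 : y0 ∈ D)
    (T : (d → ℝ) ≃L[ℝ] Cn m) {t : Fin (r + 1) → A.ι → M → ℂ} (ht : ∀ a, IsHS L univ (t a))
    (hfib : ∀ᶠ y in 𝓝 y0, FibT A t Φ y)
    (hnz : ∀ i x, Φ (y0, x) ∈ (A.e i).source → t 0 i (Φ (y0, x)) ≠ 0)
    {x1 : Cn m} {i1 : A.ι} (hrk : Rk_599.Rk A t i1 (Φ (y0, x1))) :
    Ver t T (fun s => Φ (y0, T s)) := by
  obtain ⟨hi1, hne1, hlin⟩ := hrk
  set R := Rt A t Φ i1 x1 with hR
  set R' : Fin (r + 1) → Cn r →L[ℂ] ℂ := fun b => fderiv ℂ (R b) y0 with hR'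
  have hRd : ∀ b, HasFDerivAt (R b) (R' b) y0 := fun b =>
    (Rt_diff h hy0 ht hi1 hne1 b).hasFDerivAt
  -- bijectivity of the derivative of `Φ`
  have hfr : finrank ℂ (Cn r × Cn m) = finrank ℂ (Cn N) := by
    rw [finrank_prod, finrank_euclideanSpace_fin, finrank_euclideanSpace_fin,
      finrank_euclideanSpace_fin, hN]
  have hsurj : ∀ (i : A.ι) (z : Cn m), Φ (y0, z) ∈ (A.e i).source →
      Function.Surjective (fderiv ℂ (fun q => A.e i (Φ q)) (y0, z)) := fun i z hz =>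
    (LinearMap.injective_iff_surjective_of_finrank_eq_finrank
      (f := (fderiv ℂ (fun q => A.e i (Φ q)) (y0, z) : (Cn r × Cn m) →ₗ[ℂ] Cn N)) hfr).1
      (h.inj _ (LTub.mem hy0 z) i hz)
  -- derivative of the relation
  have hder : ∀ (i : A.ι) (z : Cn m), Φ (y0, z) ∈ (A.e i).source → ∀ (b : Fin (r + 1))
      (u : Cn r × Cn m), fderiv ℂ (fun y => t b i ((A.e i).symm y)) (A.e i (Φ (y0, z)))
        (fderiv ℂ (fun q => A.e i (Φ q)) (y0, z) u) =
      R' b u.1 * t 0 i (Φ (y0, z)) + R b y0 * fderiv ℂ (fun y => t 0 i ((A.e i).symm y))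
        (A.e i (Φ (y0, z))) (fderiv ℂ (fun q => A.e i (Φ q)) (y0, z) u) := by
    intro i z hi b u
    have h1 := h.sec (ht b) (LTub.mem hy0 z) hi
    have h2 := h.sec (ht 0) (LTub.mem hy0 z) hi
    have h3 : HasFDerivAt (fun q : Cn r × Cn m => R b q.1)
        ((R' b).comp (ContinuousLinearMap.fst ℂ (Cn r) (Cn m))) (y0, z) :=
      HasFDerivAt.comp (g := R b) (f := fun q : Cn r × Cn m => q.1) (y0, z) (hRd b) hasFDerivAt_fst
    have h4 := (h3.mul h2).congr_of_eventuallyEq (rel h hy0 ht hfib hi1 hne1 hi b)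
    have h5 := congrArg (fun T : (Cn r × Cn m) →L[ℂ] ℂ => T u) (h1.unique h4)
    simp only [ContinuousLinearMap.comp_apply, _root_.add_apply, _root_.smul_apply, smul_eq_mul,
      ContinuousLinearMap.coe_fst'] at h5
    rw [h5]
    ring
  -- the differentials of the ratios are independent
  have hLinj : ∀ w : Cn r, (∀ b, R' b w = 0) → w = 0 := by
    obtain ⟨v, hv⟩ := Rk_599.exists_dual hlin
    set P : Cn r →ₗ[ℂ] (Fin r → ℂ) := LinearMap.pi fun a => (R' a.succ : Cn r →ₗ[ℂ] ℂ) with hP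
    have hrat : ∀ (a : Fin r) (u : Cn r × Cn m), fderiv ℂ (Rk_599.rat A t i1 a)
        (A.e i1 (Φ (y0, x1))) (fderiv ℂ (fun q => A.e i1 (Φ q)) (y0, x1) u) = R' a.succ u.1 := by
      intro a u
      have hx : ∀ c, HasFDerivAt (fun y => t c i1 ((A.e i1).symm y))
          (fderiv ℂ (fun y => t c i1 ((A.e i1).symm y)) (A.e i1 (Φ (y0, x1))))
          (A.e i1 (Φ (y0, x1))) := fun c => (holAt_diff ((ht c).hol i1) hi1).hasFDerivAt
      have hv0 : (A.e i1).symm (A.e i1 (Φ (y0, x1))) = Φ (y0, x1) := (A.e i1).left_inv hi1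
      have hne2 : t 0 i1 ((A.e i1).symm (A.e i1 (Φ (y0, x1)))) ≠ 0 := by rw [hv0]; exact hne1
      have h1 : HasFDerivAt (fun y => (t 0 i1 ((A.e i1).symm y))⁻¹)
          ((-((t 0 i1 ((A.e i1).symm (A.e i1 (Φ (y0, x1))))) ^ 2)⁻¹) •
            (fderiv ℂ (fun y => t 0 i1 ((A.e i1).symm y)) (A.e i1 (Φ (y0, x1)))))
          (A.e i1 (Φ (y0, x1))) :=
        HasDerivAt.comp_hasFDerivAt (f := fun y => t 0 i1 ((A.e i1).symm y))
          (A.e i1 (Φ (y0, x1))) (hasDerivAt_inv hne2) (hx 0)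
      have h2 := (hx a.succ).mul h1
      have h3 : Rk_599.rat A t i1 a = fun y => t a.succ i1 ((A.e i1).symm y) *
          (t 0 i1 ((A.e i1).symm y))⁻¹ := by
        funext y
        unfold Rk_599.rat
        rw [div_eq_mul_inv]
      rw [h3]
      have h4 := hder i1 x1 hi1 a.succ u
      have h5 : t a.succ i1 (Φ (y0, x1)) = R a.succ y0 * t 0 i1 (Φ (y0, x1)) :=
        (rel h hy0 ht hfib hi1 hne1 hi1 a.succ).self_of_nhds
      have h6 := congrArg (fun T : Cn N →L[ℂ] ℂ =>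
        T (fderiv ℂ (fun q => A.e i1 (Φ q)) (y0, x1) u)) h2.fderiv
      refine h6.trans ?_
      simp only [_root_.add_apply, _root_.smul_apply, smul_eq_mul]
      rw [hv0, h4, h5]
      field_simp
      ring
    have hPs : Function.Surjective P := by
      rw [← LinearMap.range_eq_top, eq_top_iff]
      intro f _
      choose u hu using fun b => hsurj i1 x1 hi1 (v b)
      have h1 : ∀ a b, R' a.succ (u b).1 = if a = b then 1 else 0 := by
        intro a b
        rw [← hrat a (u b), hu b]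
        exact hv a b
      refine ⟨∑ b, f b • (u b).1, ?_⟩
      funext a
      rw [map_sum, Finset.sum_apply]
      simp only [hP, map_smul, LinearMap.pi_apply, ContinuousLinearMap.coe_coe,
        smul_eq_mul, h1]
      simp
    have hPi : Function.Injective P := by
      have hfr2 : finrank ℂ (Cn r) = finrank ℂ (Fin r → ℂ) := by
        rw [finrank_euclideanSpace_fin, finrank_fin_fun]
      exact (LinearMap.injective_iff_surjective_of_finrank_eq_finrank hfr2).2 hPs
    intro w hw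
    apply hPi
    rw [map_zero]
    funext a
    exact hw a.succ
  -- conclusion
  intro i z hz X hX
  simp only [ContinuousLinearEquiv.apply_symm_apply] at hz hX ⊢
  obtain ⟨u, hu⟩ := hsurj i z hz (WithLp.toLp 2 (X i (Φ (y0, z))))
  have hu0 : u.1 = 0 := by
    refine hLinj _ fun b => ?_
    have h1 := hX 0 b
    rw [dX_eq (ht b) X hz, dX_eq (ht 0) X hz, ← hu] at h1
    have h2 := hder i z hz b u
    have h5 : t b i (Φ (y0, z)) = R b y0 * t 0 i (Φ (y0, z)) :=
      (rel h hy0 ht hfib hi1 hne1 hz b).self_of_nhds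
    rw [h2, h5] at h1
    have h3 : t 0 i (Φ (y0, z)) ^ 2 * R' b u.1 = 0 := by linear_combination h1
    exact (mul_eq_zero.1 h3).resolve_left (pow_ne_zero 2 (hnz i z hz))
  refine ⟨u.2, ?_⟩
  have h1 : HasFDerivAt (fun w : Cn m => (y0, w)) (ContinuousLinearMap.inr ℂ (Cn r) (Cn m)) z :=
    hasFDerivAt_prodMk_right y0 z
  have h2 : HasFDerivAt (fun w => A.e i (Φ (y0, w))) ((fderiv ℂ (fun q => A.e i (Φ q)) (y0, z)).comp
      (ContinuousLinearMap.inr ℂ (Cn r) (Cn m))) z :=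
    (h.hol _ (LTub.mem hy0 z) i hz).hasFDerivAt.comp z h1
  have h3 : rd A T (fun s => Φ (y0, T s)) i = fun w => A.e i (Φ (y0, w)) := by
    funext w
    unfold rd
    simp only [ContinuousLinearEquiv.apply_symm_apply]
  rw [h3, h2.fderiv, ← hu]
  have h4 : u = (0, u.2) := Prod.ext hu0 rfl
  conv_rhs => rw [h4]
  rfl

end

end Crest.Agent.R281.OpT_330
end

-- ▼ part R281/OpF3_330
section

/-!
# Row 281, OPEN-FIB (helper330), file 3: families of sections, means, spanning families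

* `FibA`, `VerA`  : the constancy and the tangency for ALL holomorphic sections of `L`
* `fibA_of_fib`   : `Fib` of one generating family implies `FibA`
* `Span G`        : the family `G` spans `H⁰(L)`; `exists_GGS`
* `verG_of_ver`   : `Ver t → Ver G.s` for a spanning family
* `mean_of_per`   : zero double means ⟹ zero mean over the box
* `mean_lvC`      : zero periods of a form proportional to the curvature ⟹ zero mean of `lvC`
* `fibver`        : the open set `V`
-/

set_option autoImplicit false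
set_option linter.unusedSectionVars false

open Set Filter Topology Complex Matrix MeasureTheory Module
open scoped ContDiff Matrix ComplexConjugate ComplexOrder

namespace Crest.Agent.R281.OpT_330

open Crest.Agent.R273 Crest.Agent.R275 Crest.Agent.R275.Geo Crest.Agent.R275.Core144
open Crest.Agent.R273.Defs_333 Crest.Agent.R273.HM_333 Crest.Agent.R273.Kah_333
open Crest.Agent.R273.Vol_333
open Crest.Agent.R275.Tor812 (box setIntegral_box_add)
open Crest.Agent.R281.Op3_569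
open Crest.Agent.R281.OpB_849

noncomputable section

variable {m N : ℕ} {M : Type} [TopologicalSpace M] {A : Atl N M} {L : LB A} {d : Type} [Fintype d]
  {T : (d → ℝ) ≃L[ℝ] Cn m} {F : (d → ℝ) → M}

/-! ### all sections -/

/-- any two holomorphic sections are proportional along the torus -/
def FibA (L : LB A) (F : (d → ℝ) → M) : Prop :=
  ∀ u v : A.ι → M → ℂ, IsHS L univ u → IsHS L univ v → ∀ i j x y, F x ∈ (A.e i).source →
    F y ∈ (A.e j).source → u i (F x) * v j (F y) = v i (F x) * u j (F y)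

theorem FibA.fib (h : FibA L F) {σ : Type*} {s : σ → A.ι → M → ℂ} (hs : ∀ a, IsHS L univ (s a)) :
    Fib s F := fun a b i j x y hx hy => h _ _ (hs a) (hs b) i j x y hx hy

/-- one generating family is enough -/
theorem fibA_of_fib (hF : HTor A T F) {σ : Type*} {s : σ → A.ι → M → ℂ}
    (hs : ∀ a, IsHS L univ (s a)) (ne : ∀ i, ∀ x ∈ (A.e i).source, ∃ a, s a i x ≠ 0)
    (h : Fib s F) : FibA L F := by
  intro u v hu hv i j x y hx hy
  obtain ⟨a, ha⟩ := ne i _ hx
  have hnz := h.nz ne hx ha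
  obtain ⟨c, hc⟩ := quot_const hF (hs a) hu hnz
  obtain ⟨c', hc'⟩ := quot_const hF (hs a) hv hnz
  rw [hc i x hx, hc' j y hy, hc' i x hx, hc j y hy]
  ring

/-- the nonvanishing of one section propagates along the torus -/
theorem nz_of_ne (hF : HTor A T F) {σ : Type*} {s : σ → A.ι → M → ℂ}
    (hs : ∀ a, IsHS L univ (s a)) (ne : ∀ i, ∀ x ∈ (A.e i).source, ∃ a, s a i x ≠ 0)
    (h : Fib s F) {u : A.ι → M → ℂ} (hu : IsHS L univ u) {i : A.ι} {x : d → ℝ}
    (hx : F x ∈ (A.e i).source) (h0 : u i (F x) ≠ 0) : NZ u F := by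
  intro j y hy h1
  obtain ⟨a, ha⟩ := ne j _ hy
  have h2 := fibA_of_fib hF hs ne h u (s a) hu (hs a) i j x y hx hy
  rw [h1, mul_zero] at h2
  exact mul_ne_zero h0 ha h2

/-! ### spanning families -/

/-- the family spans the space of holomorphic sections -/
def Span {c : ℕ} (G : GG L c) : Prop :=
  ∀ s, IsHS L univ s → ∃ r : Fin c → ℂ, ∀ i, ∀ x ∈ (A.e i).source, s i x = ∑ a, r a * G.s a i x


/-- derivative of a combination -/
theorem dX_sum {c : ℕ} {s : Fin c → A.ι → M → ℂ} (hs : ∀ a, IsHS L univ (s a))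
    {u : A.ι → M → ℂ} (hu : IsHS L univ u) {r : Fin c → ℂ}
    (hr : ∀ i, ∀ x ∈ (A.e i).source, u i x = ∑ a, r a * s a i x) (X : A.ι → M → Fin N → ℂ)
    {i : A.ι} {x : M} (hx : x ∈ (A.e i).source) : dX X u i x = ∑ a, r a * dX X (s a) i x := by
  rw [dX_eq hu X hx]
  have h1 : (fun z => u i ((A.e i).symm z)) =ᶠ[𝓝 (A.e i x)]
      fun z => ∑ a, r a * s a i ((A.e i).symm z) := by
    filter_upwards [(A.e i).open_target.mem_nhds ((A.e i).map_source hx)] with z hz
    exact hr i _ ((A.e i).map_target hz)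
  have h2 : HasFDerivAt (fun z => ∑ a, r a * s a i ((A.e i).symm z))
      (∑ a, r a • fderiv ℂ (fun z => s a i ((A.e i).symm z)) (A.e i x)) (A.e i x) := by
    refine HasFDerivAt.fun_sum fun a _ => ?_
    exact ((holAt_diff ((hs a).hol i) hx).hasFDerivAt).const_mul (r a)
  rw [h1.fderiv_eq, h2.fderiv]
  simp only [FunLike.coe_sum, Finset.sum_apply, FunLike.coe_smul, Pi.smul_apply, smul_eq_mul]
  exact Finset.sum_congr rfl fun a _ => by rw [dX_eq (hs a) X hx]

/-- verticality against a spanning family implies verticality against all sections -/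
theorem verG_of_ver {c : ℕ} {G : GG L c} (hsp : Span G) {τ : Type*} {t : τ → A.ι → M → ℂ}
    (ht : ∀ a, IsHS L univ (t a)) (h : Ver t T F) : Ver G.s T F := by
  intro i z hz X hX
  refine h i z hz X fun a b => ?_
  obtain ⟨r, hr⟩ := hsp _ (ht a)
  obtain ⟨q, hq⟩ := hsp _ (ht b)
  rw [dX_sum G.hs (ht b) hq X hz, dX_sum G.hs (ht a) hr X hz, hr i _ hz, hq i _ hz,
    Finset.sum_mul_sum, Finset.sum_mul_sum, Finset.sum_comm]
  refine Finset.sum_congr rfl fun k _ => Finset.sum_congr rfl fun l _ => ?_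
  linear_combination (r l * q k) * hX l k

/-! ### means -/

theorem mean_shift {f : (d → ℝ) → ℝ} (hf : Continuous f) (hp : Per f) (c : d → ℝ) :
    ∫ x in box (0 : d → ℝ), f (x + c) = ∫ x in box (0 : d → ℝ), f x := by
  have hfc : Continuous fun x => ((f x : ℝ) : ℂ) := Complex.continuous_ofReal.comp hf
  have hpc : Per fun x => ((f x : ℝ) : ℂ) := fun k x => by
    show ((f (x + fun i => (k i : ℝ)) : ℝ) : ℂ) = ((f x : ℝ) : ℂ)
    rw [hp k x]
  have h1 := fcc_eq hfc hpc 0 c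
  unfold fcc at h1
  have h0 : ∀ x : d → ℝ, Crest.Agent.R275.Tor812.ch (-0) x = 1 := by
    intro x
    simp [Crest.Agent.R275.Tor812.ch]
  simp only [h0, one_mul] at h1
  have h2 := setIntegral_box_add (fun x => ((f x : ℝ) : ℂ)) c
  rw [← h1] at h2
  have h3 : ∀ g : (d → ℝ) → ℝ, ∫ x in box (0 : d → ℝ), ((g x : ℝ) : ℂ) =
      ((∫ x in box (0 : d → ℝ), g x : ℝ) : ℂ) := fun g => integral_ofReal
  rw [h3, h3] at h2
  exact_mod_cast h2

theorem swap_box {g : (d → ℝ) → ℝ → ℝ} (hg : Continuous (Function.uncurry g)) :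
    ∫ x in box (0 : d → ℝ), ∫ s in (0 : ℝ)..1, g x s =
      ∫ s in (0 : ℝ)..1, ∫ x in box (0 : d → ℝ), g x s := by
  simp only [intervalIntegral.integral_of_le zero_le_one]
  refine MeasureTheory.integral_integral_swap ?_
  rw [Measure.prod_restrict]
  have h1 : IntegrableOn (Function.uncurry g) (Icc (0 : d → ℝ) 1 ×ˢ Icc (0 : ℝ) 1)
      (volume.prod volume) :=
    hg.continuousOn.integrableOn_compact (isCompact_Icc.prod isCompact_Icc)
  exact h1.mono_set (prod_mono box_sub Ioc_subset_Icc_self)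

/-- zero double means imply zero mean -/
theorem mean_of_per {f : (d → ℝ) → ℝ} (hf : Continuous f) (hp : Per f) (a b : d → ℝ)
    (h0 : ∀ x, ∫ s in (0 : ℝ)..1, ∫ t in (0 : ℝ)..1, f (x + s • a + t • b) = 0) :
    ∫ x in box (0 : d → ℝ), f x = 0 := by
  have hc : Continuous fun p : ((d → ℝ) × ℝ) × ℝ => f (p.1.1 + p.1.2 • a + p.2 • b) := by
    fun_prop
  have h1 : Continuous (Function.uncurry fun (x : d → ℝ) (s : ℝ) =>
      ∫ t in (0 : ℝ)..1, f (x + s • a + t • b)) :=
    intervalIntegral.continuous_parametric_intervalIntegral_of_continuous'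
      (f := fun (p : (d → ℝ) × ℝ) (t : ℝ) => f (p.1 + p.2 • a + t • b)) hc 0 1
  have h2 := swap_box h1
  simp only [h0, integral_zero] at h2
  have h3 : ∀ s : ℝ, ∫ x in box (0 : d → ℝ), ∫ t in (0 : ℝ)..1, f (x + s • a + t • b) =
      ∫ x in box (0 : d → ℝ), f x := by
    intro s
    have h4 : Continuous (Function.uncurry fun (x : d → ℝ) (t : ℝ) => f (x + s • a + t • b)) := by
      show Continuous fun p : (d → ℝ) × ℝ => f (p.1 + s • a + p.2 • b)
      fun_prop
    rw [swap_box h4]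
    have h5 : ∀ t : ℝ, ∫ x in box (0 : d → ℝ), f (x + s • a + t • b) =
        ∫ x in box (0 : d → ℝ), f x := by
      intro t
      rw [← mean_shift hf hp (s • a + t • b)]
      simp only [add_assoc]
    simp only [h5]
    simp
  simp only [h3] at h2
  simpa using h2.symm

/-- zero periods of a form proportional to the curvature ⟹ zero mean of `lvC` -/
theorem mean_lvC [DecidableEq d] (h : HM L) (κ : ℝ)
    {b : (d → ℝ) → d → d → ℝ} (hb : ∀ j k, Continuous fun x => b x j k)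
    (hbp : ∀ j k, Per fun x => b x j k) {v w : d → ℝ}
    (hlv : ∀ x, lvC h T F x v = κ * ∑ j, ∑ k, v j * w k * b x j k)
    (h0 : ∀ j k x, ∫ s in (0 : ℝ)..1, ∫ t in (0 : ℝ)..1,
      b (x + s • Pi.single j 1 + t • Pi.single k 1) j k = 0) :
    ∫ x in box (0 : d → ℝ), lvC h T F x v = 0 := by
  have h1 : ∀ j k, ∫ x in box (0 : d → ℝ), b x j k = 0 := fun j k =>
    mean_of_per (hb j k) (hbp j k) _ _ (h0 j k)
  simp only [hlv]
  rw [integral_const_mul, integral_finsetSum]
  · have h2 : ∀ j, ∫ x in box (0 : d → ℝ), ∑ k, v j * w k * b x j k = 0 := by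
      intro j
      rw [integral_finsetSum]
      · exact Finset.sum_eq_zero fun k _ => by rw [integral_const_mul, h1, mul_zero]
      · exact fun k _ => (integrable_box (hb j k)).const_mul _
    simp only [h2, Finset.sum_const_zero, mul_zero]
  · refine fun j _ => integrable_finsetSum _ fun k _ => (integrable_box (hb j k)).const_mul _

end

end Crest.Agent.R281.OpT_330
end

-- ▼ part R281/Tub3_836
section

/-!
# R281 (S0424), helper836: transfer of `TubJ` (tube + zero periods) along an isomorphism which is the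
identity on classes; uniqueness of the symplectic form.

* `TubJ.map`, `TubJ.scale`
* `TubJ.to_hk`     : any tube for `J 0` gives the tube for `om 1 + i om 2`
* `tub_of_iso`     : tube at `(J', w₁ + i w₂)`, `(X, J 0) ≅ (X, J')` ⟹ `Tub Q e n H`
-/

set_option autoImplicit false
set_option linter.unusedSectionVars false
set_option maxSynthPendingDepth 3

open Set Filter Topology
open scoped ContDiff

namespace Crest.Agent.R281.Tub_836

open Crest.Agent.R275.Geo (Cn)
open Crest.Agent.R281.HkR_835 Crest.Agent.R281.Per_368 Crest.Agent.R281.NefO_476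
open Crest.Agent.R281.Dif_268 Crest.Agent.R281.Ti_846 Crest.Agent.R281.Nef_252

noncomputable section

variable {V X : Type} [NormedAddCommGroup V] [NormedSpace ℝ V] [TopologicalSpace X]
  {C : RCh V X} {n : ℕ} {D : Set (Cn n)} {Φ : Cn n × Cn n → X} {l : Fin (2 * n) → Cn n → Cn n}
  {τ : Cn n → Cn n → Cn n → ℂ} {J J' : AJ C} {w₁ w₂ : F2 C}
  {Q : F2 C →ₗ[ℝ] F2 C →ₗ[ℝ] ℝ} {e : F2 C}

theorem fib_deriv (y x : Cn n) : HasFDerivAt (fun x : Cn n => ((y, x) : Cn n × Cn n))
    (ContinuousLinearMap.inr ℝ (Cn n) (Cn n)) x := hasFDerivAt_prodMk_right y x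

theorem smI_fib (h : SmI C (D ×ˢ (univ : Set (Cn n))) Φ) {y : Cn n} (hy : y ∈ D) :
    SmI C (univ : Set (Cn n)) (fun x => Φ (y, x)) := by
  have h1 := smI_pre h (a := fun x : Cn n => ((y, x) : Cn n × Cn n))
    (contDiff_const.prodMk contDiff_id)
  have h2 : (fun x : Cn n => ((y, x) : Cn n × Cn n)) ⁻¹' (D ×ˢ (univ : Set (Cn n))) = univ := by
    ext x
    simp [hy]
  rwa [h2] at h1

theorem pull_fib (h : SmI C (D ×ˢ (univ : Set (Cn n))) Φ) {y : Cn n} (hy : y ∈ D) (v : F2 C)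
    (x u w : Cn n) : Per_368.pull v (fun x => Φ (y, x)) x u w =
      Per_368.pull v Φ (y, x) (0, u) (0, w) :=
  pull_pre h v (fib_deriv y x) (⟨hy, mem_univ _⟩ : (y, x) ∈ D ×ˢ (univ : Set (Cn n))) u w

/-- transfer along an isomorphism which is the identity on classes -/
theorem TubJ.map (hex : ∀ x y, Ex x → Q x y = 0) (t : TubJ Q e n J w₁ w₂) {g k : SMap C C}
    (hb : Bi g k) (hg : HolM g J' J) (hid : ∀ w : F2 C, Ex (g.pull w - w)) :
    TubJ Q e n J' (g.pull w₁) (g.pull w₂) := by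
  obtain ⟨D, Φ, l, τ, h, hp⟩ := t
  refine ⟨D, k.f ∘ Φ, l, τ, h.map hb hg, fun v hv y hy j m x => ?_⟩
  have h1 : Q (k.pull v) e = 0 := by
    have h2 : Ex (v - k.pull v) := by
      have h3 := hid (k.pull v)
      refine Eqv.ex ?_ h3
      intro i z hz u w
      have := hb.symm.pull_pull v i z hz u w
      simp only [F2.sub_w, sub_apply]
      rw [this]
    have h4 := hex _ e h2
    rw [map_sub, LinearMap.sub_apply, hv] at h4
    linarith
  have h5 := hp (k.pull v) h1 y hy j m x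
  rw [← h5]
  have hs := smI_fib h.sm hy
  unfold Per_368.per
  refine intervalIntegral.integral_congr fun s _ => intervalIntegral.integral_congr fun r _ => ?_
  exact congrArg (fun T : Cn n →L[ℝ] Cn n →L[ℝ] ℝ => T (l j y) (l m y))
    (pull_map hs k v (mem_univ _))




end

end Crest.Agent.R281.Tub_836
end

-- ▼ part R281/OpF4_330
section

/-!
# Row 281, OPEN-FIB (helper330), file 4: the adapter from 831's `HolTube`

* `diffC_of_real` : real differentiable with `ℂ`-linear derivative is complex differentiable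
* `ltub_of`       : `HolTube C J .. D Ψ l τ`, `JC C J A` ⟹ `LTub A D Ψ`
* `htor_of`       : its tori
* `mean_tube`     : zero periods of a form proportional to the curvature ⟹ zero mean
* `fibver`        : **the open set of points with `Fib` and `Ver`**
-/

set_option autoImplicit false
set_option linter.unusedSectionVars false
set_option maxSynthPendingDepth 3

open Set Filter Topology Complex Matrix MeasureTheory Module
open scoped ContDiff Matrix ComplexConjugate ComplexOrder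

namespace Crest.Agent.R281.OpT_330

open Crest.Agent.R273 Crest.Agent.R275 Crest.Agent.R275.Geo Crest.Agent.R275.Core144
open Crest.Agent.R273.Defs_333 Crest.Agent.R273.HM_333 Crest.Agent.R273.Kah_333
open Crest.Agent.R273.Vol_333
open Crest.Agent.R275.Tor812 (box)
open Crest.Agent.R281.Op3_569 (Per chA chA_mem)
open Crest.Agent.R281.Nef_252 (curK)
open Crest.Agent.R281.OpB_849
open Crest.Agent.R281.HkR_835 Crest.Agent.R281.Ti_846 Crest.Agent.R281.PL_713
open Crest.Agent.R281.Dif_268 (Eqv SMap)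
open Crest.Agent.R281.Per_368 (SmI pull per pt pl_apply)
open Crest.Agent.R281.Tub_836 (smI_map fderiv_map smI_fib pull_fib)
open Crest.Agent.R281.Tub_831

noncomputable section

/-! ### complex differentiability -/

section cx

variable {E E' : Type*} [NormedAddCommGroup E] [NormedSpace ℂ E] [NormedSpace ℝ E]
  [IsScalarTower ℝ ℂ E] [NormedAddCommGroup E'] [NormedSpace ℂ E'] [NormedSpace ℝ E']
  [IsScalarTower ℝ ℂ E']

theorem cx_smul (c : ℂ) (u : E) : c • u = c.re • u + c.im • (I • u) := by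
  have h1 : ∀ (r : ℝ) (x : E), r • x = (r : ℂ) • x := fun r x => (algebraMap_smul ℂ r x).symm
  rw [h1, h1, smul_smul, ← add_smul]
  congr 1
  exact (Complex.re_add_im c).symm

/-- a real linear map commuting with `i` -/
def cxl (g : E →L[ℝ] E') (h : ∀ u, g (I • u) = I • g u) : E →L[ℂ] E' where
  toFun := g
  map_add' := map_add g
  map_smul' c u := by
    rw [cx_smul c u, map_add, map_smul, map_smul, h]
    exact (cx_smul c (g u)).symm
  cont := g.cont

theorem diffC_of_real {f : E → E'} {x : E} (hf : DifferentiableAt ℝ f x)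
    (hI : ∀ u, fderiv ℝ f x (I • u) = I • fderiv ℝ f x u) :
    DifferentiableAt ℂ f x ∧ ∀ u, fderiv ℂ f x u = fderiv ℝ f x u := by
  have h1 : HasFDerivAt f (cxl (fderiv ℝ f x) hI) x :=
    hasFDerivAt_of_restrictScalars ℝ hf.hasFDerivAt (by ext; rfl)
  exact ⟨h1.differentiableAt, fun u => by rw [h1.fderiv]; rfl⟩

end cx

variable {N : ℕ} {V X : Type} [NormedAddCommGroup V] [NormedSpace ℝ V] [TopologicalSpace X]
  {C : RCh V X} {J : C.ι → V → V →L[ℝ] V} {A : Atl N X} {L : LB A} {n : ℕ}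
  {w w' : F2 C} {D : Set (Cn n)} {Ψ : Cn n × Cn n → X} {l : Fin (2 * n) → Cn n → Cn n}
  {τ : Cn n → Cn n → Cn n → ℂ}

/-- smoothness in the charts of the holomorphic atlas -/
theorem smI_A {E : Type} [NormedAddCommGroup E] [NormedSpace ℝ E] {S : Set E} {Φ : E → X}
    (h : SmI C S Φ) (hc : Cmp C (ofAtl A)) : SmI (ofAtl A) S Φ :=
  smI_map h (SMap.ofCmp hc.symm)

theorem mem_mov {i : C.ι} {a : A.ι} {x : X} (hi : x ∈ (C.e i).source)
    (ha : x ∈ (A.e a).source) : A.e a x ∈ mov C (ofAtl A) i a := by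
  refine ⟨(A.e a).map_source ha, ?_⟩
  show (A.e a).symm (A.e a x) ∈ (C.e i).source
  rwa [(A.e a).left_inv ha]

theorem mt_e {i : C.ι} {a : A.ι} {x : X} (ha : x ∈ (A.e a).source) :
    mt C (ofAtl A) i a (A.e a x) = C.e i x := by
  show C.e i ((A.e a).symm (A.e a x)) = _
  rw [(A.e a).left_inv ha]

/-- chain rule between the charts of `C` and of `A` -/
theorem fd_A {E : Type} [NormedAddCommGroup E] [NormedSpace ℝ E] {S : Set E} {Φ : E → X}
    (h : SmI C S Φ) (hc : Cmp C (ofAtl A)) {p : E} (hp : p ∈ S) {i : C.ι} {a : A.ι}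
    (hi : Φ p ∈ (C.e i).source) (ha : Φ p ∈ (A.e a).source) (u : E) :
    fderiv ℝ (fun q => C.e i (Φ q)) p u = fderiv ℝ (mt C (ofAtl A) i a) (A.e a (Φ p))
      (fderiv ℝ (fun q => A.e a (Φ q)) p u) :=
  fderiv_map (smI_A h hc) (SMap.ofCmp hc) hp ha hi u

/-- the derivative in the charts of `A` is `ℂ`-linear -/
theorem fd_I (t : HolTube C J w w' n D Ψ l τ) (hJ : JC C J A) {p : Cn n × Cn n} (hp : p.1 ∈ D)
    {a : A.ι} (ha : Ψ p ∈ (A.e a).source) (u : Cn n × Cn n) :
    fderiv ℝ (fun q => A.e a (Ψ q)) p (I • u) = I • fderiv ℝ (fun q => A.e a (Ψ q)) p u := by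
  have hp' : p ∈ D ×ˢ (univ : Set (Cn n)) := ⟨hp, mem_univ _⟩
  obtain ⟨i, hi⟩ := C.cover (Ψ p)
  have hm := mem_mov hi ha
  refine hJ.cmp.inj hm ?_
  rw [← fd_A t.sm hJ.cmp hp' hi ha, t.hol p hp i hi, fd_A t.sm hJ.cmp hp' hi ha, hJ.lin i a _ hm,
    mt_e ha]

theorem fd_inj (t : HolTube C J w w' n D Ψ l τ) (hJ : JC C J A) {p : Cn n × Cn n} (hp : p.1 ∈ D)
    {a : A.ι} (ha : Ψ p ∈ (A.e a).source) :
    Function.Injective (fderiv ℝ (fun q => A.e a (Ψ q)) p) := by
  have hp' : p ∈ D ×ˢ (univ : Set (Cn n)) := ⟨hp, mem_univ _⟩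
  obtain ⟨i, hi⟩ := C.cover (Ψ p)
  intro u v huv
  apply t.inj p hp i hi
  rw [fd_A t.sm hJ.cmp hp' hi ha, fd_A t.sm hJ.cmp hp' hi ha, huv]

theorem fdC (t : HolTube C J w w' n D Ψ l τ) (hJ : JC C J A) {p : Cn n × Cn n} (hp : p.1 ∈ D)
    {a : A.ι} (ha : Ψ p ∈ (A.e a).source) : DifferentiableAt ℂ (fun q => A.e a (Ψ q)) p ∧
      ∀ u, fderiv ℂ (fun q => A.e a (Ψ q)) p u = fderiv ℝ (fun q => A.e a (Ψ q)) p u :=
  diffC_of_real ((smI_A t.sm hJ.cmp).diffAt ⟨hp, mem_univ _⟩ ha) (fd_I t hJ hp ha)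

/-- **831's tube is an `LTub`** -/
theorem ltub_of (t : HolTube C J w w' n D Ψ l τ) (hJ : JC C J A) : LTub A D Ψ where
  op := t.op
  cont := t.sm.cont
  hol p hp a ha := (fdC t hJ hp.1 ha).1
  inj p hp a ha u v huv := by
    rw [(fdC t hJ hp.1 ha).2, (fdC t hJ hp.1 ha).2] at huv
    exact fd_inj t hJ hp.1 ha huv

/-- the period coordinates of the torus of `y` -/
theorem exists_T {y : Cn n} (hli : LinearIndependent ℝ fun k => l k y) :
    ∃ T : (Fin (2 * n) → ℝ) ≃L[ℝ] Cn n, ∀ s, T s = ∑ k, s k • l k y := by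
  have hcard : Fintype.card (Fin (2 * n)) = finrank ℝ (Cn n) := by
    rw [Fintype.card_fin, finrank_real_of_complex, finrank_euclideanSpace_fin]
  let b : Basis (Fin (2 * n)) ℝ (Cn n) := basisOfLinearIndependentOfCardEqFinrank' _ hli hcard
  refine ⟨b.equivFun.symm.toContinuousLinearEquiv, fun s => ?_⟩
  show b.equivFun.symm s = _
  rw [Basis.equivFun_symm_apply]
  refine Finset.sum_congr rfl fun k _ => ?_
  simp [b]

theorem lat_per (t : HolTube C J w w' n D Ψ l τ) {y : Cn n} (hy : y ∈ D)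
    {T : (Fin (2 * n) → ℝ) ≃L[ℝ] Cn n} (hT : ∀ s, T s = ∑ k, s k • l k y)
    (k : Fin (2 * n) → ℤ) (x : Cn n) : Ψ (y, x + T fun j => (k j : ℝ)) = Ψ (y, x) := by
  refine (t.eq_iff y hy y hy _ _).2 ⟨rfl, k, ?_⟩
  rw [add_sub_cancel_left, hT]

/-- **the tori of the tube** -/
theorem htor_of (t : HolTube C J w w' n D Ψ l τ) (hJ : JC C J A) {y : Cn n} (hy : y ∈ D)
    {T : (Fin (2 * n) → ℝ) ≃L[ℝ] Cn n} (hT : ∀ s, T s = ∑ k, s k • l k y) :
    HTor A T (fun s => Ψ (y, T s)) :=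
  (ltub_of t hJ).htor hy T (lat_per t hy hT)

/-! ### the mean curvature -/

/-- a form in the charts of `A` -/
theorem pull_A {E : Type} [NormedAddCommGroup E] [NormedSpace ℝ E] {S : Set E} {Φ : E → X}
    (h : SmI C S Φ) (hc : Cmp C (ofAtl A)) (v : F2 C) {p : E} (hp : p ∈ S) {a : A.ι}
    (ha : Φ p ∈ (A.e a).source) (u₁ u₂ : E) :
    pull v Φ p u₁ u₂ = (hc.F v).w a (A.e a (Φ p)) (fderiv ℝ (fun q => A.e a (Φ q)) p u₁)
      (fderiv ℝ (fun q => A.e a (Φ q)) p u₂) := by
  obtain ⟨i, hi⟩ := C.cover (Φ p)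
  rw [hc.F_w v (mem_mov hi ha), ← fd_A h hc hp hi ha, ← fd_A h hc hp hi ha, mt_e ha,
    h.pull_eq v hp hi, pl_apply]

/-- the Levi form of the weight along the torus in terms of the pulled back form -/
theorem lvC_pull (t : HolTube C J w w' n D Ψ l τ) (hJ : JC C J A) {y : Cn n} (hy : y ∈ D)
    {T : (Fin (2 * n) → ℝ) ≃L[ℝ] Cn n} (h : HM L) {v : F2 C} {κ : ℝ}
    (hcur : Eqv (hJ.cmp.F v) (κ • (curK h).f2)) (x s : Fin (2 * n) → ℝ) :
    pull v (fun z => Ψ (y, z)) (T x) (T s) (I • T s) =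
      κ / 4 * lvC h T (fun s => Ψ (y, T s)) x s := by
  set a := chA A (Ψ (y, T x)) with ha'
  have ha : Ψ (y, T x) ∈ (A.e a).source := chA_mem _
  have hz : A.e a (Ψ (y, T x)) ∈ (A.e a).target := (A.e a).map_source ha
  have hp : ((y, T x) : Cn n × Cn n).1 ∈ D := hy
  -- the reading
  have h1 : HasFDerivAt (fun z : Cn n => (y, z)) (ContinuousLinearMap.inr ℂ (Cn n) (Cn n)) (T x) :=
    hasFDerivAt_prodMk_right y (T x)
  have h2 : HasFDerivAt (fun z => A.e a (Ψ (y, z)))
      ((fderiv ℂ (fun q => A.e a (Ψ q)) (y, T x)).comp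
        (ContinuousLinearMap.inr ℂ (Cn n) (Cn n))) (T x) :=
    (fdC t hJ hp ha).1.hasFDerivAt.comp (T x) h1
  have h3 : rd A T (fun s => Ψ (y, T s)) a = fun z => A.e a (Ψ (y, z)) := by
    funext z
    unfold rd
    simp only [ContinuousLinearEquiv.apply_symm_apply]
  set W : Cn N := fderiv ℂ (rd A T (fun s => Ψ (y, T s)) a) (T x) (T s) with hW
  have hW1 : W = fderiv ℝ (fun z => A.e a (Ψ (y, z))) (T x) (T s) := by
    rw [hW, h3, h2.fderiv, (h2.restrictScalars ℝ).fderiv]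
    rfl
  have hW2 : I • W = fderiv ℝ (fun z => A.e a (Ψ (y, z))) (T x) (I • T s) := by
    rw [hW, h3, h2.fderiv, (h2.restrictScalars ℝ).fderiv]
    show I • _ = ((fderiv ℂ (fun q => A.e a (Ψ q)) (y, T x)).comp
        (ContinuousLinearMap.inr ℂ (Cn n) (Cn n))) (I • T s)
    rw [map_smul]
  have hsm : SmI C (univ : Set (Cn n)) (fun z => Ψ (y, z)) := smI_fib t.sm hy
  rw [pull_A hsm hJ.cmp v (mem_univ _) ha, ← hW1, ← hW2, hcur a _ hz]
  have e1 : (κ • (curK h).f2).w a (A.e a (Ψ (y, T x))) W (I • W) =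
    κ * (curK h).f2.w a (A.e a (Ψ (y, T x))) W (I • W) := rfl
  have e2 : ((lvC h T (fun s => Ψ (y, T s)) x s : ℝ) : ℂ) =
      4 * hb (cur h a (Ψ (y, T x))) W W := by
    unfold lvC
    rw [← ha', lvT_eq h ha s, ← hW, hb_eq_dot]
    rfl
  have e3 : (curK h).f2.w a (A.e a (Ψ (y, T x))) W (I • W) =
      lvC h T (fun s => Ψ (y, T s)) x s / 4 := by
    rw [(curK h).f2_w hz, (A.e a).left_inv ha, hb_I_right]
    have e4 : hb (cur h a (Ψ (y, T x))) W W =
        ((lvC h T (fun s => Ψ (y, T s)) x s / 4 : ℝ) : ℂ) := by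
      push_cast
      rw [e2]
      ring
    have e5 : (curK h).g a (Ψ (y, T x)) = cur h a (Ψ (y, T x)) := rfl
    rw [e5, e4]
    have e6 : I * (-I * ((lvC h T (fun s => Ψ (y, T s)) x s / 4 : ℝ) : ℂ)) =
        ((lvC h T (fun s => Ψ (y, T s)) x s / 4 : ℝ) : ℂ) := by
      linear_combination (-((lvC h T (fun s => Ψ (y, T s)) x s / 4 : ℝ) : ℂ)) * I_mul_I
    rw [e6, Complex.ofReal_re]
  rw [e1, e3]
  ring

/-- **zero periods ⟹ zero mean curvature** -/
theorem mean_tube (t : HolTube C J w w' n D Ψ l τ) (hJ : JC C J A) {y : Cn n} (hy : y ∈ D)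
    {T : (Fin (2 * n) → ℝ) ≃L[ℝ] Cn n} (hT : ∀ s, T s = ∑ k, s k • l k y) (h : HM L) {v : F2 C}
    {κ : ℝ} (hκ : κ ≠ 0) (hcur : Eqv (hJ.cmp.F v) (κ • (curK h).f2))
    (hper : ∀ x j k, per (pull v Ψ) (y, x) (0, l j y) (0, l k y) = 0) (s : Fin (2 * n) → ℝ) :
    ∫ x in box (0 : Fin (2 * n) → ℝ), lvC h T (fun s => Ψ (y, T s)) x s = 0 := by
  classical
  have hsm : SmI C (univ : Set (Cn n)) (fun z => Ψ (y, z)) := smI_fib t.sm hy
  have hTe : ∀ j, T (Pi.single j 1) = l j y := by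
    intro j
    rw [hT, Finset.sum_eq_single j]
    · simp
    · intro k _ hk
      simp [hk]
    · simp
  set b : (Fin (2 * n) → ℝ) → Fin (2 * n) → Fin (2 * n) → ℝ := fun x j k =>
    pull v (fun z => Ψ (y, z)) (T x) (l j y) (l k y) with hb
  have hbc : ∀ j k, Continuous fun x => b x j k := by
    intro j k
    have h1 : Continuous (pull v fun z => Ψ (y, z)) :=
      continuousOn_univ.1 (hsm.pull_smooth v).continuousOn
    have h2 : Continuous fun x : Fin (2 * n) → ℝ => pull v (fun z => Ψ (y, z)) (T x) :=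
      h1.comp T.continuous
    exact (h2.clm_apply continuous_const).clm_apply continuous_const
  have hbp : ∀ j k, Per fun x => b x j k := by
    intro j k q x
    have h1 := hsm.pull_add v (l := T fun i => (q i : ℝ)) (fun ζ _ => ⟨mem_univ _,
      lat_per t hy hT q ζ⟩) (mem_univ (T x))
    show pull v (fun z => Ψ (y, z)) (T (x + fun i => (q i : ℝ))) (l j y) (l k y) = _
    rw [map_add, h1]
  refine mean_lvC h (4 / κ) (b := b) (w := T.symm (I • T s)) hbc hbp (fun x => ?_) ?_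
  · have h1 := lvC_pull t hJ hy (T := T) h hcur x s
    have h2 : pull v (fun z => Ψ (y, z)) (T x) (T s) (I • T s) =
        ∑ j, ∑ k, s j * (T.symm (I • T s)) k * b x j k := by
      have e1 : I • T s = T (T.symm (I • T s)) := by simp
      generalize T.symm (I • T s) = r at e1 ⊢
      rw [e1, hT s, hT r]
      simp only [map_sum, map_smul, FunLike.coe_sum, Finset.sum_apply,
        FunLike.coe_smul, Pi.smul_apply, smul_eq_mul, Finset.mul_sum]
      rw [Finset.sum_comm]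
      refine Finset.sum_congr rfl fun j _ => Finset.sum_congr rfl fun k _ => ?_
      rw [hb]
      ring
    rw [← h2, h1]
    field_simp
  · intro j k x
    have key : ∀ r q : ℝ, b (x + r • Pi.single j 1 + q • Pi.single k 1) j k =
        pull v Ψ (pt ((y, T x) : Cn n × Cn n) (0, l j y) (0, l k y) r q) (0, l j y) (0, l k y) := by
      intro r q
      have e1 : pt ((y, T x) : Cn n × Cn n) (0, l j y) (0, l k y) r q =
          (y, T (x + r • Pi.single j 1 + q • Pi.single k 1)) := by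
        unfold pt
        refine Prod.ext ?_ ?_
        · simp
        · simp only [map_add, map_smul, hTe, Prod.snd_add, Prod.smul_snd]
      rw [e1, ← pull_fib t.sm hy]
    simp only [key]
    exact hper (T x) j k

/-! ### the open set -/

theorem isOpen_rk {M : Type} [TopologicalSpace M] {A : Atl N M} {L : LB A} {r : ℕ}
    {s : Fin (r + 1) → A.ι → M → ℂ} (hs : ∀ a, IsHS L univ (s a)) :
    IsOpen {x | ∃ i, Rk_599.Rk A s i x} := by
  rw [isOpen_iff_mem_nhds]
  rintro x ⟨i, hi⟩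
  have hx : x ∈ (A.e i).source := hi.1
  have h1 : Rk_599.Rk A s i ((A.e i).symm (A.e i x)) := by rwa [(A.e i).left_inv hx]
  have h2 := Rk_599.eventually_rk hs ((A.e i).map_source hx) h1
  have h3 := ((A.e i).continuousAt hx).eventually h2
  filter_upwards [h3, (A.e i).open_source.mem_nhds hx] with y hy hyi
  refine ⟨i, ?_⟩
  have h4 := hy.2
  rwa [(A.e i).left_inv hyi] at h4

/-- **OPEN-FIB**: through the points of an open set pass tori on which the sections are constant and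
to which the vertical vectors are tangent -/
theorem fibver [PreconnectedSpace X] (hN : N = n + n) (t : HolTube C J w w' n D Ψ l τ)
    (hJ : JC C J A) (h : HM L) {v : F2 C} {κ : ℝ} (hκ : κ ≠ 0)
    (hcur : Eqv (hJ.cmp.F v) (κ • (curK h).f2))
    (hper : ∀ y ∈ D, ∀ x j k, per (pull v Ψ) (y, x) (0, l j y) (0, l k y) = 0)
    {c : ℕ} (G : GG L c) (hsp : Span G) {u : Fin (n + 1) → A.ι → X → ℂ}
    (hu : ∀ a, IsHS L univ (u a)) {i₀ : A.ι} {x₀ : X} (hrk : Rk_599.Rk A u i₀ x₀) :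
    ∃ V₀ : Set X, IsOpen V₀ ∧ V₀.Nonempty ∧ ∀ x ∈ V₀, ∃ y ∈ D, ∃ z, Ψ (y, z) = x ∧
      ∀ T : (Fin (2 * n) → ℝ) ≃L[ℝ] Cn n, (∀ s, T s = ∑ k, s k • l k y) →
        HTor A T (fun s => Ψ (y, T s)) ∧ Fib G.s (fun s => Ψ (y, T s)) ∧
          Ver G.s T (fun s => Ψ (y, T s)) := by
  -- the sections are constant on the tori
  have hfibG : ∀ y ∈ D, ∀ T : (Fin (2 * n) → ℝ) ≃L[ℝ] Cn n, (∀ s, T s = ∑ k, s k • l k y) →
      Fib G.s (fun s => Ψ (y, T s)) := fun y hy T hT =>
    fib_of_hm G (htor_of t hJ hy hT) h fun s => mean_tube t hJ hy hT h hκ hcur (hper y hy) s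
  have hfibT : ∀ y ∈ D, FibT A u Ψ y := by
    intro y hy
    obtain ⟨T, hT⟩ := exists_T (t.lli y hy)
    rw [fibT_iff T]
    exact (fibA_of_fib (htor_of t hJ hy hT) G.hs G.ne (hfibG y hy T hT)).fib hu
  -- the image of the tube is open
  have himg : IsOpen (Ψ '' (D ×ˢ (univ : Set (Cn n)))) := by
    refine OTB_280.isOpen_image (C := ofAtl A) (smI_A t.sm hJ.cmp) (fun ζ hζ a ha => ?_)
      (t.op.prod isOpen_univ) subset_rfl
    have hi := fd_inj t hJ hζ.1 ha
    refine ⟨hi, ?_⟩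
    have hf : finrank ℝ (Cn n × Cn n) = finrank ℝ (Cn N) := by
      rw [finrank_prod, finrank_real_of_complex, finrank_real_of_complex,
        finrank_euclideanSpace_fin, finrank_euclideanSpace_fin, hN]
      ring
    exact (LinearMap.injective_iff_surjective_of_finrank_eq_finrank
      (f := (fderiv ℝ (fun y => A.e a (Ψ y)) ζ : (Cn n × Cn n) →ₗ[ℝ] Cn N)) hf).1 hi
  have hne : (Ψ '' (D ×ˢ (univ : Set (Cn n)))).Nonempty := by
    obtain ⟨y, hy⟩ := t.ne
    exact ⟨Ψ (y, 0), (y, 0), ⟨hy, mem_univ _⟩, rfl⟩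
  refine ⟨Ψ '' (D ×ˢ (univ : Set (Cn n))) ∩ {x | ∃ i, Rk_599.Rk A u i x}, himg.inter (isOpen_rk hu),
    (Rk_599.dense_rk hu hrk).inter_open_nonempty _ himg hne, ?_⟩
  rintro x ⟨⟨⟨y, z⟩, ⟨hy, -⟩, rfl⟩, i, hi⟩
  refine ⟨y, hy, z, rfl, fun T hT => ⟨htor_of t hJ hy hT, hfibG y hy T hT, ?_⟩⟩
  refine verG_of_ver hsp hu (ver_of_rk hN (ltub_of t hJ) hy T hu
    (by filter_upwards [t.op.mem_nhds hy] with y' hy' using hfibT y' hy') ?_ hi)
  intro j x' hj
  have h1 : NZ (u 0) (fun s => Ψ (y, T s)) := by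
    have h2 : Ψ (y, T (T.symm z)) ∈ (A.e i).source := by
      rw [ContinuousLinearEquiv.apply_symm_apply]
      exact hi.1
    have h3 : u 0 i (Ψ (y, T (T.symm z))) ≠ 0 := by
      rw [ContinuousLinearEquiv.apply_symm_apply]
      exact hi.2.1
    exact nz_of_ne (htor_of t hJ hy hT) G.hs G.ne (hfibG y hy T hT) (hu 0) (x := T.symm z) h2 h3
  have h4 := h1 j (T.symm x')
  simp only [ContinuousLinearEquiv.apply_symm_apply] at h4
  exact h4 hj

end

end Crest.Agent.R281.OpT_330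
end

-- ▼ part R281/OpF5_330
section

/-!
# Row 281, OPEN-FIB (helper330), file 5: the literal form for the node `OpenP`

* `q_dic`      : the curvature form of `(L0.pow m).add a` is orthogonal to `e`
* `fibver_dic` : `fibver` for the bundle of a dictionary of `(L0.pow m).add a`
-/

set_option autoImplicit false
set_option linter.unusedSectionVars false
set_option maxSynthPendingDepth 3

open Set Filter Topology Complex Matrix MeasureTheory Module
open scoped ContDiff Matrix ComplexConjugate ComplexOrder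

namespace Crest.Agent.R281.OpT_330

open Crest.Agent.R273 Crest.Agent.R275 Crest.Agent.R275.Geo Crest.Agent.R275.Core144
open Crest.Agent.R273.Defs_333 Crest.Agent.R273.HM_333 Crest.Agent.R273.Kah_333
open Crest.Agent.R273.Vol_333
open Crest.Agent.R281.OpB_849 (GG)
open Crest.Agent.R281.HkR_835 Crest.Agent.R281.Ti_846 Crest.Agent.R281.PL_713
open Crest.Agent.R281.Nef_252 Crest.Agent.R281.Alg_998
open Crest.Agent.R281.Dif_268 (Eqv)
open Crest.Agent.R281.Tub_831
open Crest.Agent.R281.RkD_902 (Ctx Given)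

noncomputable section

variable {X : Type} [TopologicalSpace X] {n : ℕ} {C : RCh (Cn (2 * n)) X}
  {Q : F2 C →ₗ[ℝ] F2 C →ₗ[ℝ] ℝ} {e : F2 C} {H : HkT C} {L0 : PL C}

/-- the curvature form is orthogonal to `e` -/
theorem q_dic [CompactSpace X] (hc : Ctx n C Q) (hg : Given Q H L0 e) (m : ℕ) (a : F1 C) :
    Q ((L0.pow m).add a).F e = 0 := by
  -- the form is cohomologous to `m L0.F`
  have h1 : Ex (((L0.pow m).add a).F - (m : ℝ) • L0.F) := by
    refine ⟨a, fun i z hz u v => ?_⟩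
    have e1 : (((L0.pow m).add a).F - (m : ℝ) • L0.F).w i z u v =
      ((L0.pow m).add a).F.w i z u v - (m : ℝ) * L0.F.w i z u v := rfl
    rw [e1, PL.add_F _ _ hz, PL.pow_F _ _ hz]
    simp only [F1.d_w]
    ring
  have h2 := hc.ex _ e h1
  have h3 := hc.ex _ e hg.lnk
  rw [map_sub, LinearMap.sub_apply, map_smul, LinearMap.smul_apply, smul_eq_mul] at h2 h3
  rw [hg.ee, mul_zero, sub_zero] at h3
  rw [h3, mul_zero, sub_zero] at h2
  exact h2

/-- **OPEN-FIB for the bundle of a dictionary** -/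
theorem fibver_dic [CompactSpace X] [PreconnectedSpace X] (hc : Ctx n C Q) (hg : Given Q H L0 e)
    {D : Set (Cn n)} {Ψ : Cn n × Cn n → X} {l : Fin (2 * n) → Cn n → Cn n}
    {τ : Cn n → Cn n → Cn n → ℂ}
    (t : HolTube C (H.J 0) (H.om 1) (H.om 2) n D Ψ l τ) (hpv : PVT Q e D Ψ l)
    {m : ℕ} {a : F1 C} {A' : Atl (2 * n) X} (Dc : Dic C (H.J 0) ((L0.pow m).add a) A')
    {c : ℕ} (G : GG Dc.lb c) (hsp : Span G)
    (hrk : ∃ u : Fin (n + 1) → A'.ι → X → ℂ, (∀ j, IsHS Dc.lb univ (u j)) ∧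
      ∃ i x, Rk_599.Rk A' u i x) :
    ∃ V₀ : Set X, IsOpen V₀ ∧ V₀.Nonempty ∧ ∀ x ∈ V₀, ∃ y ∈ D, ∃ z, Ψ (y, z) = x ∧
      ∀ T : (Fin (2 * n) → ℝ) ≃L[ℝ] Cn n, (∀ s, T s = ∑ k, s k • l k y) →
        HTor A' T (fun s => Ψ (y, T s)) ∧ Fib G.s (fun s => Ψ (y, T s)) ∧
          Ver G.s T (fun s => Ψ (y, T s)) := by
  obtain ⟨u, hu, i, x, hx⟩ := hrk
  exact fibver (two_mul n) t Dc.jc Dc.hm (κ := -2) (by norm_num)
    (Rkd_386.dic_cur (Rkd_386.cp_of_jc Dc.jc) Dc)
    (fun y hy x j k => hpv _ (q_dic hc hg m a) y hy x j k) G hsp hu hx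

end

end Crest.Agent.R281.OpT_330
end

-- ▼ part R281/OpG6_941

/-!
# R281 (S0424), OPEN' (helper941), part 6: the moving tori of the box

* `TubT`    : the tube of 831 as a parameter of the nodes of 902
* `FibP`    : tori of the tube are fibres (330)
* `torP_of` : `FibP → TorP TubT`
-/

set_option autoImplicit false
set_option linter.unusedSectionVars false
set_option maxSynthPendingDepth 3

open Set Filter Topology Complex
open scoped ContDiff ComplexConjugate

namespace Crest.Agent.R281.OpG_941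

open Crest.Agent.R275.Geo Crest.Agent.R275.Core144 Crest.Agent.R275.GC293
open Crest.Agent.R273.Defs_333 Crest.Agent.R273.Kah_333 Crest.Agent.R273.HM_333
open Crest.Agent.R273.Vol_333
open Crest.Agent.R260.ACM_580 Crest.Agent.R260.NNB_580
open Crest.Agent.R281.HkR_835 Crest.Agent.R281.Ti_846 Crest.Agent.R281.NefO_476
open Crest.Agent.R281.Nef_252 Crest.Agent.R281.PL_713 Crest.Agent.R281.Dif_268
open Crest.Agent.R281.Alg_998 Crest.Agent.R281.RkD_902 Crest.Agent.R281.Cdr_234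
open Crest.Agent.R281.Rkd_386 Crest.Agent.R281.Rk_599
open Crest.Agent.R281.OpD_569 Crest.Agent.R281.OT_763 Crest.Agent.R281.OpT_330
open Crest.Agent.R281.Op3_569 (MovD)
open Crest.Agent.R281.Tub_831 (HolTube PVT)
open Crest.Agent.R281.OpI_450 (HolB)
open Crest.Agent.R281.OpB_849 (sOf)
open Crest.Agent.R273.LamN127 (BN)

noncomputable section

/-- the tube of 831 as a parameter of the nodes -/
def TubT : TubTT := fun n _ _ _ _ _ C Q e H => Crest.Agent.R281.Tub_831.Tub n C Q e H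

section rel

variable {V X : Type} [NormedAddCommGroup V] [NormedSpace ℝ V]
  [TopologicalSpace X] {C : RCh V X} {n : ℕ} {A A' : Atl n X} {κ : A.ι → C.ι}
  {J : C.ι → V → V →L[ℝ] V}

/-- the defining property of `pJ` for all charts of `C` -/
theorem pJ_all (h : Cmp C (ofAtl A)) (hκ : Sub C (ofAtl A) κ) (hJ : JC C J A') {i : C.ι}
    {a : A.ι} {z : Cn n} (hz : z ∈ mov C (ofAtl A) i a) (v : Cn n) :
    fderiv ℝ (mt C (ofAtl A) i a) z (pJ C (ofAtl A) κ J a z v) =
      J i (mt C (ofAtl A) i a z) (fderiv ℝ (mt C (ofAtl A) i a) z v) := by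
  have hza : z ∈ ((ofAtl A).e a).target := hz.1
  have hm := hκ.mem hza
  have hcc : Cmp C C := Cmp_trans h h.symm
  have e1 : ∀ w, fderiv ℝ (mt C (ofAtl A) i a) z w = fderiv ℝ (C.t (κ a) i)
      (mt C (ofAtl A) (κ a) a z) (fderiv ℝ (mt C (ofAtl A) (κ a) a) z w) := fun w =>
    (dmt_comp hcc h hm hz w).symm
  have hy : mt C (ofAtl A) (κ a) a z ∈ C.ov (κ a) i := by
    refine ⟨(Cmp.mt_mem hm).1, ?_⟩
    have e3 : (C.e (κ a)).symm (C.e (κ a) ((A.e a).symm z)) = (A.e a).symm z :=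
      (C.e (κ a)).left_inv hm.2
    show (C.e (κ a)).symm (C.e (κ a) ((A.e a).symm z)) ∈ (C.e i).source
    exact (congrArg (· ∈ (C.e i).source) e3).mpr hz.2
  have e2 : C.t (κ a) i (mt C (ofAtl A) (κ a) a z) = mt C (ofAtl A) i a z := mt_comp hm
  rw [e1, e1, pJ_d h hκ J hza, hJ.J_tr hy, e2]

end rel

/-- the fields of the family on the atlas of the dictionary satisfy 763's relation -/
theorem CFam.relJ {V X : Type} [NormedAddCommGroup V] [NormedSpace ℝ V]
    [TopologicalSpace X] {C : RCh V X} {n : ℕ} {E : Type} [NormedAddCommGroup E]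
    [NormedSpace ℝ E] {p1 : E} (F : CFam n C E p1) {A : Atl n X}
    (D : Dic C (F.J p1) (F.L p1) A) {q : E} (hq : q ∈ F.O) :
    RelJ C A (F.J q) ((F.mf D).movD D.P q) := by
  obtain ⟨A', hA'⟩ := F.jc q hq
  exact relJ_of (J' := (F.mf D).J q) (fun _ _ _ => rfl)
    fun i a z hz v => pJ_all D.jc.cmp D.hκ hA' hz v

section box

variable {n : ℕ} {X : Type} [TopologicalSpace X] [CompactSpace X] [T2Space X]
  [SimplyConnectedSpace X]
  {C : RCh (Cn (2 * n)) X} {Q : F2 C →ₗ[ℝ] F2 C →ₗ[ℝ] ℝ} {H0 : HkT C} {L0 : PL C} {e : F2 C}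

/-- generating sections of the bundle of the dictionary -/
theorem gen_dic {H : HkT C} {A : Atl (2 * n) X} (p : Pres n H L0) {m : ℕ}
    (hgg : Crest.Agent.R281.RkD_902.GG (p.L ^ m)) {a : F1 C}
    (D : Dic C (H.J 0) ((L0.pow m).add a) A) :
    ∀ i, ∀ x ∈ (A.e i).source, ∃ s, IsHS D.lb univ s ∧ s i x ≠ 0 := by
  have hgd : Crest.Agent.R281.RkD_902.GG D.lb := gg_dic p hgg D
  intro i x hx
  obtain ⟨s, hs, j, hj, hne⟩ := hgd x
  refine ⟨s, hs, ?_⟩
  rw [hs.tr i j x ⟨hx, hj⟩ (mem_univ x)]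
  exact mul_ne_zero (LB.ne_zero _ i j x) hne

/-- fibre tori against all sections -/
theorem fib_tori (hQ : Ctx n C Q) {H : HkT C} (hGH : Given Q H L0 e)
    (hT : Crest.Agent.R281.Tub_831.Tub n C Q e H) (p : Pres n H L0) {m : ℕ}
    (hgg : Crest.Agent.R281.RkD_902.GG (p.L ^ m))
    (hrk : ∃ t : Fin (n + 1) → p.A.ι → X → ℂ, (∀ a, IsHS (p.L ^ m) univ (t a)) ∧
      ∃ i x, Rk p.A t i x) {a : F1 C} {A : Atl (2 * n) X} [Finite A.ι] (Pt : Part A)
    (D : Dic C (H.J 0) ((L0.pow m).add a) A) :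
    ∃ (Dd : Set (Cn n)) (Ψ : Cn n × Cn n → X) (l : Fin (2 * n) → Cn n → Cn n)
      (τ : Cn n → Cn n → Cn n → ℂ), HolTube C (H.J 0) (H.om 1) (H.om 2) n Dd Ψ l τ ∧
      PVT Q e Dd Ψ l ∧ ∃ V : Set X, IsOpen V ∧ V.Nonempty ∧ ∀ x ∈ V, ∃ y ∈ Dd, ∃ z,
        Ψ (y, z) = x ∧ ∃ T : (Fin (2 * n) → ℝ) ≃L[ℝ] Cn n, (∀ s, T s = ∑ k, s k • l k y) ∧
          Fib (fun v : HolB (BN D.lb) => sOf v.1) (fun s => Ψ (y, T s)) ∧
          Ver (fun v : HolB (BN D.lb) => sOf v.1) T (fun s => Ψ (y, T s)) := by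
  obtain ⟨Dd, Ψ, l, τ, ht, hpv⟩ := hT
  obtain ⟨k, G, bs, hbs⟩ := Crest.Agent.R281.OpL_450.exists_GGB Pt (gen_dic p hgg D)
  have hsp : Span G := fun s hs => Crest.Agent.R281.OpL_450.span_of bs hbs hs
  obtain ⟨V, hV, hVne, hVT⟩ := fibver_dic hQ hGH ht hpv D G hsp (rk_dic p hrk D)
  refine ⟨Dd, Ψ, l, τ, ht, hpv, V, hV, hVne, fun x hx => ?_⟩
  obtain ⟨y, hy, z, hyz, hT⟩ := hVT x hx
  obtain ⟨T, hTs⟩ := Crest.Agent.R281.OpT_330.exists_T (ht.lli y hy)
  obtain ⟨-, hfib, hver⟩ := hT T hTs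
  exact ⟨y, hy, z, hyz, T, hTs, Crest.Agent.R281.OpL_450.fib_all bs hbs hfib,
    Crest.Agent.R281.OpL_450.ver_all bs hbs hver⟩

/-- `e` at the members of the box -/
theorem given_mem (hc : Ctx n C Q) (h : Given Q H0 L0 e) (B : Box Q H0 e) {b c : Fin B.m → ℝ}
    (hb : b ∈ B.B) (hd : c ∈ B.D) : Given Q (B.H b c) L0 e := by
  have cr : ∀ {x x' y : F2 C}, Cl x x' → Q y x = Q y x' := by
    intro x x' y hx
    have := hc.ex _ y hx
    rw [map_sub, LinearMap.sub_apply] at this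
    rw [hc.symm, hc.symm y]
    linarith
  have ql : ∀ b : Fin B.m → ℝ, Q e (lco B.bas b) = 0 := by
    intro b
    unfold lco
    rw [map_sum]
    refine Finset.sum_eq_zero fun j _ => ?_
    rw [map_smul, hc.symm, B.orth j, smul_zero]
  refine ⟨B.pos2 b hb c hd, h.int, h.lnk, h.ee, ?_, ?_, B.pos b hb c hd⟩
  · obtain ⟨s, -, h1⟩ := B.cl1 b hb c hd
    rw [cr h1, map_smul, ql, smul_zero]
  · obtain ⟨s, t, -, h1⟩ := B.cl2 b hb c hd
    rw [cr h1, map_add, map_smul, map_smul, ql, ql, smul_zero, smul_zero, add_zero]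

/-- moving tori along a family on `C` whose structures are those of the box -/
theorem tori_box (hQ : Ctx n C Q) (hG : Given Q H0 L0 e) (B : Box Q H0 e) {b c : Fin B.m → ℝ}
    (hb : b ∈ B.B) (hc : c ∈ B.D) (hT : Crest.Agent.R281.Tub_831.Tub n C Q e (B.H b c))
    (p : Pres n (B.H b c) L0) {m : ℕ} (hgg : Crest.Agent.R281.RkD_902.GG (p.L ^ m))
    (hrk : ∃ t : Fin (n + 1) → p.A.ι → X → ℂ, (∀ a, IsHS (p.L ^ m) univ (t a)) ∧
      ∃ i x, Rk p.A t i x) {a : F1 C} {A : Atl (2 * n) X} [Finite A.ι] (Pt : Part A)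
    (D : Dic C ((B.H b c).J 0) ((L0.pow m).add a) A)
    {Dp : (Fin B.m → ℝ) × (Fin B.m → ℝ) → MovD A}
    (hrel : ∀ᶠ q in 𝓝 (b, c), RelJ C A ((B.H q.1 q.2).J 0) (Dp q)) :
    ∃ V : Set X, IsOpen V ∧ V.Nonempty ∧ ∀ x ∈ V,
      ∃ t : MTor (Fin (2 * n)) n (𝓝 (b, c)) Dp x,
        Fib (fun v : HolB (BN D.lb) => sOf v.1) t.F0 ∧
          Ver (fun v : HolB (BN D.lb) => sOf v.1) t.T t.F0 := by
  obtain ⟨Dd, Ψ, l, τ, ht, hpv, V, hV, hVne, hVT⟩ :=
    fib_tori hQ (given_mem hQ hG B hb hc) hT p hgg hrk Pt D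
  refine ⟨V, hV, hVne, fun x hx => ?_⟩
  obtain ⟨y, hy, z, rfl, T, hTs, hfib, hver⟩ := hVT x hx
  obtain ⟨t, ht1, ht2⟩ := exists_mtor_box hQ B hb hc ht hpv D.jc (π := fun q => q) tendsto_id
    (Dp := Dp) hrel hy hTs z
  refine ⟨t, ?_, ?_⟩
  · rw [ht2]
    exact hfib
  · rw [ht1, ht2]
    exact hver

end box

/-- **the moving tori** -/
theorem torP : TorP TubT := by
  intro n X _ _ _ _ C Q hQ H0 L0 e hG B b c hb hc hTub p m hm hgg hrk a ha ha' A _ hgood Pt D
  obtain ⟨V, hV, hVne, h⟩ := tori_box hQ hG B hb hc hTub p hgg hrk Pt D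
    (Dp := ((boxFam B hb hc a ha ha' m).mf D).movD D.P) (by
      filter_upwards [(B.oB.prod B.oD).mem_nhds (show (b, c) ∈ B.B ×ˢ B.D from ⟨hb, hc⟩)]
        with q hq
      exact (boxFam B hb hc a ha ha' m).relJ D hq)
  exact ⟨n, Fin (2 * n), inferInstance, V, hV, hVne, h⟩

end

end Crest.Agent.R281.OpG_941
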