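import Crest.Agent.R281.Qr2_770
import Crest.Agent.R273.FId0_597
import Crest.Agent.R273.SteinL_794
import Mathlib

-- ▼ part R281/Qr3_770
section

/-!
# Row 281, Q-RAT (helper770), part 3: Fubini-Study metrics of sections without common zero

* `det_hess_fs` : `det ∂∂̄ log (ε² + |f - a|²) = |det Df|² ε² / (ε² + |f - a|²)^(n+1)`
* `hmS`         : the metric of a family of sections without common zero
* `fmap s s0`   : the map `(s_1/s_0, .., s_n/s_0)`, holomorphic on `nz s0`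
* `det_cur_fs`  : the curvature determinant of the metric of `(ε s_0, s_j - a_j s_0)`
* `main_identity` : `∫ N(w) ε² / (ε² + |w - a|²)^(n+1) dw = ∫ det (cur h)` for all `a`, `ε`, `h`
-/

set_option autoImplicit false
set_option linter.unusedSectionVars false

open Set Filter Topology Complex MeasureTheory
open scoped ContDiff Matrix ComplexConjugate Manifold ENNReal ComplexOrder

noncomputable section

namespace Crest.Agent.R281.Qr_770

open Crest.Agent.R273 Crest.Agent.R275 Crest.Agent.R275.Geo Crest.Agent.R275.Core144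
open Crest.Agent.R275.EDR890
open Crest.Agent.R273.Defs_333 Crest.Agent.R273.Hess_333 Crest.Agent.R273.HessB_333
open Crest.Agent.R273.Kah_333 Crest.Agent.R273.FS_333
open Crest.Agent.R273.Vm_333
open Crest.Agent.R275.Pai323 Crest.Agent.R275.C1d194

variable {n : ℕ}

/-- `ε² / (ε² + t)^(n+1)` -/
def kn (n : ℕ) (ε t : ℝ) : ℝ := ε ^ 2 / (ε ^ 2 + t) ^ (n + 1)

theorem det_rank_one (S : ℂ) (hS : S ≠ 0) (v u : Fin n → ℂ) :
    (S⁻¹ • (1 : Matrix (Fin n) (Fin n) ℂ) - (S⁻¹) ^ 2 • Matrix.vecMulVec v u).det =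
      (S - ∑ k, u k * v k) / S ^ (n + 1) := by
  have h1 : S⁻¹ • (1 : Matrix (Fin n) (Fin n) ℂ) - (S⁻¹) ^ 2 • Matrix.vecMulVec v u =
      S⁻¹ • (1 + Matrix.replicateCol Unit ((-S⁻¹) • v) * Matrix.replicateRow Unit u) := by
    ext a b
    simp only [Matrix.sub_apply, Matrix.smul_apply, Matrix.add_apply, Matrix.vecMulVec_apply,
      smul_eq_mul, Matrix.mul_apply, Finset.univ_unique, Finset.sum_singleton,
      Matrix.replicateCol_apply, Matrix.replicateRow_apply, Pi.smul_apply]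
    ring
  rw [h1, Matrix.det_smul, Matrix.det_one_add_replicateCol_mul_replicateRow, Fintype.card_fin]
  have h2 : u ⬝ᵥ ((-S⁻¹) • v) = -S⁻¹ * ∑ k, u k * v k := by
    rw [dotProduct_smul, smul_eq_mul]
    rfl
  rw [h2, inv_pow]
  field_simp
  ring

/-- the local computation -/
theorem det_hess_fs {f : Cn n → Cn n} {U : Set (Cn n)} (hU : IsOpen U)
    (hf : DifferentiableOn ℂ f U) {z : Cn n} (hz : z ∈ U) (a : Cn n) {ε : ℝ} (hε : ε ≠ 0) :
    (hess (fun w => Real.log (ε ^ 2 + ‖f w - a‖ ^ 2)) z).det =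
      ((‖LinearMap.det ((fderiv ℂ f z : Cn n →L[ℂ] Cn n) : Cn n →ₗ[ℂ] Cn n)‖ ^ 2 *
        kn n ε (‖f z - a‖ ^ 2) : ℝ) : ℂ) := by
  set F : Cn n → Fin (n + 1) → ℂ := fun w => Fin.cons (ε : ℂ) (fun j => f w j - a j) with hF
  have hd0 : ∀ j, DifferentiableOn ℂ (fun w => f w j) U := fun j =>
    (EuclideanSpace.proj j : Cn n →L[ℂ] ℂ).differentiable.comp_differentiableOn hf
  have hFd : ∀ k, DifferentiableOn ℂ (fun w => F w k) U := by
    intro k
    refine Fin.cases ?_ (fun j => ?_) k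
    · simp only [hF, Fin.cons_zero]
      exact differentiableOn_const _
    · simp only [hF, Fin.cons_succ]
      exact (hd0 j).sub_const _
  have hsq : FS_333.sq F = fun w => ε ^ 2 + ‖f w - a‖ ^ 2 := by
    funext w
    simp only [FS_333.sq, Fin.sum_univ_succ, hF, Fin.cons_zero, Fin.cons_succ]
    rw [EuclideanSpace.norm_sq_eq, Complex.norm_real, Real.norm_eq_abs, sq_abs]
    rfl
  have hpos : ∀ w, 0 < FS_333.sq F w := by
    intro w
    rw [hsq]
    positivity
  have hs : ContDiffAt ℝ ∞ (FS_333.sq F) z :=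
    ContDiffAt.sum fun k _ => (contDiffAt_of_hol hU (hFd k) hz).norm_sq ℝ
  have hf0 : ∀ b : Fin n, fderiv ℂ (fun z => F z 0) z (EuclideanSpace.single b 1) = 0 := by
    intro b
    have : (fun z => F z 0) = fun _ => (ε : ℂ) := by funext w; simp [hF]
    rw [this, fderiv_fun_const]
    rfl
  have hfj : ∀ (j b : Fin n), fderiv ℂ (fun z => F z j.succ) z (EuclideanSpace.single b 1) =
      (fderiv ℂ f z (EuclideanSpace.single b 1)) j := by
    intro j b
    have h1 : (fun z => F z j.succ) = fun w => f w j - a j := by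
      funext w; simp [hF]
    have h2 : HasFDerivAt (fun w => f w j) ((EuclideanSpace.proj j : Cn n →L[ℂ] ℂ).comp
        (fderiv ℂ f z)) z := (EuclideanSpace.proj j : Cn n →L[ℂ] ℂ).hasFDerivAt.comp _
        (hf.differentiableAt (hU.mem_nhds hz)).hasFDerivAt
    rw [h1, (h2.sub_const (a j)).fderiv]
    rfl
  set S : ℂ := ((FS_333.sq F z : ℝ) : ℂ) with hS
  have hS0 : S ≠ 0 := by
    rw [hS]; exact_mod_cast (hpos z).ne'
  set v : Fin n → ℂ := fun j => f z j - a j with hv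
  set J : Matrix (Fin n) (Fin n) ℂ := Matrix.of fun j b =>
    (fderiv ℂ f z (EuclideanSpace.single b 1)) j with hJ
  have hFz : ∀ j : Fin n, F z j.succ = v j := fun j => by simp [hF, hv]
  have hmat : hess (fun w => Real.log (ε ^ 2 + ‖f w - a‖ ^ 2)) z =
      Jᵀ * (S⁻¹ • (1 : Matrix (Fin n) (Fin n) ℂ) - (S⁻¹) ^ 2 • Matrix.vecMulVec (fun k => conj (v k)) v) *
        J.map conj := by
    have h0 : (fun w => Real.log (ε ^ 2 + ‖f w - a‖ ^ 2)) = fun w => Real.log (FS_333.sq F w) := by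
      rw [hsq]
    ext b c
    rw [h0, hess_log hs (hpos z), hess_sq hU hFd hz, wd_sq hU hFd hz, wd_sq' hU hFd hz]
    simp only [Fin.sum_univ_succ, hf0, hfj, zero_mul, mul_zero, zero_add, map_zero, hFz]
    rw [Matrix.mul_sub, Matrix.sub_mul, Matrix.sub_apply]
    congr 1
    · rw [Matrix.mul_smul, Matrix.mul_one, Matrix.smul_mul, Matrix.smul_apply, smul_eq_mul]
      congr 1
    · rw [Matrix.mul_smul, Matrix.smul_mul, Matrix.smul_apply, smul_eq_mul]
      congr 1
      rw [Matrix.mul_apply]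
      simp only [Matrix.mul_apply, Matrix.transpose_apply, Matrix.vecMulVec_apply, Matrix.map_apply,
        hJ, Matrix.of_apply]
      rw [Finset.sum_mul_sum, Finset.sum_comm]
      refine Finset.sum_congr rfl fun j _ => ?_
      rw [Finset.sum_mul]
      refine Finset.sum_congr rfl fun k _ => ?_
      ring
  have hdJ : J.det = LinearMap.det ((fderiv ℂ f z : Cn n →L[ℂ] Cn n) : Cn n →ₗ[ℂ] Cn n) := by
    rw [← LinearMap.det_toMatrix (EuclideanSpace.basisFun (Fin n) ℂ).toBasis]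
    congr 1
  have hvv : ∑ k, v k * conj (v k) = ((‖f z - a‖ ^ 2 : ℝ) : ℂ) := by
    rw [EuclideanSpace.norm_sq_eq, Complex.ofReal_sum]
    refine Finset.sum_congr rfl fun k _ => ?_
    rw [Complex.mul_conj, Complex.normSq_eq_norm_sq]
    rfl
  have hSv : S = (ε : ℂ) ^ 2 + ((‖f z - a‖ ^ 2 : ℝ) : ℂ) := by
    rw [hS, hsq]
    push_cast
    ring
  have hcj : (J.map conj).det = conj J.det := by
    rw [← RingHom.mapMatrix_apply, ← RingHom.map_det]
  rw [hmat, Matrix.det_mul, Matrix.det_mul, Matrix.det_transpose, hcj, det_rank_one S hS0, hvv,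
    ← hdJ]
  have h5 : S - ((‖f z - a‖ ^ 2 : ℝ) : ℂ) = (ε : ℂ) ^ 2 := by rw [hSv]; ring
  rw [h5]
  have h6 : ((‖J.det‖ ^ 2 * kn n ε (‖f z - a‖ ^ 2) : ℝ) : ℂ) =
      (J.det * conj J.det) * ((ε : ℂ) ^ 2 / S ^ (n + 1)) := by
    rw [Complex.mul_conj, Complex.normSq_eq_norm_sq, hSv, kn]
    push_cast
    ring
  rw [h6]
  ring


/-! ### metrics from sections -/

section metric

variable {M : Type} [TopologicalSpace M] {A : Atl n M} {L : LB A}

/-- the metric of a finite family of sections without common zero -/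
def hmS {N : ℕ} (t : Fin N → A.ι → M → ℂ) (ht : ∀ k, IsHS L univ (t k))
    (h0 : ∀ i, ∀ x ∈ (A.e i).source, ∃ k, t k i x ≠ 0) : HM L where
  w i x := (∑ k, ‖t k i x‖ ^ 2)⁻¹
  pos i x hx := by
    have h : (fun k => t k i x) ≠ 0 := by
      obtain ⟨k, hk⟩ := h0 i x hx
      exact fun h => hk (congrFun h k)
    exact inv_pos.2 (FS_333.sq_pos (n := 0) (F := fun _ k => t k i x) (z := 0) h)
  sm i := by
    have h1 : ContDiffOn ℝ ∞ (fun z => ∑ k, ‖t k i ((A.e i).symm z)‖ ^ 2) (A.e i).target := by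
      refine ContDiffOn.sum fun k _ => ?_
      have h2 : ContDiffOn ℝ ∞ (fun z => t k i ((A.e i).symm z)) (A.e i).target := by
        have := ((ht k).hol i).contDiffOn isOpen_univ
        simpa using this
      exact h2.norm_sq ℝ
    refine h1.inv fun z hz => ?_
    have h : (fun k => t k i ((A.e i).symm z)) ≠ 0 := by
      obtain ⟨k, hk⟩ := h0 i _ ((A.e i).map_target hz)
      exact fun h => hk (congrFun h k)
    exact (FS_333.sq_pos (n := 0) (F := fun _ k => t k i ((A.e i).symm z)) (z := 0) h).ne'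
  tr i j x hx := by
    have h2 : (∑ k, ‖t k i x‖ ^ 2) = ‖L.g i j x‖ ^ 2 * ∑ k, ‖t k j x‖ ^ 2 := by
      rw [Finset.mul_sum]
      refine Finset.sum_congr rfl fun k _ => ?_
      rw [(ht k).tr i j x hx (mem_univ x), norm_mul, mul_pow]
    have h3 : L.g i j x ≠ 0 := L.ne_zero i j x
    rw [h2, mul_inv, ← mul_assoc, mul_inv_cancel₀ (by positivity), one_mul]

theorem hmS_wt {N : ℕ} (t : Fin N → A.ι → M → ℂ) (ht : ∀ k, IsHS L univ (t k))
    (h0 : ∀ i, ∀ x ∈ (A.e i).source, ∃ k, t k i x ≠ 0) (i : A.ι) :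
    (hmS t ht h0).wt i = fun z => Real.log (∑ k, ‖t k i ((A.e i).symm z)‖ ^ 2) := by
  funext z
  simp only [HM.wt, hmS, Real.log_inv, neg_neg]

theorem hmS_semipos {N : ℕ} (t : Fin N → A.ι → M → ℂ) (ht : ∀ k, IsHS L univ (t k))
    (h0 : ∀ i, ∀ x ∈ (A.e i).source, ∃ k, t k i x ≠ 0) : (hmS t ht h0).Semipos := by
  intro i z hz v
  rw [hmS_wt]
  have hF : ∀ k, DifferentiableOn ℂ (fun z => t k i ((A.e i).symm z)) (A.e i).target := by
    intro k
    have := (ht k).hol i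
    unfold HolAt at this
    simpa using this
  have h : (fun k => t k i ((A.e i).symm z)) ≠ 0 := by
    obtain ⟨k, hk⟩ := h0 i _ ((A.e i).map_target hz)
    exact fun h => hk (congrFun h k)
  have h1 := lev_log_sq (F := fun z k => t k i ((A.e i).symm z)) (A.e i).open_target hF hz h v
  unfold FS_333.sq at h1
  rw [h1]
  have hp := FS_333.sq_pos (F := fun z k => t k i ((A.e i).symm z)) (z := z) h
  have hL := (lagrange (fun k => t k i ((A.e i).symm z))
    (fun k => fderiv ℂ (fun z => t k i ((A.e i).symm z)) z v)).resolve_right hp.ne'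
  unfold FS_333.sq at hp
  rw [hL]
  have h1 : 0 ≤ ∑ k, ‖(∑ l, ‖t l i ((A.e i).symm z)‖ ^ 2 : ℝ) •
      fderiv ℂ (fun z => t k i ((A.e i).symm z)) z v -
      (∑ l, fderiv ℂ (fun z => t l i ((A.e i).symm z)) z v * conj (t l i ((A.e i).symm z))) *
        t k i ((A.e i).symm z)‖ ^ 2 :=
    Finset.sum_nonneg fun _ _ => by positivity
  positivity

/-- the family `(ε s_0, s_j - a_j s_0)` -/
def fam (s0 : A.ι → M → ℂ) (s : Fin n → A.ι → M → ℂ) (a : Cn n) (ε : ℝ) :
    Fin (n + 1) → A.ι → M → ℂ :=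
  Fin.cons ((ε : ℂ) • s0) fun j => s j + (- a j) • s0

variable {s0 : A.ι → M → ℂ} {s : Fin n → A.ι → M → ℂ}

theorem isHS_fam (h0 : IsHS L univ s0) (h1 : ∀ j, IsHS L univ (s j)) (a : Cn n) (ε : ℝ)
    (k : Fin (n + 1)) : IsHS L univ (fam s0 s a ε k) := by
  refine Fin.cases ?_ (fun j => ?_) k
  · exact h0.smul _
  · exact (h1 j).add (h0.smul _)

theorem fam_ne (hz : ∀ i, ∀ x ∈ (A.e i).source, s0 i x = 0 → ∃ j, s j i x ≠ 0) (a : Cn n) {ε : ℝ}
    (hε : ε ≠ 0) : ∀ i, ∀ x ∈ (A.e i).source, ∃ k, fam s0 s a ε k i x ≠ 0 := by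
  intro i x hx
  by_cases h : s0 i x = 0
  · obtain ⟨j, hj⟩ := hz i x hx h
    refine ⟨j.succ, ?_⟩
    simp only [fam, Fin.cons_succ, Pi.add_apply, Pi.smul_apply, smul_eq_mul, h, mul_zero, add_zero]
    exact hj
  · refine ⟨0, ?_⟩
    simp only [fam, Fin.cons_zero, Pi.smul_apply, smul_eq_mul]
    exact mul_ne_zero (by exact_mod_cast hε) h

open Crest.Agent.R273.SteinC_794 (nz mem_nz isOpen_nz qt qt_eq qt_hol continuousAt_of_holAt)

/-- the map `(s_1/s_0, .., s_n/s_0)` -/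
def fmap (s0 : A.ι → M → ℂ) (s : Fin n → A.ι → M → ℂ) (x : M) : Cn n :=
  WithLp.toLp 2 fun j => qt (s j) s0 x

theorem fmap_apply (x : M) (j : Fin n) : fmap s0 s x j = qt (s j) s0 x := rfl

theorem holW_fmap (h0 : IsHS L univ s0) (h1 : ∀ j, IsHS L univ (s j)) :
    HolW A (nz s0) (fmap s0 s) := by
  intro i
  have h2 : ∀ j, DifferentiableOn ℂ (fun z => qt (s j) s0 ((A.e i).symm z))
      ((A.e i).target ∩ (A.e i).symm ⁻¹' (nz s0)) := fun j => qt_hol (h1 j) h0 i
  exact (PiLp.continuousLinearEquiv 2 ℂ (fun _ : Fin n => ℂ)).symm.differentiable.comp_differentiableOn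
    (differentiableOn_pi.2 h2)

theorem cont_fmap (h0 : IsHS L univ s0) (h1 : ∀ j, IsHS L univ (s j)) :
    ContinuousOn (fmap s0 s) (nz s0) := by
  intro x hx
  obtain ⟨i, hi⟩ := A.cover x
  have h2 : ∀ j, ContinuousAt (qt (s j) s0) x := fun j =>
    continuousAt_of_holAt (isOpen_nz h0) (qt_hol (h1 j) h0 i) hi hx
  have h3 : ContinuousAt (fun x => (PiLp.continuousLinearEquiv 2 ℂ (fun _ : Fin n => ℂ)).symm
      (fun j => qt (s j) s0 x)) x :=
    (PiLp.continuousLinearEquiv 2 ℂ (fun _ : Fin n => ℂ)).symm.continuous.continuousAt.comp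
      (continuousAt_pi.2 h2)
  exact h3.continuousWithinAt

/-- the curvature determinant -/
theorem det_cur_fs (h0 : IsHS L univ s0) (h1 : ∀ j, IsHS L univ (s j))
    (hz : ∀ i, ∀ x ∈ (A.e i).source, s0 i x = 0 → ∃ j, s j i x ≠ 0) (a : Cn n) {ε : ℝ}
    (hε : ε ≠ 0) {i : A.ι} {x : M} (hx : x ∈ (A.e i).source) (hxn : x ∈ nz s0) :
    (cur (hmS (fam s0 s a ε) (isHS_fam h0 h1 a ε) (fam_ne hz a hε)) i x).det =
      ((‖jd A (fmap s0 s) i x‖ ^ 2 * kn n ε (‖fmap s0 s x - a‖ ^ 2) : ℝ) : ℂ) := by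
  have ho : IsOpen ((A.e i).target ∩ (A.e i).symm ⁻¹' (nz s0)) := isOpen_ti (isOpen_nz h0)
  have hzz : A.e i x ∈ (A.e i).target ∩ (A.e i).symm ⁻¹' (nz s0) :=
    ⟨(A.e i).map_source hx, by rw [mem_preimage, (A.e i).left_inv hx]; exact hxn⟩
  have hhol := holW_fmap h0 h1 i
  have hs0 : DifferentiableOn ℂ (fun z => s0 i ((A.e i).symm z))
      ((A.e i).target ∩ (A.e i).symm ⁻¹' (nz s0)) :=
    DifferentiableOn.mono (h0.hol i) (inter_subset_inter_right _ (preimage_mono (subset_univ _)))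
  have hev : (hmS (fam s0 s a ε) (isHS_fam h0 h1 a ε) (fam_ne hz a hε)).wt i =ᶠ[𝓝 (A.e i x)]
      fun z => (fun z => Real.log (ε ^ 2 + ‖fmap s0 s ((A.e i).symm z) - a‖ ^ 2)) z +
        (fun z => Real.log (‖s0 i ((A.e i).symm z)‖ ^ 2)) z := by
    filter_upwards [ho.mem_nhds hzz] with z hz
    have hzs : (A.e i).symm z ∈ (A.e i).source := (A.e i).map_target hz.1
    have hne : s0 i ((A.e i).symm z) ≠ 0 := (mem_nz h0 hzs).1 hz.2
    rw [hmS_wt]
    simp only
    rw [← Real.log_mul (by positivity) (by positivity)]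
    congr 1
    rw [Fin.sum_univ_succ, add_mul, EuclideanSpace.norm_sq_eq, Finset.sum_mul]
    congr 1
    · simp only [fam, Fin.cons_zero, Pi.smul_apply, smul_eq_mul, norm_mul, Complex.norm_real,
        Real.norm_eq_abs, mul_pow, sq_abs]
    · refine Finset.sum_congr rfl fun j _ => ?_
      simp only [fam, Fin.cons_succ, Pi.add_apply, Pi.smul_apply, smul_eq_mul]
      rw [← mul_pow, ← norm_mul]
      congr 2
      rw [PiLp.sub_apply, fmap_apply, qt_eq (h1 j) h0 hzs]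
      field_simp
      ring
  have hdo : DifferentiableOn ℂ (fun z => fmap s0 s ((A.e i).symm z))
      ((A.e i).target ∩ (A.e i).symm ⁻¹' (nz s0)) := hhol
  have hsx : s0 i ((A.e i).symm (A.e i x)) ≠ 0 := by
    rw [(A.e i).left_inv hx]; exact (mem_nz h0 hx).1 hxn
  have c1 : ContDiffAt ℝ ∞ (fun z => Real.log (ε ^ 2 + ‖fmap s0 s ((A.e i).symm z) - a‖ ^ 2))
      (A.e i x) := by
    have h2 := contDiffAt_of_hol ho (hdo.sub_const a) hzz
    exact (contDiffAt_const.add (h2.norm_sq ℝ)).log (by positivity)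
  have c2 : ContDiffAt ℝ ∞ (fun z => Real.log (‖s0 i ((A.e i).symm z)‖ ^ 2)) (A.e i x) :=
    ((contDiffAt_of_hol ho hs0 hzz).norm_sq ℝ).log (by positivity)
  have hlog : hess (fun z => Real.log (‖s0 i ((A.e i).symm z)‖ ^ 2)) (A.e i x) = 0 := by
    refine hess_log_norm ?_ hsx
    filter_upwards [ho.mem_nhds hzz] with w hw
    exact hs0.differentiableAt (ho.mem_nhds hw)
  unfold cur
  rw [hess_congr hev, hess_add c1 c2, hlog, add_zero, det_hess_fs ho hdo hzz a hε,
    (A.e i).left_inv hx]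
  rfl

end metric

/-! ### the integral identity -/

theorem fsum_const_mul {X Y : Type*} {g : X → Y} {S : Set X} {F : X → ℝ≥0∞} {w : Y} (c : ℝ≥0∞)
    (h : ∀ x ∈ S, g x = w → F x = c) : fsum g S F w = c * fsum g S (fun _ => 1) w := by
  unfold fsum
  rw [← ENNReal.tsum_mul_left]
  refine tsum_congr fun x => ?_
  by_cases hx : x.1 ∈ S
  · rw [indicator_of_mem hx, indicator_of_mem hx, h _ hx x.2, mul_one]
  · rw [indicator_of_notMem hx, indicator_of_notMem hx, mul_zero]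

theorem fsum_one_nat {X Y : Type*} {g : X → Y} {S : Set X} {w : Y}
    (h : fsum g S (fun _ => 1) w ≠ ⊤) : ∃ d : ℕ, fsum g S (fun _ => 1) w = d := by
  classical
  rw [fsum_eq_sub] at h ⊢
  have h1 : (∑' _ : {x : X // x ∈ S ∧ g x = w}, (1 : ℝ≥0∞)) =
      ENat.card {x : X // x ∈ S ∧ g x = w} := by
    rw [ENNReal.tsum_const]
    simp
  rw [h1] at h ⊢
  have h2 : ENat.card {x : X // x ∈ S ∧ g x = w} ≠ ⊤ := fun h3 => h (by rw [h3]; rfl)
  obtain ⟨d, hd⟩ := ENat.ne_top_iff_exists.1 h2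
  exact ⟨d, by rw [← hd]; rfl⟩

section int

open Crest.Agent.R273.HM_333 Crest.Agent.R273.FIb0_597 Crest.Agent.R273.FId0_597
open Crest.Agent.R273.FIc0_597 (integrable_cont)
open Crest.Agent.R273.Green_5 Crest.Agent.R273.VolInv_5 Crest.Agent.R273.StV_37
open Crest.Agent.R273.SteinC_794 (nz mem_nz isOpen_nz qt qt_eq qt_hol continuousAt_of_holAt)

variable {M : Type} [TopologicalSpace M] {A : Atl n M} {L : LB A}
variable {s0 : A.ι → M → ℂ} {s : Fin n → A.ι → M → ℂ}
variable [T2Space M] [CompactSpace M] [Fintype A.ι] [MeasurableSpace M] [BorelSpace M]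

theorem psd_det_nonneg {S : Matrix (Fin n) (Fin n) ℂ} (h : S.PosSemidef) : 0 ≤ S.det.re := by
  have := h.det_nonneg
  exact (Complex.le_def.1 this).1

/-- the number of noncritical points in the fibres -/
def Nn (s0 : A.ι → M → ℂ) (s : Fin n → A.ι → M → ℂ) (w : RI n → ℝ) : ℝ≥0∞ :=
  fsum (fun x => rc (fmap s0 s x)) (Reg A (fmap s0 s) (nz s0)) (fun _ => 1) w

theorem meas_Nn (h0 : IsHS L univ s0) (h1 : ∀ j, IsHS L univ (s j)) :
    Measurable (Nn s0 s) :=
  (area (isOpen_nz h0) (holW_fmap h0 h1) (F := fun _ => 1) measurable_const).1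

theorem totc_real (P : Part A) {S : A.ι → M → Matrix (Fin n) (Fin n) ℂ} (hS : TF A S)
    (hr : ∀ i, ∀ x ∈ (A.e i).source, (S i x).IsHermitian) :
    totc P (fun i x => (S i x).det) = ((totc P (fun i x => (S i x).det)).re : ℂ) := by
  obtain ⟨h⟩ := exists_hm P (KB A)⁻¹
  have hGc : Continuous (dtC h S) := sm_continuous (sm_dtC h hS)
  have e1 : totc P (fun i x => (S i x).det) = ∫ x, dtC h S x ∂(vm h) := by
    rw [int_eq_totc P h (f := dtC h S) hGc fun i x hx => ?_]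
    have h6 : (h.w i x : ℂ) ≠ 0 := by exact_mod_cast (h.pos i x hx).ne'
    rw [dtC_eq h hS hx]
    field_simp
  have e2 : ∀ x, dtC h S x = ((dtM h S x : ℝ) : ℂ) := by
    intro x
    have hx := mem_ch A x
    have h1 : (S (ch A x) x).det = ((S (ch A x) x).det.re : ℂ) := by
      have h2 : conj (S (ch A x) x).det = (S (ch A x) x).det := by
        have h3 := Matrix.det_conjTranspose (S (ch A x) x)
        rw [(hr _ x hx).eq] at h3
        exact h3.symm
      exact (Complex.conj_eq_iff_re.1 h2).symm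
    unfold dtC dtM
    rw [h1]
    simp
  have e3 : ∫ x, dtC h S x ∂(vm h) = ((∫ x, dtM h S x ∂(vm h) : ℝ) : ℂ) := by
    rw [← integral_complex_ofReal]
    exact integral_congr_ae (Eventually.of_forall e2)
  rw [e1, e3, Complex.ofReal_re]

theorem main_identity [ConnectedSpace M] (P : Part A) (h : HM L) (h0 : IsHS L univ s0)
    (h1 : ∀ j, IsHS L univ (s j))
    (hz : ∀ i, ∀ x ∈ (A.e i).source, s0 i x = 0 → ∃ j, s j i x ≠ 0)
    (hne : ∃ i, ∃ x ∈ (A.e i).source, s0 i x ≠ 0) (a : Cn n) {ε : ℝ} (hε : ε ≠ 0) :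
    0 ≤ (totc P (fun i x => (cur h i x).det)).re ∧
      ∫⁻ w, ENNReal.ofReal (kn n ε (‖cc w - a‖ ^ 2)) * Nn s0 s w =
        ENNReal.ofReal (totc P (fun i x => (cur h i x).det)).re := by
  obtain ⟨v⟩ := exists_hm P (KB A)⁻¹
  have := isFinite_vm v
  set h' := hmS (fam s0 s a ε) (isHS_fam h0 h1 a ε) (fam_ne hz a hε) with hh'
  have hS : TF A (cur h') := tf_of_cf (cur_cf h')
  have hpsd : ∀ i, ∀ x ∈ (A.e i).source, (cur h' i x).PosSemidef := fun i x hx =>
    cur_posSemidef (hmS_semipos _ _ _) i hx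
  have hnn : ∀ x, 0 ≤ dtM v (cur h') x := by
    intro x
    have hx := mem_ch A x
    exact div_nonneg (psd_det_nonneg (hpsd _ x hx)) (v.pos _ x hx).le
  have e0 : totc P (fun i x => (cur h i x).det) = totc P (fun i x => (cur h' i x).det) :=
    volinv_cur P h' h
  have e1 := int_dtM P v hS
  rw [e0]
  refine ⟨?_, ?_⟩
  · rw [← e1]
    exact integral_nonneg hnn
  rw [← e1]
  have hc := cont_dtM v hS
  rw [ofReal_integral_eq_lintegral_ofReal (integrable_cont v hc) (Eventually.of_forall hnn)]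
  have hWo : IsOpen (nz s0) := isOpen_nz h0
  have hnull := Crest.Agent.R273.SteinL_794.null_nz v h0 hne
  have e2 : ∫⁻ x, ENNReal.ofReal (dtM v (cur h') x) ∂(vm v) =
      ∫⁻ x in nz s0, ENNReal.ofReal (dtM v (cur h') x) ∂(vm v) := by
    rw [← lintegral_add_compl _ hWo.measurableSet, setLIntegral_measure_zero _ _ hnull, add_zero]
  set F : M → ℝ≥0∞ := (nz s0).indicator fun x =>
    ENNReal.ofReal (kn n ε (‖fmap s0 s x - a‖ ^ 2)) with hF
  have hFm : Measurable F := by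
    have hcn : ContinuousOn (fun x => ENNReal.ofReal (kn n ε (‖fmap s0 s x - a‖ ^ 2))) (nz s0) := by
      refine ENNReal.continuous_ofReal.comp_continuousOn ?_
      have h3 : ContinuousOn (fun x => ‖fmap s0 s x - a‖ ^ 2) (nz s0) :=
        ((cont_fmap h0 h1).sub continuousOn_const).norm.pow 2
      refine ContinuousOn.div continuousOn_const ((continuousOn_const.add h3).pow _) fun x _ => ?_
      positivity
    classical
    have h5 := hcn.measurable_piecewise (g := fun _ : M => (0 : ℝ≥0∞)) continuousOn_const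
      hWo.measurableSet
    rw [hF, ← Set.piecewise_eq_indicator]
    exact h5
  rw [e2, area_vm v hWo (holW_fmap h0 h1) (F := F)
    (Φ := fun x => ENNReal.ofReal (dtM v (cur h') x)) hFm
    (ENNReal.continuous_ofReal.comp hc).measurable ?_]
  · refine lintegral_congr fun w => ?_
    rw [eq_comm]
    refine fsum_const_mul _ fun x hx hw => ?_
    rw [hF, indicator_of_mem hx.1, ← hw, cc_rc]
  · intro i x hx hxn
    have h3 := det_cur_fs h0 h1 hz a hε hx hxn
    rw [hF, indicator_of_mem hxn, dtM_eq v hS hx, h3, Complex.ofReal_re,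
      ← ENNReal.ofReal_mul (v.pos i x hx).le, ← ENNReal.ofReal_mul (by positivity)]
    congr 1
    have := (v.pos i x hx).ne'
    field_simp

end int

end Crest.Agent.R281.Qr_770
end
end

-- ▼ part R281/Qr4_770
section

/-!
# Row 281, Q-RAT (helper770), part 4: concentration of the Fubini-Study kernel (Mathlib only)

`kq n ε t = ε² / (ε² + t)^(n+1)` on a real vector space of dimension `2n` with Haar measure `μ`,
`cq n μ = ∫ kq n 1 |w|²`. If `∫ kq n ε |w - a|² N(w) dw = V` for all `a` and `ε > 0` then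
`cq n μ * N = V` almost everywhere (`ae_const`).
-/

set_option autoImplicit false
set_option linter.unusedSectionVars false

open Set Filter Topology MeasureTheory Module
open scoped ENNReal ContDiff

noncomputable section

namespace Crest.Agent.R281.Qr4_770

/-- `ε² / (ε² + t)^(n+1)` -/
def kq (n : ℕ) (ε t : ℝ) : ℝ := ε ^ 2 / (ε ^ 2 + t) ^ (n + 1)

theorem kq_nonneg (n : ℕ) (ε : ℝ) {t : ℝ} (ht : 0 ≤ t) : 0 ≤ kq n ε t := by
  unfold kq; positivity

theorem kq_pos (n : ℕ) {ε : ℝ} (hε : ε ≠ 0) {t : ℝ} (ht : 0 ≤ t) : 0 < kq n ε t := by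
  unfold kq; positivity

theorem kq_one (n : ℕ) (t : ℝ) : kq n 1 t = ((1 + t) ^ (n + 1))⁻¹ := by
  unfold kq
  rw [one_pow, one_div]

variable {E : Type*} [NormedAddCommGroup E] [NormedSpace ℝ E] [FiniteDimensional ℝ E]
  [MeasurableSpace E] [BorelSpace E] (μ : Measure E) [μ.IsAddHaarMeasure] {n : ℕ}

theorem cont_kq {ε : ℝ} (hε : ε ≠ 0) : Continuous fun w : E => kq n ε (‖w‖ ^ 2) := by
  unfold kq
  refine continuous_const.div (by fun_prop) fun w => ?_
  positivity

/-- the scaling relation -/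
theorem kq_scale {c : ℝ} (hc : 0 < c) (t : ℝ) (ht : 0 ≤ t) :
    c ^ (2 * n) * kq n 1 (c ^ 2 * t) = kq n c⁻¹ t := by
  unfold kq
  have h1 : (c⁻¹ ^ 2 + t) = c⁻¹ ^ 2 * (1 ^ 2 + c ^ 2 * t) := by
    field_simp
  rw [h1, mul_pow]
  have h2 : (c⁻¹ ^ 2) ^ (n + 1) = c⁻¹ ^ (2 * n) * c⁻¹ ^ 2 := by
    rw [← pow_mul]; ring
  rw [h2]
  field_simp
  rw [← mul_pow, mul_one_div_cancel hc.ne', one_pow]

theorem kq_scale' {c : ℝ} (hc : 0 < c) (w : E) :
    c ^ (2 * n) * kq n 1 (‖c • w‖ ^ 2) = kq n c⁻¹ (‖w‖ ^ 2) := by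
  rw [norm_smul, Real.norm_eq_abs, mul_pow, sq_abs, kq_scale hc _ (by positivity)]

theorem integrable_kq_one (hd : finrank ℝ E = 2 * n) :
    Integrable (fun w : E => kq n 1 (‖w‖ ^ 2)) μ := by
  have h1 := integrable_rpow_neg_one_add_norm_sq (E := E) (μ := μ) (r := 2 * n + 2) (by
    rw [hd]; push_cast; linarith)
  refine h1.congr (Eventually.of_forall fun w => ?_)
  simp only
  rw [kq_one]
  have h2 : (-(2 * (n : ℝ) + 2) / 2) = -((n + 1 : ℕ) : ℝ) := by push_cast; ring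
  rw [h2, Real.rpow_neg (by positivity), Real.rpow_natCast]

theorem integrable_kq (hd : finrank ℝ E = 2 * n) {ε : ℝ} (hε : 0 < ε) :
    Integrable (fun w : E => kq n ε (‖w‖ ^ 2)) μ := by
  have h1 := ((integrable_comp_smul_iff μ (fun w : E => kq n 1 (‖w‖ ^ 2))
    (R := ε⁻¹) (by positivity)).2 (integrable_kq_one μ hd)).const_mul (ε⁻¹ ^ (2 * n))
  refine h1.congr (Eventually.of_forall fun w => ?_)
  simp only
  rw [kq_scale' (by positivity), inv_inv]

/-- the total mass of the kernel -/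
def cq (n : ℕ) (μ : Measure E) : ℝ := ∫ w, kq n 1 (‖w‖ ^ 2) ∂μ

theorem cq_pos (hd : finrank ℝ E = 2 * n) : 0 < cq n μ := by
  unfold cq
  rw [integral_pos_iff_support_of_nonneg (fun w => kq_nonneg n 1 (by positivity))
    (integrable_kq_one μ hd)]
  have : Function.support (fun w : E => kq n 1 (‖w‖ ^ 2)) = univ := by
    refine eq_univ_of_forall fun w => ?_
    exact (kq_pos n one_ne_zero (by positivity)).ne'
  rw [this]
  exact isOpen_univ.measure_pos μ univ_nonempty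

theorem integral_kq (hd : finrank ℝ E = 2 * n) {ε : ℝ} (hε : 0 < ε) :
    ∫ w, kq n ε (‖w‖ ^ 2) ∂μ = cq n μ := by
  have h1 : ∀ w : E, kq n ε (‖w‖ ^ 2) = ε⁻¹ ^ (2 * n) * kq n 1 (‖ε⁻¹ • w‖ ^ 2) := by
    intro w
    rw [kq_scale' (by positivity), inv_inv]
  simp only [h1]
  rw [integral_const_mul, Measure.integral_comp_smul_of_nonneg μ (fun w => kq n 1 (‖w‖ ^ 2)) ε⁻¹
    (hR := by positivity), hd, smul_eq_mul, ← mul_assoc, mul_inv_cancel₀ (by positivity), one_mul]
  rfl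

theorem integral_kq_sub (hd : finrank ℝ E = 2 * n) {ε : ℝ} (hε : 0 < ε) (w : E) :
    ∫ a, kq n ε (‖w - a‖ ^ 2) ∂μ = cq n μ := by
  rw [← integral_kq μ hd hε]
  exact integral_sub_left_eq_self (fun x : E => kq n ε (‖x‖ ^ 2)) μ w

theorem integrable_kq_sub (hd : finrank ℝ E = 2 * n) {ε : ℝ} (hε : 0 < ε) (w : E) :
    Integrable (fun a => kq n ε (‖w - a‖ ^ 2)) μ :=
  (integrable_kq μ hd hε).comp_sub_left w


/-- the domination -/
theorem kq_dom {ε : ℝ} (hε : 0 < ε) (hε1 : ε ≤ 1) (w a : E) :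
    kq n 1 (‖a‖ ^ 2) * kq n ε (‖w - a‖ ^ 2) ≤
      kq n 1 (‖w‖ ^ 2) * (4 ^ (n + 1) * kq n ε (‖w - a‖ ^ 2) + 8 ^ (n + 1) * kq n 1 (‖a‖ ^ 2)) := by
  have p1 : 0 ≤ kq n 1 (‖a‖ ^ 2) := kq_nonneg n 1 (by positivity)
  have p2 : 0 ≤ kq n ε (‖w - a‖ ^ 2) := kq_nonneg n ε (by positivity)
  have p3 : 0 ≤ kq n 1 (‖w‖ ^ 2) := kq_nonneg n 1 (by positivity)
  -- comparison of `kq n 1`
  have key : ∀ K t s : ℝ, 0 < K → 0 ≤ t → 0 ≤ s → 1 + s ≤ K * (1 + t) →
      kq n 1 t ≤ kq n 1 s * K ^ (n + 1) := by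
    intro K t s hK ht hs h
    rw [kq_one, kq_one, inv_mul_eq_div, le_div_iff₀ (by positivity), inv_mul_le_iff₀ (by positivity),
      ← mul_pow]
    refine pow_le_pow_left₀ (by positivity) ?_ _
    linarith
  by_cases h : (1 + ‖w‖ ^ 2) ≤ 4 * (1 + ‖a‖ ^ 2)
  · have h1 := key 4 (‖a‖ ^ 2) (‖w‖ ^ 2) (by norm_num) (by positivity) (by positivity) h
    calc kq n 1 (‖a‖ ^ 2) * kq n ε (‖w - a‖ ^ 2) ≤
        kq n 1 (‖w‖ ^ 2) * 4 ^ (n + 1) * kq n ε (‖w - a‖ ^ 2) :=
          mul_le_mul_of_nonneg_right h1 p2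
      _ ≤ _ := by
        have : 0 ≤ kq n 1 (‖w‖ ^ 2) * (8 ^ (n + 1) * kq n 1 (‖a‖ ^ 2)) := by positivity
        linarith
  · push Not at h
    have hw : 3 < ‖w‖ ^ 2 := by nlinarith [sq_nonneg ‖a‖]
    have haw : ‖a‖ ≤ ‖w‖ / 2 := by
      by_contra hcon
      push Not at hcon
      nlinarith [norm_nonneg w, norm_nonneg a]
    have h2 : ‖w‖ / 2 ≤ ‖w - a‖ := by
      have := norm_sub_norm_le w a
      linarith
    have h3 : ‖w‖ ^ 2 / 4 ≤ ‖w - a‖ ^ 2 := by nlinarith [norm_nonneg w, norm_nonneg (w - a)]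
    have h4 : kq n ε (‖w - a‖ ^ 2) ≤ kq n 1 (‖w‖ ^ 2) * 8 ^ (n + 1) := by
      rw [kq_one, inv_mul_eq_div]
      unfold kq
      rw [div_le_div_iff₀ (by positivity) (by positivity), ← mul_pow]
      have h5 : ε ^ 2 ≤ 1 := by nlinarith
      have h6 : (1 + ‖w‖ ^ 2) ^ (n + 1) ≤ (8 * (ε ^ 2 + ‖w - a‖ ^ 2)) ^ (n + 1) := by
        refine pow_le_pow_left₀ (by positivity) ?_ _
        nlinarith [sq_nonneg ε]
      calc ε ^ 2 * (1 + ‖w‖ ^ 2) ^ (n + 1) ≤ 1 * (1 + ‖w‖ ^ 2) ^ (n + 1) :=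
            mul_le_mul_of_nonneg_right h5 (by positivity)
        _ ≤ _ := by rw [one_mul]; exact h6
    calc kq n 1 (‖a‖ ^ 2) * kq n ε (‖w - a‖ ^ 2) ≤
        kq n 1 (‖a‖ ^ 2) * (kq n 1 (‖w‖ ^ 2) * 8 ^ (n + 1)) :=
          mul_le_mul_of_nonneg_left h4 p1
      _ ≤ _ := by
        have : 0 ≤ kq n 1 (‖w‖ ^ 2) * (4 ^ (n + 1) * kq n ε (‖w - a‖ ^ 2)) := by positivity
        linarith

/-- the smoothed function -/
def sm (n : ℕ) (μ : Measure E) (g : E → ℝ) (ε : ℝ) (w : E) : ℝ :=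
  ∫ a, kq n ε (‖w - a‖ ^ 2) * g a ∂μ

theorem cont_bdd {g : E → ℝ} (hg : Continuous g) (hgs : HasCompactSupport g) :
    ∃ K, 0 ≤ K ∧ ∀ a, |g a| ≤ K * kq n 1 (‖a‖ ^ 2) := by
  have hc : Continuous fun a : E => g a * (1 + ‖a‖ ^ 2) ^ (n + 1) := by fun_prop
  have hs : HasCompactSupport fun a : E => g a * (1 + ‖a‖ ^ 2) ^ (n + 1) := hgs.mul_right
  obtain ⟨K, hK⟩ := hc.bounded_above_of_compact_support hs
  refine ⟨K, (norm_nonneg _).trans (hK 0), fun a => ?_⟩
  have h1 := hK a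
  rw [norm_mul, Real.norm_eq_abs, Real.norm_eq_abs,
    abs_of_nonneg (show (0 : ℝ) ≤ (1 + ‖a‖ ^ 2) ^ (n + 1) by positivity)] at h1
  rw [kq_one, ← div_eq_mul_inv, le_div_iff₀ (by positivity)]
  exact h1

theorem sm_bound (hd : finrank ℝ E = 2 * n) {g : E → ℝ} {K : ℝ} (hK0 : 0 ≤ K)
    (hK : ∀ a, |g a| ≤ K * kq n 1 (‖a‖ ^ 2)) {ε : ℝ} (hε : 0 < ε) (hε1 : ε ≤ 1) (w : E) :
    |sm n μ g ε w| ≤ K * (4 ^ (n + 1) + 8 ^ (n + 1)) * cq n μ * kq n 1 (‖w‖ ^ 2) := by
  have h1 : ∀ a, ‖kq n ε (‖w - a‖ ^ 2) * g a‖ ≤ K * (kq n 1 (‖w‖ ^ 2) *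
      (4 ^ (n + 1) * kq n ε (‖w - a‖ ^ 2) + 8 ^ (n + 1) * kq n 1 (‖a‖ ^ 2))) := by
    intro a
    have p2 : 0 ≤ kq n ε (‖w - a‖ ^ 2) := kq_nonneg n ε (by positivity)
    rw [norm_mul, Real.norm_eq_abs, Real.norm_eq_abs, abs_of_nonneg p2]
    calc kq n ε (‖w - a‖ ^ 2) * |g a| ≤ kq n ε (‖w - a‖ ^ 2) * (K * kq n 1 (‖a‖ ^ 2)) :=
          mul_le_mul_of_nonneg_left (hK a) p2
      _ = K * (kq n 1 (‖a‖ ^ 2) * kq n ε (‖w - a‖ ^ 2)) := by ring
      _ ≤ _ := mul_le_mul_of_nonneg_left (kq_dom hε hε1 w a) hK0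
  have i1 := integrable_kq_sub μ hd hε w
  have i2 := integrable_kq_one (n := n) μ hd
  have i3 : Integrable (fun a => K * (kq n 1 (‖w‖ ^ 2) *
      (4 ^ (n + 1) * kq n ε (‖w - a‖ ^ 2) + 8 ^ (n + 1) * kq n 1 (‖a‖ ^ 2)))) μ :=
    (((i1.const_mul (4 ^ (n + 1))).add (i2.const_mul (8 ^ (n + 1)))).const_mul
      (kq n 1 (‖w‖ ^ 2))).const_mul K
  have h2 := norm_integral_le_of_norm_le i3 (Eventually.of_forall h1)
  unfold sm
  rw [← Real.norm_eq_abs]
  refine h2.trans (le_of_eq ?_)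
  have e1 : ∫ a, K * (kq n 1 (‖w‖ ^ 2) *
      (4 ^ (n + 1) * kq n ε (‖w - a‖ ^ 2) + 8 ^ (n + 1) * kq n 1 (‖a‖ ^ 2))) ∂μ =
      K * (kq n 1 (‖w‖ ^ 2) * (4 ^ (n + 1) * cq n μ + 8 ^ (n + 1) * cq n μ)) := by
    rw [integral_const_mul, integral_const_mul, integral_add (i1.const_mul _) (i2.const_mul _),
      integral_const_mul, integral_const_mul, integral_kq_sub μ hd hε w]
    rfl
  rw [e1]
  ring

theorem sm_tendsto (hd : finrank ℝ E = 2 * n) {g : E → ℝ} (hg : Continuous g)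
    (hgs : HasCompactSupport g) (w : E) :
    Tendsto (fun c : ℝ => sm n μ g c⁻¹ w) atTop (𝓝 (cq n μ * g w)) := by
  have hc := cq_pos (n := n) μ hd
  set φ : E → ℝ := fun x => (cq n μ)⁻¹ * kq n 1 (‖x‖ ^ 2) with hφ
  have h1 : ∀ x, 0 ≤ φ x := fun x => mul_nonneg (by positivity) (kq_nonneg n 1 (by positivity))
  have h2 : ∫ x, φ x ∂μ = 1 := by
    rw [hφ, integral_const_mul]
    exact inv_mul_cancel₀ hc.ne'
  have h3 : Tendsto (fun x : E => ‖x‖ ^ finrank ℝ E * φ x) (Bornology.cobounded E) (𝓝 0) := by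
    have e1 : Tendsto (fun x : E => (cq n μ)⁻¹ * (1 + ‖x‖ ^ 2)⁻¹) (Bornology.cobounded E) (𝓝 0) := by
      have e2 : Tendsto (fun x : E => (1 + ‖x‖ ^ 2)) (Bornology.cobounded E) atTop :=
        tendsto_atTop_add_const_left _ _
          ((tendsto_pow_atTop two_ne_zero).comp tendsto_norm_cobounded_atTop)
      simpa using (tendsto_inv_atTop_zero.comp e2).const_mul (cq n μ)⁻¹
    refine squeeze_zero (fun x => mul_nonneg (by positivity) (h1 x)) (fun x => ?_) e1
    rw [hφ, hd]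
    simp only
    rw [kq_one]
    have e3 : ‖x‖ ^ (2 * n) ≤ (1 + ‖x‖ ^ 2) ^ n := by
      rw [pow_mul]
      exact pow_le_pow_left₀ (by positivity) (by linarith) _
    calc ‖x‖ ^ (2 * n) * ((cq n μ)⁻¹ * ((1 + ‖x‖ ^ 2) ^ (n + 1))⁻¹) =
        (cq n μ)⁻¹ * (‖x‖ ^ (2 * n) * ((1 + ‖x‖ ^ 2) ^ (n + 1))⁻¹) := by ring
      _ ≤ (cq n μ)⁻¹ * ((1 + ‖x‖ ^ 2) ^ n * ((1 + ‖x‖ ^ 2) ^ (n + 1))⁻¹) := by
        gcongr
      _ = _ := by
        rw [pow_succ]
        field_simp
        ring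
  have h4 := tendsto_integral_comp_smul_smul_of_integrable' (μ := μ) h1 h2 h3
    (hg.integrable_of_hasCompactSupport hgs) (x₀ := w) hg.continuousAt
  have h5 := h4.const_mul (cq n μ)
  refine h5.congr' ?_
  filter_upwards [eventually_gt_atTop 0] with c hcpos
  unfold sm
  rw [← integral_const_mul]
  refine integral_congr_ae (Eventually.of_forall fun a => ?_)
  simp only [smul_eq_mul, hφ, hd]
  rw [← kq_scale' hcpos]
  field_simp

section main

variable {N : E → ℝ≥0∞} {V : ℝ}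

theorem ae_fin (hN : Measurable N)
    (h : ∀ (a : E) (ε : ℝ), 0 < ε →
      ∫⁻ w, ENNReal.ofReal (kq n ε (‖w - a‖ ^ 2)) * N w ∂μ = ENNReal.ofReal V) :
    ∀ᵐ w ∂μ, N w ≠ ⊤ := by
  have h1 := h 0 1 one_pos
  have hm : Measurable fun w : E => ENNReal.ofReal (kq n 1 (‖w - 0‖ ^ 2)) * N w := by
    refine Measurable.mul ?_ hN
    refine ENNReal.measurable_ofReal.comp ?_
    simp only [sub_zero]
    exact (cont_kq one_ne_zero).measurable
  have h2 := ae_lt_top hm (by rw [h1]; exact ENNReal.ofReal_ne_top)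
  filter_upwards [h2] with w hw hN0
  rw [hN0, ENNReal.mul_top] at hw
  · exact lt_irrefl _ hw
  · exact (ENNReal.ofReal_pos.2 (kq_pos n one_ne_zero (by positivity))).ne'

theorem int_N (hN : Measurable N) (hV : 0 ≤ V)
    (h : ∀ (a : E) (ε : ℝ), 0 < ε →
      ∫⁻ w, ENNReal.ofReal (kq n ε (‖w - a‖ ^ 2)) * N w ∂μ = ENNReal.ofReal V)
    (a : E) {ε : ℝ} (hε : 0 < ε) :
    Integrable (fun w => kq n ε (‖w - a‖ ^ 2) * (N w).toReal) μ ∧
      ∫ w, kq n ε (‖w - a‖ ^ 2) * (N w).toReal ∂μ = V := by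
  have h1 := h a ε hε
  have hm : Measurable fun w : E => ENNReal.ofReal (kq n ε (‖w - a‖ ^ 2)) * N w := by
    refine Measurable.mul ?_ hN
    refine ENNReal.measurable_ofReal.comp ?_
    exact ((cont_kq hε.ne').comp (continuous_id.sub continuous_const)).measurable
  have hne : ∫⁻ w, ENNReal.ofReal (kq n ε (‖w - a‖ ^ 2)) * N w ∂μ ≠ ⊤ := by
    rw [h1]; exact ENNReal.ofReal_ne_top
  have he : ∀ w : E, (ENNReal.ofReal (kq n ε (‖w - a‖ ^ 2)) * N w).toReal =
      kq n ε (‖w - a‖ ^ 2) * (N w).toReal := by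
    intro w
    rw [ENNReal.toReal_mul, ENNReal.toReal_ofReal (kq_nonneg n ε (by positivity))]
  refine ⟨?_, ?_⟩
  · have := integrable_toReal_of_lintegral_ne_top hm.aemeasurable hne
    exact this.congr (Eventually.of_forall he)
  · have h2 := integral_toReal hm.aemeasurable (ae_lt_top hm hne)
    rw [h1, ENNReal.toReal_ofReal hV] at h2
    rw [← h2]
    exact integral_congr_ae (Eventually.of_forall fun w => (he w).symm)

theorem fubini (hd : finrank ℝ E = 2 * n) (hN : Measurable N) (hV : 0 ≤ V)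
    (h : ∀ (a : E) (ε : ℝ), 0 < ε →
      ∫⁻ w, ENNReal.ofReal (kq n ε (‖w - a‖ ^ 2)) * N w ∂μ = ENNReal.ofReal V)
    {g : E → ℝ} (hg : Continuous g) (hgs : HasCompactSupport g) {ε : ℝ} (hε : 0 < ε) :
    AEStronglyMeasurable (fun w => (N w).toReal * sm n μ g ε w) μ ∧
      ∫ w, (N w).toReal * sm n μ g ε w ∂μ = V * ∫ a, g a ∂μ := by
  have hgi : Integrable g μ := hg.integrable_of_hasCompactSupport hgs
  set f : E → E → ℝ := fun w a => (N w).toReal * (kq n ε (‖w - a‖ ^ 2) * g a) with hf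
  have hcm : Continuous fun p : E × E => kq n ε (‖p.1 - p.2‖ ^ 2) :=
    (cont_kq hε.ne').comp (continuous_fst.sub continuous_snd)
  have hm : Measurable (Function.uncurry f) := by
    have h1 : Measurable fun p : E × E => (N p.1).toReal := hN.ennreal_toReal.comp measurable_fst
    exact h1.mul (hcm.measurable.mul (hg.measurable.comp measurable_snd))
  have hint : Integrable (Function.uncurry f) (μ.prod μ) := by
    rw [integrable_prod_iff' hm.aestronglyMeasurable]
    have e1 : ∀ a w, f w a = g a * (kq n ε (‖w - a‖ ^ 2) * (N w).toReal) := by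
      intro a w; rw [hf]; ring
    refine ⟨Eventually.of_forall fun a => ?_, ?_⟩
    · refine ((int_N μ hN hV h a hε).1.const_mul (g a)).congr (Eventually.of_forall fun w => ?_)
      exact (e1 a w).symm
    · have e2 : ∀ a, ∫ w, ‖Function.uncurry f (w, a)‖ ∂μ = |g a| * V := by
        intro a
        have e3 : ∀ w, ‖Function.uncurry f (w, a)‖ =
            |g a| * (kq n ε (‖w - a‖ ^ 2) * (N w).toReal) := by
          intro w
          have : Function.uncurry f (w, a) = f w a := rfl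
          rw [this, e1, norm_mul, Real.norm_eq_abs, Real.norm_eq_abs,
            abs_of_nonneg (mul_nonneg (kq_nonneg n ε (by positivity)) ENNReal.toReal_nonneg)]
        simp only [e3]
        rw [integral_const_mul, (int_N μ hN hV h a hε).2]
      simp only [e2]
      exact hgi.abs.mul_const V
  have hin : ∀ w, ∫ a, f w a ∂μ = (N w).toReal * sm n μ g ε w := by
    intro w
    rw [hf]
    simp only
    rw [integral_const_mul]
    rfl
  refine ⟨?_, ?_⟩
  · have := hint.integral_prod_left.aestronglyMeasurable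
    exact this.congr (Eventually.of_forall hin)
  · have h3 := integral_integral_swap hint
    simp only [hin] at h3
    rw [h3]
    have h4 : ∀ a, ∫ w, f w a ∂μ = V * g a := by
      intro a
      have e1 : ∀ w, f w a = g a * (kq n ε (‖w - a‖ ^ 2) * (N w).toReal) := by
        intro w; rw [hf]; ring
      simp only [e1]
      rw [integral_const_mul, (int_N μ hN hV h a hε).2, mul_comm]
    simp only [h4]
    rw [integral_const_mul]

/-- **the concentration theorem** -/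
theorem ae_const (hd : finrank ℝ E = 2 * n) (hN : Measurable N) (hV : 0 ≤ V)
    (h : ∀ (a : E) (ε : ℝ), 0 < ε →
      ∫⁻ w, ENNReal.ofReal (kq n ε (‖w - a‖ ^ 2)) * N w ∂μ = ENNReal.ofReal V) :
    ∀ᵐ w ∂μ, N w ≠ ⊤ ∧ cq n μ * (N w).toReal = V := by
  have hI1 := (int_N μ hN hV h 0 one_pos).1
  simp only [sub_zero] at hI1
  have hNm : Measurable fun w => (N w).toReal := hN.ennreal_toReal
  -- local integrability
  have hloc : LocallyIntegrable (fun w => (N w).toReal) μ := by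
    rw [locallyIntegrable_iff]
    intro K hK
    have h1 : IntegrableOn (fun w => (kq n 1 (‖w‖ ^ 2))⁻¹ * (kq n 1 (‖w‖ ^ 2) * (N w).toReal)) K μ :=
      IntegrableOn.continuousOn_mul (hg := ((cont_kq one_ne_zero).inv₀ fun w =>
        (kq_pos n one_ne_zero (by positivity)).ne').continuousOn) hI1.integrableOn hK
    refine h1.congr_fun_ae (Eventually.of_forall fun w => ?_)
    simp only
    rw [← mul_assoc, inv_mul_cancel₀ (kq_pos n one_ne_zero (by positivity)).ne', one_mul]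
  have hloc2 : LocallyIntegrable (fun w => cq n μ * (N w).toReal - V) μ :=
    (hloc.smul (cq n μ)).sub (locallyIntegrable_const V)
  have hz : ∀ᵐ w ∂μ, cq n μ * (N w).toReal - V = 0 := by
    refine ae_eq_zero_of_integral_contDiff_smul_eq_zero hloc2 fun g hgd hgs => ?_
    have hg := hgd.continuous
    have hgi : Integrable g μ := hg.integrable_of_hasCompactSupport hgs
    obtain ⟨K, hK0, hK⟩ := cont_bdd (n := n) hg hgs
    have hlim : Tendsto (fun c : ℝ => ∫ w, (N w).toReal * sm n μ g c⁻¹ w ∂μ) atTop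
        (𝓝 (∫ w, (N w).toReal * (cq n μ * g w) ∂μ)) := by
      refine tendsto_integral_filter_of_dominated_convergence
        (fun w => (K * (4 ^ (n + 1) + 8 ^ (n + 1)) * cq n μ) * (kq n 1 (‖w‖ ^ 2) * (N w).toReal))
        ?_ ?_ (hI1.const_mul _) ?_
      · filter_upwards [eventually_gt_atTop 0] with c hc
        exact (fubini μ hd hN hV h hg hgs (inv_pos.2 hc)).1
      · filter_upwards [eventually_ge_atTop 1] with c hc
        have hc0 : 0 < c := lt_of_lt_of_le one_pos hc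
        refine Eventually.of_forall fun w => ?_
        rw [norm_mul, Real.norm_eq_abs, Real.norm_eq_abs, abs_of_nonneg ENNReal.toReal_nonneg]
        calc (N w).toReal * |sm n μ g c⁻¹ w| ≤ (N w).toReal *
              (K * (4 ^ (n + 1) + 8 ^ (n + 1)) * cq n μ * kq n 1 (‖w‖ ^ 2)) :=
              mul_le_mul_of_nonneg_left (sm_bound μ hd hK0 hK (inv_pos.2 hc0)
                (inv_le_one_of_one_le₀ hc) w) ENNReal.toReal_nonneg
          _ = _ := by ring
      · exact Eventually.of_forall fun w => (sm_tendsto μ hd hg hgs w).const_mul _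
    have hcon : Tendsto (fun c : ℝ => ∫ w, (N w).toReal * sm n μ g c⁻¹ w ∂μ) atTop
        (𝓝 (V * ∫ a, g a ∂μ)) := by
      refine tendsto_const_nhds.congr' ?_
      filter_upwards [eventually_gt_atTop 0] with c hc
      exact (fubini μ hd hN hV h hg hgs (inv_pos.2 hc)).2.symm
    have heq := tendsto_nhds_unique hlim hcon
    have hi2 : Integrable (fun w => (N w).toReal * (cq n μ * g w)) μ := by
      refine (hI1.const_mul (cq n μ * K)).mono' ?_ ?_
      · exact (hNm.mul (hg.measurable.const_mul _)).aestronglyMeasurable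
      · refine Eventually.of_forall fun w => ?_
        rw [norm_mul, norm_mul, Real.norm_eq_abs, Real.norm_eq_abs, Real.norm_eq_abs,
          abs_of_nonneg ENNReal.toReal_nonneg, abs_of_pos (cq_pos μ hd)]
        calc (N w).toReal * (cq n μ * |g w|) ≤
              (N w).toReal * (cq n μ * (K * kq n 1 (‖w‖ ^ 2))) :=
              mul_le_mul_of_nonneg_left (mul_le_mul_of_nonneg_left (hK w) (cq_pos μ hd).le)
                ENNReal.toReal_nonneg
          _ = _ := by ring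
    have e1 : ∀ w, g w • (cq n μ * (N w).toReal - V) =
        (N w).toReal * (cq n μ * g w) - V * g w := by
      intro w
      rw [smul_eq_mul]; ring
    simp only [e1]
    rw [integral_sub hi2 (hgi.const_mul V), heq, integral_const_mul, sub_self]
  filter_upwards [hz, ae_fin μ hN h] with w h1 h2
  exact ⟨h2, by linarith⟩

end main

end Crest.Agent.R281.Qr4_770
end
end

-- ▼ part R281/Qr5_770

/-!
# Row 281, Q-RAT (helper770), part 5: the degree of a base point free line bundle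

* `Bpf L`      : `L` has finitely many sections without common zero
* `Bpf.exact`  : then it has `n + 1` such sections (dimension count)
* `cn n`       : `∫_{ℂⁿ} (1 + |w|²)^(-(n+1))`
* `degree`     : `Bpf L → ∃ d : ℕ, ∀ P h, totc P (det (cur h)) = cn n * d`
* `degree_pow` : `Bpf (L ^ K) → ∃ d : ℕ, ∀ P (h : HM L), K ^ n * totc P (det (cur h)) = cn n * d`
-/

set_option autoImplicit false
set_option linter.unusedSectionVars false

open Set Filter Topology Complex MeasureTheory Module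
open scoped ContDiff Matrix ComplexConjugate Manifold ENNReal ComplexOrder NNReal

noncomputable section

namespace Crest.Agent.R281.Qr_770

open Crest.Agent.R273 Crest.Agent.R275 Crest.Agent.R275.Geo Crest.Agent.R275.Core144
open Crest.Agent.R275.EDR890
open Crest.Agent.R273.Defs_333 Crest.Agent.R273.Hess_333 Crest.Agent.R273.HessB_333
open Crest.Agent.R273.Kah_333 Crest.Agent.R273.FS_333
open Crest.Agent.R273.Vm_333
open Crest.Agent.R275.Pai323 Crest.Agent.R275.C1d194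
open Crest.Agent.R281.Qr4_770

variable {n : ℕ}

/-! ### dimension count -/

section dim

variable {M : Type} [TopologicalSpace M] {A : Atl n M} {L L' : LB A}

/-- finitely many sections without common zero -/
def Bpf (L : LB A) : Prop :=
  ∃ (N : ℕ) (t : Fin N → A.ι → M → ℂ), (∀ k, IsHS L univ (t k)) ∧
    ∀ i, ∀ x ∈ (A.e i).source, ∃ k, t k i x ≠ 0

/-- the cone over the image -/
def coneS {N : ℕ} (t : Fin N → A.ι → M → ℂ) : Set (Fin N → ℂ) :=
  {u | ∃ i, ∃ x ∈ (A.e i).source, ∃ c : ℂ, u = c • fun k => t k i x}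

theorem finrank_Cn : finrank ℝ (Cn n) = 2 * n := by
  have h1 := LinearEquiv.finrank_eq (rcE n)
  rw [h1, Module.finrank_fintype_fun_eq_card]
  simp [mul_comm]

theorem dimH_cone [Finite A.ι] {N : ℕ} {t : Fin N → A.ι → M → ℂ} (ht : ∀ k, IsHS L univ (t k)) :
    dimH (coneS t) ≤ ((2 * n + 2 : ℕ) : ℝ≥0∞) := by
  set Ψ : A.ι → ℂ × Cn n → (Fin N → ℂ) := fun i p => p.1 • fun k => t k i ((A.e i).symm p.2) with hΨ
  have h1 : coneS t = ⋃ i, Ψ i '' (univ ×ˢ (A.e i).target) := by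
    ext u
    simp only [coneS, mem_ofPred_eq, mem_iUnion, mem_image]
    constructor
    · rintro ⟨i, x, hx, c, rfl⟩
      refine ⟨i, (c, A.e i x), ⟨mem_univ _, (A.e i).map_source hx⟩, ?_⟩
      simp only [hΨ, (A.e i).left_inv hx]
    · rintro ⟨i, ⟨c, z⟩, hz, rfl⟩
      exact ⟨i, (A.e i).symm z, (A.e i).map_target hz.2, c, rfl⟩
  rw [h1, dimH_iUnion]
  refine iSup_le fun i => ?_
  have h2 : dimH (Ψ i '' (univ ×ˢ (A.e i).target)) ≤ dimH ((univ : Set ℂ) ×ˢ (A.e i).target) := by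
    refine dimH_image_le_of_locally_lipschitzOn fun p hp => ?_
    have h3 : ∀ k, ContDiffAt ℝ 1 (fun z => t k i ((A.e i).symm z)) p.2 := by
      intro k
      have h4 := ((ht k).hol i).contDiffOn isOpen_univ
      simp only [preimage_univ, inter_univ] at h4
      exact (h4.contDiffAt ((A.e i).open_target.mem_nhds hp.2)).of_le (by exact_mod_cast le_top)
    have h5 : ContDiffAt ℝ 1 (Ψ i) p := by
      rw [contDiffAt_pi]
      intro k
      exact contDiffAt_fst.mul ((h3 k).comp p contDiffAt_snd)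
    obtain ⟨C, U, hU, hL⟩ := h5.exists_lipschitzOnWith
    exact ⟨C, U, mem_nhdsWithin_of_mem_nhds hU, hL⟩
  refine h2.trans ((dimH_mono (subset_univ _)).trans ?_)
  rw [Real.dimH_univ_eq_finrank]
  have h6 : finrank ℝ (ℂ × Cn n) = 2 * n + 2 := by
    rw [Module.finrank_prod, finrank_Cn, Complex.finrank_real_complex, add_comm]
  rw [h6]

theorem exists_notMem_cone [Finite A.ι] {N : ℕ} {t : Fin N → A.ι → M → ℂ}
    (ht : ∀ k, IsHS L univ (t k)) (hN : n + 1 < N) : ∃ v, v ∉ coneS t := by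
  by_contra hcon
  push Not at hcon
  have h1 : coneS t = univ := eq_univ_of_forall hcon
  have h2 := dimH_cone ht
  rw [h1, Real.dimH_univ_eq_finrank] at h2
  have h3 : finrank ℝ (Fin N → ℂ) = 2 * N := by
    rw [Module.finrank_pi_fintype]
    simp [Complex.finrank_real_complex, mul_comm]
  rw [h3] at h2
  have h4 : 2 * N ≤ 2 * n + 2 := by exact_mod_cast h2
  omega

/-- projection from a point off the cone -/
theorem exists_proj {N : ℕ} (v : Fin (N + 1) → ℂ) (hv : v ≠ 0) :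
    ∃ T : (Fin (N + 1) → ℂ) →ₗ[ℂ] (Fin N → ℂ), ∀ u, T u = 0 → ∃ c : ℂ, u = c • v := by
  set p : Submodule ℂ (Fin (N + 1) → ℂ) := Submodule.span ℂ {v} with hp
  have h1 : finrank ℂ ((Fin (N + 1) → ℂ) ⧸ p) = finrank ℂ (Fin N → ℂ) := by
    have h2 := p.finrank_quotient_add_finrank
    have h3 : finrank ℂ p = 1 := finrank_span_singleton hv
    rw [h3, Module.finrank_fintype_fun_eq_card, Fintype.card_fin] at h2
    rw [Module.finrank_fintype_fun_eq_card, Fintype.card_fin]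
    omega
  set e := LinearEquiv.ofFinrankEq _ _ h1
  refine ⟨e.toLinearMap ∘ₗ p.mkQ, fun u hu => ?_⟩
  have h2 : p.mkQ u = 0 := by
    have : e (p.mkQ u) = 0 := hu
    exact (LinearEquiv.map_eq_zero_iff e).1 this
  have h3 : u ∈ p := by
    rwa [Submodule.mkQ_apply, Submodule.Quotient.mk_eq_zero] at h2
  obtain ⟨c, hc⟩ := Submodule.mem_span_singleton.1 h3
  exact ⟨c, hc.symm⟩

theorem isHS_sum {σ : Type*} (S : Finset σ) {t : σ → A.ι → M → ℂ} (ht : ∀ k ∈ S, IsHS L univ (t k)) :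
    IsHS L univ (∑ k ∈ S, t k) := by
  have : (∑ k ∈ S, t k) ∈ HS L univ := Submodule.sum_mem _ fun k hk => ht k hk
  exact this

theorem reduce [Finite A.ι] {N : ℕ} {t : Fin (N + 1) → A.ι → M → ℂ}
    (ht : ∀ k, IsHS L univ (t k)) (h0 : ∀ i, ∀ x ∈ (A.e i).source, ∃ k, t k i x ≠ 0)
    (hN : n + 1 < N + 1) (hM : ∃ i, ∃ x, x ∈ (A.e i).source) :
    ∃ t' : Fin N → A.ι → M → ℂ, (∀ k, IsHS L univ (t' k)) ∧
      ∀ i, ∀ x ∈ (A.e i).source, ∃ k, t' k i x ≠ 0 := by
  obtain ⟨v, hv⟩ := exists_notMem_cone ht hN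
  have hv0 : v ≠ 0 := by
    rintro rfl
    obtain ⟨i, x, hx⟩ := hM
    exact hv ⟨i, x, hx, 0, by rw [zero_smul]⟩
  obtain ⟨T, hT⟩ := exists_proj v hv0
  refine ⟨fun k => ∑ l, (T (Pi.single l 1) k) • t l, fun k => isHS_sum _ fun l _ => (ht l).smul _,
    fun i x hx => ?_⟩
  have h1 : T (fun l => t l i x) = fun k => (∑ l, (T (Pi.single l 1) k) • t l) i x := by
    have e1 : (fun l => t l i x) = ∑ l, (t l i x) • (Pi.single l (1 : ℂ) : Fin (N + 1) → ℂ) := by
      funext m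
      simp [Finset.sum_apply, Pi.single_apply]
    funext k
    rw [e1, map_sum]
    simp only [map_smul, Finset.sum_apply, Pi.smul_apply, smul_eq_mul]
    exact Finset.sum_congr rfl fun l _ => mul_comm _ _
  by_contra hcon
  push Not at hcon
  have h2 : T (fun l => t l i x) = 0 := by
    rw [h1]
    funext k
    exact hcon k
  obtain ⟨c, hc⟩ := hT _ h2
  obtain ⟨k, hk⟩ := h0 i x hx
  have hc0 : c ≠ 0 := by
    rintro rfl
    rw [zero_smul] at hc
    exact hk (congrFun hc k)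
  exact hv ⟨i, x, hx, c⁻¹, by rw [hc, smul_smul, inv_mul_cancel₀ hc0, one_smul]⟩

/-- `n + 1` sections without common zero -/
theorem Bpf.exact [Finite A.ι] (hM : ∃ i : A.ι, ∃ x, x ∈ (A.e i).source) (hb : Bpf L) :
    ∃ t : Fin (n + 1) → A.ι → M → ℂ, (∀ k, IsHS L univ (t k)) ∧
      ∀ i, ∀ x ∈ (A.e i).source, ∃ k, t k i x ≠ 0 := by
  obtain ⟨N, t, ht, h0⟩ := hb
  -- reduction
  have h1 : ∀ m, (∃ t : Fin (n + 1 + m) → A.ι → M → ℂ, (∀ k, IsHS L univ (t k)) ∧
      ∀ i, ∀ x ∈ (A.e i).source, ∃ k, t k i x ≠ 0) →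
      ∃ t : Fin (n + 1) → A.ι → M → ℂ, (∀ k, IsHS L univ (t k)) ∧
      ∀ i, ∀ x ∈ (A.e i).source, ∃ k, t k i x ≠ 0 := by
    intro m
    induction m with
    | zero => exact id
    | succ m ih =>
      rintro ⟨t, ht, h0⟩
      exact ih (reduce (N := n + 1 + m) ht h0 (by omega) hM)
  -- padding
  refine h1 N ⟨fun k => if h : (k : ℕ) < N then t ⟨k, h⟩ else 0, fun k => ?_, fun i x hx => ?_⟩
  · by_cases h : (k : ℕ) < N
    · simp only [h, dite_true]; exact ht _
    · simp only [h, dite_false]; exact IsHS.zero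
  · obtain ⟨k, hk⟩ := h0 i x hx
    refine ⟨⟨k, by omega⟩, ?_⟩
    simp only [k.2, dite_true]
    exact hk

theorem Bpf.proj (Q : ProjD A) : Bpf (lb Q) :=
  ⟨Q.N + 1, sec Q, isHS_sec Q, fun _ _ hx => exists_sec_ne Q hx⟩

theorem Bpf.of_fintype {σ : Type*} [Finite σ] {t : σ → A.ι → M → ℂ}
    (ht : ∀ k, IsHS L univ (t k)) (h0 : ∀ i, ∀ x ∈ (A.e i).source, ∃ k, t k i x ≠ 0) : Bpf L := by
  have := Fintype.ofFinite σ
  refine ⟨Fintype.card σ, fun k => t ((Fintype.equivFin σ).symm k), fun k => ht _,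
    fun i x hx => ?_⟩
  obtain ⟨k, hk⟩ := h0 i x hx
  exact ⟨Fintype.equivFin σ k, by simpa using hk⟩

theorem Bpf.one : Bpf (1 : LB A) :=
  Bpf.of_fintype (σ := Unit) (t := fun _ => oneS A) (fun _ => isHS_oneS univ) fun i x hx =>
    ⟨(), by simp [oneS, hx]⟩

theorem Bpf.mul (h : Bpf L) (h' : Bpf L') : Bpf (L * L') := by
  obtain ⟨N, t, ht, h0⟩ := h
  obtain ⟨N', t', ht', h0'⟩ := h'
  refine Bpf.of_fintype (σ := Fin N × Fin N') (t := fun k => t k.1 * t' k.2)
    (fun k => (ht k.1).mul (ht' k.2)) fun i x hx => ?_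
  obtain ⟨k, hk⟩ := h0 i x hx
  obtain ⟨k', hk'⟩ := h0' i x hx
  exact ⟨(k, k'), by simpa using mul_ne_zero hk hk'⟩

theorem Bpf.pow (h : Bpf L) (m : ℕ) : Bpf (L ^ m) := by
  induction m with
  | zero => rw [pow_zero]; exact Bpf.one
  | succ m ih => rw [pow_succ]; exact ih.mul h

end dim

/-! ### the degree -/

section deg

open Crest.Agent.R273.HM_333 Crest.Agent.R273.FIb0_597 Crest.Agent.R273.FId0_597
open Crest.Agent.R273.Green_5 Crest.Agent.R273.VolInv_5 Crest.Agent.R273.StV_37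

/-- `∫_{ℂⁿ} (1 + |w|²)^(-(n+1))` -/
def cn (n : ℕ) : ℝ := ∫ w : RI n → ℝ, kq n 1 (‖(cc w : Cn n)‖ ^ 2)

/-- Lebesgue measure on `Cn n` -/
def leb (n : ℕ) : Measure (Cn n) :=
  (volume : Measure (RI n → ℝ)).map (rcE n).symm.toContinuousLinearEquiv

instance : (leb n).IsAddHaarMeasure := ContinuousLinearEquiv.isAddHaarMeasure_map _ _

theorem cq_leb : cq n (leb n) = cn n := by
  unfold cq leb cn
  exact ((rcE n).symm.toContinuousLinearEquiv.toHomeomorph.measurableEmbedding.integral_map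
    (μ := (volume : Measure (RI n → ℝ))) (fun z : Cn n => kq n 1 (‖z‖ ^ 2)))

theorem lintegral_leb (f : Cn n → ℝ≥0∞) : ∫⁻ z, f z ∂(leb n) = ∫⁻ w : RI n → ℝ, f (cc w) :=
  (rcE n).symm.toContinuousLinearEquiv.toHomeomorph.measurableEmbedding.lintegral_map
    (μ := (volume : Measure (RI n → ℝ))) f

theorem cn_pos : 0 < cn n := by
  rw [← cq_leb]
  exact cq_pos (leb n) finrank_Cn

variable {M : Type} [TopologicalSpace M] {A : Atl n M} {L : LB A}
variable [T2Space M] [CompactSpace M] [Fintype A.ι]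

theorem totc_indep (P P' : Part A) {S : A.ι → M → Matrix (Fin n) (Fin n) ℂ} (hS : TF A S) :
    totc P (fun i x => (S i x).det) = totc P' (fun i x => (S i x).det) := by
  let _ : MeasurableSpace M := borel M
  have : BorelSpace M := ⟨rfl⟩
  obtain ⟨h⟩ := exists_hm P (KB A)⁻¹
  have hGc : Continuous (dtC h S) := sm_continuous (sm_dtC h hS)
  have hF : ∀ i, ∀ x ∈ (A.e i).source, (h.w i x : ℂ) * dtC h S x = (S i x).det := by
    intro i x hx
    have h6 : (h.w i x : ℂ) ≠ 0 := by exact_mod_cast (h.pos i x hx).ne'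
    rw [dtC_eq h hS hx]
    field_simp
  rw [← int_eq_totc P h hGc hF, ← int_eq_totc P' h hGc hF]

/-- **degree theorem** -/
theorem degree [ConnectedSpace M] (hb : Bpf L) :
    ∃ d : ℕ, ∀ (P : Part A) (h : HM L), totc P (fun i x => (cur h i x).det) = (cn n : ℂ) * d := by
  classical
  let _ : MeasurableSpace M := borel M
  have : BorelSpace M := ⟨rfl⟩
  by_cases hex : ∃ (_ : Part A) (_ : HM L), True
  swap
  · exact ⟨0, fun P h => absurd ⟨P, h, trivial⟩ hex⟩
  obtain ⟨P, h, -⟩ := hex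
  have hM : ∃ i : A.ι, ∃ x, x ∈ (A.e i).source := by
    obtain ⟨x⟩ := (inferInstance : Nonempty M)
    obtain ⟨i, hi⟩ := A.cover x
    exact ⟨i, x, hi⟩
  obtain ⟨t, ht, h0⟩ := hb.exact hM
  -- a nonzero section
  obtain ⟨i₀, x₀, hx₀⟩ := hM
  obtain ⟨k₀, hk₀⟩ := h0 i₀ x₀ hx₀
  set s0 := t k₀ with hs0
  set s : Fin n → A.ι → M → ℂ := fun j => t (k₀.succAbove j) with hs
  have hz : ∀ i, ∀ x ∈ (A.e i).source, s0 i x = 0 → ∃ j, s j i x ≠ 0 := by
    intro i x hx hx0
    obtain ⟨k, hk⟩ := h0 i x hx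
    have hkk : k ≠ k₀ := by
      rintro rfl
      exact hk hx0
    obtain ⟨j, hj⟩ := Fin.exists_succAbove_eq hkk
    exact ⟨j, by rw [hs]; simp only [hj]; exact hk⟩
  have hmain := fun (a : Cn n) (ε : ℝ) (hε : 0 < ε) => main_identity P h (ht k₀)
    (fun j => ht (k₀.succAbove j)) hz ⟨i₀, x₀, hx₀, hk₀⟩ a hε.ne'
  set V : ℝ := (totc P (fun i x => (cur h i x).det)).re with hV
  have hV0 : 0 ≤ V := (hmain 0 1 one_pos).1
  set N : Cn n → ℝ≥0∞ := fun z => Nn s0 s (rc z) with hN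
  have hNm : Measurable N := (meas_Nn (ht k₀) fun j => ht (k₀.succAbove j)).comp
    continuous_rc.measurable
  have hNi : ∀ (a : Cn n) (ε : ℝ), 0 < ε →
      ∫⁻ z, ENNReal.ofReal (kq n ε (‖z - a‖ ^ 2)) * N z ∂(leb n) = ENNReal.ofReal V := by
    intro a ε hε
    rw [lintegral_leb, ← (hmain a ε hε).2]
    refine lintegral_congr fun w => ?_
    simp only [hN, rc_cc]
    rfl
  have hae := ae_const (leb n) finrank_Cn hNm hV0 hNi
  obtain ⟨z, hz1, hz2⟩ := hae.exists
  obtain ⟨d, hd⟩ := fsum_one_nat hz1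
  refine ⟨d, fun P' h' => ?_⟩
  have hreal := totc_real P (tf_of_cf (cur_cf h)) fun i x hx => cur_herm h i hx
  have hNd : (N z).toReal = d := by
    have : N z = d := hd
    rw [this]; simp
  rw [totc_indep P' P (tf_of_cf (cur_cf h')), volinv_cur P h h', hreal]
  rw [hNd, cq_leb] at hz2
  rw [← hV, ← hz2]
  push_cast
  ring

/-- the integral is positive for a positively curved metric -/
theorem totc_pos [ConnectedSpace M] (P : Part A) {h : HM L} (hp : h.Pos) :
    0 < (totc P (fun i x => (cur h i x).det)).re := by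
  let _ : MeasurableSpace M := borel M
  have : BorelSpace M := ⟨rfl⟩
  obtain ⟨v⟩ := exists_hm P (KB A)⁻¹
  have := isFinite_vm v
  have := isOpenPos_vm v
  have hS : TF A (cur h) := tf_of_cf (cur_cf h)
  have hpos : ∀ x, 0 < dtM v (cur h) x := by
    intro x
    have hx := mem_ch A x
    have h1 := (cur_posDef hp _ hx).det_pos
    exact div_pos (Complex.lt_def.1 h1).1 (v.pos _ x hx)
  rw [← int_dtM P v hS, integral_pos_iff_support_of_nonneg (fun x => (hpos x).le)
    (Crest.Agent.R273.FIc0_597.integrable_cont v (cont_dtM v hS))]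
  have : Function.support (dtM v (cur h)) = univ := eq_univ_of_forall fun x => (hpos x).ne'
  rw [this]
  exact isOpen_univ.measure_pos _ univ_nonempty


end deg

end Crest.Agent.R281.Qr_770
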