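import Crest.Agent.R281.Poi_234
import Crest.Agent.R266.Osgood

-- ▼ part R281/Tub1_57
section

/-!
# R281 (S0424), TUBE-HOL (helper57), part 1: real analysis

* `exists_prim` : the pull back of a primitive by an isotropic graph is exact;
* `limit_exact` : if graphs `p k, q k → a` are isotropic and `(p k - q k)/t k → D`, then the 1-form
  `ω((0,D), ·)` on the graph of `a` is exact.
-/

set_option autoImplicit false
set_option linter.unusedSectionVars false

open Set Filter Topology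
open scoped ContDiff

namespace Crest.Agent.R281.Tub_57

open Poi_234

noncomputable section

variable {V : Type} [NormedAddCommGroup V] [NormedSpace ℝ V] [FiniteDimensional ℝ V]

/-- the pair `(id, A)` -/
def gr (A : V →L[ℝ] V) : V →L[ℝ] V × V := (ContinuousLinearMap.id ℝ V).prod A

@[simp] theorem gr_apply (A : V →L[ℝ] V) (v : V) : gr A v = (v, A v) := rfl

theorem continuous_gr : Continuous (gr : (V →L[ℝ] V) → V →L[ℝ] V × V) := by
  have h6 : (gr : (V →L[ℝ] V) → V →L[ℝ] V × V) = fun A => ContinuousLinearMap.inl ℝ V V +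
      (ContinuousLinearMap.compL ℝ V V (V × V)) (ContinuousLinearMap.inr ℝ V V) A := by
    funext A
    ext v <;> simp
  rw [h6]
  exact continuous_const.add (ContinuousLinearMap.continuous _)

/-- graphs isotropic for `om` -/
def Iso (om : V × V → (V × V) →L[ℝ] (V × V) →L[ℝ] ℝ) (a : V → V) : Prop :=
  ∀ θ v w, om (θ, a θ) (v, fderiv ℝ a θ v) (w, fderiv ℝ a θ w) = 0

/-- the contraction of `om` with the vertical field `D` on the graph of `a` -/
def ctr (om : V × V → (V × V) →L[ℝ] (V × V) →L[ℝ] ℝ) (a D : V → V) (θ : V) : V →L[ℝ] ℝ :=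
  (om (θ, a θ) (0, D θ)).comp (gr (fderiv ℝ a θ))

@[simp] theorem ctr_apply (om : V × V → (V × V) →L[ℝ] (V × V) →L[ℝ] ℝ) (a D : V → V) (θ w : V) :
    ctr om a D θ w = om (θ, a θ) (0, D θ) (w, fderiv ℝ a θ w) := rfl

theorem hasFDerivAt_gr {a : V → V} (ha : Differentiable ℝ a) (θ : V) :
    HasFDerivAt (fun θ => (θ, a θ)) (gr (fderiv ℝ a θ)) θ :=
  (hasFDerivAt_id θ).prodMk (ha θ).hasFDerivAt

/-- derivative of `θ ↦ λ (θ, a θ) (w, B θ w)` type fields -/
theorem hasFDerivAt_mu {O : Set (V × V)} (hO : IsOpen O) {la : V × V → (V × V) →L[ℝ] ℝ}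
    (hla : ContDiffOn ℝ ∞ la O) {a : V → V} (ha : ContDiff ℝ 2 a) (hg : ∀ θ, (θ, a θ) ∈ O) (θ : V) :
    ∃ L : V →L[ℝ] V →L[ℝ] ℝ, HasFDerivAt (fun θ => (la (θ, a θ)).comp (gr (fderiv ℝ a θ))) L θ ∧
      ∀ v w, L v w = fderiv ℝ la (θ, a θ) (v, fderiv ℝ a θ v) (w, fderiv ℝ a θ w) +
        la (θ, a θ) (0, fderiv ℝ (fderiv ℝ a) θ v w) := by
  have had : Differentiable ℝ a := ha.differentiable (by simp)
  have h1 : HasFDerivAt (fun θ => (θ, a θ)) (gr (fderiv ℝ a θ)) θ := hasFDerivAt_gr had θ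
  have h2 : HasFDerivAt la (fderiv ℝ la (θ, a θ)) (θ, a θ) :=
    ((hla.contDiffAt (hO.mem_nhds (hg θ))).differentiableAt (by simp)).hasFDerivAt
  have h3 : HasFDerivAt (fun θ => la (θ, a θ)) ((fderiv ℝ la (θ, a θ)).comp (gr (fderiv ℝ a θ))) θ :=
    HasFDerivAt.comp (g := la) θ h2 h1
  have hf1 : ContDiff ℝ 1 (fderiv ℝ a) := ha.fderiv_right (by norm_num)
  have h4 : HasFDerivAt (fderiv ℝ a) (fderiv ℝ (fderiv ℝ a) θ) θ :=
    (hf1.differentiable (by simp) θ).hasFDerivAt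
  have h5 : HasFDerivAt (fun θ => gr (fderiv ℝ a θ))
      (((ContinuousLinearMap.compL ℝ V V (V × V)) (ContinuousLinearMap.inr ℝ V V)).comp
        (fderiv ℝ (fderiv ℝ a) θ)) θ := by
    have h6 : (fun θ => gr (fderiv ℝ a θ)) = fun θ => ContinuousLinearMap.inl ℝ V V +
        (ContinuousLinearMap.compL ℝ V V (V × V)) (ContinuousLinearMap.inr ℝ V V) (fderiv ℝ a θ) := by
      funext θ
      ext v <;> simp
    rw [h6]
    exact (((ContinuousLinearMap.compL ℝ V V (V × V))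
      (ContinuousLinearMap.inr ℝ V V)).hasFDerivAt.comp θ h4).const_add _
  refine ⟨_, h3.clm_comp h5, fun v w => ?_⟩
  simp [add_comm]

/-- **the pull back of a primitive by an isotropic graph is exact** -/
theorem exists_prim {O : Set (V × V)} (hO : IsOpen O) {om : V × V → (V × V) →L[ℝ] (V × V) →L[ℝ] ℝ}
    {la : V × V → (V × V) →L[ℝ] ℝ}
    (hla : ContDiffOn ℝ ∞ la O)
    (hd : ∀ z ∈ O, ∀ v w, fderiv ℝ la z v w - fderiv ℝ la z w v = om z v w)
    {a : V → V} (ha : ContDiff ℝ 2 a) (hg : ∀ θ, (θ, a θ) ∈ O) (hi : Iso om a) :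
    ∃ u : V → ℝ, ∀ θ, HasFDerivAt u ((la (θ, a θ)).comp (gr (fderiv ℝ a θ))) θ := by
  have h := fun θ => hasFDerivAt_mu hO hla ha hg θ
  obtain ⟨f, hf⟩ := (convex_univ : Convex ℝ (univ : Set V)).exists_forall_hasFDerivAt_of_fderiv_symmetric
    (𝕜 := ℝ) isOpen_univ
    (show DifferentiableOn ℝ (fun θ => (la (θ, a θ)).comp (gr (fderiv ℝ a θ))) univ from fun θ _ => by
      obtain ⟨L, hL, _⟩ := h θ
      exact hL.differentiableAt.differentiableWithinAt)
    (fun θ _ v w => by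
      obtain ⟨L, hL, hL2⟩ := h θ
      rw [hL.fderiv, hL2, hL2]
      have h1 := hd _ (hg θ) (v, fderiv ℝ a θ v) (w, fderiv ℝ a θ w)
      rw [hi θ v w] at h1
      have h2 : fderiv ℝ (fderiv ℝ a) θ v w = fderiv ℝ (fderiv ℝ a) θ w v :=
        (ha.contDiffAt.isSymmSndFDerivAt (by simp)) v w
      rw [h2]
      linarith)
  exact ⟨f, fun θ => hf θ (mem_univ _)⟩

theorem tendsto_comp' {X Y Z ι : Type*} [NormedAddCommGroup X] [NormedSpace ℝ X]
    [NormedAddCommGroup Y] [NormedSpace ℝ Y] [NormedAddCommGroup Z] [NormedSpace ℝ Z]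
    {l : Filter ι} {A : ι → Y →L[ℝ] Z} {B : ι → X →L[ℝ] Y} {A0 : Y →L[ℝ] Z} {B0 : X →L[ℝ] Y}
    (hA : Tendsto A l (𝓝 A0)) (hB : Tendsto B l (𝓝 B0)) :
    Tendsto (fun n => (A n).comp (B n)) l (𝓝 (A0.comp B0)) := by
  have hcomp : Continuous fun z : (Y →L[ℝ] Z) × (X →L[ℝ] Y) => z.1.comp z.2 :=
    isBoundedBilinearMap_comp.continuous
  exact (hcomp.tendsto (A0, B0)).comp (hA.prodMk_nhds hB)

theorem tendsto_app' {X Y ι : Type*} [NormedAddCommGroup X] [NormedSpace ℝ X]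
    [NormedAddCommGroup Y] [NormedSpace ℝ Y]
    {l : Filter ι} {A : ι → X →L[ℝ] Y} {B : ι → X} {A0 : X →L[ℝ] Y} {B0 : X}
    (hA : Tendsto A l (𝓝 A0)) (hB : Tendsto B l (𝓝 B0)) :
    Tendsto (fun n => A n (B n)) l (𝓝 (A0 B0)) := by
  have hcomp : Continuous fun z : (X →L[ℝ] Y) × X => z.1 z.2 :=
    isBoundedBilinearMap_apply.continuous
  exact (hcomp.tendsto (A0, B0)).comp (hA.prodMk_nhds hB)

theorem tendsto_flip {X Y Z ι : Type*} [NormedAddCommGroup X] [NormedSpace ℝ X]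
    [NormedAddCommGroup Y] [NormedSpace ℝ Y] [NormedAddCommGroup Z] [NormedSpace ℝ Z]
    {l : Filter ι} {A : ι → X →L[ℝ] Y →L[ℝ] Z} {B : ι → Y} {A0 : X →L[ℝ] Y →L[ℝ] Z} {B0 : Y}
    (hA : Tendsto A l (𝓝 A0)) (hB : Tendsto B l (𝓝 B0)) :
    Tendsto (fun n => (A n).flip (B n)) l (𝓝 (A0.flip B0)) := by
  refine tendsto_app' ?_ hB
  exact (((ContinuousLinearMap.flipₗᵢ ℝ X Y Z).continuous).tendsto A0).comp hA

/-- strict differentiability along sequences -/
theorem strict_lim {E F ι : Type*} [NormedAddCommGroup E] [NormedSpace ℝ E] [NormedAddCommGroup F]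
    [NormedSpace ℝ F] {f : E → F} {f' : E →L[ℝ] F} {z : E} (hf : HasStrictFDerivAt f f' z)
    {l : Filter ι} {P Q : ι → E} {c : ι → ℝ} {v : E} (hP : Tendsto P l (𝓝 z))
    (hQ : Tendsto Q l (𝓝 z)) (hv : Tendsto (fun n => c n • (P n - Q n)) l (𝓝 v)) :
    Tendsto (fun n => c n • (f (P n) - f (Q n))) l (𝓝 (f' v)) := by
  have h1 := hf.isLittleO.comp_tendsto (hP.prodMk_nhds hQ)
  have h2 : (fun n => c n • (f (P n) - f (Q n) - f' (P n - Q n))) =o[l]
      fun n => c n • (P n - Q n) := by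
    exact (Asymptotics.isBigO_refl c l).smul_isLittleO h1
  have h3 : Tendsto (fun n => c n • (f (P n) - f (Q n) - f' (P n - Q n))) l (𝓝 0) :=
    (Asymptotics.isLittleO_one_iff ℝ).1 (h2.trans_isBigO (hv.isBigO_one ℝ))
  have h4 := h3.add ((f'.continuous.tendsto v).comp hv)
  rw [zero_add] at h4
  refine h4.congr fun n => ?_
  simp only [Function.comp_apply, map_smul, map_sub, smul_sub]
  abel

/-- existence of the limit of primitives -/
theorem exists_prim_lim {f : ℕ → V → ℝ} {f' : ℕ → V → V →L[ℝ] ℝ} {g : V → V →L[ℝ] ℝ}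
    (hf : ∀ n x, HasFDerivAt (f n) (f' n x) x) (hg : Continuous g)
    (hl : ∀ x, Tendsto (fun y : ℕ × V => f' y.1 y.2) (atTop ×ˢ 𝓝 x) (𝓝 (g x))) :
    ∃ u : V → ℝ, ∀ x, HasFDerivAt u (g x) x := by
  have h1 : TendstoLocallyUniformlyOn f' g atTop univ := by
    rw [isOpen_univ.tendstoLocallyUniformlyOn_iff_forall_tendsto]
    intro x _
    have h2 : Tendsto (fun y : ℕ × V => g y.2) (atTop ×ˢ 𝓝 x) (𝓝 (g x)) :=
      (hg.tendsto x).comp tendsto_snd
    have h3 := h2.prodMk_nhds (hl x)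
    rw [nhds_prod_eq] at h3
    exact h3.mono_right (le_trans (by rw [← nhds_prod_eq]) (nhds_le_uniformity (g x)))
  set F : ℕ → V → ℝ := fun n x => f n x - f n 0 with hF
  have hFd : ∀ n x, HasFDerivAt (F n) (f' n x) x := fun n x => (hf n x).sub_const _
  have h2 : ∀ x : V, ∃ y : ℝ, Tendsto (fun n => F n x) atTop (𝓝 y) := by
    intro x
    have h3 : TendstoUniformlyOn f' g atTop (Metric.ball 0 (‖x‖ + 1)) := by
      have h4 : TendstoLocallyUniformlyOn f' g atTop (Metric.closedBall (0 : V) (‖x‖ + 1)) :=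
        h1.mono (subset_univ _)
      rw [tendstoLocallyUniformlyOn_iff_tendstoUniformlyOn_of_compact
        (isCompact_closedBall _ _)] at h4
      exact h4.mono Metric.ball_subset_closedBall
    have h5 := cauchy_map_of_uniformCauchySeqOn_fderiv (𝕜 := ℝ) Metric.isOpen_ball
      (convex_ball (0 : V) (‖x‖ + 1)).isPreconnected h3.uniformCauchySeqOn
      (fun n y _ => hFd n y) (x₀ := 0) (x := x) (by simp; positivity) (by simp)
      (by
        have : (fun n => F n 0) = fun _ => (0 : ℝ) := by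
          funext n
          simp [hF]
        rw [this]
        exact (tendsto_const_nhds (x := (0 : ℝ)) (f := (atTop : Filter ℕ))).cauchy_map)
    exact CompleteSpace.complete h5
  choose u hu using h2
  exact ⟨u, fun x => hasFDerivAt_of_tendstoLocallyUniformlyOn isOpen_univ h1
    (fun n y _ => hFd n y) (fun y _ => hu y) (mem_univ x)⟩

/-- **limits of difference quotients of isotropic graphs contract `om` to exact forms** -/
theorem limit_exact {O : Set (V × V)} (hO : IsOpen O) (hOc : Convex ℝ O)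
    {om : V × V → (V × V) →L[ℝ] (V × V) →L[ℝ] ℝ}
    (hom : ContDiffOn ℝ ∞ om O) (hal : Alt2 om O) (hcl : Closed2 om O)
    {a D : V → V} {p q : ℕ → V → V} {t : ℕ → ℝ}
    (ha : ContDiff ℝ 1 a) (hp : ∀ n, ContDiff ℝ 2 (p n)) (hq : ∀ n, ContDiff ℝ 2 (q n))
    (hag : ∀ θ, (θ, a θ) ∈ O) (hpg : ∀ n θ, (θ, p n θ) ∈ O) (hqg : ∀ n θ, (θ, q n θ) ∈ O)
    (hpi : ∀ n, Iso om (p n)) (hqi : ∀ n, Iso om (q n)) (ht : ∀ n, t n ≠ 0) (hDc : Continuous D)
    (lp : ∀ x, Tendsto (fun y : ℕ × V => p y.1 y.2) (atTop ×ˢ 𝓝 x) (𝓝 (a x)))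
    (lq : ∀ x, Tendsto (fun y : ℕ × V => q y.1 y.2) (atTop ×ˢ 𝓝 x) (𝓝 (a x)))
    (lp' : ∀ x, Tendsto (fun y : ℕ × V => fderiv ℝ (p y.1) y.2) (atTop ×ˢ 𝓝 x) (𝓝 (fderiv ℝ a x)))
    (lq' : ∀ x, Tendsto (fun y : ℕ × V => fderiv ℝ (q y.1) y.2) (atTop ×ˢ 𝓝 x) (𝓝 (fderiv ℝ a x)))
    (lD : ∀ x, Tendsto (fun y : ℕ × V => (t y.1)⁻¹ • (p y.1 y.2 - q y.1 y.2)) (atTop ×ˢ 𝓝 x)
      (𝓝 (D x))) :
    ∃ u : V → ℝ, ∀ θ, HasFDerivAt u (ctr om a D θ) θ := by
  obtain ⟨la, hla, hd⟩ := poincare2 hO hOc hom hal hcl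
  have hP := fun n => exists_prim hO hla hd (hp n) (hpg n) (hpi n)
  have hQ := fun n => exists_prim hO hla hd (hq n) (hqg n) (hqi n)
  choose uP huP using hP
  choose uQ huQ using hQ
  have hlad : ∀ z ∈ O, HasStrictFDerivAt la (fderiv ℝ la z) z := fun z hz =>
    (hla.contDiffAt (hO.mem_nhds hz)).hasStrictFDerivAt (by simp)
  have hlac : ContinuousOn la O := hla.continuousOn
  have hlac' : ContinuousOn (fderiv ℝ la) O := hla.continuousOn_fderiv_of_isOpen hO (by simp)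
  have hac : Continuous a := ha.continuous
  have hac' : Continuous (fderiv ℝ a) := ha.continuous_fderiv (by simp)
  -- the difference quotient
  set Dn : ℕ → V → V := fun n θ => (t n)⁻¹ • (p n θ - q n θ) with hDn
  set f : ℕ → V → ℝ := fun n θ => (t n)⁻¹ * (uP n θ - uQ n θ) - la (θ, q n θ) (0, Dn n θ) with hf
  set f' : ℕ → V → V →L[ℝ] ℝ := fun n θ =>
    ((t n)⁻¹ • (la (θ, p n θ) - la (θ, q n θ))).comp (gr (fderiv ℝ (p n) θ)) -
      ((fderiv ℝ la (θ, q n θ)).flip (0, Dn n θ)).comp (gr (fderiv ℝ (q n) θ)) with hf'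
  refine exists_prim_lim (f := f) (f' := f') ?_ ?_ ?_
  · intro n x
    have h1 := ((huP n x).sub (huQ n x)).const_mul (t n)⁻¹
    have hpd : HasFDerivAt (p n) (fderiv ℝ (p n) x) x :=
      ((hp n).differentiable (by simp) x).hasFDerivAt
    have hqd : HasFDerivAt (q n) (fderiv ℝ (q n) x) x :=
      ((hq n).differentiable (by simp) x).hasFDerivAt
    have h2 : HasFDerivAt (Dn n) ((t n)⁻¹ • (fderiv ℝ (p n) x - fderiv ℝ (q n) x)) x :=
      (hpd.sub hqd).const_smul _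
    have h3 : HasFDerivAt (fun θ => ((0 : V), Dn n θ))
        ((ContinuousLinearMap.inr ℝ V V).comp ((t n)⁻¹ • (fderiv ℝ (p n) x - fderiv ℝ (q n) x))) x :=
      ((ContinuousLinearMap.inr ℝ V V).hasFDerivAt).comp x h2
    have h4 : HasFDerivAt (fun θ => la (θ, q n θ))
        ((fderiv ℝ la (x, q n x)).comp (gr (fderiv ℝ (q n) x))) x :=
      HasFDerivAt.comp (g := la) x (hlad _ (hqg n x)).hasFDerivAt
        (hasFDerivAt_gr ((hq n).differentiable (by simp)) x)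
    have h5 := h1.sub (h4.clm_apply h3)
    refine h5.congr_fderiv ?_
    ext w
    have e2 : la (x, q n x) (0, fderiv ℝ (p n) x w) - la (x, q n x) (0, fderiv ℝ (q n) x w) =
        la (x, q n x) (w, fderiv ℝ (p n) x w) - la (x, q n x) (w, fderiv ℝ (q n) x w) := by
      rw [← map_sub, ← map_sub]
      simp
    simp only [hf', hDn, sub_apply, smul_apply,
      ContinuousLinearMap.comp_apply, add_apply, gr_apply,
      ContinuousLinearMap.flip_apply, ContinuousLinearMap.inr_apply, map_smul, map_sub,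
      smul_eq_mul]
    linear_combination (-(t n)⁻¹) * e2
  · have hgc : Continuous fun θ => (θ, a θ) := continuous_id.prodMk hac
    have h1 : Continuous fun θ => om (θ, a θ) :=
      hom.continuousOn.comp_continuous hgc hag
    have h2 : Continuous fun θ => gr (fderiv ℝ a θ) := continuous_gr.comp hac'
    exact (h1.clm_apply (continuous_const.prodMk hDc)).clm_comp h2
  · intro x
    set l : Filter (ℕ × V) := atTop ×ˢ 𝓝 x with hl
    have hx : Tendsto (fun y : ℕ × V => y.2) l (𝓝 x) := tendsto_snd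
    have hPn : Tendsto (fun y : ℕ × V => (y.2, p y.1 y.2)) l (𝓝 (x, a x)) := hx.prodMk_nhds (lp x)
    have hQn : Tendsto (fun y : ℕ × V => (y.2, q y.1 y.2)) l (𝓝 (x, a x)) := hx.prodMk_nhds (lq x)
    have hD0 : Tendsto (fun y : ℕ × V => ((0 : V), Dn y.1 y.2)) l (𝓝 (0, D x)) :=
      tendsto_const_nhds.prodMk_nhds (lD x)
    have h1 : Tendsto (fun y : ℕ × V => (t y.1)⁻¹ • (la (y.2, p y.1 y.2) - la (y.2, q y.1 y.2))) l
        (𝓝 (fderiv ℝ la (x, a x) (0, D x))) := by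
      refine strict_lim (hlad _ (hag x)) hPn hQn (hD0.congr fun y => ?_)
      ext <;> simp [hDn]
    have h2 : Tendsto (fun y : ℕ × V => gr (fderiv ℝ (p y.1) y.2)) l (𝓝 (gr (fderiv ℝ a x))) :=
      (continuous_gr.tendsto _).comp (lp' x)
    have h3 : Tendsto (fun y : ℕ × V => gr (fderiv ℝ (q y.1) y.2)) l (𝓝 (gr (fderiv ℝ a x))) :=
      (continuous_gr.tendsto _).comp (lq' x)
    have h4 : Tendsto (fun y : ℕ × V => fderiv ℝ la (y.2, q y.1 y.2)) l
        (𝓝 (fderiv ℝ la (x, a x))) :=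
      ((hlac'.continuousAt (hO.mem_nhds (hag x))).tendsto).comp hQn
    have h5 : Tendsto (fun y : ℕ × V => (fderiv ℝ la (y.2, q y.1 y.2)).flip (0, Dn y.1 y.2)) l
        (𝓝 ((fderiv ℝ la (x, a x)).flip (0, D x))) :=
      tendsto_flip h4 hD0
    have h6 := (tendsto_comp' h1 h2).sub (tendsto_comp' h5 h3)
    have h7 : (fderiv ℝ la (x, a x) (0, D x)).comp (gr (fderiv ℝ a x)) -
        ((fderiv ℝ la (x, a x)).flip (0, D x)).comp (gr (fderiv ℝ a x)) = ctr om a D x := by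
      ext w
      have := hd _ (hag x) (0, D x) (w, fderiv ℝ a x w)
      simpa using this
    rw [h7] at h6
    exact h6

end

end Crest.Agent.R281.Tub_57
end

-- ▼ part R281/Tub2_57
section

/-!
# R281 (S0424), TUBE-HOL (helper57), part 2: the leaves are holomorphic

* `leaf_hol` : a `C^1` graph with `I`-invariant tangent planes (`I` integrable) is smooth, and the
  induced structure `J` on the leaf has holomorphic coordinates;
* `const_of_max` : pluriharmonic functions on the leaf with a maximum are constant.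
-/

set_option autoImplicit false
set_option linter.unusedSectionVars false

open Set Filter Topology
open scoped ContDiff

namespace Crest.Agent.R281.Tub_57

noncomputable section

/-- local inverse, packaged -/
theorem exists_inv {X Y : Type*} [NormedAddCommGroup X] [NormedSpace ℝ X] [CompleteSpace X]
    [NormedAddCommGroup Y] [NormedSpace ℝ Y] [CompleteSpace Y] {n : ℕ∞ω} {f : X → Y} {x0 : X}
    (hf : ContDiffAt ℝ n f x0) (hn : n ≠ 0) (hb : Function.Bijective (fderiv ℝ f x0)) :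
    ∃ g : Y → X, g (f x0) = x0 ∧ ContDiffAt ℝ n g (f x0) ∧ (∀ᶠ x in 𝓝 x0, g (f x) = x) ∧
      (∀ᶠ y in 𝓝 (f x0), f (g y) = y) := by
  set e : X ≃L[ℝ] Y := ContinuousLinearEquiv.ofBijective (fderiv ℝ f x0)
    (LinearMap.ker_eq_bot.2 hb.1) (LinearMap.range_eq_top.2 hb.2) with he
  have h1 : HasFDerivAt f (e : X →L[ℝ] Y) x0 := (hf.differentiableAt hn).hasFDerivAt
  have hs := hf.hasStrictFDerivAt' h1 hn
  refine ⟨hf.localInverse h1 hn, hf.localInverse_apply_image h1 hn, hf.to_localInverse h1 hn,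
    hs.eventually_left_inverse, hs.eventually_right_inverse⟩

theorem csmul {Z : Type*} [NormedAddCommGroup Z] [NormedSpace ℂ Z] (c : ℂ) (z : Z) :
    c • z = c.re • z + c.im • (Complex.I • z) := by
  conv_lhs => rw [← Complex.re_add_im c]
  rw [add_smul, mul_smul]
  simp

/-- from real to complex differentiability -/
theorem diffC {X Y : Type*} [NormedAddCommGroup X] [NormedSpace ℂ X] [NormedAddCommGroup Y]
    [NormedSpace ℂ Y] {f : X → Y} {x : X} (h : DifferentiableAt ℝ f x)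
    (hI : ∀ w, fderiv ℝ f x (Complex.I • w) = Complex.I • fderiv ℝ f x w) :
    DifferentiableAt ℂ f x := by
  rw [differentiableAt_iff_restrictScalars ℝ h]
  have hs : ∀ (c : ℂ) (w : X), fderiv ℝ f x (c • w) = c • fderiv ℝ f x w := by
    intro c w
    rw [csmul c w, csmul c (fderiv ℝ f x w), map_add, map_smul, map_smul, hI]
  exact ⟨{ toFun := fderiv ℝ f x, map_add' := map_add _, map_smul' := hs, 
           cont := (fderiv ℝ f x).continuous }, by ext w; rfl⟩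

/-- an endomorphism field `I` on `E` is integrable at `q0` -/
def Integ {E : Type} [NormedAddCommGroup E] [NormedSpace ℝ E] (I : E → E →L[ℝ] E) (q0 : E) : Prop :=
  ∃ (W : Type) (_ : NormedAddCommGroup W) (_ : NormedSpace ℂ W) (_ : FiniteDimensional ℂ W)
    (χ : E → W), ContDiffAt ℝ ∞ χ q0 ∧ Function.Bijective (fderiv ℝ χ q0) ∧
      ∀ᶠ q in 𝓝 q0, ∀ u, fderiv ℝ χ q (I q u) = Complex.I • fderiv ℝ χ q u

variable {V : Type} [NormedAddCommGroup V] [NormedSpace ℝ V] [FiniteDimensional ℝ V]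

/-- holomorphic coordinates for `J` at `θ0` -/
def HCoord (J : V → V →L[ℝ] V) (θ0 : V) : Prop :=
  ∃ (T : Type) (_ : NormedAddCommGroup T) (_ : NormedSpace ℂ T) (_ : FiniteDimensional ℂ T)
    (Θ : T → V) (z0 : T), Θ z0 = θ0 ∧ ContDiffAt ℝ ∞ Θ z0 ∧
      (∀ᶠ z in 𝓝 z0, DifferentiableAt ℝ Θ z ∧
        ∀ w, fderiv ℝ Θ z (Complex.I • w) = J (Θ z) (fderiv ℝ Θ z w)) ∧ 𝓝 θ0 ≤ map Θ (𝓝 z0)

/-- **maximum principle on a leaf** -/
theorem const_of_max {J : V → V →L[ℝ] V} (hJ : ∀ θ v, J θ (J θ v) = -v)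
    (hC : ∀ θ, HCoord J θ) {U U' : V → ℝ} {b : V → V →L[ℝ] ℝ}
    (hU : ∀ θ, HasFDerivAt U (b θ) θ) (hU' : ∀ θ, HasFDerivAt U' (-((b θ).comp (J θ))) θ)
    {θm : V} (hm : ∀ θ, U θ ≤ U θm) (θ : V) : U θ = U θm := by
  have hUc : Continuous U := continuous_iff_continuousAt.2 fun θ => (hU θ).continuousAt
  set S : Set V := {θ | U θ = U θm} with hS
  have hScl : IsClosed S := isClosed_eq hUc continuous_const
  have hSo : IsOpen S := by
    rw [isOpen_iff_mem_nhds]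
    intro θ0 hθ0
    obtain ⟨T, _, _, _, Θ, z0, hz0, -, hΘ, hmap⟩ := hC θ0
    set h : V → ℂ := fun θ => (U θ : ℂ) + (U' θ : ℂ) * Complex.I with hh
    set H : T → ℂ := fun z => Complex.exp (h (Θ z)) with hH
    have hnorm : ∀ z, ‖H z‖ = Real.exp (U (Θ z)) := by
      intro z
      rw [hH]
      simp [Complex.norm_exp, hh]
    have hd : ∀ᶠ z in 𝓝 z0, DifferentiableAt ℂ H z := by
      filter_upwards [hΘ] with z hz
      have h1 : HasFDerivAt (fun θ => (U θ : ℂ)) (Complex.ofRealCLM.comp (b (Θ z))) (Θ z) :=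
        Complex.ofRealCLM.hasFDerivAt.comp _ (hU _)
      have h2 : HasFDerivAt (fun θ => (U' θ : ℂ))
          (Complex.ofRealCLM.comp (-((b (Θ z)).comp (J (Θ z))))) (Θ z) :=
        Complex.ofRealCLM.hasFDerivAt.comp _ (hU' _)
      have h3 := (h1.add (h2.mul_const Complex.I)).comp z hz.1.hasFDerivAt
      refine (diffC h3.differentiableAt fun w => ?_).cexp
      rw [HasFDerivAt.fderiv h3]
      simp only [ContinuousLinearMap.comp_apply, add_apply, hz.2 w, hJ, smul_apply,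
        Complex.ofRealCLM_apply, neg_apply, map_neg]
      simp
      ring_nf
      simp
    have hloc : IsLocalMax (norm ∘ H) z0 := by
      refine Eventually.of_forall fun z => ?_
      simp only [Function.comp_apply, hnorm, hz0]
      exact Real.exp_le_exp.2 ((hm _).trans_eq (hθ0 : U θ0 = U θm).symm)
    have h4 := Complex.eventually_eq_of_isLocalMax_norm hd hloc
    refine hmap ?_
    rw [mem_map]
    filter_upwards [h4] with z hz
    have h5 : ‖H z‖ = ‖H z0‖ := by rw [hz]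
    rw [hnorm, hnorm, hz0] at h5
    show U (Θ z) = U θm
    rw [Real.exp_injective h5]
    exact hθ0
  have h6 : S = univ := IsClopen.eq_univ ⟨hScl, hSo⟩ ⟨θm, rfl⟩
  have : θ ∈ S := by rw [h6]; exact mem_univ _
  exact this

/-- **`C^1` graphs with `I`-invariant tangent planes are holomorphic** -/
theorem leaf_hol {I : V × V → (V × V) →L[ℝ] (V × V)} {a : V → V} {J : V → V →L[ℝ] V} {θ0 : V}
    (ha : ContDiff ℝ 1 a) (hI : Integ I (θ0, a θ0))
    (hJ : ∀ θ w, I (θ, a θ) (w, fderiv ℝ a θ w) = (J θ w, fderiv ℝ a θ (J θ w))) :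
    ContDiffAt ℝ ∞ a θ0 ∧ HCoord J θ0 := by
  obtain ⟨W, _, _, _, χ, hχ, hχb, hχI⟩ := hI
  have had : Differentiable ℝ a := ha.differentiable (by simp)
  set g : V → V × V := fun θ => (θ, a θ) with hg
  have hgc : Continuous g := continuous_id.prodMk ha.continuous
  have hgd : ∀ θ, HasFDerivAt g (gr (fderiv ℝ a θ)) θ := fun θ => hasFDerivAt_gr had θ
  have hg1 : ContDiff ℝ 1 g := contDiff_id.prodMk ha
  -- the tangent space in the chart
  set A : V →L[ℝ] W := (fderiv ℝ χ (g θ0)).comp (gr (fderiv ℝ a θ0)) with hA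
  have hχI0 : ∀ u, fderiv ℝ χ (g θ0) (I (g θ0) u) = Complex.I • fderiv ℝ χ (g θ0) u :=
    hχI.self_of_nhds
  have hAJ : ∀ w, A (J θ0 w) = Complex.I • A w := by
    intro w
    simp only [hA, ContinuousLinearMap.comp_apply, gr_apply]
    rw [← hχI0, hJ]
  have hAinj : Function.Injective A := by
    intro v w h
    have := hχb.1 h
    exact (Prod.ext_iff.1 this).1
  let T : Submodule ℂ W :=
    { carrier := range A
      zero_mem' := ⟨0, map_zero _⟩
      add_mem' := by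
        rintro _ _ ⟨v, rfl⟩ ⟨w, rfl⟩
        exact ⟨v + w, map_add _ _ _⟩
      smul_mem' := by
        rintro c _ ⟨v, rfl⟩
        refine ⟨c.re • v + c.im • J θ0 v, ?_⟩
        rw [csmul c (A v), map_add, map_smul, map_smul, hAJ] }
  obtain ⟨π0, hπ0⟩ := LinearMap.exists_leftInverse_of_injective T.subtype (Submodule.ker_subtype T)
  set π : W →L[ℂ] T := LinearMap.toContinuousLinearMap π0 with hπ
  have hπT : ∀ t : T, π (t : W) = t := fun t => LinearMap.congr_fun hπ0 t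
  set πr : W →L[ℝ] T := π.restrictScalars ℝ with hπr
  have hπrI : ∀ w, πr (Complex.I • w) = Complex.I • πr w := fun w => π.map_smul _ _
  set P : V → T := fun θ => πr (χ (g θ)) with hP
  have hχg : ∀ᶠ θ in 𝓝 θ0, ContDiffAt ℝ 1 χ (g θ) := by
    have h1 : ∀ᶠ q in 𝓝 (g θ0), ContDiffAt ℝ 1 χ q :=
      (hχ.of_le (by exact_mod_cast le_top : (1 : ℕ∞ω) ≤ ∞)).eventually (by simp)
    exact hgc.continuousAt.eventually h1
  have hχIg : ∀ᶠ θ in 𝓝 θ0, ∀ u, fderiv ℝ χ (g θ) (I (g θ) u) = Complex.I • fderiv ℝ χ (g θ) u :=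
    hgc.continuousAt.eventually hχI
  have hPd : ∀ θ, ContDiffAt ℝ 1 χ (g θ) → HasFDerivAt P
      (πr.comp ((fderiv ℝ χ (g θ)).comp (gr (fderiv ℝ a θ)))) θ := by
    intro θ h
    exact πr.hasFDerivAt.comp θ (HasFDerivAt.comp (g := χ) θ
      (h.differentiableAt (by simp)).hasFDerivAt (hgd θ))
  have hPc : ContDiffAt ℝ 1 P θ0 := by
    refine πr.contDiff.contDiffAt.comp θ0 ?_
    exact ContDiffAt.comp θ0 hχg.self_of_nhds hg1.contDiffAt
  have hfd0 : fderiv ℝ P θ0 = πr.comp A := (hPd θ0 hχg.self_of_nhds).fderiv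
  have hfd : ∀ w, ((fderiv ℝ P θ0 w : T) : W) = A w := by
    intro w
    rw [hfd0]
    exact congrArg Subtype.val (hπT ⟨A w, w, rfl⟩)
  have hbij : Function.Bijective (fderiv ℝ P θ0) := by
    constructor
    · intro v w h
      apply hAinj
      rw [← hfd, ← hfd, h]
    · rintro ⟨_, w, rfl⟩
      exact ⟨w, Subtype.ext (hfd w)⟩
  have hfin : Module.finrank ℝ V = Module.finrank ℝ T :=
    (LinearEquiv.ofBijective (fderiv ℝ P θ0 : V →ₗ[ℝ] T) hbij).finrank_eq
  obtain ⟨Θ, hΘ0, hΘc, hΘl, hΘr⟩ := exists_inv hPc (by simp) hbij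
  set z0 : T := P θ0 with hz0
  have hΘcont : ContinuousAt Θ z0 := hΘc.continuousAt
  have hΘd : ∀ᶠ z in 𝓝 z0, DifferentiableAt ℝ Θ z := by
    filter_upwards [hΘc.eventually (by simp)] with z hz
    exact hz.differentiableAt (by simp)
  have hback : ∀ {p : V → Prop}, (∀ᶠ θ in 𝓝 θ0, p θ) → ∀ᶠ z in 𝓝 z0, p (Θ z) := by
    intro p hp
    have : Tendsto Θ (𝓝 z0) (𝓝 θ0) := by
      have := hΘcont.tendsto
      rwa [hΘ0] at this
    exact this.eventually hp
  -- the Cauchy-Riemann equations for Θ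
  have hCR : ∀ᶠ z in 𝓝 z0, DifferentiableAt ℝ Θ z ∧
      ∀ w, fderiv ℝ Θ z (Complex.I • w) = J (Θ z) (fderiv ℝ Θ z w) := by
    filter_upwards [hΘd, hback hχg, hback hχIg, hΘr.eventually_nhds] with z h1 h2 h3 h4
    refine ⟨h1, fun w => ?_⟩
    have h5 : HasFDerivAt (fun z => P (Θ z)) ((πr.comp ((fderiv ℝ χ (g (Θ z))).comp
        (gr (fderiv ℝ a (Θ z))))).comp (fderiv ℝ Θ z)) z := (hPd _ h2).comp z h1.hasFDerivAt
    have h6 : HasFDerivAt (fun z => P (Θ z)) (ContinuousLinearMap.id ℝ T) z :=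
      (hasFDerivAt_id z).congr_of_eventuallyEq h4
    have h7 := h5.unique h6
    set B := πr.comp ((fderiv ℝ χ (g (Θ z))).comp (gr (fderiv ℝ a (Θ z)))) with hB
    have h8 : ∀ w, B (fderiv ℝ Θ z w) = w := fun w => ContinuousLinearMap.ext_iff.1 h7 w
    have h9 : Function.Injective B := by
      have : Function.Surjective (B : V →ₗ[ℝ] T) := fun w => ⟨_, h8 w⟩
      exact (LinearMap.injective_iff_surjective_of_finrank_eq_finrank hfin).2 this
    apply h9
    rw [h8]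
    have h10 : B (J (Θ z) (fderiv ℝ Θ z w)) = Complex.I • B (fderiv ℝ Θ z w) := by
      simp only [hB, ContinuousLinearMap.comp_apply, gr_apply]
      rw [← hJ, ← hπrI]
      congr 1
      exact h3 _
    rw [h10, h8]
  -- the leaf in the chart is holomorphic
  have hφd : ∀ᶠ z in 𝓝 z0, DifferentiableAt ℂ (fun z => χ (g (Θ z))) z := by
    filter_upwards [hCR, hback hχg, hback hχIg] with z h1 h2 h3
    have h4 : HasFDerivAt (fun z => χ (g (Θ z))) (((fderiv ℝ χ (g (Θ z))).comp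
        (gr (fderiv ℝ a (Θ z)))).comp (fderiv ℝ Θ z)) z :=
      HasFDerivAt.comp (g := fun θ => χ (g θ)) z (HasFDerivAt.comp (g := χ) _
        (h2.differentiableAt (by simp)).hasFDerivAt (hgd (Θ z))) h1.1.hasFDerivAt
    refine diffC h4.differentiableAt fun w => ?_
    rw [HasFDerivAt.fderiv h4]
    simp only [ContinuousLinearMap.comp_apply, gr_apply, h1.2 w]
    rw [← hJ]
    exact h3 _
  have hφs : ContDiffAt ℝ ∞ (fun z => χ (g (Θ z))) z0 := by
    have h1 : AnalyticAt ℂ (fun z => χ (g (Θ z))) z0 :=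
      Crest.Agent.R266.SCV.analyticAt_of_eventually_differentiableAt hφd
    exact (h1.contDiffAt (n := ∞)).restrict_scalars ℝ
  -- the inverse of the chart
  obtain ⟨η, hη0, hηc, hηl, -⟩ := exists_inv hχ (by simp) hχb
  have hgΘ : ContDiffAt ℝ ∞ (fun z => g (Θ z)) z0 := by
    have hz : g (Θ z0) = g θ0 := by rw [hΘ0]
    have h1 : ContDiffAt ℝ ∞ (fun z => η (χ (g (Θ z)))) z0 := by
      refine ContDiffAt.comp z0 ?_ hφs
      rw [hz]
      exact hηc
    refine h1.congr_of_eventuallyEq ?_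
    have h2 : ∀ᶠ θ in 𝓝 θ0, η (χ (g θ)) = g θ := hgc.continuousAt.eventually hηl
    filter_upwards [hback h2] with z hz
    exact hz.symm
  have hΘs : ContDiffAt ℝ ∞ Θ z0 := contDiffAt_fst.comp z0 hgΘ
  have hΘb : Function.Bijective (fderiv ℝ Θ z0) := by
    have h5 : HasFDerivAt (fun z => P (Θ z)) ((fderiv ℝ P θ0).comp (fderiv ℝ Θ z0)) z0 := by
      have h1 : HasFDerivAt P (fderiv ℝ P θ0) (Θ z0) := by
        rw [hΘ0]
        exact (hPc.differentiableAt (by simp)).hasFDerivAt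
      exact h1.comp z0 hΘd.self_of_nhds.hasFDerivAt
    have h6 : HasFDerivAt (fun z => P (Θ z)) (ContinuousLinearMap.id ℝ T) z0 :=
      (hasFDerivAt_id z0).congr_of_eventuallyEq hΘr
    have h7 := h5.unique h6
    have h8 : ∀ w, fderiv ℝ P θ0 (fderiv ℝ Θ z0 w) = w := fun w =>
      ContinuousLinearMap.ext_iff.1 h7 w
    constructor
    · intro v w h
      rw [← h8 v, ← h8 w, h]
    · intro v
      exact ⟨fderiv ℝ P θ0 v, hbij.1 (h8 _)⟩
  refine ⟨?_, T, inferInstance, inferInstance, inferInstance, Θ, z0, hΘ0, hΘs, hCR, ?_⟩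
  · obtain ⟨P', hP'0, hP'c, hP'l, hP'r⟩ := exists_inv hΘs (by simp) hΘb
    rw [hΘ0] at hP'0 hP'c hP'r
    have h1 : ContDiffAt ℝ ∞ (fun θ => (g (Θ (P' θ))).2) θ0 := by
      refine contDiffAt_snd.comp θ0 ?_
      refine ContDiffAt.comp θ0 (g := fun z => g (Θ z)) ?_ hP'c
      rw [hP'0]
      exact hgΘ
    refine h1.congr_of_eventuallyEq ?_
    filter_upwards [hP'r] with θ hθ
    simp only [hg, hθ]
  · intro S hS
    rw [mem_map] at hS
    have h1 : Tendsto P (𝓝 θ0) (𝓝 z0) := hPc.continuousAt.tendsto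
    filter_upwards [h1.eventually hS, hΘl] with θ h2 h3
    have h4 : Θ (P θ) ∈ S := h2
    rwa [h3] at h4

end

end Crest.Agent.R281.Tub_57
end

-- ▼ part R281/Tub3_57
section

/-!
# R281 (S0424), TUBE-HOL (helper57), part 3: periodic functions, Lagrangian graphs
-/

set_option autoImplicit false
set_option linter.unusedSectionVars false

open Set Filter Topology
open scoped ContDiff

namespace Crest.Agent.R281.Tub_57

noncomputable section

variable {N : ℕ}

/-- the Euclidean space -/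
abbrev VN (N : ℕ) := EuclideanSpace ℝ (Fin N)

/-- the lattice vector of `k` -/
def kv (k : Fin N → ℤ) : VN N := WithLp.toLp 2 fun i => (k i : ℝ)

/-- `ℤ^N`-periodic functions -/
def Per {F : Type*} (f : VN N → F) : Prop := ∀ (k : Fin N → ℤ) (x : VN N), f (x + kv k) = f x

theorem kv_add (k l : Fin N → ℤ) : kv (k + l) = kv k + kv l := by
  ext i
  simp [kv]

theorem kv_zero : kv (0 : Fin N → ℤ) = 0 := by
  ext i
  simp [kv]

/-- the unit cube -/
def cub (N : ℕ) : Set (VN N) := {y | ∀ i, y i ∈ Icc (0 : ℝ) 1}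

theorem isCompact_cub : IsCompact (cub N) := by
  have h : cub N = (WithLp.toLp 2 : (Fin N → ℝ) → VN N) '' (Set.pi univ fun _ => Icc (0 : ℝ) 1) := by
    ext y
    constructor
    · intro hy
      exact ⟨WithLp.ofLp y, fun i _ => hy i, rfl⟩
    · rintro ⟨z, hz, rfl⟩ i
      exact hz i (mem_univ _)
  rw [h]
  exact (isCompact_univ_pi fun _ => isCompact_Icc).image (PiLp.continuous_toLp 2 _)

theorem exists_cub (θ : VN N) : ∃ k : Fin N → ℤ, θ + kv k ∈ cub N := by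
  refine ⟨fun i => -⌊θ i⌋, fun i => ?_⟩
  have h1 := Int.floor_le (θ i)
  have h2 := Int.lt_floor_add_one (θ i)
  simp only [kv, PiLp.add_apply, Int.cast_neg, mem_Icc]
  constructor <;> linarith

theorem exists_max {U : VN N → ℝ} (hU : Continuous U) (hp : Per U) :
    ∃ θm, ∀ θ, U θ ≤ U θm := by
  obtain ⟨k0, hk0⟩ := exists_cub (0 : VN N)
  obtain ⟨m, -, hm⟩ := (isCompact_cub (N := N)).exists_isMaxOn ⟨_, hk0⟩ hU.continuousOn
  refine ⟨m, fun θ => ?_⟩
  obtain ⟨k, hk⟩ := exists_cub θ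
  rw [← hp k θ]
  exact hm hk

/-- a function with periodic derivative and zero basic periods is periodic -/
theorem per_of {U : VN N → ℝ} {b : VN N → VN N →L[ℝ] ℝ} (hU : ∀ θ, HasFDerivAt U (b θ) θ)
    (hb : Per b) (h0 : ∀ j, U (kv (Pi.single j 1)) = U 0) : Per U := by
  have h1 : ∀ k θ, U (θ + kv k) - U θ = U (kv k) - U 0 := by
    intro k θ
    have h2 : ∀ θ, HasFDerivAt (fun θ => U (θ + kv k) - U θ) (0 : VN N →L[ℝ] ℝ) θ := by
      intro θ
      have h3 : HasFDerivAt (fun θ => U (θ + kv k)) (b (θ + kv k)) θ := by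
        have := HasFDerivAt.comp (g := U) θ (hU (θ + kv k)) ((hasFDerivAt_id θ).add_const (kv k))
        rwa [ContinuousLinearMap.comp_id] at this
      have h4 := h3.sub (hU θ)
      rw [hb k θ, sub_self] at h4
      exact h4
    have h5 := is_const_of_fderiv_eq_zero (𝕜 := ℝ) (f := fun θ => U (θ + kv k) - U θ)
      (fun θ => (h2 θ).differentiableAt) (fun θ => (h2 θ).fderiv) θ 0
    simpa using h5
  let c : (Fin N → ℤ) →+ ℝ :=
    { toFun := fun k => U (kv k) - U 0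
      map_zero' := by simp [kv_zero]
      map_add' := by
        intro k l
        have h2 := h1 k (kv l)
        have h3 : kv (k + l) = kv l + kv k := by rw [kv_add, add_comm]
        simp only [h3]
        linarith }
  have hc : c = 0 := by
    refine AddMonoidHom.functions_ext' _ _ _ fun j => ?_
    ext
    simp only [AddMonoidHom.comp_apply, AddMonoidHom.single_apply]
    have := h0 j
    simp [c, this]
  intro k θ
  have h2 := h1 k θ
  have h3 : c k = 0 := by rw [hc]; rfl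
  have h4 : U (kv k) - U 0 = 0 := h3
  linarith

/-- **Arzela-Ascoli** for bounded equi-Lipschitz periodic maps -/
theorem arz {F : Type} [NormedAddCommGroup F] [NormedSpace ℝ F] [ProperSpace F]
    {D : ℕ → VN N → F} {C : ℝ} (hb : ∀ n θ, ‖D n θ‖ ≤ C)
    (hl : ∀ n θ θ', ‖D n θ - D n θ'‖ ≤ C * ‖θ - θ'‖) (hp : ∀ n, Per (D n)) :
    ∃ (φ : ℕ → ℕ) (E : VN N → F), StrictMono φ ∧ Continuous E ∧ Per E ∧
      TendstoUniformly (fun n => D (φ n)) E atTop := by
  haveI : CompactSpace (cub N) := isCompact_iff_compactSpace.1 isCompact_cub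
  have hDc : ∀ n, Continuous (D n) := by
    intro n
    refine continuous_iff_continuousAt.2 fun θ => ?_
    rw [ContinuousAt, tendsto_iff_norm_sub_tendsto_zero]
    refine squeeze_zero (fun _ => norm_nonneg _) (fun θ' => hl n θ' θ) ?_
    have : Tendsto (fun θ' => C * ‖θ' - θ‖) (𝓝 θ) (𝓝 (C * ‖θ - θ‖)) :=
      (Continuous.tendsto (by fun_prop) θ)
    simpa using this
  let f : ℕ → BoundedContinuousFunction (cub N) F := fun n =>
    BoundedContinuousFunction.mkOfCompact ⟨fun y => D n y, (hDc n).comp continuous_subtype_val⟩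
  have hf : ∀ n (y : cub N), f n y = D n y := fun n y => rfl
  have hcomp : IsCompact (closure (range f)) := by
    refine BoundedContinuousFunction.arzela_ascoli (Metric.closedBall 0 C)
      (isCompact_closedBall _ _) _ ?_ ?_
    · rintro _ y ⟨n, rfl⟩
      rw [hf]
      simpa using hb n y
    · refine Metric.equicontinuous_of_continuity_modulus (fun r => C * r) ?_ _ ?_
      · have : Tendsto (fun r : ℝ => C * r) (𝓝 0) (𝓝 (C * 0)) :=
          (Continuous.tendsto (by fun_prop) _)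
        simpa using this
      · rintro x y ⟨_, n, rfl⟩
        show dist (f n x) (f n y) ≤ C * dist x y
        rw [hf, hf, dist_eq_norm, Subtype.dist_eq, dist_eq_norm]
        exact hl n _ _
  obtain ⟨g, -, φ, hφ, hlim⟩ := hcomp.tendsto_subseq (x := f) fun n => subset_closure ⟨n, rfl⟩
  choose ck hck using fun θ : VN N => exists_cub θ
  set E : VN N → F := fun θ => g ⟨θ + kv (ck θ), hck θ⟩ with hE
  have hT : TendstoUniformly (fun n => D (φ n)) E atTop := by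
    rw [Metric.tendstoUniformly_iff]
    intro ε hε
    filter_upwards [(Metric.tendsto_nhds.1 hlim) ε hε] with n hn θ
    have h1 := BoundedContinuousFunction.dist_coe_le_dist (f := f (φ n)) (g := g)
      ⟨θ + kv (ck θ), hck θ⟩
    rw [hf, hp (φ n) (ck θ) θ] at h1
    rw [dist_comm]
    exact lt_of_le_of_lt h1 hn
  refine ⟨φ, E, hφ, hT.continuous (Eventually.of_forall fun n => hDc (φ n)).frequently, ?_, hT⟩
  intro k θ
  refine tendsto_nhds_unique (hT.tendsto_at (θ + kv k)) ?_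
  refine (hT.tendsto_at θ).congr fun n => ?_
  exact (hp (φ n) k θ).symm

section Alg

variable {V : Type} [NormedAddCommGroup V] [NormedSpace ℝ V] [FiniteDimensional ℝ V]

/-- Lagrangian graphs: the vertical space is dual to the graph -/
theorem vert_surj {X : (V × V) →L[ℝ] (V × V) →L[ℝ] ℝ} (hX : ∀ u, (∀ w, X u w = 0) → u = 0)
    {A : V →L[ℝ] V} (hA : ∀ v w, X (v, A v) (w, A w) = 0) (ψ : V →L[ℝ] ℝ) :
    ∃ v, ∀ w, X (0, v) (w, A w) = ψ w := by
  let Xb : (V × V) →ₗ[ℝ] Module.Dual ℝ (V × V) :=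
    { toFun := fun u => (X u : (V × V) →ₗ[ℝ] ℝ)
      map_add' := fun u w => by ext <;> simp
      map_smul' := fun c u => by ext <;> simp }
  have hinj : Function.Injective Xb := by
    rw [← LinearMap.ker_eq_bot, LinearMap.ker_eq_bot']
    intro u hu
    exact hX u fun w => LinearMap.congr_fun hu w
  have hfin : Module.finrank ℝ (V × V) = Module.finrank ℝ (Module.Dual ℝ (V × V)) :=
    (Subspace.dual_finrank_eq).symm
  have hsur : Function.Surjective Xb :=
    (LinearMap.injective_iff_surjective_of_finrank_eq_finrank hfin).1 hinj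
  obtain ⟨z, hz⟩ := hsur ((ψ.comp (ContinuousLinearMap.fst ℝ V V) : (V × V) →L[ℝ] ℝ) :
    (V × V) →ₗ[ℝ] ℝ)
  refine ⟨z.2 - A z.1, fun w => ?_⟩
  have h1 : X z (w, A w) = ψ w := LinearMap.congr_fun hz (w, A w)
  have h2 : ((0 : V), z.2 - A z.1) = z - (z.1, A z.1) := by ext <;> simp
  rw [h2, map_sub, sub_apply, h1, hA, sub_zero]

theorem vert_inj {X : (V × V) →L[ℝ] (V × V) →L[ℝ] ℝ} (hX : ∀ u, (∀ w, X u w = 0) → u = 0)
    {A : V →L[ℝ] V} (hA : ∀ v w, X (v, A v) (w, A w) = 0) {v : V}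
    (hv : ∀ w, X (0, v) (w, A w) = 0) : v = 0 := by
  let Ψ : V →ₗ[ℝ] Module.Dual ℝ V :=
    { toFun := fun v => ((X (0, v)).comp (gr A) : V →ₗ[ℝ] ℝ)
      map_add' := fun u w => by
        ext z
        have : ((0 : V), u + w) = (0, u) + (0, w) := by ext <;> simp
        show X (0, u + w) (z, A z) = X (0, u) (z, A z) + X (0, w) (z, A z)
        rw [this, map_add]
        rfl
      map_smul' := fun c u => by
        ext z
        have : ((0 : V), c • u) = c • ((0 : V), u) := by ext <;> simp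
        show X (0, c • u) (z, A z) = c * X (0, u) (z, A z)
        rw [this, map_smul]
        rfl }
  have hfin : Module.finrank ℝ V = Module.finrank ℝ (Module.Dual ℝ V) :=
    (Subspace.dual_finrank_eq).symm
  have hsur : Function.Surjective Ψ := by
    intro ψ
    obtain ⟨v, hv⟩ := vert_surj hX hA (LinearMap.toContinuousLinearMap ψ)
    refine ⟨v, ?_⟩
    ext w
    exact hv w
  have hinj := (LinearMap.injective_iff_surjective_of_finrank_eq_finrank hfin).2 hsur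
  apply hinj
  rw [map_zero]
  ext w
  exact hv w

/-- a vector orthogonal to a Lagrangian graph is tangent to it -/
theorem tan_of_orth {X : (V × V) →L[ℝ] (V × V) →L[ℝ] ℝ} (hX : ∀ u, (∀ w, X u w = 0) → u = 0)
    {A : V →L[ℝ] V} (hA : ∀ v w, X (v, A v) (w, A w) = 0) {z : V × V}
    (hz : ∀ w, X z (w, A w) = 0) : z.2 = A z.1 := by
  have h : z.2 - A z.1 = 0 := by
    refine vert_inj hX hA fun w => ?_
    have h2 : ((0 : V), z.2 - A z.1) = z - (z.1, A z.1) := by ext <;> simp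
    rw [h2, map_sub, sub_apply, hz, hA, sub_zero]
  exact sub_eq_zero.1 h

end Alg

end

end Crest.Agent.R281.Tub_57
end

-- ▼ part R281/Tub4_57
section

/-!
# R281 (S0424), TUBE-HOL (helper57), part 4: the space of closed (1,0)-forms on a leaf
-/

set_option autoImplicit false
set_option linter.unusedSectionVars false

open Set Filter Topology
open scoped ContDiff

namespace Crest.Agent.R281.Tub_57

open Poi_234

noncomputable section

variable {N : ℕ}

/-- the tube -/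
def tub (N : ℕ) (r : ℝ) : Set (VN N × VN N) := {p | ‖p.2‖ < r}

theorem isOpen_tub {r : ℝ} : IsOpen (tub N r) :=
  isOpen_lt (continuous_norm.comp continuous_snd) continuous_const

theorem convex_tub {r : ℝ} : Convex ℝ (tub N r) := by
  intro p hp q hq s t hs ht hst
  have h1 := (convex_ball (0 : VN N) r) (x := p.2) (by simpa [tub] using hp) (y := q.2)
    (by simpa [tub] using hq) hs ht hst
  simpa [tub] using h1

/-- 2-forms on `V × V` -/
abbrev Fo (N : ℕ) := VN N × VN N → (VN N × VN N) →L[ℝ] (VN N × VN N) →L[ℝ] ℝ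

/-- the holomorphic symplectic tube -/
structure Geo (r : ℝ) (x y : Fo N) (I : VN N × VN N → (VN N × VN N) →L[ℝ] (VN N × VN N)) :
    Prop where
  xs : ContDiffOn ℝ ∞ x (tub N r)
  ys : ContDiffOn ℝ ∞ y (tub N r)
  xa : Alt2 x (tub N r)
  ya : Alt2 y (tub N r)
  xc : Closed2 x (tub N r)
  yc : Closed2 y (tub N r)
  xp : ∀ (k : Fin N → ℤ), ∀ p ∈ tub N r, x (p.1 + kv k, p.2) = x p
  yp : ∀ (k : Fin N → ℤ), ∀ p ∈ tub N r, y (p.1 + kv k, p.2) = y p
  Ic : ContinuousOn I (tub N r)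
  Ip : ∀ (k : Fin N → ℤ), ∀ p ∈ tub N r, I (p.1 + kv k, p.2) = I p
  sq : ∀ p ∈ tub N r, ∀ u, I p (I p u) = -u
  xy : ∀ p ∈ tub N r, ∀ u w, x p (I p u) w = - y p u w
  nd : ∀ p ∈ tub N r, ∀ u, (∀ w, x p u w = 0) → u = 0
  int : ∀ p ∈ tub N r, Integ I p

/-- isotropic graphs in the tube -/
structure Leaf (r : ℝ) (x y : Fo N) (a : VN N → VN N) : Prop where
  c1 : ContDiff ℝ 1 a
  per : Per a
  tub : ∀ θ, (θ, a θ) ∈ tub N r
  ix : Iso x a
  iy : Iso y a

theorem Per.fderiv {F : Type*} [NormedAddCommGroup F] [NormedSpace ℝ F] {f : VN N → F}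
    (hf : Per f) (k : Fin N → ℤ) (θ : VN N) : fderiv ℝ f (θ + kv k) = fderiv ℝ f θ := by
  have h1 : _root_.fderiv ℝ (fun y => f (y + kv k)) θ = _root_.fderiv ℝ f (θ + kv k) :=
    fderiv_comp_add_right _
  rw [← h1]
  congr 1
  exact funext fun y => hf k y

section

variable {r : ℝ} {x y : Fo N} {I : VN N × VN N → (VN N × VN N) →L[ℝ] (VN N × VN N)}
  {a : VN N → VN N}

namespace Geo

variable (G : Geo r x y I)
include G

theorem yI {p : VN N × VN N} (hp : p ∈ tub N r) (u w : VN N × VN N) :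
    y p (I p u) w = x p u w := by
  have h := G.xy p hp (I p u) w
  rw [G.sq p hp, map_neg, neg_apply] at h
  linarith

theorem xI' {p : VN N × VN N} (hp : p ∈ tub N r) (u w : VN N × VN N) :
    x p u (I p w) = - y p u w := by
  rw [G.xa.swap hp, G.xy p hp, G.ya.swap hp w u]
  ring


end Geo

/-- the complex structure of a leaf -/
def JJ (I : VN N × VN N → (VN N × VN N) →L[ℝ] (VN N × VN N)) (a : VN N → VN N) (θ : VN N) :
    VN N →L[ℝ] VN N :=
  (ContinuousLinearMap.fst ℝ (VN N) (VN N)).comp ((I (θ, a θ)).comp (gr (fderiv ℝ a θ)))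

theorem leaf_I (G : Geo r x y I) (L : Leaf r x y a) (θ w : VN N) :
    I (θ, a θ) (w, fderiv ℝ a θ w) = (JJ I a θ w, fderiv ℝ a θ (JJ I a θ w)) := by
  have h1 : (I (θ, a θ) (w, fderiv ℝ a θ w)).2 =
      fderiv ℝ a θ (I (θ, a θ) (w, fderiv ℝ a θ w)).1 := by
    refine tan_of_orth (G.nd _ (L.tub θ)) (L.ix θ) fun w' => ?_
    rw [G.xy _ (L.tub θ), L.iy, neg_zero]
  exact Prod.ext rfl h1

theorem leaf_J2 (G : Geo r x y I) (L : Leaf r x y a) (θ w : VN N) :
    JJ I a θ (JJ I a θ w) = -w := by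
  have h1 := leaf_I G L θ (JJ I a θ w)
  rw [← leaf_I G L θ w, G.sq _ (L.tub θ)] at h1
  have := congrArg Prod.fst h1
  simpa using this.symm

theorem leaf_smooth (G : Geo r x y I) (L : Leaf r x y a) : ContDiff ℝ ∞ a :=
  contDiff_iff_contDiffAt.2 fun θ =>
    (leaf_hol L.c1 (G.int _ (L.tub θ)) (fun θ w => leaf_I G L θ w)).1

theorem leaf_coord (G : Geo r x y I) (L : Leaf r x y a) (θ : VN N) : HCoord (JJ I a) θ :=
  (leaf_hol L.c1 (G.int _ (L.tub θ)) (fun θ w => leaf_I G L θ w)).2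

theorem ctr_add (om : Fo N) (a D E : VN N → VN N) (θ : VN N) :
    ctr om a (D + E) θ = ctr om a D θ + ctr om a E θ := by
  ext w
  have : ((0 : VN N), (D + E) θ) = (0, D θ) + (0, E θ) := by ext <;> simp
  rw [ctr_apply, this, map_add]
  rfl

theorem ctr_zero (om : Fo N) (a : VN N → VN N) (θ : VN N) :
    ctr om a (0 : VN N → VN N) θ = 0 := by
  ext w
  have : ((0 : VN N), (0 : VN N → VN N) θ) = 0 := rfl
  rw [ctr_apply, this, map_zero]
  rfl

theorem ctr_smul (om : Fo N) (a D : VN N → VN N) (c : ℝ) (θ : VN N) :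
    ctr om a (c • D) θ = c • ctr om a D θ := by
  ext w
  have : ((0 : VN N), (c • D) θ) = c • ((0 : VN N), D θ) := by ext <;> simp
  simp only [ctr_apply, this, map_smul, smul_apply]

/-- the space of vertical fields with exact contractions -/
def Hs (x y : Fo N) (a : VN N → VN N) : Submodule ℝ (VN N → VN N) where
  carrier := {D | Continuous D ∧ Per D ∧ (∃ U : VN N → ℝ, ∀ θ, HasFDerivAt U (ctr x a D θ) θ) ∧
    (∃ U : VN N → ℝ, ∀ θ, HasFDerivAt U (ctr y a D θ) θ)}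
  zero_mem' := by
    refine ⟨continuous_const, fun _ _ => rfl, ⟨fun _ => 0, fun θ => ?_⟩, ⟨fun _ => 0, fun θ => ?_⟩⟩
    · rw [ctr_zero]; exact hasFDerivAt_const (0 : ℝ) θ
    · rw [ctr_zero]; exact hasFDerivAt_const (0 : ℝ) θ
  add_mem' := by
    rintro D E ⟨h1, h2, ⟨U, hU⟩, U', hU'⟩ ⟨k1, k2, ⟨W, hW⟩, W', hW'⟩
    refine ⟨h1.add k1, fun k θ => ?_, ⟨U + W, fun θ => ?_⟩, U' + W', fun θ => ?_⟩
    · simp [h2 k θ, k2 k θ]
    · rw [ctr_add]; exact (hU θ).add (hW θ)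
    · rw [ctr_add]; exact (hU' θ).add (hW' θ)
  smul_mem' := by
    rintro c D ⟨h1, h2, ⟨U, hU⟩, U', hU'⟩
    refine ⟨h1.const_smul c, fun k θ => ?_, ⟨c • U, fun θ => ?_⟩, c • U', fun θ => ?_⟩
    · simp [h2 k θ]
    · rw [ctr_smul]; exact (hU θ).const_smul c
    · rw [ctr_smul]; exact (hU' θ).const_smul c

theorem prim_unique {U U' : VN N → ℝ} {b : VN N → VN N →L[ℝ] ℝ} (hU : ∀ θ, HasFDerivAt U (b θ) θ)
    (hU' : ∀ θ, HasFDerivAt U' (b θ) θ) (θ θ' : VN N) : U θ - U θ' = U' θ - U' θ' := by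
  have h2 : ∀ θ, HasFDerivAt (fun θ => U θ - U' θ) (0 : VN N →L[ℝ] ℝ) θ := by
    intro θ
    have := (hU θ).sub (hU' θ)
    rw [sub_self] at this
    exact this
  have h5 := is_const_of_fderiv_eq_zero (𝕜 := ℝ) (f := fun θ => U θ - U' θ)
    (fun θ => (h2 θ).differentiableAt) (fun θ => (h2 θ).fderiv) θ θ'
  linarith

/-- a primitive -/
def prm (D : Hs x y a) : VN N → ℝ := D.2.2.2.1.choose

theorem prm_spec (D : Hs x y a) (θ : VN N) : HasFDerivAt (prm D) (ctr x a D.1 θ) θ :=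
  D.2.2.2.1.choose_spec θ

/-- the period map -/
def pm (x y : Fo N) (a : VN N → VN N) : Hs x y a →ₗ[ℝ] (Fin N → ℝ) where
  toFun D j := prm D (kv (Pi.single j 1)) - prm D 0
  map_add' D E := by
    funext j
    have h1 : ∀ θ, HasFDerivAt (prm D + prm E) (ctr x a (D + E).1 θ) θ := fun θ => by
      rw [show (D + E).1 = D.1 + E.1 from rfl, ctr_add]
      exact (prm_spec D θ).add (prm_spec E θ)
    have h2 := prim_unique (prm_spec (D + E)) h1 (kv (Pi.single j 1)) 0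
    rw [h2]
    simp only [Pi.add_apply]
    ring
  map_smul' c D := by
    funext j
    have h1 : ∀ θ, HasFDerivAt (c • prm D) (ctr x a (c • D).1 θ) θ := fun θ => by
      rw [show (c • D).1 = c • D.1 from rfl, ctr_smul]
      exact (prm_spec D θ).const_smul c
    have h2 := prim_unique (prm_spec (c • D)) h1 (kv (Pi.single j 1)) 0
    rw [h2]
    simp only [Pi.smul_apply, smul_eq_mul, RingHom.id_apply]
    ring

/-- **injectivity of real periods** -/
theorem zero_of_per (G : Geo r x y I) (L : Leaf r x y a) {D : VN N → VN N} {U U' : VN N → ℝ}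
    (hU : ∀ θ, HasFDerivAt U (ctr x a D θ) θ) (hU' : ∀ θ, HasFDerivAt U' (ctr y a D θ) θ)
    (hp : Per U) : D = 0 := by
  have hUc : Continuous U := continuous_iff_continuousAt.2 fun θ => (hU θ).continuousAt
  obtain ⟨θm, hm⟩ := exists_max hUc hp
  have h1 : ∀ θ, HasFDerivAt U' (-((ctr x a D θ).comp (JJ I a θ))) θ := by
    intro θ
    refine (hU' θ).congr_fderiv ?_
    ext w
    rw [neg_apply, ContinuousLinearMap.comp_apply, ctr_apply, ctr_apply, ← leaf_I G L,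
      G.xI' (L.tub θ), neg_neg]
  have h2 := const_of_max (leaf_J2 G L) (leaf_coord G L) hU h1 hm
  funext θ
  refine vert_inj (G.nd _ (L.tub θ)) (L.ix θ) fun w => ?_
  have h3 : HasFDerivAt U (0 : VN N →L[ℝ] ℝ) θ := by
    have : U = fun _ => U θm := funext h2
    rw [this]
    exact hasFDerivAt_const _ _
  have h4 := (hU θ).unique h3
  have := ContinuousLinearMap.ext_iff.1 h4 w
  simpa using this

theorem per_ctr {om : Fo N} (hom : ∀ (k : Fin N → ℤ), ∀ p ∈ tub N r, om (p.1 + kv k, p.2) = om p)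
    (ha : Per a) (hg : ∀ θ, (θ, a θ) ∈ tub N r)
    {D : VN N → VN N} (hD : Per D) : Per (ctr om a D) := by
  intro k θ
  have h1 := hom k (θ, a θ) (hg θ)
  simp only at h1
  rw [ctr, ctr, ha k θ, hD k θ, h1, ha.fderiv k θ]

theorem pm_inj (G : Geo r x y I) (L : Leaf r x y a) : Function.Injective (pm x y a) := by
  rw [← LinearMap.ker_eq_bot, LinearMap.ker_eq_bot']
  intro D hD
  obtain ⟨U', hU'⟩ := D.2.2.2.2
  have h1 : Per (prm D) := by
    refine per_of (prm_spec D) (per_ctr G.xp L.per L.tub D.2.2.1) fun j => ?_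
    have := congrFun hD j
    simp only [pm, LinearMap.coe_mk, AddHom.coe_mk, Pi.zero_apply] at this
    linarith
  exact Subtype.ext (zero_of_per G L (prm_spec D) hU' h1)

theorem finite_Hs (G : Geo r x y I) (L : Leaf r x y a) : Module.Finite ℝ (Hs x y a) :=
  Module.Finite.of_injective (pm x y a) (pm_inj G L)

theorem finrank_Hs_le (G : Geo r x y I) (L : Leaf r x y a) :
    Module.finrank ℝ (Hs x y a) ≤ N := by
  have := LinearMap.finrank_le_finrank_of_injective (pm_inj G L)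
  simpa using this

/-- multiplication by `i` -/
def iD (I : VN N × VN N → (VN N × VN N) →L[ℝ] (VN N × VN N)) (a D : VN N → VN N) (θ : VN N) : VN N :=
  (I (θ, a θ) (0, D θ)).2 - fderiv ℝ a θ (I (θ, a θ) (0, D θ)).1

theorem iD_eq (D : VN N → VN N) (θ : VN N) : ((0 : VN N), iD I a D θ) = I (θ, a θ) (0, D θ) -
    ((I (θ, a θ) (0, D θ)).1, fderiv ℝ a θ (I (θ, a θ) (0, D θ)).1) := by
  ext <;> simp [iD]

theorem ctr_iD_x (G : Geo r x y I) (L : Leaf r x y a) (D : VN N → VN N) (θ : VN N) :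
    ctr x a (iD I a D) θ = - ctr y a D θ := by
  ext w
  rw [ctr_apply, iD_eq, map_sub, sub_apply, L.ix, sub_zero, G.xy _ (L.tub θ)]
  rfl

theorem ctr_iD_y (G : Geo r x y I) (L : Leaf r x y a) (D : VN N → VN N) (θ : VN N) :
    ctr y a (iD I a D) θ = ctr x a D θ := by
  ext w
  rw [ctr_apply, iD_eq, map_sub, sub_apply, L.iy, sub_zero, G.yI (L.tub θ)]
  rfl

theorem iD_mem (G : Geo r x y I) (L : Leaf r x y a) {D : VN N → VN N} (hD : D ∈ Hs x y a) :
    iD I a D ∈ Hs x y a := by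
  obtain ⟨h1, h2, ⟨U, hU⟩, U', hU'⟩ := hD
  have hac : Continuous a := L.c1.continuous
  have hac' : Continuous (fderiv ℝ a) := L.c1.continuous_fderiv (by simp)
  have hIc : Continuous fun θ => I (θ, a θ) :=
    G.Ic.comp_continuous (continuous_id.prodMk hac) L.tub
  have hc : Continuous fun θ => I (θ, a θ) (0, D θ) := hIc.clm_apply (continuous_const.prodMk h1)
  refine ⟨?_, ?_, ⟨-U', fun θ => ?_⟩, ⟨U, fun θ => ?_⟩⟩
  · exact (continuous_snd.comp hc).sub (hac'.clm_apply (continuous_fst.comp hc))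
  · intro k θ
    have h3 := G.Ip k (θ, a θ) (L.tub θ)
    simp only at h3
    rw [iD, iD, L.per k θ, h2 k θ, h3, L.per.fderiv k θ]
  · rw [ctr_iD_x G L]; exact (hU' θ).neg
  · rw [ctr_iD_y G L]; exact hU θ

end

end

end Crest.Agent.R281.Tub_57
end

-- ▼ part R281/Tub5_57
section

/-!
# R281 (S0424), TUBE-HOL (helper57), part 5: families of Lagrangian graphs, limit fields
-/

set_option autoImplicit false
set_option linter.unusedSectionVars false

open Set Filter Topology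
open scoped ContDiff

namespace Crest.Agent.R281.Tub_57

open Poi_234

noncomputable section

variable {N : ℕ}

/-- a bi-Lipschitz family of isotropic graphs filling an open set, normalised by `A s 0 = s` -/
structure LF (r : ℝ) (x y : Fo N) (S : Set (VN N)) (A : VN N → VN N → VN N) (K : ℝ) : Prop where
  K0 : 0 ≤ K
  So : IsOpen S
  leaf : ∀ s ∈ S, Leaf r x y (A s)
  norm : ∀ s ∈ S, A s 0 = s
  lip : ∀ s ∈ S, ∀ s' ∈ S, ∀ θ, ‖A s θ - A s' θ‖ ≤ K * ‖s - s'‖
  lip' : ∀ s ∈ S, ∀ s' ∈ S, ∀ θ, ‖fderiv ℝ (A s) θ - fderiv ℝ (A s') θ‖ ≤ K * ‖s - s'‖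
  low : ∀ s ∈ S, ∀ s' ∈ S, ∀ θ, ‖s - s'‖ ≤ K * ‖A s θ - A s' θ‖
  op : ∀ s ∈ S, ∀ θ, ∀ᶠ v in 𝓝 (A s θ), ∃ s' ∈ S, A s' θ = v

variable {r : ℝ} {x y : Fo N} {I : VN N × VN N → (VN N × VN N) →L[ℝ] (VN N × VN N)}
  {S : Set (VN N)} {A : VN N → VN N → VN N} {K : ℝ}

theorem joint_lim {F : Type*} [NormedAddCommGroup F] {f : ℕ → VN N → F} {g : VN N → F} {e : ℕ → ℝ}
    (hg : Continuous g) (he : Tendsto e atTop (𝓝 0)) (h : ∀ n θ, ‖f n θ - g θ‖ ≤ e n) (x : VN N) :
    Tendsto (fun y : ℕ × VN N => f y.1 y.2) (atTop ×ˢ 𝓝 x) (𝓝 (g x)) := by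
  have h1 : Tendsto (fun y : ℕ × VN N => f y.1 y.2 - g y.2) (atTop ×ˢ 𝓝 x) (𝓝 0) :=
    squeeze_zero_norm (fun y => h y.1 y.2) (he.comp tendsto_fst)
  have h2 : Tendsto (fun y : ℕ × VN N => g y.2) (atTop ×ˢ 𝓝 x) (𝓝 (g x)) :=
    (hg.tendsto x).comp tendsto_snd
  have h3 := h1.add h2
  rw [zero_add] at h3
  exact h3.congr fun y => by simp

theorem two_le_inf : (2 : ℕ∞ω) ≤ ∞ := WithTop.coe_le_coe.2 (le_top : (2 : ℕ∞) ≤ ⊤)

/-- **limit fields** -/
theorem limit_field (G : Geo r x y I) (F : LF r x y S A K) {s : VN N} (hs : s ∈ S)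
    {p q : ℕ → VN N} {t : ℕ → ℝ} {C : ℝ} (hp : ∀ n, p n ∈ S) (hq : ∀ n, q n ∈ S)
    (lp : Tendsto p atTop (𝓝 s)) (lq : Tendsto q atTop (𝓝 s)) (ht : ∀ n, 0 < t n)
    (hpq : ∀ n, K * ‖p n - q n‖ ≤ C * t n) :
    ∃ (φ : ℕ → ℕ) (E : VN N → VN N), StrictMono φ ∧ E ∈ Hs x y (A s) ∧
      TendstoUniformly (fun n θ => (t (φ n))⁻¹ • (A (p (φ n)) θ - A (q (φ n)) θ)) E atTop := by
  have hc1 : ∀ n θ, ‖(t n)⁻¹ • (A (p n) θ - A (q n) θ)‖ ≤ C := by
    intro n θ
    rw [norm_smul, norm_inv, Real.norm_of_nonneg (ht n).le, inv_mul_le_iff₀ (ht n), mul_comm]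
    exact (F.lip _ (hp n) _ (hq n) θ).trans (hpq n)
  have hd : ∀ s ∈ S, Differentiable ℝ (A s) := fun s hs =>
    (F.leaf s hs).c1.differentiable (by simp)
  have hc2 : ∀ n θ θ', ‖(t n)⁻¹ • (A (p n) θ - A (q n) θ) - (t n)⁻¹ • (A (p n) θ' - A (q n) θ')‖ ≤
      C * ‖θ - θ'‖ := by
    intro n θ θ'
    have h1 : ∀ z, HasFDerivAt (fun z => (t n)⁻¹ • (A (p n) z - A (q n) z))
        ((t n)⁻¹ • (fderiv ℝ (A (p n)) z - fderiv ℝ (A (q n)) z)) z := fun z =>
      HasFDerivAt.const_smul ((hd _ (hp n) z).hasFDerivAt.fun_sub (hd _ (hq n) z).hasFDerivAt)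
        (t n)⁻¹
    have h2 : ∀ z, ‖(t n)⁻¹ • (fderiv ℝ (A (p n)) z - fderiv ℝ (A (q n)) z)‖ ≤ C := by
      intro z
      rw [norm_smul, norm_inv, Real.norm_of_nonneg (ht n).le, inv_mul_le_iff₀ (ht n), mul_comm]
      exact (F.lip' _ (hp n) _ (hq n) z).trans (hpq n)
    exact (convex_univ : Convex ℝ (univ : Set (VN N))).norm_image_sub_le_of_norm_hasFDerivWithin_le
      (fun z _ => (h1 z).hasFDerivWithinAt) (fun z _ => h2 z) (mem_univ _) (mem_univ _)
  have hper : ∀ n, Per (fun θ => (t n)⁻¹ • (A (p n) θ - A (q n) θ)) := by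
    intro n k θ
    simp only [(F.leaf _ (hp n)).per k θ, (F.leaf _ (hq n)).per k θ]
  obtain ⟨φ, E, hφ, hEc, hEp, hE⟩ := arz hc1 hc2 hper
  refine ⟨φ, E, hφ, ?_, hE⟩
  have lp' : Tendsto (fun n => p (φ n)) atTop (𝓝 s) := lp.comp hφ.tendsto_atTop
  have lq' : Tendsto (fun n => q (φ n)) atTop (𝓝 s) := lq.comp hφ.tendsto_atTop
  have hsm : ∀ s ∈ S, ContDiff ℝ ∞ (A s) := fun s hs => leaf_smooth G (F.leaf s hs)
  have he : ∀ {u : ℕ → VN N}, Tendsto u atTop (𝓝 s) →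
      Tendsto (fun n => K * ‖u n - s‖) atTop (𝓝 0) := by
    intro u hu
    have := (tendsto_iff_norm_sub_tendsto_zero.1 hu).const_mul K
    simpa using this
  have hac : Continuous (A s) := (hsm s hs).continuous
  have hac' : Continuous (fderiv ℝ (A s)) := (hsm s hs).continuous_fderiv (by simp)
  have key : ∀ om : Fo N, ContDiffOn ℝ ∞ om (tub N r) → Alt2 om (tub N r) → Closed2 om (tub N r) →
      (∀ s ∈ S, Iso om (A s)) → ∃ U : VN N → ℝ, ∀ θ, HasFDerivAt U (ctr om (A s) E θ) θ := by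
    intro om h1 h2 h3 h4
    refine limit_exact isOpen_tub convex_tub h1 h2 h3 (p := fun n => A (p (φ n)))
      (q := fun n => A (q (φ n))) (t := fun n => t (φ n)) ((hsm s hs).of_le (by simp))
      (fun n => (hsm _ (hp _)).of_le two_le_inf)
      (fun n => (hsm _ (hq _)).of_le two_le_inf) (F.leaf s hs).tub
      (fun n => (F.leaf _ (hp _)).tub) (fun n => (F.leaf _ (hq _)).tub) (fun n => h4 _ (hp _))
      (fun n => h4 _ (hq _)) (fun n => (ht _).ne') hEc ?_ ?_ ?_ ?_ ?_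
    · exact joint_lim hac (he lp') fun n θ => F.lip _ (hp _) _ hs θ
    · exact joint_lim hac (he lq') fun n θ => F.lip _ (hq _) _ hs θ
    · exact joint_lim hac' (he lp') fun n θ => F.lip' _ (hp _) _ hs θ
    · exact joint_lim hac' (he lq') fun n θ => F.lip' _ (hq _) _ hs θ
    · intro z
      have h5 := hE.tendstoLocallyUniformly
      rw [tendstoLocallyUniformly_iff_forall_tendsto] at h5
      have h6 := h5 z
      have h7 : Tendsto (fun y : ℕ × VN N => E y.2) (atTop ×ˢ 𝓝 z) (𝓝 (E z)) :=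
        (hEc.tendsto z).comp tendsto_snd
      exact (tendsto_iff_of_dist (by
        rw [Metric.uniformity_eq_comap_nhds_zero, tendsto_comap_iff] at h6
        exact h6)).1 h7
  exact ⟨hEc, hEp, key x G.xs G.xa G.xc fun s hs => (F.leaf s hs).ix,
    key y G.ys G.ya G.yc fun s hs => (F.leaf s hs).iy⟩

/-- values of limit fields -/
theorem exists_field (G : Geo r x y I) (F : LF r x y S A K) {s : VN N} (hs : s ∈ S) (θ u : VN N) :
    ∃ E ∈ Hs x y (A s), E θ = u ∧ ∀ θ', ‖E θ'‖ ≤ K * (K * ‖u‖) := by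
  -- choose the parameters
  have h1 : ∀ᶠ t : ℝ in 𝓝 0, ∃ s' ∈ S, A s' θ = A s θ + t • u := by
    have h2 : Tendsto (fun t : ℝ => A s θ + t • u) (𝓝 0) (𝓝 (A s θ)) := by
      have : Tendsto (fun t : ℝ => A s θ + t • u) (𝓝 0) (𝓝 (A s θ + (0 : ℝ) • u)) :=
        Continuous.tendsto (by fun_prop) _
      simpa using this
    exact h2.eventually (F.op s hs θ)
  obtain ⟨δ, hδ, h2⟩ := Metric.eventually_nhds_iff.1 h1
  set t : ℕ → ℝ := fun n => (δ / 2) * (1 / ((n : ℝ) + 1)) with ht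
  have ht0 : ∀ n, 0 < t n := fun n => by positivity
  have htl : Tendsto t atTop (𝓝 0) := by
    have := (tendsto_one_div_add_atTop_nhds_zero_nat (𝕜 := ℝ)).const_mul (δ / 2)
    rwa [mul_zero] at this
  have htδ : ∀ n, t n < δ := by
    intro n
    have h3 : 1 / ((n : ℝ) + 1) ≤ 1 := by
      rw [div_le_one (by positivity)]
      linarith [(Nat.cast_nonneg n : (0 : ℝ) ≤ n)]
    calc t n ≤ (δ / 2) * 1 := by
          simp only [ht]
          gcongr
      _ < δ := by linarith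
  have h3 : ∀ n, ∃ s' ∈ S, A s' θ = A s θ + t n • u := fun n => h2 (by
    rw [dist_zero_right, Real.norm_of_nonneg (ht0 n).le]
    exact htδ n)
  choose p hp hpe using h3
  have h4 : ∀ n, ‖p n - s‖ ≤ K * (t n * ‖u‖) := by
    intro n
    have := F.low _ (hp n) _ hs θ
    rwa [hpe n, add_sub_cancel_left, norm_smul, Real.norm_of_nonneg (ht0 n).le] at this
  have lp : Tendsto p atTop (𝓝 s) := by
    rw [tendsto_iff_norm_sub_tendsto_zero]
    refine squeeze_zero (fun _ => norm_nonneg _) h4 ?_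
    have := (htl.mul_const ‖u‖).const_mul K
    simpa using this
  obtain ⟨φ, E, hφ, hE, hT⟩ := limit_field G F hs (C := K * (K * ‖u‖)) hp (fun _ => hs) lp
    tendsto_const_nhds ht0 (fun n => by
      calc K * ‖p n - s‖ ≤ K * (K * (t n * ‖u‖)) := mul_le_mul_of_nonneg_left (h4 n) F.K0
        _ = K * (K * ‖u‖) * t n := by ring)
  refine ⟨E, hE, ?_, fun θ' => ?_⟩
  · refine tendsto_nhds_unique (hT.tendsto_at θ) ?_
    refine tendsto_const_nhds.congr fun n => ?_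
    simp only [hpe, add_sub_cancel_left, smul_smul, inv_mul_cancel₀ (ht0 _).ne', one_smul]
  · refine le_of_tendsto (hT.tendsto_at θ').norm (Eventually.of_forall fun n => ?_)
    rw [norm_smul, norm_inv, Real.norm_of_nonneg (ht0 _).le, inv_mul_le_iff₀ (ht0 _)]
    calc ‖A (p (φ n)) θ' - A s θ'‖ ≤ K * ‖p (φ n) - s‖ := F.lip _ (hp _) _ hs θ'
      _ ≤ K * (K * (t (φ n) * ‖u‖)) := mul_le_mul_of_nonneg_left (h4 _) F.K0
      _ = t (φ n) * (K * (K * ‖u‖)) := by ring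

/-- evaluation -/
def ev (x y : Fo N) (a : VN N → VN N) (θ : VN N) : Hs x y a →ₗ[ℝ] VN N where
  toFun E := E.1 θ
  map_add' _ _ := rfl
  map_smul' _ _ := rfl

theorem ev_bij (G : Geo r x y I) (F : LF r x y S A K) {s : VN N} (hs : s ∈ S) (θ : VN N) :
    Function.Bijective (ev x y (A s) θ) := by
  have h1 : Function.Surjective (ev x y (A s) θ) := by
    intro u
    obtain ⟨E, hE, hu, -⟩ := exists_field G F hs θ u
    exact ⟨⟨E, hE⟩, hu⟩
  have := finite_Hs G (F.leaf s hs)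
  have h2 : Module.finrank ℝ (Hs x y (A s)) = Module.finrank ℝ (VN N) := by
    refine le_antisymm ?_ (LinearMap.finrank_le_finrank_of_surjective (f := ev x y (A s) θ) h1)
    simpa using finrank_Hs_le G (F.leaf s hs)
  exact ⟨(LinearMap.injective_iff_surjective_of_finrank_eq_finrank h2).2 h1, h1⟩

theorem field_bound (G : Geo r x y I) (F : LF r x y S A K) {s : VN N} (hs : s ∈ S)
    {E : VN N → VN N} (hE : E ∈ Hs x y (A s)) (θ θ' : VN N) : ‖E θ'‖ ≤ K * (K * ‖E θ‖) := by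
  obtain ⟨E', hE', hu, hb⟩ := exists_field G F hs θ (E θ)
  have h1 : (⟨E, hE⟩ : Hs x y (A s)) = ⟨E', hE'⟩ := (ev_bij G F hs θ).1 hu.symm
  have h2 : E = E' := congrArg Subtype.val h1
  rw [h2]
  rw [h2] at hb
  exact hb θ'

/-- the derivative of the family -/
def Ms (G : Geo r x y I) (F : LF r x y S A K) {s : VN N} (hs : s ∈ S) (θ : VN N) :
    VN N ≃L[ℝ] VN N :=
  ((LinearEquiv.ofBijective _ (ev_bij G F hs 0)).symm.trans
    (LinearEquiv.ofBijective _ (ev_bij G F hs θ))).toContinuousLinearEquiv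

theorem Ms_field (G : Geo r x y I) (F : LF r x y S A K) {s : VN N} (hs : s ∈ S)
    {E : VN N → VN N} (hE : E ∈ Hs x y (A s)) (θ : VN N) : Ms G F hs θ (E 0) = E θ := by
  have h1 : (LinearEquiv.ofBijective _ (ev_bij G F hs 0)).symm (E 0) = ⟨E, hE⟩ := by
    rw [LinearEquiv.symm_apply_eq]
    rfl
  show (LinearEquiv.ofBijective _ (ev_bij G F hs θ))
    ((LinearEquiv.ofBijective _ (ev_bij G F hs 0)).symm (E 0)) = E θ
  rw [h1]
  rfl

theorem exists_field0 (G : Geo r x y I) (F : LF r x y S A K) {s : VN N} (hs : s ∈ S) (u : VN N) :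
    ∃ E ∈ Hs x y (A s), E 0 = u ∧ ∀ θ, Ms G F hs θ u = E θ := by
  obtain ⟨E, hE, hu, -⟩ := exists_field G F hs 0 u
  refine ⟨E, hE, hu, fun θ => ?_⟩
  rw [← hu]
  exact Ms_field G F hs hE θ

theorem Ms_bound (G : Geo r x y I) (F : LF r x y S A K) {s : VN N} (hs : s ∈ S) (θ u : VN N) :
    ‖Ms G F hs θ u‖ ≤ K * (K * ‖u‖) := by
  obtain ⟨E, hE, hu, h⟩ := exists_field0 G F hs u
  rw [h, ← hu]
  exact field_bound G F hs hE 0 θ

theorem Ms_cont (G : Geo r x y I) (F : LF r x y S A K) {s : VN N} (hs : s ∈ S) :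
    Continuous fun θ => (Ms G F hs θ : VN N →L[ℝ] VN N) := by
  rw [continuous_clm_apply]
  intro u
  obtain ⟨E, hE, hu, h⟩ := exists_field0 G F hs u
  exact hE.1.congr fun θ => (h θ).symm

/-- **strict differentiability of the family, uniformly along the leaves** -/
theorem strict_fam (G : Geo r x y I) (F : LF r x y S A K) {s : VN N} (hs : s ∈ S) {ε : ℝ}
    (hε : 0 < ε) : ∃ δ > 0, ∀ p ∈ S, ∀ q ∈ S, ‖p - s‖ < δ → ‖q - s‖ < δ → ∀ θ,
      ‖A p θ - A q θ - Ms G F hs θ (p - q)‖ ≤ ε * ‖p - q‖ := by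
  by_contra hcon
  push Not at hcon
  have h1 := fun n : ℕ => hcon (1 / ((n : ℝ) + 1)) (by positivity)
  choose p hp q hq hpn hqn θ hθ using h1
  have hz := tendsto_one_div_add_atTop_nhds_zero_nat (𝕜 := ℝ)
  have lp : Tendsto p atTop (𝓝 s) := by
    rw [tendsto_iff_norm_sub_tendsto_zero]
    exact squeeze_zero (fun _ => norm_nonneg _) (fun n => (hpn n).le) hz
  have lq : Tendsto q atTop (𝓝 s) := by
    rw [tendsto_iff_norm_sub_tendsto_zero]
    exact squeeze_zero (fun _ => norm_nonneg _) (fun n => (hqn n).le) hz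
  have hne : ∀ n, 0 < ‖p n - q n‖ := by
    intro n
    rcases (norm_nonneg (p n - q n)).eq_or_lt with h | h
    · exfalso
      have h2 := hθ n
      have h3 : p n = q n := by
        rw [← sub_eq_zero, ← norm_eq_zero]
        exact h.symm
      rw [h3] at h2
      simp at h2
    · exact h
  obtain ⟨φ, E, hφ, hE, hT⟩ := limit_field G F hs (C := K) (t := fun n => ‖p n - q n‖) hp hq lp lq
    hne (fun n => le_rfl)
  -- the value at 0
  set u : ℕ → VN N := fun n => (‖p (φ n) - q (φ n)‖)⁻¹ • (p (φ n) - q (φ n)) with hu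
  have h2 : Tendsto u atTop (𝓝 (E 0)) := by
    have := hT.tendsto_at 0
    refine this.congr fun n => ?_
    rw [F.norm _ (hp _), F.norm _ (hq _)]
  have h3 : ∀ᶠ n in atTop, ‖(‖p (φ n) - q (φ n)‖)⁻¹ • (A (p (φ n)) (θ (φ n)) -
      A (q (φ n)) (θ (φ n))) - E (θ (φ n))‖ < ε / 2 := by
    filter_upwards [(Metric.tendstoUniformly_iff.1 hT) (ε / 2) (by positivity)] with n hn
    have := hn (θ (φ n))
    rwa [dist_comm, dist_eq_norm] at this
  have h4 : Tendsto (fun n => K * (K * ‖E 0 - u n‖)) atTop (𝓝 0) := by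
    have h5 := ((tendsto_const_nhds (x := E 0)).sub h2).norm
    have := (h5.const_mul K).const_mul K
    simpa using this
  have h5 : ∀ᶠ n in atTop, K * (K * ‖E 0 - u n‖) < ε / 2 :=
    h4.eventually_lt_const (by positivity)
  obtain ⟨n, h6, h7⟩ := (h3.and h5).exists
  have h8 := hθ (φ n)
  have h9 : ‖Ms G F hs (θ (φ n)) (E 0 - u n)‖ < ε / 2 :=
    (Ms_bound G F hs _ _).trans_lt h7
  rw [map_sub, Ms_field G F hs hE] at h9
  have hpos := hne (φ n)
  have h10 : ‖(‖p (φ n) - q (φ n)‖)⁻¹ • (A (p (φ n)) (θ (φ n)) - A (q (φ n)) (θ (φ n)) -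
      Ms G F hs (θ (φ n)) (p (φ n) - q (φ n)))‖ < ε := by
    have e : (‖p (φ n) - q (φ n)‖)⁻¹ • (A (p (φ n)) (θ (φ n)) - A (q (φ n)) (θ (φ n)) -
        Ms G F hs (θ (φ n)) (p (φ n) - q (φ n))) =
        ((‖p (φ n) - q (φ n)‖)⁻¹ • (A (p (φ n)) (θ (φ n)) - A (q (φ n)) (θ (φ n))) -
          E (θ (φ n))) + (E (θ (φ n)) - Ms G F hs (θ (φ n)) (u n)) := by
      have e2 : Ms G F hs (θ (φ n)) (u n) =
          (‖p (φ n) - q (φ n)‖)⁻¹ • Ms G F hs (θ (φ n)) (p (φ n) - q (φ n)) := map_smul _ _ _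
      rw [e2, smul_sub]
      abel
    rw [e]
    calc _ ≤ _ := norm_add_le _ _
      _ < ε / 2 + ε / 2 := add_lt_add h6 h9
      _ = ε := by ring
  rw [norm_smul, norm_inv, norm_norm, inv_mul_lt_iff₀ hpos] at h10
  linarith

end

end Crest.Agent.R281.Tub_57
end

-- ▼ part R281/Tub6_57
section

/-!
# R281 (S0424), TUBE-HOL (helper57), part 6: the leaf function `kap` is strictly differentiable and
`kap' (I w) = J (kap' w)` with `J` depending on the leaf only
-/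

set_option autoImplicit false
set_option linter.unusedSectionVars false

open Set Filter Topology
open scoped ContDiff

namespace Crest.Agent.R281.Tub_57

open Poi_234

noncomputable section

variable {N : ℕ}

variable {r : ℝ} {x y : Fo N} {I : VN N × VN N → (VN N × VN N) →L[ℝ] (VN N × VN N)}
  {S : Set (VN N)} {A : VN N → VN N → VN N} {K : ℝ}

/-- the family is strictly differentiable jointly -/
theorem strict_A (G : Geo r x y I) (F : LF r x y S A K) {s : VN N} (hs : s ∈ S) (θ : VN N) :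
    HasStrictFDerivAt (fun z : VN N × VN N => A z.2 z.1)
      ((fderiv ℝ (A s) θ).comp (ContinuousLinearMap.fst ℝ (VN N) (VN N)) +
        (Ms G F hs θ : VN N →L[ℝ] VN N).comp (ContinuousLinearMap.snd ℝ (VN N) (VN N))) (θ, s) := by
  rw [hasStrictFDerivAt_iff_isLittleO, Asymptotics.isLittleO_iff]
  intro c hc
  have hc4 : 0 < c / 4 := by positivity
  obtain ⟨δ, hδ, h1⟩ := strict_fam G F hs hc4
  have h2 : ∀ᶠ θ' in 𝓝 θ, ‖(Ms G F hs θ' : VN N →L[ℝ] VN N) - Ms G F hs θ‖ < c / 4 := by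
    have := (Metric.tendsto_nhds.1 ((Ms_cont G F hs).tendsto θ)) (c / 4) hc4
    simpa only [dist_eq_norm] using this
  have hac' : Continuous (fderiv ℝ (A s)) :=
    (F.leaf s hs).c1.continuous_fderiv (by simp)
  have h3 : ∀ᶠ θ' in 𝓝 θ, ‖fderiv ℝ (A s) θ' - fderiv ℝ (A s) θ‖ < c / 4 := by
    have := (Metric.tendsto_nhds.1 (hac'.tendsto θ)) (c / 4) hc4
    simpa only [dist_eq_norm] using this
  obtain ⟨δ', hδ', h4⟩ := Metric.eventually_nhds_iff_ball.1 h3
  -- the neighbourhoods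
  have hS : ∀ᶠ s' in 𝓝 s, s' ∈ S := F.So.mem_nhds hs
  have hsδ : ∀ᶠ s' in 𝓝 s, ‖s' - s‖ < δ := by
    have := Metric.ball_mem_nhds s hδ
    filter_upwards [this] with s' h
    rwa [Metric.mem_ball, dist_eq_norm] at h
  have hsK : ∀ᶠ s' in 𝓝 s, K * ‖s' - s‖ < c / 4 := by
    have h5 : Tendsto (fun s' => K * ‖s' - s‖) (𝓝 s) (𝓝 (K * ‖s - s‖)) :=
      Continuous.tendsto (by fun_prop) _
    rw [sub_self, norm_zero, mul_zero] at h5
    exact h5.eventually_lt_const hc4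
  have hθδ : ∀ᶠ θ' in 𝓝 θ, θ' ∈ Metric.ball θ δ' := Metric.ball_mem_nhds _ hδ'
  have e1 : Tendsto (fun p : (VN N × VN N) × (VN N × VN N) => p.1.1) (𝓝 ((θ, s), (θ, s))) (𝓝 θ) :=
    Continuous.tendsto (by fun_prop : Continuous fun p : (VN N × VN N) × (VN N × VN N) => p.1.1)
      ((θ, s), (θ, s))
  have e2 : Tendsto (fun p : (VN N × VN N) × (VN N × VN N) => p.2.1) (𝓝 ((θ, s), (θ, s))) (𝓝 θ) :=
    Continuous.tendsto (by fun_prop : Continuous fun p : (VN N × VN N) × (VN N × VN N) => p.2.1)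
      ((θ, s), (θ, s))
  have e3 : Tendsto (fun p : (VN N × VN N) × (VN N × VN N) => p.1.2) (𝓝 ((θ, s), (θ, s))) (𝓝 s) :=
    Continuous.tendsto (by fun_prop : Continuous fun p : (VN N × VN N) × (VN N × VN N) => p.1.2)
      ((θ, s), (θ, s))
  have e4 : Tendsto (fun p : (VN N × VN N) × (VN N × VN N) => p.2.2) (𝓝 ((θ, s), (θ, s))) (𝓝 s) :=
    Continuous.tendsto (by fun_prop : Continuous fun p : (VN N × VN N) × (VN N × VN N) => p.2.2)
      ((θ, s), (θ, s))
  filter_upwards [e1.eventually h2, e1.eventually hθδ, e2.eventually hθδ, e3.eventually hS,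
    e4.eventually hS, e3.eventually hsδ, e4.eventually hsδ, e4.eventually hsK] with
    ⟨⟨θ1, s1⟩, θ2, s2⟩ k1 k2 k3 k4 k5 k6 k7 k8
  simp only at k1 k2 k3 k4 k5 k6 k7 k8 ⊢
  set M : VN N →L[ℝ] VN N := (Ms G F hs θ : VN N →L[ℝ] VN N) with hM
  set M1 : VN N →L[ℝ] VN N := (Ms G F hs θ1 : VN N →L[ℝ] VN N) with hM1
  have f1 : ‖A s1 θ1 - A s2 θ1 - M1 (s1 - s2)‖ ≤ c / 4 * ‖s1 - s2‖ := h1 s1 k4 s2 k5 k6 k7 θ1
  have f2 : ‖(M1 - M) (s1 - s2)‖ ≤ c / 4 * ‖s1 - s2‖ :=
    (ContinuousLinearMap.le_opNorm _ _).trans (by gcongr)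
  have f3 : ‖A s2 θ1 - A s2 θ2 - fderiv ℝ (A s) θ (θ1 - θ2)‖ ≤ c / 2 * ‖θ1 - θ2‖ := by
    have g1 : ∀ z, HasFDerivAt (fun z => A s2 z - fderiv ℝ (A s) θ z)
        (fderiv ℝ (A s2) z - fderiv ℝ (A s) θ) z := fun z =>
      (((F.leaf s2 k5).c1.differentiable (by simp) z).hasFDerivAt).fun_sub
        (ContinuousLinearMap.hasFDerivAt _)
    have g2 : ∀ z ∈ Metric.ball θ δ', ‖fderiv ℝ (A s2) z - fderiv ℝ (A s) θ‖ ≤ c / 2 := by
      intro z hz
      have g3 := h4 z hz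
      have g4 := F.lip' s2 k5 s hs z
      calc ‖fderiv ℝ (A s2) z - fderiv ℝ (A s) θ‖ = ‖(fderiv ℝ (A s2) z - fderiv ℝ (A s) z) +
            (fderiv ℝ (A s) z - fderiv ℝ (A s) θ)‖ := by congr 1; abel
        _ ≤ _ := norm_add_le _ _
        _ ≤ c / 2 := by linarith
    have g5 := (convex_ball θ δ').norm_image_sub_le_of_norm_hasFDerivWithin_le
      (fun z _ => (g1 z).hasFDerivWithinAt) g2 k3 k2
    refine le_trans (le_of_eq ?_) g5
    congr 1
    rw [map_sub]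
    abel
  have f4 : A s1 θ1 - A s2 θ2 - ((fderiv ℝ (A s) θ).comp (ContinuousLinearMap.fst ℝ (VN N) (VN N)) +
      M.comp (ContinuousLinearMap.snd ℝ (VN N) (VN N))) ((θ1, s1) - (θ2, s2)) =
      (A s1 θ1 - A s2 θ1 - M1 (s1 - s2)) + (M1 - M) (s1 - s2) +
        (A s2 θ1 - A s2 θ2 - fderiv ℝ (A s) θ (θ1 - θ2)) := by
    simp only [add_apply, sub_apply, ContinuousLinearMap.comp_apply, Prod.mk_sub_mk,
      ContinuousLinearMap.coe_fst', ContinuousLinearMap.coe_snd']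
    abel
  rw [f4]
  have f5 : ‖s1 - s2‖ ≤ ‖(θ1, s1) - (θ2, s2)‖ := by
    rw [Prod.mk_sub_mk]; exact le_max_right _ _
  have f6 : ‖θ1 - θ2‖ ≤ ‖(θ1, s1) - (θ2, s2)‖ := by
    rw [Prod.mk_sub_mk]; exact le_max_left _ _
  calc _ ≤ ‖(A s1 θ1 - A s2 θ1 - M1 (s1 - s2)) + (M1 - M) (s1 - s2)‖ +
        ‖A s2 θ1 - A s2 θ2 - fderiv ℝ (A s) θ (θ1 - θ2)‖ := norm_add_le _ _
    _ ≤ ‖A s1 θ1 - A s2 θ1 - M1 (s1 - s2)‖ + ‖(M1 - M) (s1 - s2)‖ +
        ‖A s2 θ1 - A s2 θ2 - fderiv ℝ (A s) θ (θ1 - θ2)‖ := by gcongr; exact norm_add_le _ _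
    _ ≤ c / 4 * ‖s1 - s2‖ + c / 4 * ‖s1 - s2‖ + c / 2 * ‖θ1 - θ2‖ := by gcongr
    _ ≤ c / 4 * ‖(θ1, s1) - (θ2, s2)‖ + c / 4 * ‖(θ1, s1) - (θ2, s2)‖ +
        c / 2 * ‖(θ1, s1) - (θ2, s2)‖ := by gcongr
    _ = c * ‖(θ1, s1) - (θ2, s2)‖ := by ring

/-- the region filled by the family -/
def OS (S : Set (VN N)) (A : VN N → VN N → VN N) : Set (VN N × VN N) :=
  {p | ∃ s ∈ S, A s p.1 = p.2}

open Classical in
/-- the leaf function -/
def kap (S : Set (VN N)) (A : VN N → VN N → VN N) (p : VN N × VN N) : VN N :=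
  if h : ∃ s ∈ S, A s p.1 = p.2 then h.choose else 0

theorem kap_mem {p : VN N × VN N} (h : p ∈ OS S A) : kap S A p ∈ S := by
  have h' : ∃ s ∈ S, A s p.1 = p.2 := h
  rw [kap, dif_pos h']
  exact h'.choose_spec.1

theorem kap_spec {p : VN N × VN N} (h : p ∈ OS S A) : A (kap S A p) p.1 = p.2 := by
  have h' : ∃ s ∈ S, A s p.1 = p.2 := h
  rw [kap, dif_pos h']
  exact h'.choose_spec.2

theorem LF.inj (F : LF r x y S A K) {s s' θ : VN N} (hs : s ∈ S) (hs' : s' ∈ S)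
    (h : A s θ = A s' θ) : s = s' := by
  have h1 := F.low s hs s' hs' θ
  rw [h, sub_self, norm_zero, mul_zero] at h1
  exact sub_eq_zero.1 (norm_le_zero_iff.1 h1)

theorem LF.kap_eq (F : LF r x y S A K) {s : VN N} (hs : s ∈ S) {p : VN N × VN N}
    (h : A s p.1 = p.2) : kap S A p = s := by
  have hp : p ∈ OS S A := ⟨s, hs, h⟩
  exact F.inj (kap_mem hp) hs ((kap_spec hp).trans h.symm)

theorem LF.kap_graph (F : LF r x y S A K) {s : VN N} (hs : s ∈ S) (θ : VN N) :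
    kap S A (θ, A s θ) = s := F.kap_eq hs rfl


/-- the derivative of `(θ, s) ↦ (θ, A s θ)` -/
def De (G : Geo r x y I) (F : LF r x y S A K) {s : VN N} (hs : s ∈ S) (θ : VN N) :
    (VN N × VN N) ≃L[ℝ] (VN N × VN N) :=
  ContinuousLinearEquiv.equivOfInverse
    ((ContinuousLinearMap.fst ℝ (VN N) (VN N)).prod
      ((fderiv ℝ (A s) θ).comp (ContinuousLinearMap.fst ℝ (VN N) (VN N)) +
        (Ms G F hs θ : VN N →L[ℝ] VN N).comp (ContinuousLinearMap.snd ℝ (VN N) (VN N))))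
    ((ContinuousLinearMap.fst ℝ (VN N) (VN N)).prod
      (((Ms G F hs θ).symm : VN N →L[ℝ] VN N).comp ((ContinuousLinearMap.snd ℝ (VN N) (VN N)) -
        (fderiv ℝ (A s) θ).comp (ContinuousLinearMap.fst ℝ (VN N) (VN N)))))
    (fun z => by ext <;> simp) (fun z => by ext <;> simp)

/-- the derivative of `kap` at `(θ, A s θ)` -/
def kd (G : Geo r x y I) (F : LF r x y S A K) {s : VN N} (hs : s ∈ S) (θ : VN N) :
    (VN N × VN N) →L[ℝ] VN N :=
  ((Ms G F hs θ).symm : VN N →L[ℝ] VN N).comp ((ContinuousLinearMap.snd ℝ (VN N) (VN N)) -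
    (fderiv ℝ (A s) θ).comp (ContinuousLinearMap.fst ℝ (VN N) (VN N)))

@[simp] theorem kd_apply (G : Geo r x y I) (F : LF r x y S A K) {s : VN N} (hs : s ∈ S)
    (θ : VN N) (w : VN N × VN N) :
    kd G F hs θ w = (Ms G F hs θ).symm (w.2 - fderiv ℝ (A s) θ w.1) := rfl

theorem kap_nhds (G : Geo r x y I) (F : LF r x y S A K) {s : VN N} (hs : s ∈ S) (θ : VN N) :
    (∀ᶠ p in 𝓝 (θ, A s θ), p ∈ OS S A) ∧ HasStrictFDerivAt (kap S A) (kd G F hs θ) (θ, A s θ) := by
  have h1 : HasStrictFDerivAt (fun z : VN N × VN N => (z.1, A z.2 z.1))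
      (De G F hs θ : (VN N × VN N) →L[ℝ] (VN N × VN N)) (θ, s) :=
    (hasStrictFDerivAt_fst).prodMk (strict_A G F hs θ)
  set g := h1.localInverse (fun z : VN N × VN N => (z.1, A z.2 z.1)) with hg
  have h2 : HasStrictFDerivAt g ((De G F hs θ).symm : (VN N × VN N) →L[ℝ] (VN N × VN N))
      (θ, A s θ) := h1.to_localInverse
  have h3 : g (θ, A s θ) = (θ, s) := h1.localInverse_apply_image
  have h4 : ∀ᶠ p in 𝓝 (θ, A s θ), ((g p).1, A (g p).2 (g p).1) = p := h1.eventually_right_inverse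
  have h5 : Tendsto g (𝓝 (θ, A s θ)) (𝓝 (θ, s)) := by
    have := h2.continuousAt.tendsto
    rwa [h3] at this
  have h6 : ∀ᶠ p in 𝓝 (θ, A s θ), (g p).2 ∈ S := by
    have : ∀ᶠ z in 𝓝 ((θ, s) : VN N × VN N), z.2 ∈ S :=
      (continuous_snd.tendsto (θ, s)).eventually (F.So.mem_nhds hs)
    exact h5.eventually this
  have h7 : ∀ᶠ p in 𝓝 (θ, A s θ), p ∈ OS S A ∧ kap S A p = (g p).2 := by
    filter_upwards [h4, h6] with p k1 k2
    have e1 : (g p).1 = p.1 := (Prod.ext_iff.1 k1).1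
    have e2 : A (g p).2 (g p).1 = p.2 := (Prod.ext_iff.1 k1).2
    rw [e1] at e2
    exact ⟨⟨_, k2, e2⟩, F.kap_eq k2 e2⟩
  refine ⟨h7.mono fun p h => h.1, ?_⟩
  have h8 : HasStrictFDerivAt (fun p => (g p).2) (kd G F hs θ) (θ, A s θ) :=
    (ContinuousLinearMap.snd ℝ (VN N) (VN N)).hasStrictFDerivAt.comp _ h2
  exact h8.congr_of_eventuallyEq (h7.mono fun p h => h.2.symm)

theorem isOpen_OS (G : Geo r x y I) (F : LF r x y S A K) : IsOpen (OS S A) := by
  rw [isOpen_iff_mem_nhds]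
  rintro ⟨θ, v⟩ ⟨s, hs, h⟩
  simp only at h
  subst h
  exact (kap_nhds G F hs θ).1

theorem kd_surj (G : Geo r x y I) (F : LF r x y S A K) {s : VN N} (hs : s ∈ S) (θ : VN N) :
    Function.Surjective (kd G F hs θ) := by
  intro u
  exact ⟨(0, Ms G F hs θ u), by simp⟩

theorem kd_ker (G : Geo r x y I) (F : LF r x y S A K) {s : VN N} (hs : s ∈ S) (θ : VN N)
    (w : VN N × VN N) : kd G F hs θ w = 0 ↔ w.2 = fderiv ℝ (A s) θ w.1 := by
  rw [kd_apply, map_eq_zero_iff _ (Ms G F hs θ).symm.injective, sub_eq_zero]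

/-- `kd` on the values of fields -/
theorem kd_field (G : Geo r x y I) (F : LF r x y S A K) {s : VN N} (hs : s ∈ S)
    {E : VN N → VN N} (hE : E ∈ Hs x y (A s)) (θ : VN N) : kd G F hs θ (0, E θ) = E 0 := by
  rw [kd_apply, map_zero, sub_zero, ← Ms_field G F hs hE θ]
  exact (Ms G F hs θ).symm_apply_apply _

theorem iD_add (a D E : VN N → VN N) : iD I a (D + E) = iD I a D + iD I a E := by
  funext θ
  have : ((0 : VN N), (D + E) θ) = (0, D θ) + (0, E θ) := by ext <;> simp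
  show (I (θ, a θ) (0, (D + E) θ)).2 - fderiv ℝ a θ (I (θ, a θ) (0, (D + E) θ)).1 =
    iD I a D θ + iD I a E θ
  rw [this, map_add, Prod.snd_add, Prod.fst_add, map_add, iD, iD]
  abel

theorem iD_smul (c : ℝ) (a D : VN N → VN N) : iD I a (c • D) = c • iD I a D := by
  funext θ
  have : ((0 : VN N), (c • D) θ) = c • ((0 : VN N), D θ) := by ext <;> simp
  show (I (θ, a θ) (0, (c • D) θ)).2 - fderiv ℝ a θ (I (θ, a θ) (0, (c • D) θ)).1 =
    c • iD I a D θ
  rw [this, map_smul, Prod.smul_snd, Prod.smul_fst, map_smul, iD, smul_sub]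

/-- **the complex structure of the parameter space** -/
theorem exists_Js (G : Geo r x y I) (F : LF r x y S A K) {s : VN N} (hs : s ∈ S) :
    ∃ J : VN N →L[ℝ] VN N, (∀ u, J (J u) = -u) ∧
      ∀ θ w, kd G F hs θ (I (θ, A s θ) w) = J (kd G F hs θ w) := by
  have L := F.leaf s hs
  let e := LinearEquiv.ofBijective _ (ev_bij G F hs 0)
  let m : Hs x y (A s) →ₗ[ℝ] Hs x y (A s) :=
    { toFun := fun E => ⟨iD I (A s) E.1, iD_mem G L E.2⟩
      map_add' := fun D E => Subtype.ext (iD_add _ _ _)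
      map_smul' := fun c E => Subtype.ext (iD_smul c _ _) }
  let J0 : VN N →ₗ[ℝ] VN N := (e : Hs x y (A s) →ₗ[ℝ] VN N) ∘ₗ m ∘ₗ (e.symm : VN N →ₗ[ℝ] Hs x y (A s))
  let J : VN N →L[ℝ] VN N := LinearMap.toContinuousLinearMap J0
  have hJ : ∀ E : Hs x y (A s), J (E.1 0) = iD I (A s) E.1 0 := by
    intro E
    show e (m (e.symm (E.1 0))) = _
    have : e.symm (E.1 0) = E := by
      rw [LinearEquiv.symm_apply_eq]
      rfl
    rw [this]
    rfl
  have key : ∀ θ w, kd G F hs θ (I (θ, A s θ) w) = J (kd G F hs θ w) := by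
    intro θ w
    -- decompose `w` in a tangent vector and a value of a field
    set u := kd G F hs θ w with hu
    obtain ⟨E, hE, hE0, hEM⟩ := exists_field0 G F hs u
    have h1 : kd G F hs θ (w - (0, E θ)) = 0 := by
      rw [map_sub, kd_field G F hs hE, hE0, ← hu, sub_self]
    rw [kd_ker] at h1
    set z := (w - (0, E θ)).1 with hz
    have h2 : w = (z, fderiv ℝ (A s) θ z) + (0, E θ) := by
      rw [← h1, hz]
      ext <;> simp
    rw [h2, map_add, map_add, leaf_I G L]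
    have h3 : kd G F hs θ (JJ I (A s) θ z, fderiv ℝ (A s) θ (JJ I (A s) θ z)) = 0 := by
      rw [kd_ker]
    have h4 : kd G F hs θ (I (θ, A s θ) (0, E θ)) = iD I (A s) E 0 := by
      have h5 := kd_field G F hs (iD_mem G L hE) θ
      rw [iD_eq, map_sub] at h5
      have h6 : kd G F hs θ ((I (θ, A s θ) (0, E θ)).1,
          fderiv ℝ (A s) θ (I (θ, A s θ) (0, E θ)).1) = 0 := by
        rw [kd_ker]
      rw [h6, sub_zero] at h5
      exact h5
    rw [h3, zero_add, h4, ← hJ ⟨E, hE⟩]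
    simp only [hE0]
  refine ⟨J, fun u => ?_, key⟩
  obtain ⟨w, hw⟩ := kd_surj G F hs 0 u
  rw [← hw, ← key, ← key, G.sq _ (L.tub 0), map_neg]

end

end Crest.Agent.R281.Tub_57
end

-- ▼ part R281/Tub7_57

/-!
# R281 (S0424), TUBE-HOL (helper57), part 7: the input of LAGT (helper673), the literal output
-/

set_option autoImplicit false
set_option linter.unusedSectionVars false

open Set Filter Topology
open scoped ContDiff NNReal

namespace Crest.Agent.R281.Tub_57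

open Poi_234

noncomputable section

variable {N : ℕ}

variable {r : ℝ} {x y : Fo N} {I : VN N × VN N → (VN N × VN N) →L[ℝ] (VN N × VN N)}

theorem near_id_open {f : VN N → VN N} {B : Set (VN N)} (hB : IsOpen B)
    (h : ∀ c ∈ B, ∀ c' ∈ B, ‖f c - f c' - (c - c')‖ ≤ 1 / 2 * ‖c - c'‖) : IsOpen (f '' B) := by
  have h1 : ApproximatesLinearOn f (ContinuousLinearMap.id ℝ (VN N)) B (1 / 2 : ℝ≥0) := by
    intro c hc c' hc'
    simpa using h c hc c' hc'
  refine h1.open_image ⟨id, 1, fun _ => by simp, fun _ => rfl⟩ hB (Or.inr ?_)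
  show (1 / 2 : ℝ≥0) < (1 : ℝ≥0)⁻¹
  rw [inv_one]
  exact NNReal.half_lt_self one_ne_zero

/-- the input (helper673's LAGT): a near-identity family of isotropic graphs -/
structure Inp (r : ℝ) (x y : Fo N) (B : Set (VN N)) (a : VN N → VN N → VN N) : Prop where
  Bo : IsOpen B
  leaf : ∀ c ∈ B, Leaf r x y (a c)
  near : ∀ c ∈ B, ∀ c' ∈ B, ∀ θ, ‖a c θ - a c' θ - (c - c')‖ ≤ 1 / 2 * ‖c - c'‖
  dnear : ∀ c ∈ B, ∀ c' ∈ B, ∀ θ, ‖fderiv ℝ (a c) θ - fderiv ℝ (a c') θ‖ ≤ ‖c - c'‖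

namespace Inp

variable {B : Set (VN N)} {a : VN N → VN N → VN N} (H : Inp r x y B a)
include H

theorem up {c c' θ : VN N} (hc : c ∈ B) (hc' : c' ∈ B) : ‖a c θ - a c' θ‖ ≤ 3 / 2 * ‖c - c'‖ := by
  have h1 := H.near c hc c' hc' θ
  calc ‖a c θ - a c' θ‖ = ‖(a c θ - a c' θ - (c - c')) + (c - c')‖ := by congr 1; abel
    _ ≤ _ := norm_add_le _ _
    _ ≤ 3 / 2 * ‖c - c'‖ := by linarith

theorem lo {c c' θ : VN N} (hc : c ∈ B) (hc' : c' ∈ B) : ‖c - c'‖ ≤ 2 * ‖a c θ - a c' θ‖ := by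
  have h1 := H.near c hc c' hc' θ
  have h2 : ‖c - c'‖ ≤ ‖a c θ - a c' θ‖ + ‖a c θ - a c' θ - (c - c')‖ := by
    calc ‖c - c'‖ = ‖(a c θ - a c' θ) - (a c θ - a c' θ - (c - c'))‖ := by congr 1; abel
      _ ≤ _ := norm_sub_le _ _
  linarith

theorem injc {c c' θ : VN N} (hc : c ∈ B) (hc' : c' ∈ B) (h : a c θ = a c' θ) : c = c' := by
  have h1 := H.lo (θ := θ) hc hc'
  rw [h, sub_self, norm_zero, mul_zero] at h1
  exact sub_eq_zero.1 (norm_le_zero_iff.1 h1)

/-- **reparametrisation by the value at `0`** -/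
theorem toLF : ∃ cs : VN N → VN N, (∀ c ∈ B, cs (a c 0) = c) ∧
    (∀ s ∈ (fun c => a c 0) '' B, cs s ∈ B ∧ a (cs s) 0 = s) ∧
    LF r x y ((fun c => a c 0) '' B) (fun s => a (cs s)) 3 ∧
    OS ((fun c => a c 0) '' B) (fun s => a (cs s)) = {p | ∃ c ∈ B, a c p.1 = p.2} := by
  set S := (fun c => a c 0) '' B with hS
  have h1 : ∀ s ∈ S, ∃ c ∈ B, a c 0 = s := fun s hs => hs
  choose! cs hcB hcs using h1
  have h2 : ∀ c ∈ B, cs (a c 0) = c := fun c hc =>
    H.injc (hcB _ ⟨c, hc, rfl⟩) hc (hcs _ ⟨c, hc, rfl⟩)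
  refine ⟨cs, h2, fun s hs => ⟨hcB s hs, hcs s hs⟩, ?_, ?_⟩
  · have hlo : ∀ s ∈ S, ∀ s' ∈ S, ‖cs s - cs s'‖ ≤ 2 * ‖s - s'‖ := by
      intro s hs s' hs'
      have := H.lo (θ := 0) (hcB s hs) (hcB s' hs')
      rwa [hcs s hs, hcs s' hs'] at this
    refine ⟨by norm_num, near_id_open H.Bo fun c hc c' hc' => H.near c hc c' hc' 0,
      fun s hs => H.leaf _ (hcB s hs), fun s hs => hcs s hs, ?_, ?_, ?_, ?_⟩
    · intro s hs s' hs' θ
      have h3 := hlo s hs s' hs'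
      exact (H.up (hcB s hs) (hcB s' hs')).trans (by linarith)
    · intro s hs s' hs' θ
      have h3 := hlo s hs s' hs'
      have h4 := norm_nonneg (s - s')
      exact (H.dnear _ (hcB s hs) _ (hcB s' hs') θ).trans (by linarith)
    · intro s hs s' hs' θ
      have h3 := H.up (θ := 0) (hcB s hs) (hcB s' hs')
      rw [hcs s hs, hcs s' hs'] at h3
      have h4 := H.lo (θ := θ) (hcB s hs) (hcB s' hs')
      linarith
    · intro s hs θ
      have h3 : IsOpen ((fun c => a c θ) '' B) :=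
        near_id_open H.Bo fun c hc c' hc' => H.near c hc c' hc' θ
      filter_upwards [h3.mem_nhds ⟨cs s, hcB s hs, rfl⟩] with v hv
      obtain ⟨c, hc, hcv⟩ := hv
      refine ⟨a c 0, ⟨c, hc, rfl⟩, ?_⟩
      simp only at hcv ⊢
      rw [h2 c hc, hcv]
  · ext p
    constructor
    · rintro ⟨s, hs, h⟩
      exact ⟨cs s, hcB s hs, h⟩
    · rintro ⟨c, hc, h⟩
      refine ⟨a c 0, ⟨c, hc, rfl⟩, ?_⟩
      simp only
      rw [h2 c hc, h]

end Inp

/-- **OUTPUT of (A)(B)(C), literal form.** `A s`, `s ∈ S`, is the family of leaves normalised by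
`A s 0 = s`; `M s θ = ∂A/∂s (θ)`; `J s` is the complex structure of the parameter space. -/
structure Out (r : ℝ) (x y : Fo N) (I : VN N × VN N → (VN N × VN N) →L[ℝ] (VN N × VN N))
    (S : Set (VN N)) (A : VN N → VN N → VN N) (k : VN N × VN N → VN N)
    (M : VN N → VN N → VN N ≃L[ℝ] VN N) (J : VN N → VN N →L[ℝ] VN N) : Prop where
  So : IsOpen S
  Oo : IsOpen {p : VN N × VN N | ∃ s ∈ S, A s p.1 = p.2}
  sub : ∀ s ∈ S, ∀ θ, (θ, A s θ) ∈ tub N r
  sm : ∀ s ∈ S, ContDiff ℝ ∞ (A s)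
  per : ∀ s ∈ S, Per (A s)
  norm : ∀ s ∈ S, A s 0 = s
  ix : ∀ s ∈ S, Iso x (A s)
  iy : ∀ s ∈ S, Iso y (A s)
  /-- the tangent planes are complex -/
  tan : ∀ s ∈ S, ∀ θ w, I (θ, A s θ) (w, fderiv ℝ (A s) θ w) =
    (JJ I (A s) θ w, fderiv ℝ (A s) θ (JJ I (A s) θ w))
  JJ2 : ∀ s ∈ S, ∀ θ w, JJ I (A s) θ (JJ I (A s) θ w) = -w
  coord : ∀ s ∈ S, ∀ θ, HCoord (JJ I (A s)) θ
  /-- the leaf function -/
  kmem : ∀ p : VN N × VN N, (∃ s ∈ S, A s p.1 = p.2) → k p ∈ S ∧ A (k p) p.1 = p.2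
  kgr : ∀ s ∈ S, ∀ θ, k (θ, A s θ) = s
  /-- uniform strict differentiability in the parameter -/
  unif : ∀ s ∈ S, ∀ ε > 0, ∃ δ > 0, ∀ p ∈ S, ∀ q ∈ S, ‖p - s‖ < δ → ‖q - s‖ < δ → ∀ θ,
    ‖A p θ - A q θ - M s θ (p - q)‖ ≤ ε * ‖p - q‖
  Mper : ∀ s ∈ S, ∀ u, Per fun θ => M s θ u
  Mc : ∀ s ∈ S, Continuous fun θ => (M s θ : VN N →L[ℝ] VN N)
  M0 : ∀ s ∈ S, ∀ u, M s 0 u = u
  /-- joint strict differentiability of `(θ, s) ↦ A s θ` -/
  dA : ∀ s ∈ S, ∀ θ, HasStrictFDerivAt (fun z : VN N × VN N => A z.2 z.1)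
      ((fderiv ℝ (A s) θ).comp (ContinuousLinearMap.fst ℝ (VN N) (VN N)) +
        (M s θ : VN N →L[ℝ] VN N).comp (ContinuousLinearMap.snd ℝ (VN N) (VN N))) (θ, s)
  /-- strict differentiability of the leaf function -/
  dk : ∀ s ∈ S, ∀ θ, ∃ k' : (VN N × VN N) →L[ℝ] VN N, HasStrictFDerivAt k k' (θ, A s θ) ∧
    (∀ w, k' w = (M s θ).symm (w.2 - fderiv ℝ (A s) θ w.1)) ∧
    ∀ w, k' (I (θ, A s θ) w) = J s (k' w)
  J2 : ∀ s ∈ S, ∀ u, J s (J s u) = -u
  /-- the closed forms `β_u = σ((0, M u), ·)` on the leaf, `β_{J u} = i β_u` -/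
  bx : ∀ s ∈ S, ∀ u, ∃ U : VN N → ℝ, ∀ θ, HasFDerivAt U (ctr x (A s) (fun θ => M s θ u) θ) θ
  bby : ∀ s ∈ S, ∀ u, ∃ U : VN N → ℝ, ∀ θ, HasFDerivAt U (ctr y (A s) (fun θ => M s θ u) θ) θ
  bJx : ∀ s ∈ S, ∀ u θ, ctr x (A s) (fun θ => M s θ (J s u)) θ =
    - ctr y (A s) (fun θ => M s θ u) θ
  bJy : ∀ s ∈ S, ∀ u θ, ctr y (A s) (fun θ => M s θ (J s u)) θ =
    ctr x (A s) (fun θ => M s θ u) θ
  /-- (C): a vertical field with exact contractions and periodic real primitive is zero -/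
  inj : ∀ s ∈ S, ∀ (D : VN N → VN N) (U U' : VN N → ℝ), (∀ θ, HasFDerivAt U (ctr x (A s) D θ) θ) →
    (∀ θ, HasFDerivAt U' (ctr y (A s) D θ) θ) → Per U → D = 0
  /-- (C): all vertical fields with exact contractions are `M u` -/
  all : ∀ s ∈ S, ∀ D : VN N → VN N, Continuous D → Per D →
    (∃ U : VN N → ℝ, ∀ θ, HasFDerivAt U (ctr x (A s) D θ) θ) →
    (∃ U : VN N → ℝ, ∀ θ, HasFDerivAt U (ctr y (A s) D θ) θ) → ∀ θ, D θ = M s θ (D 0)

theorem LF.out (G : Geo r x y I) {S : Set (VN N)} {A : VN N → VN N → VN N} {K : ℝ}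
    (F : LF r x y S A K) : ∃ (M : VN N → VN N → VN N ≃L[ℝ] VN N) (J : VN N → VN N →L[ℝ] VN N),
      Out r x y I S A (kap S A) M J := by
  classical
  set M : VN N → VN N → VN N ≃L[ℝ] VN N := fun s θ =>
    if hs : s ∈ S then Ms G F hs θ else ContinuousLinearEquiv.refl ℝ (VN N) with hM
  have hMs : ∀ s (hs : s ∈ S) θ, M s θ = Ms G F hs θ := fun s hs θ => dif_pos hs
  have hJ : ∀ s : VN N, ∃ J : VN N →L[ℝ] VN N, s ∈ S → (∀ u, J (J u) = -u) ∧
      ∀ (hs : s ∈ S) θ w, kd G F hs θ (I (θ, A s θ) w) = J (kd G F hs θ w) := by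
    intro s
    by_cases hs : s ∈ S
    · obtain ⟨J, h1, h2⟩ := exists_Js G F hs
      exact ⟨J, fun _ => ⟨h1, fun _ => h2⟩⟩
    · exact ⟨0, fun h => absurd h hs⟩
  choose J hJ using hJ
  have hM' : ∀ s (hs : s ∈ S), (fun θ => (M s θ : VN N →L[ℝ] VN N)) =
      fun θ => (Ms G F hs θ : VN N →L[ℝ] VN N) := fun s hs => by
    funext θ
    rw [hMs s hs]
  have hfield : ∀ s (hs : s ∈ S) u, ∃ E ∈ Hs x y (A s), E 0 = u ∧ (fun θ => M s θ u) = E := by
    intro s hs u
    obtain ⟨E, hE, h0, h1⟩ := exists_field0 G F hs u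
    exact ⟨E, hE, h0, funext fun θ => by rw [hMs s hs]; exact h1 θ⟩
  have hiD : ∀ s (hs : s ∈ S) (E : VN N → VN N), E ∈ Hs x y (A s) → iD I (A s) E 0 = J s (E 0) := by
    intro s hs E hE
    have h1 := (hJ s hs).2 hs 0 (0, E 0)
    rw [kd_field G F hs hE] at h1
    rw [← h1]
    have h5 := kd_field G F hs (iD_mem G (F.leaf s hs) hE) 0
    rw [iD_eq, map_sub] at h5
    have h6 : kd G F hs 0 ((I (0, A s 0) (0, E 0)).1,
        fderiv ℝ (A s) 0 (I (0, A s 0) (0, E 0)).1) = 0 := by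
      rw [kd_ker]
    rw [h6, sub_zero] at h5
    exact h5.symm
  have hMJ : ∀ s (hs : s ∈ S) u, (fun θ => M s θ (J s u)) = iD I (A s) (fun θ => M s θ u) := by
    intro s hs u
    obtain ⟨E, hE, h0, h1⟩ := hfield s hs u
    obtain ⟨E', hE', h0', h1'⟩ := hfield s hs (J s u)
    rw [h1, h1']
    have h2 := iD_mem G (F.leaf s hs) hE
    have h3 : (⟨E', hE'⟩ : Hs x y (A s)) = ⟨_, h2⟩ := by
      apply (ev_bij G F hs 0).1
      show E' 0 = iD I (A s) E 0
      rw [h0', hiD s hs E hE, h0]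
    exact congrArg Subtype.val h3
  refine ⟨M, J, ⟨F.So, isOpen_OS G F, fun s hs => (F.leaf s hs).tub,
    fun s hs => leaf_smooth G (F.leaf s hs), fun s hs => (F.leaf s hs).per, F.norm,
    fun s hs => (F.leaf s hs).ix, fun s hs => (F.leaf s hs).iy,
    fun s hs => leaf_I G (F.leaf s hs), fun s hs => leaf_J2 G (F.leaf s hs),
    fun s hs => leaf_coord G (F.leaf s hs), fun p hp => ⟨kap_mem hp, kap_spec hp⟩,
    fun s hs θ => F.kap_graph hs θ, ?_, ?_, ?_, ?_, ?_, ?_, fun s hs => (hJ s hs).1, ?_, ?_, ?_,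
    ?_, ?_, ?_⟩⟩
  · intro s hs ε hε
    obtain ⟨δ, hδ, h⟩ := strict_fam G F hs hε
    refine ⟨δ, hδ, fun p hp q hq h1 h2 θ => ?_⟩
    rw [hMs s hs]
    exact h p hp q hq h1 h2 θ
  · intro s hs u
    obtain ⟨E, hE, -, h1⟩ := hfield s hs u
    rw [h1]
    exact hE.2.1
  · intro s hs
    rw [hM' s hs]
    exact Ms_cont G F hs
  · intro s hs u
    obtain ⟨E, hE, h0, h1⟩ := hfield s hs u
    exact (congrFun h1 0).trans h0
  · intro s hs θ
    rw [hMs s hs]
    exact strict_A G F hs θ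
  · intro s hs θ
    refine ⟨kd G F hs θ, (kap_nhds G F hs θ).2, fun w => ?_, (hJ s hs).2 hs θ⟩
    rw [hMs s hs]
    rfl
  · intro s hs u
    obtain ⟨E, hE, -, h1⟩ := hfield s hs u
    rw [h1]
    exact hE.2.2.1
  · intro s hs u
    obtain ⟨E, hE, -, h1⟩ := hfield s hs u
    rw [h1]
    exact hE.2.2.2
  · intro s hs u θ
    rw [hMJ s hs, ctr_iD_x G (F.leaf s hs)]
  · intro s hs u θ
    rw [hMJ s hs, ctr_iD_y G (F.leaf s hs)]
  · intro s hs D U U' hU hU' hp
    exact zero_of_per G (F.leaf s hs) hU hU' hp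
  · intro s hs D h1 h2 h3 h4 θ
    rw [hMs s hs]
    exact (Ms_field G F hs ⟨h1, h2, h3, h4⟩ θ).symm

end

end Crest.Agent.R281.Tub_57
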