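import Mathlib
import Crest.Agent.R281.Poi_234
import Crest.Agent.R281.Mc5_673
import Crest.Agent.R281.Tub7_57

-- ▼ part R281/Qt2_922
section

/-!
# R281 (S0424), QTUBE (helper922), part 2: Stokes on the strip between two curves

`strip_stokes` : for a `C^1` 1-form `μ` and two `C^1` curves `c0`, `c1 : [0,1] → U` whose linear
interpolation stays in `U`.
-/

set_option autoImplicit false
set_option maxSynthPendingDepth 3

open Set Metric Filter Topology MeasureTheory intervalIntegral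
open scoped ContDiff

namespace Crest.Agent.R281.Qt_922

noncomputable section

variable {E : Type*} [NormedAddCommGroup E] [NormedSpace ℝ E]

/-- data of a strip -/
structure Strip2 (U : Set E) (c0 c1 c0' c1' : ℝ → E) : Prop where
  d0 : ∀ t ∈ Icc (0 : ℝ) 1, HasDerivAt c0 (c0' t) t
  d1 : ∀ t ∈ Icc (0 : ℝ) 1, HasDerivAt c1 (c1' t) t
  k0 : ContinuousOn c0' (Icc 0 1)
  k1 : ContinuousOn c1' (Icc 0 1)
  mem : ∀ s ∈ Icc (0 : ℝ) 1, ∀ t ∈ Icc (0 : ℝ) 1, c0 t + s • (c1 t - c0 t) ∈ U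

variable {U : Set E} {c0 c1 c0' c1' : ℝ → E}

theorem strip_stokes (hU : IsOpen U) {μ : E → E →L[ℝ] ℝ} (hμ : ContDiffOn ℝ 1 μ U)
    (h : Strip2 U c0 c1 c0' c1') :
    (∫ t in (0:ℝ)..1, μ (c1 t) (c1' t)) - (∫ t in (0:ℝ)..1, μ (c0 t) (c0' t)) =
      (∫ s in (0:ℝ)..1, ∫ t in (0:ℝ)..1,
        (fderiv ℝ μ (c0 t + s • (c1 t - c0 t)) (c1 t - c0 t) (c0' t + s • (c1' t - c0' t)) -
          fderiv ℝ μ (c0 t + s • (c1 t - c0 t)) (c0' t + s • (c1' t - c0' t)) (c1 t - c0 t))) +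
      ((∫ s in (0:ℝ)..1, μ (c0 1 + s • (c1 1 - c0 1)) (c1 1 - c0 1)) -
        ∫ s in (0:ℝ)..1, μ (c0 0 + s • (c1 0 - c0 0)) (c1 0 - c0 0)) := by
  set c : ℝ → ℝ → E := fun s t => c0 t + s • (c1 t - c0 t) with hc
  set A : ℝ → ℝ → ℝ := fun s t =>
    fderiv ℝ μ (c s t) (c1 t - c0 t) (c0' t + s • (c1' t - c0' t)) + μ (c s t) (c1' t - c0' t)
    with hA
  set B : ℝ → ℝ → ℝ := fun s t =>
    fderiv ℝ μ (c s t) (c0' t + s • (c1' t - c0' t)) (c1 t - c0 t) + μ (c s t) (c1' t - c0' t)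
    with hB
  have kc0 : ContinuousOn c0 (Icc 0 1) := fun t ht => (h.d0 t ht).continuousAt.continuousWithinAt
  have kc1 : ContinuousOn c1 (Icc 0 1) := fun t ht => (h.d1 t ht).continuousAt.continuousWithinAt
  have f1 : ContinuousOn (fun p : ℝ × ℝ => p.1) (Icc (0 : ℝ) 1 ×ˢ Icc (0 : ℝ) 1) :=
    continuous_fst.continuousOn
  have g0 : ContinuousOn (fun p : ℝ × ℝ => c0 p.2) (Icc (0 : ℝ) 1 ×ˢ Icc (0 : ℝ) 1) :=
    kc0.comp continuous_snd.continuousOn fun p hp => hp.2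
  have g1 : ContinuousOn (fun p : ℝ × ℝ => c1 p.2) (Icc (0 : ℝ) 1 ×ˢ Icc (0 : ℝ) 1) :=
    kc1.comp continuous_snd.continuousOn fun p hp => hp.2
  have g0' : ContinuousOn (fun p : ℝ × ℝ => c0' p.2) (Icc (0 : ℝ) 1 ×ˢ Icc (0 : ℝ) 1) :=
    h.k0.comp continuous_snd.continuousOn fun p hp => hp.2
  have g1' : ContinuousOn (fun p : ℝ × ℝ => c1' p.2) (Icc (0 : ℝ) 1 ×ˢ Icc (0 : ℝ) 1) :=
    h.k1.comp continuous_snd.continuousOn fun p hp => hp.2
  have hcc : ContinuousOn (fun p : ℝ × ℝ => c p.1 p.2) (Icc (0 : ℝ) 1 ×ˢ Icc (0 : ℝ) 1) :=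
    g0.add (f1.smul (g1.sub g0))
  have hmem : MapsTo (fun p : ℝ × ℝ => c p.1 p.2) (Icc (0 : ℝ) 1 ×ˢ Icc (0 : ℝ) 1) U :=
    fun p hp => h.mem p.1 hp.1 p.2 hp.2
  have kμ : ContinuousOn μ U := hμ.continuousOn
  have kdμ : ContinuousOn (fderiv ℝ μ) U := hμ.continuousOn_fderiv_of_isOpen hU le_rfl
  have m1 : ContinuousOn (fun p : ℝ × ℝ => μ (c p.1 p.2)) (Icc (0 : ℝ) 1 ×ˢ Icc (0 : ℝ) 1) :=
    kμ.comp hcc hmem
  have m2 : ContinuousOn (fun p : ℝ × ℝ => fderiv ℝ μ (c p.1 p.2))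
      (Icc (0 : ℝ) 1 ×ˢ Icc (0 : ℝ) 1) := kdμ.comp hcc hmem
  have vt : ContinuousOn (fun p : ℝ × ℝ => c0' p.2 + p.1 • (c1' p.2 - c0' p.2))
      (Icc (0 : ℝ) 1 ×ˢ Icc (0 : ℝ) 1) := g0'.add (f1.smul (g1'.sub g0'))
  have hAc : ContinuousOn (fun p : ℝ × ℝ => A p.1 p.2) (Icc (0 : ℝ) 1 ×ˢ Icc (0 : ℝ) 1) :=
    ((m2.clm_apply (g1.sub g0)).clm_apply vt).add (m1.clm_apply (g1'.sub g0'))
  have hBc : ContinuousOn (fun p : ℝ × ℝ => B p.1 p.2) (Icc (0 : ℝ) 1 ×ˢ Icc (0 : ℝ) 1) :=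
    ((m2.clm_apply vt).clm_apply (g1.sub g0)).add (m1.clm_apply (g1'.sub g0'))
  have hμd : ∀ z ∈ U, HasFDerivAt μ (fderiv ℝ μ z) z := fun z hz =>
    ((hμ.contDiffAt (hU.mem_nhds hz)).differentiableAt (by simp)).hasFDerivAt
  -- derivative in `s`
  have hs : ∀ t ∈ Icc (0 : ℝ) 1, ∀ s ∈ Icc (0 : ℝ) 1,
      HasDerivAt (fun s => μ (c s t) (c0' t + s • (c1' t - c0' t))) (A s t) s := by
    intro t ht s hs
    have e1 : HasDerivAt (fun s : ℝ => c s t) (c1 t - c0 t) s := by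
      have := ((hasDerivAt_id s).smul_const (c1 t - c0 t)).const_add (c0 t)
      simpa [hc] using this
    have e2 : HasDerivAt (fun s : ℝ => c0' t + s • (c1' t - c0' t)) (c1' t - c0' t) s := by
      have := ((hasDerivAt_id s).smul_const (c1' t - c0' t)).const_add (c0' t)
      simpa using this
    have e3 : HasDerivAt (fun s : ℝ => μ (c s t)) (fderiv ℝ μ (c s t) (c1 t - c0 t)) s :=
      (hμd _ (h.mem s hs t ht)).comp_hasDerivAt s e1
    exact e3.clm_apply e2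
  have ht : ∀ s ∈ Icc (0 : ℝ) 1, ∀ t ∈ Icc (0 : ℝ) 1,
      HasDerivAt (fun t => μ (c s t) (c1 t - c0 t)) (B s t) t := by
    intro s hs t ht
    have e1 : HasDerivAt (fun t : ℝ => c s t) (c0' t + s • (c1' t - c0' t)) t :=
      (h.d0 t ht).add (((h.d1 t ht).sub (h.d0 t ht)).const_smul s)
    have e3 : HasDerivAt (fun t : ℝ => μ (c s t))
        (fderiv ℝ μ (c s t) (c0' t + s • (c1' t - c0' t))) t :=
      (hμd _ (h.mem s hs t ht)).comp_hasDerivAt t e1
    exact e3.clm_apply ((h.d1 t ht).sub (h.d0 t ht))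
  have u01 : uIcc (0 : ℝ) 1 = Icc 0 1 := uIcc_of_le zero_le_one
  have iA : ∀ t ∈ Icc (0 : ℝ) 1, IntervalIntegrable (fun s => A s t) volume 0 1 := by
    intro t ht
    refine ContinuousOn.intervalIntegrable ?_
    rw [u01]
    exact hAc.comp (f := fun s : ℝ => (s, t)) (by fun_prop) fun s hs => ⟨hs, ht⟩
  have iB : ∀ s ∈ Icc (0 : ℝ) 1, IntervalIntegrable (fun t => B s t) volume 0 1 := by
    intro s hs
    refine ContinuousOn.intervalIntegrable ?_
    rw [u01]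
    exact hBc.comp (f := fun t : ℝ => (s, t)) (by fun_prop) fun t ht => ⟨hs, ht⟩
  have iA' : ∀ s ∈ Icc (0 : ℝ) 1, IntervalIntegrable (fun t => A s t) volume 0 1 := by
    intro s hs
    refine ContinuousOn.intervalIntegrable ?_
    rw [u01]
    exact hAc.comp (f := fun t : ℝ => (s, t)) (by fun_prop) fun t ht => ⟨hs, ht⟩
  have F1 : ∀ t ∈ Icc (0 : ℝ) 1,
      (∫ s in (0:ℝ)..1, A s t) = μ (c1 t) (c1' t) - μ (c0 t) (c0' t) := by
    intro t ht
    rw [integral_eq_sub_of_hasDerivAt (f := fun s => μ (c s t) (c0' t + s • (c1' t - c0' t)))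
      (fun s hs' => hs t ht s (by rwa [u01] at hs')) (iA t ht)]
    simp [hc]
  have F2 : ∀ s ∈ Icc (0 : ℝ) 1,
      (∫ t in (0:ℝ)..1, B s t) = μ (c s 1) (c1 1 - c0 1) - μ (c s 0) (c1 0 - c0 0) := by
    intro s hs
    rw [integral_eq_sub_of_hasDerivAt (f := fun t => μ (c s t) (c1 t - c0 t))
      (fun t ht' => ht s hs t (by rwa [u01] at ht')) (iB s hs)]
  have sw : (∫ t in (0:ℝ)..1, ∫ s in (0:ℝ)..1, A s t) = ∫ s in (0:ℝ)..1, ∫ t in (0:ℝ)..1, A s t := by
    refine (intervalIntegral_intervalIntegral_swap ?_).symm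
    have h1 : IntegrableOn (fun p : ℝ × ℝ => A p.1 p.2) (Icc (0 : ℝ) 1 ×ˢ Icc (0 : ℝ) 1) :=
      hAc.integrableOn_compact (isCompact_Icc.prod isCompact_Icc)
    rw [uIoc_of_le zero_le_one]
    exact h1.mono_set (prod_mono Ioc_subset_Icc_self Ioc_subset_Icc_self)
  have hint1 : IntervalIntegrable (fun t => μ (c1 t) (c1' t)) volume 0 1 := by
    refine ContinuousOn.intervalIntegrable ?_
    rw [u01]
    have h2 : ContinuousOn (fun t => μ (c1 t)) (Icc (0 : ℝ) 1) := by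
      refine kμ.comp kc1 fun t ht => ?_
      have := h.mem 1 ⟨zero_le_one, le_rfl⟩ t ht
      simpa using this
    exact h2.clm_apply h.k1
  have hint0 : IntervalIntegrable (fun t => μ (c0 t) (c0' t)) volume 0 1 := by
    refine ContinuousOn.intervalIntegrable ?_
    rw [u01]
    have h2 : ContinuousOn (fun t => μ (c0 t)) (Icc (0 : ℝ) 1) := by
      refine kμ.comp kc0 fun t ht => ?_
      have := h.mem 0 ⟨le_rfl, zero_le_one⟩ t ht
      simpa using this
    exact h2.clm_apply h.k0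
  have G1 : (∫ t in (0:ℝ)..1, μ (c1 t) (c1' t)) - (∫ t in (0:ℝ)..1, μ (c0 t) (c0' t)) =
      ∫ s in (0:ℝ)..1, ∫ t in (0:ℝ)..1, A s t := by
    rw [← sw, ← integral_sub hint1 hint0]
    refine integral_congr fun t ht' => ?_
    rw [u01] at ht'
    exact (F1 t ht').symm
  have cB : ContinuousOn (fun s => ∫ t in (0:ℝ)..1, B s t) (Icc 0 1) := by
    have h3 : ContinuousOn (fun s => μ (c s 1) (c1 1 - c0 1) - μ (c s 0) (c1 0 - c0 0))
        (Icc (0 : ℝ) 1) := by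
      refine ContinuousOn.sub ?_ ?_
      · exact (m1.comp (f := fun s : ℝ => (s, (1 : ℝ))) (by fun_prop)
          fun s hs => ⟨hs, ⟨zero_le_one, le_rfl⟩⟩).clm_apply continuousOn_const
      · exact (m1.comp (f := fun s : ℝ => (s, (0 : ℝ))) (by fun_prop)
          fun s hs => ⟨hs, ⟨le_rfl, zero_le_one⟩⟩).clm_apply continuousOn_const
    exact h3.congr fun s hs => F2 s hs
  have e1i : IntervalIntegrable (fun s => μ (c s 1) (c1 1 - c0 1)) volume 0 1 := by
    refine ContinuousOn.intervalIntegrable ?_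
    rw [u01]
    exact (m1.comp (f := fun s : ℝ => (s, (1 : ℝ))) (by fun_prop)
          fun s hs => ⟨hs, ⟨zero_le_one, le_rfl⟩⟩).clm_apply continuousOn_const
  have e0i : IntervalIntegrable (fun s => μ (c s 0) (c1 0 - c0 0)) volume 0 1 := by
    refine ContinuousOn.intervalIntegrable ?_
    rw [u01]
    exact (m1.comp (f := fun s : ℝ => (s, (0 : ℝ))) (by fun_prop)
          fun s hs => ⟨hs, ⟨le_rfl, zero_le_one⟩⟩).clm_apply continuousOn_const
  have G2 : (∫ s in (0:ℝ)..1, ∫ t in (0:ℝ)..1, B s t) =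
      (∫ s in (0:ℝ)..1, μ (c s 1) (c1 1 - c0 1)) - ∫ s in (0:ℝ)..1, μ (c s 0) (c1 0 - c0 0) := by
    rw [← integral_sub e1i e0i]
    refine integral_congr fun s hs' => ?_
    rw [u01] at hs'
    exact F2 s hs'
  have hAB : ∀ s ∈ Icc (0 : ℝ) 1, (∫ t in (0:ℝ)..1, A s t) - (∫ t in (0:ℝ)..1, B s t) =
      ∫ t in (0:ℝ)..1,
        (fderiv ℝ μ (c s t) (c1 t - c0 t) (c0' t + s • (c1' t - c0' t)) -
          fderiv ℝ μ (c s t) (c0' t + s • (c1' t - c0' t)) (c1 t - c0 t)) := by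
    intro s hs
    rw [← integral_sub (iA' s hs) (iB s hs)]
    refine integral_congr fun t _ => ?_
    simp only [hA, hB]; ring
  have cA : IntervalIntegrable (fun s => ∫ t in (0:ℝ)..1, A s t) volume 0 1 := by
    have h1 : IntegrableOn (fun p : ℝ × ℝ => A p.1 p.2) (Icc (0 : ℝ) 1 ×ˢ Icc (0 : ℝ) 1) :=
      hAc.integrableOn_compact (isCompact_Icc.prod isCompact_Icc)
    have h2 : Integrable (fun p : ℝ × ℝ => A p.1 p.2)
        ((volume.restrict (Ioc (0 : ℝ) 1)).prod (volume.restrict (Ioc (0 : ℝ) 1))) := by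
      rw [Measure.prod_restrict]
      exact h1.mono_set (prod_mono Ioc_subset_Icc_self Ioc_subset_Icc_self)
    rw [intervalIntegrable_iff_integrableOn_Ioc_of_le zero_le_one]
    have h3 := h2.integral_prod_left
    show Integrable _ _
    simpa only [integral_of_le zero_le_one] using h3
  rw [G1, ← G2, ← sub_eq_iff_eq_add, ← intervalIntegral.integral_sub cA
    (ContinuousOn.intervalIntegrable (by rwa [u01]))]
  refine integral_congr fun s hs' => ?_
  rw [u01] at hs'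
  exact hAB s hs'

end

end Crest.Agent.R281.Qt_922
end

-- ▼ part R281/Qt3_922
section

/-!
# R281 (S0424), QTUBE (helper922), part 3: the flux

`exists_flux` : for a closed periodic 2-form on the tube `|v| < r` there are functionals
`Fl k` on `C^1` periodic graphs whose differences are the integrals over the strips.
-/

set_option autoImplicit false
set_option maxSynthPendingDepth 3

open Set Metric Filter Topology MeasureTheory intervalIntegral
open scoped ContDiff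

namespace Crest.Agent.R281.Qt_922

open Crest.Agent.R281.Mc673 Crest.Agent.R281.Poi_234
open Crest.Agent.R238.Sch (ee norm_ee)

noncomputable section

variable {N : ℕ}

/-- a `C^1` periodic graph in the tube -/
structure Gr (r : ℝ) (b : V N → V N) : Prop where
  c1 : ContDiff ℝ 1 b
  per : Per b
  lt : ∀ θ, ‖b θ‖ < r

theorem kv_single (k : Fin N) : kv (Pi.single k 1) = ee k := by
  ext j
  show ((Pi.single k 1 : Fin N → ℤ) j : ℝ) = (EuclideanSpace.single k (1 : ℝ) : V N) j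
  rw [PiLp.single_apply, Pi.single_apply]
  split <;> simp

theorem convex_tube (r : ℝ) : Convex ℝ (tube N r) := by
  have : tube N r = (ContinuousLinearMap.snd ℝ (V N) (V N)) ⁻¹' ball 0 r := by
    ext p; simp [tube]
  rw [this]
  exact (convex_ball _ _).linear_preimage (ContinuousLinearMap.snd ℝ (V N) (V N)).toLinearMap

/-- the curve over the `k`-th circle -/
def cu (b : V N → V N) (k : Fin N) (t : ℝ) : W N := (t • ee k, b (t • ee k))

/-- its velocity -/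
def cu' (b : V N → V N) (k : Fin N) (t : ℝ) : W N := (ee k, fderiv ℝ b (t • ee k) (ee k))

/-- the integrand of the strip -/
def st (w : Fo N) (b0 b1 : V N → V N) (k : Fin N) (s t : ℝ) : ℝ :=
  w (t • ee k, b0 (t • ee k) + s • (b1 (t • ee k) - b0 (t • ee k)))
    (0, b1 (t • ee k) - b0 (t • ee k))
    (ee k, fderiv ℝ b0 (t • ee k) (ee k) +
      s • (fderiv ℝ b1 (t • ee k) (ee k) - fderiv ℝ b0 (t • ee k) (ee k)))

variable {r : ℝ} {w : Fo N} {b b0 b1 : V N → V N}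

theorem hasDerivAt_cu (hb : ContDiff ℝ 1 b) (k : Fin N) (t : ℝ) :
    HasDerivAt (cu b k) (cu' b k t) t := by
  have h1 : HasDerivAt (fun t : ℝ => t • (ee k : V N)) (ee k) t := by
    simpa using (hasDerivAt_id t).smul_const (ee k : V N)
  exact h1.prodMk (((hb.differentiable (by simp)) _).hasFDerivAt.comp_hasDerivAt t h1)

theorem continuous_cu' (hb : ContDiff ℝ 1 b) (k : Fin N) : Continuous (cu' b k) := by
  have h1 : Continuous fun t : ℝ => t • (ee k : V N) := by fun_prop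
  exact continuous_const.prodMk
    (((hb.continuous_fderiv (by simp)).comp h1).clm_apply continuous_const)

theorem gr_seg (h0 : Gr r b0) (h1 : Gr r b1) {s : ℝ} (hs : s ∈ Icc (0 : ℝ) 1) (θ : V N) :
    ‖b0 θ + s • (b1 θ - b0 θ)‖ < r := by
  have h2 : b0 θ + s • (b1 θ - b0 θ) = (1 - s) • b0 θ + s • b1 θ := by
    rw [smul_sub, sub_smul, one_smul]; abel
  have h3 : b0 θ + s • (b1 θ - b0 θ) ∈ ball (0 : V N) r := by
    rw [h2]
    exact (convex_ball (0 : V N) r) (by simpa using h0.lt θ) (by simpa using h1.lt θ)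
      (by linarith [hs.2]) hs.1 (by ring)
  simpa using h3

theorem strip2 (h0 : Gr r b0) (h1 : Gr r b1) (k : Fin N) :
    Strip2 (tube N r) (cu b0 k) (cu b1 k) (cu' b0 k) (cu' b1 k) where
  d0 t _ := hasDerivAt_cu h0.c1 k t
  d1 t _ := hasDerivAt_cu h1.c1 k t
  k0 := (continuous_cu' h0.c1 k).continuousOn
  k1 := (continuous_cu' h1.c1 k).continuousOn
  mem s hs t _ := by
    show ‖(cu b0 k t + s • (cu b1 k t - cu b0 k t)).2‖ < r
    exact gr_seg h0 h1 hs _

theorem exists_flux (hw : ClF r w) : ∃ Fl : Fin N → (V N → V N) → ℝ, ∀ k, ∀ b0 b1 : V N → V N,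
    Gr r b0 → Gr r b1 →
    Fl k b1 - Fl k b0 = ∫ s in (0:ℝ)..1, ∫ t in (0:ℝ)..1, st w b0 b1 k s t := by
  obtain ⟨μ, hμs, hμ⟩ := poincare2 (isOpen_tube r) (convex_tube r) hw.sm
    (fun z hz v => by have := hw.alt z hz v v; linarith) hw.cl
  have hμ1 : ContDiffOn ℝ 1 μ (tube N r) := hμs.of_le (by exact_mod_cast le_top)
  have hshift : ∀ k : Fin N, ∀ z ∈ tube N r, z + ((ee k, 0) : W N) ∈ tube N r := by
    intro k z hz
    show ‖(z + ((ee k, 0) : W N)).2‖ < r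
    rw [Prod.snd_add, add_zero]
    exact hz
  have hper : ∀ k : Fin N, ∀ z ∈ tube N r, w (z + ((ee k, 0) : W N)) = w z := by
    intro k z hz
    have := hw.per (Pi.single k 1) z hz
    rw [kv_single] at this
    rw [← this]
    congr 1
    ext1 <;> simp
  have hd : ∀ z ∈ tube N r, DifferentiableAt ℝ μ z := fun z hz =>
    (hμ1.contDiffAt ((isOpen_tube r).mem_nhds hz)).differentiableAt (by simp)
  have hν : ∀ k : Fin N, ∃ g : W N → ℝ, ∀ z ∈ tube N r,
      HasFDerivAt g (μ (z + ((ee k, 0) : W N)) - μ z) z := by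
    intro k
    refine poincare1 (isOpen_tube r) (convex_tube r)
      (θ := fun z => μ (z + ((ee k, 0) : W N)) - μ z) ?_ ?_
    · exact (hμs.comp (contDiff_id.add contDiff_const).contDiffOn
        (fun z hz => hshift k z hz)).sub hμs
    · intro z hz v u
      have e1 : fderiv ℝ (fun z => μ (z + ((ee k, 0) : W N)) - μ z) z =
          fderiv ℝ μ (z + ((ee k, 0) : W N)) - fderiv ℝ μ z := by
        have e2 : HasFDerivAt (fun z : W N => μ (z + ((ee k, 0) : W N)))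
            (fderiv ℝ μ (z + ((ee k, 0) : W N))) z := by
          have := HasFDerivAt.comp (g := μ) (f := fun z : W N => z + ((ee k, 0) : W N)) z
            (hd _ (hshift k z hz)).hasFDerivAt ((hasFDerivAt_id z).add_const ((ee k, 0) : W N))
          rw [ContinuousLinearMap.comp_id] at this
          exact this
        exact (e2.sub (hd z hz).hasFDerivAt).fderiv
      rw [e1]
      have e3 := hμ _ (hshift k z hz) v u
      have e4 := hμ z hz v u
      rw [hper k z hz, ← e4] at e3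
      simp only [_root_.sub_apply]
      linarith
  choose g hg using hν
  refine ⟨fun k b => (∫ t in (0:ℝ)..1, μ (cu b k t) (cu' b k t)) - g k (0, b 0), ?_⟩
  intro k b0 b1 h0 h1
  have key := strip_stokes (isOpen_tube r) hμ1 (strip2 h0 h1 k)
  -- the boundary terms
  have hb : ∀ s ∈ Icc (0 : ℝ) 1,
      ((0 : V N), b0 0 + s • (b1 0 - b0 0)) ∈ tube N r := fun s hs => gr_seg h0 h1 hs 0
  have hE : (∫ s in (0:ℝ)..1, μ (cu b0 k 1 + s • (cu b1 k 1 - cu b0 k 1))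
        (cu b1 k 1 - cu b0 k 1)) -
      (∫ s in (0:ℝ)..1, μ (cu b0 k 0 + s • (cu b1 k 0 - cu b0 k 0)) (cu b1 k 0 - cu b0 k 0)) =
      g k (0, b1 0) - g k (0, b0 0) := by
    have p1 : ∀ {b : V N → V N}, Per b → b (ee k) = b 0 := by
      intro b hb
      have := hb (Pi.single k 1) 0
      rwa [kv_single, zero_add] at this
    have q1 : ∀ s : ℝ, cu b0 k 1 + s • (cu b1 k 1 - cu b0 k 1) =
        (((0 : V N), b0 0 + s • (b1 0 - b0 0)) : W N) + ((ee k, 0) : W N) := by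
      intro s
      simp only [cu, one_smul, p1 h0.per, p1 h1.per]
      ext1 <;> simp
    have q2 : ∀ s : ℝ, cu b0 k 0 + s • (cu b1 k 0 - cu b0 k 0) =
        (((0 : V N), b0 0 + s • (b1 0 - b0 0)) : W N) := by
      intro s
      simp only [cu, zero_smul]
      ext1 <;> simp
    have q3 : cu b1 k 1 - cu b0 k 1 = ((0, b1 0 - b0 0) : W N) := by
      simp only [cu, one_smul, p1 h0.per, p1 h1.per]
      ext1 <;> simp
    have q4 : cu b1 k 0 - cu b0 k 0 = ((0, b1 0 - b0 0) : W N) := by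
      simp only [cu, zero_smul]
      ext1 <;> simp
    have r1 : (∫ s in (0:ℝ)..1, μ (cu b0 k 1 + s • (cu b1 k 1 - cu b0 k 1))
        (cu b1 k 1 - cu b0 k 1)) = ∫ s in (0:ℝ)..1,
        μ ((((0 : V N), b0 0 + s • (b1 0 - b0 0)) : W N) + ((ee k, 0) : W N))
          ((0, b1 0 - b0 0) : W N) :=
      intervalIntegral.integral_congr fun s _ => by
        show μ (cu b0 k 1 + s • (cu b1 k 1 - cu b0 k 1)) (cu b1 k 1 - cu b0 k 1) = _
        rw [q1 s, q3]
    have r2 : (∫ s in (0:ℝ)..1, μ (cu b0 k 0 + s • (cu b1 k 0 - cu b0 k 0))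
        (cu b1 k 0 - cu b0 k 0)) = ∫ s in (0:ℝ)..1,
        μ ((((0 : V N), b0 0 + s • (b1 0 - b0 0)) : W N)) ((0, b1 0 - b0 0) : W N) :=
      intervalIntegral.integral_congr fun s _ => by
        show μ (cu b0 k 0 + s • (cu b1 k 0 - cu b0 k 0)) (cu b1 k 0 - cu b0 k 0) = _
        rw [q2 s, q4]
    rw [r1, r2]
    have hc : Continuous fun s : ℝ => (((0 : V N), b0 0 + s • (b1 0 - b0 0)) : W N) := by
      fun_prop
    have c1 : ContinuousOn (fun s : ℝ => μ ((((0 : V N), b0 0 + s • (b1 0 - b0 0)) : W N)))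
        (Icc 0 1) := hμ1.continuousOn.comp hc.continuousOn fun s hs => hb s hs
    have c2 : ContinuousOn (fun s : ℝ => μ ((((0 : V N), b0 0 + s • (b1 0 - b0 0)) : W N) +
        ((ee k, 0) : W N))) (Icc 0 1) :=
      hμ1.continuousOn.comp (hc.add continuous_const).continuousOn
        fun s hs => hshift k _ (hb s hs)
    have u01 : uIcc (0 : ℝ) 1 = Icc 0 1 := uIcc_of_le zero_le_one
    rw [← intervalIntegral.integral_sub
      (by rw [← u01] at c2; exact (c2.clm_apply continuousOn_const).intervalIntegrable)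
      (by rw [← u01] at c1; exact (c1.clm_apply continuousOn_const).intervalIntegrable)]
    have hder : ∀ s ∈ uIcc (0 : ℝ) 1,
        HasDerivAt (fun s : ℝ => g k (((0 : V N), b0 0 + s • (b1 0 - b0 0)) : W N))
          (μ ((((0 : V N), b0 0 + s • (b1 0 - b0 0)) : W N) + ((ee k, 0) : W N))
              ((0, b1 0 - b0 0) : W N) -
            μ ((((0 : V N), b0 0 + s • (b1 0 - b0 0)) : W N)) ((0, b1 0 - b0 0) : W N)) s := by
      intro s hs
      rw [u01] at hs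
      have e1 : HasDerivAt (fun s : ℝ => (((0 : V N), b0 0 + s • (b1 0 - b0 0)) : W N))
          ((0, b1 0 - b0 0) : W N) s := by
        refine (hasDerivAt_const s (0 : V N)).prodMk ?_
        simpa using ((hasDerivAt_id s).smul_const (b1 0 - b0 0)).const_add (b0 0)
      exact (hg k _ (hb s hs)).comp_hasDerivAt s e1
    rw [intervalIntegral.integral_eq_sub_of_hasDerivAt hder]
    · simp
    · rw [← u01] at c1 c2
      exact ((c2.clm_apply continuousOn_const).sub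
        (c1.clm_apply continuousOn_const)).intervalIntegrable
  have hS : (∫ s in (0:ℝ)..1, ∫ t in (0:ℝ)..1,
        (fderiv ℝ μ (cu b0 k t + s • (cu b1 k t - cu b0 k t)) (cu b1 k t - cu b0 k t)
            (cu' b0 k t + s • (cu' b1 k t - cu' b0 k t)) -
          fderiv ℝ μ (cu b0 k t + s • (cu b1 k t - cu b0 k t))
            (cu' b0 k t + s • (cu' b1 k t - cu' b0 k t)) (cu b1 k t - cu b0 k t))) =
      ∫ s in (0:ℝ)..1, ∫ t in (0:ℝ)..1, st w b0 b1 k s t := by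
    refine intervalIntegral.integral_congr fun s hs => ?_
    refine intervalIntegral.integral_congr fun t _ => ?_
    rw [uIcc_of_le zero_le_one] at hs
    have m1 := (strip2 h0 h1 k).mem
    have q5 : cu b0 k t + s • (cu b1 k t - cu b0 k t) =
        (t • ee k, b0 (t • ee k) + s • (b1 (t • ee k) - b0 (t • ee k))) := by
      simp only [cu]; ext1 <;> simp
    have q6 : cu b1 k t - cu b0 k t = ((0, b1 (t • ee k) - b0 (t • ee k)) : W N) := by
      simp only [cu]; ext1 <;> simp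
    have q7 : cu' b0 k t + s • (cu' b1 k t - cu' b0 k t) = (ee k, fderiv ℝ b0 (t • ee k) (ee k) +
      s • (fderiv ℝ b1 (t • ee k) (ee k) - fderiv ℝ b0 (t • ee k) (ee k))) := by
      simp only [cu']; ext1 <;> simp
    have hz : (cu b0 k t + s • (cu b1 k t - cu b0 k t)) ∈ tube N r := by
      rw [q5]; exact gr_seg h0 h1 hs _
    show _ = st w b0 b1 k s t
    rw [hμ _ hz, q5, q6, q7]
    rfl
  rw [hE, hS] at key
  linarith

end

end Crest.Agent.R281.Qt_922
end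

-- ▼ part R281/Qt6_922
section

/-!
# R281 (S0424), QTUBE (helper922), part 6: derivative of the flux

For the family of helper57 (`LF`, `Out`): the flux of the leaf `A s` is differentiable in `s`,
the derivative is the period of `β_u`; the complex flux `Φ = Fl_x + i Fl_y` satisfies
`DΦ (J u) = i DΦ u`.
-/

set_option autoImplicit false
set_option maxSynthPendingDepth 3

open Set Metric Filter Topology MeasureTheory intervalIntegral
open scoped ContDiff

namespace Crest.Agent.R281.Qt_922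

open Crest.Agent.R281.Mc673 (V W Fo tube ClF isOpen_tube)
open Crest.Agent.R281.Tub_57 (Out LF ctr)
open Crest.Agent.R238.Sch (ee norm_ee)

noncomputable section

variable {N : ℕ}

/-- the integrand of the derivative of the flux -/
def psi (w : Fo N) (b : V N → V N) (M : V N → V N →L[ℝ] V N) (k : Fin N) (t : ℝ) : V N →L[ℝ] ℝ :=
  ((w (cu b k t)).flip (cu' b k t)).comp ((ContinuousLinearMap.inr ℝ (V N) (V N)).comp
    (M (t • ee k)))


/-- the derivative of the flux -/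
def dfl (w : Fo N) (b : V N → V N) (M : V N → V N →L[ℝ] V N) (k : Fin N) : V N →L[ℝ] ℝ :=
  ∫ t in (0:ℝ)..1, psi w b M k t

variable {r : ℝ} {w : Fo N} {b b' : V N → V N} {M : V N → V N →L[ℝ] V N}

theorem cu_mem (hb : Gr r b) (k : Fin N) (t : ℝ) : cu b k t ∈ tube N r := hb.lt _

theorem continuous_cu (hb : ContDiff ℝ 1 b) (k : Fin N) : Continuous (cu b k) :=
  continuous_iff_continuousAt.2 fun t => (hasDerivAt_cu hb k t).continuousAt

theorem continuous_psi (hw : ContinuousOn w (tube N r)) (hb : Gr r b) (hM : Continuous M)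
    (k : Fin N) : Continuous (psi w b M k) := by
  have h1 : Continuous fun t => w (cu b k t) :=
    hw.comp_continuous (continuous_cu hb.c1 k) fun t => cu_mem hb k t
  have h2 : Continuous fun t => (w (cu b k t)).flip (cu' b k t) :=
    ((ContinuousLinearMap.flipₗᵢ ℝ (W N) (W N) ℝ).continuous.comp h1).clm_apply
      (continuous_cu' hb.c1 k)
  have h3 : Continuous fun t : ℝ => M (t • ee k) := hM.comp (by fun_prop)
  exact h2.clm_comp (continuous_const.clm_comp h3)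

theorem dfl_apply (hw : ContinuousOn w (tube N r)) (hb : Gr r b) (hM : Continuous M)
    (k : Fin N) (u : V N) : dfl w b M k u = ∫ t in (0:ℝ)..1, psi w b M k t u :=
  ContinuousLinearMap.intervalIntegral_apply
    ((continuous_psi hw hb hM k).intervalIntegrable _ _) u

theorem continuousOn_st (hw : ContinuousOn w (tube N r)) (hb : Gr r b) (hb' : Gr r b')
    (k : Fin N) : ContinuousOn (fun p : ℝ × ℝ => st w b b' k p.1 p.2)
      (Icc (0 : ℝ) 1 ×ˢ Icc (0 : ℝ) 1) := by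
  have e1 : Continuous fun p : ℝ × ℝ => p.2 • (ee k : V N) := by fun_prop
  have e2 : Continuous fun p : ℝ × ℝ => b (p.2 • ee k) := hb.c1.continuous.comp e1
  have e3 : Continuous fun p : ℝ × ℝ => b' (p.2 • ee k) := hb'.c1.continuous.comp e1
  have e4 : Continuous fun p : ℝ × ℝ => fderiv ℝ b (p.2 • ee k) (ee k) :=
    ((hb.c1.continuous_fderiv (by simp)).comp e1).clm_apply continuous_const
  have e5 : Continuous fun p : ℝ × ℝ => fderiv ℝ b' (p.2 • ee k) (ee k) :=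
    ((hb'.c1.continuous_fderiv (by simp)).comp e1).clm_apply continuous_const
  have e6 : Continuous fun p : ℝ × ℝ =>
      ((p.2 • ee k, b (p.2 • ee k) + p.1 • (b' (p.2 • ee k) - b (p.2 • ee k))) : W N) :=
    e1.prodMk (e2.add (continuous_fst.smul (e3.sub e2)))
  have e7 : ContinuousOn (fun p : ℝ × ℝ =>
      w (p.2 • ee k, b (p.2 • ee k) + p.1 • (b' (p.2 • ee k) - b (p.2 • ee k))))
      (Icc (0 : ℝ) 1 ×ˢ Icc (0 : ℝ) 1) :=
    hw.comp e6.continuousOn fun p hp => gr_seg hb hb' hp.1 _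
  have e8 : Continuous fun p : ℝ × ℝ => ((0, b' (p.2 • ee k) - b (p.2 • ee k)) : W N) :=
    continuous_const.prodMk (e3.sub e2)
  have e9 : Continuous fun p : ℝ × ℝ => ((ee k, fderiv ℝ b (p.2 • ee k) (ee k) +
      p.1 • (fderiv ℝ b' (p.2 • ee k) (ee k) - fderiv ℝ b (p.2 • ee k) (ee k))) : W N) :=
    continuous_const.prodMk (e4.add (continuous_fst.smul (e5.sub e4)))
  exact (e7.clm_apply e8.continuousOn).clm_apply e9.continuousOn

/-- comparison of a double integral with a function of `t` -/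
theorem ii_le {f : ℝ → ℝ → ℝ} {g : ℝ → ℝ} {B : ℝ}
    (hf : ContinuousOn (fun p : ℝ × ℝ => f p.1 p.2) (Icc (0 : ℝ) 1 ×ˢ Icc (0 : ℝ) 1))
    (hg : ContinuousOn g (Icc (0 : ℝ) 1))
    (h : ∀ s ∈ Icc (0 : ℝ) 1, ∀ t ∈ Icc (0 : ℝ) 1, |f s t - g t| ≤ B) :
    |(∫ s in (0:ℝ)..1, ∫ t in (0:ℝ)..1, f s t) - ∫ t in (0:ℝ)..1, g t| ≤ B := by
  have u01 : uIcc (0 : ℝ) 1 = Icc 0 1 := uIcc_of_le zero_le_one
  have ig : IntervalIntegrable g volume 0 1 := by
    refine ContinuousOn.intervalIntegrable ?_; rwa [u01]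
  have if' : ∀ s ∈ Icc (0 : ℝ) 1, IntervalIntegrable (fun t => f s t) volume 0 1 := by
    intro s hs
    refine ContinuousOn.intervalIntegrable ?_
    rw [u01]
    exact hf.comp (f := fun t : ℝ => (s, t)) (by fun_prop) fun t ht => ⟨hs, ht⟩
  have iF : IntervalIntegrable (fun s => ∫ t in (0:ℝ)..1, f s t) volume 0 1 := by
    have h1 : IntegrableOn (fun p : ℝ × ℝ => f p.1 p.2) (Icc (0 : ℝ) 1 ×ˢ Icc (0 : ℝ) 1) :=
      hf.integrableOn_compact (isCompact_Icc.prod isCompact_Icc)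
    have h2 : Integrable (fun p : ℝ × ℝ => f p.1 p.2)
        ((volume.restrict (Ioc (0 : ℝ) 1)).prod (volume.restrict (Ioc (0 : ℝ) 1))) := by
      rw [Measure.prod_restrict]
      exact h1.mono_set (prod_mono Ioc_subset_Icc_self Ioc_subset_Icc_self)
    rw [intervalIntegrable_iff_integrableOn_Ioc_of_le zero_le_one]
    have h3 := h2.integral_prod_left
    show Integrable _ _
    simpa only [integral_of_le zero_le_one] using h3
  have hin : ∀ s ∈ Icc (0 : ℝ) 1, |(∫ t in (0:ℝ)..1, f s t) - ∫ t in (0:ℝ)..1, g t| ≤ B := by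
    intro s hs
    rw [← intervalIntegral.integral_sub (if' s hs) ig]
    have := intervalIntegral.norm_integral_le_of_norm_le_const (a := (0 : ℝ)) (b := 1) (C := B)
      (f := fun t => f s t - g t) (fun t ht => by
        rw [uIoc_of_le zero_le_one] at ht
        exact h s hs t ⟨ht.1.le, ht.2⟩)
    simpa using this
  have e1 : (∫ s in (0:ℝ)..1, ∫ t in (0:ℝ)..1, f s t) - ∫ t in (0:ℝ)..1, g t =
      ∫ s in (0:ℝ)..1, ((∫ t in (0:ℝ)..1, f s t) - ∫ t in (0:ℝ)..1, g t) := by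
    rw [intervalIntegral.integral_sub iF intervalIntegrable_const]
    simp
  rw [e1]
  have := intervalIntegral.norm_integral_le_of_norm_le_const (a := (0 : ℝ)) (b := 1) (C := B)
    (f := fun s => (∫ t in (0:ℝ)..1, f s t) - ∫ t in (0:ℝ)..1, g t) (fun s hs => by
      rw [uIoc_of_le zero_le_one] at hs
      exact hin s ⟨hs.1.le, hs.2⟩)
  simpa using this

/-- **derivative of the flux along a family** -/
theorem flux_hasFDerivAt {Fl : (V N → V N) → ℝ} {k : Fin N} (hw : ContinuousOn w (tube N r))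
    (hFl : ∀ b0 b1 : V N → V N, Gr r b0 → Gr r b1 →
      Fl b1 - Fl b0 = ∫ s in (0:ℝ)..1, ∫ t in (0:ℝ)..1, st w b0 b1 k s t)
    {S : Set (V N)} (hS : IsOpen S) {A : V N → V N → V N} (hA : ∀ s ∈ S, Gr r (A s)) {K : ℝ}
    (hK : 0 ≤ K) (hlip : ∀ s ∈ S, ∀ s' ∈ S, ∀ θ, ‖A s θ - A s' θ‖ ≤ K * ‖s - s'‖)
    (hlip' : ∀ s ∈ S, ∀ s' ∈ S, ∀ θ, ‖fderiv ℝ (A s) θ - fderiv ℝ (A s') θ‖ ≤ K * ‖s - s'‖)
    {s : V N} (hs : s ∈ S) {M : V N → V N →L[ℝ] V N} (hM : Continuous M)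
    (hu : ∀ ε > 0, ∃ δ > 0, ∀ p ∈ S, ‖p - s‖ < δ → ∀ θ,
      ‖A p θ - A s θ - M θ (p - s)‖ ≤ ε * ‖p - s‖) :
    HasFDerivAt (fun s => Fl (A s)) (dfl w (A s) M k) s := by
  have hb := hA s hs
  -- bounds on the curve
  have cG : Continuous (cu (A s) k) := continuous_cu hb.c1 k
  have cG' : Continuous (cu' (A s) k) := continuous_cu' hb.c1 k
  set Γ : Set (W N) := cu (A s) k '' Icc 0 1 with hΓ
  have hΓc : IsCompact Γ := isCompact_Icc.image cG
  have hΓt : Γ ⊆ tube N r := by rintro _ ⟨t, -, rfl⟩; exact cu_mem hb k t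
  obtain ⟨C1, hC1⟩ := (isCompact_Icc (a := (0 : ℝ)) (b := 1)).exists_bound_of_continuousOn
    (f := fun t => w (cu (A s) k t))
    (hw.comp cG.continuousOn fun t _ => cu_mem hb k t)
  obtain ⟨G0, hG0⟩ := (isCompact_Icc (a := (0 : ℝ)) (b := 1)).exists_bound_of_continuousOn
    (f := cu' (A s) k) cG'.continuousOn
  obtain ⟨Mb, hMb⟩ := (isCompact_Icc (a := (0 : ℝ)) (b := 1)).exists_bound_of_continuousOn
    (f := fun t : ℝ => M (t • ee k)) (hM.comp (by fun_prop)).continuousOn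
  have h0 : (0 : ℝ) ∈ Icc (0 : ℝ) 1 := ⟨le_rfl, zero_le_one⟩
  have C10 : 0 ≤ C1 := (norm_nonneg _).trans (hC1 0 h0)
  have G00 : 0 ≤ G0 := (norm_nonneg _).trans (hG0 0 h0)
  have Mb0 : 0 ≤ Mb := (norm_nonneg _).trans (hMb 0 h0)
  rw [hasFDerivAt_iff_isLittleO_nhds_zero, Asymptotics.isLittleO_iff]
  intro c hc
  -- the constants
  set Q : ℝ := 1 + K * (G0 + K) + (G0 + K) * C1 + C1 * Mb * K with hQ
  have hQ1 : 1 ≤ Q := by
    have q1 := mul_nonneg hK (add_nonneg G00 hK)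
    have q2 := mul_nonneg (add_nonneg G00 hK) C10
    have q3 := mul_nonneg (mul_nonneg C10 Mb0) hK
    rw [hQ]; linarith
  have hQ0 : 0 < Q := by linarith
  set η : ℝ := c / Q with hη
  have hη0 : 0 < η := by positivity
  obtain ⟨δ1, hδ1, H1⟩ := hu η hη0
  -- uniform continuity
  have huc := hΓc.uniformContinuousAt_of_continuousAt w
    (fun a ha => hw.continuousAt ((isOpen_tube r).mem_nhds (hΓt ha))) (dist_mem_uniformity hη0)
  obtain ⟨δ2, hδ2, H2⟩ := mem_uniformity_dist.1 huc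
  obtain ⟨δ3, hδ3, H3⟩ := Metric.isOpen_iff.1 hS s hs
  have hK1 : 0 < K + 1 := by linarith
  filter_upwards [ball_mem_nhds (0 : V N) (lt_min (lt_min hδ1 hδ3)
    (lt_min (div_pos hδ2 hK1) (lt_min hη0 one_pos)))] with h hh
  rw [mem_ball_zero_iff] at hh
  have n1 : ‖h‖ < δ1 := hh.trans_le ((min_le_left _ _).trans (min_le_left _ _))
  have n3 : ‖h‖ < δ3 := hh.trans_le ((min_le_left _ _).trans (min_le_right _ _))
  have n2 : ‖h‖ < δ2 / (K + 1) := hh.trans_le ((min_le_right _ _).trans (min_le_left _ _))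
  have n4 : ‖h‖ < η := hh.trans_le ((min_le_right _ _).trans
    ((min_le_right _ _).trans (min_le_left _ _)))
  have n5 : ‖h‖ < 1 := hh.trans_le ((min_le_right _ _).trans
    ((min_le_right _ _).trans (min_le_right _ _)))
  have hsh : s + h ∈ S := H3 (by simpa using n3)
  have hb' := hA _ hsh
  have hd := hFl _ _ hb hb'
  rw [hd, dfl_apply hw hb hM]
  refine (ii_le (continuousOn_st hw hb hb' k)
    ((continuous_psi hw hb hM k).clm_apply continuous_const).continuousOn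
    (B := c * ‖h‖) fun σ hσ t ht => ?_).trans le_rfl
  -- pointwise estimate
  have hsub : s + h - s = h := by abel
  set β : V N := A (s + h) (t • ee k) - A s (t • ee k) with hβ
  set dγ : V N := fderiv ℝ (A (s + h)) (t • ee k) (ee k) - fderiv ℝ (A s) (t • ee k) (ee k)
    with hdγ
  have b1 : ‖β‖ ≤ K * ‖h‖ := by
    have := hlip _ hsh _ hs (t • ee k)
    rwa [hsub] at this
  have b2 : ‖dγ‖ ≤ K * ‖h‖ := by
    have h4 := hlip' _ hsh _ hs (t • ee k)
    rw [hsub] at h4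
    calc ‖dγ‖ = ‖(fderiv ℝ (A (s + h)) (t • ee k) - fderiv ℝ (A s) (t • ee k)) (ee k)‖ := rfl
      _ ≤ ‖fderiv ℝ (A (s + h)) (t • ee k) - fderiv ℝ (A s) (t • ee k)‖ * ‖(ee k : V N)‖ :=
        ContinuousLinearMap.le_opNorm _ _
      _ ≤ _ := by rw [norm_ee, mul_one]; exact h4
  have b3 : ‖β - M (t • ee k) h‖ ≤ η * ‖h‖ := by
    have := H1 _ hsh (by rwa [hsub]) (t • ee k)
    rwa [hsub] at this
  set q : W N := (t • ee k, A s (t • ee k) + σ • β) with hq
  have b4 : ‖w q - w (cu (A s) k t)‖ ≤ η := by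
    have h4 : dist (cu (A s) k t) q < δ2 := by
      rw [dist_comm, dist_eq_norm]
      have : q - cu (A s) k t = (0, σ • β) := by
        rw [hq]; simp only [cu]; ext1 <;> simp
      rw [this]
      have h5 : ‖((0 : V N), σ • β)‖ = ‖σ • β‖ := by simp [Prod.norm_def]
      rw [h5, norm_smul, Real.norm_of_nonneg hσ.1]
      calc σ * ‖β‖ ≤ 1 * (K * ‖h‖) := mul_le_mul hσ.2 b1 (norm_nonneg _) zero_le_one
        _ ≤ (K + 1) * ‖h‖ := by nlinarith [norm_nonneg h]
        _ < (K + 1) * (δ2 / (K + 1)) := by gcongr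
        _ = δ2 := by field_simp
    have h6 := H2 h4 ⟨t, ht, rfl⟩
    rw [mem_ofPred_eq, dist_comm, dist_eq_norm] at h6
    exact h6.le
  have b5 : ‖cu' (A s) k t‖ ≤ G0 := hG0 t ht
  have b6 : ‖cu' (A s) k t + ((0, σ • dγ) : W N)‖ ≤ G0 + K := by
    refine (norm_add_le _ _).trans (add_le_add b5 ?_)
    have h5 : ‖((0 : V N), σ • dγ)‖ = ‖σ • dγ‖ := by simp [Prod.norm_def]
    rw [h5, norm_smul, Real.norm_of_nonneg hσ.1]
    calc σ * ‖dγ‖ ≤ 1 * (K * ‖h‖) := mul_le_mul hσ.2 b2 (norm_nonneg _) zero_le_one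
      _ ≤ K := by nlinarith [norm_nonneg h]
  have key : st w (A s) (A (s + h)) k σ t - psi w (A s) M k t h =
      (w q - w (cu (A s) k t)) (0, β) (cu' (A s) k t + ((0, σ • dγ) : W N)) +
      w (cu (A s) k t) (0, β - M (t • ee k) h) (cu' (A s) k t + ((0, σ • dγ) : W N)) +
      w (cu (A s) k t) (0, M (t • ee k) h) ((0, σ • dγ) : W N) := by
    have e1 : st w (A s) (A (s + h)) k σ t = w q (0, β) (cu' (A s) k t + ((0, σ • dγ) : W N)) := by
      have : cu' (A s) k t + ((0, σ • dγ) : W N) =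
          (ee k, fderiv ℝ (A s) (t • ee k) (ee k) + σ • dγ) := by
        simp only [cu']; ext1 <;> simp
      rw [this]; rfl
    have e2 : psi w (A s) M k t h = w (cu (A s) k t) (0, M (t • ee k) h) (cu' (A s) k t) := rfl
    have e3 : ((0, β - M (t • ee k) h) : W N) = ((0, β) : W N) - (0, M (t • ee k) h) := by
      ext1 <;> simp
    rw [e1, e2, e3]
    simp only [map_sub, map_add, _root_.sub_apply]
    ring
  have nn : ∀ v : V N, ‖((0, v) : W N)‖ = ‖v‖ := fun v => by simp [Prod.norm_def]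
  rw [key]
  have t1 : ‖(w q - w (cu (A s) k t)) (0, β) (cu' (A s) k t + ((0, σ • dγ) : W N))‖ ≤
      η * (K * ‖h‖) * (G0 + K) := by
    refine (ContinuousLinearMap.le_opNorm₂ _ _ _).trans ?_
    rw [nn]
    gcongr
  have t2 : ‖w (cu (A s) k t) (0, β - M (t • ee k) h) (cu' (A s) k t + ((0, σ • dγ) : W N))‖ ≤
      C1 * (η * ‖h‖) * (G0 + K) := by
    refine (ContinuousLinearMap.le_opNorm₂ _ _ _).trans ?_
    rw [nn]
    have := hC1 t ht
    gcongr
  have t3 : ‖w (cu (A s) k t) (0, M (t • ee k) h) ((0, σ • dγ) : W N)‖ ≤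
      C1 * (Mb * ‖h‖) * (K * η) := by
    refine (ContinuousLinearMap.le_opNorm₂ _ _ _).trans ?_
    rw [nn, nn]
    have h5 := hC1 t ht
    have h6 : ‖M (t • ee k) h‖ ≤ Mb * ‖h‖ :=
      ((M (t • ee k)).le_opNorm h).trans (mul_le_mul_of_nonneg_right (hMb t ht) (norm_nonneg _))
    have h7 : ‖σ • dγ‖ ≤ K * η := by
      rw [norm_smul, Real.norm_of_nonneg hσ.1]
      calc σ * ‖dγ‖ ≤ 1 * (K * ‖h‖) := mul_le_mul hσ.2 b2 (norm_nonneg _) zero_le_one
        _ ≤ K * η := by rw [one_mul]; gcongr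
    gcongr
  have t4 : |(w q - w (cu (A s) k t)) (0, β) (cu' (A s) k t + ((0, σ • dγ) : W N)) +
      w (cu (A s) k t) (0, β - M (t • ee k) h) (cu' (A s) k t + ((0, σ • dγ) : W N)) +
      w (cu (A s) k t) (0, M (t • ee k) h) ((0, σ • dγ) : W N)| ≤
      η * (K * ‖h‖) * (G0 + K) + C1 * (η * ‖h‖) * (G0 + K) + C1 * (Mb * ‖h‖) * (K * η) := by
    refine (abs_add_le _ _).trans (add_le_add ((abs_add_le _ _).trans (add_le_add ?_ ?_)) ?_)
    · exact t1
    · exact t2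
    · exact t3
  refine t4.trans ?_
  have e5 : η * (K * ‖h‖) * (G0 + K) + C1 * (η * ‖h‖) * (G0 + K) + C1 * (Mb * ‖h‖) * (K * η) =
      η * (Q - 1) * ‖h‖ := by rw [hQ]; ring
  rw [e5]
  have e6 : η * Q = c := by rw [hη]; field_simp
  nlinarith [norm_nonneg h, mul_nonneg hη0.le (norm_nonneg h)]

end

end Crest.Agent.R281.Qt_922
end

-- ▼ part R281/Qt4_877
section

/-!
# Row 281 (S0424), QTUBE of helper922 (#8358), Qt4 = SELECTION (helper877)

`exists_sel`   : `P : V → H` real linear, `P (J₀ c) = i P c`, `‖c‖ ≤ m ‖P c‖`, `dim_ℝ V = 2 n`: there is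
                 a complex linear `L : H → ℂⁿ` with `‖L z‖ ≤ ‖z‖`, `‖L (P c)‖ = ‖P c‖` and `L ∘ P`
                 bijective
`Near`         : `‖F c - F c' - P (c - c')‖ ≤ η ‖c - c'‖` on `ball 0 R`
`Near.lower`, `Near.injOn`, `Near.ball_sub`, `Near.isCompact` : the consequences for `L ∘ F`
`sel`          : everything together for `V N = ℝᴺ`, `N = 2 n`
-/

set_option autoImplicit false
set_option linter.unusedSectionVars false

open Set Metric Filter Topology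

namespace Crest.Agent.R281.Qt4_877

noncomputable section

/-! ### selection -/

section Sel

variable {V H : Type*} [NormedAddCommGroup V] [NormedSpace ℝ V] [FiniteDimensional ℝ V]
  [NormedAddCommGroup H] [InnerProductSpace ℂ H] [FiniteDimensional ℂ H]

/-- the range of `P` as a complex subspace -/
def rg (P : V →L[ℝ] H) (J₀ : V → V) (hJ : ∀ c, P (J₀ c) = Complex.I • P c) : Submodule ℂ H where
  carrier := range P
  add_mem' := by
    rintro _ _ ⟨a, rfl⟩ ⟨b, rfl⟩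
    exact ⟨a + b, map_add _ _ _⟩
  zero_mem' := ⟨0, map_zero _⟩
  smul_mem' := by
    rintro z _ ⟨a, rfl⟩
    refine ⟨z.re • a + z.im • J₀ a, ?_⟩
    rw [map_add, map_smul, map_smul, hJ]
    conv_rhs => rw [← Complex.re_add_im z]
    rw [add_smul, mul_smul]
    rfl

theorem exists_sel {n : ℕ} (hn : Module.finrank ℝ V = 2 * n) (P : V →L[ℝ] H) (J₀ : V → V)
    (hJ : ∀ c, P (J₀ c) = Complex.I • P c) {m : ℝ} (hm : ∀ c, ‖c‖ ≤ m * ‖P c‖) :
    ∃ L : H →L[ℂ] EuclideanSpace ℂ (Fin n), (∀ z, ‖L z‖ ≤ ‖z‖) ∧ (∀ c, ‖L (P c)‖ = ‖P c‖) ∧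
      Function.Bijective (fun c => L (P c)) := by
  set S := rg P J₀ hJ with hS
  have hinj : Function.Injective P := by
    rw [injective_iff_map_eq_zero]
    intro c hc
    have := hm c
    rw [hc, norm_zero, mul_zero] at this
    exact norm_le_zero_iff.1 this
  -- dimension
  have hdim : Module.finrank ℂ S = n := by
    have h1 : Module.finrank ℝ S = 2 * n := by
      rw [← hn]
      let e : V →ₗ[ℝ] S := 
        { toFun := fun c => ⟨P c, c, rfl⟩
          map_add' := fun a b => Subtype.ext (map_add P a b)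
          map_smul' := fun t a => Subtype.ext (map_smul P t a) }
      have hb : Function.Bijective e := by
        constructor
        · intro a b hab
          exact hinj (congrArg Subtype.val hab)
        · rintro ⟨_, c, rfl⟩
          exact ⟨c, rfl⟩
      exact (LinearEquiv.ofBijective e hb).finrank_eq.symm
    have h2 := Module.finrank_mul_finrank ℝ ℂ S
    rw [Complex.finrank_real_complex, h1] at h2
    omega
  let b := (stdOrthonormalBasis ℂ S).reindex (finCongr hdim)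
  let L : H →L[ℂ] EuclideanSpace ℂ (Fin n) :=
    (b.repr.toContinuousLinearEquiv : S →L[ℂ] EuclideanSpace ℂ (Fin n)).comp S.orthogonalProjectionOnto
  have hLn : ∀ z, ‖L z‖ = ‖S.orthogonalProjectionOnto z‖ := fun z => b.repr.norm_map _
  have hmem : ∀ c, P c ∈ S := fun c => ⟨c, rfl⟩
  have hLP : ∀ c, ‖L (P c)‖ = ‖P c‖ := by
    intro c
    rw [hLn, Submodule.orthogonalProjectionOnto_mem_subspace_eq_self (⟨P c, hmem c⟩ : S)]
    rfl
  refine ⟨L, fun z => ?_, hLP, ?_, ?_⟩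
  · rw [hLn]
    exact S.norm_orthogonalProjectionOnto_apply_le z
  · intro a c hac
    have h1 : L (P (a - c)) = 0 := by
      rw [map_sub, map_sub]
      exact sub_eq_zero.2 hac
    have h2 := hLP (a - c)
    rw [h1, norm_zero] at h2
    have h3 := hm (a - c)
    rw [← h2, mul_zero] at h3
    exact sub_eq_zero.1 (norm_le_zero_iff.1 h3)
  · intro y
    obtain ⟨c, hc⟩ := (b.repr.symm y).2
    refine ⟨c, ?_⟩
    show b.repr (S.orthogonalProjectionOnto (P c)) = y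
    rw [hc, Submodule.orthogonalProjectionOnto_mem_subspace_eq_self]
    exact b.repr.apply_symm_apply y

end Sel

/-! ### near-linear maps -/

section NearS

variable {V H G : Type*} [NormedAddCommGroup V] [NormedSpace ℝ V] [FiniteDimensional ℝ V]
  [NormedAddCommGroup H] [NormedSpace ℝ H] [NormedAddCommGroup G] [NormedSpace ℝ G]

/-- `F` is close to the linear map `P` on `ball 0 R` -/
def Near (F : V → H) (P : V →L[ℝ] H) (η R : ℝ) : Prop :=
  ∀ c ∈ ball (0 : V) R, ∀ c' ∈ ball (0 : V) R, ‖F c - F c' - P (c - c')‖ ≤ η * ‖c - c'‖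

variable {F : V → H} {P : V →L[ℝ] H} {η R m : ℝ}

theorem Near.comp (h : Near F P η R) (L : H →L[ℝ] G) (hL : ∀ z, ‖L z‖ ≤ ‖z‖) :
    Near (fun c => L (F c)) (L.comp P) η R := by
  intro c hc c' hc'
  have : L (F c) - L (F c') - (L.comp P) (c - c') = L (F c - F c' - P (c - c')) := by
    simp only [map_sub, ContinuousLinearMap.comp_apply]
  rw [this]
  exact (hL _).trans (h c hc c' hc')

theorem Near.lower (h : Near F P η R) (hm0 : 0 < m) (hm : ∀ c, ‖c‖ ≤ m * ‖P c‖)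
    (hη : η * m ≤ 1 / 2) {c c' : V} (hc : c ∈ ball (0 : V) R) (hc' : c' ∈ ball (0 : V) R) :
    ‖c - c'‖ / (2 * m) ≤ ‖F c - F c'‖ := by
  have h1 := h c hc c' hc'
  have h2 := hm (c - c')
  have h3 : ‖P (c - c')‖ ≤ ‖F c - F c'‖ + ‖F c - F c' - P (c - c')‖ := by
    have : P (c - c') = (F c - F c') - (F c - F c' - P (c - c')) := by abel
    calc ‖P (c - c')‖ = ‖(F c - F c') - (F c - F c' - P (c - c'))‖ := by rw [← this]
      _ ≤ _ := norm_sub_le _ _
  rw [div_le_iff₀ (by positivity)]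
  have h4 : m * ‖P (c - c')‖ ≤ m * (‖F c - F c'‖ + η * ‖c - c'‖) :=
    mul_le_mul_of_nonneg_left (h3.trans (by linarith)) hm0.le
  have h5 : η * m * ‖c - c'‖ ≤ 1 / 2 * ‖c - c'‖ := mul_le_mul_of_nonneg_right hη (norm_nonneg _)
  nlinarith

theorem Near.injOn (h : Near F P η R) (hm0 : 0 < m) (hm : ∀ c, ‖c‖ ≤ m * ‖P c‖)
    (hη : η * m ≤ 1 / 2) : InjOn F (ball 0 R) := by
  intro c hc c' hc' hcc
  have := h.lower hm0 hm hη hc hc'
  rw [hcc, sub_self, norm_zero, div_le_iff₀ (by positivity), zero_mul] at this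
  exact sub_eq_zero.1 (norm_le_zero_iff.1 this)

theorem Near.continuousOn (h : Near F P η R) : ContinuousOn F (ball 0 R) := by
  have hlip : LipschitzOnWith (Real.toNNReal (‖P‖ + |η|)) F (ball 0 R) := by
    refine LipschitzOnWith.of_dist_le_mul fun c hc c' hc' => ?_
    rw [Real.coe_toNNReal _ (by positivity), dist_eq_norm, dist_eq_norm]
    have h1 := h c hc c' hc'
    have h2 : ‖F c - F c'‖ ≤ ‖P (c - c')‖ + ‖F c - F c' - P (c - c')‖ := by
      have : F c - F c' = P (c - c') + (F c - F c' - P (c - c')) := by abel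
      calc ‖F c - F c'‖ = ‖P (c - c') + (F c - F c' - P (c - c'))‖ := by rw [← this]
        _ ≤ _ := norm_add_le _ _
    have h3 := P.le_opNorm (c - c')
    have h4 : η * ‖c - c'‖ ≤ |η| * ‖c - c'‖ :=
      mul_le_mul_of_nonneg_right (le_abs_self _) (norm_nonneg _)
    linarith
  exact hlip.continuousOn

/-- the image contains a ball -/
theorem Near.ball_sub [CompleteSpace G] {F : V → G} {P : V →L[ℝ] G} (h : Near F P η R)
    (hm0 : 0 < m) (hm : ∀ c, ‖c‖ ≤ m * ‖P c‖) (hη0 : 0 ≤ η) (hη : η * m ≤ 1 / 2)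
    (hP : Function.Surjective P) :
    ball (F 0) (R / (2 * m)) ⊆ F '' ball 0 R := by
  have : ProperSpace V := FiniteDimensional.proper_real V
  intro y hy
  rw [mem_ball, lt_div_iff₀ (by positivity)] at hy
  set r := dist y (F 0) * (2 * m) with hr
  have hr0 : 0 ≤ r := by positivity
  let g : G → V := fun y => (hP y).choose
  have hg : ∀ y, P (g y) = y := fun y => (hP y).choose_spec
  let N : P.NonlinearRightInverse :=
    { toFun := g
      nnnorm := ⟨m, hm0.le⟩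
      bound' := fun y => by
        have := hm (g y)
        rw [hg] at this
        exact this
      right_inv' := hg }
  have happ : ApproximatesLinearOn F P (ball 0 R) ⟨η, hη0⟩ := by
    intro c hc c' hc'
    exact h c hc c' hc'
  have hsub : closedBall (0 : V) r ⊆ ball 0 R := closedBall_subset_ball hy
  have h1 := happ.surjOn_closedBall_of_nonlinearRightInverse N hr0 hsub
  have h2 : y ∈ closedBall (F 0) ((((N.nnnorm : ℝ))⁻¹ - (⟨η, hη0⟩ : NNReal)) * r) := by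
    rw [mem_closedBall]
    have e : ((N.nnnorm : ℝ)) = m := rfl
    rw [e]
    show dist y (F 0) ≤ (m⁻¹ - η) * r
    have h3 : (2 * m)⁻¹ ≤ m⁻¹ - η := by
      have h4 : η ≤ 1 / 2 / m := (le_div_iff₀ hm0).2 hη
      have h5 : m⁻¹ = (2 * m)⁻¹ + 1 / 2 / m := by field_simp; norm_num
      linarith
    calc dist y (F 0) = (2 * m)⁻¹ * r := by rw [hr]; field_simp
      _ ≤ (m⁻¹ - η) * r := mul_le_mul_of_nonneg_right h3 hr0
  obtain ⟨c, hc, hcy⟩ := h1 h2
  exact ⟨c, hsub hc, hcy⟩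

/-- compact preimages -/
theorem Near.isCompact (h : Near F P η R) (hm0 : 0 < m) (hm : ∀ c, ‖c‖ ≤ m * ‖P c‖)
    (hη : η * m ≤ 1 / 2) {R' : ℝ} (hR' : R' < R / (2 * m)) :
    IsCompact {c | c ∈ ball (0 : V) R ∧ ‖F c - F 0‖ ≤ R'} := by
  have : ProperSpace V := FiniteDimensional.proper_real V
  rcases lt_or_ge R' 0 with h0 | h0
  · have : {c | c ∈ ball (0 : V) R ∧ ‖F c - F 0‖ ≤ R'} = ∅ := by
      ext c
      simp only [mem_ofPred_eq, mem_empty_iff_false, iff_false, not_and, not_le]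
      intro _
      exact lt_of_lt_of_le h0 (norm_nonneg _)
    rw [this]
    exact isCompact_empty
  have hR'' : 2 * m * R' < R := by
    rw [lt_div_iff₀ (by positivity)] at hR'
    linarith
  have hR : 0 < R := lt_of_le_of_lt (by positivity) hR''
  have hsub : closedBall (0 : V) (2 * m * R') ⊆ ball 0 R := closedBall_subset_ball hR''
  have e : {c | c ∈ ball (0 : V) R ∧ ‖F c - F 0‖ ≤ R'} =
      closedBall (0 : V) (2 * m * R') ∩ (fun c => ‖F c - F 0‖) ⁻¹' Iic R' := by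
    ext c
    constructor
    · rintro ⟨hc, hc'⟩
      refine ⟨?_, hc'⟩
      have h1 := h.lower hm0 hm hη hc (mem_ball_self hR)
      rw [sub_zero, div_le_iff₀ (by positivity)] at h1
      rw [mem_closedBall_zero_iff]
      nlinarith
    · rintro ⟨hc, hc'⟩
      exact ⟨hsub hc, hc'⟩
  rw [e]
  have hcont : ContinuousOn (fun c => ‖F c - F 0‖) (closedBall (0 : V) (2 * m * R')) :=
    ((h.continuousOn.mono hsub).sub continuousOn_const).norm
  exact (isCompact_closedBall _ _).of_isClosed_subset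
    (hcont.preimage_isClosed_of_isClosed isClosed_closedBall isClosed_Iic) inter_subset_left

end NearS

/-! ### everything together -/

/-- **SELECTION**, the form of #8358 -/
theorem sel {N n : ℕ} (hN : N = 2 * n) {P : EuclideanSpace ℝ (Fin N) →L[ℝ] EuclideanSpace ℂ (Fin N)}
    {J₀ : EuclideanSpace ℝ (Fin N) → EuclideanSpace ℝ (Fin N)}
    (hJ : ∀ c, P (J₀ c) = Complex.I • P c) {m : ℝ} (hm0 : 0 < m) (hm : ∀ c, ‖c‖ ≤ m * ‖P c‖) :
    ∃ L : EuclideanSpace ℂ (Fin N) →L[ℂ] EuclideanSpace ℂ (Fin n), (∀ z, ‖L z‖ ≤ ‖z‖) ∧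
      (∀ c, ‖L (P c)‖ = ‖P c‖) ∧ Function.Bijective (fun c => L (P c)) ∧
      ∀ (F : EuclideanSpace ℝ (Fin N) → EuclideanSpace ℂ (Fin N)) (η R : ℝ), 0 ≤ η →
        η * m ≤ 1 / 2 →
        (∀ c ∈ ball (0 : EuclideanSpace ℝ (Fin N)) R, ∀ c' ∈ ball (0 : EuclideanSpace ℝ (Fin N)) R,
          ‖F c - F c' - P (c - c')‖ ≤ η * ‖c - c'‖) →
        InjOn (fun c => L (F c)) (ball 0 R) ∧ ContinuousOn (fun c => L (F c)) (ball 0 R) ∧
        (∀ c ∈ ball (0 : EuclideanSpace ℝ (Fin N)) R, ∀ c' ∈ ball (0 : EuclideanSpace ℝ (Fin N)) R,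
          ‖c - c'‖ / (2 * m) ≤ ‖L (F c) - L (F c')‖) ∧
        ball (L (F 0)) (R / (2 * m)) ⊆ (fun c => L (F c)) '' ball 0 R ∧
        ∀ R' < R / (2 * m), IsCompact {c | c ∈ ball (0 : EuclideanSpace ℝ (Fin N)) R ∧
          ‖L (F c) - L (F 0)‖ ≤ R'} := by
  obtain ⟨L, h1, h2, h3⟩ := exists_sel (n := n) (by rw [finrank_euclideanSpace, Fintype.card_fin, hN])
    P J₀ hJ hm
  refine ⟨L, h1, h2, h3, fun F η R hη0 hη hF => ?_⟩
  set L' : EuclideanSpace ℂ (Fin N) →L[ℝ] EuclideanSpace ℂ (Fin n) := L.restrictScalars ℝ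
  have hn : Near (fun c => L (F c)) (L'.comp P) η R := Near.comp (F := F) (P := P) hF L' h1
  have hm' : ∀ c, ‖c‖ ≤ m * ‖(L'.comp P) c‖ := fun c => by
    show ‖c‖ ≤ m * ‖L (P c)‖
    rw [h2]
    exact hm c
  exact ⟨hn.injOn hm0 hm' hη, hn.continuousOn, fun c hc c' hc' => hn.lower hm0 hm' hη hc hc',
    hn.ball_sub hm0 hm' hη0 hη h3.2, fun R' hR' => hn.isCompact hm0 hm' hη hR'⟩

end

end Crest.Agent.R281.Qt4_877
end

-- ▼ part R281/Qt7_922

/-!
# R281 (S0424), QTUBE (helper922), part 7: the complex flux, near-linearity, lower bound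

* `PhiC Flx Fly b`  : the complex flux in `ℂ^N`
* `flux_near`       : `|Fl b' - Fl b - w0 (0,d) (e_k,0)| ≤ (2 + 2Λ) ε ‖d‖`
* `vert_low`        : `‖c‖ ≤ 2Λ ‖(z0 (0,c) (e_k,0))_k‖`
-/

set_option autoImplicit false
set_option maxSynthPendingDepth 3

open Set Metric Filter Topology MeasureTheory intervalIntegral
open scoped ContDiff

namespace Crest.Agent.R281.Qt_922

open Crest.Agent.R281.Mc673 (V W Fo tube ClF isOpen_tube)
open Crest.Agent.R281.Tub_57 (Out LF ctr)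
open Crest.Agent.R238.Sch (ee norm_ee)

noncomputable section

variable {N : ℕ}

/-- the target of the complex flux -/
abbrev CE (N : ℕ) := EuclideanSpace ℂ (Fin N)

/-- real coordinates to complex coordinates -/
def mk2 (D1 D2 : Fin N → (V N →L[ℝ] ℝ)) : V N →L[ℝ] CE N :=
  ((PiLp.continuousLinearEquiv 2 ℝ (fun _ : Fin N => ℂ)).symm :
    (Fin N → ℂ) →L[ℝ] PiLp 2 (fun _ : Fin N => ℂ)).comp
  (ContinuousLinearMap.pi fun k => Complex.ofRealCLM.comp (D1 k) +
    (Complex.I • Complex.ofRealCLM.comp (D2 k)))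

theorem mk2_apply (D1 D2 : Fin N → (V N →L[ℝ] ℝ)) (u : V N) (k : Fin N) :
    mk2 D1 D2 u k = (D1 k u : ℂ) + Complex.I * (D2 k u : ℂ) := rfl

/-- the complex flux -/
def PhiC (Flx Fly : Fin N → (V N → V N) → ℝ) (b : V N → V N) : CE N :=
  WithLp.toLp 2 fun k => (Flx k b : ℂ) + Complex.I * (Fly k b : ℂ)

theorem PhiC_apply (Flx Fly : Fin N → (V N → V N) → ℝ) (b : V N → V N) (k : Fin N) :
    PhiC Flx Fly b k = (Flx k b : ℂ) + Complex.I * (Fly k b : ℂ) := rfl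

theorem hasFDerivAt_mk2 {f g : Fin N → V N → ℝ} {D1 D2 : Fin N → (V N →L[ℝ] ℝ)} {s : V N}
    (h1 : ∀ k, HasFDerivAt (f k) (D1 k) s) (h2 : ∀ k, HasFDerivAt (g k) (D2 k) s) :
    HasFDerivAt (fun s => (WithLp.toLp 2 fun k => (f k s : ℂ) + Complex.I * (g k s : ℂ) : CE N))
      (mk2 D1 D2) s := by
  have e1 : HasFDerivAt (fun s => fun k => (f k s : ℂ) + Complex.I * (g k s : ℂ))
      (ContinuousLinearMap.pi fun k => Complex.ofRealCLM.comp (D1 k) +
        (Complex.I • Complex.ofRealCLM.comp (D2 k))) s := by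
    refine hasFDerivAt_pi.2 fun k => ?_
    have a1 : HasFDerivAt (fun s => (f k s : ℂ)) (Complex.ofRealCLM.comp (D1 k)) s :=
      Complex.ofRealCLM.hasFDerivAt.comp s (h1 k)
    have a2 : HasFDerivAt (fun s => (g k s : ℂ)) (Complex.ofRealCLM.comp (D2 k)) s :=
      Complex.ofRealCLM.hasFDerivAt.comp s (h2 k)
    exact a1.add (a2.const_mul Complex.I)
  exact (PiLp.continuousLinearEquiv 2 ℝ (fun _ : Fin N => ℂ)).symm.toContinuousLinearMap.hasFDerivAt.comp
    s e1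

theorem mk2_I {D1 D2 : Fin N → (V N →L[ℝ] ℝ)} {J : V N → V N}
    (h1 : ∀ k u, D1 k (J u) = - D2 k u) (h2 : ∀ k u, D2 k (J u) = D1 k u) (u : V N) :
    mk2 D1 D2 (J u) = Complex.I • mk2 D1 D2 u := by
  ext k
  rw [PiLp.smul_apply, mk2_apply, mk2_apply, h1, h2, smul_eq_mul]
  push_cast
  linear_combination (-(D2 k u : ℂ)) * Complex.I_mul_I

theorem norm_CE_le (z : CE N) {B : ℝ} (h : ∀ k, ‖z k‖ ≤ B) : ‖z‖ ≤ N * B := by
  have h1 : z = ∑ k, (EuclideanSpace.single k (z k) : CE N) := by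
    ext i
    simp
  rw [h1]
  refine (norm_sum_le _ _).trans ?_
  calc ∑ k, ‖(EuclideanSpace.single k (z k) : CE N)‖ ≤ ∑ _k : Fin N, B := by
        refine Finset.sum_le_sum fun k _ => ?_
        rw [PiLp.norm_single]; exact h k
    _ = N * B := by simp

/-- the constant model -/
def P0 (x0 y0 : W N →L[ℝ] W N →L[ℝ] ℝ) : V N →L[ℝ] CE N :=
  mk2 (fun k => (x0.flip (ee k, 0)).comp (ContinuousLinearMap.inr ℝ (V N) (V N)))
    (fun k => (y0.flip (ee k, 0)).comp (ContinuousLinearMap.inr ℝ (V N) (V N)))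

theorem P0_apply (x0 y0 : W N →L[ℝ] W N →L[ℝ] ℝ) (u : V N) (k : Fin N) :
    P0 x0 y0 u k = (x0 (0, u) (ee k, 0) : ℂ) + Complex.I * (y0 (0, u) (ee k, 0) : ℂ) := rfl

theorem norm_inr (v : V N) : ‖((0, v) : W N)‖ = ‖v‖ := by simp [Prod.norm_def]

theorem norm_inl (v : V N) : ‖((v, 0) : W N)‖ = ‖v‖ := by simp [Prod.norm_def]

theorem norm_P0_le {x0 y0 : W N →L[ℝ] W N →L[ℝ] ℝ} {Λ : ℝ} (hx : ‖x0‖ ≤ Λ) (hy : ‖y0‖ ≤ Λ)
    (u : V N) : ‖P0 x0 y0 u‖ ≤ N * (2 * Λ * ‖u‖) := by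
  have hb : ∀ z0 : W N →L[ℝ] W N →L[ℝ] ℝ, ‖z0‖ ≤ Λ → ∀ k, |z0 (0, u) (ee k, 0)| ≤ Λ * ‖u‖ := by
    intro z0 hz k
    have := z0.le_opNorm₂ (0, u) (ee k, 0)
    rw [norm_inr, norm_inl, norm_ee, mul_one] at this
    exact this.trans (by gcongr)
  refine norm_CE_le _ fun k => ?_
  rw [P0_apply]
  refine (norm_add_le _ _).trans ?_
  rw [norm_mul, Complex.norm_I, one_mul, Complex.norm_real, Complex.norm_real]
  have h1 := hb x0 hx k
  have h2 := hb y0 hy k
  rw [Real.norm_eq_abs, Real.norm_eq_abs]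
  linarith

variable {r : ℝ} {w : Fo N} {b b' : V N → V N}

/-- **near-linearity of the flux** -/
theorem flux_near {Fl : (V N → V N) → ℝ} {k : Fin N} (hw : ContinuousOn w (tube N r))
    (hFl : ∀ b0 b1 : V N → V N, Gr r b0 → Gr r b1 →
      Fl b1 - Fl b0 = ∫ s in (0:ℝ)..1, ∫ t in (0:ℝ)..1, st w b0 b1 k s t)
    {w0 : W N →L[ℝ] W N →L[ℝ] ℝ} {Λ ε : ℝ} (h0 : ‖w0‖ ≤ Λ) (hε0 : 0 ≤ ε) (hε : ε ≤ 1)
    (hc : ∀ p ∈ tube N r, ‖p.1‖ ≤ 1 → ‖w p - w0‖ ≤ ε) (hb : Gr r b) (hb' : Gr r b') {d : V N}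
    (h1 : ∀ θ, ‖b' θ - b θ - d‖ ≤ ε * ‖d‖) (h2 : ∀ θ, ‖fderiv ℝ b θ‖ ≤ ε)
    (h3 : ∀ θ, ‖fderiv ℝ b' θ‖ ≤ ε) :
    |Fl b' - Fl b - w0 (0, d) (ee k, 0)| ≤ (2 + 2 * Λ) * ε * ‖d‖ := by
  have hΛ : 0 ≤ Λ := (norm_nonneg _).trans h0
  rw [hFl b b' hb hb']
  have e0 : w0 (0, d) (ee k, 0) = ∫ _t in (0:ℝ)..1, w0 (0, d) (ee k, 0) := by simp
  rw [e0]
  refine ii_le (continuousOn_st hw hb hb' k) continuousOn_const fun s hs t ht => ?_
  set β : V N := b' (t • ee k) - b (t • ee k) with hβ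
  set γ : V N := fderiv ℝ b (t • ee k) (ee k) + s • (fderiv ℝ b' (t • ee k) (ee k) -
    fderiv ℝ b (t • ee k) (ee k)) with hγ
  set q : W N := (t • ee k, b (t • ee k) + s • β) with hq
  have e1 : st w b b' k s t = w q (0, β) (ee k, γ) := rfl
  have b1 : ‖β - d‖ ≤ ε * ‖d‖ := h1 _
  have b2 : ‖β‖ ≤ 2 * ‖d‖ := by
    calc ‖β‖ = ‖(β - d) + d‖ := by rw [sub_add_cancel]
      _ ≤ ‖β - d‖ + ‖d‖ := norm_add_le _ _
      _ ≤ 2 * ‖d‖ := by nlinarith [norm_nonneg d]
  have b3 : ‖γ‖ ≤ ε := by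
    have e2 : γ = (1 - s) • fderiv ℝ b (t • ee k) (ee k) + s • fderiv ℝ b' (t • ee k) (ee k) := by
      rw [hγ, smul_sub, sub_smul, one_smul]; abel
    have a1 : ∀ b : V N → V N, (∀ θ, ‖fderiv ℝ b θ‖ ≤ ε) →
        ‖fderiv ℝ b (t • ee k) (ee k)‖ ≤ ε := by
      intro b hb
      have := (fderiv ℝ b (t • ee k)).le_opNorm (ee k)
      rw [norm_ee, mul_one] at this
      exact this.trans (hb _)
    rw [e2]
    refine (norm_add_le _ _).trans ?_
    rw [norm_smul, norm_smul, Real.norm_of_nonneg (by linarith [hs.2] : 0 ≤ 1 - s),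
      Real.norm_of_nonneg hs.1]
    have := a1 b h2
    have := a1 b' h3
    nlinarith [hs.1, hs.2]
  have b4 : ‖((ee k, γ) : W N)‖ ≤ 1 := by
    rw [Prod.norm_def]
    exact max_le (by rw [norm_ee]) (b3.trans hε)
  have hq1 : q ∈ tube N r := gr_seg hb hb' hs _
  have b5 : ‖w q - w0‖ ≤ ε := by
    refine hc q hq1 ?_
    show ‖t • (ee k : V N)‖ ≤ 1
    rw [norm_smul, norm_ee, mul_one, Real.norm_of_nonneg ht.1]
    exact ht.2
  have key : st w b b' k s t - w0 (0, d) (ee k, 0) =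
      (w q - w0) (0, β) (ee k, γ) + w0 (0, β - d) (ee k, γ) + w0 (0, d) (0, γ) := by
    rw [e1]
    have e3 : ((0, β - d) : W N) = ((0, β) : W N) - (0, d) := by ext1 <;> simp
    have e4 : ((ee k, γ) : W N) = (ee k, 0) + (0, γ) := by ext1 <;> simp
    rw [e3, e4]
    simp only [map_sub, map_add, _root_.sub_apply]
    ring
  rw [key]
  have t1 : ‖(w q - w0) (0, β) (ee k, γ)‖ ≤ ε * (2 * ‖d‖) * 1 := by
    refine (ContinuousLinearMap.le_opNorm₂ _ _ _).trans ?_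
    rw [norm_inr]
    gcongr
  have t2 : ‖w0 (0, β - d) (ee k, γ)‖ ≤ Λ * (ε * ‖d‖) * 1 := by
    refine (ContinuousLinearMap.le_opNorm₂ _ _ _).trans ?_
    rw [norm_inr]
    gcongr
  have t3 : ‖w0 (0, d) (0, γ)‖ ≤ Λ * ‖d‖ * ε := by
    refine (ContinuousLinearMap.le_opNorm₂ _ _ _).trans ?_
    rw [norm_inr, norm_inr]
    gcongr
  refine ((abs_add_le _ _).trans (add_le_add ((abs_add_le _ _).trans
    (add_le_add t1 t2)) t3)).trans (le_of_eq ?_)
  ring

/-- near-linearity of the complex flux -/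
theorem phi_near {Flx Fly : Fin N → (V N → V N) → ℝ} {x y : Fo N} {x0 y0 : W N →L[ℝ] W N →L[ℝ] ℝ}
    (hx : ContinuousOn x (tube N r)) (hy : ContinuousOn y (tube N r))
    (hFx : ∀ k, ∀ b0 b1 : V N → V N, Gr r b0 → Gr r b1 →
      Flx k b1 - Flx k b0 = ∫ s in (0:ℝ)..1, ∫ t in (0:ℝ)..1, st x b0 b1 k s t)
    (hFy : ∀ k, ∀ b0 b1 : V N → V N, Gr r b0 → Gr r b1 →
      Fly k b1 - Fly k b0 = ∫ s in (0:ℝ)..1, ∫ t in (0:ℝ)..1, st y b0 b1 k s t)
    {Λ ε : ℝ} (hx0 : ‖x0‖ ≤ Λ) (hy0 : ‖y0‖ ≤ Λ) (hε0 : 0 ≤ ε) (hε : ε ≤ 1)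
    (hcx : ∀ p ∈ tube N r, ‖p.1‖ ≤ 1 → ‖x p - x0‖ ≤ ε)
    (hcy : ∀ p ∈ tube N r, ‖p.1‖ ≤ 1 → ‖y p - y0‖ ≤ ε) (hb : Gr r b) (hb' : Gr r b') {d : V N}
    (h1 : ∀ θ, ‖b' θ - b θ - d‖ ≤ ε * ‖d‖) (h2 : ∀ θ, ‖fderiv ℝ b θ‖ ≤ ε)
    (h3 : ∀ θ, ‖fderiv ℝ b' θ‖ ≤ ε) :
    ‖PhiC Flx Fly b' - PhiC Flx Fly b - P0 x0 y0 d‖ ≤ N * (2 * ((2 + 2 * Λ) * ε * ‖d‖)) := by
  refine norm_CE_le _ fun k => ?_
  have e1 : (PhiC Flx Fly b' - PhiC Flx Fly b - P0 x0 y0 d) k =
      ((Flx k b' - Flx k b - x0 (0, d) (ee k, 0) : ℝ) : ℂ) +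
        Complex.I * ((Fly k b' - Fly k b - y0 (0, d) (ee k, 0) : ℝ) : ℂ) := by
    rw [PiLp.sub_apply, PiLp.sub_apply, PhiC_apply, PhiC_apply, P0_apply]
    push_cast; ring
  rw [e1]
  refine (norm_add_le _ _).trans ?_
  rw [norm_mul, Complex.norm_I, one_mul, Complex.norm_real, Complex.norm_real, Real.norm_eq_abs,
    Real.norm_eq_abs]
  have a1 := flux_near hx (hFx k) hx0 hε0 hε hcx hb hb' h1 h2 h3
  have a2 := flux_near hy (hFy k) hy0 hε0 hε hcy hb hb' h1 h2 h3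
  linarith

/-- **lower bound of the constant model** from a non-degenerate form -/
theorem vert_low {z0 : W N →L[ℝ] W N →L[ℝ] ℝ} {Λ δ : ℝ} (hΛ : 0 ≤ Λ)
    (halt : ∀ u v, z0 u v = - z0 v u)
    (hnd : ∀ u, ‖u‖ ≤ Λ * ‖z0 u‖) (hh : ∀ u v, |z0 (u, 0) (v, 0)| ≤ δ * ‖u‖ * ‖v‖) (hδ : 0 ≤ δ)
    (hΛδ : Λ * δ ≤ 1 / 2) (c : V N) :
    ‖c‖ ≤ 2 * Λ * ‖(WithLp.toLp 2 fun k => z0 (0, c) (ee k, 0) : V N)‖ := by
  -- the block `B h = z0 (h, 0) (0, ·)`
  set B : V N →L[ℝ] (V N →L[ℝ] ℝ) :=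
    ((ContinuousLinearMap.compL ℝ (V N) (W N) ℝ).flip (ContinuousLinearMap.inr ℝ (V N) (V N))).comp
      (z0.comp (ContinuousLinearMap.inl ℝ (V N) (V N))) with hB
  have hBa : ∀ h c, B h c = z0 (h, 0) (0, c) := fun h c => rfl
  have hlow : ∀ h, ‖h‖ ≤ 2 * Λ * ‖B h‖ := by
    intro h
    have h1 := hnd (h, 0)
    rw [norm_inl] at h1
    have h2 : ‖z0 (h, 0)‖ ≤ δ * ‖h‖ + ‖B h‖ := by
      refine ContinuousLinearMap.opNorm_le_bound _ (by positivity) fun v => ?_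
      have e1 : z0 (h, 0) v = z0 (h, 0) (v.1, 0) + B h v.2 := by
        rw [hBa, ← map_add]; congr 1; ext1 <;> simp
      rw [e1, Real.norm_eq_abs]
      refine (abs_add_le _ _).trans ?_
      have a1 := hh h v.1
      have a2 : |B h v.2| ≤ ‖B h‖ * ‖v.2‖ := (B h).le_opNorm _
      have a3 := norm_fst_le v
      have a4 := norm_snd_le v
      calc |z0 (h, 0) (v.1, 0)| + |B h v.2| ≤ δ * ‖h‖ * ‖v‖ + ‖B h‖ * ‖v‖ :=
            add_le_add (a1.trans (by gcongr)) (a2.trans (by gcongr))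
        _ = (δ * ‖h‖ + ‖B h‖) * ‖v‖ := by ring
    have h3 : ‖h‖ ≤ Λ * (δ * ‖h‖ + ‖B h‖) := h1.trans (by gcongr)
    nlinarith [norm_nonneg h, norm_nonneg (B h)]
  have hinj : Function.Injective B := by
    rw [injective_iff_map_eq_zero]
    intro h hh0
    have := hlow h
    rw [hh0, norm_zero, mul_zero] at this
    exact norm_le_zero_iff.1 this
  have hdim : Module.finrank ℝ (V N) = Module.finrank ℝ (V N →L[ℝ] ℝ) := by
    rw [← (InnerProductSpace.toDual ℝ (V N)).toLinearEquiv.finrank_eq]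
  have hsurj : Function.Surjective B :=
    (LinearMap.injective_iff_surjective_of_finrank_eq_finrank (f := (B : V N →ₗ[ℝ] _)) hdim).1 hinj
  rcases eq_or_ne c 0 with rfl | hc
  · rw [norm_zero]; positivity
  have hc' : 0 < ‖c‖ := norm_pos_iff.2 hc
  obtain ⟨h, hh1⟩ := hsurj (‖c‖⁻¹ • innerSL ℝ c)
  have hn1 : ‖B h‖ ≤ 1 := by
    rw [hh1, norm_smul, innerSL_apply_norm, norm_inv, norm_norm, inv_mul_cancel₀ hc'.ne']
  have hn : ‖h‖ ≤ 2 * Λ := (hlow h).trans (by nlinarith)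
  have hv : z0 (h, 0) (0, c) = ‖c‖ := by
    rw [← hBa, hh1]
    show ‖c‖⁻¹ * inner ℝ c c = ‖c‖
    rw [real_inner_self_eq_norm_sq]
    field_simp
  -- expansion in the basis
  have hexp : z0 (0, c) (h, 0) = inner ℝ h (WithLp.toLp 2 fun k => z0 (0, c) (ee k, 0) : V N) := by
    have e1 : ((h, 0) : W N) = ∑ k, h k • ((ee k, 0) : W N) := by
      have : h = ∑ k, h k • (ee k : V N) := by
        ext i
        simp [ee, Finset.sum_apply, Pi.single_apply]
      conv_lhs => rw [this]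
      ext1
      · simp [Prod.fst_sum]
      · simp [Prod.snd_sum]
    rw [e1, map_sum]
    simp only [map_smul, smul_eq_mul]
    rw [PiLp.inner_apply]
    refine Finset.sum_congr rfl fun k _ => ?_
    simp [mul_comm]
  have hfin : ‖c‖ = |z0 (0, c) (h, 0)| := by
    rw [← abs_of_pos hc', ← hv, halt, abs_neg]
  calc ‖c‖ = |inner ℝ h (WithLp.toLp 2 fun k => z0 (0, c) (ee k, 0) : V N)| := by rw [hfin, hexp]
    _ ≤ ‖h‖ * ‖(WithLp.toLp 2 fun k => z0 (0, c) (ee k, 0) : V N)‖ := abs_real_inner_le_norm _ _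
    _ ≤ _ := by gcongr

/-- the same for `P0`, when the second form is non-degenerate -/
theorem P0_low {x0 z0 : W N →L[ℝ] W N →L[ℝ] ℝ} {Λ δ : ℝ} (hΛ : 0 ≤ Λ)
    (halt : ∀ u v, z0 u v = - z0 v u)
    (hnd : ∀ u, ‖u‖ ≤ Λ * ‖z0 u‖) (hh : ∀ u v, |z0 (u, 0) (v, 0)| ≤ δ * ‖u‖ * ‖v‖) (hδ : 0 ≤ δ)
    (hΛδ : Λ * δ ≤ 1 / 2) (c : V N) : ‖c‖ ≤ 2 * Λ * ‖P0 x0 z0 c‖ := by
  refine (vert_low hΛ halt hnd hh hδ hΛδ c).trans ?_
  gcongr
  rw [EuclideanSpace.norm_eq, EuclideanSpace.norm_eq]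
  refine Real.sqrt_le_sqrt (Finset.sum_le_sum fun k _ => ?_)
  have : ‖z0 (0, c) (ee k, 0)‖ ≤ ‖P0 x0 z0 c k‖ := by
    rw [P0_apply, Real.norm_eq_abs]
    have := Complex.abs_im_le_norm ((x0 (0, c) (ee k, 0) : ℂ) + Complex.I * (z0 (0, c) (ee k, 0) : ℂ))
    simpa using this
  gcongr

end

end Crest.Agent.R281.Qt_922
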