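import Crest.Agent.R281.GTi3_989
import Crest.Agent.R281.QF5_871
import Crest.Agent.R281.Phb7_267
import Crest.Agent.R281.Am2_957

-- ▼ part R281/Ra1_989
section

/-!
# R281 (S0424), RAY-ALG part 1 (helper989): the code along the end of a line

`K : Code k₀ n N`, `M : Fmt k₀ (Fin K.k)` nice, all points good, `E` an end of the plane curve over
the line `a + u d`:

* `cE E : Fin K.k → MgR`    : the coefficient functions, `ev z (cE E i) = M.pt (a + U(z) d) (V z) i`
* `qE E z : QM M`           : the point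
* `exists_gen`              : for countable `k₀` there is `z₀` with `RelOk k₀ (c(z₀)) (c(z))` for all `z`
* `glue_end`                : 867/639's algebraic data of the code over the end
-/

set_option autoImplicit false
set_option linter.unusedSectionVars false

open Polynomial Set Filter Topology Complex

noncomputable section

namespace Crest.Agent.R281.Ra_989

open Crest.Agent.R281.Esc1_989 Crest.Agent.R281.Ends1_989 Crest.Agent.R281.Ends2_989
open Crest.Agent.R281.Ends3_989 Crest.Agent.R281.Ends4_989 Crest.Agent.R281.GTi_989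
open Crest.Agent.R281.Sl_957 Crest.Agent.R281.Am_957 Crest.Agent.R281.CA_867
open Crest.Agent.R281.AF_867 Crest.Agent.R281.Kr_488

/-! ### generic points of the end -/

theorem dense_ne {g : MgR} (hg : g ≠ 0) : Dense {z : Hp | ev z g ≠ 0} := by
  obtain ⟨G, hG, hgG⟩ := g.2
  rw [dense_iff_inter_open]
  rintro W hW ⟨w, hw⟩
  by_contra hcon
  rw [not_nonempty_iff_eq_empty, eq_empty_iff_forall_notMem] at hcon
  apply hg
  refine ext_ev fun z => ?_
  rw [map_zero, ev_apply, hgG]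
  have h1 : AnalyticOnNhd ℂ G Hp := hG.1.analyticOnNhd isOpen_Hp
  have h2 : G =ᶠ[𝓝 w.1] 0 := by
    obtain ⟨W', hW', hWW⟩ := isOpen_induced_iff.1 hW
    have h3 : W' ∩ Hp ∈ 𝓝 w.1 :=
      (hW'.inter isOpen_Hp).mem_nhds ⟨by rw [← hWW] at hw; exact hw, w.2⟩
    filter_upwards [h3] with y hy
    by_contra hne
    refine hcon ⟨y, hy.2⟩ ⟨by rw [← hWW]; exact hy.1, ?_⟩
    show ev ⟨y, hy.2⟩ g ≠ 0
    rw [ev_apply, hgG]
    exact hne
  exact h1.eqOn_zero_of_preconnected_of_eventuallyEq_zero convex_Hp.isPreconnected w.2 h2 z.2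

theorem isOpen_ne (g : MgR) : IsOpen {z : Hp | ev z g ≠ 0} := by
  obtain ⟨G, hG, hgG⟩ := g.2
  have h1 : Continuous fun z : Hp => G z := hG.1.continuousOn.domRestrict
  have h2 : {z : Hp | ev z g ≠ 0} = {z : Hp | G z ≠ 0} := by
    ext z
    show ev z g ≠ 0 ↔ G z ≠ 0
    rw [ev_apply, hgG]
  rw [h2]
  exact isOpen_ne_fun h1 continuous_const

instance : LocallyCompactSpace Hp := isOpen_Hp.locallyCompactSpace

/-- a point of the end where countably many nonzero functions do not vanish -/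
theorem exists_pt {ι : Type*} [Countable ι] (g : ι → MgR) (hg : ∀ i, g i ≠ 0) :
    Dense {z : Hp | ∀ i, ev z (g i) ≠ 0} := by
  have h := dense_iInter_of_isOpen (fun i => isOpen_ne (g i)) fun i => dense_ne (hg i)
  have h2 : (⋂ i, {z : Hp | ev z (g i) ≠ 0}) = {z : Hp | ∀ i, ev z (g i) ≠ 0} := by
    ext z
    simp
  rwa [h2] at h

/-- **generic points**: all values of the vector `c'` are specialisations of the value at `z₀` -/
theorem exists_gen {k₀ : Type} [CommRing k₀] [Algebra k₀ ℂ] [Countable k₀] {k : ℕ}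
    (c' : Fin k → MgR) : Dense {z₀ : Hp | ∀ z : Hp,
      RelOk k₀ (fun i => ev z₀ (c' i)) fun i => ev z (c' i)} := by
  have : Countable (MvPolynomial (Fin k) k₀) := countable_mvPolynomial _ _
  refine (exists_pt (fun r : {r : MvPolynomial (Fin k) k₀ // psi c' r ≠ 0} => psi c' r.1)
    fun r => r.2).mono fun z₀ h z r hr => ?_
  rw [← ev_psi] at hr ⊢
  by_cases h0 : psi c' r = 0
  · rw [h0, map_zero]
  · exact absurd hr (h ⟨r, h0⟩)

/-! ### the point of the model over an end of a line -/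

section line

variable {k₀ : Type*} [Field k₀] [Algebra k₀ ℂ] {R : Type*} {M : Fmt k₀ R} {a d : Fin M.m → ℂ}

/-- the coefficient functions -/
def cE (E : EndC (M.lf a d) (M.lδ a d)) (i : R) : MgR := mk _ (E.mg (M.lP a d i) 1)

theorem ev_cE (E : EndC (M.lf a d) (M.lδ a d)) (z : Hp) (i : R) :
    ev z (cE E i) = M.pt (fun j => a j + E.U z * d j) (E.V z) i := by
  rw [Fmt.pt_line, cE, ev_mk, pow_one]

/-- the point of the model -/
def qE (E : EndC (M.lf a d) (M.lδ a d)) (z : Hp) : QM M :=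
  ⟨(fun j => a j + E.U z * d j, E.V z), (M.on_iff a d _ _).2 (E.mem z z.2)⟩

theorem ev_cE' (E : EndC (M.lf a d) (M.lδ a d)) (z : Hp) :
    (fun i => ev z (cE E i)) = M.pt (qE E z).1.1 (qE E z).1.2 :=
  funext fun i => ev_cE E z i

end line

section code

variable {k₀ : Type} [Field k₀] [Algebra k₀ ℂ] {n N : ℕ} {K : Code k₀ n N}
  {M : Fmt k₀ (Fin K.k)} {a d : Fin M.m → ℂ}

theorem good_cE (hM : ∀ (z : Fin M.m → ℂ) (w : ℂ), M.On z w → K.Good (M.pt z w))
    (E : EndC (M.lf a d) (M.lδ a d)) (z : Hp) : K.Good fun i => ev z (cE E i) := by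
  rw [ev_cE']
  exact hM _ _ (qE E z).2



end code

end Crest.Agent.R281.Ra_989
end
end

-- ▼ part R281/Ra2_989

/-!
# R281 (S0424), RAY-ALG part 2 (helper989): the period of the algebraic form along a marked end

`D : HM L F Lz κ` over the model `QM M` (473), `hol` (267), `e` an end of the line geometry
`(D.geomM hol).line a d` (957), `w` its isotropic vector (`Good e w`), `g` a marking with
`ρ g w = t • e`:

* `mkE D hol e g z : D.Mk`  : the marked member `g • e.F z`
* `bE D hol e g z : ℂ`      : `Q(e, re + i im)` of this member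
* `bE_ne`, `cv_bE`          : zero free; `re + i im = b • σ_(Ψ)` in the frame
* `diff_bE`                 : holomorphic on `{1 < Im z}`
* `sq_per`                  : `b (z + 1) ^ 2 = b z ^ 2`
-/

set_option autoImplicit false
set_option linter.unusedSectionVars false

open Polynomial Set Filter Topology UpperHalfPlane

noncomputable section

namespace Crest.Agent.R281.Ra_989

open CL_473 LI_473 As_957 Am_957 Sl_957 Nc_957
open Ends1_989 Ends2_989 Ends3_989 Ends4_989 Ends5_989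

variable {H : Type*} [AddCommGroup H] [Module ℝ H] {Q : H →ₗ[ℝ] H →ₗ[ℝ] ℝ}
  {k₀ ι : Type*} [Field k₀] [Algebra k₀ ℂ] {M : Fmt k₀ ι} {G : Type*} [Group G] {E : Type*}
  [MulAction G E] {L : LS (QM M) G E} {F : Fr Q} {Lz : AddSubgroup H} {κ : Type*}

/-- the hypothesis of 267's `HM.geomM` -/
abbrev HolH (D : HM L F Lz κ) : Prop := ∀ x, (∀ i, D.cls i x = D.cl i) →
  ∃ φ₀ φ₁ : (Fin M.m → ℂ) → ℂ,
    AnalyticAt ℂ φ₀ (L.p x).1.1 ∧ AnalyticAt ℂ φ₁ (L.p x).1.1 ∧ ∀ᶠ q in 𝓝 (L.p x),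
      F.z0 (D.re (L.s x q)) (D.im (L.s x q)) = φ₀ q.1.1 ∧
      F.z1 (D.re (L.s x q)) (D.im (L.s x q)) = φ₁ q.1.1

variable {D : HM L F Lz κ} {hol : HolH D} {a d : Fin M.m → ℂ}

/-- the marked member over the end -/
def mkE (e : LEnd ((D.geomM hol).line a d)) (g : D.Gp) (z : ℂ) : D.Mk :=
  (D.geomM hol).toT a d (g • e.F z)

/-- the period of the algebraic form -/
def bE (e : LEnd ((D.geomM hol).line a d)) (g : D.Gp) (z : ℂ) : ℂ :=
  F.z0 (D.re (mkE e g z).1) (D.im (mkE e g z).1)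

variable (e : LEnd ((D.geomM hol).line a d)) (g : D.Gp)

theorem bE_ne (z : ℂ) : bE e g z ≠ 0 := (D.vec (mkE e g z)).1

/-- the period vector of the marked member -/
theorem cv_bE (z : ℂ) : F.cv (D.re (mkE e g z).1) (D.im (mkE e g z).1) =
    bE e g z • sig F.N (((D.geomM hol).line a d).Ψ (g • e.F z)) :=
  (D.vec (mkE e g z)).2

theorem mkE_z {z : ℂ} (hz : 1 ≤ z.im) :
    ((D.geomM hol).z (mkE e g z)) = fun j => a j + e.En.U z * d j := by
  unfold mkE
  rw [(D.geomM hol).z_toT a d (g • e.F z)]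
  have h1 : ((D.geomM hol).line a d).u (g • e.F z) = e.En.U z := by
    have h2 : ((D.geomM hol).line a d).toLS.pr (g • e.F z) =
        ((D.geomM hol).line a d).toLS.pr (e.F z) := LS.pr_smul _ g (e.F z)
    show (((D.geomM hol).line a d).toLS.pr (g • e.F z)).1.1 = _
    rw [h2]
    exact congrArg Prod.fst (e.pr z hz)
  rw [h1]

theorem line_pr {z : ℂ} (hz : 1 ≤ z.im) :
    (((D.geomM hol).line a d).toLS.pr (g • e.F z) : ℂ × ℂ) = (e.En.U z, e.En.V z) := by
  have h2 : ((D.geomM hol).line a d).toLS.pr (g • e.F z) =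
      ((D.geomM hol).line a d).toLS.pr (e.F z) := LS.pr_smul _ g (e.F z)
  rw [h2]
  exact e.pr z hz

/-- the point of the model under the marked member -/
theorem mkE_pr {z : ℂ} (hz : 1 ≤ z.im) : L.p (mkE e g z).1 = qE e.En ⟨z, mem_Hp hz⟩ := by
  have h0 : L.p (mkE e g z).1 = GeomM.lm M a d (((D.geomM hol).line a d).toLS.pr (g • e.F z)) :=
    (g • e.F z : PE (D.geomM hol).toLS (GeomM.lm M a d)).2
  rw [h0]
  apply Subtype.ext
  have h1 := line_pr e g hz
  refine Prod.ext ?_ ?_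
  · funext j
    have h2 := congrArg Prod.fst h1
    show a j + (((D.geomM hol).line a d).toLS.pr (g • e.F z)).1.1 * d j = a j + e.En.U z * d j
    rw [h2]
  · exact congrArg (fun y : ℂ × ℂ => y.2) h1

/-- the marked member as a point of the total space -/
def tE (z : ℂ) : (D.geomM hol).T := mkE e g z

theorem continuous_tE : Continuous (tE e g) := by
  have h1 : Continuous fun z => g • e.F z :=
    (((D.geomM hol).line a d).toLS.continuous_smul' g).comp e.cont
  exact ((D.geomM hol).continuous_toT a d).comp h1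

/-- functions on the markings which are analytic along the transports are holomorphic along an
end -/
theorem diff_of {ψ : D.Mk → ℂ} (hψ : ∀ x : D.Mk, ∃ φ : (Fin M.m → ℂ) → ℂ,
      AnalyticAt ℂ φ (L.p x.1).1.1 ∧ ∀ᶠ q in 𝓝 (L.p x.1), ψ (D.lS.s x q) = φ q.1.1) :
    DifferentiableOn ℂ (fun z => ψ (mkE e g z)) {z | 1 < z.im} := by
  intro z hz
  have hz' : 1 < z.im := hz
  obtain ⟨φ, hφ, h⟩ := hψ (mkE e g z)
  have hopen : IsOpen {z : ℂ | 1 < z.im} := isOpen_lt continuous_const Complex.continuous_im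
  have h1 : ∀ᶠ y : (D.geomM hol).T in 𝓝 (tE e g z), ψ y = φ ((D.geomM hol).z y) := by
    rw [(D.geomM hol).toLS.nhds_eq, eventually_map]
    have h3 : (D.geomM hol).toLS.U ((D.geomM hol).toLS.p (mkE e g z)) ∈
        𝓝 ((D.geomM hol).toLS.p (mkE e g z)) :=
      ((D.geomM hol).toLS.U_open _).mem_nhds ((D.geomM hol).toLS.U_mem _)
    have h' : ∀ᶠ q in 𝓝 ((D.geomM hol).toLS.p (mkE e g z)), ψ (D.lS.s (mkE e g z) q) =
      φ q.1.1 := h
    filter_upwards [h', h3] with q hq hU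
    have h4 : (D.geomM hol).toLS.pr ((D.geomM hol).toLS.tr (tE e g z) q) = q :=
      (D.geomM hol).toLS.pr_tr (tE e g z) hU
    have h5 : (D.geomM hol).z ((D.geomM hol).toLS.tr (tE e g z) q) = q.1.1 := by
      rw [GeomM.z, h4]
    rw [h5]
    exact hq
  have h2 : ∀ᶠ z' in 𝓝 z, ψ (mkE e g z') = φ ((D.geomM hol).z (mkE e g z')) :=
    (continuous_tE e g).continuousAt.eventually h1
  have h3 : (fun z' => ψ (mkE e g z')) =ᶠ[𝓝 z] fun z' => φ fun j => a j + e.En.U z' * d j := by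
    filter_upwards [h2, hopen.mem_nhds hz'] with z' h4 h5
    have h5' : 1 < z'.im := h5
    rw [h4, mkE_z e g h5'.le]
  have h4 : DifferentiableAt ℂ e.En.U z :=
    (e.En.diffU z (mem_Hp hz'.le)).differentiableAt (isOpen_Hp.mem_nhds (mem_Hp hz'.le))
  have h5 : DifferentiableAt ℂ (fun z' => fun j => a j + e.En.U z' * d j) z := by
    rw [differentiableAt_pi]
    intro j
    exact (h4.mul_const _).const_add _
  have h6 : DifferentiableAt ℂ φ (fun j => a j + e.En.U z * d j) := by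
    have h7 : (L.p (mkE e g z).1).1.1 = fun j => a j + e.En.U z * d j := by
      rw [mkE_pr e g hz'.le]
      rfl
    rw [h7] at hφ
    exact hφ.differentiableAt
  exact ((h6.comp z h5).congr_of_eventuallyEq h3).differentiableWithinAt

/-- **the period of the algebraic form is holomorphic along the end** -/
theorem diff_bE : DifferentiableOn ℂ (bE e g) {z | 1 < z.im} := by
  refine diff_of e g (ψ := fun x : D.Mk => F.z0 (D.re x.1) (D.im x.1)) fun x => ?_
  obtain ⟨φ₀, φ₁, h0, -, h⟩ := hol x.1 x.2.1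
  refine ⟨φ₀, h0, ?_⟩
  have hU : L.U (L.p x.1) ∈ 𝓝 (L.p x.1) := (L.U_open _).mem_nhds (L.U_mem _)
  filter_upwards [h, hU] with q hq hqU
  rw [D.lS_s x hqU]
  exact hq.1

/-- the monodromy of the marked end -/
def mon (e : LEnd ((D.geomM hol).line a d)) (g : D.Gp) : D.Gp := g * e.g * g⁻¹

theorem mkE_add_one (z : ℂ) : mkE e g (z + 1) = mon e g • mkE e g z := by
  have h1 : g • e.F (z + 1) = mon e g • (g • e.F z) := by
    rw [e.per, mon, smul_smul, smul_smul, inv_mul_cancel_right]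
  show (D.geomM hol).toT a d (g • e.F (z + 1)) = _
  rw [h1]
  rfl

theorem mon_e {w : Fin 3 → ℝ} (hw : Good e w) {t : ℝ} (ht : t ≠ 0)
    (hg : D.R.ρ g w = t • ![0, 0, 1]) :
    ∃ s : ℝ, s ^ 2 = 1 ∧ D.R.ρ (mon e g) ![0, 0, 1] = s • ![0, 0, 1] := by
  have h1 : (![0, 0, 1] : Fin 3 → ℝ) = t⁻¹ • D.R.ρ g w := by
    rw [hg, smul_smul, inv_mul_cancel₀ ht, one_smul]
  have h2 : D.R.ρ g⁻¹ (D.R.ρ g w) = w := by
    rw [← Module.End.mul_apply, ← map_mul, inv_mul_cancel, map_one, Module.End.one_apply]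
  have h3 : D.R.ρ (mon e g) ![0, 0, 1] = t⁻¹ • D.R.ρ g (D.R.ρ e.g w) := by
    rw [h1, map_smul, mon, map_mul, map_mul, Module.End.mul_apply, Module.End.mul_apply, h2]
  have h4 : D.R.ρ e.g w = w ∨ D.R.ρ e.g w = -w := hw.inv
  rcases h4 with h4 | h4
  · exact ⟨1, by norm_num, by rw [h3, h4, ← h1, one_smul]⟩
  · exact ⟨-1, by norm_num, by rw [h3, h4, map_neg, smul_neg, ← h1, neg_one_smul]⟩

/-- **the period is periodic up to sign** -/
theorem per_bE {w : Fin 3 → ℝ} (hw : Good e w) {t : ℝ} (ht : t ≠ 0)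
    (hg : D.R.ρ g w = t • ![0, 0, 1]) :
    ∃ s : ℝ, s ^ 2 = 1 ∧ ∀ z, bE e g (z + 1) = s * bE e g z := by
  obtain ⟨s, hs, h⟩ := mon_e e g hw ht hg
  refine ⟨s, hs, fun z => ?_⟩
  have he : D.r (mon e g).1 F.e = s • F.e := by
    rw [← F.κ_e, ← D.κ_R, h, map_smul]
  have h5 : ∀ x : H, Q (D.r (mon e g).1 x) F.e = s * Q x F.e := by
    intro x
    have h6 := D.r_q (mon e g).1 (mon e g).2.1 x F.e
    rw [he, map_smul, smul_eq_mul] at h6
    rw [← h6, ← mul_assoc, ← pow_two, hs, one_mul]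
  unfold bE
  rw [mkE_add_one, D.smul_val, D.re_smul, D.im_smul]
  unfold Fr.z0
  rw [h5, h5]
  push_cast
  ring

theorem sq_per {w : Fin 3 → ℝ} (hw : Good e w) {t : ℝ} (ht : t ≠ 0)
    (hg : D.R.ρ g w = t • ![0, 0, 1]) (z : ℂ) : bE e g (z + 1) ^ 2 = bE e g z ^ 2 := by
  obtain ⟨s, hs, h⟩ := per_bE e g hw ht hg
  rw [h, mul_pow]
  have : (s : ℂ) ^ 2 = 1 := by exact_mod_cast hs
  rw [this, one_mul]

end Crest.Agent.R281.Ra_989
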