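import Crest.Agent.R281.S6D_664
import Crest.Agent.R275.ProdAtl_363
import Crest.Agent.R275.GAtl_293
import Crest.Agent.R266.SCV
import Crest.Agent.R272.DCov4_426

-- ▼ part R281/S6V1_664
section

/-!
# R281 (S0424), S6-V part 1 (helper664): split charts on `M` adapted to a tube

* `exists_compl`  : `D : E → F` surjective, `dim E = d + dim F` ⟹ `(p, D)` is an isomorphism for some
  `p : E → ℂ^d`;
* `SpC τ`         : a local product chart `χ = (b, f) : M → ℂ^d × ℂ^k` of the tube `τ`;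
* `exists_spC`    : there is one at every point of `τ.W`.
-/

set_option autoImplicit false
set_option linter.unusedSectionVars false

open Set Filter Topology Complex Function Metric
open scoped ContDiff Matrix ComplexConjugate ComplexOrder

namespace Crest.Agent.R281.S6V_664

open Crest.Agent.R275.Geo Crest.Agent.R275.Core144 Crest.Agent.R275.GC293
open Crest.Agent.R275.Prod363 Crest.Agent.R273.Map_835 Crest.Agent.R281.S6D_664

noncomputable section

variable {N d k m : ℕ} {M : Type} [TopologicalSpace M]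

/-- a complement of a surjective map -/
theorem exists_compl (hN : N = d + k) (D : Cn N →L[ℂ] Cn k) (hD : Surjective D) :
    ∃ (p : Cn N →L[ℂ] Cn d) (e : Cn N ≃L[ℂ] Cn d × Cn k), ∀ z, e z = (p z, D z) := by
  have h1 : Module.finrank ℂ (LinearMap.ker D.toLinearMap) = d := by
    have h2 := LinearMap.finrank_range_add_finrank_ker D.toLinearMap
    have h3 : LinearMap.range D.toLinearMap = ⊤ := LinearMap.range_eq_top.2 hD
    rw [h3, finrank_top] at h2
    simp only [finrank_euclideanSpace, Fintype.card_fin] at h2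
    omega
  have h4 : Module.finrank ℂ (LinearMap.ker D.toLinearMap) = Module.finrank ℂ (Cn d) := by
    rw [h1]; simp
  let g : LinearMap.ker D.toLinearMap ≃ₗ[ℂ] Cn d := LinearEquiv.ofFinrankEq _ _ h4
  obtain ⟨q, hq⟩ := (LinearMap.ker D.toLinearMap).exists_isCompl
  let pr := Submodule.projectionOnto _ _ hq
  let p0 : Cn N →ₗ[ℂ] Cn d := g.toLinearMap ∘ₗ pr
  let p : Cn N →L[ℂ] Cn d := LinearMap.toContinuousLinearMap p0
  let e0 : Cn N →ₗ[ℂ] Cn d × Cn k := p0.prod D.toLinearMap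
  have hinj : Injective e0 := by
    rw [← LinearMap.ker_eq_bot, LinearMap.ker_eq_bot']
    intro z hz
    have h5 : p0 z = 0 := congrArg Prod.fst hz
    have h6 : D z = 0 := congrArg Prod.snd hz
    have h7 : pr z = 0 := by
      have h8 : g (pr z) = 0 := h5
      exact (LinearEquiv.map_eq_zero_iff g).1 h8
    have h9 : pr z = ⟨z, h6⟩ := by
      have := Submodule.projectionOnto_apply_left hq (⟨z, h6⟩ : LinearMap.ker D.toLinearMap)
      exact this
    rw [h7] at h9
    exact (congrArg Subtype.val h9).symm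
  have hdim : Module.finrank ℂ (Cn N) = Module.finrank ℂ (Cn d × Cn k) := by
    rw [Module.finrank_prod]
    simp [hN]
  let e1 : Cn N ≃ₗ[ℂ] Cn d × Cn k := LinearEquiv.ofInjectiveOfFinrankEq e0 hinj hdim
  refine ⟨p, e1.toContinuousLinearEquiv, fun z => ?_⟩
  have : e1 z = e0 z := rfl
  exact this

/-- a local product chart of a tube -/
structure SpC (A : Atl N M) {Tf : M → Set M} (τ : Tube A k Tf) (d : ℕ) where
  χ : OpenPartialHomeomorph M (Cn d × Cn k)
  sub : χ.source ⊆ τ.W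
  snd : ∀ x ∈ χ.source, (χ x).2 = τ.f x
  cube : ∀ x ∈ χ.source, ∀ p, rc (χ x).1 p ∈ Ioo (0 : ℝ) 1
  hol : ∀ i, DifferentiableOn ℂ (fun w => A.e i (χ.symm w))
    (χ.target ∩ χ.symm ⁻¹' (A.e i).source)
  hol' : ∀ i, DifferentiableOn ℂ (fun z => χ ((A.e i).symm z))
    ((A.e i).target ∩ (A.e i).symm ⁻¹' χ.source)

theorem exists_spC (hN : N = d + k) (A : Atl N M) {Tf : M → Set M} (τ : Tube A k Tf) {x0 : M}
    (hx0 : x0 ∈ τ.W) : ∃ S : SpC A τ d, x0 ∈ S.χ.source := by
  obtain ⟨i, hi⟩ := A.cover x0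
  set z0 := A.e i x0 with hz0
  have hz0t : z0 ∈ (A.e i).target := (A.e i).map_source hi
  set F : Cn N → Cn k := fun z => τ.f ((A.e i).symm z) with hF
  set O : Set (Cn N) := (A.e i).target ∩ (A.e i).symm ⁻¹' τ.W with hO
  have hOo : IsOpen O := (A.e i).isOpen_inter_preimage_symm τ.oW
  have hFd : DifferentiableOn ℂ F O := τ.hol i
  have hzO : z0 ∈ O := ⟨hz0t, by rw [mem_preimage, hz0, (A.e i).left_inv hi]; exact hx0⟩
  obtain ⟨p, e, he⟩ := exists_compl (d := d) hN (fderiv ℂ F z0) (τ.sub i x0 ⟨hi, hx0⟩)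
  -- normalised first component
  set G : Cn N → Cn d × Cn k := fun z => (aff (p z0) 1 one_pos (p z), F z) with hG
  have hpA : Differentiable ℂ (fun z : Cn N => aff (p z0) 1 one_pos (p z)) :=
    (differentiable_aff _ _ _).comp p.differentiable
  have hGd : DifferentiableOn ℂ G O := hpA.differentiableOn.prodMk hFd
  have hGa : AnalyticAt ℂ G z0 :=
    Crest.Agent.R266.SCV.analyticOnNhd_of_differentiableOn hOo hGd z0 hzO
  -- the derivative
  have h2 : (((2 * (1 : ℝ) : ℝ) : ℂ)⁻¹) ≠ 0 := by norm_num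
  let sc : (Cn d × Cn k) ≃L[ℂ] (Cn d × Cn k) :=
    (ContinuousLinearEquiv.smulLeft (Units.mk0 (((2 * (1 : ℝ) : ℝ) : ℂ)⁻¹) h2)).prodCongr
      (ContinuousLinearEquiv.refl ℂ (Cn k))
  have hder : HasFDerivAt G ((e.trans sc : Cn N ≃L[ℂ] Cn d × Cn k) : Cn N →L[ℂ] Cn d × Cn k)
      z0 := by
    have h3 : HasFDerivAt (fun z : Cn N => aff (p z0) 1 one_pos (p z))
        ((((2 * (1 : ℝ) : ℝ) : ℂ)⁻¹) • p) z0 := by
      have h4 : HasFDerivAt (fun z : Cn N => (((2 * (1 : ℝ) : ℝ) : ℂ)⁻¹) • (p z - p z0) + ctr d)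
          ((((2 * (1 : ℝ) : ℝ) : ℂ)⁻¹) • p) z0 :=
        ((p.hasFDerivAt.sub_const (p z0)).fun_const_smul _).add_const _
      exact h4
    have h5 : HasFDerivAt F (fderiv ℂ F z0) z0 :=
      (hFd.differentiableAt (hOo.mem_nhds hzO)).hasFDerivAt
    have h6 := h3.prodMk h5
    have h7 : (((((2 * (1 : ℝ) : ℝ) : ℂ)⁻¹) • p).prod (fderiv ℂ F z0)) =
        ((e.trans sc : Cn N ≃L[ℂ] Cn d × Cn k) : Cn N →L[ℂ] Cn d × Cn k) := by
      ext1 v
      have h8 := he v
      have h9 : sc (e v) = ((((2 * (1 : ℝ) : ℝ) : ℂ)⁻¹) • (e v).1, (e v).2) := rfl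
      show (((((2 * (1 : ℝ) : ℝ) : ℂ)⁻¹) • p).prod (fderiv ℂ F z0)) v = sc (e v)
      rw [h9, h8]
      rfl
    rw [← h7]
    exact h6
  -- the neighbourhood where the first component is in the cube
  set O' : Set (Cn N) := O ∩ {z | p z ∈ ball (p z0) 1} with hO'
  have hO'o : IsOpen O' := hOo.inter (isOpen_ball.preimage p.continuous)
  have hzO' : z0 ∈ O' := ⟨hzO, mem_ball_self one_pos⟩
  obtain ⟨Θ, hz, hsub, hΘ, han, hans⟩ :=
    Crest.Agent.R266.SCV.exists_analytic_openPartialHomeomorph hGa (e.trans sc) hder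
      (hO'o.mem_nhds hzO')
  let χ : OpenPartialHomeomorph M (Cn d × Cn k) := (A.e i).trans Θ
  have hχ : ∀ x, χ x = G (A.e i x) := fun x => hΘ _
  have hsrc : ∀ x ∈ χ.source, x ∈ (A.e i).source ∧ A.e i x ∈ Θ.source := by
    intro x hx
    rw [OpenPartialHomeomorph.trans_source] at hx
    exact hx
  have htgt : ∀ w ∈ χ.target, w ∈ Θ.target ∧ Θ.symm w ∈ (A.e i).target := by
    intro w hw
    rw [OpenPartialHomeomorph.trans_target] at hw
    exact hw
  refine ⟨⟨χ, ?_, ?_, ?_, ?_, ?_⟩, ?_⟩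
  · intro x hx
    obtain ⟨h1, h3⟩ := hsrc x hx
    have h4 := (hsub h3).1.2
    rw [mem_preimage, (A.e i).left_inv h1] at h4
    exact h4
  · intro x hx
    obtain ⟨h1, h3⟩ := hsrc x hx
    rw [hχ]
    show τ.f ((A.e i).symm (A.e i x)) = τ.f x
    rw [(A.e i).left_inv h1]
  · intro x hx q
    obtain ⟨h1, h3⟩ := hsrc x hx
    rw [hχ]
    have h4 : p (A.e i x) ∈ ball (p z0) 1 := (hsub h3).2
    refine rc_mem_of_ball (p z0) 1 one_pos (z := aff (p z0) 1 one_pos (p (A.e i x))) ?_ q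
    rw [Homeomorph.symm_apply_apply]
    exact h4
  · intro j w hw
    obtain ⟨h1, h3⟩ := htgt w hw.1
    have h4 : χ.symm w = (A.e i).symm (Θ.symm w) := rfl
    have h5 : DifferentiableAt ℂ (fun z => A.e j ((A.e i).symm z)) (Θ.symm w) := by
      refine (A.holo i j).differentiableAt ?_
      refine ((A.e i).isOpen_inter_preimage_symm (A.e j).open_source).mem_nhds ⟨h3, ?_⟩
      exact hw.2
    have h6 : DifferentiableAt ℂ Θ.symm w := (hans w h1).differentiableAt
    exact (DifferentiableAt.comp w h5 h6).differentiableWithinAt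
  · intro j z hz
    have h1 := hsrc _ hz.2
    have h5 : DifferentiableAt ℂ (fun z => A.e i ((A.e j).symm z)) z := by
      refine (A.holo j i).differentiableAt ?_
      exact ((A.e j).isOpen_inter_preimage_symm (A.e i).open_source).mem_nhds ⟨hz.1, h1.1⟩
    have h6 : DifferentiableAt ℂ Θ (A.e i ((A.e j).symm z)) := (han _ h1.2).differentiableAt
    exact (DifferentiableAt.comp z h6 h5).differentiableWithinAt
  · rw [OpenPartialHomeomorph.trans_source]
    exact ⟨hi, hz⟩

end

end Crest.Agent.R281.S6V_664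
end

-- ▼ part R281/S6V2_664
section

/-!
# R281 (S0424), S6-V part 2 (helper664): the family `V = {(u, x) : u ∈ U, x ∈ Tf (Γ u)}`

* `BM A Tf k m`   : a base map `Γ : U → M`, `U` open in the unit cube of `ℂ^m`, holomorphic, with values
  in tubes and transversal to the leaves;
* `BM.V`          : the total space, `vch` its adapted charts, `atl0` the (big) atlas;
* `holMap_i`, `imm_i`, `proper_y`, `conn_y`.
-/

set_option autoImplicit false
set_option linter.unusedSectionVars false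

open Set Filter Topology Complex Function Metric
open scoped ContDiff Matrix ComplexConjugate ComplexOrder

namespace Crest.Agent.R281.S6V_664

open Crest.Agent.R275.Geo Crest.Agent.R275.Core144 Crest.Agent.R275.GC293
open Crest.Agent.R275.Prod363 Crest.Agent.R273.Map_835 Crest.Agent.R281.S6D_664

noncomputable section

variable {N d k m : ℕ} {M : Type} [TopologicalSpace M]

/-- a base map -/
structure BM (A : Atl N M) (Tf : M → Set M) (k m : ℕ) where
  U : Set (Cn m)
  Γ : Cn m → M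
  oU : IsOpen U
  cube : ∀ u ∈ U, ∀ p, rc u p ∈ Ioo (0 : ℝ) 1
  cont : ContinuousOn Γ U
  hol : ∀ i, DifferentiableOn ℂ (fun u => A.e i (Γ u)) (U ∩ Γ ⁻¹' (A.e i).source)
  tb : ∀ u ∈ U, ∃ τ : Tube A k Tf, Γ u ∈ τ.W
  tr : ∀ u ∈ U, ∀ τ : Tube A k Tf, Γ u ∈ τ.W → Injective (fderiv ℂ (fun u => τ.f (Γ u)) u)

variable {A : Atl N M} {Tf : M → Set M}

namespace BM

variable (G : BM A Tf k m)

theorem isOpen_pre {O : Set M} (hO : IsOpen O) : IsOpen (G.U ∩ G.Γ ⁻¹' O) :=
  G.cont.isOpen_inter_preimage G.oU hO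

/-- `τ.f ∘ Γ` is holomorphic -/
theorem diff_f (τ : Tube A k Tf) {u : Cn m} (hu : u ∈ G.U) (hW : G.Γ u ∈ τ.W) :
    DifferentiableAt ℂ (fun u => τ.f (G.Γ u)) u := by
  obtain ⟨i, hi⟩ := A.cover (G.Γ u)
  have h1 : DifferentiableAt ℂ (fun u => A.e i (G.Γ u)) u :=
    (G.hol i).differentiableAt ((G.isOpen_pre (A.e i).open_source).mem_nhds ⟨hu, hi⟩)
  have h2 : DifferentiableAt ℂ (fun z => τ.f ((A.e i).symm z)) (A.e i (G.Γ u)) := by
    refine (τ.hol i).differentiableAt
      (((A.e i).isOpen_inter_preimage_symm τ.oW).mem_nhds ⟨(A.e i).map_source hi, ?_⟩)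
    rw [mem_preimage, (A.e i).left_inv hi]
    exact hW
  have h3 := DifferentiableAt.comp u (g := fun z => τ.f ((A.e i).symm z))
    (f := fun u => A.e i (G.Γ u)) h2 h1
  refine h3.congr_of_eventuallyEq ?_
  filter_upwards [(G.isOpen_pre (A.e i).open_source).mem_nhds ⟨hu, hi⟩] with w hw
  simp only [Function.comp]
  rw [(A.e i).left_inv hw.2]

theorem cont_f (τ : Tube A k Tf) :
    ContinuousOn (fun u => τ.f (G.Γ u)) (G.U ∩ G.Γ ⁻¹' τ.W) := fun _ hu =>
  (G.diff_f τ hu.1 hu.2).continuousAt.continuousWithinAt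

/-- the total space -/
@[ext] structure V where
  /-- the base coordinate -/
  yy : Cn m
  /-- the point of `M` -/
  ii : M
  yy_mem : yy ∈ G.U
  ii_mem : ii ∈ Tf (G.Γ yy)

variable {G}

open V (yy ii yy_mem ii_mem)

/-- the embedding -/
def pr (v : G.V) : Cn m × M := (yy v, ii v)

theorem pr_inj : Injective (pr : G.V → Cn m × M) := fun v w h => by
  have h1 := congrArg Prod.fst h
  have h2 := congrArg Prod.snd h
  exact V.ext h1 h2

instance : TopologicalSpace G.V := TopologicalSpace.induced pr inferInstance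

theorem isEmbedding_pr : IsEmbedding (pr : G.V → Cn m × M) := ⟨⟨rfl⟩, pr_inj⟩

instance [T2Space M] : T2Space G.V := isEmbedding_pr.t2Space

theorem continuous_pr : Continuous (pr : G.V → Cn m × M) := continuous_induced_dom

theorem continuous_yy : Continuous (yy : G.V → Cn m) := continuous_fst.comp continuous_pr

theorem continuous_ii : Continuous (ii : G.V → M) := continuous_snd.comp continuous_pr

theorem continuous_Γ : Continuous (fun v : G.V => G.Γ (yy v)) :=
  G.cont.comp_continuous continuous_yy yy_mem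

theorem ii_tube (τ : Tube A k Tf) {v : G.V} (hv : G.Γ (yy v) ∈ τ.W) :
    ii v ∈ τ.W ∧ τ.f (ii v) = τ.f (G.Γ (yy v)) := by
  have h := ii_mem v
  rw [τ.fib _ hv] at h
  exact h

theorem mem_of_tube (τ : Tube A k Tf) {u : Cn m} {x : M} (hu : u ∈ G.U) (hΓ : G.Γ u ∈ τ.W)
    (hx : x ∈ τ.W) (hf : τ.f x = τ.f (G.Γ u)) : u ∈ G.U ∧ x ∈ Tf (G.Γ u) := by
  refine ⟨hu, ?_⟩
  rw [τ.fib _ hΓ]
  exact ⟨hx, hf⟩

/-- the value of the inverse chart in `M` -/
def ix {τ : Tube A k Tf} (S : SpC A τ d) (w : Cn (d + m)) : M :=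
  S.χ.symm (fstL d m w, τ.f (G.Γ (sndL d m w)))

/-- the target of the chart -/
def tg (G : BM A Tf k m) {τ : Tube A k Tf} (S : SpC A τ d) : Set (Cn (d + m)) :=
  {w | (sndL d m w ∈ G.U ∧ G.Γ (sndL d m w) ∈ τ.W) ∧
    (fstL d m w, τ.f (G.Γ (sndL d m w))) ∈ S.χ.target}

theorem cont_pair (τ : Tube A k Tf) :
    ContinuousOn (fun w : Cn (d + m) => (fstL d m w, τ.f (G.Γ (sndL d m w))))
      {w | sndL d m w ∈ G.U ∧ G.Γ (sndL d m w) ∈ τ.W} :=
  (fstL d m).continuous.continuousOn.prodMk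
    ((G.cont_f τ).comp (sndL d m).continuous.continuousOn fun _ hw => hw)

theorem isOpen_dom (τ : Tube A k Tf) :
    IsOpen {w : Cn (d + m) | sndL d m w ∈ G.U ∧ G.Γ (sndL d m w) ∈ τ.W} :=
  (G.isOpen_pre τ.oW).preimage (sndL d m).continuous

theorem isOpen_tg {τ : Tube A k Tf} (S : SpC A τ d) : IsOpen (G.tg S) :=
  (cont_pair τ).isOpen_inter_preimage (isOpen_dom τ) S.χ.open_target

theorem ix_mem {τ : Tube A k Tf} (S : SpC A τ d) {w : Cn (d + m)} (hw : w ∈ G.tg S) :
    ix (G := G) S w ∈ S.χ.source := S.χ.map_target hw.2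

theorem χ_ix {τ : Tube A k Tf} (S : SpC A τ d) {w : Cn (d + m)} (hw : w ∈ G.tg S) :
    S.χ (ix (G := G) S w) = (fstL d m w, τ.f (G.Γ (sndL d m w))) := S.χ.right_inv hw.2

theorem ix_ok {τ : Tube A k Tf} (S : SpC A τ d) {w : Cn (d + m)} (hw : w ∈ G.tg S) :
    sndL d m w ∈ G.U ∧ ix (G := G) S w ∈ Tf (G.Γ (sndL d m w)) := by
  refine mem_of_tube τ hw.1.1 hw.1.2 (S.sub (ix_mem S hw)) ?_
  rw [← S.snd _ (ix_mem S hw), χ_ix S hw]

open Classical in
/-- the adapted chart -/
def vch [Nonempty G.V] {τ : Tube A k Tf} (S : SpC A τ d) :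
    OpenPartialHomeomorph G.V (Cn (d + m)) where
  toFun v := app (S.χ (ii v)).1 (yy v)
  invFun w := if h : w ∈ G.tg S then ⟨sndL d m w, ix (G := G) S w, (ix_ok S h).1, (ix_ok S h).2⟩
    else Classical.arbitrary _
  source := {v | ii v ∈ S.χ.source ∧ G.Γ (yy v) ∈ τ.W}
  target := G.tg S
  map_source' := by
    rintro v ⟨h1, h2⟩
    have h3 := ii_tube τ h2
    refine ⟨⟨?_, ?_⟩, ?_⟩
    · rw [sndL_app]; exact yy_mem v
    · rw [sndL_app]; exact h2
    · rw [sndL_app, fstL_app, ← h3.2, ← S.snd _ h1]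
      exact S.χ.map_source h1
  map_target' := by
    intro w hw
    simp only [hw, dite_true]
    exact ⟨ix_mem S hw, hw.1.2⟩
  left_inv' := by
    rintro v ⟨h1, h2⟩
    have h3 := ii_tube τ h2
    have hw : app (S.χ (ii v)).1 (yy v) ∈ G.tg S := by
      refine ⟨⟨?_, ?_⟩, ?_⟩
      · rw [sndL_app]; exact yy_mem v
      · rw [sndL_app]; exact h2
      · rw [sndL_app, fstL_app, ← h3.2, ← S.snd _ h1]
        exact S.χ.map_source h1
    simp only [hw, dite_true]
    refine V.ext ?_ ?_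
    · show sndL d m (app (S.χ (ii v)).1 (yy v)) = yy v
      rw [sndL_app]
    · show S.χ.symm (fstL d m (app (S.χ (ii v)).1 (yy v)),
        τ.f (G.Γ (sndL d m (app (S.χ (ii v)).1 (yy v))))) = ii v
      rw [sndL_app, fstL_app, ← h3.2, ← S.snd _ h1]
      exact S.χ.left_inv h1
  right_inv' := by
    intro w hw
    simp only [hw, dite_true]
    show app (S.χ (ix (G := G) S w)).1 (sndL d m w) = w
    rw [χ_ix S hw]
    exact app_fstL_sndL w
  open_source := by
    exact (S.χ.open_source.preimage continuous_ii).inter (τ.oW.preimage continuous_Γ)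
  open_target := isOpen_tg S
  continuousOn_toFun := by
    have h1 : ContinuousOn (fun v : G.V => (S.χ (ii v)).1)
        {v | ii v ∈ S.χ.source ∧ G.Γ (yy v) ∈ τ.W} :=
      continuous_fst.comp_continuousOn
        (S.χ.continuousOn.comp continuous_ii.continuousOn fun v hv => hv.1)
    have h2 := (appL d m).continuous.comp_continuousOn (h1.prodMk continuous_yy.continuousOn)
    exact h2
  continuousOn_invFun := by
    rw [isEmbedding_pr.isInducing.continuousOn_iff]
    have h2 : ContinuousOn (fun w => ix (G := G) S w) (G.tg S) :=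
      S.χ.symm.continuousOn.comp ((cont_pair τ).mono fun w hw => hw.1) fun w hw => hw.2
    refine ((sndL d m).continuous.continuousOn.prodMk h2).congr fun w hw => ?_
    simp only [Function.comp, hw, dite_true]
    rfl

variable [Nonempty G.V]

theorem vch_apply {τ : Tube A k Tf} (S : SpC A τ d) (v : G.V) :
    vch S v = app (S.χ (ii v)).1 (yy v) := rfl

theorem vch_symm {τ : Tube A k Tf} (S : SpC A τ d) {w : Cn (d + m)} (hw : w ∈ (vch (G := G) S).target) :
    ii ((vch (G := G) S).symm w) = ix (G := G) S w ∧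
      yy ((vch (G := G) S).symm w) = sndL d m w := by
  have hw' : w ∈ G.tg S := hw
  have h1 : (vch (G := G) S).symm w =
      ⟨sndL d m w, ix (G := G) S w, (ix_ok S hw').1, (ix_ok S hw').2⟩ := dif_pos hw'
  rw [h1]
  exact ⟨rfl, rfl⟩

theorem diff_pair (τ : Tube A k Tf) {w : Cn (d + m)}
    (hw : sndL d m w ∈ G.U ∧ G.Γ (sndL d m w) ∈ τ.W) :
    DifferentiableAt ℂ (fun w : Cn (d + m) => (fstL d m w, τ.f (G.Γ (sndL d m w)))) w := by
  refine (fstL d m).differentiableAt.prodMk ?_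
  exact DifferentiableAt.comp w (g := fun u => τ.f (G.Γ u)) (f := sndL d m)
    (G.diff_f τ hw.1 hw.2) (sndL d m).differentiableAt

/-- `ii` is holomorphic in the charts -/
theorem diff_ix {τ : Tube A k Tf} (S : SpC A τ d) {w : Cn (d + m)} (hw : w ∈ G.tg S) {i : A.ι}
    (hi : ix (G := G) S w ∈ (A.e i).source) :
    DifferentiableAt ℂ (fun w => A.e i (ix (G := G) S w)) w := by
  have h1 : DifferentiableAt ℂ (fun w => A.e i (S.χ.symm w))
      (fstL d m w, τ.f (G.Γ (sndL d m w))) :=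
    (S.hol i).differentiableAt
      ((S.χ.isOpen_inter_preimage_symm (A.e i).open_source).mem_nhds ⟨hw.2, hi⟩)
  exact DifferentiableAt.comp w (g := fun w => A.e i (S.χ.symm w))
    (f := fun w : Cn (d + m) => (fstL d m w, τ.f (G.Γ (sndL d m w)))) h1 (diff_pair τ hw.1)

theorem cont_ix {τ : Tube A k Tf} (S : SpC A τ d) : ContinuousOn (fun w => ix (G := G) S w) (G.tg S) :=
  S.χ.symm.continuousOn.comp ((cont_pair τ).mono fun w hw => hw.1) fun w hw => hw.2

/-- the indices of the big atlas -/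
def IX (A : Atl N M) (Tf : M → Set M) (k d : ℕ) : Type := Σ τ : Tube A k Tf, SpC A τ d

theorem holo_vch {τ τ' : Tube A k Tf} (S : SpC A τ d) (S' : SpC A τ' d) :
    DifferentiableOn ℂ (fun w => vch (G := G) S' ((vch (G := G) S).symm w))
      {w | w ∈ (vch (G := G) S).target ∧ (vch (G := G) S).symm w ∈ (vch (G := G) S').source} := by
  intro w hw
  have hwt : w ∈ G.tg S := hw.1
  obtain ⟨h1, h2⟩ := vch_symm (G := G) S hw.1
  have h3 : ix (G := G) S w ∈ S'.χ.source := by
    rw [← h1]; exact hw.2.1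
  obtain ⟨i, hi⟩ := A.cover (ix (G := G) S w)
  have h4 := diff_ix (G := G) S hwt hi
  have h5 : DifferentiableAt ℂ (fun z => S'.χ ((A.e i).symm z)) (A.e i (ix (G := G) S w)) := by
    refine (S'.hol' i).differentiableAt
      (((A.e i).isOpen_inter_preimage_symm S'.χ.open_source).mem_nhds
        ⟨(A.e i).map_source hi, ?_⟩)
    rw [mem_preimage, (A.e i).left_inv hi]
    exact h3
  have h6 := DifferentiableAt.comp w (g := fun z => S'.χ ((A.e i).symm z))
    (f := fun w => A.e i (ix (G := G) S w)) h5 h4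
  have h8 : DifferentiableAt ℂ (fun w : Cn (d + m) => appL d m
      ((((fun z => S'.χ ((A.e i).symm z)) ∘ (fun w => A.e i (ix (G := G) S w))) w).1,
        sndL d m w)) w :=
    (appL d m).differentiableAt.comp w (h6.fst.prodMk (sndL d m).differentiableAt)
  refine (h8.congr_of_eventuallyEq ?_).differentiableWithinAt
  have h9 : (G.tg S ∩ (fun w => ix (G := G) S w) ⁻¹' (A.e i).source) ∈ 𝓝 w :=
    ((cont_ix S).isOpen_inter_preimage (isOpen_tg S) (A.e i).open_source).mem_nhds ⟨hwt, hi⟩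
  filter_upwards [h9] with w' hw'
  obtain ⟨g1, g2⟩ := vch_symm (G := G) S (w := w') hw'.1
  rw [vch_apply, g1, g2]
  simp only [Function.comp, appL_apply]
  rw [(A.e i).left_inv hw'.2]

end BM

end

end Crest.Agent.R281.S6V_664
end

-- ▼ part R281/LfP1_901
section

/-!
# R281 (S0424), OM-LF-PART (helper901): atlases and partitions of unity of non compact manifolds

`subAtl`        : a family of small normalised balls in the charts of `C : Fam n X` as an atlas;
`exists_li`     : countable, locally finite, relatively compact covering family of small balls;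
`exists_atl_nc` : every second countable Hausdorff space with a `Fam n X` has an `Atl n X` with
                  countably many, relatively compact, locally finite charts, subordinate to a given
                  open cover, with a partition of unity, compatible with the family.
-/

set_option autoImplicit false
set_option linter.unusedSectionVars false

open Set Filter Topology Metric
open scoped ContDiff Manifold

namespace Crest.Agent.R281.LfP_901

open Crest.Agent.R275 Crest.Agent.R275.Geo Crest.Agent.R275.Core144 Crest.Agent.R275.GC293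
open Crest.Agent.R273.Map_835 Crest.Agent.R273.Fam_835 Crest.Agent.R272.DCov_426

noncomputable section

variable {n : ℕ} {X : Type} [TopologicalSpace X] {C : Fam n X} {κ : Type} {O : κ → Set X}

/-- the space of a family is locally compact -/
theorem locallyCompact_of_fam (C : Fam n X) : LocallyCompactSpace X := by
  let _ := C.cs
  exact ChartedSpace.locallyCompactSpace (Cn n) X


section

variable (hO : ∀ k, IsOpen (O k)) (hOc : ∀ x, ∃ k, x ∈ O k) {α : Type} (l : α → LI C O)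
  (hc : ∀ x, ∃ a, x ∈ (l a).e.source)





end

/-- **good charts of a non compact manifold**, precise form: a countable, locally finite covering
family of small balls, relatively compact in the charts of `C` and in the sets `O k`. -/
theorem exists_li [T2Space X] [SecondCountableTopology X] (C : Fam n X) (O : κ → Set X)
    (hO : ∀ k, IsOpen (O k)) (hOc : ∀ x, ∃ k, x ∈ O k) :
    ∃ (α : Type) (l : α → LI C O), Countable α ∧ (∀ x, ∃ a, x ∈ (l a).e.source) ∧
      (LocallyFinite fun a => (l a).e.source) ∧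
      (∀ a, closedBall (l a).z0 (l a).r ⊆ (C.e (l a).c).target) ∧
      (∀ a, ∀ z ∈ closedBall (l a).z0 (l a).r, (C.e (l a).c).symm z ∈ O (l a).k) ∧
      (∀ a, ∃ K : Set X, IsCompact K ∧ (l a).e.source ⊆ K ∧ K ⊆ (C.e (l a).c).source ∧
        K ⊆ O (l a).k) ∧
      ∀ a, ((l a).e.source).Nonempty := by
  have _ : LocallyCompactSpace X := locallyCompact_of_fam C
  have _ : SigmaCompactSpace X := inferInstance
  -- charts and radii
  have h0 : ∀ x : X, ∃ (c : C.ι) (k : κ) (R : ℝ), 0 < R ∧ x ∈ (C.e c).source ∧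
      ∀ z ∈ ball (C.e c x) R, z ∈ (C.e c).target ∧ (C.e c).symm z ∈ O k := by
    intro x
    obtain ⟨c, hc⟩ := C.cover x
    obtain ⟨k, hk⟩ := hOc x
    have h1 : (C.e c).target ∩ (C.e c).symm ⁻¹' (O k) ∈ 𝓝 (C.e c x) :=
      ((C.e c).isOpen_inter_preimage_symm (hO k)).mem_nhds
        ⟨(C.e c).map_source hc, by rw [mem_preimage, (C.e c).left_inv hc]; exact hk⟩
    obtain ⟨r, hr, h2⟩ := Metric.mem_nhds_iff.1 h1
    exact ⟨c, k, r, hr, hc, fun z hz => h2 hz⟩
  choose c k R hR hcx hsub using h0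
  have hB : ∀ x : X, (𝓝 x).HasBasis (fun r : ℝ => 0 < r ∧ r < R x)
      (fun r => (C.e (c x)).source ∩ (C.e (c x)) ⁻¹' ball (C.e (c x) x) r) := by
    intro x
    refine ⟨fun t => ⟨fun ht => ?_, ?_⟩⟩
    · have h1 : (C.e (c x)).target ∩ (C.e (c x)).symm ⁻¹' (interior t) ∈ 𝓝 (C.e (c x) x) :=
        ((C.e (c x)).isOpen_inter_preimage_symm isOpen_interior).mem_nhds
          ⟨(C.e (c x)).map_source (hcx x), by
            rw [mem_preimage, (C.e (c x)).left_inv (hcx x)]; exact mem_interior_iff_mem_nhds.2 ht⟩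
      obtain ⟨r, hr, h2⟩ := Metric.mem_nhds_iff.1 h1
      refine ⟨min r (R x / 2), ⟨lt_min hr (half_pos (hR x)),
        (min_le_right _ _).trans_lt (half_lt_self (hR x))⟩, ?_⟩
      rintro y ⟨hy, hy'⟩
      have h3 := h2 (ball_subset_ball (min_le_left _ _) hy')
      have h4 : (C.e (c x)).symm (C.e (c x) y) ∈ interior t := h3.2
      rw [(C.e (c x)).left_inv hy] at h4
      exact interior_subset h4
    · rintro ⟨r, ⟨hr, -⟩, h2⟩
      exact mem_of_superset (((C.e (c x)).isOpen_inter_preimage isOpen_ball).mem_nhds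
        ⟨hcx x, mem_ball_self hr⟩) h2
  obtain ⟨α, q, r, hp, hcov, hlf⟩ := refinement_of_locallyCompact_sigmaCompact_of_nhds_basis hB
  set l : α → LI C O := fun a => ⟨c (q a), C.e (c (q a)) (q a), r a, k (q a), (hp a).1,
    fun z hz => hsub (q a) z (ball_subset_ball (hp a).2.le hz)⟩ with hl
  have hsrc : ∀ a, (l a).e.source =
      (C.e (c (q a))).source ∩ (C.e (c (q a))) ⁻¹' ball (C.e (c (q a)) (q a)) (r a) := by
    intro a
    ext x
    exact (l a).mem_source
  have hc' : ∀ x, ∃ a, x ∈ (l a).e.source := by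
    intro x
    have : x ∈ ⋃ a, (C.e (c (q a))).source ∩
        (C.e (c (q a))) ⁻¹' ball (C.e (c (q a)) (q a)) (r a) := by
      rw [hcov]; exact mem_univ x
    obtain ⟨a, ha⟩ := mem_iUnion.1 this
    exact ⟨a, by rw [hsrc]; exact ha⟩
  have hlf' : LocallyFinite fun a => (l a).e.source := by
    have : (fun a => (l a).e.source) = fun a => (C.e (c (q a))).source ∩
        (C.e (c (q a))) ⁻¹' ball (C.e (c (q a)) (q a)) (r a) := funext hsrc
    rw [this]
    exact hlf
  have hne : ∀ a, ((l a).e.source).Nonempty := fun a =>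
    ⟨q a, by rw [hsrc]; exact ⟨hcx (q a), mem_ball_self (hp a).1⟩⟩
  have hcb : ∀ a, closedBall (C.e (c (q a)) (q a)) (r a) ⊆ (C.e (c (q a))).target := fun a z hz =>
    (hsub (q a) z (closedBall_subset_ball (hp a).2 hz)).1
  have hcO : ∀ a, ∀ z ∈ closedBall (C.e (c (q a)) (q a)) (r a),
      (C.e (c (q a))).symm z ∈ O (k (q a)) := fun a z hz =>
    (hsub (q a) z (closedBall_subset_ball (hp a).2 hz)).2
  have hrc : ∀ a, ∃ K : Set X, IsCompact K ∧ (l a).e.source ⊆ K ∧ K ⊆ (C.e (l a).c).source ∧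
      K ⊆ O (l a).k := by
    intro a
    refine ⟨(C.e (c (q a))).symm '' closedBall (C.e (c (q a)) (q a)) (r a),
      (isCompact_closedBall _ _).image_of_continuousOn
        ((C.e (c (q a))).continuousOn_symm.mono (hcb a)), ?_, ?_, ?_⟩
    · intro x hx
      rw [hsrc] at hx
      exact ⟨_, ball_subset_closedBall hx.2, (C.e (c (q a))).left_inv hx.1⟩
    · rintro _ ⟨z, hz, rfl⟩
      exact (C.e (c (q a))).map_target (hcb a hz)
    · rintro _ ⟨z, hz, rfl⟩
      exact hcO a z hz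
  have hcount : Countable α := by
    rw [← countable_univ_iff]
    exact hlf'.countable_univ hne
  exact ⟨α, l, hcount, hc', hlf', hcb, hcO, hrc, hne⟩


end

end Crest.Agent.R281.LfP_901
end

-- ▼ part R281/S6V3_664
section

/-!
# R281 (S0424), S6-V part 3 (helper664): countable restrictions of an atlas, without rescaling

* `resAtl A0 c O` : the charts `A0.e (c a)` restricted to open sets `O a` (coordinates unchanged);
* `exists_res`    : on a second countable Hausdorff space there is such a restriction which is countable,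
  locally finite, relatively compact, with a partition of unity (in the sense of `Part`).
-/

set_option autoImplicit false
set_option linter.unusedSectionVars false

open Set Filter Topology Metric
open scoped ContDiff Manifold

namespace Crest.Agent.R281.S6V_664

open Crest.Agent.R275 Crest.Agent.R275.Geo Crest.Agent.R275.Core144 Crest.Agent.R275.GC293
open Crest.Agent.R273.Map_835 Crest.Agent.R273.Fam_835 Crest.Agent.R272.DCov_426
open Crest.Agent.R281.LfP_901

noncomputable section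

variable {n : ℕ} {X : Type} [TopologicalSpace X]

/-- restricted charts, coordinates unchanged -/
def resAtl (A0 : Atl n X) {α : Type} (c : α → A0.ι) (O : α → Set X) (hO : ∀ a, IsOpen (O a))
    (hc : ∀ x, ∃ a, x ∈ (A0.e (c a)).source ∩ O a) : Atl n X where
  ι := α
  e a := (A0.e (c a)).restrOpen (O a) (hO a)
  cover := hc
  cube a z hz p := A0.cube (c a) z hz.1 p
  holo a b := (A0.holo (c a) (c b)).mono fun z hz => ⟨hz.1.1, hz.2.1⟩

variable (A0 : Atl n X) {α : Type} (c : α → A0.ι) (O : α → Set X) (hO : ∀ a, IsOpen (O a))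
    (hc : ∀ x, ∃ a, x ∈ (A0.e (c a)).source ∩ O a)





/-- smooth functions of the real manifold are smooth in the restricted charts -/
theorem sm_resAtl {W : Type*} [NormedAddCommGroup W] [NormedSpace ℝ W] {f : X → W}
    (hf : letI := (fam A0).cs; ContMDiff 𝓘(ℝ, Cn n) 𝓘(ℝ, W) ∞ f) :
    (resAtl A0 c O hO hc).Sm f := by
  let _ := (fam A0).cs
  have _ := (fam A0).isManifold
  have _ : IsManifold 𝓘(ℝ, Cn n) ∞ X := ZC352.isManifold_real
  intro a
  have hmem : (fam A0).e (c a) ∈ atlas (Cn n) X := mem_range_self _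
  have h1 : ContMDiffOn 𝓘(ℝ, Cn n) 𝓘(ℝ, Cn n) ∞ ((fam A0).e (c a)).symm
      ((fam A0).e (c a)).target :=
    contMDiffOn_symm_of_mem_maximalAtlas (StructureGroupoid.subset_maximalAtlas _ hmem)
  have h2 : ContMDiffOn 𝓘(ℝ, Cn n) 𝓘(ℝ, W) ∞ (f ∘ ((fam A0).e (c a)).symm)
      ((fam A0).e (c a)).target := ContMDiff.comp_contMDiffOn hf h1
  have h3 : ContDiffOn ℝ ∞ (f ∘ ((fam A0).e (c a)).symm) ((fam A0).e (c a)).target :=
    contMDiffOn_iff_contDiffOn.1 h2
  exact h3.mono fun z hz => hz.1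

/-- partition of unity -/
theorem part_resAtl [T2Space X] [SigmaCompactSpace X]
    (hlf : LocallyFinite fun a => ((resAtl A0 c O hO hc).e a).source)
    (hrc : ∀ a, ∃ K : Set X, IsCompact K ∧ ((resAtl A0 c O hO hc).e a).source ⊆ K) :
    Nonempty (Part (resAtl A0 c O hO hc)) := by
  let _ := (fam A0).cs
  have _ := (fam A0).isManifold
  have _ : IsManifold 𝓘(ℝ, Cn n) ∞ X := ZC352.isManifold_real
  have _ : LocallyCompactSpace X := locallyCompact_of_fam (fam A0)
  obtain ⟨f, hf⟩ := SmoothPartitionOfUnity.exists_isSubordinate 𝓘(ℝ, Cn n) (s := (univ : Set X))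
    isClosed_univ (fun a => ((resAtl A0 c O hO hc).e a).source)
    (fun a => ((resAtl A0 c O hO hc).e a).open_source) (fun x _ => mem_iUnion.2 (hc x))
  have h1 : ∀ a : α, ∃ χ : C^∞⟮𝓘(ℝ, Cn n), X; 𝓘(ℝ), ℝ⟯,
      (∀ᶠ x in 𝓝ˢ (((resAtl A0 c O hO hc).e a).source)ᶜ, χ x = 0) ∧
      (∀ᶠ x in 𝓝ˢ (tsupport (f a)), χ x = 1) ∧ ∀ x, χ x ∈ Icc (0 : ℝ) 1 := by
    intro a
    apply exists_contMDiffMap_zero_one_nhds_of_isClosed
    · exact ((resAtl A0 c O hO hc).e a).open_source.isClosed_compl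
    · exact isClosed_tsupport _
    · rw [disjoint_compl_left_iff_subset]
      exact hf a
  choose χ hχ0 hχ1 hχ using h1
  have hsub : ∀ a, tsupport (χ a) ⊆ ((resAtl A0 c O hO hc).e a).source := by
    intro a x hx
    by_contra hxs
    have h2 : ∀ᶠ y in 𝓝 x, χ a y = 0 :=
      (hχ0 a).filter_mono (nhds_le_nhdsSet (mem_compl hxs))
    exact (notMem_tsupport_iff_eventuallyEq.2 h2) hx
  refine ⟨⟨fun a x => f a x, fun a x => χ a x, fun a => ?_, fun a => ?_, fun a => ?_, hsub,
    fun a x hx => ?_, fun K hK => ?_, fun x => f.sum_eq_one (mem_univ x)⟩⟩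
  · exact sm_resAtl A0 c O hO hc (f a).contMDiff
  · exact sm_resAtl A0 c O hO hc (χ a).contMDiff
  · obtain ⟨K, hK, hK'⟩ := hrc a
    exact hK.of_isClosed_subset (isClosed_tsupport _) ((hsub a).trans hK')
  · exact (hχ1 a).filter_mono (nhds_le_nhdsSet hx)
  · exact (hlf.finite_nonempty_inter_compact hK).subset fun a ha =>
      ha.mono (inter_subset_inter_left _ (hsub a))

/-- **countable, locally finite restriction with a partition of unity** -/
theorem exists_res [T2Space X] [SecondCountableTopology X] (A0 : Atl n X) :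
    ∃ (α : Type) (c : α → A0.ι) (O : α → Set X) (hO : ∀ a, IsOpen (O a))
      (hc : ∀ x, ∃ a, x ∈ (A0.e (c a)).source ∩ O a), Countable α ∧
      (∀ a, O a ⊆ (A0.e (c a)).source) ∧
      (∀ a, ∃ K : Set X, IsCompact K ∧ O a ⊆ K ∧ K ⊆ (A0.e (c a)).source) ∧
      (LocallyFinite O) ∧ Nonempty (Part (resAtl A0 c O hO hc)) := by
  have _ : LocallyCompactSpace X := locallyCompact_of_fam (fam A0)
  have _ : SigmaCompactSpace X := inferInstance
  obtain ⟨α, l, hcount, hc', hlf', -, -, hrc, hne⟩ :=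
    exists_li (fam A0) (fun _ : Unit => (univ : Set X)) (fun _ => isOpen_univ)
      (fun x => ⟨(), mem_univ x⟩)
  have hs : ∀ a, (l a).e.source ⊆ (A0.e (l a).c).source := fun a x hx =>
    ((l a).mem_source.1 hx).1
  have hc : ∀ x, ∃ a, x ∈ (A0.e (l a).c).source ∩ (l a).e.source := fun x => by
    obtain ⟨a, ha⟩ := hc' x
    exact ⟨a, hs a ha, ha⟩
  have hO : ∀ a, IsOpen (l a).e.source := fun a => (l a).e.open_source
  refine ⟨α, fun a => (l a).c, fun a => (l a).e.source, hO, hc, hcount, hs, fun a => ?_, hlf', ?_⟩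
  · obtain ⟨K, h1, h2, h3, -⟩ := hrc a
    exact ⟨K, h1, h2, h3⟩
  · refine part_resAtl A0 _ _ hO hc ?_ fun a => ?_
    · refine hlf'.subset fun a => ?_
      exact inter_subset_right
    · obtain ⟨K, h1, h2, -, -⟩ := hrc a
      exact ⟨K, h1, inter_subset_right.trans h2⟩

end

end Crest.Agent.R281.S6V_664
end

-- ▼ part R281/S6V4_664
section

/-!
# R281 (S0424), S6-V part 4 (helper664): `BM ⟹ Fam`

* `atl0`, `holMap0`, `imm0`, `proper0`, `conn0`;
* `exists_fam` : a base map `G` has a total space `F : Fam A d m G.U` with `F.i v ∈ Tf (G.Γ (F.y v))`,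
  all points reached.
-/

set_option autoImplicit false
set_option linter.unusedSectionVars false

open Set Filter Topology Complex Function Metric
open scoped ContDiff Matrix ComplexConjugate ComplexOrder

namespace Crest.Agent.R281.S6V_664

open Crest.Agent.R275.Geo Crest.Agent.R275.Core144 Crest.Agent.R275.GC293
open Crest.Agent.R275.Prod363 Crest.Agent.R273.Map_835 Crest.Agent.R281.S6D_664

noncomputable section

variable {N d k m : ℕ} {M : Type} [TopologicalSpace M] {A : Atl N M} {Tf : M → Set M}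

/-- the map of a tube is continuous -/
theorem cont_tube (τ : Tube A k Tf) : ContinuousOn τ.f τ.W := by
  intro x hx
  obtain ⟨i, hi⟩ := A.cover x
  have h1 : ContinuousAt (fun z => τ.f ((A.e i).symm z)) (A.e i x) := by
    refine ((τ.hol i).differentiableAt
      (((A.e i).isOpen_inter_preimage_symm τ.oW).mem_nhds ⟨(A.e i).map_source hi, ?_⟩)).continuousAt
    rw [mem_preimage, (A.e i).left_inv hi]
    exact hx
  have h2 : ContinuousAt (A.e i) x := (A.e i).continuousAt hi
  have h3 : ContinuousAt (fun y => τ.f ((A.e i).symm (A.e i y))) x :=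
    ContinuousAt.comp (g := fun z => τ.f ((A.e i).symm z)) h1 h2
  refine (h3.congr ?_).continuousWithinAt
  filter_upwards [(A.e i).open_source.mem_nhds hi] with y hy
  rw [(A.e i).left_inv hy]

theorem self_mem (τ : Tube A k Tf) {x : M} (hx : x ∈ τ.W) : x ∈ Tf x := by
  rw [τ.fib x hx]
  exact ⟨hx, rfl⟩

namespace BM

open V (yy ii yy_mem ii_mem)

variable {G : BM A Tf k m}

theorem cover0 (hN : N = d + k) [Nonempty G.V] (v : G.V) :
    ∃ s : IX A Tf k d, v ∈ (vch (G := G) s.2).source := by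
  obtain ⟨τ, hτ⟩ := G.tb (yy v) (yy_mem v)
  have h1 := ii_tube τ hτ
  obtain ⟨S, hS⟩ := exists_spC hN A τ h1.1
  exact ⟨⟨τ, S⟩, hS, hτ⟩

/-- the big atlas of the total space -/
def atl0 (G : BM A Tf k m) [Nonempty G.V] (hN : N = d + k) : Atl (d + m) G.V where
  ι := IX A Tf k d
  e s := vch (G := G) s.2
  cover := cover0 hN
  cube := by
    rintro ⟨τ, S⟩ w hw ⟨a, b⟩
    have hw' : w ∈ G.tg S := hw
    induction a using Fin.addCases with
    | left a =>
      have h1 := S.cube _ (ix_mem S hw') (a, b)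
      rw [χ_ix S hw'] at h1
      exact h1
    | right a =>
      exact G.cube _ hw'.1.1 (a, b)
  holo := by
    rintro ⟨τ, S⟩ ⟨τ', S'⟩
    exact holo_vch S S'

theorem holMap0 [Nonempty G.V] (hN : N = d + k) :
    HolMap (G.atl0 (d := d) hN) A (ii : G.V → M) := by
  refine ⟨continuous_ii, ?_⟩
  rintro ⟨τ, S⟩ i w hw
  have hwt : w ∈ G.tg S := hw.1
  obtain ⟨h1, h2⟩ := vch_symm (G := G) S hw.1
  have hi : ix (G := G) S w ∈ (A.e i).source := by
    rw [← h1]; exact hw.2
  refine ((diff_ix (G := G) S hwt hi).congr_of_eventuallyEq ?_).differentiableWithinAt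
  filter_upwards [(isOpen_tg (G := G) S).mem_nhds hwt] with w' hw'
  rw [← (vch_symm (G := G) S (w := w') hw').1]
  rfl

theorem imm0 [Nonempty G.V] (hN : N = d + k) : Imm (G.atl0 (d := d) hN) A (ii : G.V → M) := by
  rintro ⟨τ, S⟩ i v hv hi
  set w := vch (G := G) S v with hw0
  have hv' : v ∈ (vch (G := G) S).source := hv
  have hw : w ∈ G.tg S := (vch (G := G) S).map_source hv'
  have hii : ix (G := G) S w = ii v := by
    rw [← (vch_symm (G := G) S (w := w) hw).1, hw0, (vch (G := G) S).left_inv hv']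
  have hsnd : sndL d m w = yy v := by
    rw [← (vch_symm (G := G) S (w := w) hw).2, hw0, (vch (G := G) S).left_inv hv']
  -- `rd` near `w`
  have hrd : rd (G.atl0 (d := d) hN) A (ii : G.V → M) ⟨τ, S⟩ i =ᶠ[𝓝 w]
      fun w => A.e i (ix (G := G) S w) := by
    filter_upwards [(isOpen_tg (G := G) S).mem_nhds hw] with w' hw'
    rw [← (vch_symm (G := G) S (w := w') hw').1]
    rfl
  show Injective (fderiv ℂ (rd (G.atl0 (d := d) hN) A (ii : G.V → M) ⟨τ, S⟩ i) w)
  rw [hrd.fderiv_eq]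
  have hi' : ix (G := G) S w ∈ (A.e i).source := by rw [hii]; exact hi
  have h4 := diff_ix (G := G) S hw hi'
  have h5 : DifferentiableAt ℂ (fun z => S.χ ((A.e i).symm z)) (A.e i (ix (G := G) S w)) := by
    refine (S.hol' i).differentiableAt
      (((A.e i).isOpen_inter_preimage_symm S.χ.open_source).mem_nhds
        ⟨(A.e i).map_source hi', ?_⟩)
    rw [mem_preimage, (A.e i).left_inv hi']
    exact ix_mem S hw
  have h6 : (fun w => (fun z => S.χ ((A.e i).symm z)) (A.e i (ix (G := G) S w))) =ᶠ[𝓝 w]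
      fun w : Cn (d + m) => (fstL d m w, τ.f (G.Γ (sndL d m w))) := by
    have h9 : (G.tg S ∩ (fun w => ix (G := G) S w) ⁻¹' (A.e i).source) ∈ 𝓝 w :=
      ((cont_ix S).isOpen_inter_preimage (isOpen_tg S) (A.e i).open_source).mem_nhds ⟨hw, hi'⟩
    filter_upwards [h9] with w' hw'
    show S.χ ((A.e i).symm (A.e i (ix (G := G) S w'))) = _
    rw [(A.e i).left_inv hw'.2]
    exact χ_ix S hw'.1
  rw [injective_iff_map_eq_zero]
  intro x hx
  have h7 : fderiv ℂ (fun w : Cn (d + m) => (fstL d m w, τ.f (G.Γ (sndL d m w)))) w x = 0 := by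
    rw [← h6.fderiv_eq]
    have h8 := fderiv_comp w (g := fun z => S.χ ((A.e i).symm z))
      (f := fun w => A.e i (ix (G := G) S w)) h5 h4
    have h8' : fderiv ℂ (fun w => (fun z => S.χ ((A.e i).symm z)) (A.e i (ix (G := G) S w))) w =
      (fderiv ℂ (fun z => S.χ ((A.e i).symm z)) (A.e i (ix (G := G) S w))).comp
        (fderiv ℂ (fun w => A.e i (ix (G := G) S w)) w) := h8
    rw [h8', ContinuousLinearMap.comp_apply, hx, map_zero]
  have hyU : sndL d m w ∈ G.U := hw.1.1
  have hyW : G.Γ (sndL d m w) ∈ τ.W := hw.1.2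
  have h10 : HasFDerivAt (fun w : Cn (d + m) => (fstL d m w, τ.f (G.Γ (sndL d m w))))
      ((fstL d m).prod ((fderiv ℂ (fun u => τ.f (G.Γ u)) (sndL d m w)).comp (sndL d m))) w :=
    (fstL d m).hasFDerivAt.prodMk
      ((G.diff_f τ hyU hyW).hasFDerivAt.comp w (sndL d m).hasFDerivAt)
  rw [h10.fderiv] at h7
  have h11 : fstL d m x = 0 := congrArg Prod.fst h7
  have h12 : fderiv ℂ (fun u => τ.f (G.Γ u)) (sndL d m w) (sndL d m x) = 0 := congrArg Prod.snd h7
  have h13 : sndL d m x = 0 := by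
    refine G.tr _ hyU τ hyW ?_
    rw [h12, map_zero]
  exact ext_prod (by rw [h11, map_zero]) (by rw [h13, map_zero])

/-! ### properness and connectedness -/

theorem compact_loc [T2Space M] (τ : Tube A k Tf) {K : Set (Cn m)} (hK : IsCompact K)
    (hKs : K ⊆ G.U ∩ G.Γ ⁻¹' τ.W) : IsCompact ((yy : G.V → Cn m) ⁻¹' K) := by
  rw [isEmbedding_pr.isCompact_iff]
  set C' : Set (Cn k) := (fun u => τ.f (G.Γ u)) '' K with hC'
  have h1 : IsCompact C' := hK.image_of_continuousOn ((G.cont_f τ).mono hKs)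
  have h2 : C' ⊆ τ.U := by
    rintro _ ⟨u, hu, rfl⟩
    exact τ.maps (hKs hu).2
  have h3 := τ.proper C' h2 h1
  have h4 : IsCompact (K ×ˢ (τ.W ∩ τ.f ⁻¹' C')) := hK.prod h3
  have h5 : ContinuousOn (fun p : Cn m × M => τ.f p.2 - τ.f (G.Γ p.1))
      (K ×ˢ (τ.W ∩ τ.f ⁻¹' C')) := by
    refine ContinuousOn.sub ?_ ?_
    · exact (cont_tube τ).comp continuous_snd.continuousOn fun p hp => hp.2.1
    · exact (G.cont_f τ).comp continuous_fst.continuousOn fun p hp => hKs hp.1
  have h6 : IsClosed ((K ×ˢ (τ.W ∩ τ.f ⁻¹' C')) ∩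
      (fun p : Cn m × M => τ.f p.2 - τ.f (G.Γ p.1)) ⁻¹' {0}) :=
    h5.preimage_isClosed_of_isClosed h4.isClosed isClosed_singleton
  have h7 : (pr : G.V → Cn m × M) '' ((yy : G.V → Cn m) ⁻¹' K) =
      (K ×ˢ (τ.W ∩ τ.f ⁻¹' C')) ∩ (fun p : Cn m × M => τ.f p.2 - τ.f (G.Γ p.1)) ⁻¹' {0} := by
    ext p
    constructor
    · rintro ⟨v, hv, rfl⟩
      have hv' : yy v ∈ K := hv
      have h8 := ii_tube τ (hKs hv').2
      refine ⟨⟨hv', h8.1, ⟨yy v, hv', h8.2.symm⟩⟩, ?_⟩
      show τ.f (ii v) - τ.f (G.Γ (yy v)) = 0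
      rw [h8.2, sub_self]
    · rintro ⟨⟨hp1, hp2, -⟩, hp3⟩
      have h9 : τ.f p.2 - τ.f (G.Γ p.1) = 0 := hp3
      obtain ⟨g1, g2⟩ := mem_of_tube τ (hKs hp1).1 (hKs hp1).2 hp2 (sub_eq_zero.1 h9)
      exact ⟨⟨p.1, p.2, g1, g2⟩, hp1, rfl⟩
  rw [h7]
  exact h4.of_isClosed_subset h6 inter_subset_left

theorem proper0 [T2Space M] {C : Set (Cn m)} (hCU : C ⊆ G.U) (hC : IsCompact C) :
    IsCompact ((yy : G.V → Cn m) ⁻¹' C) := by
  -- local compact neighbourhoods
  have h1 : ∀ u ∈ C, ∃ K : Set (Cn m), K ∈ 𝓝 u ∧ IsCompact ((yy : G.V → Cn m) ⁻¹' K) := by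
    intro u hu
    obtain ⟨τ, hτ⟩ := G.tb u (hCU hu)
    have h2 : G.U ∩ G.Γ ⁻¹' τ.W ∈ 𝓝 u := (G.isOpen_pre τ.oW).mem_nhds ⟨hCU hu, hτ⟩
    obtain ⟨K, hK1, hK2, hK3⟩ := local_compact_nhds h2
    exact ⟨K, hK1, compact_loc τ hK3 hK2⟩
  choose! K hK1 hK2 using h1
  obtain ⟨t, ht, hCt⟩ := hC.elim_nhds_subcover K hK1
  have h3 : IsCompact (⋃ u ∈ t, (yy : G.V → Cn m) ⁻¹' K u) :=
    t.isCompact_biUnion fun u hu => hK2 u (ht u hu)
  refine h3.of_isClosed_subset (hC.isClosed.preimage continuous_yy) ?_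
  intro v hv
  obtain ⟨u, hu, hu'⟩ := mem_iUnion₂.1 (hCt hv)
  exact mem_iUnion₂.2 ⟨u, hu, hu'⟩

theorem conn0 {u : Cn m} (hu : u ∈ G.U) : IsConnected ((yy : G.V → Cn m) ⁻¹' {u}) := by
  obtain ⟨τ, hτ⟩ := G.tb u hu
  have h1 := τ.conn _ hτ
  refine ⟨⟨⟨u, G.Γ u, hu, self_mem τ hτ⟩, rfl⟩, ?_⟩
  rw [← isEmbedding_pr.isInducing.isPreconnected_image]
  have h2 : (pr : G.V → Cn m × M) '' ((yy : G.V → Cn m) ⁻¹' {u}) = {u} ×ˢ Tf (G.Γ u) := by
    ext p
    constructor
    · rintro ⟨v, hv, rfl⟩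
      have hv' : yy v = u := hv
      refine ⟨hv', ?_⟩
      rw [← hv']
      exact ii_mem v
    · rintro ⟨hp1, hp2⟩
      have hp1' : p.1 = u := hp1
      refine ⟨⟨p.1, p.2, by rw [hp1']; exact hu, by rw [hp1']; exact hp2⟩, hp1', rfl⟩
  rw [h2]
  exact isPreconnected_singleton.prod h1.isPreconnected

/-! ### the family -/

/-- **the total space of a base map as a family** (with the topology) -/
theorem exists_fam' [T2Space M] [SecondCountableTopology M] (hN : N = d + k) (G : BM A Tf k m)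
    (hne : G.U.Nonempty) : ∃ F : Fam A d m G.U, (∀ v, F.i v ∈ Tf (G.Γ (F.y v))) ∧
      (∀ u ∈ G.U, ∀ x ∈ Tf (G.Γ u), ∃ v, F.y v = u ∧ F.i v = x) ∧
      IsEmbedding (fun v => (F.y v, F.i v)) := by
  have hV : Nonempty G.V := by
    obtain ⟨u, hu⟩ := hne
    obtain ⟨τ, hτ⟩ := G.tb u hu
    exact ⟨⟨u, G.Γ u, hu, self_mem τ hτ⟩⟩
  have hsc : SecondCountableTopology G.V := isEmbedding_pr.secondCountableTopology
  obtain ⟨α, c, O, hO, hc, hcount, -, -, -, ⟨P⟩⟩ := exists_res (G.atl0 (d := d) hN)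
  have h0 := holMap0 (G := G) (d := d) hN
  have h1 := imm0 (G := G) (d := d) hN
  let B := resAtl (G.atl0 (d := d) hN) c O hO hc
  have _ : Countable B.ι := hcount
  refine ⟨{
    V := G.V
    B := B
    P := P
    i := ii
    y := yy
    hol := ⟨continuous_ii, fun a i => (h0.hol (c a) i).mono fun z hz => ⟨hz.1.1, hz.2⟩⟩
    imm := fun a i v hv hi => h1 (c a) i v hv.1 hi
    last := fun a v hv b => ?_
    mem := yy_mem
    proper := fun C hCU hC => proper0 hCU hC
    conn := fun u hu => conn0 hu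
    inj := fun v w h1 h2 => V.ext h1 h2 }, ii_mem, fun u hu x hx => ⟨⟨u, x, hu, hx⟩, rfl, rfl⟩,
      isEmbedding_pr⟩
  show (vch (G := G) (c a).2 v) (Fin.natAdd d b) = yy v b
  rw [vch_apply, app_natAdd]

/-- **the total space of a base map as a family** -/
theorem exists_fam [T2Space M] [SecondCountableTopology M] (hN : N = d + k) (G : BM A Tf k m)
    (hne : G.U.Nonempty) : ∃ F : Fam A d m G.U, (∀ v, F.i v ∈ Tf (G.Γ (F.y v))) ∧
      ∀ u ∈ G.U, ∀ x ∈ Tf (G.Γ u), ∃ v, F.y v = u ∧ F.i v = x := by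
  obtain ⟨F, h1, h2, -⟩ := G.exists_fam' (d := d) hN hne
  exact ⟨F, h1, h2⟩

end BM

end

end Crest.Agent.R281.S6V_664
end

-- ▼ part R281/S6V5_664

/-!
# R281 (S0424), S6-V part 5 (helper664): leaves, tangent spaces, the Lagrangian property

* `ker_tube`  : two tubes at the same point have the same tangent space of the leaf;
* `leafBM`    : the base map of a single leaf (`m = 0`), `exists_leaf`;
* `lag_of`    : a family inside a Lagrangian fibration has Lagrangian fibres.
-/

set_option autoImplicit false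
set_option linter.unusedSectionVars false

open Set Filter Topology Complex Function Metric
open scoped ContDiff Matrix ComplexConjugate ComplexOrder

namespace Crest.Agent.R281.S6V_664

open Crest.Agent.R275.Geo Crest.Agent.R275.Core144 Crest.Agent.R275.GC293
open Crest.Agent.R275.Prod363 Crest.Agent.R273.Map_835 Crest.Agent.R281.S6D_664
open Crest.Agent.R281.Defs_273

noncomputable section

variable {N d k m n : ℕ} {M : Type} [TopologicalSpace M] {A : Atl N M} {Tf : M → Set M}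

/-- a tube read in a chart -/
theorem Tube.diffAt (τ : Tube A k Tf) {i : A.ι} {x : M} (hi : x ∈ (A.e i).source) (hx : x ∈ τ.W) :
    DifferentiableAt ℂ (fun z => τ.f ((A.e i).symm z)) (A.e i x) := by
  refine (τ.hol i).differentiableAt
    (((A.e i).isOpen_inter_preimage_symm τ.oW).mem_nhds ⟨(A.e i).map_source hi, ?_⟩)
  rw [mem_preimage, (A.e i).left_inv hi]
  exact hx

/-- two tubes at the same point: the tangent spaces of the leaf agree -/
theorem ker_tube (hN : N = d + k) (τ τ' : Tube A k Tf) {i : A.ι} {x : M}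
    (hi : x ∈ (A.e i).source) (hx : x ∈ τ.W) (hx' : x ∈ τ'.W) {v : Cn N}
    (hv : fderiv ℂ (fun z => τ.f ((A.e i).symm z)) (A.e i x) v = 0) :
    fderiv ℂ (fun z => τ'.f ((A.e i).symm z)) (A.e i x) v = 0 := by
  obtain ⟨S, hS⟩ := exists_spC (d := d) hN A τ hx
  have hzt : A.e i x ∈ (A.e i).target := (A.e i).map_source hi
  -- the chart `χ ∘ e⁻¹` and its inverse
  have h1 : DifferentiableAt ℂ (fun z => S.χ ((A.e i).symm z)) (A.e i x) := by
    refine (S.hol' i).differentiableAt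
      (((A.e i).isOpen_inter_preimage_symm S.χ.open_source).mem_nhds ⟨hzt, ?_⟩)
    rw [mem_preimage, (A.e i).left_inv hi]
    exact hS
  have hxi : S.χ.symm (S.χ x) ∈ (A.e i).source := by rw [S.χ.left_inv hS]; exact hi
  have h2 : DifferentiableAt ℂ (fun w => A.e i (S.χ.symm w)) (S.χ x) :=
    (S.hol i).differentiableAt
      ((S.χ.isOpen_inter_preimage_symm (A.e i).open_source).mem_nhds ⟨S.χ.map_source hS, hxi⟩)
  -- `e ∘ χ⁻¹ ∘ χ ∘ e⁻¹ = id`
  have h3 : (fun z => (fun w => A.e i (S.χ.symm w)) (S.χ ((A.e i).symm z))) =ᶠ[𝓝 (A.e i x)] id := by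
    have h4 : (A.e i).target ∩ (A.e i).symm ⁻¹' S.χ.source ∈ 𝓝 (A.e i x) :=
      ((A.e i).isOpen_inter_preimage_symm S.χ.open_source).mem_nhds ⟨hzt, by
        rw [mem_preimage, (A.e i).left_inv hi]; exact hS⟩
    filter_upwards [h4] with z hz
    show A.e i (S.χ.symm (S.χ ((A.e i).symm z))) = z
    rw [S.χ.left_inv hz.2, (A.e i).right_inv hz.1]
  have hex : S.χ ((A.e i).symm (A.e i x)) = S.χ x := by rw [(A.e i).left_inv hi]
  have h5 : v = fderiv ℂ (fun w => A.e i (S.χ.symm w)) (S.χ x)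
      (fderiv ℂ (fun z => S.χ ((A.e i).symm z)) (A.e i x) v) := by
    have h6 := fderiv_comp (A.e i x) (g := fun w => A.e i (S.χ.symm w))
      (f := fun z => S.χ ((A.e i).symm z)) (by rw [hex]; exact h2) h1
    have h7 : fderiv ℂ (fun z => (fun w => A.e i (S.χ.symm w)) (S.χ ((A.e i).symm z)))
        (A.e i x) = _ := h6
    rw [h3.fderiv_eq, fderiv_id, hex] at h7
    have h8 := congrArg (fun L => L v) h7
    exact h8
  -- the second component of the derivative vanishes
  have h9 : (fderiv ℂ (fun z => S.χ ((A.e i).symm z)) (A.e i x) v).2 = 0 := by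
    have h10 : (fun z => (S.χ ((A.e i).symm z)).2) =ᶠ[𝓝 (A.e i x)]
        fun z => τ.f ((A.e i).symm z) := by
      have h4 : (A.e i).target ∩ (A.e i).symm ⁻¹' S.χ.source ∈ 𝓝 (A.e i x) :=
        ((A.e i).isOpen_inter_preimage_symm S.χ.open_source).mem_nhds ⟨hzt, by
          rw [mem_preimage, (A.e i).left_inv hi]; exact hS⟩
      filter_upwards [h4] with z hz
      exact S.snd _ hz.2
    have h11 : fderiv ℂ (fun z => (S.χ ((A.e i).symm z)).2) (A.e i x) v =
        (fderiv ℂ (fun z => S.χ ((A.e i).symm z)) (A.e i x) v).2 := by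
      have h12 : HasFDerivAt (fun z => (S.χ ((A.e i).symm z)).2)
          ((ContinuousLinearMap.snd ℂ (Cn d) (Cn k)).comp
            (fderiv ℂ (fun z => S.χ ((A.e i).symm z)) (A.e i x))) (A.e i x) :=
        (ContinuousLinearMap.snd ℂ (Cn d) (Cn k)).hasFDerivAt.comp _ h1.hasFDerivAt
      rw [h12.fderiv]
      rfl
    rw [← h11, h10.fderiv_eq]
    exact hv
  -- along the leaf `τ'.f` is constant
  set w := fderiv ℂ (fun z => S.χ ((A.e i).symm z)) (A.e i x) v with hw
  have h13 : w = (w.1, (0 : Cn k)) := Prod.ext rfl h9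
  have h14 : (fun b : Cn d => τ'.f (S.χ.symm (b, (S.χ x).2))) =ᶠ[𝓝 (S.χ x).1]
      fun _ => τ'.f x := by
    have h15 : (S.χ.target ∩ S.χ.symm ⁻¹' τ'.W) ∈ 𝓝 ((S.χ x).1, (S.χ x).2) :=
      (S.χ.isOpen_inter_preimage_symm τ'.oW).mem_nhds ⟨S.χ.map_source hS, by
        rw [mem_preimage, Prod.mk.eta, S.χ.left_inv hS]; exact hx'⟩
    have h16 : ContinuousAt (fun b : Cn d => (b, (S.χ x).2)) (S.χ x).1 := by fun_prop
    filter_upwards [h16.preimage_mem_nhds h15] with b hb
    have hb1 : S.χ.symm (b, (S.χ x).2) ∈ S.χ.source := S.χ.map_target hb.1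
    have hb2 : τ.f (S.χ.symm (b, (S.χ x).2)) = τ.f x := by
      rw [← S.snd _ hb1, S.χ.right_inv hb.1, ← S.snd _ hS]
    have hb3 : S.χ.symm (b, (S.χ x).2) ∈ Tf x := by
      rw [τ.fib x hx]
      exact ⟨S.sub hb1, hb2⟩
    rw [τ'.fib x hx'] at hb3
    exact hb3.2
  have h17 : DifferentiableAt ℂ (fun z => τ'.f ((A.e i).symm z)) (A.e i (S.χ.symm (S.χ x))) := by
    rw [S.χ.left_inv hS]
    exact Tube.diffAt τ' hi hx'
  have h18 : HasFDerivAt (fun b : Cn d => (b, (S.χ x).2))
      (ContinuousLinearMap.inl ℂ (Cn d) (Cn k)) (S.χ x).1 := hasFDerivAt_prodMk_left _ _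
  have h19 : HasFDerivAt (fun b : Cn d => (fun w => A.e i (S.χ.symm w)) (b, (S.χ x).2))
      ((fderiv ℂ (fun w => A.e i (S.χ.symm w)) (S.χ x)).comp
        (ContinuousLinearMap.inl ℂ (Cn d) (Cn k))) (S.χ x).1 :=
    HasFDerivAt.comp (S.χ x).1 (g := fun w => A.e i (S.χ.symm w)) (by exact h2.hasFDerivAt) h18
  have h20 : HasFDerivAt (fun b : Cn d => (fun z => τ'.f ((A.e i).symm z))
      ((fun w => A.e i (S.χ.symm w)) (b, (S.χ x).2)))
      ((fderiv ℂ (fun z => τ'.f ((A.e i).symm z)) (A.e i x)).comp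
        ((fderiv ℂ (fun w => A.e i (S.χ.symm w)) (S.χ x)).comp
          (ContinuousLinearMap.inl ℂ (Cn d) (Cn k)))) (S.χ x).1 := by
    refine HasFDerivAt.comp (S.χ x).1 (g := fun z => τ'.f ((A.e i).symm z)) ?_ h19
    show HasFDerivAt (fun z => τ'.f ((A.e i).symm z)) _ (A.e i (S.χ.symm (S.χ x)))
    rw [S.χ.left_inv hS]
    exact (Tube.diffAt τ' hi hx').hasFDerivAt
  have h21 : (fun b : Cn d => (fun z => τ'.f ((A.e i).symm z))
      ((fun w => A.e i (S.χ.symm w)) (b, (S.χ x).2))) =ᶠ[𝓝 (S.χ x).1] fun _ => τ'.f x := by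
    have h22 : (S.χ.target ∩ S.χ.symm ⁻¹' (A.e i).source) ∈ 𝓝 ((S.χ x).1, (S.χ x).2) :=
      (S.χ.isOpen_inter_preimage_symm (A.e i).open_source).mem_nhds ⟨S.χ.map_source hS, hxi⟩
    have h16 : ContinuousAt (fun b : Cn d => (b, (S.χ x).2)) (S.χ x).1 := by fun_prop
    filter_upwards [h16.preimage_mem_nhds h22, h14] with b hb hb'
    show τ'.f ((A.e i).symm (A.e i (S.χ.symm (b, (S.χ x).2)))) = τ'.f x
    rw [(A.e i).left_inv hb.2, hb']
  have h23 : (fderiv ℂ (fun z => τ'.f ((A.e i).symm z)) (A.e i x)).comp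
        ((fderiv ℂ (fun w => A.e i (S.χ.symm w)) (S.χ x)).comp
          (ContinuousLinearMap.inl ℂ (Cn d) (Cn k))) = 0 := by
    rw [← h20.fderiv, h21.fderiv_eq]
    simp
  rw [h5, h13]
  have h24 := congrArg (fun L => L w.1) h23
  exact h24

/-! ### a single leaf -/

/-- the base map of a leaf -/
def leafBM (A : Atl N M) (τ : Tube A k Tf) {x : M} (hx : x ∈ τ.W) : BM A Tf k 0 where
  U := univ
  Γ _ := x
  oU := isOpen_univ
  cube u _ p := p.1.elim0
  cont := continuousOn_const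
  hol i := differentiableOn_const _
  tb u _ := ⟨τ, hx⟩
  tr u _ τ' _ a b _ := Subsingleton.elim a b

/-- **a leaf of a tube as a compact family without parameters** -/
theorem exists_leaf [T2Space M] [SecondCountableTopology M] (hN : N = d + k) (τ : Tube A k Tf)
    {x : M} (hx : x ∈ τ.W) : ∃ F : Fam A d 0 univ, range F.i = Tf x ∧ Injective F.i := by
  obtain ⟨F, h1, h2⟩ := (leafBM A τ hx).exists_fam (d := d) hN univ_nonempty
  refine ⟨F, ?_, fun v w h => F.inj v w (Subsingleton.elim _ _) h⟩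
  ext y
  constructor
  · rintro ⟨v, rfl⟩
    exact h1 v
  · intro hy
    obtain ⟨v, -, hv⟩ := h2 0 (mem_univ _) y hy
    exact ⟨v, hv⟩

/-! ### the Lagrangian property -/


end

end Crest.Agent.R281.S6V_664
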