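import Crest.Agent.R281.Kap_975_Mg
import Crest.Agent.R281.OpG6_941_Mg
import Crest.Agent.R281.Tp6_836
import Crest.Agent.R281.Cr4_808
import Crest.Agent.R281.Alg1_867
import Crest.Agent.R281.RkE_902
import Crest.Agent.R281.NefM_252
import Crest.Agent.R281.Qb_975
import Crest.Agent.R281.Qt1_922
import Crest.Agent.R281.Qt7_922
import Crest.Agent.R281.Qt10a_355
import Crest.Agent.R281.Tub11_57
import Crest.Agent.R281.KapD_975
import Crest.Agent.R281.Aa5_836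
import Crest.Agent.R281.Ab1_729
import Crest.Agent.R281.Ab2_729
import Crest.Agent.R281.Cr1_808
import Crest.Agent.R281.Kd10_22
import Crest.Agent.R281.Mc12_673

-- ▼ part R281/Sk8_474
section

/-!
# R281 (S0424), SKEL281 (helper474): the current top

Closed here: `RoadP` (581, 313, 998, ...), `OpenP` (941, 330, 763, ...); `KappaP` from `QTubP`
(975).
-/

set_option autoImplicit false
set_option linter.unusedSectionVars false

namespace Crest.Agent.R281.Sk_474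

open Crest.Agent.R281.Defs_273 Crest.Agent.R281.RkD_902

/-- the node `RoadP` -/
theorem roadM : RoadP AlgM := Aga_581.road

/-- the node `OpenP` -/
theorem openM : OpenP TubM := OpG_941.openP_of centreP OpG_941.torP

/-- **`Main281` from the node `KappaP`** -/
theorem main281_of_kappa (kappa : KappaP AlgM TubM) : Main281 :=
  main281_of7 boxM roadM chartEndM toriM kappa openM Mvs_713.semiP


end Crest.Agent.R281.Sk_474
end

-- ▼ part R281/Qp1_831
section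

/-!
# Row 281, node KappaP, QTubP (helper831), part 1

* `exists_kah_k` : the Kaehler metric `s g` of `J k` in a holomorphic atlas of `J k`
* `exists_height`: `y ≥ Y0` with `y²` rational
-/

set_option autoImplicit false
set_option linter.unusedSectionVars false
set_option maxSynthPendingDepth 3

open Set Filter Topology Complex
open scoped ContDiff ComplexOrder

namespace Crest.Agent.R281.Qp_831

open Crest.Agent.R275.Geo Crest.Agent.R275.Core144 Crest.Agent.R275.EDR890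
open Crest.Agent.R273.Defs_333 Crest.Agent.R273.Kah_333
open Crest.Agent.R260.ACM_580 Crest.Agent.R260.NNB_580 Crest.Agent.R275.GC293
open Crest.Agent.R281.HkR_835 Crest.Agent.R281.Ti_846 Crest.Agent.R281.Dif_268
open Crest.Agent.R281.NefO_476 Crest.Agent.R281.Nef_252

noncomputable section


variable {V X : Type} [NormedAddCommGroup V] [NormedSpace ℝ V] [TopologicalSpace X] {C : RCh V X}
  {d : ℕ} {A : Atl d X}

/-- **the metric `s g` in the holomorphic atlas of `J k`** -/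
theorem exists_kah_k (H : HkT C) (k : Fin 3) {s : ℝ} (hs : 0 < s) (hA : Cp (H.acm k) A) :
    ∃ K : Kah A, Eqv (ofKah K).f2 (s • (cmp_of_cp hA).F (H.om k)) := by
  set h0 := cmp_of_cp hA with hh0
  have t0 : T11 (jA A) (h0.F (H.om k)) :=
    eqv_T11 (cmp_F h0 _) (pull_T11 (holM_cp hA) (T11_hk H k))
  have p0 : Pos (jA A) (h0.F (H.om k)) := eqv_Pos (cmp_F h0 _)
    (pull_Pos (holM_cp hA) (bi_cmp h0).imm (Pos_hk H k))
  have t1 : T11 (jA A) (s • h0.F (H.om k)) := fun i z hz u v =>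
    congrArg (fun t => s * t) (t0 i z hz u v)
  have p1 : Pos (jA A) (s • h0.F (H.om k)) := fun i z hz v hv => mul_pos hs (p0 i z hz v hv)
  set K1 : K11 A := (s • h0.F (H.om k)).k11 t1 with hK1
  have e1 : Eqv K1.f2 (s • h0.F (H.om k)) := fun i z hz u v => by rw [F2.k11_f2 _ t1 hz]
  exact ⟨K1.kah ((pos_f2 K1).1 (eqv_Pos e1.symm p1)), e1⟩

end

end Crest.Agent.R281.Qp_831
end

-- ▼ part R281/Qc_975
section

/-!
# Row 281, QTubP (A4), skeleton (helper975): from the statement at one member to `QTubP Alg_867.Alg`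

* `MQ`        : at one member: `Mtub` (helper808) gives the quantified tube with a tube of tori
                (922's qtube_of_mtub + 836's tubeQ_of)
* `qtubP_of_mq : MQ → QTubP Alg_867.Alg`
-/

set_option autoImplicit false
set_option linter.unusedSectionVars false
set_option maxSynthPendingDepth 3

open Set Filter Topology
open scoped ContDiff

namespace Crest.Agent.R281.Qb_975

open Crest.Agent.R275.Geo Crest.Agent.R275.Core144 Crest.Agent.R275.GC293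
open Crest.Agent.R275.EDR890
open Crest.Agent.R273.Defs_333 Crest.Agent.R273.Kah_333
open Crest.Agent.R260.ACM_580 Crest.Agent.R260.NNB_580
open Crest.Agent.R281.HkR_835 Crest.Agent.R281.Ti_846 Crest.Agent.R281.Cdr_234
open Crest.Agent.R281.Dif_268 Crest.Agent.R281.PL_713
open Crest.Agent.R281.NefO_476 Crest.Agent.R281.Nef_252
open Crest.Agent.R281.Alg_998 Crest.Agent.R281.RkD_902
open Crest.Agent.R281.KapD_975
open Crest.Agent.R281.Mc673 (W)
open Crest.Agent.R281.Cr_808 (Mtub road_tube)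
open Crest.Agent.R281.Tp_836 (exists_atlK)
open Crest.Agent.R281.Qp_831 (exists_kah_k)

/-- the statement at one member -/
def MQ : Prop :=
  ∀ (n : ℕ) (Λ : ℝ), 1 ≤ n → 0 < Λ → ∃ κ : ℝ, 0 < κ ∧ ∀ ρ : ℝ, 0 < ρ →
    ∃ R : ℝ, 0 < R ∧ ∃ δ : ℝ, 0 < δ ∧
    ∀ (X : Type) [TopologicalSpace X] [CompactSpace X] [T2Space X] (C : RCh (Cn (2 * n)) X)
      (H : HkT C) (Q : F2 C →ₗ[ℝ] F2 C →ₗ[ℝ] ℝ) (e : F2 C) (A : Atl (2 * n) X)
      (hp : Cp (H.acm 0) A) (L : ℝ) (hL : 0 < L) (Θ : W (2 * n) → X),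
      Mtub H {v | Q v e = 0} R Λ δ A hp L hL Θ →
    ∀ (A1 : Atl (2 * n) X) (hA1 : Cp (H.acm 1) A1) (K : Kah A1),
      Eqv (ofKah K).f2 (L • (cmp_of_cp hA1).F (H.om 1)) → TubeQ Q e H 1 A1 K κ ρ

theorem qray_of_mq (h : MQ) : QRay Alg_867.Alg := by
  intro n X _ _ _ _ C Q hX H0 L0 e hG B R x
  obtain ⟨Λ, hΛ, hr⟩ := road_tube hX R x
  obtain ⟨κ, hκ, hq⟩ := h n Λ hX.n1 hΛ
  refine ⟨κ, hκ, fun r hr0 => ?_⟩
  obtain ⟨R', hR', δ, hδ, hm⟩ := hq r hr0
  obtain ⟨Y1, hY1⟩ := hr R' δ hR' hδ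
  refine ⟨Y1, fun y hy H hM => ?_⟩
  obtain ⟨A', -, -, -, hp, L, hL, Θ, hMt⟩ := hY1 y hy H hM
  obtain ⟨A1, hA1⟩ := exists_atlK H 1
  obtain ⟨K, hK⟩ := exists_kah_k H 1 hL hA1
  exact ⟨L, hL, A1, hA1, K, hK, hm X C H Q e A' hp L hL Θ hMt A1 hA1 K hK⟩

/-- **QTubP from the statement at one member** -/
theorem qtubP_of_mq (h : MQ) : QTubP Alg_867.Alg := qtubP_of_ray _ (qray_of_mq h)

end Crest.Agent.R281.Qb_975
end

-- ▼ part R281/Qt8_922
section

/-!
# R281 (S0424), QTUBE (helper922), part 8: the interfaces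

* `TFam`  : the family of tori of radius `R` (output of LAGT on the tube `|v| < r`)
* `RTube` : the holomorphic function on the real tube (output of `real_tube`, Qt9_922)
* `Push`  : the map `Θ : W N → X` into a complex manifold `(X, A)` with metric `K`
-/

set_option autoImplicit false
set_option maxSynthPendingDepth 3

open Set Metric Filter Topology
open scoped ContDiff

namespace Crest.Agent.R281.Qt_922

open Crest.Agent.R281.Mc673 (V W Fo tube ClF isOpen_tube kv)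
open Crest.Agent.R275.Geo Crest.Agent.R273.Defs_333 Crest.Agent.R273.Kah_333
open Crest.Agent.R281.SAsm_790

noncomputable section

variable {N : ℕ}

/-- the family of isotropic tori `{(θ, a c θ)}`, `|c| < R` -/
structure TFam (r R ε : ℝ) (x y : Fo N) (a : V N → V N → V N) : Prop where
  leaf : ∀ c, ‖c‖ < R → Tub_57.Leaf r x y (a c)
  near : ∀ c, ‖c‖ < R → ∀ θ, ‖a c θ - c‖ ≤ ε
  dnear : ∀ c, ‖c‖ < R → ∀ θ, ‖fderiv ℝ (a c) θ‖ ≤ ε
  lip : ∀ c, ‖c‖ < R → ∀ c', ‖c'‖ < R → ∀ θ, ‖a c θ - a c' θ - (c - c')‖ ≤ ε * ‖c - c'‖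
  dlip : ∀ c, ‖c‖ < R → ∀ c', ‖c'‖ < R → ∀ θ,
    ‖fderiv ℝ (a c) θ - fderiv ℝ (a c') θ‖ ≤ ε * ‖c - c'‖

/-- the region covered by the tori -/
def reg (a : V N → V N → V N) (R : ℝ) : Set (W N) := {p | ∃ c, ‖c‖ < R ∧ a c p.1 = p.2}

/-- **the output on the real tube**: `G (θ, a c θ) = g c`, `G` holomorphic for `I` -/
structure RTube (n : ℕ) (C R : ℝ) (I : W N → W N →L[ℝ] W N) (a : V N → V N → V N)
    (g : V N → Cn n) (G : W N → Cn n) : Prop where
  op : IsOpen (reg a R)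
  ga : ∀ c, ‖c‖ < R → ∀ θ, G (θ, a c θ) = g c
  inj : InjOn g (ball 0 R)
  cont : ContinuousOn g (ball 0 R)
  onto : ball 0 (R / C) ⊆ g '' ball 0 R
  cpt : ∀ R' < R / C, IsCompact {c | c ∈ ball (0 : V N) R ∧ ‖g c‖ ≤ R'}
  der : ∀ p ∈ reg a R, ∃ G' : W N →L[ℝ] Cn n, HasFDerivAt G G' p ∧ ‖G'‖ ≤ C ∧
    (∀ w : V N, ‖w‖ ≤ C * ‖G' (0, w)‖) ∧ ∀ w, G' (I p w) = Complex.I • G' w

/-- the map into the complex manifold -/
structure Push {X : Type} [TopologicalSpace X] (A : Atl N X) (K : Kah A) (r Λ : ℝ)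
    (I : W N → W N →L[ℝ] W N) (Θ : W N → X) : Prop where
  cont : ContinuousOn Θ (tube N r)
  sm : ∀ p ∈ tube N r, ∀ j, Θ p ∈ (A.e j).source → ContDiffAt ℝ ∞ (fun q => A.e j (Θ q)) p
  bij : ∀ p ∈ tube N r, ∀ j, Θ p ∈ (A.e j).source →
    Function.Bijective (fderiv ℝ (fun q => A.e j (Θ q)) p)
  hol : ∀ p ∈ tube N r, ∀ j, Θ p ∈ (A.e j).source → ∀ u,
    fderiv ℝ (fun q => A.e j (Θ q)) p (I p u) =
      Complex.I • fderiv ℝ (fun q => A.e j (Θ q)) p u
  low : ∀ p ∈ tube N r, ∀ j, Θ p ∈ (A.e j).source → ∀ u,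
    ‖u‖ ^ 2 ≤ Λ * qf K j (Θ p) (fderiv ℝ (fun q => A.e j (Θ q)) p u)
  up : ∀ p ∈ tube N r, ∀ j, Θ p ∈ (A.e j).source → ∀ u,
    qf K j (Θ p) (fderiv ℝ (fun q => A.e j (Θ q)) p u) ≤ Λ * ‖u‖ ^ 2
  eq_iff : ∀ p ∈ tube N r, ∀ q ∈ tube N r,
    (Θ p = Θ q ↔ ∃ k : Fin N → ℤ, p = (q.1 + kv k, q.2))

end

end Crest.Agent.R281.Qt_922
end

-- ▼ part R281/Qt10_355
section

/-!
# R281 (S0424), QTUBE (helper355), part 10: the push-down, literal form on the interfaces of Qt8_922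

* `Om a R C G`   : `{p ∈ reg a R | ‖G p‖ < R / C}`
* `pd0`, `fibre` : the local data, the fibres are the images of the leaves
* `exists_qtube` : `Push` + `RTube` + `TFam` + discs in the leaves ==> `QTube A K n κ (R / C)`
-/

set_option autoImplicit false
set_option maxSynthPendingDepth 3
set_option linter.unusedSectionVars false

open Set Metric Filter Topology
open scoped ContDiff ComplexOrder

namespace Crest.Agent.R281.Qt10_355

open Crest.Agent.R275.Geo Crest.Agent.R273.Defs_333 Crest.Agent.R273.Kah_333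
open Crest.Agent.R281.SAsm_790 Crest.Agent.R281.Qt_922
open Crest.Agent.R281.Mc673 (V W Fo tube ClF isOpen_tube kv)

noncomputable section

variable {N n : ℕ} {X : Type} [TopologicalSpace X] {A : Atl N X} {K : Kah A}
  {r Λ C R ε κ : ℝ} {x y : Fo N} {I : W N → W N →L[ℝ] W N} {Θ : W N → X} {a : V N → V N → V N}
  {g : V N → Cn n} {G : W N → Cn n}

theorem qf_nonneg (K : Kah A) {i : A.ι} {z : X} (hz : z ∈ (A.e i).source) (v : Cn N) :
    0 ≤ qf K i z v := by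
  have h1 := (K.pos i z hz).posSemidef.transpose
  exact h1.re_dotProduct_nonneg v.ofLp

/-- the region upstairs -/
def Om (a : V N → V N → V N) (R C : ℝ) (G : W N → Cn n) : Set (W N) :=
  {p | p ∈ reg a R ∧ ‖G p‖ < R / C}

theorem reg_sub (hF : TFam r R ε x y a) : reg a R ⊆ tube N r := by
  rintro ⟨θ, v⟩ ⟨c, hc, hv⟩
  have h1 : ((θ, a c θ) : W N) ∈ tube N r := (hF.leaf c hc).tub θ
  rw [show a c θ = v from hv] at h1
  exact h1

theorem diffG (hT : RTube n C R I a g G) {p : W N} (hp : p ∈ reg a R) :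
    DifferentiableAt ℝ G p := by
  obtain ⟨G', h, -⟩ := hT.der p hp
  exact h.differentiableAt

theorem isOpen_Om (hT : RTube n C R I a g G) : IsOpen (Om a R C G) := by
  have h1 : ContinuousOn G (reg a R) := fun p hp =>
    (diffG hT hp).continuousAt.continuousWithinAt
  have h2 := h1.isOpen_inter_preimage hT.op (isOpen_ball (x := (0 : Cn n)) (ε := R / C))
  have h3 : Om a R C G = reg a R ∩ G ⁻¹' ball 0 (R / C) := by
    ext p
    simp [Om]
  rw [h3]
  exact h2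

theorem G_reg (hT : RTube n C R I a g G) {p : W N} {c : V N} (hc : ‖c‖ < R)
    (hp : a c p.1 = p.2) : G p = g c := by
  have h1 := hT.ga c hc p.1
  rwa [hp] at h1

/-- translation by the lattice stays on the leaf -/
theorem leaf_add (hF : TFam r R ε x y a) {c : V N} (hc : ‖c‖ < R) (k : Fin N → ℤ) (θ : V N) :
    a c (θ + kv k) = a c θ := (hF.leaf c hc).per k θ

theorem pd0 (hP : Push A K r Λ I Θ) (hT : RTube n C R I a g G) (hF : TFam r R ε x y a) :
    PD0 A (Om a R C G) Θ G := by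
  have hsub := reg_sub hF
  refine ⟨isOpen_Om hT, hP.cont.mono fun p hp => hsub hp.1, fun p hp => hP.sm p (hsub hp.1),
    fun p hp => hP.bij p (hsub hp.1), fun p hp => diffG hT hp.1, ?_, ?_⟩
  · rintro p ⟨⟨c, hc, hp⟩, -⟩ q ⟨⟨d, hd, hq⟩, -⟩ hpq
    have hp' : p ∈ tube N r := hsub ⟨c, hc, hp⟩
    have hq' : q ∈ tube N r := hsub ⟨d, hd, hq⟩
    obtain ⟨k, hk⟩ := (hP.eq_iff p hp' q hq').1 hpq
    have e1 : p.1 = q.1 + kv k := by rw [hk]
    have e2 : p.2 = q.2 := by rw [hk]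
    rw [G_reg hT hd hq]
    refine G_reg hT hd ?_
    rw [e1, e2, leaf_add hF hd, hq]
  · intro p hp i hi u v huv
    obtain ⟨G', hG', -, -, hI⟩ := hT.der p hp.1
    rw [hG'.fderiv, ← hI u]
    congr 1
    refine (hP.bij p (hsub hp.1) i hi).1 ?_
    rw [huv, hP.hol p (hsub hp.1) i hi u]

/-- continuity of the family -/
theorem cont_fam (hF : TFam r R ε x y a) :
    ContinuousOn (fun q : V N × V N => ((q.2, a q.1 q.2) : W N)) (ball 0 R ×ˢ univ) := by
  rintro ⟨c0, θ0⟩ ⟨hc0, -⟩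
  rw [mem_ball_zero_iff] at hc0
  refine ContinuousWithinAt.prodMk continuous_snd.continuousWithinAt ?_
  have h1 : Tendsto (fun q : V N × V N => a q.1 q.2 - a c0 q.2)
      (𝓝[ball 0 R ×ˢ univ] (c0, θ0)) (𝓝 0) := by
    rw [tendsto_zero_iff_norm_tendsto_zero]
    have h2 : Tendsto (fun q : V N × V N => (1 + ε) * ‖q.1 - c0‖)
        (𝓝[ball 0 R ×ˢ univ] (c0, θ0)) (𝓝 0) := by
      have h3 : Continuous fun q : V N × V N => (1 + ε) * ‖q.1 - c0‖ := by fun_prop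
      have h4 := h3.tendsto (c0, θ0)
      simp only [sub_self, norm_zero, mul_zero] at h4
      exact h4.mono_left nhdsWithin_le_nhds
    refine squeeze_zero' (Eventually.of_forall fun q => norm_nonneg _) ?_ h2
    filter_upwards [self_mem_nhdsWithin] with q hq
    have hq1 : ‖q.1‖ < R := by simpa using hq.1
    have h5 := hF.lip q.1 hq1 c0 hc0 q.2
    calc ‖a q.1 q.2 - a c0 q.2‖ = ‖(a q.1 q.2 - a c0 q.2 - (q.1 - c0)) + (q.1 - c0)‖ := by
          congr 1; abel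
      _ ≤ ‖a q.1 q.2 - a c0 q.2 - (q.1 - c0)‖ + ‖q.1 - c0‖ := norm_add_le _ _
      _ ≤ (1 + ε) * ‖q.1 - c0‖ := by linarith
  have h6 : Tendsto (fun q : V N × V N => a c0 q.2) (𝓝[ball 0 R ×ˢ univ] (c0, θ0))
      (𝓝 (a c0 θ0)) := by
    have h7 : Continuous fun q : V N × V N => a c0 q.2 :=
      (hF.leaf c0 hc0).c1.continuous.comp continuous_snd
    exact (h7.tendsto (c0, θ0)).mono_left nhdsWithin_le_nhds
  have h8 := h1.add h6
  rw [zero_add] at h8
  refine h8.congr fun q => ?_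
  simp

/-- compactness modulo the lattice -/
theorem cpt_aux (hP : Push A K r Λ I Θ) (hT : RTube n C R I a g G) (hF : TFam r R ε x y a)
    {R' : ℝ} (hR' : R' < R / C) : ∃ K0 : Set (W N), IsCompact K0 ∧ K0 ⊆ Om a R C G ∧
      ∀ p ∈ Om a R C G, ‖G p‖ ≤ R' → ∃ q ∈ K0, Θ q = Θ p := by
  have hsub := reg_sub hF
  set S : Set (V N) := {c | c ∈ ball (0 : V N) R ∧ ‖g c‖ ≤ R'} with hS
  have hSc : IsCompact S := hT.cpt R' hR'
  refine ⟨(fun q : V N × V N => ((q.2, a q.1 q.2) : W N)) '' (S ×ˢ Tub_57.cub N),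
    (hSc.prod Tub_57.isCompact_cub).image_of_continuousOn
      ((cont_fam hF).mono (prod_mono (fun c hc => hc.1) (subset_univ _))), ?_, ?_⟩
  · rintro _ ⟨⟨c, θ⟩, ⟨hc, -⟩, rfl⟩
    have hc1 : ‖c‖ < R := by simpa using hc.1
    refine ⟨⟨c, hc1, rfl⟩, ?_⟩
    show ‖G (θ, a c θ)‖ < R / C
    rw [hT.ga c hc1 θ]
    exact hc.2.trans_lt hR'
  · rintro p ⟨⟨c, hc, hp⟩, -⟩ hpR
    obtain ⟨k, hk⟩ := Tub_57.exists_cub p.1
    have hk' : p.1 + kv k ∈ Tub_57.cub N := hk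
    refine ⟨(p.1 + kv k, a c (p.1 + kv k)), ⟨(c, p.1 + kv k), ⟨⟨?_, ?_⟩, hk'⟩, rfl⟩, ?_⟩
    · rw [mem_ball_zero_iff]
      exact hc
    · show ‖g c‖ ≤ R'
      rw [← G_reg hT hc hp]
      exact hpR
    · refine (hP.eq_iff _ (hsub ⟨c, hc, rfl⟩) p (hsub ⟨c, hc, hp⟩)).2 ⟨k, ?_⟩
      rw [leaf_add hF hc, hp]

/-- the fibre of `G`, downstairs -/
theorem fibre (Θ : W N → X) (hT : RTube n C R I a g G) {c : V N}
    (hc : ‖c‖ < R) (hg : ‖g c‖ < R / C) :
    {z | ∃ p' ∈ Om a R C G, Θ p' = z ∧ G p' = g c} = range fun θ => Θ (θ, a c θ) := by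
  ext z
  constructor
  · rintro ⟨p, ⟨⟨d, hd, hp⟩, -⟩, rfl, hG⟩
    rw [G_reg hT hd hp] at hG
    have hdc : d = c := hT.inj (by simpa using hd) (by simpa using hc) hG
    subst hdc
    refine ⟨p.1, ?_⟩
    show Θ (p.1, a d p.1) = Θ p
    rw [hp]
  · rintro ⟨θ, rfl⟩
    refine ⟨(θ, a c θ), ⟨⟨c, hc, rfl⟩, ?_⟩, rfl, hT.ga c hc θ⟩
    rw [hT.ga c hc θ]
    exact hg

theorem finrank_Cn (n : ℕ) : Module.finrank ℝ (Cn n) = 2 * n := by
  rw [finrank_real_of_complex]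
  congr 1
  exact finrank_euclideanSpace_fin

theorem surj_aux (hN : N = 2 * n) {G' : W N →L[ℝ] Cn n} (hC : ∀ w : V N, ‖w‖ ≤ C * ‖G' (0, w)‖) :
    Function.Surjective G' := by
  let T : V N →ₗ[ℝ] Cn n := (G' : W N →ₗ[ℝ] Cn n).comp (LinearMap.inr ℝ (V N) (V N))
  have hi : Function.Injective T := by
    refine (injective_iff_map_eq_zero T).2 fun w hw => ?_
    have h1 := hC w
    have h2 : G' (0, w) = 0 := hw
    rw [h2, norm_zero, mul_zero] at h1
    exact norm_le_zero_iff.1 h1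
  have hf : Module.finrank ℝ (V N) = Module.finrank ℝ (Cn n) := by
    rw [finrank_Cn, finrank_euclideanSpace_fin, hN]
  have hs := (LinearMap.injective_iff_surjective_of_finrank_eq_finrank hf).1 hi
  intro w
  obtain ⟨u, hu⟩ := hs w
  exact ⟨(0, u), hu⟩

/-- **the quantified tube** from the function on the real tube and the discs in the leaves -/
theorem exists_qtube (hN : N = 2 * n) (hP : Push A K r Λ I Θ) (hT : RTube n C R I a g G)
    (hF : TFam r R ε x y a) (hC : 0 < C) (hκ : C ^ 2 * Λ ≤ κ)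
    (hq2 : ∀ c, ‖c‖ < R → ‖g c‖ < R / C → ∀ θ θ', ∃ gg : ℂ → X,
      Disc A K κ (range fun t => Θ (t, a c t)) gg ∧ gg 0 = Θ (θ', a c θ') ∧
        gg 1 = Θ (θ, a c θ)) :
    ∃ q : QTube A K n κ (R / C), q.U = Θ '' Om a R C G ∧ ∀ p ∈ Om a R C G, q.f (Θ p) = G p := by
  have hsub := reg_sub hF
  refine PD.exists_qtube (κ := κ) (R := R / C) ⟨pd0 hP hT hF, fun p hp => hp.2, ?_, ?_, ?_, ?_, ?_⟩
  · intro b hb
    obtain ⟨c, hc, rfl⟩ := hT.onto (mem_ball_zero_iff.2 hb)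
    have hc' : ‖c‖ < R := by simpa using hc
    refine ⟨(0, a c 0), ⟨⟨c, hc', rfl⟩, ?_⟩, hT.ga c hc' 0⟩
    rw [hT.ga c hc' 0]
    exact hb
  · intro p hp
    obtain ⟨G', hG', -, hw, -⟩ := hT.der p hp.1
    rw [hG'.fderiv]
    exact surj_aux hN hw
  · exact fun R' hR' => cpt_aux hP hT hF hR'
  · intro p hp i hi u
    obtain ⟨G', hG', hn, -, -⟩ := hT.der p hp.1
    rw [hG'.fderiv]
    have h1 : ‖G' u‖ ≤ C * ‖u‖ := (G'.le_opNorm u).trans (by gcongr)
    have h2 := hP.low p (hsub hp.1) i hi u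
    have h3 := qf_nonneg K hi (fderiv ℝ (fun q => A.e i (Θ q)) p u)
    calc ‖G' u‖ ^ 2 ≤ (C * ‖u‖) ^ 2 := by gcongr
      _ = C ^ 2 * ‖u‖ ^ 2 := by ring
      _ ≤ C ^ 2 * (Λ * qf K i (Θ p) (fderiv ℝ (fun q => A.e i (Θ q)) p u)) := by gcongr
      _ = (C ^ 2 * Λ) * qf K i (Θ p) (fderiv ℝ (fun q => A.e i (Θ q)) p u) := by ring
      _ ≤ κ * qf K i (Θ p) (fderiv ℝ (fun q => A.e i (Θ q)) p u) := by gcongr
  · rintro p ⟨⟨c, hc, hp⟩, hpR⟩ q ⟨⟨d, hd, hq⟩, -⟩ hpq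
    rw [G_reg hT hc hp] at hpq hpR
    rw [G_reg hT hd hq] at hpq
    have hdc : c = d := hT.inj (by simpa using hc) (by simpa using hd) hpq
    subst hdc
    obtain ⟨gg, h1, h2, h3⟩ := hq2 c hc hpR p.1 q.1
    refine ⟨gg, ?_, ?_, ?_⟩
    · rw [G_reg hT hc hp, fibre Θ hT hc hpR]
      exact h1
    · rw [h2, hq]
    · rw [h3, hp]

/-- the leaves downstairs are compact -/
theorem isCompact_leaf (hP : Push A K r Λ I Θ) (hF : TFam r R ε x y a) {c : V N} (hc : ‖c‖ < R) :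
    IsCompact (range fun θ => Θ (θ, a c θ)) := by
  have hsub := reg_sub hF
  have h0 : Continuous fun θ : V N => ((θ, a c θ) : W N) :=
    continuous_id.prodMk (hF.leaf c hc).c1.continuous
  have h1 : Continuous fun θ : V N => Θ (θ, a c θ) :=
    hP.cont.comp_continuous h0 fun θ => hsub ⟨c, hc, rfl⟩
  have h2 : (range fun θ => Θ (θ, a c θ)) = (fun θ => Θ (θ, a c θ)) '' Tub_57.cub N := by
    refine subset_antisymm ?_ (image_subset_range _ _)
    rintro _ ⟨θ, rfl⟩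
    obtain ⟨k, hk⟩ := Tub_57.exists_cub θ
    have hk' : θ + kv k ∈ Tub_57.cub N := hk
    refine ⟨θ + kv k, hk', ?_⟩
    refine (hP.eq_iff _ (hsub ⟨c, hc, rfl⟩) _ (hsub ⟨c, hc, rfl⟩)).2 ⟨k, ?_⟩
    rw [leaf_add hF hc]
  rw [h2]
  exact Tub_57.isCompact_cub.image h1

/-- the leaves downstairs are connected -/
theorem isConnected_leaf (hP : Push A K r Λ I Θ) (hF : TFam r R ε x y a) {c : V N}
    (hc : ‖c‖ < R) : IsConnected (range fun θ => Θ (θ, a c θ)) := by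
  have hsub := reg_sub hF
  have h0 : Continuous fun θ : V N => ((θ, a c θ) : W N) :=
    continuous_id.prodMk (hF.leaf c hc).c1.continuous
  have h1 : Continuous fun θ : V N => Θ (θ, a c θ) :=
    hP.cont.comp_continuous h0 fun θ => hsub ⟨c, hc, rfl⟩
  exact isConnected_range h1

end

end Crest.Agent.R281.Qt10_355
end

-- ▼ part R281/Qt11_355
section

/-!
# R281 (S0424), QTUBE (helper355), part 11: the tube is a Lagrangian fibration

* `ker_tan`         : the kernel of the derivative of `G` is the tangent space of the leaf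
* `lagFib_of`       : `LagFib A w w' n q.U q.f (R / C)` (helper57) for the quantified tube
* `exists_qtube_lag`: the quantified tube with all its additional properties
-/

set_option autoImplicit false
set_option maxSynthPendingDepth 3
set_option linter.unusedSectionVars false

open Set Metric Filter Topology
open scoped ContDiff

namespace Crest.Agent.R281.Qt11_355

open Crest.Agent.R275.Geo Crest.Agent.R273.Defs_333 Crest.Agent.R273.Kah_333
open Crest.Agent.R281.SAsm_790 Crest.Agent.R281.Qt_922 Crest.Agent.R281.Qt10_355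
open Crest.Agent.R281.HkR_835
open Crest.Agent.R281.Per_368 (SmI pull)
open Crest.Agent.R281.Mc673 (V W Fo tube ClF isOpen_tube kv)
open Crest.Agent.R281.Tub_57 (LagFib)

noncomputable section

variable {N n : ℕ} {X : Type} [TopologicalSpace X] {A : Atl N X} {K : Kah A}
  {r Λ C R ε κ : ℝ} {x y : Fo N} {I : W N → W N →L[ℝ] W N} {Θ : W N → X} {a : V N → V N → V N}
  {g : V N → Cn n} {G : W N → Cn n}

/-- the map is smooth in the charts -/
theorem Push.smI (hP : Push A K r Λ I Θ) : SmI (ofAtl A) (tube N r) Θ :=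
  ⟨isOpen_tube r, hP.cont, fun i p hp => (hP.sm p hp.1 i hp.2).contDiffWithinAt⟩

/-- the kernel of the derivative of `G` is the tangent space of the leaf -/
theorem ker_tan (hT : RTube n C R I a g G) (hF : TFam r R ε x y a) {c : V N} (hc : ‖c‖ < R)
    (θ : V N) {u : W N} (hu : fderiv ℝ G (θ, a c θ) u = 0) :
    u = (u.1, fderiv ℝ (a c) θ u.1) := by
  obtain ⟨G', hG', -, hw, -⟩ := hT.der (θ, a c θ) ⟨c, hc, rfl⟩
  rw [hG'.fderiv] at hu
  have hda : HasFDerivAt (fun t : V N => ((t, a c t) : W N))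
      ((ContinuousLinearMap.id ℝ (V N)).prod (fderiv ℝ (a c) θ)) θ :=
    (hasFDerivAt_id θ).prodMk ((((hF.leaf c hc).c1).differentiable (by simp)) θ).hasFDerivAt
  have h1 : HasFDerivAt (fun t : V N => G (t, a c t))
      (G'.comp ((ContinuousLinearMap.id ℝ (V N)).prod (fderiv ℝ (a c) θ))) θ :=
    HasFDerivAt.comp (g := G) θ hG' hda
  have h2 : (fun t : V N => G (t, a c t)) = fun _ => g c := funext fun t => hT.ga c hc t
  rw [h2] at h1
  have h3 := h1.unique (hasFDerivAt_const (g c) θ)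
  have h4 : G' (u.1, fderiv ℝ (a c) θ u.1) = 0 := by
    have := congrArg (fun L : V N →L[ℝ] Cn n => L u.1) h3
    simpa using this
  have h5 : G' (0, u.2 - fderiv ℝ (a c) θ u.1) = 0 := by
    have e : ((0, u.2 - fderiv ℝ (a c) θ u.1) : W N) = u - (u.1, fderiv ℝ (a c) θ u.1) := by
      refine Prod.ext ?_ rfl
      show (0 : V N) = u.1 - u.1
      rw [sub_self]
    rw [e, map_sub, hu, h4, sub_zero]
  have h6 := hw (u.2 - fderiv ℝ (a c) θ u.1)
  rw [h5, norm_zero, mul_zero] at h6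
  have h7 : u.2 - fderiv ℝ (a c) θ u.1 = 0 := norm_le_zero_iff.1 h6
  exact Prod.ext rfl (sub_eq_zero.1 h7)

/-- **the tube is a Lagrangian fibration** -/
theorem lagFib_of (hP : Push A K r Λ I Θ) (hT : RTube n C R I a g G)
    (hF : TFam r R ε x y a) (hC : 0 < C) (hR : 0 < R) {w w' : F2 (ofAtl A)}
    (hx : ∀ p ∈ tube N r, x p = pull w Θ p) (hy : ∀ p ∈ tube N r, y p = pull w' Θ p)
    (q : QTube A K n κ (R / C)) (hU : q.U = Θ '' Om a R C G)
    (hf : ∀ p ∈ Om a R C G, q.f (Θ p) = G p) : LagFib A w w' n q.U q.f (R / C) := by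
  have hsub := reg_sub hF
  have h0 := pd0 hP hT hF
  have hsm := Push.smI hP
  have hfib : ∀ b : Cn n, ‖b‖ < R / C → ∃ c, ‖c‖ < R ∧ g c = b ∧
      {z | z ∈ q.U ∧ q.f z = b} = range fun θ => Θ (θ, a c θ) := by
    intro b hb
    obtain ⟨c, hc, rfl⟩ := hT.onto (mem_ball_zero_iff.2 hb)
    have hc' : ‖c‖ < R := by simpa using hc
    refine ⟨c, hc', rfl, ?_⟩
    rw [← fibre Θ hT hc' hb]
    ext z
    constructor
    · rintro ⟨hz, hzf⟩
      rw [hU] at hz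
      obtain ⟨p, hp, rfl⟩ := hz
      exact ⟨p, hp, rfl, by rw [← hf p hp, hzf]⟩
    · rintro ⟨p, hp, rfl, hG⟩
      exact ⟨hU ▸ ⟨p, hp, rfl⟩, by rw [hf p hp, hG]⟩
  refine ⟨by positivity, q.op, q.lt, q.hol, q.surj, ?_, ?_, ?_, ?_⟩
  · intro i z hz hzU u v hu hv
    rw [hU] at hzU
    obtain ⟨p, hp, rfl⟩ := hzU
    have hfun : (fun z => q.f ((A.e i).symm z)) =ᶠ[𝓝 (A.e i (Θ p))]
        fun z => PD0.fD (Om a R C G) Θ G ((A.e i).symm z) := by
      have h1 : Θ '' Om a R C G ∈ 𝓝 (Θ p) :=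
        (h0.isOpen_image h0.op le_rfl).mem_nhds ⟨p, hp, rfl⟩
      have h2 : Tendsto (A.e i).symm (𝓝 (A.e i (Θ p))) (𝓝 (Θ p)) := by
        have := (A.e i).continuousAt_symm ((A.e i).map_source hz)
        rw [ContinuousAt, (A.e i).left_inv hz] at this
        exact this
      filter_upwards [h2.eventually h1] with t ht
      obtain ⟨p', hp', hpt⟩ := ht
      rw [← hpt, hf p' hp', h0.fD_eq hp']
    rw [hfun.fderiv_eq] at hu hv
    obtain ⟨u', hu'⟩ := (h0.bij p hp i hz).2 u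
    obtain ⟨v', hv'⟩ := (h0.bij p hp i hz).2 v
    rw [← hu', (h0.fD_deriv hp hz).2 u'] at hu
    rw [← hv', (h0.fD_deriv hp hz).2 v'] at hv
    obtain ⟨⟨c, hc, hpc⟩, -⟩ := hp
    have hpe : p = (p.1, a c p.1) := Prod.ext rfl hpc.symm
    have hpt : p ∈ tube N r := hsub ⟨c, hc, hpc⟩
    rw [hpe] at hu hv
    have eu := ker_tan hT hF hc p.1 hu
    have ev := ker_tan hT hF hc p.1 hv
    have k1 : x p u' v' = 0 := by
      rw [hpe, eu, ev]
      exact (hF.leaf c hc).ix p.1 u'.1 v'.1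
    have k2 : y p u' v' = 0 := by
      rw [hpe, eu, ev]
      exact (hF.leaf c hc).iy p.1 u'.1 v'.1
    have e1 : ∀ w : F2 (ofAtl A), pull w Θ p u' v' = w.w i (A.e i (Θ p)) u v := by
      intro w
      rw [hsm.pull_eq w hpt hz, ← hu', ← hv']
      rfl
    rw [hx p hpt, e1 w] at k1
    rw [hy p hpt, e1 w'] at k2
    exact ⟨k1, k2⟩
  · intro b hb
    obtain ⟨c, hc, -, h1⟩ := hfib b hb
    rw [h1]
    exact isCompact_leaf hP hF hc
  · intro b hb
    obtain ⟨c, hc, -, h1⟩ := hfib b hb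
    rw [h1]
    exact (isConnected_leaf hP hF hc).isPreconnected
  · intro b hb
    obtain ⟨c, hc, -, h1⟩ := hfib b hb
    rw [h1]
    exact range_nonempty _

/-- **the quantified tube, with all its properties** -/
theorem exists_qtube_lag (hN : N = 2 * n) (hP : Push A K r Λ I Θ) (hT : RTube n C R I a g G)
    (hF : TFam r R ε x y a) (hC : 0 < C) (hR : 0 < R) (hκ : C ^ 2 * Λ ≤ κ)
    {w w' : F2 (ofAtl A)}
    (hx : ∀ p ∈ tube N r, x p = pull w Θ p) (hy : ∀ p ∈ tube N r, y p = pull w' Θ p)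
    (hq2 : ∀ c, ‖c‖ < R → ‖g c‖ < R / C → ∀ θ θ', ∃ gg : ℂ → X,
      Disc A K κ (range fun t => Θ (t, a c t)) gg ∧ gg 0 = Θ (θ', a c θ') ∧
        gg 1 = Θ (θ, a c θ)) :
    ∃ q : QTube A K n κ (R / C), q.U = Θ '' Om a R C G ∧ q.U ⊆ Θ '' tube N r ∧
      (∀ p ∈ Om a R C G, q.f (Θ p) = G p) ∧ LagFib A w w' n q.U q.f (R / C) ∧
      ∀ c, ‖c‖ < R → ‖g c‖ < R / C →
        {z | z ∈ q.U ∧ q.f z = g c} = range fun θ => Θ (θ, a c θ) := by
  obtain ⟨q, hU, hf⟩ := exists_qtube hN hP hT hF hC hκ hq2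
  refine ⟨q, hU, ?_, hf, lagFib_of hP hT hF hC hR hx hy q hU hf, fun c hc hg => ?_⟩
  · rw [hU]
    exact image_mono fun p hp => reg_sub hF hp.1
  · rw [← fibre Θ hT hc hg]
    ext z
    constructor
    · rintro ⟨hz, hzf⟩
      rw [hU] at hz
      obtain ⟨p, hp, rfl⟩ := hz
      exact ⟨p, hp, rfl, by rw [← hf p hp, hzf]⟩
    · rintro ⟨p, hp, rfl, hG⟩
      exact ⟨hU ▸ ⟨p, hp, rfl⟩, by rw [hf p hp, hG]⟩

end

end Crest.Agent.R281.Qt11_355
end

-- ▼ part R281/Tq1_836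
section

/-!
# Row 281, QTubP (helper836): the tube of tori inside the quantified tube

* `HolTube.mono`, `PVT.mono` : restriction to a smaller base
* `exists_holTube_lag`  : a tube of tori `Ψ` over a disc, `f (Ψ (y, x)) = y`, from `LagFib`
* `tubeQ_of`            : `TubeQ` from the quantified tube
-/

set_option autoImplicit false
set_option linter.unusedSectionVars false
set_option maxSynthPendingDepth 3
set_option synthInstance.maxHeartbeats 200000

open Set Metric Filter Topology Complex Function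
open scoped NNReal ContDiff

namespace Crest.Agent.R281.Tq_836

open Crest.Agent.R275.Geo Crest.Agent.R275.Core144
open Crest.Agent.R275.EDR890
open Crest.Agent.R273.Defs_333 Crest.Agent.R273.Kah_333
open Crest.Agent.R260.ACM_580 Crest.Agent.R260.NNB_580
open Crest.Agent.R281.HkR_835 Crest.Agent.R281.Ti_846 Crest.Agent.R281.Dif_268
open Crest.Agent.R281.NefO_476 Crest.Agent.R281.Nef_252
open Crest.Agent.R281.Mc673 Crest.Agent.R281.T5D_808 Crest.Agent.R281.Ab_729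
open Crest.Agent.R281.Bt_156 Crest.Agent.R281.Tub_836 Crest.Agent.R281.Tub_831
open Crest.Agent.R281.Alg_998 Crest.Agent.R281.RkD_902 Crest.Agent.R281.Cr_808
open Crest.Agent.R281.Per_368 (SmI pull pl)
open Crest.Agent.R281.Exo_368 (ExOn TubeO pvt_of_exOn)
open Crest.Agent.R281.KapD_975 (TubeQ)
open Crest.Agent.R281.Qt_922 (QTube)
open Crest.Agent.R281.Tub_57 (LagFib)
open Crest.Agent.R281.Tp_836
open Crest.Agent.R238.Sch (ee)

noncomputable section

section mono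

variable {V X : Type} [NormedAddCommGroup V] [NormedSpace ℝ V] [TopologicalSpace X]
  {C : RCh V X} {J : C.ι → V → V →L[ℝ] V} {w w' : F2 C} {n : ℕ} {D D' : Set (Cn n)}
  {Ψ : Cn n × Cn n → X} {l : Fin (2 * n) → Cn n → Cn n} {τ : Cn n → Cn n → Cn n → ℂ}

/-- restriction to a smaller base -/
theorem HolTube.mono (h : HolTube C J w w' n D Ψ l τ) (hD : D' ⊆ D) (ho : IsOpen D')
    (hc : Convex ℝ D') (hn : D'.Nonempty) : HolTube C J w w' n D' Ψ l τ where
  op := ho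
  cv := hc
  ne := hn
  sm := h.sm.mono (prod_mono hD Subset.rfl) (ho.prod isOpen_univ)
  hol p hp := h.hol p (hD hp)
  inj p hp := h.inj p (hD hp)
  lhol k := (h.lhol k).mono hD
  lli y hy := h.lli y (hD hy)
  eq_iff y hy y' hy' := h.eq_iff y (hD hy) y' (hD hy')
  symp p hp := h.symp p (hD hp)

theorem PVT.mono {Q : F2 C →ₗ[ℝ] F2 C →ₗ[ℝ] ℝ} {e : F2 C} (h : PVT Q e D Ψ l) (hD : D' ⊆ D) :
    PVT Q e D' Ψ l := fun v hv y hy => h v hv y (hD hy)

end mono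

section hol

variable {n : ℕ} {X : Type} [TopologicalSpace X] [CompactSpace X] [T2Space X]
  {C : RCh (Cn (2 * n)) X} {H : HkT C}

/-- **tube of tori of a Lagrangian fibration `f`**, `f (Ψ (y, x)) = y` -/
theorem exists_holTube_lag {A : Atl (2 * n) X} (hA : Cp (H.acm 1) A) {L ρ : ℝ} (hL : 0 < L)
    {U : Set X} {f : X → Cn n}
    (hf : LagFib A (L • (cmp_of_cp hA).F (H.om 2)) (L • (cmp_of_cp hA).F (H.om 0)) n U f ρ) :
    ∃ (D : Set (Cn n)) (Φ : Cn n × Cn n → X) (lt : Fin (2 * n) → Cn n → Cn n)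
      (τ : Cn n → Cn n → Cn n → ℂ), HolTube C (H.J 1) (H.om 2) (H.om 0) n D Φ lt τ ∧
      (∀ y ∈ D, ∀ x, Φ (y, x) ∈ U ∧ f (Φ (y, x)) = y) ∧ (0 : Cn n) ∈ D := by
  obtain ⟨x0, hx0U, hx0⟩ := hf.ne 0 (by simpa using hf.pos)
  let U' : TopologicalSpace.Opens X := ⟨U, hf.op⟩
  have hlag : ∀ i, ∀ x ∈ (A.e i).source, x ∈ U' → ∀ u v,
      fderiv ℂ (fun z => f ((A.e i).symm z)) (A.e i x) u = 0 →
      fderiv ℂ (fun z => f ((A.e i).symm z)) (A.e i x) v = 0 →
      ((cmp_of_cp hA).F (H.om 2)).w i (A.e i x) u v = 0 ∧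
      ((cmp_of_cp hA).F (H.om 0)).w i (A.e i x) u v = 0 := by
    intro i x hx hxU u v hu hv
    obtain ⟨h1, h2⟩ := hf.lag i x hx hxU u v hu hv
    have h1' : L * ((cmp_of_cp hA).F (H.om 2)).w i (A.e i x) u v = 0 := h1
    have h2' : L * ((cmp_of_cp hA).F (H.om 0)).w i (A.e i x) u v = 0 := h2
    exact ⟨(mul_eq_zero.1 h1').resolve_left hL.ne', (mul_eq_zero.1 h2').resolve_left hL.ne'⟩
  have hlf := lagF_of (H := H) (k := 1) (l := 2) (m := 0) (Or.inr (Or.inl rfl)) hA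
    (U := U') (f := f) hf.hol hf.surj hlag
  obtain ⟨D, Φ, lt, τ, h1, h2, h3, -⟩ := exists_holTube (H := H) (k := 1) (l := 2) (m := 0)
    (Or.inr (Or.inl rfl)) hA hlf (x0 := x0) (T := {x | x ∈ U ∧ f x = 0}) ⟨hx0U, hx0⟩
    (hf.cpt 0 (by simpa using hf.pos)) (hf.con 0 (by simpa using hf.pos)) (fun x hx => hx.1)
    (fun x hx => by rw [hx.2, hx0]) (O := univ) isOpen_univ (subset_univ _)
    (fun x _ hxU hx => ⟨hxU, by rw [hx, hx0]⟩)
  exact ⟨D, Φ, lt, τ, h1, h2, hx0 ▸ h3⟩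

/-- **`TubeQ` from the quantified tube** -/
theorem tubeQ_of {Q : F2 C →ₗ[ℝ] F2 C →ₗ[ℝ] ℝ} {e : F2 C} {A : Atl (2 * n) X}
    {hp : Cp (H.acm 0) A} {L Λ δ R0 : ℝ} {hL : 0 < L} (hR0 : 0 < R0) {Θ : W (2 * n) → X}
    (t : Mtub H {v | Q v e = 0} R0 Λ δ A hp L hL Θ)
    {A1 : Atl (2 * n) X} (hA1 : Cp (H.acm 1) A1) {K : Kah A1} {κ ρ : ℝ}
    (q : QTube A1 K n κ ρ)
    (hlag : LagFib A1 (L • (cmp_of_cp hA1).F (H.om 2)) (L • (cmp_of_cp hA1).F (H.om 0)) n
      q.U q.f ρ)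
    (hU : q.U ⊆ Θ '' tube (2 * n) R0) : TubeQ Q e H 1 A1 K κ ρ := by
  obtain ⟨D, Φ, lt, τ, h1, h2, h3⟩ := exists_holTube_lag hA1 hL hlag
  have hρ : 0 < ρ := hlag.pos
  have t0 := tubeD_C (hp := hp) hR0 t.tub
  have hpv : PVT Q e D Φ lt := by
    refine pvt_of_exOn h1 t0.toO.isOpen (fun y hy x => hU (h2 y hy x).1) fun v hv => ?_
    refine t0.toO.exOn_per hR0 fun j k θ => ?_
    have hm : ((θ, 0) : W (2 * n)) ∈ tube (2 * n) R0 := by
      show ‖(0 : Mc673.V (2 * n))‖ < _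
      rw [norm_zero]
      exact hR0
    rw [per_cmp (cmp_of_cp hp) t0.sm v hm]
    exact t.per v hv _ hm j k
  have hs : D ∩ ball (0 : Cn n) (ρ / 4) ⊆ D := inter_subset_left
  refine ⟨q, D ∩ ball 0 (ρ / 4), Φ, lt, τ, H.om 2, H.om 0,
    HolTube.mono h1 hs (h1.op.inter isOpen_ball) (h1.cv.inter (convex_ball _ _))
      ⟨0, h3, mem_ball_self (by linarith)⟩, PVT.mono hpv hs, fun y hy c => ?_⟩
  have h4 := h2 y hy.1 c
  have h5 := h2 y hy.1 0
  refine ⟨h4.1, by rw [h4.2, h5.2], ?_⟩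
  rw [h4.2]
  exact mem_ball_zero_iff.1 hy.2

end hol

end

end Crest.Agent.R281.Tq_836
end

-- ▼ part R281/Qd1_956
section

/-!
# R281 (S0424), QTUBE (helper956), discs, part 1: **path lifting with a length bound** in an
action-angle tube of helper836, and straight discs `ζ ↦ Ψ (c0 + ζ (c1 - c0), b)`.
-/

set_option autoImplicit false
set_option linter.unusedSectionVars false

open Set Metric Filter Topology Complex Function
open scoped NNReal ContDiff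

namespace Crest.Agent.R281.Qd_956

open Crest.Agent.R275.Geo Crest.Agent.R273.HFlow3_376 Crest.Agent.R273.HFlow4_376
open Crest.Agent.R273.HFlow5_376 Crest.Agent.R273.HFlow6_376
open Crest.Agent.R281.Aa1_836 Crest.Agent.R281.Aa2_836 Crest.Agent.R281.Aa3_836
open Crest.Agent.R281.Aa4_836 Crest.Agent.R281.Aa5_836

noncomputable section

variable {N g : ℕ} {M : Type} [TopologicalSpace M] {A : Atl N M}
  {F : Type} [NormedAddCommGroup F] [NormedSpace ℂ F] [FiniteDimensional ℂ F]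
  {V : Fin g → HVF A} {y : M → F} {b0 : F} {ε R : ℝ} {Nb : Set M}
  {Ψ : (Fin g → ℂ) × F → M} {l : Fin (2 * g) → F → (Fin g → ℂ)}

/-- the derivative of `Ψ` along the leaves -/
theorem dPsi (t : Tube A V y b0 ε R Nb Ψ l) (c : Fin g → ℂ) {b : F} (hb : b ∈ ball b0 ε)
    {i : A.ι} (hi : Ψ (c, b) ∈ (A.e i).source) (w : Fin g → ℂ) :
    fderiv ℂ (fun q => A.e i (Ψ q)) (c, b) (w, 0) = ∑ k, w k • (V k).X i (Ψ (c, b)) := by
  have key : ∀ k, fderiv ℂ (fun q => A.e i (Ψ q)) (c, b) (Pi.single k 1, 0) =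
      (V k).X i (Ψ (c, b)) := by
    intro k
    have h1 := (t.int c b hb k 0).chart (j := i) (by simpa using hi)
    have e0 : c + (Pi.single k (0 : ℂ) : Fin g → ℂ) = c := by simp
    rw [e0] at h1
    have h2 : HasDerivAt (fun w : ℂ => ((c + (Pi.single k w : Fin g → ℂ), b) :
        (Fin g → ℂ) × F)) (Pi.single k 1, 0) 0 := by
      have e1 : (fun t : ℂ => ((c + Pi.single k t, b) : (Fin g → ℂ) × F)) =
          fun t => (c, b) + t • ((Pi.single k 1, 0) : (Fin g → ℂ) × F) := by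
        funext t
        ext1
        · simp only [Prod.fst_add, Prod.smul_mk, ← Pi.single_smul, smul_eq_mul, mul_one]
        · simp
      rw [e1]
      simpa using ((hasDerivAt_id (0 : ℂ)).smul_const
        ((Pi.single k 1, 0) : (Fin g → ℂ) × F)).const_add (c, b)
    have h3 : HasFDerivAt (fun q => A.e i (Ψ q)) (fderiv ℂ (fun q => A.e i (Ψ q)) (c, b))
        ((c + (Pi.single k (0 : ℂ) : Fin g → ℂ), b)) := by
      rw [e0]
      exact ((t.hol c b hb).chart hi).hasFDerivAt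
    have h4 := h3.comp_hasDerivAt (f := fun w : ℂ => ((c + (Pi.single k w : Fin g → ℂ), b) :
        (Fin g → ℂ) × F)) 0 h2
    exact h4.unique h1
  have h3 : ((w, 0) : (Fin g → ℂ) × F) = ∑ k, w k • ((Pi.single k 1, 0) : (Fin g → ℂ) × F) := by
    ext1
    · rw [Prod.fst_sum]
      funext l
      simp [Finset.sum_apply, Pi.single_apply]
    · rw [Prod.snd_sum]
      simp
  rw [h3, map_sum]
  simp only [map_smul, key]

/-- `Ψ` is a local biholomorphism -/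
theorem tube_loc (t : Tube A V y b0 ε R Nb Ψ l) (hdim : g + Module.finrank ℂ F = N)
    (c : Fin g → ℂ) {b : F} (hb : b ∈ ball b0 ε)
    {i : A.ι} (hi : Ψ (c, b) ∈ (A.e i).source) :
    ∃ e : OpenPartialHomeomorph ((Fin g → ℂ) × F) (Cn N), (c, b) ∈ e.source ∧
      (∀ q ∈ e.source, q.2 ∈ ball b0 ε ∧ Ψ q ∈ (A.e i).source) ∧
      (∀ q, e q = A.e i (Ψ q)) ∧
      AnalyticOnNhd ℂ e e.source ∧ AnalyticOnNhd ℂ e.symm e.target := by
  have hinj := t.inj c b hb i hi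
  have hbe : ∀ᶠ q : (Fin g → ℂ) × F in 𝓝 (c, b), q.2 ∈ ball b0 ε :=
    continuousAt_snd (isOpen_ball.mem_nhds hb)
  have hev : ∀ᶠ q : (Fin g → ℂ) × F in 𝓝 (c, b), HolC A Ψ q := by
    filter_upwards [hbe] with q hq
    exact t.hol q.1 q.2 hq
  have han := analyticAt_of_holC hev hi
  have hfr : Module.finrank ℂ ((Fin g → ℂ) × F) = Module.finrank ℂ (Cn N) := by
    rw [Module.finrank_prod, Module.finrank_fin_fun, finrank_euclideanSpace_fin]
    exact hdim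
  set D := fderiv ℂ (fun q => A.e i (Ψ q)) (c, b) with hD
  set L : ((Fin g → ℂ) × F) ≃L[ℂ] Cn N :=
    (LinearEquiv.ofInjectiveOfFinrankEq D.toLinearMap hinj hfr).toContinuousLinearEquiv with hL
  have hLD : (L : ((Fin g → ℂ) × F) →L[ℂ] Cn N) = D := ContinuousLinearMap.ext fun v => rfl
  have hU : {q : (Fin g → ℂ) × F | q.2 ∈ ball b0 ε ∧ Ψ q ∈ (A.e i).source} ∈ 𝓝 (c, b) :=
    hbe.and (hev.self_of_nhds.cont ((A.e i).open_source.mem_nhds hi))
  obtain ⟨e, h1, h2, h3, h4, h5⟩ :=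
    Crest.Agent.R266.SCV.exists_analytic_openPartialHomeomorph han L
      (by rw [hLD]; exact han.differentiableAt.hasFDerivAt) hU
  exact ⟨e, h1, h2, h3, h4, h5⟩

/-- local lifts of differentiable paths in a leaf -/
theorem lift_step (t : Tube A V y b0 ε R Nb Ψ l) (hdim : g + Module.finrank ℂ F = N)
    (c : Fin g → ℂ) {b : F} (hb : b ∈ ball b0 ε) {γ : ℝ → M} {s0 : ℝ}
    (h0 : Ψ (c, b) = γ s0) (hy : ∀ s, y (γ s) = b) (hc : ContinuousAt γ s0)
    {i : A.ι} (hi : γ s0 ∈ (A.e i).source) {v : Cn N}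
    (hv : HasDerivAt (fun s => A.e i (γ s)) v s0) :
    ∃ (u : ℝ → (Fin g → ℂ)) (w : Fin g → ℂ), u s0 = c ∧ (∀ᶠ s in 𝓝 s0, Ψ (u s, b) = γ s) ∧
      HasDerivAt u w s0 ∧ v = ∑ k, w k • (V k).X i (γ s0) := by
  have hi' : Ψ (c, b) ∈ (A.e i).source := by rw [h0]; exact hi
  obtain ⟨e, he0, heU, hee, hea, hes⟩ := tube_loc t hdim c hb hi'
  set q : ℝ → (Fin g → ℂ) × F := fun s => e.symm (A.e i (γ s)) with hq
  have hq0 : q s0 = (c, b) := by
    rw [hq]
    simp only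
    rw [← h0, ← hee, e.left_inv he0]
  have ht0 : A.e i (γ s0) ∈ e.target := by
    rw [← h0, ← hee]; exact e.map_source he0
  have hqd : HasDerivAt q ((fderiv ℂ e.symm (A.e i (γ s0))).restrictScalars ℝ v) s0 := by
    have h1 : HasFDerivAt e.symm ((fderiv ℂ e.symm (A.e i (γ s0))).restrictScalars ℝ)
        (A.e i (γ s0)) := (hes _ ht0).differentiableAt.hasFDerivAt.restrictScalars ℝ
    exact h1.comp_hasDerivAt s0 hv
  have hev : ∀ᶠ s in 𝓝 s0, γ s ∈ (A.e i).source ∧ A.e i (γ s) ∈ e.target := by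
    have h1 : ∀ᶠ s in 𝓝 s0, γ s ∈ (A.e i).source := hc ((A.e i).open_source.mem_nhds hi)
    have h2 : ∀ᶠ s in 𝓝 s0, A.e i (γ s) ∈ e.target :=
      hv.continuousAt (e.open_target.mem_nhds ht0)
    exact h1.and h2
  have hΨ : ∀ᶠ s in 𝓝 s0, Ψ (q s) = γ s ∧ (q s).2 = b := by
    filter_upwards [hev] with s hs
    have h1 : q s ∈ e.source := e.map_target hs.2
    have h2 : A.e i (Ψ (q s)) = A.e i (γ s) := by
      rw [← hee]; exact e.right_inv hs.2
    have h3 : Ψ (q s) = γ s := (A.e i).injOn (heU _ h1).2 hs.1 h2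
    refine ⟨h3, ?_⟩
    have h4 := t.y_eq (q s).1 (q s).2 (heU _ h1).1
    rw [Prod.mk.eta, h3, hy s] at h4
    exact h4.symm
  refine ⟨fun s => (q s).1, ((fderiv ℂ e.symm (A.e i (γ s0))).restrictScalars ℝ v).1, ?_, ?_, ?_,
    ?_⟩
  · simp only [hq0]
  · filter_upwards [hΨ] with s hs
    have : ((q s).1, b) = q s := by rw [← hs.2]
    rw [this, hs.1]
  · exact (ContinuousLinearMap.fst ℝ (Fin g → ℂ) F).hasFDerivAt.comp_hasDerivAt s0 hqd
  · have hw2 : ((fderiv ℂ e.symm (A.e i (γ s0))).restrictScalars ℝ v).2 = 0 := by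
      have h1 : (fun s => (q s).2) =ᶠ[𝓝 s0] fun _ => b := by
        filter_upwards [hΨ] with s hs
        exact hs.2
      have h3 : HasDerivAt (fun s => (q s).2)
          ((fderiv ℂ e.symm (A.e i (γ s0))).restrictScalars ℝ v).2 s0 :=
        (ContinuousLinearMap.snd ℝ (Fin g → ℂ) F).hasFDerivAt.comp_hasDerivAt s0 hqd
      have h4 : HasDerivAt (fun s => (q s).2) 0 s0 :=
        (hasDerivAt_const s0 b).congr_of_eventuallyEq h1
      exact h3.unique h4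
    have h5 : HasDerivAt (fun s => A.e i (Ψ (q s)))
        ((fderiv ℂ (fun q => A.e i (Ψ q)) (c, b)).restrictScalars ℝ
          ((fderiv ℂ e.symm (A.e i (γ s0))).restrictScalars ℝ v)) s0 := by
      have h1 : HasFDerivAt (fun q => A.e i (Ψ q))
          ((fderiv ℂ (fun q => A.e i (Ψ q)) (c, b)).restrictScalars ℝ) (q s0) := by
        rw [hq0]
        exact ((t.hol c b hb).chart hi').hasFDerivAt.restrictScalars ℝ
      exact h1.comp_hasDerivAt s0 hqd
    have h6 : (fun s => A.e i (Ψ (q s))) =ᶠ[𝓝 s0] fun s => A.e i (γ s) := by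
      filter_upwards [hΨ] with s hs
      rw [hs.1]
    have h7 := (hv.congr_of_eventuallyEq h6).unique h5
    refine h7.trans ?_
    have h8 : (fderiv ℂ e.symm (A.e i (γ s0))).restrictScalars ℝ v =
        (((fderiv ℂ e.symm (A.e i (γ s0))).restrictScalars ℝ v).1, 0) := by
      rw [← hw2]
    refine (congrArg _ h8).trans ?_
    rw [← h0]
    exact dPsi t c hb hi' _

/-- **path lifting with a length bound** -/
theorem lift_path [T2Space M] (t : Tube A V y b0 ε R Nb Ψ l)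
    (hdim : g + Module.finrank ℂ F = N) {b : F} (hb : b ∈ ball b0 ε) {γ : ℝ → M}
    (hγ : Continuous γ) (hy : ∀ s, y (γ s) = b) {ℓ ℓ' : ℝ} (hℓ : ℓ < ℓ')
    (hd : ∀ s, ∃ i, γ s ∈ (A.e i).source ∧ ∃ v, HasDerivAt (fun s => A.e i (γ s)) v s ∧
      ∀ w : Fin g → ℂ, v = ∑ k, w k • (V k).X i (γ s) → ‖w‖ ≤ ℓ)
    {c0 : Fin g → ℂ} (h0 : Ψ (c0, b) = γ 0) : ∃ c1, Ψ (c1, b) = γ 1 ∧ ‖c1 - c0‖ ≤ ℓ' := by
  set S : Set ℝ := {s | ∃ c, Ψ (c, b) = γ s ∧ ‖c - c0‖ ≤ ℓ' * s} with hS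
  have hℓ0 : 0 ≤ ℓ := by
    obtain ⟨i, hi, v, hv, hw⟩ := hd 0
    obtain ⟨u, w, -, -, -, h4⟩ := lift_step t hdim c0 hb h0 hy hγ.continuousAt hi hv
    exact (norm_nonneg _).trans (hw w h4)
  have hℓ'0 : 0 < ℓ' := lt_of_le_of_lt hℓ0 hℓ
  have hcl : IsClosed (S ∩ Icc 0 1) := by
    have hK : IsCompact {p : ℝ × (Fin g → ℂ) | p ∈ Icc (0 : ℝ) 1 ×ˢ closedBall c0 ℓ' ∧
        (Ψ (p.2, b) = γ p.1 ∧ ‖p.2 - c0‖ ≤ ℓ' * p.1)} := by
      refine (isCompact_Icc.prod (isCompact_closedBall c0 ℓ')).inter_right ?_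
      refine IsClosed.inter ?_ ?_
      · exact isClosed_eq ((t.cont_fib hb).comp continuous_snd) (hγ.comp continuous_fst)
      · have e1 : Continuous fun p : ℝ × (Fin g → ℂ) => ‖p.2 - c0‖ := by fun_prop
        have e2 : Continuous fun p : ℝ × (Fin g → ℂ) => ℓ' * p.1 := by fun_prop
        exact isClosed_le e1 e2
    have h1 := (hK.image continuous_fst).isClosed
    convert h1 using 1
    ext s
    constructor
    · rintro ⟨⟨c, hc1, hc2⟩, hs⟩
      refine ⟨(s, c), ⟨⟨hs, ?_⟩, hc1, hc2⟩, rfl⟩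
      rw [mem_closedBall, dist_eq_norm]
      exact hc2.trans (by nlinarith [hs.2])
    · rintro ⟨⟨s', c⟩, ⟨⟨hs, -⟩, hc1, hc2⟩, rfl⟩
      exact ⟨⟨c, hc1, hc2⟩, hs⟩
  have h0S : (0 : ℝ) ∈ S := ⟨c0, h0, by simp⟩
  have hstep : ∀ x ∈ S ∩ Ico 0 1, ∀ z ∈ Ioi x, (S ∩ Ioc x z).Nonempty := by
    rintro x ⟨⟨c, hc1, hc2⟩, hx⟩ z hz
    obtain ⟨i, hi, v, hv, hw⟩ := hd x
    obtain ⟨u, w, hu0, huΨ, hud, hvw⟩ := lift_step t hdim c hb hc1 hy hγ.continuousAt hi hv
    have hwl : ‖w‖ ≤ ℓ := hw w hvw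
    have h1 : ∀ᶠ s in 𝓝 x, ‖u s - u x - (s - x) • w‖ ≤ (ℓ' - ℓ) * ‖s - x‖ := by
      have := (hasDerivAt_iff_isLittleO.1 hud).def (sub_pos.2 hℓ)
      exact this
    have h2 : ∀ᶠ s in 𝓝[>] x, ‖u s - u x - (s - x) • w‖ ≤ (ℓ' - ℓ) * ‖s - x‖ ∧
        Ψ (u s, b) = γ s := nhdsWithin_le_nhds (h1.and huΨ)
    have h3 : ∀ᶠ s in 𝓝[>] x, s ∈ Ioc x z := Ioc_mem_nhdsGT hz
    obtain ⟨s, ⟨hs1, hs2⟩, hs3⟩ := (h2.and h3).exists
    refine ⟨s, ⟨u s, hs2, ?_⟩, hs3⟩
    have hsx : 0 < s - x := sub_pos.2 hs3.1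
    rw [Real.norm_of_nonneg hsx.le, hu0] at hs1
    have h4 : ‖(s - x) • w‖ ≤ (s - x) * ℓ := by
      rw [norm_smul, Real.norm_of_nonneg hsx.le]
      exact mul_le_mul_of_nonneg_left hwl hsx.le
    calc ‖u s - c0‖ = ‖(u s - c - (s - x) • w) + (s - x) • w + (c - c0)‖ := by congr 1; abel
      _ ≤ ‖u s - c - (s - x) • w‖ + ‖(s - x) • w‖ + ‖c - c0‖ := norm_add₃_le
      _ ≤ (ℓ' - ℓ) * (s - x) + (s - x) * ℓ + ℓ' * x := by gcongr
      _ = ℓ' * s := by ring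
  have h1 := hcl.Icc_subset_of_forall_exists_gt h0S hstep
  obtain ⟨c1, hc1, hc2⟩ := h1 ⟨zero_le_one, le_rfl⟩
  exact ⟨c1, hc1, by simpa using hc2⟩

/-! ### straight discs -/

/-- the straight disc -/
def sdisc (Ψ : (Fin g → ℂ) × F → M) (b : F) (c0 c1 : Fin g → ℂ) (ζ : ℂ) : M :=
  Ψ (c0 + ζ • (c1 - c0), b)

theorem sdisc_zero (b : F) (c0 c1 : Fin g → ℂ) : sdisc Ψ b c0 c1 0 = Ψ (c0, b) := by
  simp [sdisc]

theorem sdisc_one (b : F) (c0 c1 : Fin g → ℂ) : sdisc Ψ b c0 c1 1 = Ψ (c1, b) := by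
  simp [sdisc]

theorem sdisc_cont (t : Tube A V y b0 ε R Nb Ψ l) {b : F} (hb : b ∈ ball b0 ε)
    (c0 c1 : Fin g → ℂ) : Continuous (sdisc Ψ b c0 c1) :=
  (t.cont_fib hb).comp (f := fun ζ : ℂ => c0 + ζ • (c1 - c0)) (by fun_prop)

theorem sdisc_deriv (t : Tube A V y b0 ε R Nb Ψ l) {b : F} (hb : b ∈ ball b0 ε)
    (c0 c1 : Fin g → ℂ) (ζ : ℂ) {i : A.ι} (hi : sdisc Ψ b c0 c1 ζ ∈ (A.e i).source) :
    HasDerivAt (fun w => A.e i (sdisc Ψ b c0 c1 w))
      (∑ k, (c1 - c0) k • (V k).X i (sdisc Ψ b c0 c1 ζ)) ζ := by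
  have h1 : HasFDerivAt (fun q => A.e i (Ψ q))
      (fderiv ℂ (fun q => A.e i (Ψ q)) (c0 + ζ • (c1 - c0), b)) (c0 + ζ • (c1 - c0), b) :=
    ((t.hol _ b hb).chart hi).hasFDerivAt
  have h2 : HasDerivAt (fun w : ℂ => ((c0 + w • (c1 - c0), b) : (Fin g → ℂ) × F))
      (c1 - c0, 0) ζ := by
    refine HasDerivAt.prodMk ?_ (hasDerivAt_const _ _)
    have := ((hasDerivAt_id ζ).smul_const (c1 - c0)).const_add c0
    simpa using this
  have h3 := h1.comp_hasDerivAt ζ h2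
  rw [dPsi t _ hb hi] at h3
  exact h3

end

end Crest.Agent.R281.Qd_956
end

-- ▼ part R281/Qd2_956
section

/-!
# R281 (S0424), QTUBE (helper956), discs, part 2: discs in a compact Lagrangian fibre joining the
end points of a path of bounded speed.
-/

set_option autoImplicit false
set_option linter.unusedSectionVars false

open Set Metric Filter Topology Complex Function TopologicalSpace
open scoped NNReal ContDiff Matrix

namespace Crest.Agent.R281.Qd_956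

open Crest.Agent.R275.Geo Crest.Agent.R275.Core144 Crest.Agent.R273.HFlow3_376
open Crest.Agent.R273.HFlow4_376
open Crest.Agent.R273.HFlow5_376 Crest.Agent.R273.HFlow6_376
open Crest.Agent.R281.Aa1_836 Crest.Agent.R281.Aa2_836 Crest.Agent.R281.Aa3_836
open Crest.Agent.R281.Aa4_836 Crest.Agent.R281.Aa5_836 Crest.Agent.R281.Aa6_836
open Crest.Agent.R281.Aa7_836 Crest.Agent.R281.Ab_729
open Crest.Agent.R281.Defs_273 Crest.Agent.R281.HkP2_508
open Crest.Agent.R273.Defs_333 Crest.Agent.R273.Kah_333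
open Crest.Agent.R281.SAsm_790 Crest.Agent.R281.Qt_922

noncomputable section

variable {g : ℕ} {X : Type} [TopologicalSpace X] {A : Atl (2 * g) X} {K : Kah A} {σ : HSymp A}
  {U : Opens X} {f : X → Cn g}

/-- `v = Σ w_k V_k` at `x`, `σ(V_k, ·) = d f_k` -/
def Hm (σ : HSymp A) (f : X → Cn g) (j : A.ι) (x : X) (w : Fin g → ℂ) (v : Cn (2 * g)) : Prop :=
  ∀ v', bf (σ.s j x) v v' = ∑ k, w k * (fderiv ℂ (fun z => f ((A.e j).symm z)) (A.e j x) v') k

theorem hm_sum (h : LagF (opS σ U) (fun x : U => f x.1)) {j : A.ι} {p x : U}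
    (hx : x.1 ∈ (A.e j).source) (w : Fin g → ℂ) :
    Hm σ f j x.1 w (∑ k, w k • (VH (opS σ U) h.hol k).X (p, j) x) := by
  intro v'
  rw [map_sum, _root_.sum_apply]
  refine Finset.sum_congr rfl fun k _ => ?_
  rw [map_smul, _root_.smul_apply, smul_eq_mul]
  congr 1
  have hx' : x ∈ ((opA A U).e (p, j)).source := opA_source.2 hx
  have h1 := VH_spec (σ := opS σ U) h.hol k hx' v'
  have h2 : fderiv ℂ (fun z => (fun x : U => f x.1) (((opA A U).e (p, j)).symm z))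
      ((opA A U).e (p, j) x) = fderiv ℂ (fun z => f ((A.e j).symm z)) (A.e j x.1) :=
    fderiv_opA f hx'
  rw [h2] at h1
  exact h1

/-- **a disc in a compact Lagrangian fibre** joining the end points of a path of bounded speed -/
theorem disc_of_path [T2Space X] (h : LagF (opS σ U) (fun x : U => f x.1)) {T : Set X}
    (hT : IsCompact T) (hTc : IsPreconnected T) (hTU : T ⊆ (U : Set X)) {b : Cn g}
    (hTy : ∀ x ∈ T, f x = b) {O : Set X} (hO : IsOpen O) (hTO : T ⊆ O)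
    (hOT : ∀ x ∈ O, x ∈ U → f x = b → x ∈ T) {c1 ℓ ℓ' : ℝ} (hc1 : 0 ≤ c1) (hℓ : ℓ < ℓ')
    (h1 : ∀ j, ∀ x ∈ (A.e j).source, x ∈ T → ∀ w v, Hm σ f j x w v → qf K j x v ≤ c1 * ‖w‖ ^ 2)
    {γ : ℝ → X} (hγ : Continuous γ) (hγT : ∀ s, γ s ∈ T)
    (hd : ∀ s, ∃ j, γ s ∈ (A.e j).source ∧ ∃ v, HasDerivAt (fun s => A.e j (γ s)) v s ∧
      ∀ w, Hm σ f j (γ s) w v → ‖w‖ ≤ ℓ) :
    ∃ G : ℂ → X, Disc A K (c1 * ℓ' ^ 2) T G ∧ G 0 = γ 0 ∧ G 1 = γ 1 := by
  classical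
  -- the leaf in `U`
  set T' : Set U := Subtype.val ⁻¹' T with hT'
  have himg : Subtype.val '' T' = T := by
    apply Subset.antisymm
    · rintro _ ⟨x, hx, rfl⟩
      exact hx
    · exact fun x hx => ⟨⟨x, hTU hx⟩, hx, rfl⟩
  have hT1 : IsCompact T' := by
    rw [Subtype.isCompact_iff, himg]
    exact hT
  have hT2 : IsPreconnected T' := by
    refine (IsInducing.isPreconnected_image (f := (Subtype.val : U → X))
      IsInducing.subtypeVal).1 ?_
    have h1 := himg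
    exact h1.symm ▸ hTc
  set γ' : ℝ → U := fun s => ⟨γ s, hTU (hγT s)⟩ with hγ'
  have hγ'c : Continuous γ' := hγ.subtype_mk _
  obtain ⟨ε, R, Nb, Ψ, lp, t, hTN, hNO, hΨ0⟩ := exists_AA h (x0 := γ' 0) (T := T')
    (hγT 0) hT1 hT2 (fun x hx => (hTy x.1 hx).trans (hTy _ (hγT 0)).symm)
    (O := Subtype.val ⁻¹' O)
    (hO.preimage continuous_subtype_val) (fun x hx => hTO hx)
    (fun x hx hy => hOT x.1 hx x.2 (hy.trans (hTy _ (hγT 0))))
  have hb0 : f (γ' 0).1 = b := hTy _ (hγT 0)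
  rw [hb0] at t hΨ0
  have hb : b ∈ ball b ε := mem_ball_self t.pos
  have hdim : g + Module.finrank ℂ (Cn g) = 2 * g := by
    rw [finrank_euclideanSpace_fin]; omega
  obtain ⟨c, hc, hcℓ⟩ := lift_path t hdim hb hγ'c (fun s => hTy _ (hγT s)) hℓ (fun s => by
    obtain ⟨j, hj, v, hv, hw⟩ := hd s
    refine ⟨(γ' s, j), opA_source.2 hj, v, hv, fun w hvw => hw w ?_⟩
    rw [hvw]
    exact hm_sum h (p := γ' s) (x := γ' s) hj w) hΨ0
  have hmem : ∀ ζ, (sdisc Ψ b 0 c ζ).1 ∈ T := fun ζ => by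
    have h2 := t.mem ((0 : Fin g → ℂ) + ζ • (c - 0)) b hb
    exact hOT _ (hNO h2) (sdisc Ψ b 0 c ζ).2 (t.y_eq _ b hb)
  have hder : ∀ ζ, ∀ j, (sdisc Ψ b 0 c ζ).1 ∈ (A.e j).source →
      HasDerivAt (fun w => A.e j (sdisc Ψ b 0 c w).1)
      (∑ k, (c - 0) k • (VH (opS σ U) h.hol k).X (sdisc Ψ b 0 c ζ, j) (sdisc Ψ b 0 c ζ)) ζ :=
    fun ζ j hj => by
      have hj' : sdisc Ψ b 0 c ζ ∈ ((opA A U).e (sdisc Ψ b 0 c ζ, j)).source :=
        opA_source.2 hj
      exact sdisc_deriv t hb 0 c ζ (i := (sdisc Ψ b 0 c ζ, j)) hj'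
  refine ⟨fun ζ => (sdisc Ψ b 0 c ζ).1, ?_, ?_, ?_⟩
  · refine
      { mem := fun ζ _ => hmem ζ
        cont := (continuous_subtype_val.comp (sdisc_cont t hb 0 c)).continuousOn
        hol := fun ζ _ j hj => (hder ζ j hj).differentiableAt
        q := fun ζ _ j hj => ?_ }
    rw [(hder ζ j hj).deriv]
    have h3 := hm_sum h (p := sdisc Ψ b 0 c ζ) (x := sdisc Ψ b 0 c ζ) hj (c - 0)
    refine (h1 j (sdisc Ψ b 0 c ζ).1 hj (hmem ζ) (c - 0) _ h3).trans ?_
    gcongr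
  · change (sdisc Ψ b 0 c 0).1 = γ 0
    rw [sdisc_zero, hΨ0]
  · change (sdisc Ψ b 0 c 1).1 = γ 1
    rw [sdisc_one, hc]

end

end Crest.Agent.R281.Qd_956
end

-- ▼ part R281/Qd3_956
section

/-!
# R281 (S0424), QTUBE (helper956), discs, part 3: pointwise linear algebra, the lattice, and
**the clause (q2) of the quantified tube**.
-/

set_option autoImplicit false
set_option linter.unusedSectionVars false
set_option maxSynthPendingDepth 3

open Set Metric Filter Topology Complex Function TopologicalSpace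
open scoped NNReal ContDiff Matrix ComplexConjugate

namespace Crest.Agent.R281.Qd_956

open Crest.Agent.R275.Geo Crest.Agent.R275.Core144 Crest.Agent.R273.HFlow3_376
open Crest.Agent.R273.HFlow4_376
open Crest.Agent.R273.HFlow5_376 Crest.Agent.R273.HFlow6_376
open Crest.Agent.R281.Aa1_836 Crest.Agent.R281.Aa2_836 Crest.Agent.R281.Aa3_836
open Crest.Agent.R281.Aa4_836 Crest.Agent.R281.Aa5_836 Crest.Agent.R281.Aa6_836
open Crest.Agent.R281.Aa7_836 Crest.Agent.R281.Ab_729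
open Crest.Agent.R281.Defs_273 Crest.Agent.R281.HkP2_508
open Crest.Agent.R273.Defs_333 Crest.Agent.R273.Kah_333
open Crest.Agent.R281.SAsm_790 Crest.Agent.R281.Qt_922
open Crest.Agent.R281.Mc673 (V W Fo tube isOpen_tube kv)

noncomputable section

/-! ### linear algebra at a point -/

section Lin

variable {g N : ℕ}

theorem abs_sum_le (w : Fin g → ℂ) (z : Cn g) : ‖∑ k, w k * z k‖ ≤ g * (‖w‖ * ‖z‖) := by
  calc ‖∑ k, w k * z k‖ ≤ ∑ k, ‖w k * z k‖ := norm_sum_le _ _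
    _ ≤ ∑ _k : Fin g, ‖w‖ * ‖z‖ := by
        refine Finset.sum_le_sum fun k _ => ?_
        rw [norm_mul]
        exact mul_le_mul (norm_le_pi_norm w k) (PiLp.norm_apply_le z k) (norm_nonneg _)
          (norm_nonneg _)
    _ = g * (‖w‖ * ‖z‖) := by simp

variable {D : W N →L[ℝ] Cn (2 * g)} {B : Cn (2 * g) →L[ℂ] Cn (2 * g) →L[ℂ] ℂ}
  {df : Cn (2 * g) →L[ℂ] Cn g} {G' : W N →L[ℝ] Cn g} {s : ℂ}
  {x y : W N →L[ℝ] W N →L[ℝ] ℝ} {Λ C : ℝ}

/-- upper bound of `Σ w_k V_k` -/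
theorem lin_up (hG : ∀ u, G' u = df (D u)) (hs : s ≠ 0) (hΛ : 0 ≤ Λ) (hC : ‖G'‖ ≤ C)
    (hB : ∀ u w, B (D u) (D w) = s * (x u w + I * y u w))
    (hnd : ∀ u, ‖u‖ ≤ Λ * ‖x u‖ ∨ ‖u‖ ≤ Λ * ‖y u‖) {w : Fin g → ℂ} {u : W N}
    (hw : ∀ v', B (D u) v' = ∑ k, w k * (df v') k) : ‖u‖ ≤ Λ * (g * C * ‖w‖ / ‖s‖) := by
  have hs0 : 0 < ‖s‖ := norm_pos_iff.2 hs
  have hC0 : 0 ≤ C := (norm_nonneg _).trans hC
  have key : ∀ u', ‖((x u u' : ℝ) : ℂ) + I * ((y u u' : ℝ) : ℂ)‖ ≤ g * C * ‖w‖ / ‖s‖ * ‖u'‖ := by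
    intro u'
    have h1 := hw (D u')
    rw [hB, ← hG] at h1
    have h2 := congrArg norm h1
    rw [norm_mul] at h2
    have h3 := abs_sum_le w (G' u')
    have h4 : ‖G' u'‖ ≤ C * ‖u'‖ := (G'.le_opNorm u').trans (by gcongr)
    rw [div_mul_eq_mul_div, le_div_iff₀ hs0, mul_comm _ ‖s‖, h2]
    calc ‖∑ k, w k * (G' u') k‖ ≤ g * (‖w‖ * ‖G' u'‖) := h3
      _ ≤ g * (‖w‖ * (C * ‖u'‖)) := by gcongr
      _ = g * C * ‖w‖ * ‖u'‖ := by ring
  have hb : 0 ≤ g * C * ‖w‖ / ‖s‖ := by positivity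
  have hx : ‖x u‖ ≤ g * C * ‖w‖ / ‖s‖ := by
    refine ContinuousLinearMap.opNorm_le_bound _ hb fun u' => ?_
    refine le_trans ?_ (key u')
    have := Complex.abs_re_le_norm (((x u u' : ℝ) : ℂ) + I * ((y u u' : ℝ) : ℂ))
    simpa using this
  have hy : ‖y u‖ ≤ g * C * ‖w‖ / ‖s‖ := by
    refine ContinuousLinearMap.opNorm_le_bound _ hb fun u' => ?_
    refine le_trans ?_ (key u')
    have := Complex.abs_im_le_norm (((x u u' : ℝ) : ℂ) + I * ((y u u' : ℝ) : ℂ))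
    simpa using this
  rcases hnd u with h | h
  · exact h.trans (mul_le_mul_of_nonneg_left hx hΛ)
  · exact h.trans (mul_le_mul_of_nonneg_left hy hΛ)

end Lin

section Lin2

variable {g : ℕ} {D : W (2 * g) →L[ℝ] Cn (2 * g)} {B : Cn (2 * g) →L[ℂ] Cn (2 * g) →L[ℂ] ℂ}
  {df : Cn (2 * g) →L[ℂ] Cn g} {G' : W (2 * g) →L[ℝ] Cn g} {s : ℂ}
  {x y : W (2 * g) →L[ℝ] W (2 * g) →L[ℝ] ℝ} {Λ C : ℝ}

theorem exists_vert (hlow : ∀ w : V (2 * g), ‖w‖ ≤ C * ‖G' (0, w)‖) (z : Cn g) :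
    ∃ w : V (2 * g), G' (0, w) = z := by
  set L : V (2 * g) →ₗ[ℝ] Cn g :=
    (G'.comp (ContinuousLinearMap.inr ℝ (V (2 * g)) (V (2 * g)))).toLinearMap with hL
  have hLa : ∀ w, L w = G' (0, w) := fun w => rfl
  have hinj : Injective L := by
    rw [injective_iff_map_eq_zero]
    intro w hw
    have := hlow w
    rw [← hLa, hw, norm_zero, mul_zero] at this
    exact norm_le_zero_iff.1 this
  have hfr : Module.finrank ℝ (V (2 * g)) = Module.finrank ℝ (Cn g) := by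
    rw [finrank_euclideanSpace_fin, finrank_real_of_complex, finrank_euclideanSpace_fin]
  obtain ⟨w, hw⟩ := (LinearMap.injective_iff_surjective_of_finrank_eq_finrank hfr).1 hinj z
  exact ⟨w, hw⟩

/-- lower bound of `Σ w_k V_k` -/
theorem lin_low (hG : ∀ u, G' u = df (D u)) (hC : 0 ≤ C)
    (hlow : ∀ w : V (2 * g), ‖w‖ ≤ C * ‖G' (0, w)‖)
    (hB : ∀ u w, B (D u) (D w) = s * (x u w + I * y u w))
    (hbd : ‖x‖ ≤ Λ ∧ ‖y‖ ≤ Λ) {w : Fin g → ℂ} {u : W (2 * g)}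
    (hw : ∀ v', B (D u) v' = ∑ k, w k * (df v') k) : ‖w‖ ≤ ‖s‖ * (2 * Λ * C * ‖u‖) := by
  have hΛ : 0 ≤ Λ := (norm_nonneg _).trans hbd.1
  set z : Cn g := WithLp.toLp 2 (fun k => conj (w k)) with hz
  have hzk : ∀ k, z k = conj (w k) := fun k => rfl
  obtain ⟨w', hw'⟩ := exists_vert hlow z
  have h1 := hw (D (0, w'))
  rw [hB, ← hG, hw'] at h1
  have h2 : ∑ k, w k * z k = ((‖z‖ ^ 2 : ℝ) : ℂ) := by
    rw [EuclideanSpace.norm_sq_eq, Complex.ofReal_sum]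
    refine Finset.sum_congr rfl fun k _ => ?_
    rw [hzk, Complex.mul_conj, Complex.norm_conj, Complex.normSq_eq_norm_sq]
  rw [h2] at h1
  have hw'n : ‖w'‖ ≤ C * ‖z‖ := by rw [← hw']; exact hlow w'
  have hu' : ‖((0, w') : W (2 * g))‖ ≤ C * ‖z‖ := by
    rw [Prod.norm_def, norm_zero]
    exact max_le (by positivity) hw'n
  have hx : |x u (0, w')| ≤ Λ * ‖u‖ * (C * ‖z‖) := by
    refine (x.le_opNorm₂ u (0, w')).trans ?_
    gcongr
    exact hbd.1
  have hy : |y u (0, w')| ≤ Λ * ‖u‖ * (C * ‖z‖) := by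
    refine (y.le_opNorm₂ u (0, w')).trans ?_
    gcongr
    exact hbd.2
  have h3 : ‖z‖ ^ 2 ≤ ‖s‖ * (2 * Λ * C * ‖u‖) * ‖z‖ := by
    have h4 := congrArg norm h1
    rw [norm_mul, Complex.norm_real, Real.norm_of_nonneg (by positivity)] at h4
    rw [← h4]
    have h5 : ‖((x u (0, w') : ℝ) : ℂ) + I * ((y u (0, w') : ℝ) : ℂ)‖ ≤
        Λ * ‖u‖ * (C * ‖z‖) + Λ * ‖u‖ * (C * ‖z‖) := by
      refine (norm_add_le _ _).trans ?_
      rw [norm_mul, Complex.norm_I, one_mul, Complex.norm_real, Complex.norm_real]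
      exact add_le_add hx hy
    calc ‖s‖ * ‖((x u (0, w') : ℝ) : ℂ) + I * ((y u (0, w') : ℝ) : ℂ)‖
        ≤ ‖s‖ * (Λ * ‖u‖ * (C * ‖z‖) + Λ * ‖u‖ * (C * ‖z‖)) := by gcongr
      _ = ‖s‖ * (2 * Λ * C * ‖u‖) * ‖z‖ := by ring
  have hwz : ‖w‖ ≤ ‖z‖ := by
    rw [pi_norm_le_iff_of_nonneg (norm_nonneg _)]
    intro k
    have := PiLp.norm_apply_le z k
    rwa [hzk, Complex.norm_conj] at this
  rcases (norm_nonneg z).eq_or_lt with h0 | h0
  · refine hwz.trans ?_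
    rw [← h0]
    positivity
  · refine hwz.trans ?_
    rw [pow_two] at h3
    exact le_of_mul_le_mul_right h3 h0

end Lin2

/-! ### the lattice -/

theorem exists_near {N : ℕ} (θ θ' : V N) : ∃ k : Fin N → ℤ, ‖θ' + kv k - θ‖ ≤ √N := by
  refine ⟨fun i => -⌊θ' i - θ i⌋, ?_⟩
  rw [EuclideanSpace.norm_eq]
  refine Real.sqrt_le_sqrt ?_
  calc ∑ i, ‖(θ' + kv (fun i => -⌊θ' i - θ i⌋) - θ : V N) i‖ ^ 2 ≤ ∑ _i : Fin N, (1 : ℝ) := by
        refine Finset.sum_le_sum fun i _ => ?_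
        have h1 : (θ' + kv (fun i => -⌊θ' i - θ i⌋) - θ : V N) i =
            Int.fract (θ' i - θ i) := by
          change θ' i + ((-⌊θ' i - θ i⌋ : ℤ) : ℝ) - θ i = _
          rw [Int.fract]
          push_cast
          ring
        rw [h1, Real.norm_of_nonneg (Int.fract_nonneg _)]
        have h2 := Int.fract_nonneg (θ' i - θ i)
        have h3 := (Int.fract_lt_one (θ' i - θ i)).le
        nlinarith
    _ = N := by simp

end

end Crest.Agent.R281.Qd_956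
end

-- ▼ part R281/Qd4_956
section

/-!
# R281 (S0424), QTUBE (helper956), discs, part 4: **the clause (q2) of the quantified tube**
`q2_disc`: `Push` + `RTube` + `TFam` (helper922) + the holomorphic symplectic form of the atlas.
-/

set_option autoImplicit false
set_option linter.unusedSectionVars false
set_option maxSynthPendingDepth 3

open Set Metric Filter Topology Complex Function TopologicalSpace
open scoped NNReal ContDiff Matrix ComplexConjugate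

namespace Crest.Agent.R281.Qd_956

open Crest.Agent.R275.Geo Crest.Agent.R275.Core144 Crest.Agent.R273.HFlow3_376
open Crest.Agent.R273.HFlow4_376
open Crest.Agent.R273.HFlow5_376 Crest.Agent.R273.HFlow6_376
open Crest.Agent.R281.Aa1_836 Crest.Agent.R281.Aa2_836 Crest.Agent.R281.Aa3_836
open Crest.Agent.R281.Aa4_836 Crest.Agent.R281.Aa5_836 Crest.Agent.R281.Aa6_836
open Crest.Agent.R281.Aa7_836 Crest.Agent.R281.Ab_729
open Crest.Agent.R281.Defs_273 Crest.Agent.R281.HkP2_508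
open Crest.Agent.R273.Defs_333 Crest.Agent.R273.Kah_333
open Crest.Agent.R281.SAsm_790 Crest.Agent.R281.Qt_922
open Crest.Agent.R281.Mc673 (V W Fo tube isOpen_tube kv)

noncomputable section

section Lag

variable {g : ℕ} {X : Type} [TopologicalSpace X] {A : Atl (2 * g) X} {σ : HSymp A}
  {U : Opens X} {f : X → Cn g}

/-- a holomorphic submersion with Lagrangian fibres, defined on an open subset -/
theorem lagF_gen (hcl : Clo σ.toH2)
    (hol : ∀ i, DifferentiableOn ℂ (fun z => f ((A.e i).symm z))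
      ((A.e i).target ∩ (A.e i).symm ⁻¹' (U : Set X)))
    (sur : ∀ i, ∀ x ∈ (A.e i).source, x ∈ U →
      Surjective (fderiv ℂ (fun z => f ((A.e i).symm z)) (A.e i x)))
    (lag : ∀ i, ∀ x ∈ (A.e i).source, x ∈ U → ∀ u v,
      fderiv ℂ (fun z => f ((A.e i).symm z)) (A.e i x) u = 0 →
      fderiv ℂ (fun z => f ((A.e i).symm z)) (A.e i x) v = 0 → bf (σ.s i x) u v = 0) :
    LagF (opS σ U) (fun x : U => f x.1) where
  clo := opS_clo hcl
  hol p := by
    refine ((hol p.2).mono fun z hz => ?_).congr fun z hz => ?_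
    · have := opA_target.1 hz
      exact ⟨this.1, this.2⟩
    · change f (((opA A U).e p).symm z).1 = f ((A.e p.2).symm z)
      rw [opA_symm hz]
  sur p x hx := by
    have h1 : fderiv ℂ (fun z => (fun x : U => f x.1) (((opA A U).e p).symm z))
        ((opA A U).e p x) = fderiv ℂ (fun z => f ((A.e p.2).symm z)) (A.e p.2 x.1) :=
      fderiv_opA f hx
    rw [h1]
    exact sur p.2 x.1 (opA_source.1 hx) x.2
  lag p x hx u v hu hv := by
    have h1 : fderiv ℂ (fun z => (fun x : U => f x.1) (((opA A U).e p).symm z))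
        ((opA A U).e p x) = fderiv ℂ (fun z => f ((A.e p.2).symm z)) (A.e p.2 x.1) :=
      fderiv_opA f hx
    rw [h1] at hu hv
    exact lag p.2 x.1 (opA_source.1 hx) x.2 u v hu hv

end Lag

theorem disc_mono {N : ℕ} {M : Type} [TopologicalSpace M] {A : Atl N M} {K : Kah A} {κ κ' : ℝ}
    {T T' : Set M} {g : ℂ → M} (h : Disc A K κ T g) (hκ : κ ≤ κ') (hT : T ⊆ T') :
    Disc A K κ' T' g where
  mem ζ hζ := hT (h.mem ζ hζ)
  cont := h.cont
  hol := h.hol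
  q ζ hζ i hi := (h.q ζ hζ i hi).trans hκ

variable {g : ℕ} {X : Type} [TopologicalSpace X] {A : Atl (2 * g) X} {K : Kah A} {σ : HSymp A}
  {r R C Λ Λ1 ε : ℝ} {x y : Fo (2 * g)} {J : W (2 * g) → W (2 * g) →L[ℝ] W (2 * g)}
  {Θ : W (2 * g) → X} {a : V (2 * g) → V (2 * g) → V (2 * g)} {gg : V (2 * g) → Cn g}
  {G : W (2 * g) → Cn g} {s : ℂ} {U : Opens X} {f : X → Cn g}

/-- the region of the quantified tube -/
def Om (a : V (2 * g) → V (2 * g) → V (2 * g)) (G : W (2 * g) → Cn g) (R C : ℝ) :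
    Set (W (2 * g)) := {p | p ∈ reg a R ∧ ‖G p‖ < R / C}

theorem isOpen_Om (hR : RTube g C R J a gg G) : IsOpen (Om a G R C) := by
  have h1 : ContinuousOn G (reg a R) := fun p hp => by
    obtain ⟨G', h, -⟩ := hR.der p hp
    exact h.continuousAt.continuousWithinAt
  have h2 : ContinuousOn (fun p => ‖G p‖) (reg a R) := h1.norm
  have := h2.isOpen_inter_preimage hR.op (isOpen_Iio (a := R / C))
  exact this

/-- what the function on the manifold has to satisfy -/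
structure FOn (A : Atl (2 * g) X) (Θ : W (2 * g) → X) (Ω : Set (W (2 * g))) (G : W (2 * g) → Cn g)
    (U : Opens X) (f : X → Cn g) : Prop where
  eq : (U : Set X) = Θ '' Ω
  val : ∀ p ∈ Ω, f (Θ p) = G p
  hol : ∀ i, DifferentiableOn ℂ (fun z => f ((A.e i).symm z))
    ((A.e i).target ∩ (A.e i).symm ⁻¹' (U : Set X))
  sur : ∀ i, ∀ x ∈ (A.e i).source, x ∈ (U : Set X) →
    Surjective (fderiv ℂ (fun z => f ((A.e i).symm z)) (A.e i x))

/-- the chain rule -/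
theorem chain_G (hP : Push A K r Λ J Θ) (hR : RTube g C R J a gg G)
    (hreg : reg a R ⊆ tube (2 * g) r) (hF : FOn A Θ (Om a G R C) G U f) {p : W (2 * g)}
    (hp : p ∈ Om a G R C) {j : A.ι} (hj : Θ p ∈ (A.e j).source) {G' : W (2 * g) →L[ℝ] Cn g}
    (hG' : HasFDerivAt G G' p) (u : W (2 * g)) :
    G' u = fderiv ℂ (fun z => f ((A.e j).symm z)) (A.e j (Θ p))
      (fderiv ℝ (fun q => A.e j (Θ q)) p u) := by
  have hΘ : HasFDerivAt (fun q => A.e j (Θ q)) (fderiv ℝ (fun q => A.e j (Θ q)) p) p :=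
    ((hP.sm p (hreg hp.1) j hj).differentiableAt (by simp)).hasFDerivAt
  have hU : Θ p ∈ (U : Set X) := by rw [hF.eq]; exact ⟨p, hp, rfl⟩
  have hop : IsOpen ((A.e j).target ∩ (A.e j).symm ⁻¹' (U : Set X)) :=
    (A.e j).isOpen_inter_preimage_symm U.isOpen
  have hm : A.e j (Θ p) ∈ (A.e j).target ∩ (A.e j).symm ⁻¹' (U : Set X) := by
    refine ⟨(A.e j).map_source hj, ?_⟩
    rw [mem_preimage, (A.e j).left_inv hj]
    exact hU
  have hf : HasFDerivAt (fun z => f ((A.e j).symm z))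
      ((fderiv ℂ (fun z => f ((A.e j).symm z)) (A.e j (Θ p))).restrictScalars ℝ)
      (A.e j (Θ p)) :=
    ((hF.hol j).differentiableAt (hop.mem_nhds hm)).hasFDerivAt.restrictScalars ℝ
  have h1 := hf.comp p hΘ
  have hc : ContinuousAt Θ p :=
    hP.cont.continuousAt ((isOpen_tube r).mem_nhds (hreg hp.1))
  have h2 : ((fun z => f ((A.e j).symm z)) ∘ fun q => A.e j (Θ q)) =ᶠ[𝓝 p] G := by
    filter_upwards [hc ((A.e j).open_source.mem_nhds hj), (isOpen_Om hR).mem_nhds hp]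
      with q hq hq2
    simp only [comp_apply]
    rw [(A.e j).left_inv hq, hF.val q hq2]
  have h3 := (h1.congr_of_eventuallyEq h2.symm).unique hG'
  rw [← h3]
  rfl

/-- the tangent space of the leaf is the kernel -/
theorem ker_G (hR : RTube g C R J a gg G) (hT : TFam r R ε x y a)
    {c θ : V (2 * g)} (hc : ‖c‖ < R) {G' : W (2 * g) →L[ℝ] Cn g}
    (hG' : HasFDerivAt G G' (θ, a c θ)) (hlow : ∀ w : V (2 * g), ‖w‖ ≤ C * ‖G' (0, w)‖)
    {u : W (2 * g)} (hu : G' u = 0) : u = (u.1, fderiv ℝ (a c) θ u.1) := by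
  have ha : HasFDerivAt (a c) (fderiv ℝ (a c) θ) θ :=
    ((hT.leaf c hc).c1.differentiable one_ne_zero θ).hasFDerivAt
  have h1 : HasFDerivAt (fun θ => ((θ, a c θ) : W (2 * g)))
      ((ContinuousLinearMap.id ℝ (V (2 * g))).prod (fderiv ℝ (a c) θ)) θ :=
    (hasFDerivAt_id θ).prodMk ha
  have h2 : HasFDerivAt (fun θ => G (θ, a c θ)) (0 : V (2 * g) →L[ℝ] Cn g) θ := by
    have : (fun θ => G (θ, a c θ)) = fun _ => gg c := funext fun θ => hR.ga c hc θ
    rw [this]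
    exact hasFDerivAt_const _ _
  have h3 := (hG'.comp θ h1).unique h2
  have h4 : G' (u.1, fderiv ℝ (a c) θ u.1) = 0 :=
    congrArg (fun T : V (2 * g) →L[ℝ] Cn g => T u.1) h3
  have h5 : G' (0, u.2 - fderiv ℝ (a c) θ u.1) = 0 := by
    have : ((0, u.2 - fderiv ℝ (a c) θ u.1) : W (2 * g)) = u - (u.1, fderiv ℝ (a c) θ u.1) := by
      ext1 <;> simp
    rw [this, map_sub, hu, h4, sub_zero]
  have h6 := hlow (u.2 - fderiv ℝ (a c) θ u.1)
  rw [h5, norm_zero, mul_zero] at h6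
  have h7 := sub_eq_zero.1 (norm_le_zero_iff.1 h6)
  ext1
  · rfl
  · exact h7

/-- the fibres of `f` are Lagrangian -/
theorem lagF_tube (hcl : Clo σ.toH2) (hP : Push A K r Λ J Θ) (hR : RTube g C R J a gg G)
    (hT : TFam r R ε x y a) (hreg : reg a R ⊆ tube (2 * g) r)
    (hσ : ∀ p ∈ tube (2 * g) r, ∀ j, Θ p ∈ (A.e j).source → ∀ u w,
      bf (σ.s j (Θ p)) (fderiv ℝ (fun q => A.e j (Θ q)) p u)
        (fderiv ℝ (fun q => A.e j (Θ q)) p w) = s * (x p u w + I * y p u w))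
    (hF : FOn A Θ (Om a G R C) G U f) : LagF (opS σ U) (fun x : U => f x.1) := by
  refine lagF_gen hcl hF.hol hF.sur ?_
  intro i q hi hq u v hu hv
  have hq' : q ∈ (U : Set X) := hq
  rw [hF.eq] at hq'
  obtain ⟨p, hp, rfl⟩ := hq'
  obtain ⟨G', hG', -, hlow, -⟩ := hR.der p hp.1
  have hpt := hreg hp.1
  obtain ⟨u', rfl⟩ := (hP.bij p hpt i hi).2 u
  obtain ⟨v', rfl⟩ := (hP.bij p hpt i hi).2 v
  rw [← chain_G hP hR hreg hF hp hi hG'] at hu hv
  rw [hσ p hpt i hi]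
  obtain ⟨c, hc, hca⟩ := hp.1
  have hpe : p = (p.1, a c p.1) := by rw [hca]
  rw [hpe] at hG'
  have e1 := ker_G hR hT hc hG' hlow hu
  have e2 := ker_G hR hT hc hG' hlow hv
  have h1 : x p u' v' = 0 := by
    have := (hT.leaf c hc).ix p.1 u'.1 v'.1
    rwa [← e1, ← e2, ← hpe] at this
  have h2 : y p u' v' = 0 := by
    have := (hT.leaf c hc).iy p.1 u'.1 v'.1
    rwa [← e1, ← e2, ← hpe] at this
  rw [h1, h2]
  simp

/-- the constant of (q2) -/
def kap (g : ℕ) (Λ Λ1 C : ℝ) : ℝ :=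
  Λ * (Λ1 * (g * C)) ^ 2 * (2 * Λ1 * C * √((2 * g : ℕ) : ℝ) + 1) ^ 2

/-- **(q2)** -/
theorem q2_disc [T2Space X] (hcl : Clo σ.toH2) (hP : Push A K r Λ J Θ)
    (hR : RTube g C R J a gg G) (hT : TFam r R ε x y a) (hε : ε ≤ 1)
    (hreg : reg a R ⊆ tube (2 * g) r) (hΛ : 0 ≤ Λ) (hC : 0 ≤ C) (hs : s ≠ 0)
    (hσ : ∀ p ∈ tube (2 * g) r, ∀ j, Θ p ∈ (A.e j).source → ∀ u w,
      bf (σ.s j (Θ p)) (fderiv ℝ (fun q => A.e j (Θ q)) p u)
        (fderiv ℝ (fun q => A.e j (Θ q)) p w) = s * (x p u w + I * y p u w))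
    (hbd : ∀ p ∈ tube (2 * g) r, ‖x p‖ ≤ Λ1 ∧ ‖y p‖ ≤ Λ1)
    (hnd : ∀ p ∈ tube (2 * g) r, ∀ u, ‖u‖ ≤ Λ1 * ‖x p u‖ ∨ ‖u‖ ≤ Λ1 * ‖y p u‖)
    (hF : FOn A Θ (Om a G R C) G U f) {p q : W (2 * g)} (hp : p ∈ Om a G R C)
    (hq : q ∈ Om a G R C) (hpq : G p = G q) :
    ∃ γ : ℂ → X, Disc A K (kap g Λ Λ1 C) {z | ∃ p' ∈ Om a G R C, Θ p' = z ∧ G p' = G p} γ ∧
      γ 0 = Θ q ∧ γ 1 = Θ p := by
  have hlag := lagF_tube hcl hP hR hT hreg hσ hF
  have hs0 : 0 < ‖s‖ := norm_pos_iff.2 hs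
  obtain ⟨c, hc, hcq⟩ := hq.1
  obtain ⟨c', hc', hcp⟩ := hp.1
  have hqe : (q.1, a c q.1) = q := by rw [hcq]
  have hpe : (p.1, a c' p.1) = p := by rw [hcp]
  have hgq : G q = gg c := by rw [← hqe]; exact hR.ga c hc q.1
  have hgp : G p = gg c' := by rw [← hpe]; exact hR.ga c' hc' p.1
  have hcc : c' = c := hR.inj (by simpa using hc') (by simpa using hc)
    (by rw [← hgp, ← hgq, hpq])
  rw [hcc] at hcp hpe hgp
  have hleaf := hT.leaf c hc
  have hper := hleaf.per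
  -- the leaf
  have hmem : ∀ θ, ((θ, a c θ) : W (2 * g)) ∈ Om a G R C := fun θ => by
    refine ⟨⟨c, hc, rfl⟩, ?_⟩
    rw [hR.ga c hc θ, ← hgq]
    exact hq.2
  have htub : ∀ θ, ((θ, a c θ) : W (2 * g)) ∈ tube (2 * g) r := fun θ => hreg (hmem θ).1
  have hΛ1 : 0 ≤ Λ1 := (norm_nonneg _).trans (hbd q (hreg hq.1)).1
  have hgc : Continuous fun θ : V (2 * g) => ((θ, a c θ) : W (2 * g)) :=
    continuous_id.prodMk hleaf.c1.continuous
  set L : V (2 * g) → X := fun θ => Θ (θ, a c θ) with hL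
  have hLc : Continuous L := by
    refine continuous_iff_continuousAt.2 fun θ => ?_
    have h1 : ContinuousAt Θ (θ, a c θ) :=
      hP.cont.continuousAt ((isOpen_tube r).mem_nhds (htub θ))
    exact ContinuousAt.comp (g := Θ) (f := fun θ => ((θ, a c θ) : W (2 * g))) h1 hgc.continuousAt
  have hLper : ∀ θ (k : Fin (2 * g) → ℤ), L (θ + kv k) = L θ := fun θ k => by
    have h1 : a c (θ + kv k) = a c θ := hper k θ
    have h2 : ((θ + kv k, a c (θ + kv k)) : W (2 * g)) ∈ tube (2 * g) r := htub _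
    refine (hP.eq_iff _ h2 _ (htub θ)).2 ⟨k, ?_⟩
    rw [h1]
  set T : Set X := range L with hTd
  have hTc : IsCompact T := by
    have h1 : T = L '' closedBall 0 (√((2 * g : ℕ) : ℝ)) := by
      apply Subset.antisymm
      · rintro _ ⟨θ, rfl⟩
        obtain ⟨k, hk⟩ := exists_near 0 θ
        refine ⟨θ + kv k, ?_, hLper θ k⟩
        rw [mem_closedBall, dist_zero_right]
        simpa using hk
      · rintro _ ⟨θ, -, rfl⟩
        exact ⟨θ, rfl⟩
    rw [h1]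
    exact (isCompact_closedBall _ _).image hLc
  have hTp : IsPreconnected T := isPreconnected_range hLc
  have hTU : T ⊆ (U : Set X) := by
    rintro _ ⟨θ, rfl⟩
    rw [hF.eq]
    exact ⟨_, hmem θ, rfl⟩
  have hTy : ∀ z ∈ T, f z = gg c := by
    rintro _ ⟨θ, rfl⟩
    exact (hF.val _ (hmem θ)).trans (hR.ga c hc θ)
  have hOT : ∀ z ∈ (univ : Set X), z ∈ U → f z = gg c → z ∈ T := by
    intro z _ hz hfz
    have hz' : z ∈ (U : Set X) := hz
    rw [hF.eq] at hz'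
    obtain ⟨p', hp', rfl⟩ := hz'
    obtain ⟨c1, hc1, hca⟩ := hp'.1
    have hpe' : (p'.1, a c1 p'.1) = p' := by rw [hca]
    have h1 : G p' = gg c1 := by
      rw [← hpe']; exact hR.ga c1 hc1 p'.1
    have h2 : c1 = c := hR.inj (by simpa using hc1) (by simpa using hc)
      (by rw [← h1, ← hfz, hF.val p' hp'])
    rw [h2] at hpe'
    exact ⟨p'.1, by rw [hL]; simp only; rw [hpe']⟩
  -- the path
  obtain ⟨k, hk⟩ := exists_near q.1 p.1
  set d : V (2 * g) := p.1 + kv k - q.1 with hd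
  set γ : ℝ → X := fun t => L (q.1 + t • d) with hγ
  have hγc : Continuous γ := hLc.comp (by fun_prop)
  have hγT : ∀ t, γ t ∈ T := fun t => ⟨_, rfl⟩
  have hγ0 : γ 0 = Θ q := by
    simp only [hγ, hL, zero_smul, add_zero]
    rw [hqe]
  have hγ1 : γ 1 = Θ p := by
    have h1 : γ 1 = L (p.1 + kv k) := by
      simp only [hγ, one_smul, hd]
      congr 1
      abel
    rw [h1, hLper]
    simp only [hL]
    rw [hpe]
  -- speed
  have hdn : ‖d‖ ≤ √((2 * g : ℕ) : ℝ) := hk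
  have hspeed : ∀ t, ∃ j, γ t ∈ (A.e j).source ∧ ∃ v, HasDerivAt (fun t => A.e j (γ t)) v t ∧
      ∀ w, Hm σ f j (γ t) w v → ‖w‖ ≤ ‖s‖ * (2 * Λ1 * C * √((2 * g : ℕ) : ℝ)) := by
    intro t
    obtain ⟨j, hj⟩ := A.cover (γ t)
    set θ : V (2 * g) := q.1 + t • d with hθ
    set P : W (2 * g) := (θ, a c θ) with hPdef
    have hPt : P ∈ tube (2 * g) r := htub θ
    have hjP : Θ P ∈ (A.e j).source := hj
    have ha : HasFDerivAt (a c) (fderiv ℝ (a c) θ) θ :=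
      (hleaf.c1.differentiable one_ne_zero θ).hasFDerivAt
    have h1 : HasDerivAt (fun t : ℝ => q.1 + t • d) d t := by
      simpa using ((hasDerivAt_id t).smul_const d).const_add q.1
    have h2 : HasDerivAt (fun t : ℝ => ((q.1 + t • d, a c (q.1 + t • d)) : W (2 * g)))
        (d, fderiv ℝ (a c) θ d) t := h1.prodMk (ha.comp_hasDerivAt t h1)
    have hΘ : HasFDerivAt (fun q => A.e j (Θ q)) (fderiv ℝ (fun q => A.e j (Θ q)) P) P :=
      ((hP.sm P hPt j hjP).differentiableAt (by simp)).hasFDerivAt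
    refine ⟨j, hj, fderiv ℝ (fun q => A.e j (Θ q)) P (d, fderiv ℝ (a c) θ d),
      by have h5 := hΘ.comp_hasDerivAt t h2; exact h5, ?_⟩
    intro w hw
    obtain ⟨G', hG', hGn, hlow, -⟩ := hR.der P (hmem θ).1
    have h3 := lin_low (D := fderiv ℝ (fun q => A.e j (Θ q)) P) (B := bf (σ.s j (Θ P)))
      (df := fderiv ℂ (fun z => f ((A.e j).symm z)) (A.e j (Θ P))) (G' := G') (s := s)
      (x := x P) (y := y P) (Λ := Λ1) (C := C)
      (fun u => chain_G hP hR hreg hF (hmem θ) hjP hG' u) hC hlow (hσ P hPt j hjP)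
      (hbd P hPt) (w := w) (u := (d, fderiv ℝ (a c) θ d)) hw
    have hda : ‖fderiv ℝ (a c) θ‖ ≤ 1 := (hT.dnear c hc θ).trans hε
    have hu : ‖((d, fderiv ℝ (a c) θ d) : W (2 * g))‖ ≤ √((2 * g : ℕ) : ℝ) := by
      rw [Prod.norm_def]
      refine max_le hdn ?_
      calc ‖fderiv ℝ (a c) θ d‖ ≤ ‖fderiv ℝ (a c) θ‖ * ‖d‖ := ContinuousLinearMap.le_opNorm _ _
        _ ≤ 1 * ‖d‖ := by gcongr
        _ ≤ _ := by rw [one_mul]; exact hdn
    refine h3.trans ?_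
    gcongr
  -- the fields
  have hup : ∀ j, ∀ z ∈ (A.e j).source, z ∈ T → ∀ w v, Hm σ f j z w v →
      qf K j z v ≤ Λ * (Λ1 * (g * C) / ‖s‖) ^ 2 * ‖w‖ ^ 2 := by
    rintro j _ hj ⟨θ, rfl⟩ w v hw
    set P : W (2 * g) := (θ, a c θ) with hPdef
    have hPt : P ∈ tube (2 * g) r := htub θ
    have hjP : Θ P ∈ (A.e j).source := hj
    obtain ⟨u, rfl⟩ := (hP.bij P hPt j hjP).2 v
    obtain ⟨G', hG', hGn, hlow, -⟩ := hR.der P (hmem θ).1
    have h3 := lin_up (D := fderiv ℝ (fun q => A.e j (Θ q)) P) (B := bf (σ.s j (Θ P)))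
      (df := fderiv ℂ (fun z => f ((A.e j).symm z)) (A.e j (Θ P))) (G' := G') (s := s)
      (x := x P) (y := y P) (Λ := Λ1) (C := C)
      (fun u => chain_G hP hR hreg hF (hmem θ) hjP hG' u) hs hΛ1 hGn (hσ P hPt j hjP)
      (hnd P hPt) (w := w) (u := u) hw
    calc qf K j (Θ P) (fderiv ℝ (fun q => A.e j (Θ q)) P u) ≤ Λ * ‖u‖ ^ 2 := hP.up P hPt j hjP u
      _ ≤ Λ * (Λ1 * (g * C * ‖w‖ / ‖s‖)) ^ 2 := by gcongr
      _ = Λ * (Λ1 * (g * C) / ‖s‖) ^ 2 * ‖w‖ ^ 2 := by ring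
  obtain ⟨γ', hγ', h0, h1⟩ := disc_of_path hlag hTc hTp hTU hTy isOpen_univ (subset_univ _) hOT
    (K := K) (c1 := Λ * (Λ1 * (g * C) / ‖s‖) ^ 2)
    (ℓ := ‖s‖ * (2 * Λ1 * C * √((2 * g : ℕ) : ℝ)))
    (ℓ' := ‖s‖ * (2 * Λ1 * C * √((2 * g : ℕ) : ℝ) + 1)) (by positivity)
    (by rw [mul_add, mul_one]; linarith) hup hγc hγT hspeed
  refine ⟨γ', disc_mono hγ' (le_of_eq ?_) ?_, h0.trans hγ0, h1.trans hγ1⟩
  · rw [kap]
    field_simp
  · rintro _ ⟨θ, rfl⟩
    exact ⟨_, hmem θ, rfl, (hR.ga c hc θ).trans (hgq.symm.trans hpq.symm)⟩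

end

end Crest.Agent.R281.Qd_956
end

-- ▼ part R281/Qd5_956
section

/-!
# R281 (S0424), QTUBE (helper956), discs, part 5: **the literal hypothesis `hq2` of Qt10/Qt11_355**
(a disc inside one leaf, joining two given points), for a hyperkähler structure.
-/

set_option autoImplicit false
set_option linter.unusedSectionVars false
set_option maxSynthPendingDepth 3

open Set Metric Filter Topology Complex Function TopologicalSpace
open scoped NNReal ContDiff Matrix ComplexConjugate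

namespace Crest.Agent.R281.Qd_956

open Crest.Agent.R275.Geo Crest.Agent.R275.Core144
open Crest.Agent.R281.Aa6_836 Crest.Agent.R281.Ab_729
open Crest.Agent.R281.Defs_273 Crest.Agent.R281.HkP2_508
open Crest.Agent.R281.HkR_835 Crest.Agent.R260.ACM_580 Crest.Agent.R260.NNB_580
open Crest.Agent.R281.Per_368 (SmI pull)
open Crest.Agent.R273.Defs_333 Crest.Agent.R273.Kah_333
open Crest.Agent.R281.SAsm_790 Crest.Agent.R281.Qt_922
open Crest.Agent.R281.Mc673 (V W Fo tube isOpen_tube kv)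

noncomputable section

section Gen

variable {N n : ℕ} {X : Type} [TopologicalSpace X] {A : Atl N X} {K : Kah A} {σ : HSymp A}
  {r R C Λ Λ1 ε : ℝ} {x y : Fo N} {J : W N → W N →L[ℝ] W N}
  {Θ : W N → X} {a : V N → V N → V N} {gg : V N → Cn n} {G : W N → Cn n} {s : ℂ}

/-- the function downstairs -/
theorem fOn {n : ℕ} {A : Atl (2 * n) X} {K : Kah A} {x y : Fo (2 * n)}
    {J : W (2 * n) → W (2 * n) →L[ℝ] W (2 * n)} {Θ : W (2 * n) → X}
    {a : V (2 * n) → V (2 * n) → V (2 * n)} {gg : V (2 * n) → Cn n} {G : W (2 * n) → Cn n}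
    (hP : Push A K r Λ J Θ) (hR : RTube n C R J a gg G) (hT : TFam r R ε x y a) :
    ∃ (U : Opens X) (f : X → Cn n), FOn A Θ (Om a G R C) G U f := by
  have h0 : Qt10_355.PD0 A (Om a G R C) Θ G := Qt10_355.pd0 hP hR hT
  refine ⟨⟨Θ '' Om a G R C, h0.isOpen_image h0.op le_rfl⟩,
    Qt10_355.PD0.fD (Om a G R C) Θ G, rfl, fun p hp => h0.fD_eq hp, ?_, ?_⟩
  · rintro i z ⟨hz, p, hp, hpz⟩
    have hi : Θ p ∈ (A.e i).source := by
      rw [hpz]
      exact (A.e i).map_target hz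
    have h1 := (h0.fD_deriv hp hi).1
    rw [hpz, (A.e i).right_inv hz] at h1
    exact h1.differentiableWithinAt
  · rintro i _ hi ⟨p, hp, rfl⟩ z
    obtain ⟨G', hG', -, hw, -⟩ := hR.der p hp.1
    obtain ⟨u, hu⟩ := Qt10_355.surj_aux rfl hw z
    refine ⟨fderiv ℝ (fun q => A.e i (Θ q)) p u, ?_⟩
    rw [(h0.fD_deriv hp hi).2 u, hG'.fderiv, hu]

/-- **the hypothesis `hq2` of the push-down**, for any holomorphic symplectic form -/
theorem hq2_gen [T2Space X] (hN : N = 2 * n) (hcl : Clo σ.toH2) (hP : Push A K r Λ J Θ)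
    (hR : RTube n C R J a gg G) (hT : TFam r R ε x y a) (hε : ε ≤ 1) (hΛ : 0 ≤ Λ) (hC : 0 ≤ C)
    (hs : s ≠ 0)
    (hσ : ∀ p ∈ tube N r, ∀ j, Θ p ∈ (A.e j).source → ∀ u w,
      bf (σ.s j (Θ p)) (fderiv ℝ (fun q => A.e j (Θ q)) p u)
        (fderiv ℝ (fun q => A.e j (Θ q)) p w) = s * (x p u w + I * y p u w))
    (hbd : ∀ p ∈ tube N r, ‖x p‖ ≤ Λ1 ∧ ‖y p‖ ≤ Λ1)
    (hnd : ∀ p ∈ tube N r, ∀ u, ‖u‖ ≤ Λ1 * ‖x p u‖ ∨ ‖u‖ ≤ Λ1 * ‖y p u‖) :
    ∀ c, ‖c‖ < R → ‖gg c‖ < R / C → ∀ θ θ', ∃ δ : ℂ → X,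
      Disc A K (kap n Λ Λ1 C) (range fun t => Θ (t, a c t)) δ ∧ δ 0 = Θ (θ', a c θ') ∧
        δ 1 = Θ (θ, a c θ) := by
  subst hN
  intro c hc hgc θ θ'
  obtain ⟨U, f, hF⟩ := fOn hP hR hT
  have hreg := Qt10_355.reg_sub hT
  have hp : ∀ θ : V (2 * n), ((θ, a c θ) : W (2 * n)) ∈ Om a G R C := fun θ =>
    ⟨⟨c, hc, rfl⟩, by rw [hR.ga c hc θ]; exact hgc⟩
  obtain ⟨δ, h1, h2, h3⟩ := q2_disc hcl hP hR hT hε hreg hΛ hC hs hσ hbd hnd hF (hp θ) (hp θ')
    ((hR.ga c hc θ).trans (hR.ga c hc θ').symm)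
  refine ⟨δ, disc_mono h1 le_rfl ?_, h2, h3⟩
  rintro z ⟨p', hp', rfl, hG⟩
  rw [hR.ga c hc θ] at hG
  obtain ⟨⟨d, hd, hdp⟩, -⟩ := hp'
  have h4 : G p' = gg d := Qt10_355.G_reg hR hd hdp
  have h5 : d = c := hR.inj (by simpa using hd) (by simpa using hc) (by rw [← h4, hG])
  subst h5
  refine ⟨p'.1, ?_⟩
  show Θ (p'.1, a d p'.1) = Θ p'
  rw [hdp]

end Gen

section Hk

variable {V' X : Type} [NormedAddCommGroup V'] [NormedSpace ℝ V'] [TopologicalSpace X]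
  {C' : RCh V' X} {N n : ℕ} {A : Atl N X} {K : Kah A} {H : HkT C'} {k l m : Fin 3}
  (hc : (k, l, m) = (0, 1, 2) ∨ (k, l, m) = (1, 2, 0) ∨ (k, l, m) = (2, 0, 1))
  (hA : Cp (H.acm k) A) {r : ℝ} {Θ : W N → X}

/-- `σ = om l + i om m` on the tube -/
theorem shS_pull (hs : SmI (ofAtl A) (tube N r) Θ) {p : W N} (hp : p ∈ tube N r) {j : A.ι}
    (hj : Θ p ∈ (A.e j).source) (u w : W N) :
    bf ((shS hc hA).s j (Θ p)) (fderiv ℝ (fun q => A.e j (Θ q)) p u)
        (fderiv ℝ (fun q => A.e j (Θ q)) p w) =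
      1 * (pull (H.om l) Θ p u w + I * pull (H.om m) Θ p u w) := by
  have hcmp := cmp_of_cp hA
  change bf ((sh2 hc hA).s j (Θ p)) _ _ = _
  rw [sh2_bf hc hA hj, one_mul, pull_cmp hcmp hs (H.om l) (j := j) hp hj,
    pull_cmp hcmp hs (H.om m) (j := j) hp hj]
  rfl

/-- the pull back of a form read in the charts of `A` -/
theorem pull_F (hs : SmI (ofAtl A) (tube N r) Θ) (w : F2 C') {p : W N} (hp : p ∈ tube N r) :
    pull ((cmp_of_cp hA).F w) Θ p = pull w Θ p := by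
  obtain ⟨j, hj⟩ := A.cover (Θ p)
  refine ContinuousLinearMap.ext fun u => ContinuousLinearMap.ext fun v => ?_
  rw [pull_cmp (cmp_of_cp hA) hs w (j := j) hp hj, hs.pull_eq _ hp (i := j) hj]
  rfl

variable {R C Λ Λ1 ε : ℝ} {x y : Fo N} {J : W N → W N →L[ℝ] W N}
  {a : V N → V N → V N} {gg : V N → Cn n} {G : W N → Cn n}

include hc hA in
/-- **(q2), literal**: `hq2` of Qt10/Qt11_355 -/
theorem hq2 [T2Space X] (hN : N = 2 * n) (hP : Push A K r Λ J Θ)
    (hR : RTube n C R J a gg G) (hT : TFam r R ε x y a) (hε : ε ≤ 1) (hΛ : 0 ≤ Λ) (hC : 0 ≤ C)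
    (hx : ∀ p ∈ tube N r, x p = pull (H.om l) Θ p) (hy : ∀ p ∈ tube N r, y p = pull (H.om m) Θ p)
    (hbd : ∀ p ∈ tube N r, ‖x p‖ ≤ Λ1 ∧ ‖y p‖ ≤ Λ1)
    (hnd : ∀ p ∈ tube N r, ∀ u, ‖u‖ ≤ Λ1 * ‖x p u‖ ∨ ‖u‖ ≤ Λ1 * ‖y p u‖) :
    ∀ c, ‖c‖ < R → ‖gg c‖ < R / C → ∀ θ θ', ∃ δ : ℂ → X,
      Disc A K (kap n Λ Λ1 C) (range fun t => Θ (t, a c t)) δ ∧ δ 0 = Θ (θ', a c θ') ∧
        δ 1 = Θ (θ, a c θ) :=
  hq2_gen (σ := shS hc hA) hN (sh2_clo hc hA) hP hR hT hε hΛ hC (s := 1) one_ne_zero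
    (fun p hp j hj u w => by
      rw [shS_pull hc hA (Qt11_355.Push.smI hP) hp hj, hx p hp, hy p hp]) hbd hnd

end Hk

end

end Crest.Agent.R281.Qd_956
end

-- ▼ part R281/QtB1_355
section

/-!
# R281 (S0424), QTUBE (helper355): from `Mtub` (helper808, atlas of `J 0`) to the atlas of `J 1`

* `tubeD_swap`  : `TubeD C w w'` ==> `TubeD C w' w`
* `tubeD_congr` : `TubeD` depends only on the pull backs
* `hk_g`        : the metric of `h.hk H` in the charts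
* `qf_hk`       : the Hermitian form of a Kähler metric with form `L om_1`
* `adapter`     : `TubeD`, `Geo`, `Push` in an atlas of `J 1`
-/

set_option autoImplicit false
set_option maxSynthPendingDepth 3
set_option linter.unusedSectionVars false

open Set Metric Filter Topology
open scoped ContDiff

namespace Crest.Agent.R281.QtB_355

open Crest.Agent.R275.Geo Crest.Agent.R273.Defs_333 Crest.Agent.R273.Kah_333
open Crest.Agent.R260.ACM_580 Crest.Agent.R260.NNB_580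
open Crest.Agent.R281.SAsm_790 Crest.Agent.R281.Qt_922 Crest.Agent.R281.Qt10_355
open Crest.Agent.R281.HkR_835 Crest.Agent.R281.Nef_252
open Crest.Agent.R281.Per_368 (SmI pull)
open Crest.Agent.R281.Mc673 (V W Fo tube ClF isOpen_tube kv mn)
open Crest.Agent.R281.T5D_808 Crest.Agent.R281.T5F_808 Crest.Agent.R281.Cr_808
open Crest.Agent.R281.Sta2_684 (smulP)
open Crest.Agent.R238.Sch (ee)

noncomputable section

/-! ### `TubeD` -/

section tube

variable {V' X : Type} [NormedAddCommGroup V'] [NormedSpace ℝ V'] [TopologicalSpace X]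
  {C : RCh V' X} {w w' : F2 C} {N : ℕ} {R Λ δ : ℝ} {Θ : W N → X}

theorem tubeD_swap (h : TubeD C w w' N R Λ δ Θ) (hΛ : 0 < Λ) :
    TubeD C w' w N R (Λ + Λ ^ 3) δ Θ := by
  have hΛ3 : 0 < Λ ^ 3 := by positivity
  have key : ∀ p ∈ tube N R, ∃ I : W N → W N, (∀ u, I (I u) = -u) ∧
      (∀ u v, pull w' Θ p (I u) v = -pull w Θ p u v) ∧ ∀ u, ‖u‖ ≤ Λ ^ 3 * ‖pull w' Θ p u‖ := by
    intro p hp
    obtain ⟨I, h1, h2⟩ := h.cpx p hp
    have h3 : ∀ u, pull w Θ p (I u) = -pull w' Θ p u := fun u =>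
      ContinuousLinearMap.ext fun v => h2 u v
    have hinj : ∀ u v, pull w Θ p u = pull w Θ p v → u = v := by
      intro u v huv
      have h4 := h.nd p hp (u - v)
      rw [map_sub, huv, sub_self, norm_zero, mul_zero] at h4
      exact sub_eq_zero.1 (norm_le_zero_iff.1 h4)
    have hneg : ∀ u, I (-u) = -I u := by
      intro u
      apply hinj
      rw [map_neg, h3, h3, map_neg]
    refine ⟨fun u => -I u, fun u => ?_, fun u v => ?_, fun u => ?_⟩
    · show -I (-I u) = -u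
      rw [hneg, neg_neg, h1]
    · have h4 : pull w' Θ p (I u) = pull w Θ p u := by
        have h5 := h3 (I u)
        rw [h1, map_neg, neg_inj] at h5
        exact h5.symm
      show pull w' Θ p (-I u) v = _
      rw [map_neg, h4]
      rfl
    · have e1 : ‖I u‖ ≤ Λ * ‖pull w' Θ p u‖ := by
        have := h.nd p hp (I u)
        rwa [h3, norm_neg] at this
      have e2 : ‖u‖ ≤ Λ * ‖pull w' Θ p (I u)‖ := by
        have := h.nd p hp (I (I u))
        rwa [h3, norm_neg, h1, norm_neg] at this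
      have e3 : ‖pull w' Θ p (I u)‖ ≤ Λ * ‖I u‖ :=
        ((pull w' Θ p).le_opNorm _).trans (by gcongr; exact (h.bd p hp).2)
      calc ‖u‖ ≤ Λ * ‖pull w' Θ p (I u)‖ := e2
        _ ≤ Λ * (Λ * (Λ * ‖pull w' Θ p u‖)) := by
            gcongr
            exact e3.trans (by gcongr)
        _ = Λ ^ 3 * ‖pull w' Θ p u‖ := by ring
  exact
    { sm := h.sm
      bij := h.bij
      eq_iff := h.eq_iff
      cx := h.cy
      cy := h.cx
      bd := fun p hp => ⟨(h.bd p hp).2.trans (by linarith), (h.bd p hp).1.trans (by linarith)⟩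
      nd := fun p hp u => by
        obtain ⟨I, -, -, h3⟩ := key p hp
        refine (h3 u).trans ?_
        gcongr
        linarith
      dd := fun p hp => by
        obtain ⟨h1, h2, h3, h4⟩ := h.dd p hp
        exact ⟨h3, h4, h1, h2⟩
      cpx := fun p hp => by
        obtain ⟨I, h1, h2, -⟩ := key p hp
        exact ⟨I, h1, h2⟩
      per0 := fun j k => ⟨(h.per0 j k).2, (h.per0 j k).1⟩
      hh := fun p hp u v => ⟨(h.hh p hp u v).2, (h.hh p hp u v).1⟩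
      vv := fun p hp u v => ⟨(h.vv p hp u v).2, (h.vv p hp u v).1⟩ }

theorem ClF.congr {x x' : Fo N} (h : ClF R x) (he : ∀ p ∈ tube N R, x' p = x p) : ClF R x' := by
  have hev : ∀ p ∈ tube N R, x' =ᶠ[𝓝 p] x := fun p hp => by
    filter_upwards [(isOpen_tube R).mem_nhds hp] with q hq using he q hq
  refine ⟨h.sm.congr he, fun p hp u v => ?_, fun p hp u v z => ?_, fun k p hp => ?_⟩
  · rw [he p hp]
    exact h.alt p hp u v
  · rw [(hev p hp).fderiv_eq]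
    exact h.cl p hp u v z
  · have hp' : ((p.1 + kv k, p.2) : W N) ∈ tube N R := hp
    rw [he p hp, he _ hp']
    exact h.per k p hp

variable {V1 : Type} [NormedAddCommGroup V1] [NormedSpace ℝ V1] {C1 : RCh V1 X} {w1 w1' : F2 C1}

/-- `TubeD` depends only on the pull backs -/
theorem tubeD_congr (h : TubeD C w w' N R Λ δ Θ) (hR : 0 < R) (hs : SmI C1 (tube N R) Θ)
    (hb : ∀ p ∈ tube N R, ∀ i, Θ p ∈ (C1.e i).source →
      Function.Bijective (fderiv ℝ (fun q => C1.e i (Θ q)) p))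
    (h1 : ∀ p ∈ tube N R, pull w1 Θ p = pull w Θ p)
    (h2 : ∀ p ∈ tube N R, pull w1' Θ p = pull w' Θ p) : TubeD C1 w1 w1' N R Λ δ Θ := by
  have hev : ∀ {x x' : Fo N}, (∀ p ∈ tube N R, x' p = x p) → ∀ p ∈ tube N R, x' =ᶠ[𝓝 p] x :=
    fun he p hp => by
      filter_upwards [(isOpen_tube R).mem_nhds hp] with q hq using he q hq
  have hfd : ∀ {x x' : Fo N}, (∀ p ∈ tube N R, x' p = x p) → ∀ p ∈ tube N R,
      fderiv ℝ x' p = fderiv ℝ x p ∧ fderiv ℝ (fderiv ℝ x') p = fderiv ℝ (fderiv ℝ x) p :=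
    fun he p hp => ⟨(hev he p hp).fderiv_eq, ((hev he p hp).fderiv (𝕜 := ℝ)).fderiv_eq⟩
  have hz : ∀ θ : V N, ((θ, 0) : W N) ∈ tube N R := fun θ => by
    show ‖(0 : V N)‖ < R
    rw [norm_zero]
    exact hR
  exact
    { sm := hs
      bij := hb
      eq_iff := h.eq_iff
      cx := ClF.congr h.cx h1
      cy := ClF.congr h.cy h2
      bd := fun p hp => by
        rw [h1 p hp, h2 p hp]
        exact h.bd p hp
      nd := fun p hp u => by
        rw [h1 p hp]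
        exact h.nd p hp u
      dd := fun p hp => by
        rw [(hfd h1 p hp).1, (hfd h1 p hp).2, (hfd h2 p hp).1, (hfd h2 p hp).2]
        exact h.dd p hp
      cpx := fun p hp => by
        rw [h1 p hp, h2 p hp]
        exact h.cpx p hp
      per0 := fun j k => by
        have e1 : (fun θ => pull w1 Θ (θ, 0) (ee j, 0) (ee k, 0)) =
            fun θ => pull w Θ (θ, 0) (ee j, 0) (ee k, 0) := by
          funext θ
          rw [h1 _ (hz θ)]
        have e2 : (fun θ => pull w1' Θ (θ, 0) (ee j, 0) (ee k, 0)) =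
            fun θ => pull w' Θ (θ, 0) (ee j, 0) (ee k, 0) := by
          funext θ
          rw [h2 _ (hz θ)]
        rw [e1, e2]
        exact h.per0 j k
      hh := fun p hp u v => by
        rw [h1 p hp, h2 p hp]
        exact h.hh p hp u v
      vv := fun p hp u v => by
        rw [h1 p hp, h2 p hp]
        exact h.vv p hp u v }

end tube

/-! ### the metric in other charts -/

section metric

variable {V0 V' X : Type} [NormedAddCommGroup V0] [NormedSpace ℝ V0] [NormedAddCommGroup V']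
  [NormedSpace ℝ V'] [TopologicalSpace X] {C : RCh V0 X} {C' : RCh V' X}
  {E : Type} [NormedAddCommGroup E] [NormedSpace ℝ E] {S : Set E} {Φ : E → X}

/-- the metric of `h.hk H` -/
theorem hk_g (H : HkT C) (h : Cmp C C') {i : C.ι} {j : C'.ι} {z : V'} (hz : z ∈ mov C C' i j)
    (u v : V') : (h.hk H).g j z u v =
      H.g i (mt C C' i j z) (fderiv ℝ (mt C C' i j) z u) (fderiv ℝ (mt C C' i j) z v) := by
  rw [(h.hk H).g_eq 1 hz.1, Cmp.hk_om, h.F_w (H.om 1) hz, Cmp.hk_J H h 1 hz,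
    H.g_eq 1 (Cmp.mt_mem hz).1]

/-- the metric of `h.hk H` on the image of a smooth map -/
theorem hk_g_map (H : HkT C) (h : Cmp C C') (hs : SmI C' S Φ) {ζ : E} (hζ : ζ ∈ S) {i : C.ι}
    {j : C'.ι} (hi : Φ ζ ∈ (C.e i).source) (hj : Φ ζ ∈ (C'.e j).source) (u v : E) :
    (h.hk H).g j (C'.e j (Φ ζ)) (fderiv ℝ (fun y => C'.e j (Φ y)) ζ u)
        (fderiv ℝ (fun y => C'.e j (Φ y)) ζ v) =
      H.g i (C.e i (Φ ζ)) (fderiv ℝ (fun y => C.e i (Φ y)) ζ u)
        (fderiv ℝ (fun y => C.e i (Φ y)) ζ v) := by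
  have hm : C'.e j (Φ ζ) ∈ mov C C' i j := by
    refine ⟨(C'.e j).map_source hj, ?_⟩
    rw [(C'.e j).left_inv hj]
    exact hi
  rw [hk_g H h hm, ← Crest.Agent.R281.Ab_729.fderiv_cmp h hs hζ hi hj,
    ← Crest.Agent.R281.Ab_729.fderiv_cmp h hs hζ hi hj]
  change H.g i (C.e i ((C'.e j).symm (C'.e j (Φ ζ)))) _ _ = _
  rw [(C'.e j).left_inv hj]

/-- the derivative in other charts is still bijective -/
theorem bij_cmp (h : Cmp C C') (hs : SmI C' S Φ) {ζ : E} (hζ : ζ ∈ S) {i : C.ι} {j : C'.ι}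
    (hi : Φ ζ ∈ (C.e i).source) (hj : Φ ζ ∈ (C'.e j).source)
    (hb : Function.Bijective (fderiv ℝ (fun y => C'.e j (Φ y)) ζ)) :
    Function.Bijective (fderiv ℝ (fun y => C.e i (Φ y)) ζ) := by
  have hm : C'.e j (Φ ζ) ∈ mov C C' i j := by
    refine ⟨(C'.e j).map_source hj, ?_⟩
    rw [(C'.e j).left_inv hj]
    exact hi
  have h1 := Crest.Agent.R281.Ab_729.fderiv_cmp h hs hζ hi hj
  constructor
  · intro u v huv
    rw [h1, h1] at huv
    exact hb.1 (h.inj hm huv)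
  · intro v
    obtain ⟨u, hu⟩ := hb.2 (fderiv ℝ (mt C' C j i) (mt C C' i j (C'.e j (Φ ζ))) v)
    refine ⟨u, ?_⟩
    rw [h1, hu]
    exact h.d_d' hm v

end metric

/-! ### Kähler metrics -/

section kah

variable {N : ℕ} {X : Type} [TopologicalSpace X] {A : Atl N X}

theorem qf_hb (K : Kah A) (i : A.ι) (x : X) (v : Cn N) : qf K i x v = (hb (K.g i x) v v).re := by
  unfold qf hb
  congr 1
  simp only [dotProduct, Matrix.mulVec, Matrix.transpose_apply, Pi.star_apply, Finset.mul_sum]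
  rw [Finset.sum_comm]
  refine Finset.sum_congr rfl fun a _ => Finset.sum_congr rfl fun b _ => ?_
  rw [RCLike.star_def]
  ring

theorem qf_f2 (K : Kah A) {i : A.ι} {x : X} (hx : x ∈ (A.e i).source) (v : Cn N) :
    qf K i x v = (ofKah K).f2.w i (A.e i x) v (Complex.I • v) := by
  rw [f2_self (ofKah K) ((A.e i).map_source hx), (A.e i).left_inv hx, qf_hb]
  rfl

variable {V0 : Type} [NormedAddCommGroup V0] [NormedSpace ℝ V0] {C : RCh V0 X}

/-- the Hermitian form of a Kähler metric with form `L om_k` in an atlas of `J k` -/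
theorem qf_hk {H : HkT C} {k : Fin 3} (hA : Cp (H.acm k) A) (K : Kah A) {L : ℝ}
    (hK : ∀ (i : A.ι), ∀ z ∈ (A.e i).target, ∀ u v : Cn N,
      (ofKah K).f2.w i z u v = (L • (cmp_of_cp hA).F (H.om k)).w i z u v) {i : A.ι} {x : X}
    (hx : x ∈ (A.e i).source) (v : Cn N) :
    qf K i x v = L * ((cmp_of_cp hA).hk H).g i (A.e i x) v v := by
  have hz := (A.e i).map_source hx
  rw [qf_f2 K hx, hK i _ hz, ← hk_J_I hA i hz v]
  have h1 : (L • (cmp_of_cp hA).F (H.om k)).w i (A.e i x) v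
      (((cmp_of_cp hA).hk H).J k i (A.e i x) v) =
      L * (((cmp_of_cp hA).hk H).om k).w i (A.e i x) v
        (((cmp_of_cp hA).hk H).J k i (A.e i x) v) := rfl
  rw [h1, ((cmp_of_cp hA).hk H).om_eq k i _ hz, ((cmp_of_cp hA).hk H).g_J k hz]

end kah

end

end Crest.Agent.R281.QtB_355
end

-- ▼ part R281/QtB2_355
section

/-!
# R281 (S0424), QTUBE (helper355): the adapter

`adapter` : `Mtub` (helper808, atlas of `J 0`) ==> `TubeD`, `Geo` (helper57), `Push` (helper922) and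
the periods in an atlas `A1` of `J 1`, with the forms `L om_2`, `L om_0`, the metric with form `L om_1`
and the complex structure `IT A1 Θ`
-/

set_option autoImplicit false
set_option maxSynthPendingDepth 3
set_option linter.unusedSectionVars false

open Set Metric Filter Topology
open scoped ContDiff

namespace Crest.Agent.R281.QtB_355

open Crest.Agent.R275.Geo Crest.Agent.R273.Defs_333 Crest.Agent.R273.Kah_333
open Crest.Agent.R260.ACM_580 Crest.Agent.R260.NNB_580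
open Crest.Agent.R281.SAsm_790 Crest.Agent.R281.Qt_922 Crest.Agent.R281.Qt10_355
open Crest.Agent.R281.HkR_835 Crest.Agent.R281.Nef_252
open Crest.Agent.R281.Per_368
open Crest.Agent.R281.Mc673 (V W Fo tube ClF isOpen_tube kv mn)
open Crest.Agent.R281.T5D_808 Crest.Agent.R281.T5F_808 Crest.Agent.R281.Cr_808
open Crest.Agent.R281.Sta2_684 (smulP)
open Crest.Agent.R281.Tub_57 (Geo IT geo_of IT_spec)
open Crest.Agent.R238.Sch (ee)

noncomputable section

variable {N : ℕ} {X : Type} [TopologicalSpace X]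
  {C : RCh (Cn N) X} {H : HkT C} {S : Set (F2 C)} {R Λ δ : ℝ} {A A1 : Atl N X}
  {hp : Cp (H.acm 0) A} {L : ℝ} {hL : 0 < L} {Θ : W N → X}

/-- smoothness in the charts of `C` -/
theorem m_smC (h : Mtub H S R Λ δ A hp L hL Θ) : SmI C (tube N R) Θ :=
  Crest.Agent.R281.Ab_729.smI_cmp (cmp_of_cp hp) h.tub.sm

/-- smoothness in the charts of `A1` -/
theorem m_smA (h : Mtub H S R Λ δ A hp L hL Θ) {k : Fin 3} (hA1 : Cp (H.acm k) A1) :
    SmI (ofAtl A1) (tube N R) Θ :=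
  Crest.Agent.R281.Ab_729.smI_cmp (cmp_of_cp hA1).symm (m_smC h)

/-- the pull backs are the same -/
theorem m_pull_eq (h : Mtub H S R Λ δ A hp L hL Θ) {k : Fin 3} (hA1 : Cp (H.acm k) A1)
    (w : F2 C) {p : W N} (hpt : p ∈ tube N R) :
    pull ((cmp_of_cp hA1).F w) Θ p = pull ((cmp_of_cp hp).F w) Θ p := by
  rw [Crest.Agent.R281.Kd_22.pull_F (cmp_of_cp hA1) (m_smA h hA1) w hpt,
    Crest.Agent.R281.Kd_22.pull_F (cmp_of_cp hp) h.tub.sm w hpt]

theorem pull_smul {V' : Type} [NormedAddCommGroup V'] [NormedSpace ℝ V'] {C' : RCh V' X}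
    (t : ℝ) (w : F2 C') (Θ : W N → X) (p : W N) : pull (t • w) Θ p = t • pull w Θ p := rfl

theorem m_bijA (h : Mtub H S R Λ δ A hp L hL Θ) {k : Fin 3} (hA1 : Cp (H.acm k) A1) {p : W N}
    (hpt : p ∈ tube N R) (j : A1.ι) (hj : Θ p ∈ (A1.e j).source) :
    Function.Bijective (fderiv ℝ (fun q => A1.e j (Θ q)) p) := by
  obtain ⟨i, hi⟩ := C.cover (Θ p)
  obtain ⟨l, hl⟩ := A.cover (Θ p)
  have h1 := bij_cmp (cmp_of_cp hp) h.tub.sm hpt hi (j := l) hl (h.tub.bij p hpt l hl)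
  exact bij_cmp (C := ofAtl A1) (cmp_of_cp hA1).symm (m_smC h) hpt (i := j) hj hi h1

/-- **`TubeD` in the atlas of `J 1`** -/
theorem m_tubeD1 (h : Mtub H S R Λ δ A hp L hL Θ) (hA1 : Cp (H.acm 1) A1) (hR : 0 < R)
    (hΛ : 0 < Λ) : TubeD (ofAtl A1) (L • (cmp_of_cp hA1).F (H.om 2))
      (L • (cmp_of_cp hA1).F (H.om 0)) N R (Λ + Λ ^ 3) δ Θ := by
  refine tubeD_congr (tubeD_swap h.tub hΛ) hR (m_smA h hA1) (fun p hp j hj => m_bijA h hA1 hp j hj)
    (fun p hp => ?_) (fun p hp => ?_)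
  · rw [pull_smul, pull_smul, m_pull_eq h hA1 _ hp]
  · rw [pull_smul, pull_smul, m_pull_eq h hA1 _ hp]

theorem hJ_12 (hA1 : Cp (H.acm 1) A1) (L : ℝ) (i : A1.ι) (z : Cn N) (hz : z ∈ (A1.e i).target)
    (u v : Cn N) : (L • (cmp_of_cp hA1).F (H.om 2)).w i z (Complex.I • u) v =
      -(L • (cmp_of_cp hA1).F (H.om 0)).w i z u v := by
  have h1 := (((cmp_of_cp hA1).hk H).om_J (k := 1) (l := 2) (m := 0) (Or.inr (Or.inl rfl)) hz u v).1
  rw [hk_J_I hA1 i hz u] at h1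
  have e1 : (L • (cmp_of_cp hA1).F (H.om 2)).w i z (Complex.I • u) v =
      L * (((cmp_of_cp hA1).hk H).om 2).w i z (Complex.I • u) v := rfl
  have e2 : (L • (cmp_of_cp hA1).F (H.om 0)).w i z u v =
      L * (((cmp_of_cp hA1).hk H).om 0).w i z u v := rfl
  rw [e1, e2, h1]
  ring

/-- the metric in the coordinates `Θ` -/
theorem m_pinA (h : Mtub H S R Λ δ A hp L hL Θ) {k : Fin 3} (hA1 : Cp (H.acm k) A1) {p : W N}
    (hpt : p ∈ tube N R) (j : A1.ι) (hj : Θ p ∈ (A1.e j).source) (u : W N) :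
    ‖u‖ ^ 2 ≤ Λ * (L * ((cmp_of_cp hA1).hk H).g j (A1.e j (Θ p))
        (fderiv ℝ (fun q => A1.e j (Θ q)) p u) (fderiv ℝ (fun q => A1.e j (Θ q)) p u)) ∧
      L * ((cmp_of_cp hA1).hk H).g j (A1.e j (Θ p))
        (fderiv ℝ (fun q => A1.e j (Θ q)) p u) (fderiv ℝ (fun q => A1.e j (Θ q)) p u) ≤
        Λ * ‖u‖ ^ 2 := by
  obtain ⟨i, hi⟩ := C.cover (Θ p)
  obtain ⟨l, hl⟩ := A.cover (Θ p)
  have h1 := h.pin p hpt l hl u
  have e1 := hk_g_map H (cmp_of_cp hp) h.tub.sm hpt hi (j := l) hl u u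
  have e2 := hk_g_map H (cmp_of_cp hA1) (m_smA h hA1) hpt hi (j := j) hj u u
  have e3 : (smulP L hL ((cmp_of_cp hp).hk H)).g l ((ofAtl A).e l (Θ p))
      (fderiv ℝ (fun q => (ofAtl A).e l (Θ q)) p u)
      (fderiv ℝ (fun q => (ofAtl A).e l (Θ q)) p u) =
      L * ((cmp_of_cp hp).hk H).g l ((ofAtl A).e l (Θ p))
        (fderiv ℝ (fun q => (ofAtl A).e l (Θ q)) p u)
        (fderiv ℝ (fun q => (ofAtl A).e l (Θ q)) p u) := rfl
  rw [e3, e1, ← e2] at h1
  exact h1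

/-- **`Push` in the atlas of `J 1`** -/
theorem m_push (h : Mtub H S R Λ δ A hp L hL Θ) (hA1 : Cp (H.acm 1) A1) (hR : 0 < R)
    (hΛ : 0 < Λ) (K : Kah A1) (hK : ∀ (i : A1.ι), ∀ z ∈ (A1.e i).target, ∀ u v : Cn N,
      (ofKah K).f2.w i z u v = (L • (cmp_of_cp hA1).F (H.om 1)).w i z u v) :
    Push A1 K R Λ (IT A1 Θ) Θ := by
  have hT := m_tubeD1 h hA1 hR hΛ
  refine ⟨h.tub.sm.cont, fun p hp j hj => (m_smA h hA1).smAt hp (i := j) hj,
    fun p hp j hj => m_bijA h hA1 hp j hj, fun p hp j hj u => IT_spec hT hp hj u,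
    fun p hp j hj u => ?_, fun p hp j hj u => ?_, fun p hp q hq => h.tub.eq_iff p hp q hq⟩
  · rw [qf_hk hA1 K hK hj]
    exact (m_pinA h hA1 hp j hj u).1
  · rw [qf_hk hA1 K hK hj]
    exact (m_pinA h hA1 hp j hj u).2


/-- **the adapter** -/
theorem adapter (h : Mtub H S R Λ δ A hp L hL Θ) (hA1 : Cp (H.acm 1) A1) (hR : 0 < R)
    (hΛ : 0 < Λ) (K : Kah A1) (hK : ∀ (i : A1.ι), ∀ z ∈ (A1.e i).target, ∀ u v : Cn N,
      (ofKah K).f2.w i z u v = (L • (cmp_of_cp hA1).F (H.om 1)).w i z u v) :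
    TubeD (ofAtl A1) (L • (cmp_of_cp hA1).F (H.om 2)) (L • (cmp_of_cp hA1).F (H.om 0)) N R
      (Λ + Λ ^ 3) δ Θ ∧
    Geo R (pull (L • (cmp_of_cp hA1).F (H.om 2)) Θ) (pull (L • (cmp_of_cp hA1).F (H.om 0)) Θ)
      (IT A1 Θ) ∧ Push A1 K R Λ (IT A1 Θ) Θ :=
  ⟨m_tubeD1 h hA1 hR hΛ, geo_of (m_tubeD1 h hA1 hR hΛ) (hJ_12 hA1 L), m_push h hA1 hR hΛ K hK⟩

end

end Crest.Agent.R281.QtB_355
end

-- ▼ part R281/Qt9_922
section

/-!
# R281 (S0424), QTUBE (helper922), part 9: the holomorphic function on the real tube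
-/

set_option autoImplicit false
set_option maxSynthPendingDepth 3

open Set Metric Filter Topology MeasureTheory intervalIntegral
open scoped ContDiff

namespace Crest.Agent.R281.Qt_922

open Crest.Agent.R281.Mc673 (V W Fo tube ClF isOpen_tube kv)
open Crest.Agent.R281.Tub_57 (Out LF ctr Geo Leaf Inp OS kap)
open Crest.Agent.R275.Geo (Cn)
open Crest.Agent.R238.Sch (ee norm_ee)

noncomputable section

variable {N : ℕ} {r : ℝ} {x y : Fo N} {I : W N → W N →L[ℝ] W N}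

theorem clF_x (G : Geo r x y I) : ClF r x where
  sm := G.xs
  alt p hp u v := G.xa.swap hp u v
  cl p hp u v z := G.xc p hp u v z
  per k p hp := G.xp k p hp

theorem clF_y (G : Geo r x y I) : ClF r y where
  sm := G.ys
  alt p hp u v := G.ya.swap hp u v
  cl p hp u v z := G.yc p hp u v z
  per k p hp := G.yp k p hp

theorem gr_of_leaf {b : V N → V N} (h : Leaf r x y b) : Gr r b := ⟨h.c1, h.per, h.tub⟩

/-- the derivative of the complex flux at the leaf `b` -/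
def dPhi (x y : Fo N) (b : V N → V N) (M : V N → V N ≃L[ℝ] V N) : V N →L[ℝ] CE N :=
  mk2 (fun k => dfl x b (fun θ => (M θ : V N →L[ℝ] V N)) k)
    (fun k => dfl y b (fun θ => (M θ : V N →L[ℝ] V N)) k)

section

variable {S : Set (V N)} {A : V N → V N → V N} {K : ℝ} {kp : W N → V N}
  {M : V N → V N → V N ≃L[ℝ] V N} {J : V N → V N →L[ℝ] V N}
  {Flx Fly : Fin N → (V N → V N) → ℝ}

theorem phi_der (G : Geo r x y I) (F : LF r x y S A K) (O : Out r x y I S A kp M J)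
    (hFx : ∀ k, ∀ b0 b1 : V N → V N, Gr r b0 → Gr r b1 →
      Flx k b1 - Flx k b0 = ∫ s in (0:ℝ)..1, ∫ t in (0:ℝ)..1, st x b0 b1 k s t)
    (hFy : ∀ k, ∀ b0 b1 : V N → V N, Gr r b0 → Gr r b1 →
      Fly k b1 - Fly k b0 = ∫ s in (0:ℝ)..1, ∫ t in (0:ℝ)..1, st y b0 b1 k s t)
    {s : V N} (hs : s ∈ S) :
    HasFDerivAt (fun s => PhiC Flx Fly (A s)) (dPhi x y (A s) (M s)) s := by
  have hu : ∀ ε > 0, ∃ δ > 0, ∀ p ∈ S, ‖p - s‖ < δ → ∀ θ,
      ‖A p θ - A s θ - (M s θ : V N →L[ℝ] V N) (p - s)‖ ≤ ε * ‖p - s‖ := by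
    intro ε hε
    obtain ⟨δ, hδ, h⟩ := O.unif s hs ε hε
    exact ⟨δ, hδ, fun p hp h1 θ => h p hp s hs h1 (by simpa using hδ) θ⟩
  have hA : ∀ s ∈ S, Gr r (A s) := fun s hs => gr_of_leaf (F.leaf s hs)
  exact hasFDerivAt_mk2
    (fun k => flux_hasFDerivAt G.xs.continuousOn (hFx k) F.So hA F.K0 F.lip F.lip' hs
      (O.Mc s hs) hu)
    (fun k => flux_hasFDerivAt G.ys.continuousOn (hFy k) F.So hA F.K0 F.lip F.lip' hs
      (O.Mc s hs) hu)

theorem dPhi_J (G : Geo r x y I) (F : LF r x y S A K) (O : Out r x y I S A kp M J)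
    {s : V N} (hs : s ∈ S) (u : V N) :
    dPhi x y (A s) (M s) (J s u) = Complex.I • dPhi x y (A s) (M s) u := by
  have hA : Gr r (A s) := gr_of_leaf (F.leaf s hs)
  refine mk2_I (J := fun u => J s u) (fun k u => ?_) (fun k u => ?_) u
  · rw [dfl_apply G.xs.continuousOn hA (O.Mc s hs), dfl_apply G.ys.continuousOn hA (O.Mc s hs),
      ← intervalIntegral.integral_neg]
    refine intervalIntegral.integral_congr fun t _ => ?_
    show ctr x (A s) (fun θ => M s θ (J s u)) (t • ee k) (ee k) =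
      - ctr y (A s) (fun θ => M s θ u) (t • ee k) (ee k)
    rw [O.bJx s hs]; rfl
  · rw [dfl_apply G.xs.continuousOn hA (O.Mc s hs), dfl_apply G.ys.continuousOn hA (O.Mc s hs)]
    refine intervalIntegral.integral_congr fun t _ => ?_
    show ctr y (A s) (fun θ => M s θ (J s u)) (t • ee k) (ee k) =
      ctr x (A s) (fun θ => M s θ u) (t • ee k) (ee k)
    rw [O.bJy s hs]

theorem hasFDerivAt_As (O : Out r x y I S A kp M J) {s : V N} (hs : s ∈ S) (θ : V N) :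
    HasFDerivAt (fun s => A s θ) (M s θ : V N →L[ℝ] V N) s := by
  have h1 := (O.dA s hs θ).hasFDerivAt
  have h2 : HasFDerivAt (fun s : V N => ((θ, s) : W N))
      ((0 : V N →L[ℝ] V N).prod (ContinuousLinearMap.id ℝ (V N))) s :=
    (hasFDerivAt_const θ s).prodMk (hasFDerivAt_id s)
  have h3 := HasFDerivAt.comp (g := fun z : W N => A z.2 z.1) s h1 h2
  refine h3.congr_fderiv ?_
  ext u
  simp

end

/-- **the holomorphic function on the real tube** -/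
theorem real_tube {N n : ℕ} (hN : N = 2 * n) {Λ : ℝ} (hΛ : 1 ≤ Λ) : ∃ ε1 > 0, ∃ C > 0,
    ∀ (r R : ℝ) (x y : Fo N) (I : W N → W N →L[ℝ] W N) (a : V N → V N → V N), 0 < R →
    Geo r x y I → ‖x 0‖ ≤ Λ → ‖y 0‖ ≤ Λ → (∀ u, ‖u‖ ≤ Λ * ‖y 0 u‖) →
    (∀ u v : V N, |y 0 (u, 0) (v, 0)| ≤ ε1 * ‖u‖ * ‖v‖) →
    (∀ p ∈ tube N r, ‖p.1‖ ≤ 1 → ‖x p - x 0‖ ≤ ε1) →
    (∀ p ∈ tube N r, ‖p.1‖ ≤ 1 → ‖y p - y 0‖ ≤ ε1) →
    TFam r R ε1 x y a → ∃ (g : V N → Cn n) (G : W N → Cn n), RTube n C R I a g G := by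
  have hN0 : (0 : ℝ) ≤ N := Nat.cast_nonneg N
  have hΛ0 : 0 < Λ := by linarith
  set D : ℝ := 512 * (N + 1) * Λ ^ 2 with hD
  have hD0 : 0 < D := by positivity
  set ε : ℝ := 1 / D with hε
  have hε0 : 0 < ε := by positivity
  have hεD : ε * D = 1 := by rw [hε]; field_simp
  have hε1 : 512 * (ε * (N + 1) * Λ ^ 2) = 1 := by
    have h0 : 512 * (ε * (N + 1) * Λ ^ 2) = ε * D := by rw [hD]; ring
    rw [h0, hεD]
  have k1 : ε * Λ ≤ 1 / 512 := by
    have : ε * Λ ≤ ε * (N + 1) * Λ ^ 2 := by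
      have h1 : Λ ≤ (N + 1) * Λ ^ 2 := by nlinarith
      calc ε * Λ ≤ ε * ((N + 1) * Λ ^ 2) := by gcongr
        _ = _ := by ring
    linarith
  have k2 : ε ≤ 1 / 512 := by nlinarith
  have k3 : N * Λ ^ 2 * ε ≤ 1 / 512 := by
    have : N * Λ ^ 2 * ε ≤ ε * (N + 1) * Λ ^ 2 := by nlinarith [mul_pos hε0 (pow_pos hΛ0 2)]
    linarith
  refine ⟨ε, hε0, 16 * (N + 1) * Λ, by positivity, ?_⟩
  intro r R x y I a hR G hx0 hy0 hnd hhh hcx hcy T
  have hR0 : (0 : V N) ∈ ball (0 : V N) R := mem_ball_self hR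
  have hr0 : ‖(0 : V N)‖ < R := by simpa using hR
  obtain ⟨Flx, hFx⟩ := exists_flux (clF_x G)
  obtain ⟨Fly, hFy⟩ := exists_flux (clF_y G)
  have inp : Inp r x y (ball 0 R) a := by
    refine ⟨isOpen_ball, fun c hc => T.leaf c (by simpa using hc), ?_, ?_⟩
    · intro c hc c' hc' θ
      refine (T.lip c (by simpa using hc) c' (by simpa using hc') θ).trans ?_
      gcongr; linarith
    · intro c hc c' hc' θ
      refine (T.dlip c (by simpa using hc) c' (by simpa using hc') θ).trans ?_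
      nlinarith [norm_nonneg (c - c')]
  obtain ⟨cs, hcs, hcS, F, hOS⟩ := inp.toLF
  set S : Set (V N) := (fun c => a c 0) '' ball 0 R with hS
  set A : V N → V N → V N := fun s => a (cs s) with hA
  obtain ⟨M, J, O⟩ := F.out G
  have hsS : ∀ c ∈ ball (0 : V N) R, a c 0 ∈ S := fun c hc => ⟨c, hc, rfl⟩
  have hAa : ∀ c ∈ ball (0 : V N) R, A (a c 0) = a c := fun c hc => by rw [hA]; simp only [hcs c hc]
  have nb : ∀ c : V N, c ∈ ball (0 : V N) R ↔ ‖c‖ < R := fun c => by simp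
  -- comparison of the two parameters
  have par : ∀ s ∈ S, ∀ s' ∈ S, ‖(cs s - cs s') - (s - s')‖ ≤ ε * ‖cs s - cs s'‖ ∧
      ‖cs s - cs s'‖ ≤ 2 * ‖s - s'‖ := by
    intro s hs s' hs'
    have h1 := T.lip (cs s) ((nb _).1 (hcS s hs).1) (cs s') ((nb _).1 (hcS s' hs').1) 0
    rw [(hcS s hs).2, (hcS s' hs').2, norm_sub_rev] at h1
    refine ⟨h1, ?_⟩
    have h2 : ‖cs s - cs s'‖ ≤ ‖(cs s - cs s') - (s - s')‖ + ‖s - s'‖ := by
      calc ‖cs s - cs s'‖ = ‖((cs s - cs s') - (s - s')) + (s - s')‖ := by rw [sub_add_cancel]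
        _ ≤ _ := norm_add_le _ _
    nlinarith [norm_nonneg (cs s - cs s')]
  -- near-linearity in `c`
  set η0 : ℝ := N * (2 * ((2 + 2 * Λ) * ε)) with hη0
  have hη00 : 0 ≤ η0 := by positivity
  have near : ∀ c ∈ ball (0 : V N) R, ∀ c' ∈ ball (0 : V N) R,
      ‖PhiC Flx Fly (a c) - PhiC Flx Fly (a c') - P0 (x 0) (y 0) (c - c')‖ ≤ η0 * ‖c - c'‖ := by
    intro c hc c' hc'
    have h1 := phi_near G.xs.continuousOn G.ys.continuousOn hFx hFy hx0 hy0 hε0.le (by linarith)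
      hcx hcy (gr_of_leaf (T.leaf c' ((nb _).1 hc'))) (gr_of_leaf (T.leaf c ((nb _).1 hc)))
      (d := c - c') (T.lip c ((nb _).1 hc) c' ((nb _).1 hc')) (T.dnear c' ((nb _).1 hc'))
      (T.dnear c ((nb _).1 hc))
    calc _ ≤ _ := h1
      _ = η0 * ‖c - c'‖ := by rw [hη0]; ring
  -- the derivative is close to the model
  set η1 : ℝ := (η0 + N * (2 * Λ) * ε) * 2 with hη1
  have hη10 : 0 ≤ η1 := by positivity
  have dclose : ∀ s ∈ S, ∀ u, ‖dPhi x y (A s) (M s) u - P0 (x 0) (y 0) u‖ ≤ η1 * ‖u‖ := by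
    intro s hs u
    have h1 : HasFDerivAt (fun s => PhiC Flx Fly (A s) - P0 (x 0) (y 0) s)
        (dPhi x y (A s) (M s) - P0 (x 0) (y 0)) s :=
      (phi_der G F O hFx hFy hs).sub (P0 (x 0) (y 0)).hasFDerivAt
    have h2 : ‖dPhi x y (A s) (M s) - P0 (x 0) (y 0)‖ ≤ η1 := by
      refine h1.le_of_lip' hη10 ?_
      filter_upwards [F.So.mem_nhds hs] with s' hs'
      have h3 := near (cs s') (hcS s' hs').1 (cs s) (hcS s hs).1
      obtain ⟨h4, h5⟩ := par s' hs' s hs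
      have h6 := norm_P0_le hx0 hy0 ((cs s' - cs s) - (s' - s))
      have e1 : PhiC Flx Fly (A s') - P0 (x 0) (y 0) s' - (PhiC Flx Fly (A s) - P0 (x 0) (y 0) s) =
          (PhiC Flx Fly (a (cs s')) - PhiC Flx Fly (a (cs s)) -
            P0 (x 0) (y 0) (cs s' - cs s)) + P0 (x 0) (y 0) ((cs s' - cs s) - (s' - s)) := by
        simp only [hA, map_sub]; abel
      rw [e1]
      refine (norm_add_le _ _).trans ?_
      calc _ ≤ η0 * ‖cs s' - cs s‖ + N * (2 * Λ * (ε * ‖cs s' - cs s‖)) :=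
            add_le_add h3 (h6.trans (by gcongr))
        _ = (η0 + N * (2 * Λ) * ε) * ‖cs s' - cs s‖ := by ring
        _ ≤ (η0 + N * (2 * Λ) * ε) * (2 * ‖s' - s‖) := by gcongr
        _ = η1 * ‖s' - s‖ := by rw [hη1]; ring
    calc _ = ‖(dPhi x y (A s) (M s) - P0 (x 0) (y 0)) u‖ := rfl
      _ ≤ ‖dPhi x y (A s) (M s) - P0 (x 0) (y 0)‖ * ‖u‖ := ContinuousLinearMap.le_opNorm _ _
      _ ≤ η1 * ‖u‖ := by gcongr
  -- numerical bounds
  have hη1b : η1 * Λ ≤ 20 / 512 := by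
    have e1 : η1 * Λ = 2 * (N * (2 * ((2 + 2 * Λ) * ε)) * Λ + N * (2 * Λ) * ε * Λ) := by
      rw [hη1, hη0]; ring
    have e2 : N * (2 * ((2 + 2 * Λ) * ε)) * Λ ≤ 8 * (N * Λ ^ 2 * ε) := by
      have : (2 + 2 * Λ) ≤ 4 * Λ := by linarith
      calc N * (2 * ((2 + 2 * Λ) * ε)) * Λ ≤ N * (2 * ((4 * Λ) * ε)) * Λ := by gcongr
        _ = _ := by ring
    rw [e1]
    have e3 : N * (2 * Λ) * ε * Λ = 2 * (N * Λ ^ 2 * ε) := by ring
    rw [e3]
    linarith
  have hη0b : η0 * Λ ≤ 8 / 512 := by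
    have e2 : N * (2 * ((2 + 2 * Λ) * ε)) * Λ ≤ 8 * (N * Λ ^ 2 * ε) := by
      have : (2 + 2 * Λ) ≤ 4 * Λ := by linarith
      calc N * (2 * ((2 + 2 * Λ) * ε)) * Λ ≤ N * (2 * ((4 * Λ) * ε)) * Λ := by gcongr
        _ = _ := by ring
    rw [hη0]; linarith
  -- the selection
  set s0 : V N := a 0 0 with hs0
  have hs0S : s0 ∈ S := hsS 0 hR0
  set P : V N →L[ℝ] CE N := dPhi x y (A s0) (M s0) with hP
  have halt : ∀ u v, y 0 u v = - y 0 v u := by
    have h0 : (0 : W N) ∈ tube N r := by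
      show ‖(0 : V N)‖ < r
      have := (gr_of_leaf (T.leaf 0 hr0)).lt 0
      rw [norm_zero]; exact lt_of_le_of_lt (norm_nonneg _) this
    exact fun u v => (clF_y G).alt 0 h0 u v
  have P0l : ∀ c, ‖c‖ ≤ 2 * Λ * ‖P0 (x 0) (y 0) c‖ := fun c =>
    P0_low hΛ0.le halt hnd hhh hε0.le (by nlinarith) c
  have Pl : ∀ c, ‖c‖ ≤ 4 * Λ * ‖P c‖ := by
    intro c
    have h1 := P0l c
    have h2 := dclose s0 hs0S c
    have h3 : ‖P0 (x 0) (y 0) c‖ ≤ ‖P c‖ + η1 * ‖c‖ := by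
      calc ‖P0 (x 0) (y 0) c‖ = ‖P c - (P c - P0 (x 0) (y 0) c)‖ := by rw [sub_sub_cancel]
        _ ≤ ‖P c‖ + ‖P c - P0 (x 0) (y 0) c‖ := norm_sub_le _ _
        _ ≤ _ := by gcongr
    have h4 : 2 * Λ * ‖P0 (x 0) (y 0) c‖ ≤ 2 * Λ * ‖P c‖ + 2 * (η1 * Λ) * ‖c‖ := by
      calc _ ≤ 2 * Λ * (‖P c‖ + η1 * ‖c‖) := by gcongr
        _ = _ := by ring
    nlinarith [norm_nonneg c, norm_nonneg (P c)]
  obtain ⟨L, hL1, hL2, -, hL4⟩ := Qt4_877.sel hN (P := P) (J₀ := fun c => J s0 c)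
    (fun c => dPhi_J G F O hs0S c) (m := 4 * Λ) (by positivity) Pl
  have nearP : ∀ c ∈ ball (0 : V N) R, ∀ c' ∈ ball (0 : V N) R,
      ‖PhiC Flx Fly (a c) - PhiC Flx Fly (a c') - P (c - c')‖ ≤ (η0 + η1) * ‖c - c'‖ := by
    intro c hc c' hc'
    have h1 := near c hc c' hc'
    have h2 := dclose s0 hs0S (c - c')
    calc ‖PhiC Flx Fly (a c) - PhiC Flx Fly (a c') - P (c - c')‖ =
          ‖(PhiC Flx Fly (a c) - PhiC Flx Fly (a c') - P0 (x 0) (y 0) (c - c')) -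
            (P (c - c') - P0 (x 0) (y 0) (c - c'))‖ := by congr 1; abel
      _ ≤ _ := norm_sub_le _ _
      _ ≤ (η0 + η1) * ‖c - c'‖ := by rw [add_mul]; exact add_le_add h1 h2
  obtain ⟨hinj, hcont, -, honto, hcpt⟩ := hL4 (fun c => PhiC Flx Fly (a c)) (η0 + η1) R
    (by positivity) (by nlinarith) nearP
  have hCR : R / (16 * (N + 1) * Λ) ≤ R / (2 * (4 * Λ)) := by
    apply div_le_div_of_nonneg_left hR.le (by positivity)
    nlinarith [mul_nonneg hN0 hΛ0.le]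
  refine ⟨fun c => L (PhiC Flx Fly (a c)) - L (PhiC Flx Fly (a 0)),
    fun p => L (PhiC Flx Fly (A (kap S A p))) - L (PhiC Flx Fly (a 0)), ?_, ?_, ?_, ?_, ?_, ?_, ?_⟩
  · -- the region is open
    have e1 : reg a R = {p | ∃ s ∈ S, A s p.1 = p.2} := by
      have : OS S A = {p | ∃ c ∈ ball 0 R, a c p.1 = p.2} := hOS
      ext p
      constructor
      · rintro ⟨c, hc, h⟩
        exact ⟨a c 0, hsS c ((nb _).2 hc), by rw [hAa c ((nb _).2 hc)]; exact h⟩
      · rintro ⟨s, hs, h⟩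
        exact ⟨cs s, (nb _).1 (hcS s hs).1, h⟩
    rw [e1]
    exact O.Oo
  · intro c hc θ
    have h1 := O.kgr (a c 0) (hsS c ((nb _).2 hc)) θ
    rw [hAa c ((nb _).2 hc)] at h1
    show L (PhiC Flx Fly (A (kap S A (θ, a c θ)))) - _ = _
    rw [h1, hAa c ((nb _).2 hc)]
  · intro c hc c' hc' h
    exact hinj hc hc' (sub_left_injective h)
  · exact hcont.sub continuousOn_const
  · intro b hb
    have h1 : b + L (PhiC Flx Fly (a 0)) ∈ ball (L (PhiC Flx Fly (a 0))) (R / (2 * (4 * Λ))) := by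
      rw [mem_ball_iff_norm, add_sub_cancel_right]
      exact lt_of_lt_of_le (by simpa using hb) hCR
    obtain ⟨c, hc, h⟩ := honto h1
    refine ⟨c, hc, ?_⟩
    show L (PhiC Flx Fly (a c)) - _ = b
    have h' : L (PhiC Flx Fly (a c)) = b + L (PhiC Flx Fly (a 0)) := h
    rw [h', add_sub_cancel_right]
  · intro R' hR'
    exact hcpt R' (lt_of_lt_of_le hR' hCR)
  · rintro ⟨θ, v⟩ ⟨c, hc, h⟩
    simp only at h
    have hcb := (nb c).2 hc
    set s : V N := a c 0 with hs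
    have hsS' : s ∈ S := hsS c hcb
    have hAs : A s = a c := hAa c hcb
    obtain ⟨k', hk1, hk2, hk3⟩ := O.dk s hsS' θ
    have hpt : ((θ, v) : W N) = (θ, A s θ) := by rw [hAs, h]
    rw [hpt]
    have hks : kap S A (θ, A s θ) = s := O.kgr s hsS' θ
    set DP : V N →L[ℝ] CE N := dPhi x y (A s) (M s) with hDP
    have hd1 : HasFDerivAt (fun p => PhiC Flx Fly (A (kap S A p))) (DP.comp k') (θ, A s θ) := by
      have h1 := phi_der G F O hFx hFy hsS'
      have h2 : HasFDerivAt (fun s => PhiC Flx Fly (A s)) DP (kap S A (θ, A s θ)) := by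
        rw [hks]; exact h1
      exact HasFDerivAt.comp (g := fun s => PhiC Flx Fly (A s)) _ h2 hk1.hasFDerivAt
    have hd2 : HasFDerivAt (fun p => L (PhiC Flx Fly (A (kap S A p))) - L (PhiC Flx Fly (a 0)))
        ((L.restrictScalars ℝ).comp (DP.comp k')) (θ, A s θ) :=
      ((L.restrictScalars ℝ).hasFDerivAt.comp _ hd1).sub_const _
    -- bounds on `M`
    have hMb : ∀ u, ‖M s θ u - u‖ ≤ 1 / 2 * ‖u‖ := by
      intro u
      have h1 : HasFDerivAt (fun s => A s θ - s)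
          ((M s θ : V N →L[ℝ] V N) - ContinuousLinearMap.id ℝ (V N)) s :=
        (hasFDerivAt_As O hsS' θ).sub (hasFDerivAt_id s)
      have h2 : ‖(M s θ : V N →L[ℝ] V N) - ContinuousLinearMap.id ℝ (V N)‖ ≤ 1 / 2 := by
        refine h1.le_of_lip' (by norm_num) ?_
        filter_upwards [F.So.mem_nhds hsS'] with s' hs'
        have a1 := T.lip (cs s') ((nb _).1 (hcS s' hs').1) (cs s) ((nb _).1 (hcS s hsS').1) θ
        obtain ⟨a2, a3⟩ := par s' hs' s hsS'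
        have e1 : A s' θ - s' - (A s θ - s) =
            (a (cs s') θ - a (cs s) θ - (cs s' - cs s)) + ((cs s' - cs s) - (s' - s)) := by
          simp only [hA]; abel
        rw [e1]
        refine (norm_add_le _ _).trans ?_
        have a4 := norm_nonneg (s' - s)
        have a5 := norm_nonneg (cs s' - cs s)
        nlinarith
      calc _ = ‖((M s θ : V N →L[ℝ] V N) - ContinuousLinearMap.id ℝ (V N)) u‖ := rfl
        _ ≤ ‖(M s θ : V N →L[ℝ] V N) - ContinuousLinearMap.id ℝ (V N)‖ * ‖u‖ :=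
          ContinuousLinearMap.le_opNorm _ _
        _ ≤ _ := by gcongr
    have hMi : ∀ v, ‖(M s θ).symm v‖ ≤ 2 * ‖v‖ ∧ ‖v‖ ≤ 3 / 2 * ‖(M s θ).symm v‖ := by
      intro v
      have h1 := hMb ((M s θ).symm v)
      rw [ContinuousLinearEquiv.apply_symm_apply] at h1
      have h2 : ‖(M s θ).symm v‖ ≤ ‖v‖ + ‖v - (M s θ).symm v‖ := by
        calc _ = ‖v - (v - (M s θ).symm v)‖ := by rw [sub_sub_cancel]
          _ ≤ _ := norm_sub_le _ _
      have h3 : ‖v‖ ≤ ‖v - (M s θ).symm v‖ + ‖(M s θ).symm v‖ := by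
        calc _ = ‖(v - (M s θ).symm v) + (M s θ).symm v‖ := by rw [sub_add_cancel]
          _ ≤ _ := norm_add_le _ _
      constructor <;> linarith
    -- bounds on `DP`
    have hDu : ∀ u, ‖DP u‖ ≤ (2 * N * Λ + 1) * ‖u‖ := by
      intro u
      have h1 := dclose s hsS' u
      have h2 := norm_P0_le hx0 hy0 u
      have h3 : ‖DP u‖ ≤ ‖DP u - P0 (x 0) (y 0) u‖ + ‖P0 (x 0) (y 0) u‖ := by
        calc _ = ‖(DP u - P0 (x 0) (y 0) u) + P0 (x 0) (y 0) u‖ := by rw [sub_add_cancel]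
          _ ≤ _ := norm_add_le _ _
      have h4 : η1 ≤ 1 := by nlinarith
      nlinarith [norm_nonneg u]
    have hDl : ∀ u, ‖u‖ ≤ 8 * Λ * ‖L (DP u)‖ := by
      intro u
      have h1 := dclose s hsS' u
      have h2 := dclose s0 hs0S u
      have h3 := Pl u
      have h4 : ‖P u‖ ≤ ‖L (DP u)‖ + 2 * η1 * ‖u‖ := by
        calc ‖P u‖ = ‖L (P u)‖ := (hL2 u).symm
          _ = ‖L (DP u) - L (DP u - P u)‖ := by rw [← map_sub, sub_sub_cancel]
          _ ≤ ‖L (DP u)‖ + ‖L (DP u - P u)‖ := norm_sub_le _ _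
          _ ≤ ‖L (DP u)‖ + ‖DP u - P u‖ := by gcongr; exact hL1 _
          _ ≤ ‖L (DP u)‖ + (‖DP u - P0 (x 0) (y 0) u‖ + ‖P u - P0 (x 0) (y 0) u‖) := by
            gcongr
            calc ‖DP u - P u‖ = ‖(DP u - P0 (x 0) (y 0) u) - (P u - P0 (x 0) (y 0) u)‖ := by
                  congr 1; abel
              _ ≤ _ := norm_sub_le _ _
          _ ≤ ‖L (DP u)‖ + 2 * η1 * ‖u‖ := by linarith
      have h5 : 4 * Λ * ‖P u‖ ≤ 4 * Λ * ‖L (DP u)‖ + 8 * (η1 * Λ) * ‖u‖ := by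
        calc _ ≤ 4 * Λ * (‖L (DP u)‖ + 2 * η1 * ‖u‖) := by gcongr
          _ = _ := by ring
      nlinarith [norm_nonneg u, norm_nonneg (L (DP u))]
    refine ⟨(L.restrictScalars ℝ).comp (DP.comp k'), hd2, ?_, ?_, ?_⟩
    · refine ContinuousLinearMap.opNorm_le_bound _ (by positivity) fun w => ?_
      show ‖L (DP (k' w))‖ ≤ _
      have h1 : ‖k' w‖ ≤ 2 * (2 * ‖w‖) := by
        rw [hk2]
        refine (hMi _).1.trans ?_
        have h2 : ‖fderiv ℝ (A s) θ w.1‖ ≤ 1 * ‖w‖ := by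
          refine (ContinuousLinearMap.le_opNorm _ _).trans ?_
          have h3 : ‖fderiv ℝ (A s) θ‖ ≤ 1 := by
            rw [hAs]; exact (T.dnear c hc θ).trans (by linarith)
          gcongr
          exact norm_fst_le w
        have h4 := norm_sub_le w.2 (fderiv ℝ (A s) θ w.1)
        have h5 := norm_snd_le w
        linarith
      calc ‖L (DP (k' w))‖ ≤ ‖DP (k' w)‖ := hL1 _
        _ ≤ (2 * N * Λ + 1) * ‖k' w‖ := hDu _
        _ ≤ (2 * N * Λ + 1) * (2 * (2 * ‖w‖)) := by gcongr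
        _ ≤ 16 * (N + 1) * Λ * ‖w‖ := by
          have key : ∀ q : ℝ, 0 ≤ q → (2 * N * Λ + 1) * (2 * (2 * q)) ≤ 16 * (N + 1) * Λ * q := by
            intro q hq
            have e1 : 0 ≤ N * Λ * q := by positivity
            have e2 : q ≤ Λ * q := by nlinarith
            nlinarith
          exact key _ (norm_nonneg w)
    · intro w
      show ‖w‖ ≤ 16 * (N + 1) * Λ * ‖L (DP (k' (0, w)))‖
      have h1 : k' (0, w) = (M s θ).symm w := by rw [hk2]; simp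
      rw [h1]
      have h2 := (hMi w).2
      have h3 := hDl ((M s θ).symm w)
      have h4 := norm_nonneg (L (DP ((M s θ).symm w)))
      have h5 : 0 ≤ N * Λ * ‖L (DP ((M s θ).symm w))‖ := by positivity
      nlinarith
    · intro w
      show L (DP (k' (I (θ, A s θ) w))) = Complex.I • L (DP (k' w))
      rw [hk3, ← map_smul]
      congr 1
      exact dPhi_J G F O hsS' (k' w)

end

end Crest.Agent.R281.Qt_922
end

-- ▼ part R281/Qe_975
section

/-!
# Row 281, QTubP (A4) (helper975): one member, from 922's `real_data`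

* `RealData` : 922's Qt12 `real_data` as a Prop
* `mq_of : RealData → MQ`
-/

set_option autoImplicit false
set_option linter.unusedSectionVars false
set_option maxSynthPendingDepth 3

open Set Filter Topology Metric
open scoped ContDiff

namespace Crest.Agent.R281.Qb_975

open Crest.Agent.R275.Geo Crest.Agent.R275.Core144 Crest.Agent.R275.GC293
open Crest.Agent.R275.EDR890
open Crest.Agent.R273.Defs_333 Crest.Agent.R273.Kah_333
open Crest.Agent.R260.ACM_580 Crest.Agent.R260.NNB_580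
open Crest.Agent.R281.HkR_835 Crest.Agent.R281.Ti_846 Crest.Agent.R281.Cdr_234
open Crest.Agent.R281.Dif_268 Crest.Agent.R281.PL_713
open Crest.Agent.R281.NefO_476 Crest.Agent.R281.Nef_252
open Crest.Agent.R281.Alg_998 Crest.Agent.R281.RkD_902
open Crest.Agent.R281.KapD_975
open Crest.Agent.R281.Mc673 (V W Fo tube ClF kv)
open Crest.Agent.R281.T5D_808 (TubeD)
open Crest.Agent.R281.Cr_808 (Mtub road_tube)
open Crest.Agent.R281.Per_368 (SmI pull)
open Crest.Agent.R281.Tub_57 (Geo IT LagFib)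
open Crest.Agent.R281.Qt_922 (TFam RTube Push QTube reg Disc)
open Crest.Agent.R281.Sta2_684 (smulP)
open Crest.Agent.R281.Qd_956 (kap hq2 disc_mono pull_F)

/-- 922's `real_data` -/
def RealData : Prop :=
  ∀ (n : ℕ) (Λ : ℝ), 0 < Λ → ∃ C : ℝ, 0 < C ∧ ∀ R : ℝ, 0 < R → ∃ δ : ℝ, 0 < δ ∧
    ∀ (X : Type) [TopologicalSpace X] (A : Atl (2 * n) X) (w w' : F2 (ofAtl A))
      (Θ : W (2 * n) → X), TubeD (ofAtl A) w w' (2 * n) (2 * R) Λ δ Θ →
      Geo (2 * R) (pull w Θ) (pull w' Θ) (IT A Θ) →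
      ∃ (ε : ℝ) (a : V (2 * n) → V (2 * n) → V (2 * n)) (g : V (2 * n) → Cn n)
        (G : W (2 * n) → Cn n), 0 < ε ∧ ε ≤ 1 ∧
        TFam (2 * R) R ε (pull w Θ) (pull w' Θ) a ∧ RTube n C R (IT A Θ) a g G

/-- **the statement at one member** -/
theorem mq_of (hRD : RealData) : MQ := by
  intro n Λ hn hΛ
  have hΛ1 : 0 < Λ + Λ ^ 3 := by positivity
  obtain ⟨C₀, hC₀, hD⟩ := hRD n (Λ + Λ ^ 3) hΛ1
  refine ⟨max (C₀ ^ 2 * Λ) (kap n Λ (Λ + Λ ^ 3) C₀), lt_max_of_lt_left (by positivity),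
    fun ρ hρ => ?_⟩
  have hR : 0 < C₀ * ρ := mul_pos hC₀ hρ
  have hR2 : 0 < 2 * (C₀ * ρ) := by linarith
  obtain ⟨δ, hδ, hδ'⟩ := hD (C₀ * ρ) hR
  refine ⟨2 * (C₀ * ρ), hR2, δ, hδ, fun X _ _ _ C H Q e A hp L hL Θ hM A1 hA1 K hK => ?_⟩
  obtain ⟨tD, G, P⟩ := Crest.Agent.R281.QtB_355.adapter hM hA1 hR2 hΛ K hK
  obtain ⟨ε, a, g, G', hε0, hε1, hT, hRt⟩ := hδ' X A1 _ _ Θ tD G
  have hs : SmI (ofAtl A1) (tube (2 * n) (2 * (C₀ * ρ))) Θ := Crest.Agent.R281.Qt11_355.Push.smI P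
  have h2 : ∀ c, ‖c‖ < C₀ * ρ → ‖g c‖ < C₀ * ρ / C₀ → ∀ θ θ', ∃ γ : ℂ → X,
      Disc A1 K (kap n Λ (Λ + Λ ^ 3) C₀) (range fun t => Θ (t, a c t)) γ ∧ γ 0 = Θ (θ', a c θ') ∧
        γ 1 = Θ (θ, a c θ) := by
    refine hq2 (H := smulP L hL H) (k := 1) (l := 2) (m := 0) (Or.inr (Or.inl rfl)) (A := A1)
      hA1 rfl P hRt hT hε1 hΛ.le hC₀.le (fun p hp' => ?_) (fun p hp' => ?_) tD.bd
      (fun p hp' u => Or.inl (tD.nd p hp' u))
    · exact pull_F (H := smulP L hL H) (k := 1) hA1 hs ((smulP L hL H).om 2) hp'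
    · exact pull_F (H := smulP L hL H) (k := 1) hA1 hs ((smulP L hL H).om 0) hp'
  obtain ⟨q, -, hqU, -, hlag, -⟩ := Crest.Agent.R281.Qt11_355.exists_qtube_lag rfl P hRt hT hC₀ hR
    (le_max_left _ _) (w := L • (cmp_of_cp hA1).F (H.om 2)) (w' := L • (cmp_of_cp hA1).F (H.om 0))
    (fun p _ => rfl) (fun p _ => rfl) (κ := max (C₀ ^ 2 * Λ) (kap n Λ (Λ + Λ ^ 3) C₀))
    (fun c hc hg θ θ' => by
      obtain ⟨γ, h3, h4, h5⟩ := h2 c hc hg θ θ'
      exact ⟨γ, disc_mono h3 (le_max_right _ _) Subset.rfl, h4, h5⟩)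
  have hρ' : C₀ * ρ / C₀ = ρ := by field_simp
  revert q
  rw [hρ']
  intro q hqU hlag
  exact Crest.Agent.R281.Tq_836.tubeQ_of hR2 hM hA1 q hlag hqU

end Crest.Agent.R281.Qb_975
end

-- ▼ part R281/QtF_273
section

/-!
# R281, QTUBE (helper273): the tori of 673 / 40 / 156 as the family `TFam` of 922
-/

set_option autoImplicit false
set_option maxSynthPendingDepth 3

open Set Metric Filter Topology
open scoped ContDiff

namespace Crest.Agent.R281.QtF_273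

open Crest.Agent.R281.Mc673 (V W Fo tube ClF isOpen_tube kv Tori)
open Crest.Agent.R281.Qt_922

/-- **`Tori` ⟹ `TFam`** -/
theorem tfam_of_tori {N : ℕ} {r ρ ε : ℝ} {x y : Fo N} {a : V N → V N → V N}
    (h : Tori N r ρ ε x y a) : TFam r ρ ε x y a where
  leaf c hc :=
    { c1 := h.c1 c hc.le
      per := h.per c hc.le
      tub := fun θ => h.lt c hc.le θ
      ix := fun θ u v => h.x0 c hc.le θ u v
      iy := fun θ u v => h.y0 c hc.le θ u v }
  near c hc θ := h.near c hc.le θ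
  dnear c hc θ := h.dnear c hc.le θ
  lip c hc c' hc' θ := h.lip c c' hc.le hc'.le θ
  dlip c hc c' hc' θ := h.dlip c c' hc.le hc'.le θ

end Crest.Agent.R281.QtF_273
end

-- ▼ part R281/Rd_548
section

/-!
# Row 281, QTubP: `RealData` from 922's `real_tube` and 156's `toriR` (helper548, safety copy)
-/

set_option autoImplicit false
set_option linter.unusedSectionVars false
set_option maxSynthPendingDepth 3

open Set Filter Topology Metric
open scoped ContDiff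

namespace Crest.Agent.R281.Rd_548

open Crest.Agent.R275.Geo Crest.Agent.R275.Core144
open Crest.Agent.R281.HkR_835
open Crest.Agent.R281.Mc673 (V W Fo tube ClF kv Tori isOpen_tube)
open Crest.Agent.R281.T5D_808 (TubeD)
open Crest.Agent.R281.Per_368 (SmI pull)
open Crest.Agent.R281.Tub_57 (Geo IT LagFib)
open Crest.Agent.R281.Qt_922 (TFam RTube real_tube)
open Crest.Agent.R281.Bt_156 (Hyp toriR)

theorem tfam_mono {N : ℕ} {r R e e' : ℝ} {x y : Fo N} {a : V N → V N → V N} (h : e ≤ e')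
    (t : TFam r R e x y a) : TFam r R e' x y a where
  leaf := t.leaf
  near c hc θ := (t.near c hc θ).trans h
  dnear c hc θ := (t.dnear c hc θ).trans h
  lip c hc c' hc' θ := (t.lip c hc c' hc' θ).trans (by gcongr)
  dlip c hc c' hc' θ := (t.dlip c hc c' hc' θ).trans (by gcongr)

theorem hyp_mono {N : ℕ} {r Λ δ δ' : ℝ} {x y : Fo N} (h : δ ≤ δ') (t : Hyp r Λ δ x y) :
    Hyp r Λ δ' x y where
  cx := t.cx
  cy := t.cy
  bx := t.bx
  byy := t.byy
  nd := t.nd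
  dx p hp := (t.dx p hp).trans h
  ddx p hp := (t.ddx p hp).trans h
  dy p hp := (t.dy p hp).trans h
  ddy p hp := (t.ddy p hp).trans h
  I := t.I
  mx := t.mx
  my := t.my

theorem convex_tube {N : ℕ} (r : ℝ) : Convex ℝ (tube N r) := by
  intro p hp q hq s t hs ht hst
  have h1 : ‖p.2‖ < r := hp
  have h2 : ‖q.2‖ < r := hq
  show ‖s • p.2 + t • q.2‖ < r
  have : s • p.2 + t • q.2 ∈ ball (0 : V N) r :=
    (convex_ball (0 : V N) r) (mem_ball_zero_iff.2 h1) (mem_ball_zero_iff.2 h2) hs ht hst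
  exact mem_ball_zero_iff.1 this

theorem osc {N : ℕ} {r δ : ℝ} (hr : 0 < r) (hδ : 0 ≤ δ) {x : Fo N} (hx : ClF r x)
    (hd : ∀ p ∈ tube N r, ‖fderiv ℝ x p‖ ≤ δ) {p : W N} (hp : p ∈ tube N r) (h1 : ‖p.1‖ ≤ 1) :
    ‖x p - x 0‖ ≤ δ * (1 + r) := by
  have h0 : (0 : W N) ∈ tube N r := by
    show ‖(0 : W N).2‖ < r
    simpa using hr
  have h2 := (convex_tube (N := N) r).norm_image_sub_le_of_norm_fderiv_le (𝕜 := ℝ) (f := x)
    (fun q hq => hx.da hq) hd h0 hp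
  refine h2.trans ?_
  refine mul_le_mul_of_nonneg_left ?_ hδ
  rw [sub_zero, Prod.norm_def]
  have h3 : ‖p.2‖ < r := hp
  exact max_le (by linarith) (by linarith)

theorem real_data : Qb_975.RealData := by
  intro n Λ hΛ
  have hΛ1 : 1 ≤ 1 + Λ + Λ ^ 3 := by nlinarith [pow_pos hΛ 3]
  obtain ⟨ε1, hε1, C, hC, hreal⟩ := real_tube (N := 2 * n) (n := n) rfl hΛ1
  refine ⟨C, hC, fun R hR => ?_⟩
  have hR2 : 0 < 2 * R := by linarith
  obtain ⟨δ0, hδ0, hT⟩ := toriR (2 * n) Λ (min ε1 1) R hΛ (lt_min hε1 one_pos) hR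
  have hpos : 0 < ε1 / (1 + 2 * R) := div_pos hε1 (by linarith)
  refine ⟨min δ0 (min ε1 (ε1 / (1 + 2 * R))), lt_min hδ0 (lt_min hε1 hpos), ?_⟩
  intro X _ A w w' Θ t G
  set x := pull w Θ with hx
  set y := pull w' Θ with hy
  set δ := min δ0 (min ε1 (ε1 / (1 + 2 * R))) with hδdef
  have hδpos : 0 < δ := lt_min hδ0 (lt_min hε1 hpos)
  have hyp : Hyp (2 * R) Λ δ x y := Tp_836.hyp_tubeD t
  obtain ⟨a, ha⟩ := hT x y (hyp_mono (min_le_left _ _) hyp)
  have hfam : TFam (2 * R) R (min ε1 1) x y a := QtF_273.tfam_of_tori ha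
  have h0 : (0 : W (2 * n)) ∈ tube (2 * n) (2 * R) := by
    show ‖(0 : W (2 * n)).2‖ < 2 * R
    simpa using hR2
  have hΛle : Λ ≤ 1 + Λ + Λ ^ 3 := by nlinarith [pow_pos hΛ 3]
  have hnd : ∀ u, ‖u‖ ≤ (1 + Λ + Λ ^ 3) * ‖y 0 u‖ := by
    intro u
    obtain ⟨I, hI2, hI⟩ := t.cpx 0 h0
    have e1 : ‖x 0 (I u)‖ = ‖y 0 u‖ := by
      have : x 0 (I u) = -(y 0 u) := ContinuousLinearMap.ext fun v => hI u v
      rw [this, norm_neg]
    have e2 : ‖x 0 u‖ = ‖y 0 (I u)‖ := by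
      have : y 0 (I u) = x 0 u := by
        refine ContinuousLinearMap.ext fun v => ?_
        have h := hI (I u) v
        rw [hI2, map_neg] at h
        have h' : -(x 0 u v) = -(y 0 (I u) v) := h
        linarith
      rw [this]
    have n1 : ‖u‖ ≤ Λ * ‖x 0 u‖ := t.nd 0 h0 u
    have n2 : ‖y 0 (I u)‖ ≤ Λ * ‖I u‖ :=
      ((y 0).le_opNorm _).trans (mul_le_mul_of_nonneg_right (t.bd 0 h0).2 (norm_nonneg _))
    have n3 : ‖I u‖ ≤ Λ * ‖x 0 (I u)‖ := t.nd 0 h0 (I u)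
    have n4 : ‖u‖ ≤ Λ ^ 3 * ‖y 0 u‖ := by
      calc ‖u‖ ≤ Λ * ‖x 0 u‖ := n1
        _ = Λ * ‖y 0 (I u)‖ := by rw [e2]
        _ ≤ Λ * (Λ * ‖I u‖) := by gcongr
        _ ≤ Λ * (Λ * (Λ * ‖x 0 (I u)‖)) := by gcongr
        _ = Λ ^ 3 * ‖y 0 u‖ := by rw [e1]; ring
    refine n4.trans (mul_le_mul_of_nonneg_right ?_ (norm_nonneg _))
    linarith
  have hδ1 : δ ≤ ε1 := (min_le_right _ _).trans (min_le_left _ _)
  have hδ2 : δ * (1 + 2 * R) ≤ ε1 := by
    have : δ ≤ ε1 / (1 + 2 * R) := (min_le_right _ _).trans (min_le_right _ _)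
    rwa [le_div_iff₀ (by linarith)] at this
  obtain ⟨g, G', hg⟩ := hreal (2 * R) R x y (IT A Θ) a hR G
    ((t.bd 0 h0).1.trans hΛle) ((t.bd 0 h0).2.trans hΛle) hnd
    (fun u v => ((t.hh 0 h0 u v).2).trans (by gcongr))
    (fun p hp h1 => (osc hR2 hδpos.le t.cx (fun q hq => (t.dd q hq).1) hp h1).trans hδ2)
    (fun p hp h1 => (osc hR2 hδpos.le t.cy (fun q hq => (t.dd q hq).2.2.1) hp h1).trans hδ2)
    (tfam_mono (min_le_left _ _) hfam)
  exact ⟨min ε1 1, a, g, G', lt_min hε1 one_pos, min_le_right _ _, hfam, hg⟩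

end Crest.Agent.R281.Rd_548
end

-- ▼ part R281/Sk9_474

/-!
# R281 (S0424), SKEL281 (helper474): **`Main281`**
-/

set_option autoImplicit false
set_option linter.unusedSectionVars false

namespace Crest.Agent.R281.Sk_474

open Crest.Agent.R281.Defs_273 Crest.Agent.R281.RkD_902

/-- the node `KappaP` -/
theorem kappaM : KappaP AlgM TubM :=
  Kap_975.kappaP_of AlgM TubM (Qb_975.qtubP_of_mq (Qb_975.mq_of Rd_548.real_data))

/-- **the theorem of row 281 in the language of atlases** -/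
theorem main281 : Main281 := main281_of_kappa kappaM

end Crest.Agent.R281.Sk_474
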