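import Mathlib
import Crest.Agent.R281.Fr2_316
import Crest.Agent.R264.Berg1
import Crest.Agent.R281.Thn5_280
import Crest.Agent.R275.Geo_509
import Crest.Agent.R281.Tc3_941
import Crest.Agent.R281.D6f_986

-- ▼ part R281/Fr1_316
section

/-!
S6-FRAME part 1 (row 281): existence of slices.

`slice_null`: `Z` a subset of a finite dimensional complex normed space with a basis `b` indexed by
`Fin (N+1)`, of finite Hausdorff measure of dimension `finrank ℝ W` away from `0`.  For almost every pair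
`(r, p)`, `p : Fin (N+1) → W` (the images of the basis vectors), the linear map `p` has no zero on
`Z ∩ {‖z‖ = r}`.
-/

set_option autoImplicit false

open MeasureTheory Measure Set Metric Filter Topology
open scoped ENNReal NNReal BigOperators

namespace Crest.Agent.R281.Fr1_316

variable {W : Type*} [NormedAddCommGroup W] [NormedSpace ℂ W] [FiniteDimensional ℂ W]
  [MeasurableSpace W] [BorelSpace W]

/-- measure of the set of tuples `p` in a box whose combination with fixed coefficients is small. -/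
theorem box_le (μ : Measure W) [μ.IsAddHaarMeasure] {N : ℕ} (c : Fin (N + 1) → ℂ) (i₀ : Fin (N + 1))
    (hc : c i₀ ≠ 0) (R ε : ℝ) (hε : 0 ≤ ε) :
    (Measure.pi fun _ : Fin (N + 1) => μ)
        {p | (∀ j, ‖p j‖ ≤ R) ∧ ‖∑ j, c j • p j‖ ≤ ε} ≤
      ENNReal.ofReal ((ε / ‖c i₀‖) ^ (Module.finrank ℝ W)) * μ (ball 0 1) *
        (μ (closedBall 0 R)) ^ N := by
  haveI : FiniteDimensional ℝ W := FiniteDimensional.complexToReal W
  have hcpos : 0 < ‖c i₀‖ := norm_pos_iff.2 hc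
  set S' : Set (W × (Fin N → W)) :=
    {q | ‖q.1‖ ≤ R ∧ (∀ j, ‖q.2 j‖ ≤ R) ∧ ‖c i₀ • q.1 + ∑ j, c (i₀.succAbove j) • q.2 j‖ ≤ ε}
    with hS'
  have hS'c : IsClosed S' := by
    have h1 : IsClosed {q : W × (Fin N → W) | ‖q.1‖ ≤ R} :=
      isClosed_le (continuous_fst.norm) continuous_const
    have h2 : IsClosed {q : W × (Fin N → W) | ∀ j, ‖q.2 j‖ ≤ R} := by
      have : {q : W × (Fin N → W) | ∀ j, ‖q.2 j‖ ≤ R} = ⋂ j, {q | ‖q.2 j‖ ≤ R} := by
        ext q; simp
      rw [this]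
      exact isClosed_iInter fun j =>
        isClosed_le (((continuous_apply j).comp continuous_snd).norm) continuous_const
    have h3 : IsClosed {q : W × (Fin N → W) |
        ‖c i₀ • q.1 + ∑ j, c (i₀.succAbove j) • q.2 j‖ ≤ ε} := by
      refine isClosed_le (Continuous.norm ?_) continuous_const
      refine (continuous_fst.const_smul _).add ?_
      exact continuous_finset_sum _ fun j _ =>
        ((continuous_apply j).comp continuous_snd).const_smul _
    exact h1.inter (h2.inter h3)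
  have hpre : {p : Fin (N + 1) → W | (∀ j, ‖p j‖ ≤ R) ∧ ‖∑ j, c j • p j‖ ≤ ε} =
      (MeasurableEquiv.piFinSuccAbove (fun _ : Fin (N + 1) => W) i₀) ⁻¹' S' := by
    ext p
    simp only [mem_setOf_eq, hS', mem_preimage, MeasurableEquiv.piFinSuccAbove_apply]
    rw [Fin.sum_univ_succAbove _ i₀]
    constructor
    · rintro ⟨h1, h2⟩
      exact ⟨h1 _, fun j => h1 _, h2⟩
    · rintro ⟨h1, h2, h3⟩
      refine ⟨fun j => ?_, h3⟩
      rcases Fin.eq_self_or_eq_succAbove i₀ j with h | ⟨k, h⟩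
      · rw [h]; exact h1
      · rw [h]; exact h2 k
  rw [hpre, (measurePreserving_piFinSuccAbove (fun _ : Fin (N + 1) => μ) i₀).measure_preimage
    hS'c.measurableSet.nullMeasurableSet, Measure.prod_apply_symm hS'c.measurableSet]
  set Bx : Set (Fin N → W) := Set.pi univ fun _ => closedBall (0 : W) R with hBx
  have hball : ∀ (x : W) , μ (closedBall x (ε / ‖c i₀‖)) =
      ENNReal.ofReal ((ε / ‖c i₀‖) ^ (Module.finrank ℝ W)) * μ (ball 0 1) := fun x =>
    Measure.addHaar_closedBall μ x (div_nonneg hε hcpos.le)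
  calc ∫⁻ y, μ ((fun x => (x, y)) ⁻¹' S') ∂(Measure.pi fun _ : Fin N => μ)
      ≤ ∫⁻ y, Bx.indicator (fun _ => ENNReal.ofReal ((ε / ‖c i₀‖) ^ (Module.finrank ℝ W)) *
          μ (ball 0 1)) y ∂(Measure.pi fun _ : Fin N => μ) := by
        refine lintegral_mono fun y => ?_
        by_cases hy : y ∈ Bx
        · rw [indicator_of_mem hy]
          rw [← hball (-(c i₀)⁻¹ • ∑ j, c (i₀.succAbove j) • y j)]
          refine measure_mono ?_
          intro x hx
          simp only [hS', mem_preimage, mem_setOf_eq] at hx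
          rw [mem_closedBall, dist_eq_norm, le_div_iff₀ hcpos]
          have : c i₀ • (x - -(c i₀)⁻¹ • ∑ j, c (i₀.succAbove j) • y j) =
              c i₀ • x + ∑ j, c (i₀.succAbove j) • y j := by
            rw [smul_sub, neg_smul, smul_neg, sub_neg_eq_add, smul_smul, mul_inv_cancel₀ hc,
              one_smul]
          rw [mul_comm, ← norm_smul, this]
          exact hx.2.2
        · rw [indicator_of_notMem hy]
          have : (fun x => (x, y)) ⁻¹' S' = (∅ : Set W) := by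
            ext x
            simp only [mem_preimage, mem_empty_iff_false, iff_false]
            intro hx
            apply hy
            intro j _
            rw [mem_closedBall_zero_iff]
            exact hx.2.1 j
          rw [this]; simp
    _ = ENNReal.ofReal ((ε / ‖c i₀‖) ^ (Module.finrank ℝ W)) * μ (ball 0 1) *
        (Measure.pi fun _ : Fin N => μ) Bx := by
        rw [lintegral_indicator_const]
        exact MeasurableSet.univ_pi fun _ => isClosed_closedBall.measurableSet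
    _ = _ := by
        rw [hBx, Measure.pi_pi]
        simp

/-- the bad set of pairs `(r, p)`. -/
def Bad {V : Type*} [NormedAddCommGroup V] [NormedSpace ℂ V] {N : ℕ}
    (b : Module.Basis (Fin (N + 1)) ℂ V) (A : Set V) : Set (ℝ × (Fin (N + 1) → W)) :=
  {q | ∃ z ∈ A, ‖z‖ = q.1 ∧ ∑ i, b.repr z i • q.2 i = 0}

theorem slice_null {V : Type*} [NormedAddCommGroup V] [NormedSpace ℂ V] [FiniteDimensional ℂ V]
    [MeasurableSpace V] [BorelSpace V]
    {N : ℕ} (b : Module.Basis (Fin (N + 1)) ℂ V) (μ : Measure W) [μ.IsAddHaarMeasure]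
    (Z : Set V) (r₁ : ℝ) (hr₁ : 0 < r₁)
    (hZ : μH[(Module.finrank ℝ W : ℝ)] (Z ∩ {z | r₁ ≤ ‖z‖}) < ⊤) :
    ((volume : Measure ℝ).prod (Measure.pi fun _ : Fin (N + 1) => μ))
      (Bad (W := W) b (Z ∩ {z | r₁ ≤ ‖z‖})) = 0 := by
  haveI : FiniteDimensional ℝ W := FiniteDimensional.complexToReal W
  set A : Set V := Z ∩ {z | r₁ ≤ ‖z‖} with hA
  set d : ℕ := Module.finrank ℝ W with hd
  set ν : Measure (Fin (N + 1) → W) := Measure.pi fun _ : Fin (N + 1) => μ with hν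
  -- norm comparison
  obtain ⟨K, hK0, hK⟩ : ∃ K : ℝ, 0 < K ∧ ∀ z : V, ∑ i, ‖b.repr z i‖ ≤ K * ‖z‖ := by
    have hcont : Continuous fun z : V => ∑ i, ‖b.repr z i‖ := by
      refine continuous_finset_sum _ fun i _ => Continuous.norm ?_
      exact (LinearMap.continuous_of_finiteDimensional (b.coord i))
    let L : V →L[ℂ] (Fin (N + 1) → ℂ) :=
      LinearMap.toContinuousLinearMap (b.equivFun : V →ₗ[ℂ] (Fin (N + 1) → ℂ))
    refine ⟨(N + 1) * ‖L‖ + 1, by positivity, fun z => ?_⟩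
    have h1 : ∀ i, ‖b.repr z i‖ ≤ ‖L‖ * ‖z‖ := fun i => by
      have h2 : ‖L z i‖ ≤ ‖L z‖ := norm_le_pi_norm (L z) i
      have h3 : L z i = b.repr z i := rfl
      rw [← h3]
      exact h2.trans (L.le_opNorm z)
    calc ∑ i, ‖b.repr z i‖ ≤ ∑ _i : Fin (N + 1), ‖L‖ * ‖z‖ := Finset.sum_le_sum fun i _ => h1 i
      _ = (N + 1) * (‖L‖ * ‖z‖) := by simp
      _ ≤ ((N + 1) * ‖L‖ + 1) * ‖z‖ := by nlinarith [norm_nonneg z]
  -- lower bound of the largest coefficient
  obtain ⟨k, hk0, hk⟩ : ∃ k : ℝ, 0 < k ∧ ∀ z : V, ∃ i, k * ‖z‖ ≤ ‖b.repr z i‖ := by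
    let L : (Fin (N + 1) → ℂ) →L[ℂ] V :=
      LinearMap.toContinuousLinearMap (b.equivFun.symm : (Fin (N + 1) → ℂ) →ₗ[ℂ] V)
    refine ⟨(‖L‖ + 1)⁻¹, by positivity, fun z => ?_⟩
    obtain ⟨i, -, hi⟩ := Finset.exists_max_image (Finset.univ : Finset (Fin (N + 1)))
      (fun i => ‖b.repr z i‖) Finset.univ_nonempty
    refine ⟨i, ?_⟩
    rw [inv_mul_le_iff₀ (by positivity)]
    have h1 : z = L (fun j => b.repr z j) := by
      have : L (fun j => b.repr z j) = b.equivFun.symm (b.equivFun z) := rfl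
      rw [this, LinearEquiv.symm_apply_apply]
    have h2 : ‖(fun j => b.repr z j : Fin (N + 1) → ℂ)‖ ≤ ‖b.repr z i‖ :=
      (pi_norm_le_iff_of_nonneg (norm_nonneg _)).2 fun j => hi j (Finset.mem_univ j)
    calc ‖z‖ = ‖L (fun j => b.repr z j)‖ := by rw [← h1]
      _ ≤ ‖L‖ * ‖(fun j => b.repr z j : Fin (N + 1) → ℂ)‖ := L.le_opNorm _
      _ ≤ ‖L‖ * ‖b.repr z i‖ := by gcongr
      _ ≤ (‖L‖ + 1) * ‖b.repr z i‖ := by nlinarith [norm_nonneg (b.repr z i)]
  -- it is enough to bound each bounded part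
  suffices hR : ∀ R : ℕ, ((volume : Measure ℝ).prod ν)
      (Bad (W := W) b A ∩ {q | ∀ j, ‖q.2 j‖ ≤ R}) = 0 by
    have hun : Bad (W := W) b A ⊆ ⋃ R : ℕ, (Bad (W := W) b A ∩ {q | ∀ j, ‖q.2 j‖ ≤ R}) := by
      intro q hq
      obtain ⟨R, hR'⟩ := exists_nat_ge ‖q.2‖
      exact mem_iUnion.2 ⟨R, hq, fun j => (norm_le_pi_norm q.2 j).trans hR'⟩
    exact measure_mono_null hun (measure_iUnion_null hR)
  intro R
  -- constants
  set H : ℝ≥0∞ := μH[(d : ℝ)] A with hH
  set C : ℝ≥0∞ := ENNReal.ofReal 2 * (ENNReal.ofReal ((K * R / (k * r₁)) ^ d) * μ (ball 0 1) *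
    (μ (closedBall 0 R)) ^ N) with hC
  have hCtop : C ≠ ⊤ := by
    rw [hC]
    refine ENNReal.mul_ne_top ENNReal.ofReal_ne_top ?_
    refine ENNReal.mul_ne_top (ENNReal.mul_ne_top ENNReal.ofReal_ne_top ?_) ?_
    · exact measure_ball_lt_top.ne
    · exact ENNReal.pow_ne_top (measure_closedBall_lt_top).ne
  -- one piece
  have piece : ∀ t : Set V, (hdt : ediam t ≠ ⊤) →
      ((volume : Measure ℝ).prod ν)
        ({q : ℝ × (Fin (N + 1) → W) | ∃ z ∈ A ∩ t, ‖z‖ = q.1 ∧ ∑ i, b.repr z i • q.2 i = 0} ∩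
          {q | ∀ j, ‖q.2 j‖ ≤ R}) ≤ C * (⨆ _ : t.Nonempty, ediam t ^ (d : ℝ)) * ediam t := by
    intro t hdt
    by_cases hne : (A ∩ t).Nonempty
    · obtain ⟨z₀, hz₀A, hz₀t⟩ := hne
      have htne : t.Nonempty := ⟨z₀, hz₀t⟩
      set δ : ℝ := diam t with hδ
      have hδ0 : 0 ≤ δ := diam_nonneg
      have hdiam : ediam t = ENNReal.ofReal δ := by
        rw [hδ, diam, ENNReal.ofReal_toReal hdt]
      have hz₀r : r₁ ≤ ‖z₀‖ := hz₀A.2
      obtain ⟨i₀, hi₀⟩ := hk z₀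
      have hci : 0 < ‖b.repr z₀ i₀‖ :=
        lt_of_lt_of_le (mul_pos hk0 (lt_of_lt_of_le hr₁ hz₀r)) hi₀
      have hbd : Bornology.IsBounded t := by
        rw [isBounded_iff_ediam_ne_top]; exact hdt
      have hsub : ({q : ℝ × (Fin (N + 1) → W) | ∃ z ∈ A ∩ t, ‖z‖ = q.1 ∧
            ∑ i, b.repr z i • q.2 i = 0} ∩ {q | ∀ j, ‖q.2 j‖ ≤ R}) ⊆
          (Icc (‖z₀‖ - δ) (‖z₀‖ + δ)) ×ˢ
            {p | (∀ j, ‖p j‖ ≤ R) ∧ ‖∑ j, b.repr z₀ j • p j‖ ≤ K * δ * R} := by
        rintro ⟨r, p⟩ ⟨⟨z, ⟨-, hzt⟩, hzr, hz0⟩, hp⟩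
        simp only at hzr hz0
        have hdist : ‖z₀ - z‖ ≤ δ := by
          rw [← dist_eq_norm]; exact dist_le_diam_of_mem hbd hz₀t hzt
        refine ⟨?_, hp, ?_⟩
        · have h1 : |‖z₀‖ - ‖z‖| ≤ δ := (abs_norm_sub_norm_le z₀ z).trans hdist
          rw [abs_le] at h1
          simp only [mem_Icc]
          constructor <;> linarith [h1.1, h1.2]
        · have h2 : ∑ j, b.repr z₀ j • p j = ∑ j, b.repr (z₀ - z) j • p j := by
            rw [← sub_zero (∑ j, b.repr z₀ j • p j), ← hz0, ← Finset.sum_sub_distrib]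
            refine Finset.sum_congr rfl fun j _ => ?_
            rw [map_sub, Finsupp.sub_apply, sub_smul]
          simp only
          rw [h2]
          calc ‖∑ j, b.repr (z₀ - z) j • p j‖ ≤ ∑ j, ‖b.repr (z₀ - z) j • p j‖ := norm_sum_le _ _
            _ ≤ ∑ j, ‖b.repr (z₀ - z) j‖ * R := by
                refine Finset.sum_le_sum fun j _ => ?_
                rw [norm_smul]
                exact mul_le_mul_of_nonneg_left (hp j) (norm_nonneg _)
            _ = (∑ j, ‖b.repr (z₀ - z) j‖) * R := by rw [Finset.sum_mul]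
            _ ≤ (K * δ) * R := by
                have hR0 : (0 : ℝ) ≤ R := Nat.cast_nonneg R
                refine mul_le_mul_of_nonneg_right ((hK _).trans ?_) hR0
                exact mul_le_mul_of_nonneg_left hdist hK0.le
      refine (measure_mono hsub).trans ?_
      rw [Measure.prod_prod, Real.volume_Icc]
      have hR0 : (0 : ℝ) ≤ R := Nat.cast_nonneg R
      have h5 := box_le μ (fun j => b.repr z₀ j) i₀ (norm_pos_iff.1 hci) R (K * δ * R)
        (by positivity)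
      have h6 : K * δ * R / ‖b.repr z₀ i₀‖ ≤ (K * R / (k * r₁)) * δ := by
        have h7 : k * r₁ ≤ ‖b.repr z₀ i₀‖ :=
          (mul_le_mul_of_nonneg_left hz₀r hk0.le).trans hi₀
        have h8 : 0 < k * r₁ := mul_pos hk0 hr₁
        calc K * δ * R / ‖b.repr z₀ i₀‖ ≤ K * δ * R / (k * r₁) := by gcongr
          _ = (K * R / (k * r₁)) * δ := by ring
      have h9 : ENNReal.ofReal ((K * δ * R / ‖b.repr z₀ i₀‖) ^ d) ≤
          ENNReal.ofReal ((K * R / (k * r₁)) ^ d) * ediam t ^ (d : ℝ) := by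
        rw [hdiam, ENNReal.rpow_natCast, ← ENNReal.ofReal_pow hδ0, ← ENNReal.ofReal_mul
          (by positivity), ← mul_pow]
        refine ENNReal.ofReal_le_ofReal ?_
        exact pow_le_pow_left₀ (by positivity) h6 _
      have h10 : (⨆ _ : t.Nonempty, ediam t ^ (d : ℝ)) = ediam t ^ (d : ℝ) := by
        simp [htne]
      rw [h10]
      have h11 : ENNReal.ofReal (‖z₀‖ + δ - (‖z₀‖ - δ)) = ENNReal.ofReal 2 * ediam t := by
        rw [hdiam, ← ENNReal.ofReal_mul (by norm_num)]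
        congr 1; ring
      rw [h11]
      calc ENNReal.ofReal 2 * ediam t * ν {p | (∀ j, ‖p j‖ ≤ R) ∧
              ‖∑ j, b.repr z₀ j • p j‖ ≤ K * δ * R}
          ≤ ENNReal.ofReal 2 * ediam t * (ENNReal.ofReal ((K * R / (k * r₁)) ^ d) *
              ediam t ^ (d : ℝ) * μ (ball 0 1) * (μ (closedBall 0 R)) ^ N) := by
            gcongr
            refine h5.trans ?_
            gcongr
        _ = C * ediam t ^ (d : ℝ) * ediam t := by
            rw [hC]; ring
    · have : ({q : ℝ × (Fin (N + 1) → W) | ∃ z ∈ A ∩ t, ‖z‖ = q.1 ∧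
            ∑ i, b.repr z i • q.2 i = 0} ∩ {q | ∀ j, ‖q.2 j‖ ≤ R}) = ∅ := by
        ext q
        simp only [mem_inter_iff, mem_setOf_eq, mem_empty_iff_false, iff_false, not_and]
        rintro ⟨z, hz, -⟩
        exact (hne ⟨z, hz⟩).elim
      rw [this]; simp
  -- summation
  have main : ∀ ρ : ℝ≥0∞, 0 < ρ → ρ ≠ ⊤ → ((volume : Measure ℝ).prod ν)
      (Bad (W := W) b A ∩ {q | ∀ j, ‖q.2 j‖ ≤ R}) ≤ C * (H + 1) * ρ := by
    intro ρ hρ hρtop
    have hHlt : (⨅ (t : ℕ → Set V) (_ : A ⊆ ⋃ n, t n) (_ : ∀ n, ediam (t n) ≤ ρ),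
        ∑' n, ⨆ _ : (t n).Nonempty, ediam (t n) ^ (d : ℝ)) < H + 1 := by
      refine lt_of_le_of_lt ?_ (ENNReal.lt_add_right hZ.ne one_ne_zero)
      rw [hH, hausdorffMeasure_apply]
      exact le_iSup₂_of_le ρ hρ le_rfl
    simp only [iInf_lt_iff] at hHlt
    obtain ⟨t, hcov, hdi, hsum⟩ := hHlt
    have hsub : (Bad (W := W) b A ∩ {q | ∀ j, ‖q.2 j‖ ≤ R}) ⊆
        ⋃ n, ({q : ℝ × (Fin (N + 1) → W) | ∃ z ∈ A ∩ t n, ‖z‖ = q.1 ∧
            ∑ i, b.repr z i • q.2 i = 0} ∩ {q | ∀ j, ‖q.2 j‖ ≤ R}) := by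
      rintro q ⟨⟨z, hzA, hz⟩, hq⟩
      obtain ⟨n, hn⟩ := mem_iUnion.1 (hcov hzA)
      exact mem_iUnion.2 ⟨n, ⟨z, ⟨hzA, hn⟩, hz⟩, hq⟩
    calc _ ≤ ∑' n, ((volume : Measure ℝ).prod ν) ({q : ℝ × (Fin (N + 1) → W) |
            ∃ z ∈ A ∩ t n, ‖z‖ = q.1 ∧ ∑ i, b.repr z i • q.2 i = 0} ∩
            {q | ∀ j, ‖q.2 j‖ ≤ R}) := (measure_mono hsub).trans (measure_iUnion_le _)
      _ ≤ ∑' n, C * (⨆ _ : (t n).Nonempty, ediam (t n) ^ (d : ℝ)) * ρ := by
          refine ENNReal.tsum_le_tsum fun n => ?_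
          refine (piece (t n) (ne_top_of_le_ne_top hρtop (hdi n))).trans ?_
          gcongr
          exact hdi n
      _ = C * (∑' n, ⨆ _ : (t n).Nonempty, ediam (t n) ^ (d : ℝ)) * ρ := by
          rw [ENNReal.tsum_mul_right, ENNReal.tsum_mul_left]
      _ ≤ C * (H + 1) * ρ := by gcongr
  -- conclusion
  refine le_antisymm (ENNReal.le_of_forall_pos_le_add fun ε hε _ => ?_) bot_le
  rw [zero_add]
  have hCH : C * (H + 1) ≠ ⊤ :=
    ENNReal.mul_ne_top hCtop (ENNReal.add_ne_top.2 ⟨hZ.ne, ENNReal.one_ne_top⟩)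
  by_cases h0 : C * (H + 1) = 0
  · refine (main 1 one_pos ENNReal.one_ne_top).trans ?_
    rw [h0]; simp
  · refine (main ((ε : ℝ≥0∞) / (C * (H + 1))) ?_ ?_).trans ?_
    · exact ENNReal.div_pos (by exact_mod_cast hε.ne') hCH
    · exact ENNReal.div_ne_top ENNReal.coe_ne_top h0
    · rw [ENNReal.mul_div_cancel h0 hCH]

end Crest.Agent.R281.Fr1_316
end

-- ▼ part R281/Fr3_316
section

/-!
# Row 281, leaf S6-FRAME (helper316), part 3: smooth kernels, smoothed traces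
-/

set_option autoImplicit false
set_option linter.unusedSectionVars false

open Set Filter Topology MeasureTheory Complex Metric
open scoped ContDiff ComplexConjugate Real

noncomputable section

namespace Crest.Agent.R281.Fr2_316

open Crest.Agent.R266.SCV

variable {N : ℕ}

/-- rotation invariant smooth kernels of total mass one, supported in the ball of radius `ε` -/
structure Ker (φ : Cn N → ℂ) (ε : ℝ) : Prop where
  smooth : ContDiff ℝ ∞ φ
  supp : ∀ w, ε ≤ ‖w‖ → φ w = 0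
  rot : ∀ (c : Circle) (w : Cn N), φ ((c : ℂ) • w) = φ w
  real : ∀ w, conj (φ w) = φ w
  int : ∫ w, φ w = 1

/-- unnormalised kernel -/
def ker0 (ε : ℝ) (w : Cn N) : ℝ := ∏ k, Real.smoothTransition (1 - ‖w k‖ ^ 2 / ε ^ 2)

theorem ker0_smooth (ε : ℝ) : ContDiff ℝ ∞ (ker0 (N := N) ε) := by
  unfold ker0
  refine contDiff_prod fun k _ => ?_
  refine Real.smoothTransition.contDiff.comp ?_
  have h1 : ContDiff ℝ ∞ (fun w : Cn N => ‖w k‖ ^ 2) := by
    have : ContDiff ℝ ∞ (fun w : Cn N => w k) := by fun_prop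
    exact this.norm_sq ℝ
  exact contDiff_const.sub (h1.div_const _)

theorem ker0_nonneg (ε : ℝ) (w : Cn N) : 0 ≤ ker0 ε w :=
  Finset.prod_nonneg fun _ _ => Real.smoothTransition.nonneg _

theorem ker0_supp {ε : ℝ} (hε : 0 < ε) (hN : 0 < N) (w : Cn N) (hw : ε ≤ ‖w‖) : ker0 ε w = 0 := by
  have hne : Nonempty (Fin N) := ⟨⟨0, hN⟩⟩
  obtain ⟨k, hk⟩ : ∃ k, ε ≤ ‖w k‖ := by
    by_contra hcon
    push Not at hcon
    exact absurd hw (not_le.2 ((pi_norm_lt_iff hε).2 hcon))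
  refine Finset.prod_eq_zero (Finset.mem_univ k) ?_
  apply Real.smoothTransition.zero_of_nonpos
  rw [sub_nonpos, le_div_iff₀ (by positivity), one_mul]
  exact pow_le_pow_left₀ hε.le hk 2

theorem ker0_rot (ε : ℝ) (c : Circle) (w : Cn N) : ker0 ε ((c : ℂ) • w) = ker0 ε w := by
  unfold ker0
  simp [Circle.norm_coe]

theorem ker0_pos (ε : ℝ) : 0 < ker0 ε (0 : Cn N) := by
  unfold ker0
  refine Finset.prod_pos fun k _ => ?_
  apply Real.smoothTransition.pos_of_pos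
  simp

theorem ker0_compact {ε : ℝ} (hε : 0 < ε) (hN : 0 < N) : HasCompactSupport (ker0 (N := N) ε) :=
  HasCompactSupport.intro (isCompact_closedBall (0 : Cn N) ε) fun w hw =>
    ker0_supp hε hN w (by
      rw [mem_closedBall_zero_iff, not_le] at hw
      exact hw.le)

theorem exists_ker (hN : 0 < N) {ε : ℝ} (hε : 0 < ε) : ∃ φ : Cn N → ℂ, Ker φ ε := by
  have hc : Continuous (ker0 (N := N) ε) := (ker0_smooth ε).continuous
  have hi : Integrable (ker0 (N := N) ε) := hc.integrable_of_hasCompactSupport (ker0_compact hε hN)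
  have hpos : 0 < ∫ w, ker0 (N := N) ε w := by
    refine hc.integral_pos_of_hasCompactSupport_nonneg_nonzero (ker0_compact hε hN)
      (ker0_nonneg ε) (x := 0) (ker0_pos ε).ne'
  set c := ∫ w, ker0 (N := N) ε w with hcdef
  refine ⟨fun w => ((c⁻¹ * ker0 ε w : ℝ) : ℂ), ?_, ?_, ?_, ?_, ?_⟩
  · exact ofRealCLM.contDiff.comp (contDiff_const.mul (ker0_smooth ε))
  · intro w hw
    rw [ker0_supp hε hN w hw]
    simp
  · intro c w
    simp only [ker0_rot]
  · intro w
    simp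
  · rw [integral_complex_ofReal, integral_const_mul, ← hcdef, inv_mul_cancel₀ hpos.ne']
    simp


/-- mean value property for kernels -/
theorem Ker.mv {φ : Cn N → ℂ} {ε : ℝ} (hφ : Ker φ ε) {f : Cn N → ℂ} {x : Cn N} {D : Set (Cn N)}
    (hD : IsOpen D) (hf : DifferentiableOn ℂ f D) (hB : closedBall x ε ⊆ D) :
    ∫ y, φ y * f (x + y) = f x := by
  set B : Set (Cn N) := closedBall 0 ε with hBdef
  have hBc : IsCompact B := isCompact_closedBall _ _
  have hmem : ∀ (ζ : ℂ), ‖ζ‖ ≤ 1 → ∀ y ∈ B, x + ζ • y ∈ D := by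
    intro ζ hζ y hy
    apply hB
    rw [mem_closedBall, dist_eq_norm, add_sub_cancel_left, norm_smul]
    have : ‖y‖ ≤ ε := by simpa [hBdef] using hy
    nlinarith [norm_nonneg y, norm_nonneg ζ]
  -- inner average
  have havg : ∀ y ∈ B, ∫ θ in (0 : ℝ)..2 * π, φ y * f (x + (circleMap 0 1 θ) • y)
      = (2 * π) • (φ y * f x) := by
    intro y hy
    have hd : ∀ ζ ∈ closedBall (0 : ℂ) 1, DifferentiableAt ℂ (fun ζ : ℂ => f (x + ζ • y)) ζ := by
      intro ζ hζ
      have h1 : DifferentiableAt ℂ f (x + ζ • y) :=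
        hf.differentiableAt (hD.mem_nhds (hmem ζ (by simpa using hζ) y hy))
      exact h1.comp ζ (f := fun ζ : ℂ => x + ζ • y) (by fun_prop)
    have hdc : DiffContOnCl ℂ (fun ζ : ℂ => f (x + ζ • y)) (ball 0 |(1 : ℝ)|) := by
      apply DifferentiableOn.diffContOnCl
      intro ζ hζ
      exact (hd ζ (by simpa using closure_ball_subset_closedBall hζ)).differentiableWithinAt
    have h2 := hdc.circleAverage
    rw [Real.circleAverage_def] at h2
    simp only [zero_smul, add_zero] at h2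
    rw [intervalIntegral.integral_const_mul, ← h2]
    simp only [real_smul]
    push_cast
    field_simp
  have hcont : ContinuousOn (fun p : ℝ × (Cn N) => φ p.2 * f (x + (circleMap 0 1 p.1) • p.2))
      (Icc 0 (2 * π) ×ˢ B) := by
    refine (hφ.smooth.continuous.comp_continuousOn continuousOn_snd).mul
      (hf.continuousOn.comp (by fun_prop) ?_)
    rintro ⟨θ, y⟩ ⟨-, hy⟩
    exact hmem _ (by simp [circleMap]) y hy
  have hint : IntegrableOn (fun p : ℝ × (Cn N) => φ p.2 * f (x + (circleMap 0 1 p.1) • p.2))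
      (Icc 0 (2 * π) ×ˢ B) (volume.prod volume) :=
    hcont.integrableOn_compact (isCompact_Icc.prod hBc)
  have hint' : Integrable (Function.uncurry
      (fun (θ : ℝ) (y : Cn N) => φ y * f (x + (circleMap 0 1 θ) • y)))
      ((volume.restrict (Icc 0 (2 * π))).prod (volume.restrict B)) := by
    rw [Measure.prod_restrict]
    exact hint
  have hswap := integral_integral_swap hint'
  -- left side: constant in θ
  have hL : ∀ θ : ℝ, ∫ y in B, φ y * f (x + (circleMap 0 1 θ) • y) = ∫ y in B, φ y * f (x + y) := by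
    intro θ
    have h1 : circleMap 0 1 θ = ((Circle.exp θ : Circle) : ℂ) := by
      simp [circleMap]
    rw [h1]
    have h2 := Crest.Agent.R264.Berg.setIntegral_rot (g := fun y => φ y * f (x + y))
      (Circle.exp θ) ε
    simpa only [hφ.rot] using h2
  simp only [hL] at hswap
  have h3 : ∫ _θ in Icc 0 (2 * π), ∫ y in B, φ y * f (x + y)
      = (2 * π) • ∫ y in B, φ y * f (x + y) := by
    rw [integral_const]
    congr 1
    rw [Measure.real, Measure.restrict_apply_univ, Real.volume_Icc,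
      ENNReal.toReal_ofReal (by linarith [Real.pi_pos])]
    ring
  rw [h3] at hswap
  have h4 : ∫ y in B, (∫ θ in Icc 0 (2 * π), φ y * f (x + (circleMap 0 1 θ) • y))
      = ∫ y in B, (2 * π) • (φ y * f x) := by
    refine setIntegral_congr_fun hBc.measurableSet (fun y hy => ?_)
    have := havg y hy
    rw [intervalIntegral.integral_of_le (by positivity)] at this
    rw [integral_Icc_eq_integral_Ioc, this]
  rw [h4, integral_smul] at hswap
  have h6 : (2 * π : ℝ) ≠ 0 := by positivity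
  have h7 := smul_right_injective ℂ h6 hswap
  have h8 : ∀ g : Cn N → ℂ, ∫ y in B, φ y * g y = ∫ y, φ y * g y := by
    intro g
    refine setIntegral_eq_integral_of_forall_compl_eq_zero fun y hy => ?_
    rw [hφ.supp y, zero_mul]
    rw [hBdef, mem_closedBall_zero_iff, not_le] at hy
    exact hy.le
  rw [h8 (fun y => f (x + y)), h8 (fun _ => f x), integral_mul_const, hφ.int, one_mul] at h7
  exact h7

/-! ### smoothed traces -/

/-- `∫_W h |det DG|² φ(G z - ζ) dz` -/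
def S (W : Set (Cn N)) (G : Cn N → Cn N) (h φ : Cn N → ℂ) (ζ : Cn N) : ℂ :=
  ∫ z in W, h z * (J G z * conj (J G z)) * φ (G z - ζ)

variable {W : Set (Cn N)} {G : Cn N → Cn N} {h : Cn N → ℂ}

theorem cont_hJ (hW : IsOpen W) (hG : DifferentiableOn ℂ G W) (hh : DifferentiableOn ℂ h W) :
    ContinuousOn (fun z => h z * (J G z * conj (J G z))) W := by
  have h1 : ContinuousOn (J G) W := (J_differentiableOn hW hG).continuousOn
  exact hh.continuousOn.mul (h1.mul (continuous_conj.comp_continuousOn h1))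

theorem S_integrable (hW : IsOpen W) (hG : DifferentiableOn ℂ G W) (hh : DifferentiableOn ℂ h W)
    {φ : Cn N → ℂ} (hφ : Continuous φ) {ζ : Cn N} {ε : ℝ}
    (h0 : ∀ w, ε ≤ ‖w‖ → φ w = 0) (hK : IsCompact (W ∩ G ⁻¹' closedBall ζ ε)) :
    IntegrableOn (fun z => h z * (J G z * conj (J G z)) * φ (G z - ζ)) W := by
  refine integrableOn_of_compact hW hK inter_subset_left ?_ ?_
  · exact (cont_hJ hW hG hh).mul (hφ.comp_continuousOn (hG.continuousOn.sub continuousOn_const))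
  · intro z hz hzK
    have h1 : ε ≤ ‖G z - ζ‖ := by
      by_contra hcon
      exact hzK ⟨hz, by rw [mem_preimage, mem_closedBall, dist_eq_norm]; linarith⟩
    rw [h0 _ h1, mul_zero]

theorem compact_mono (hG : ContinuousOn G W) {ζ : Cn N} {R : ℝ}
    (hK : IsCompact (W ∩ G ⁻¹' closedBall ζ R)) {C : Set (Cn N)} (hC : IsClosed C)
    (hCR : C ⊆ closedBall ζ R) : IsCompact (W ∩ G ⁻¹' C) := by
  have h1 : W ∩ G ⁻¹' C = (W ∩ G ⁻¹' closedBall ζ R) ∩ G ⁻¹' C := by
    ext z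
    simp only [mem_inter_iff, mem_preimage]
    exact ⟨fun ⟨a, b⟩ => ⟨⟨a, hCR b⟩, b⟩, fun ⟨⟨a, _⟩, b⟩ => ⟨a, b⟩⟩
  rw [h1]
  exact hK.of_isClosed_subset
    ((hG.mono inter_subset_left).preimage_isClosed_of_isClosed hK.isClosed hC) inter_subset_left

theorem S_hol (hW : IsOpen W) (hG : DifferentiableOn ℂ G W) (hh : DifferentiableOn ℂ h W)
    {φ : Cn N → ℂ} (hφ : ContDiff ℝ ∞ φ) {ε R : ℝ} (h0 : ∀ w, ε ≤ ‖w‖ → φ w = 0) {ζ : Cn N}
    (hεR : ε < R) (hK : IsCompact (W ∩ G ⁻¹' closedBall ζ R)) :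
    DifferentiableAt ℂ (S W G h φ) ζ := by
  set c : Cn N → ℂ := fun z => h z * (J G z * conj (J G z)) with hc
  have hcc : ContinuousOn c W := cont_hJ hW hG hh
  have hφc : HasCompactSupport φ :=
    HasCompactSupport.intro (isCompact_closedBall (0 : Cn N) ε) fun w hw =>
      h0 w (by
        rw [mem_closedBall_zero_iff, not_le] at hw
        exact hw.le)
  have hφd : Differentiable ℝ φ := hφ.differentiable (by simp)
  have hDφ : Continuous (fderiv ℝ φ) := hφ.continuous_fderiv (by simp)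
  obtain ⟨C, hC⟩ := hDφ.bounded_above_of_compact_support (hφc.fderiv ℝ)
  have hD0 : ∀ w, ε < ‖w‖ → fderiv ℝ φ w = 0 := by
    intro w hw
    have h1 : φ =ᶠ[𝓝 w] fun _ => 0 := by
      have : ∀ᶠ y in 𝓝 w, ε < ‖y‖ := continuous_norm.continuousAt.eventually (lt_mem_nhds hw)
      filter_upwards [this] with y hy using h0 y hy.le
    rw [h1.fderiv_eq]
    simp
  set K := W ∩ G ⁻¹' closedBall ζ R with hKdef
  set s := ball ζ (R - ε) with hs
  have hfar : ∀ η ∈ s, ∀ z ∈ W, z ∉ K → ε < ‖G z - η‖ := by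
    intro η hη z hz hzK
    by_contra hcon
    push Not at hcon
    apply hzK
    refine ⟨hz, ?_⟩
    rw [mem_preimage, mem_closedBall]
    rw [hs, mem_ball] at hη
    calc dist (G z) ζ ≤ dist (G z) η + dist η ζ := dist_triangle _ _ _
      _ ≤ R := by rw [dist_eq_norm (G z) η]; linarith
  set F : Cn N → Cn N → ℂ := fun η z => c z * φ (G z - η) with hF
  set F' : Cn N → Cn N → (Cn N →L[ℝ] ℂ) := fun η z => c z • (-(fderiv ℝ φ (G z - η))) with hF'
  have hcF : ∀ η, ContinuousOn (F η) W := fun η =>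
    hcc.mul (hφ.continuous.comp_continuousOn (hG.continuousOn.sub continuousOn_const))
  have hcF' : ∀ η, ContinuousOn (F' η) W := fun η =>
    hcc.smul ((hDφ.comp_continuousOn (hG.continuousOn.sub continuousOn_const)).neg)
  have hiF : ∀ η ∈ s, IntegrableOn (F η) W := fun η hη =>
    integrableOn_of_compact hW hK inter_subset_left (hcF η) fun z hz hzK => by
      simp only [hF]
      rw [h0 _ (hfar η hη z hz hzK).le, mul_zero]
  have hiF' : ∀ η ∈ s, IntegrableOn (F' η) W := fun η hη =>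
    integrableOn_of_compact hW hK inter_subset_left (hcF' η) fun z hz hzK => by
      simp only [hF']
      rw [hD0 _ (hfar η hη z hz hzK)]
      ext v
      simp
  have hζs : ζ ∈ s := mem_ball_self (by linarith)
  have hmain : HasFDerivAt (fun η => ∫ z in W, F η z) (∫ z in W, F' ζ z) ζ := by
    refine hasFDerivAt_integral_of_dominated_of_fderiv_le (𝕜 := ℝ) (s := s)
      (bound := K.indicator fun z => ‖c z‖ * C) (isOpen_ball.mem_nhds hζs) ?_ (hiF ζ hζs)
      (hiF' ζ hζs).aestronglyMeasurable ?_ ?_ ?_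
    · filter_upwards [isOpen_ball.mem_nhds hζs] with η hη
      exact (hiF η hη).aestronglyMeasurable
    · filter_upwards [self_mem_ae_restrict hW.measurableSet] with z hz η hη
      by_cases hzK : z ∈ K
      · rw [indicator_of_mem hzK]
        simp only [hF']
        rw [norm_smul, norm_neg]
        exact mul_le_mul_of_nonneg_left (hC _) (norm_nonneg _)
      · rw [indicator_of_notMem hzK]
        simp only [hF']
        rw [hD0 _ (hfar η hη z hz hzK)]
        have h0' : c z • (-(0 : Cn N →L[ℝ] ℂ)) = 0 := by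
          ext v
          simp
        rw [h0', norm_zero]
    · refine Integrable.mono_measure ?_ Measure.restrict_le_self
      rw [integrable_indicator_iff hK.measurableSet]
      exact ((hcc.mono inter_subset_left).norm.mul continuousOn_const).integrableOn_compact hK
    · filter_upwards with z η hη
      simp only [hF, hF']
      have h1 : HasFDerivAt (fun η => φ (G z - η)) (-(fderiv ℝ φ (G z - η))) η := by
        have h2 := (hφd (G z - η)).hasFDerivAt.comp η ((hasFDerivAt_id η).const_sub (G z))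
        refine h2.congr_fderiv ?_
        ext v
        simp
      exact h1.const_mul (c z)
  have hS : S W G h φ = fun η => ∫ z in W, F η z := rfl
  rw [hS]
  refine differentiableAt_complex_of_real hmain.differentiableAt fun v => ?_
  rw [hmain.fderiv]
  have happ : ∀ v, (∫ z in W, F' ζ z) v = ∫ z in W, F' ζ z v := fun v =>
    ContinuousLinearMap.integral_apply (hiF' ζ hζs) v
  rw [happ, happ, smul_eq_mul]
  -- the key identity
  set ψ : Cn N → ℂ := fun w => φ (w - ζ) with hψ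
  have hψs : ContDiff ℝ ∞ ψ := hφ.comp (contDiff_id.sub contDiff_const)
  have hψd : ∀ w, fderiv ℝ ψ w = fderiv ℝ φ (w - ζ) := by
    intro w
    rw [hψ, fderiv_comp_sub]
  have hts : tsupport ψ ⊆ closedBall ζ R := by
    refine closure_minimal ?_ isClosed_closedBall
    intro w hw
    by_contra hcon
    apply hw
    rw [mem_closedBall, dist_eq_norm, not_le] at hcon
    exact h0 _ (by linarith)
  have hkey := key hW hG hh hψs
    (compact_mono hG.continuousOn hK (isClosed_tsupport ψ) hts) v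
  have h1 : ∀ z, h z * (J G z * conj (J G z)) * ab (fderiv ℝ ψ (G z)) v =
      -(F' ζ z v) + -(I * F' ζ z (I • v)) := by
    intro z
    simp only [hψd, ab, hF', hc, _root_.smul_apply, _root_.neg_apply, smul_eq_mul]
    ring
  simp only [h1] at hkey
  have hi : ∀ v, Integrable (fun z => F' ζ z v) (volume.restrict W) := fun v =>
    (hiF' ζ hζs).apply_continuousLinearMap v
  have h2 := integral_add (f := fun z => -(F' ζ z v)) (g := fun z => -(I * F' ζ z (I • v)))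
    (hi v).neg ((hi (I • v)).const_mul I).neg
  rw [h2, integral_neg, integral_neg, integral_const_mul] at hkey
  linear_combination I * hkey + (∫ z in W, F' ζ z (I • v)) * I_sq

end Crest.Agent.R281.Fr2_316
end
end

-- ▼ part R281/Fr4_316
section

/-!
# Row 281, leaf S6-FRAME (helper316), part 4: traces of holomorphic functions under a proper
holomorphic map between open subsets of `ℂ^N`
-/

set_option autoImplicit false
set_option linter.unusedSectionVars false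

open Set Filter Topology MeasureTheory Complex Metric
open scoped ContDiff ComplexConjugate Real

noncomputable section

namespace Crest.Agent.R281.Fr2_316

open Crest.Agent.R266.SCV

variable {N : ℕ} {W D : Set (Cn N)} {G : Cn N → Cn N} {h : Cn N → ℂ}

theorem conv_swap (hW : IsOpen W) (hG : DifferentiableOn ℂ G W) (hh : DifferentiableOn ℂ h W)
    {φ₁ φ₂ : Cn N → ℂ} {ε₁ ε₂ R : ℝ} (h1 : Ker φ₁ ε₁) (h2 : Ker φ₂ ε₂) (hε : ε₁ + ε₂ ≤ R)
    {ζ : Cn N} (hK : IsCompact (W ∩ G ⁻¹' closedBall ζ R)) :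
    ∫ w, φ₂ w * S W G h φ₁ (ζ + w) =
      ∫ z in W, h z * (J G z * conj (J G z)) * ∫ w, φ₂ w * φ₁ (G z - ζ - w) := by
  set c : Cn N → ℂ := fun z => h z * (J G z * conj (J G z)) with hc
  have hcc : ContinuousOn c W := cont_hJ hW hG hh
  set K := W ∩ G ⁻¹' closedBall ζ R with hKdef
  set B : Set (Cn N) := closedBall 0 ε₂ with hB
  have hBc : IsCompact B := isCompact_closedBall _ _
  have hi : Integrable (Function.uncurry fun (w z : Cn N) => φ₂ w * (c z * φ₁ (G z - (ζ + w))))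
      (volume.prod (volume.restrict W)) := by
    have e : (volume : Measure (Cn N)).prod ((volume : Measure (Cn N)).restrict W) =
        ((volume : Measure (Cn N)).prod (volume : Measure (Cn N))).restrict (univ ×ˢ W) := by
      rw [← Measure.prod_restrict, Measure.restrict_univ]
    rw [e]
    have hcont : ContinuousOn (Function.uncurry fun (w z : Cn N) =>
        φ₂ w * (c z * φ₁ (G z - (ζ + w)))) (univ ×ˢ W) := by
      refine (h2.smooth.continuous.comp_continuousOn continuousOn_fst).mul ?_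
      refine (hcc.comp continuousOn_snd fun p hp => hp.2).mul ?_
      refine h1.smooth.continuous.comp_continuousOn ?_
      exact (hG.continuousOn.comp continuousOn_snd fun p hp => hp.2).sub
        (continuousOn_const.add continuousOn_fst)
    refine IntegrableOn.of_forall_sdiff_eq_zero (s := B ×ˢ K) ?_
      (MeasurableSet.univ.prod hW.measurableSet) ?_
    · exact (hcont.mono (prod_mono (subset_univ _) inter_subset_left)).integrableOn_compact
        (hBc.prod hK)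
    · rintro ⟨w, z⟩ ⟨hwz, hn⟩
      simp only [Function.uncurry]
      by_cases hw : w ∈ B
      · have hzK : z ∉ K := fun hcon => hn ⟨hw, hcon⟩
        have hz : z ∈ W := hwz.2
        have h3 : ε₁ ≤ ‖G z - (ζ + w)‖ := by
          by_contra hcon
          push Not at hcon
          apply hzK
          refine ⟨hz, ?_⟩
          rw [mem_preimage, mem_closedBall, dist_eq_norm]
          have h4 : ‖w‖ ≤ ε₂ := by simpa [hB] using hw
          calc ‖G z - ζ‖ = ‖(G z - (ζ + w)) + w‖ := by congr 1; abel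
            _ ≤ ‖G z - (ζ + w)‖ + ‖w‖ := norm_add_le _ _
            _ ≤ R := by linarith
        rw [h1.supp _ h3]
        simp
      · rw [h2.supp w, zero_mul]
        rw [hB, mem_closedBall_zero_iff, not_le] at hw
        exact hw.le
  have hsw := integral_integral_swap hi
  have e1 : ∀ w, ∫ z in W, φ₂ w * (c z * φ₁ (G z - (ζ + w))) = φ₂ w * S W G h φ₁ (ζ + w) := by
    intro w
    rw [integral_const_mul]
    rfl
  have e2 : ∀ z, ∫ w, φ₂ w * (c z * φ₁ (G z - (ζ + w))) = c z * ∫ w, φ₂ w * φ₁ (G z - ζ - w) := by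
    intro z
    rw [← integral_const_mul]
    refine integral_congr_ae (Eventually.of_forall fun w => ?_)
    simp only [sub_sub]
    ring
  simp only [e1, e2] at hsw
  exact hsw

theorem S_holOn (hW : IsOpen W) (hG : DifferentiableOn ℂ G W) (hh : DifferentiableOn ℂ h W)
    {φ : Cn N → ℂ} {ε R : ℝ} (hφ : Ker φ ε) {ζ : Cn N}
    (hK : IsCompact (W ∩ G ⁻¹' closedBall ζ R)) :
    DifferentiableOn ℂ (S W G h φ) (ball ζ (R - ε)) := by
  intro η hη
  rw [mem_ball] at hη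
  refine (S_hol hW hG hh hφ.smooth hφ.supp (R := R - dist η ζ) (by linarith)
    (compact_mono hG.continuousOn hK isClosed_closedBall
      (closedBall_subset_closedBall' (by linarith)))).differentiableWithinAt

theorem S_eq_conv (hW : IsOpen W) (hG : DifferentiableOn ℂ G W) (hh : DifferentiableOn ℂ h W)
    {φ₁ φ₂ : Cn N → ℂ} {ε₁ ε₂ R : ℝ} (h1 : Ker φ₁ ε₁) (h2 : Ker φ₂ ε₂) (hε : ε₁ + ε₂ < R)
    {ζ : Cn N} (hK : IsCompact (W ∩ G ⁻¹' closedBall ζ R)) :
    S W G h φ₁ ζ = ∫ z in W, h z * (J G z * conj (J G z)) * ∫ w, φ₂ w * φ₁ (G z - ζ - w) := by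
  rw [← conv_swap hW hG hh h1 h2 hε.le hK]
  exact (h2.mv isOpen_ball (S_holOn hW hG hh h1 hK) (closedBall_subset_ball (by linarith))).symm

/-- independence of the kernel -/
theorem S_indep (hW : IsOpen W) (hG : DifferentiableOn ℂ G W) (hh : DifferentiableOn ℂ h W)
    {φ₁ φ₂ : Cn N → ℂ} {ε₁ ε₂ R : ℝ} (h1 : Ker φ₁ ε₁) (h2 : Ker φ₂ ε₂) (hε : ε₁ + ε₂ < R)
    {ζ : Cn N} (hK : IsCompact (W ∩ G ⁻¹' closedBall ζ R)) :
    S W G h φ₁ ζ = S W G h φ₂ ζ := by
  rw [S_eq_conv hW hG hh h1 h2 hε hK, S_eq_conv hW hG hh h2 h1 (by linarith) hK]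
  refine integral_congr_ae (Eventually.of_forall fun z => ?_)
  show _ * _ = _ * _
  congr 1
  have := integral_sub_left_eq_self (fun w => φ₂ w * φ₁ (G z - ζ - w)) volume (G z - ζ)
  rw [← this]
  refine integral_congr_ae (Eventually.of_forall fun w => ?_)
  simp only [sub_sub_cancel]
  ring

/-! ### regular values -/

/-- `ζ` is a regular value -/
def Reg (W : Set (Cn N)) (G : Cn N → Cn N) (ζ : Cn N) : Prop := ∀ z ∈ W, G z = ζ → J G z ≠ 0

/-- the fibre -/
def Fib (W : Set (Cn N)) (G : Cn N → Cn N) (ζ : Cn N) : Set (Cn N) := W ∩ G ⁻¹' {ζ}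

theorem exists_inv (hW : IsOpen W) (hG : DifferentiableOn ℂ G W) {z : Cn N} (hz : z ∈ W)
    (hJ : J G z ≠ 0) {U : Set (Cn N)} (hU : U ∈ 𝓝 z) :
    ∃ e : OpenPartialHomeomorph (Cn N) (Cn N), z ∈ e.source ∧ e.source ⊆ U ∧ (∀ y, e y = G y) ∧
      AnalyticOnNhd ℂ e e.source ∧ AnalyticOnNhd ℂ e.symm e.target := by
  have hA : AnalyticAt ℂ G z := analyticOnNhd_of_differentiableOn hW hG z hz
  refine exists_analytic_openPartialHomeomorph hA
    ((fderiv ℂ G z).toContinuousLinearEquivOfDetNeZero hJ) ?_ hU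
  have := hA.differentiableAt.hasFDerivAt
  exact this

theorem Fib_finite (hW : IsOpen W) (hG : DifferentiableOn ℂ G W) {ζ : Cn N} {R : ℝ} (hR : 0 ≤ R)
    (hK : IsCompact (W ∩ G ⁻¹' closedBall ζ R)) (hr : Reg W G ζ) : (Fib W G ζ).Finite := by
  classical
  have hc : IsCompact (Fib W G ζ) := compact_mono hG.continuousOn hK isClosed_singleton
    (singleton_subset_iff.2 (mem_closedBall_self hR))
  have h1 : ∀ z : Cn N, ∃ U : Set (Cn N), z ∈ Fib W G ζ → (U ∈ 𝓝 z ∧ U ∩ Fib W G ζ ⊆ {z}) := by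
    intro z
    by_cases hz : z ∈ Fib W G ζ
    · obtain ⟨e, hze, -, heG, -, -⟩ := exists_inv hW hG hz.1 (hr z hz.1 hz.2) (hW.mem_nhds hz.1)
      refine ⟨e.source, fun _ => ⟨e.open_source.mem_nhds hze, ?_⟩⟩
      rintro y ⟨hy, hyF⟩
      refine e.injOn hy hze ?_
      rw [heG, heG, hyF.2, hz.2]
    · exact ⟨univ, fun h => absurd h hz⟩
  choose U hU using h1
  obtain ⟨t, ht, hcov⟩ := hc.elim_nhds_subcover U fun x hx => (hU x hx).1
  refine t.finite_toSet.subset fun z hz => ?_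
  obtain ⟨x, hx, hzx⟩ := mem_iUnion₂.1 (hcov hz)
  have := (hU x (ht x hx)).2 ⟨hzx, hz⟩
  rw [mem_singleton_iff] at this
  rw [this]
  exact hx

/-- local sheets over a neighbourhood of a regular value -/
theorem sheets (hW : IsOpen W) (hG : DifferentiableOn ℂ G W) {ζ : Cn N} {R : ℝ} (hR : 0 < R)
    (hK : IsCompact (W ∩ G ⁻¹' closedBall ζ R)) (hr : Reg W G ζ) :
    ∃ (e : Cn N → OpenPartialHomeomorph (Cn N) (Cn N)) (δ : ℝ), 0 < δ ∧ δ ≤ R ∧
      (∀ z ∈ Fib W G ζ, z ∈ (e z).source ∧ (e z).source ⊆ W ∩ {y | J G y ≠ 0} ∧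
        (∀ y, e z y = G y) ∧
        AnalyticOnNhd ℂ (e z) (e z).source ∧ AnalyticOnNhd ℂ (e z).symm (e z).target ∧
        closedBall ζ δ ⊆ (e z).target) ∧
      ((Fib W G ζ).PairwiseDisjoint fun z => (e z).source) ∧
      ∀ y ∈ W, G y ∈ closedBall ζ δ → ∃ z ∈ Fib W G ζ, y ∈ (e z).source := by
  classical
  have hfin := Fib_finite hW hG hR.le hK hr
  obtain ⟨U, hU, hUd⟩ := hfin.t2_separation
  have h1 : ∀ z : Cn N, ∃ e : OpenPartialHomeomorph (Cn N) (Cn N), z ∈ Fib W G ζ →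
      (z ∈ e.source ∧ e.source ⊆ (W ∩ {y | J G y ≠ 0}) ∩ U z ∧ (∀ y, e y = G y) ∧
      AnalyticOnNhd ℂ e e.source ∧ AnalyticOnNhd ℂ e.symm e.target) := by
    intro z
    by_cases hz : z ∈ Fib W G ζ
    · have hJo : IsOpen (W ∩ {y | J G y ≠ 0}) :=
        (J_differentiableOn hW hG).continuousOn.isOpen_inter_preimage hW
          (isOpen_ne : IsOpen {w : ℂ | w ≠ 0})
      obtain ⟨e, he⟩ := exists_inv hW hG hz.1 (hr z hz.1 hz.2)
        ((hJo.inter (hU z).2).mem_nhds ⟨⟨hz.1, hr z hz.1 hz.2⟩, (hU z).1⟩)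
      exact ⟨e, fun _ => he⟩
    · exact ⟨OpenPartialHomeomorph.refl _, fun h => absurd h hz⟩
  choose e he using h1
  -- the part of the fibre over the ball outside the sheets
  set O : Set (Cn N) := ⋃ z ∈ Fib W G ζ, (e z).source with hO
  have hOo : IsOpen O := isOpen_biUnion fun z _ => (e z).open_source
  have hC : IsCompact ((W ∩ G ⁻¹' closedBall ζ R) \ O) := hK.diff hOo
  have hGC : IsCompact (G '' ((W ∩ G ⁻¹' closedBall ζ R) \ O)) :=
    hC.image_of_continuousOn (hG.continuousOn.mono fun z hz => hz.1.1)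
  have hζ : ζ ∉ G '' ((W ∩ G ⁻¹' closedBall ζ R) \ O) := by
    rintro ⟨z, ⟨⟨hzW, -⟩, hzO⟩, hz⟩
    exact hzO (mem_iUnion₂.2 ⟨z, ⟨hzW, hz⟩, (he z ⟨hzW, hz⟩).1⟩)
  have hev1 : ∀ᶠ δ : ℝ in 𝓝[>] 0, closedBall ζ δ ⊆ (G '' ((W ∩ G ⁻¹' closedBall ζ R) \ O))ᶜ := by
    obtain ⟨δ, hδ, hδ'⟩ := nhds_basis_closedBall.mem_iff.1 (hGC.isClosed.isOpen_compl.mem_nhds hζ)
    filter_upwards [Ioc_mem_nhdsGT hδ] with δ' hδ''
    exact (closedBall_subset_closedBall hδ''.2).trans hδ'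
  have hev2 : ∀ᶠ δ : ℝ in 𝓝[>] 0, ∀ z ∈ Fib W G ζ, closedBall ζ δ ⊆ (e z).target := by
    rw [hfin.eventually_all]
    intro z hz
    have h2 : ζ ∈ (e z).target := by
      have := (e z).map_source (he z hz).1
      rwa [(he z hz).2.2.1, hz.2] at this
    obtain ⟨δ, hδ, hδ'⟩ := nhds_basis_closedBall.mem_iff.1 ((e z).open_target.mem_nhds h2)
    filter_upwards [Ioc_mem_nhdsGT hδ] with δ' hδ''
    exact (closedBall_subset_closedBall hδ''.2).trans hδ'
  obtain ⟨δ, ⟨hδ1, hδ2⟩, hδ3⟩ := ((hev1.and hev2).and (Ioc_mem_nhdsGT hR)).exists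
  refine ⟨e, δ, hδ3.1, hδ3.2, ?_, ?_, ?_⟩
  · intro z hz
    obtain ⟨a, b, c, d, f⟩ := he z hz
    exact ⟨a, b.trans inter_subset_left, c, d, f, hδ2 z hz⟩
  · intro z hz z' hz' hne
    exact (hUd hz hz' hne).mono ((he z hz).2.1.trans inter_subset_right)
      ((he z' hz').2.1.trans inter_subset_right)
  · intro y hy hGy
    by_contra hcon
    push Not at hcon
    have hyO : y ∉ O := by
      intro h
      obtain ⟨z, hz, hyz⟩ := mem_iUnion₂.1 h
      exact hcon z hz hyz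
    exact hδ1 hGy ⟨y, ⟨⟨hy, closedBall_subset_closedBall hδ3.2 hGy⟩, hyO⟩, rfl⟩

theorem det_real (L : Cn N →L[ℂ] Cn N) :
    (L.restrictScalars ℝ).det = Complex.normSq L.det := by
  have h1 : (L.restrictScalars ℝ).det = LinearMap.det ((L : Cn N →ₗ[ℂ] Cn N).restrictScalars ℝ) := rfl
  rw [h1, LinearMap.det_restrictScalars, Algebra.norm_complex_apply]

/-- evaluation of the smoothed trace at a regular value -/
theorem S_reg (hW : IsOpen W) (hG : DifferentiableOn ℂ G W) {ζ : Cn N} {R : ℝ} (hR : 0 < R)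
    (hK : IsCompact (W ∩ G ⁻¹' closedBall ζ R)) (hr : Reg W G ζ) :
    ∃ δ : ℝ, 0 < δ ∧ ∀ {h φ : Cn N → ℂ} {ε : ℝ}, DifferentiableOn ℂ h W → ε < δ → Ker φ ε →
      S W G h φ ζ = ∑ᶠ z ∈ Fib W G ζ, h z := by
  classical
  obtain ⟨e, δ, hδ, hδR, he, hdis, hcov⟩ := sheets hW hG hR hK hr
  have hfin := Fib_finite hW hG hR.le hK hr
  refine ⟨δ, hδ, fun {h φ ε} hh hε hφ => ?_⟩
  -- one sheet
  have hone : ∀ z ∈ Fib W G ζ, ∫ y in (e z).source, h y * (J G y * conj (J G y)) * φ (G y - ζ)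
      = h z := by
    intro z hz
    obtain ⟨hze, hsW', heG, -, hsym, htar⟩ := he z hz
    have hsW := hsW'.trans inter_subset_left
    have hcv := integral_image_eq_integral_abs_det_fderiv_smul (volume : Measure (Cn N))
      (s := (e z).source) (f := G) (f' := fun y => (fderiv ℂ G y).restrictScalars ℝ)
      (e z).open_source.measurableSet
      (fun y hy => ((hG.differentiableAt (hW.mem_nhds (hsW hy))).hasFDerivAt.restrictScalars
        ℝ).hasFDerivWithinAt)
      (fun y hy y' hy' hyy' => (e z).injOn hy hy' (by rw [heG, heG, hyy']))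
      (fun w => φ (w - ζ) * h ((e z).symm w))
    have himg : G '' (e z).source = (e z).target := by
      rw [← (e z).image_source_eq_target]
      exact image_congr fun y _ => (heG y).symm
    rw [himg] at hcv
    have hR1 : ∫ y in (e z).source, |((fderiv ℂ G y).restrictScalars ℝ).det| •
        (φ (G y - ζ) * h ((e z).symm (G y))) =
        ∫ y in (e z).source, h y * (J G y * conj (J G y)) * φ (G y - ζ) := by
      refine setIntegral_congr_fun (e z).open_source.measurableSet fun y hy => ?_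
      rw [det_real, abs_of_nonneg (normSq_nonneg _), ← heG y, (e z).left_inv hy, heG y,
        real_smul, ← mul_conj]
      unfold J
      ring
    rw [hR1] at hcv
    rw [← hcv]
    have hR2 : ∫ w in (e z).target, φ (w - ζ) * h ((e z).symm w) =
        ∫ w, φ (w - ζ) * h ((e z).symm w) := by
      refine setIntegral_eq_integral_of_forall_compl_eq_zero fun w hw => ?_
      rw [hφ.supp, zero_mul]
      by_contra hcon
      push Not at hcon
      apply hw
      apply htar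
      rw [mem_closedBall, dist_eq_norm]
      linarith
    rw [hR2]
    have hR3 := integral_add_left_eq_self (μ := (volume : Measure (Cn N)))
      (fun w => φ (w - ζ) * h ((e z).symm w)) ζ
    rw [← hR3]
    simp only [add_sub_cancel_left]
    have hd : DifferentiableOn ℂ (fun w => h ((e z).symm w)) (e z).target := by
      refine hh.comp hsym.differentiableOn fun w hw => hsW ((e z).map_target hw)
    have := hφ.mv (e z).open_target hd
      ((closedBall_subset_closedBall hε.le).trans htar)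
    rw [this]
    have h4 : ζ = e z z := by rw [heG]; exact hz.2.symm
    rw [h4, (e z).left_inv hze]
  have hint : IntegrableOn (fun z => h z * (J G z * conj (J G z)) * φ (G z - ζ)) W :=
    S_integrable hW hG hh hφ.smooth.continuous hφ.supp
      (compact_mono hG.continuousOn hK isClosed_closedBall
        (closedBall_subset_closedBall (hε.le.trans hδR)))
  set O : Set (Cn N) := ⋃ z ∈ hfin.toFinset, (e z).source with hO
  have hOW : O ⊆ W := iUnion₂_subset fun z hz =>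
    (he z (hfin.mem_toFinset.1 hz)).2.1.trans inter_subset_left
  have h1 : S W G h φ ζ = ∫ z in O, h z * (J G z * conj (J G z)) * φ (G z - ζ) := by
    refine setIntegral_eq_of_subset_of_forall_sdiff_eq_zero hW.measurableSet hOW fun y hy => ?_
    rw [hφ.supp, mul_zero]
    by_contra hcon
    push Not at hcon
    obtain ⟨z, hz, hyz⟩ := hcov y hy.1 (by rw [mem_closedBall, dist_eq_norm]; linarith)
    exact hy.2 (mem_iUnion₂.2 ⟨z, hfin.mem_toFinset.2 hz, hyz⟩)
  rw [h1, hO, integral_biUnion_finset]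
  · rw [finsum_mem_eq_finite_toFinset_sum _ hfin]
    exact Finset.sum_congr rfl fun z hz => hone z (hfin.mem_toFinset.1 hz)
  · exact fun z _ => (e z).open_source.measurableSet
  · intro z hz z' hz' hne
    exact hdis (hfin.mem_toFinset.1 hz) (hfin.mem_toFinset.1 hz') hne
  · exact fun z hz => hint.mono_set
      ((he z (hfin.mem_toFinset.1 hz)).2.1.trans inter_subset_left)

/-! ### Sard and openness -/

theorem null_nonreg (hW : IsOpen W) (hG : DifferentiableOn ℂ G W) :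
    (volume : Measure (Cn N)) {ζ | ¬ Reg W G ζ} = 0 := by
  have h1 : {ζ | ¬ Reg W G ζ} = G '' {z | z ∈ W ∧ J G z = 0} := by
    ext ζ
    simp only [Reg, mem_ofPred_eq, mem_image]
    push Not
    exact ⟨fun ⟨z, a, b, c⟩ => ⟨z, ⟨a, c⟩, b⟩, fun ⟨z, ⟨a, c⟩, b⟩ => ⟨z, a, b, c⟩⟩
  rw [h1]
  refine addHaar_image_eq_zero_of_det_fderivWithin_eq_zero (volume : Measure (Cn N))
    (f' := fun y => (fderiv ℂ G y).restrictScalars ℝ)
    (fun y hy => ((hG.differentiableAt (hW.mem_nhds hy.1)).hasFDerivAt.restrictScalars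
        ℝ).hasFDerivWithinAt) fun y hy => ?_
  have h2 : (fderiv ℂ G y).det = 0 := hy.2
  rw [det_real, h2, map_zero]

theorem dense_reg (hW : IsOpen W) (hG : DifferentiableOn ℂ G W) : Dense {ζ | Reg W G ζ} := by
  have h1 := (null_nonreg hW hG)
  have h2 : {ζ | ¬ Reg W G ζ} = {ζ | Reg W G ζ}ᶜ := rfl
  rw [h2] at h1
  exact Measure.dense_of_ae (mem_ae_iff.2 h1)

theorem isOpen_reg (hW : IsOpen W) (hG : DifferentiableOn ℂ G W) {ζ : Cn N} {R : ℝ} (hR : 0 < R)
    (hK : IsCompact (W ∩ G ⁻¹' closedBall ζ R)) (hr : Reg W G ζ) :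
    ∀ᶠ η in 𝓝 ζ, Reg W G η := by
  obtain ⟨e, δ, hδ, hδR, he, hdis, hcov⟩ := sheets hW hG hR hK hr
  filter_upwards [closedBall_mem_nhds ζ hδ] with η hη z hz hzη
  obtain ⟨y, hy, hzy⟩ := hcov z hz (by rw [hzη]; exact hη)
  exact ((he y hy).2.1 hzy).2

/-- proper holomorphic map between open sets -/
structure PM (W D : Set (Cn N)) (G : Cn N → Cn N) : Prop where
  hW : IsOpen W
  hD : IsOpen D
  hol : DifferentiableOn ℂ G W
  proper : ∀ K ⊆ D, IsCompact K → IsCompact (W ∩ G ⁻¹' K)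

theorem PM.ball (H : PM W D G) {ζ : Cn N} (hζ : ζ ∈ D) :
    ∃ R > 0, closedBall ζ R ⊆ D ∧ IsCompact (W ∩ G ⁻¹' closedBall ζ R) := by
  obtain ⟨R, hR, hRD⟩ := nhds_basis_closedBall.mem_iff.1 (H.hD.mem_nhds hζ)
  exact ⟨R, hR, hRD, H.proper _ hRD (isCompact_closedBall _ _)⟩

theorem PM.finite (H : PM W D G) {ζ : Cn N} (hζ : ζ ∈ D) (hr : Reg W G ζ) :
    (Fib W G ζ).Finite := by
  obtain ⟨R, hR, -, hK⟩ := H.ball hζ
  exact Fib_finite H.hW H.hol hR.le hK hr

theorem PM.isOpen (H : PM W D G) : IsOpen (D ∩ {ζ | Reg W G ζ}) := by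
  rw [isOpen_iff_mem_nhds]
  rintro ζ ⟨hζ, hr⟩
  obtain ⟨R, hR, -, hK⟩ := H.ball hζ
  exact inter_mem (H.hD.mem_nhds hζ) (isOpen_reg H.hW H.hol hR hK hr)

theorem PM.closure (H : PM W D G) : D ⊆ _root_.closure (D ∩ {ζ | Reg W G ζ}) := by
  have := (dense_reg H.hW H.hol).open_subset_closure_inter H.hD
  exact this

/-- **traces** -/
theorem PM.trace (H : PM W D G) (hN : 0 < N) (hh : DifferentiableOn ℂ h W) :
    ∃ T : Cn N → ℂ, DifferentiableOn ℂ T D ∧
      ∀ ζ ∈ D, Reg W G ζ → T ζ = ∑ᶠ z ∈ Fib W G ζ, h z := by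
  classical
  have hk : ∀ ε : ℝ, ∃ φ : Cn N → ℂ, 0 < ε → Ker φ ε := by
    intro ε
    by_cases hε : 0 < ε
    · obtain ⟨φ, hφ⟩ := exists_ker hN hε
      exact ⟨φ, fun _ => hφ⟩
    · exact ⟨0, fun h => absurd h hε⟩
  choose κ hκ using hk
  have hr : ∀ ζ : Cn N, ∃ ε : ℝ, ζ ∈ D → (0 < ε ∧ closedBall ζ (3 * ε) ⊆ D) := by
    intro ζ
    by_cases hζ : ζ ∈ D
    · obtain ⟨R, hR, hRD⟩ := nhds_basis_closedBall.mem_iff.1 (H.hD.mem_nhds hζ)
      exact ⟨R / 3, fun _ => ⟨by linarith, by rwa [mul_div_cancel₀ R (by norm_num : (3:ℝ) ≠ 0)]⟩⟩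
    · exact ⟨0, fun h => absurd h hζ⟩
  choose ε hε using hr
  -- independence
  have hind : ∀ ζ ∈ D, ∀ δ : ℝ, 0 < δ → closedBall ζ (3 * δ) ⊆ D →
      S W G h (κ (ε ζ)) ζ = S W G h (κ δ) ζ := by
    intro ζ hζ δ hδ hδD
    obtain ⟨hε0, hεD⟩ := hε ζ hζ
    rcases le_total (ε ζ) δ with hle | hle
    · exact S_indep H.hW H.hol hh (hκ _ hε0) (hκ _ hδ) (R := 3 * δ) (by linarith)
        (H.proper _ hδD (isCompact_closedBall _ _))
    · exact S_indep H.hW H.hol hh (hκ _ hε0) (hκ _ hδ) (R := 3 * ε ζ) (by linarith)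
        (H.proper _ hεD (isCompact_closedBall _ _))
  refine ⟨fun ζ => S W G h (κ (ε ζ)) ζ, ?_, ?_⟩
  · intro ζ hζ
    obtain ⟨R, hR, hRD, hK⟩ := H.ball hζ
    have h1 : (fun ζ => S W G h (κ (ε ζ)) ζ) =ᶠ[𝓝 ζ] S W G h (κ (R / 4)) := by
      filter_upwards [ball_mem_nhds ζ (by linarith : 0 < R / 4)] with η hη
      rw [mem_ball] at hη
      have h2 : closedBall η (3 * (R / 4)) ⊆ D :=
        (closedBall_subset_closedBall' (by linarith)).trans hRD
      exact hind η (h2 (mem_closedBall_self (by linarith))) _ (by linarith) h2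
    have h2 : DifferentiableAt ℂ (S W G h (κ (R / 4))) ζ :=
      S_hol H.hW H.hol hh (hκ _ (by linarith)).smooth (hκ _ (by linarith)).supp
        (R := R) (by linarith) hK
    exact (h2.congr_of_eventuallyEq h1).differentiableWithinAt
  · intro ζ hζ hreg
    obtain ⟨R, hR, hRD, hK⟩ := H.ball hζ
    obtain ⟨δ, hδ, hS⟩ := S_reg H.hW H.hol hR hK hreg
    set η := min (δ / 2) (R / 3) with hη
    have hη0 : 0 < η := lt_min (by linarith) (by linarith)
    have h1 := hind ζ hζ η hη0 ((closedBall_subset_closedBall (by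
      have := min_le_right (δ / 2) (R / 3)
      rw [← hη] at this
      linarith)).trans hRD)
    simp only
    rw [h1]
    exact hS hh ((min_le_left _ _).trans_lt (by linarith)) (hκ _ hη0)

/-- **FIN**: the number of points of a regular fibre is constant -/
theorem PM.fin (H : PM W D G) (hN : 0 < N) (hc : IsPreconnected D) :
    ∃ d : ℕ, (∀ ζ ∈ D, Reg W G ζ → (Fib W G ζ).ncard = d) ∧
      ∀ h : Cn N → ℂ, DifferentiableOn ℂ h W →
        ∃ T : Cn N → ℂ, DifferentiableOn ℂ T D ∧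
          (∀ ζ ∈ D, Reg W G ζ → T ζ = ∑ᶠ z ∈ Fib W G ζ, h z) ∧
          ∀ C : ℝ, (∀ z ∈ W, ‖h z‖ ≤ C) → ∀ ζ ∈ D, ‖T ζ‖ ≤ d * C := by
  classical
  -- closed conditions pass to the closure
  have hcl : ∀ {T : Cn N → ℂ} {P : Set ℂ}, DifferentiableOn ℂ T D → IsClosed P →
      (∀ ζ ∈ D, Reg W G ζ → T ζ ∈ P) → ∀ ζ ∈ D, T ζ ∈ P := by
    intro T P hT hP hTP ζ hζ
    have h1 : (𝓝[D ∩ {ζ | Reg W G ζ}] ζ).NeBot :=
      mem_closure_iff_nhdsWithin_neBot.1 (H.closure hζ)
    have h2 : Tendsto T (𝓝[D ∩ {ζ | Reg W G ζ}] ζ) (𝓝 (T ζ)) :=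
      (hT.continuousOn ζ hζ).mono_left (nhdsWithin_mono _ inter_subset_left)
    exact hP.mem_of_tendsto h2 (by
      filter_upwards [self_mem_nhdsWithin] with y hy using hTP y hy.1 hy.2)
  obtain ⟨T₁, hT₁, hT₁r⟩ := H.trace hN (h := fun _ => 1) (differentiableOn_const _)
  have hcard : ∀ ζ ∈ D, Reg W G ζ → T₁ ζ = ((Fib W G ζ).ncard : ℂ) := by
    intro ζ hζ hr
    rw [hT₁r ζ hζ hr, finsum_mem_eq_finite_toFinset_sum _ (H.finite hζ hr),
      ncard_eq_toFinset_card _ (H.finite hζ hr)]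
    simp
  have hreal : ∀ ζ ∈ D, (T₁ ζ).im = 0 := by
    refine hcl hT₁ (P := {w : ℂ | w.im = 0}) (isClosed_eq continuous_im continuous_const) ?_
    intro ζ hζ hr
    rw [hcard ζ hζ hr]
    simp
  have hd0 : D.EqOn (fderiv ℂ T₁) 0 := by
    intro ζ hζ
    have h1 : DifferentiableAt ℂ T₁ ζ := hT₁.differentiableAt (H.hD.mem_nhds hζ)
    have h2 : ∀ v, (fderiv ℂ T₁ ζ v).im = 0 := by
      intro v
      have h3 : HasFDerivAt (fun y => (T₁ y).im)
          (imCLM.comp ((fderiv ℂ T₁ ζ).restrictScalars ℝ)) ζ :=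
        imCLM.hasFDerivAt.comp ζ (h1.hasFDerivAt.restrictScalars ℝ)
      have h4 : (fun y => (T₁ y).im) =ᶠ[𝓝 ζ] fun _ => 0 := by
        filter_upwards [H.hD.mem_nhds hζ] with y hy using hreal y hy
      have h5 := h4.fderiv_eq (𝕜 := ℝ)
      rw [h3.fderiv] at h5
      have h6 := congrArg (fun L : Cn N →L[ℝ] ℝ => L v) h5
      simpa using h6
    ext v
    have h7 := h2 v
    have h8 := h2 (I • v)
    rw [map_smul, smul_eq_mul] at h8
    apply Complex.ext
    · simpa using h8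
    · simpa using h7
  have hconst : ∀ ζ ∈ D, ∀ η ∈ D, T₁ ζ = T₁ η := fun ζ hζ η hη =>
    H.hD.is_const_of_fderiv_eq_zero hc hT₁ hd0 hζ hη
  obtain ⟨d, hd⟩ : ∃ d : ℕ, ∀ ζ ∈ D, Reg W G ζ → (Fib W G ζ).ncard = d := by
    by_cases hne : ∃ ζ ∈ D, Reg W G ζ
    · obtain ⟨ζ₀, hζ₀, hr₀⟩ := hne
      refine ⟨(Fib W G ζ₀).ncard, fun ζ hζ hr => ?_⟩
      have := hconst ζ hζ ζ₀ hζ₀
      rw [hcard ζ hζ hr, hcard ζ₀ hζ₀ hr₀] at this
      exact_mod_cast this
    · exact ⟨0, fun ζ hζ hr => absurd ⟨ζ, hζ, hr⟩ hne⟩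
  refine ⟨d, hd, fun h hh => ?_⟩
  obtain ⟨T, hT, hTr⟩ := H.trace hN hh
  refine ⟨T, hT, hTr, fun C hC ζ hζ => ?_⟩
  have := hcl hT (P := closedBall 0 (d * C)) isClosed_closedBall (fun η hη hr => ?_) ζ hζ
  · simpa using this
  · rw [mem_closedBall_zero_iff, hTr η hη hr,
      finsum_mem_eq_finite_toFinset_sum _ (H.finite hη hr)]
    refine (norm_sum_le _ _).trans ?_
    have h1 : ∑ z ∈ (H.finite hη hr).toFinset, ‖h z‖ ≤
        ∑ _z ∈ (H.finite hη hr).toFinset, C :=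
      Finset.sum_le_sum fun z hz => hC z ((H.finite hη hr).mem_toFinset.1 hz).1
    refine h1.trans (le_of_eq ?_)
    rw [Finset.sum_const, nsmul_eq_mul, ← ncard_eq_toFinset_card _ (H.finite hη hr), hd η hη hr]

/-- a regular point gives a non-empty regular fibre -/
theorem PM.exists_fib (H : PM W D G) {z : Cn N} (hz : z ∈ W) (hGz : G z ∈ D) (hJ : J G z ≠ 0) :
    ∃ ζ ∈ D, Reg W G ζ ∧ (Fib W G ζ).Nonempty := by
  obtain ⟨e, hze, heW, heG, -, -⟩ := exists_inv H.hW H.hol hz hJ (H.hW.mem_nhds hz)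
  have h1 : G z ∈ e.target := by
    rw [← heG]
    exact e.map_source hze
  have h2 : IsOpen (e.target ∩ D) := e.open_target.inter H.hD
  obtain ⟨ζ, hζ, hr⟩ := (dense_reg H.hW H.hol).inter_open_nonempty _ h2 ⟨G z, h1, hGz⟩
  refine ⟨ζ, hζ.2, hr, e.symm ζ, heW (e.map_target hζ.1), ?_⟩
  rw [mem_preimage, mem_singleton_iff, ← heG]
  exact e.right_inv hζ.1

end Crest.Agent.R281.Fr2_316
end
end

-- ▼ part R281/Fr5_316
section

/-!
# Row 281, leaf S6-FRAME (helper316), part 5: FIN between open subsets of finite dimensional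
complex spaces
-/

set_option autoImplicit false
set_option linter.unusedSectionVars false

open Set Filter Topology MeasureTheory Complex Metric
open scoped ContDiff ComplexConjugate Real

noncomputable section

namespace Crest.Agent.R281.Fr5_316

open Crest.Agent.R266.SCV Crest.Agent.R281.Fr2_316

variable {E F : Type*} [NormedAddCommGroup E] [NormedSpace ℂ E] [NormedAddCommGroup F]
  [NormedSpace ℂ F] {N : ℕ}

/-- proper holomorphic map between open sets -/
structure PMg (W : Set E) (D : Set F) (G : E → F) : Prop where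
  hW : IsOpen W
  hD : IsOpen D
  hol : DifferentiableOn ℂ G W
  proper : ∀ K ⊆ D, IsCompact K → IsCompact (W ∩ G ⁻¹' K)

/-- `ζ` is a regular value -/
def Rg (W : Set E) (G : E → F) (ζ : F) : Prop :=
  ∀ z ∈ W, G z = ζ → Function.Injective (fderiv ℂ G z)

variable {W : Set E} {D : Set F} {G : E → F}

/-- transport to `ℂ^N` -/
def tr (a : E ≃L[ℂ] (Fin N → ℂ)) (b : F ≃L[ℂ] (Fin N → ℂ)) (G : E → F) :
    (Fin N → ℂ) → (Fin N → ℂ) := fun z => b (G (a.symm z))

theorem fderiv_tr (a : E ≃L[ℂ] (Fin N → ℂ)) (b : F ≃L[ℂ] (Fin N → ℂ)) {z : E}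
    (hG : DifferentiableAt ℂ G z) :
    fderiv ℂ (tr a b G) (a z) =
      (b : F →L[ℂ] (Fin N → ℂ)).comp ((fderiv ℂ G z).comp (a.symm : (Fin N → ℂ) →L[ℂ] E)) := by
  have h1 : HasFDerivAt G (fderiv ℂ G z) (a.symm (a z)) := by
    rw [a.symm_apply_apply]
    exact hG.hasFDerivAt
  have h2 := b.hasFDerivAt.comp (a z) (h1.comp (a z) a.symm.hasFDerivAt)
  exact h2.fderiv

theorem J_tr (a : E ≃L[ℂ] (Fin N → ℂ)) (b : F ≃L[ℂ] (Fin N → ℂ)) {z : E}
    (hG : DifferentiableAt ℂ G z) :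
    J (tr a b G) (a z) ≠ 0 ↔ Function.Injective (fderiv ℂ G z) := by
  have h0 : J (tr a b G) (a z) = LinearMap.det
      ((fderiv ℂ (tr a b G) (a z) : (Fin N → ℂ) →L[ℂ] (Fin N → ℂ)) :
        (Fin N → ℂ) →ₗ[ℂ] (Fin N → ℂ)) := rfl
  have h1 : J (tr a b G) (a z) ≠ 0 ↔
      Function.Injective (fderiv ℂ (tr a b G) (a z)) := by
    rw [h0]
    constructor
    · intro h
      have := ((LinearMap.isUnit_iff_isUnit_det _).2 (isUnit_iff_ne_zero.2 h))
      rw [LinearMap.isUnit_iff_ker_eq_bot, LinearMap.ker_eq_bot] at this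
      exact this
    · intro h
      have h2 : IsUnit ((fderiv ℂ (tr a b G) (a z) : (Fin N → ℂ) →L[ℂ] (Fin N → ℂ)) :
        (Fin N → ℂ) →ₗ[ℂ] (Fin N → ℂ)) := by
        rw [LinearMap.isUnit_iff_ker_eq_bot, LinearMap.ker_eq_bot]
        exact h
      exact ((LinearMap.isUnit_iff_isUnit_det _).1 h2).ne_zero
  rw [h1, fderiv_tr a b hG]
  constructor
  · intro h x y hxy
    have := @h (a x) (a y) (by simp [hxy])
    exact a.injective this
  · intro h x y hxy
    have h3 : b (fderiv ℂ G z (a.symm x)) = b (fderiv ℂ G z (a.symm y)) := hxy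
    exact a.symm.injective (h (b.injective h3))

theorem PMg.pm (H : PMg W D G) (a : E ≃L[ℂ] (Fin N → ℂ)) (b : F ≃L[ℂ] (Fin N → ℂ)) :
    PM (a.symm ⁻¹' W) (b.symm ⁻¹' D) (tr a b G) where
  hW := H.hW.preimage a.symm.continuous
  hD := H.hD.preimage b.symm.continuous
  hol := by
    intro z hz
    have h1 : DifferentiableAt ℂ G (a.symm z) := H.hol.differentiableAt (H.hW.mem_nhds hz)
    exact (b.differentiableAt.comp z (h1.comp z a.symm.differentiableAt)).differentiableWithinAt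
  proper := by
    intro K hK hKc
    have h1 := H.proper (b.symm '' K) (by
      rintro _ ⟨k, hk, rfl⟩
      exact hK hk) (hKc.image b.symm.continuous)
    have h2 : a.symm ⁻¹' W ∩ tr a b G ⁻¹' K = a '' (W ∩ G ⁻¹' (b.symm '' K)) := by
      ext z
      constructor
      · rintro ⟨hz, hzK⟩
        refine ⟨a.symm z, ⟨hz, b (G (a.symm z)), hzK, by simp⟩, by simp⟩
      · rintro ⟨y, ⟨hy, k, hk, hky⟩, rfl⟩
        refine ⟨by simpa using hy, ?_⟩
        simp only [mem_preimage, tr, ContinuousLinearEquiv.symm_apply_apply]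
        rw [← hky]
        simpa using hk
    rw [h2]
    exact h1.image a.continuous

theorem Rg_iff (H : PMg W D G) (a : E ≃L[ℂ] (Fin N → ℂ)) (b : F ≃L[ℂ] (Fin N → ℂ)) (ζ : F) :
    Reg (a.symm ⁻¹' W) (tr a b G) (b ζ) ↔ Rg W G ζ := by
  constructor
  · intro h z hz hzζ
    rw [← J_tr a b (H.hol.differentiableAt (H.hW.mem_nhds hz))]
    exact h (a z) (by simpa using hz) (by simp [tr, hzζ])
  · intro h z hz hzζ
    have h1 := h (a.symm z) hz (b.injective hzζ)
    rw [← J_tr a b (H.hol.differentiableAt (H.hW.mem_nhds hz))] at h1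
    simpa using h1

theorem Fib_eq (a : E ≃L[ℂ] (Fin N → ℂ)) (b : F ≃L[ℂ] (Fin N → ℂ)) (ζ : F) :
    Fib (a.symm ⁻¹' W) (tr a b G) (b ζ) = a '' (W ∩ G ⁻¹' {ζ}) := by
  ext z
  constructor
  · rintro ⟨hz, hzK⟩
    exact ⟨a.symm z, ⟨hz, b.injective hzK⟩, by simp⟩
  · rintro ⟨y, ⟨hy, hyζ⟩, rfl⟩
    refine ⟨by simpa using hy, ?_⟩
    simp only [mem_preimage, tr, ContinuousLinearEquiv.symm_apply_apply, mem_singleton_iff]
    rw [mem_preimage, mem_singleton_iff] at hyζ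
    rw [hyζ]

theorem PMg.finite (H : PMg W D G) (a : E ≃L[ℂ] (Fin N → ℂ)) (b : F ≃L[ℂ] (Fin N → ℂ)) {ζ : F}
    (hζ : ζ ∈ D) (hr : Rg W G ζ) : (W ∩ G ⁻¹' {ζ}).Finite := by
  have h1 := (H.pm a b).finite (ζ := b ζ) (by simpa using hζ) ((Rg_iff H a b ζ).2 hr)
  rw [Fib_eq] at h1
  exact Finite.of_finite_image h1 a.injective.injOn

theorem PMg.isOpen_reg (H : PMg W D G) (a : E ≃L[ℂ] (Fin N → ℂ)) (b : F ≃L[ℂ] (Fin N → ℂ)) :
    IsOpen (D ∩ {ζ | Rg W G ζ}) := by
  have h1 := (H.pm a b).isOpen.preimage b.continuous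
  have h2 : b ⁻¹' (b.symm ⁻¹' D ∩ {ζ | Reg (a.symm ⁻¹' W) (tr a b G) ζ}) = D ∩ {ζ | Rg W G ζ} := by
    ext ζ
    simp only [mem_preimage, mem_inter_iff, mem_ofPred_eq, Rg_iff H a b ζ,
      ContinuousLinearEquiv.symm_apply_apply]
  rwa [h2] at h1

/-- Sard -/
theorem PMg.null (H : PMg W D G) (a : E ≃L[ℂ] (Fin N → ℂ)) (b : F ≃L[ℂ] (Fin N → ℂ))
    [MeasurableSpace F] [BorelSpace F] (μ : Measure F) [μ.IsAddHaarMeasure] :
    μ {ζ | ¬ Rg W G ζ} = 0 := by
  have h0 := null_nonreg (H.pm a b).hW (H.pm a b).hol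
  have : (μ.map b).IsAddHaarMeasure := b.isAddHaarMeasure_map μ
  have h1 : (μ.map b) ≪ volume := Measure.absolutelyContinuous_isAddHaarMeasure _ _
  have h2 := h1 h0
  have h3 : MeasurableEmbedding b := b.toHomeomorph.measurableEmbedding
  rw [h3.map_apply] at h2
  refine measure_mono_null ?_ h2
  intro ζ hζ
  simp only [mem_preimage, mem_ofPred_eq]
  rwa [Rg_iff H a b ζ]

/-- **FIN** -/
theorem PMg.fin (H : PMg W D G) (a : E ≃L[ℂ] (Fin N → ℂ)) (b : F ≃L[ℂ] (Fin N → ℂ)) (hN : 0 < N)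
    (hc : IsPreconnected D) :
    ∃ d : ℕ, (∀ ζ ∈ D, Rg W G ζ → (W ∩ G ⁻¹' {ζ}).ncard = d) ∧
      ∀ h : E → ℂ, DifferentiableOn ℂ h W →
        ∃ T : F → ℂ, DifferentiableOn ℂ T D ∧
          (∀ ζ ∈ D, Rg W G ζ → T ζ = ∑ᶠ z ∈ W ∩ G ⁻¹' {ζ}, h z) ∧
          ∀ C : ℝ, (∀ z ∈ W, ‖h z‖ ≤ C) → ∀ ζ ∈ D, ‖T ζ‖ ≤ d * C := by
  classical
  have hc' : IsPreconnected (b.symm ⁻¹' D) := by
    have h1 := hc.image b b.continuous.continuousOn
    rwa [b.image_eq_preimage_symm] at h1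
  obtain ⟨d, hd, hT⟩ := (H.pm a b).fin hN hc'
  refine ⟨d, fun ζ hζ hr => ?_, fun h hh => ?_⟩
  · rw [← hd (b ζ) (by simpa using hζ) ((Rg_iff H a b ζ).2 hr), Fib_eq,
      ncard_image_of_injective _ a.injective]
  · obtain ⟨T, hTd, hTr, hTb⟩ := hT (fun z => h (a.symm z)) (by
      intro z hz
      have h1 : DifferentiableAt ℂ h (a.symm z) := hh.differentiableAt (H.hW.mem_nhds hz)
      exact (h1.comp z a.symm.differentiableAt).differentiableWithinAt)
    refine ⟨fun ζ => T (b ζ), ?_, ?_, ?_⟩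
    · exact hTd.comp b.differentiable.differentiableOn fun ζ hζ => by simpa using hζ
    · intro ζ hζ hr
      show T (b ζ) = _
      rw [hTr (b ζ) (by simpa using hζ) ((Rg_iff H a b ζ).2 hr), Fib_eq,
        finsum_mem_image a.injective.injOn]
      simp
    · intro C hC ζ hζ
      exact hTb C (fun z hz => hC _ hz) (b ζ) (by simpa using hζ)

theorem PMg.exists_fib (H : PMg W D G) (a : E ≃L[ℂ] (Fin N → ℂ)) (b : F ≃L[ℂ] (Fin N → ℂ))
    {z : E} (hz : z ∈ W) (hGz : G z ∈ D) (hJ : Function.Injective (fderiv ℂ G z)) :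
    ∃ ζ ∈ D, Rg W G ζ ∧ (W ∩ G ⁻¹' {ζ}).Nonempty := by
  have h1 := (J_tr a b (H.hol.differentiableAt (H.hW.mem_nhds hz))).2 hJ
  obtain ⟨ζ, hζ, hr, hne⟩ := (H.pm a b).exists_fib (z := a z) (by simpa using hz)
    (by simpa [tr] using hGz) h1
  have h2 : ζ = b (b.symm ζ) := by simp
  rw [h2] at hr hne
  rw [Fib_eq] at hne
  exact ⟨b.symm ζ, hζ, (Rg_iff H a b _).1 hr, (image_nonempty).1 hne⟩

end Crest.Agent.R281.Fr5_316
end
end

-- ▼ part R281/Fr6_316
section

/-!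
# Row 281, leaf S6-FRAME (helper316), part 6: choice of the slice (pure part)

* `conn_of_sth`   : the complement of a `σ`-thin set in a connected open set is connected;
* `exists_slice`  : a radius `r` and a linear map `p` without common zeros on `Z ∩ {|z - z₀| = r}`;
* `exists_perturb`: a small perturbation of `p` is transversal to a given linear submersion.
-/

set_option autoImplicit false
set_option linter.unusedSectionVars false

open Set Filter Topology MeasureTheory Complex Metric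
open scoped ContDiff ComplexConjugate Real ENNReal

noncomputable section

namespace Crest.Agent.R281.Fr6_316

open Crest.Agent.R281.Thn_280 Crest.Agent.R275.Geo

section conn

variable {E : Type*} [NormedAddCommGroup E] [NormedSpace ℂ E] [FiniteDimensional ℂ E]

theorem conn_of_sth {V S : Set E} (hV : IsOpen V) (hc : IsPreconnected V) (hS : STh S)
    (ho : IsOpen (V \ S)) : IsPreconnected (V \ S) := by
  classical
  borelize E
  rw [isPreconnected_iff_subset_of_disjoint]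
  intro u v hu hv hsub hdis
  by_contra hcon
  push Not at hcon
  obtain ⟨hnu, hnv⟩ := hcon
  obtain ⟨z₁, hz₁, hz₁u⟩ := not_subset.1 hnu
  obtain ⟨z₂, hz₂, hz₂v⟩ := not_subset.1 hnv
  set f : E → ℂ := fun z => if z ∈ u then 1 else 0 with hf
  have hfd : DifferentiableOn ℂ f (V \ S) := by
    intro z hz
    rcases hsub hz with hzu | hzv
    · have : f =ᶠ[𝓝 z] fun _ => 1 := by
        filter_upwards [hu.mem_nhds hzu] with y hy
        simp [hf, hy]
      exact ((differentiableAt_const _).congr_of_eventuallyEq this).differentiableWithinAt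
    · have : f =ᶠ[𝓝 z] fun _ => 0 := by
        filter_upwards [hv.mem_nhds hzv, ho.mem_nhds hz] with y hy hy'
        have : y ∉ u := fun hyu => by
          have : y ∈ (V \ S) ∩ (u ∩ v) := ⟨hy', hyu, hy⟩
          rw [hdis] at this
          exact this
        simp [hf, this]
      exact ((differentiableAt_const _).congr_of_eventuallyEq this).differentiableWithinAt
  obtain ⟨g, hg, hgf⟩ := STh.extend hV hS ho hfd fun z _ => ⟨univ, univ_mem, 1, fun w _ => by
    simp only [hf]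
    split_ifs <;> simp⟩
  have hgc : ContinuousOn g V := hg.continuousOn
  have h01 : ∀ z ∈ V, g z ∈ ({0, 1} : Set ℂ) := by
    intro z hz
    have hNB : (𝓝[V \ S] z).NeBot := by
      rw [← mem_closure_iff_nhdsWithin_neBot, mem_closure_iff_nhds]
      intro t ht
      obtain ⟨w, hw, hwt⟩ := hS.dense_compl.inter_nhds_nonempty (inter_mem ht (hV.mem_nhds hz))
      exact ⟨w, hwt.1, hwt.2, hw⟩
    have h2 : Tendsto g (𝓝[V \ S] z) (𝓝 (g z)) := (hgc z hz).mono_left
      (nhdsWithin_mono _ sdiff_subset)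
    refine (Set.Finite.isClosed (by simp) : IsClosed ({0, 1} : Set ℂ)).mem_of_tendsto h2 ?_
    filter_upwards [self_mem_nhdsWithin] with y hy
    rw [hgf y hy]
    simp only [hf]
    split_ifs <;> simp
  have hre : ContinuousOn (fun z => (g z).re) V := continuous_re.comp_continuousOn hgc
  have h1 : (g z₁).re = 0 := by
    rw [hgf z₁ hz₁]
    simp [hf, hz₁u]
  have h2 : (g z₂).re = 1 := by
    have : z₂ ∈ u := (hsub hz₂).resolve_right hz₂v
    rw [hgf z₂ hz₂]
    simp [hf, this]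
  have h3 := hc.intermediate_value hz₁.1 hz₂.1 hre
  rw [h1, h2] at h3
  obtain ⟨z, hz, hz'⟩ := h3 (show (1 / 2 : ℝ) ∈ Icc (0 : ℝ) 1 by norm_num)
  have hz2 : (g z).re = 1 / 2 := hz'
  rcases h01 z hz with h4 | h4
  · rw [h4] at hz2; norm_num at hz2
  · rw [mem_singleton_iff.1 h4] at hz2; norm_num at hz2

end conn

section slice

variable {E W : Type*} [NormedAddCommGroup E] [NormedSpace ℂ E] [FiniteDimensional ℂ E]
  [NormedAddCommGroup W] [NormedSpace ℂ W] [FiniteDimensional ℂ W]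
  [MeasurableSpace E] [BorelSpace E]

theorem exists_slice (hE : 0 < Module.finrank ℂ E) {Z : Set E} {z₀ : E} {r₂ : ℝ} (hr₂ : 0 < r₂)
    (hZ : μH[(Module.finrank ℝ W : ℝ)] (Z ∩ closedBall z₀ r₂) < ⊤) :
    ∃ r : ℝ, 0 < r ∧ r < r₂ ∧ ∃ p : E →L[ℂ] W, ∀ z ∈ Z, ‖z - z₀‖ = r → p (z - z₀) ≠ 0 := by
  obtain ⟨N, hN⟩ : ∃ N, Module.finrank ℂ E = N + 1 := ⟨_, (Nat.succ_pred_eq_of_pos hE).symm⟩
  have b : Module.Basis (Fin (N + 1)) ℂ E := Module.finBasisOfFinrankEq ℂ E hN
  borelize W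
  have : ProperSpace W := FiniteDimensional.proper ℂ W
  obtain ⟨K⟩ : Nonempty (TopologicalSpace.PositiveCompacts W) := inferInstance
  let μ : Measure W := Measure.addHaarMeasure K
  set Z' : Set E := (fun z => z - z₀) '' (Z ∩ closedBall z₀ r₂) with hZ'
  have hiso : Isometry (fun z : E => z - z₀) := (IsometryEquiv.subRight z₀).isometry
  have h1 : μH[(Module.finrank ℝ W : ℝ)] Z' < ⊤ := by
    rw [hZ', hiso.hausdorffMeasure_image (Or.inl (by positivity))]
    exact hZ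
  have h2 := Crest.Agent.R281.Fr1_316.slice_null b μ Z' (r₂ / 2) (by linarith)
    (lt_of_le_of_lt (measure_mono inter_subset_left) h1)
  -- the set of pairs with r in the interval is not null
  have h3 : ((volume : Measure ℝ).prod (Measure.pi fun _ : Fin (N + 1) => μ))
      (Ioo (r₂ / 2) r₂ ×ˢ univ) ≠ 0 := by
    rw [Measure.prod_prod]
    refine mul_ne_zero ?_ ?_
    · rw [Real.volume_Ioo]
      simp
      linarith
    · exact (isOpen_univ.measure_pos _ univ_nonempty).ne'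
  obtain ⟨⟨r, q⟩, hrq, hbad⟩ : ∃ x ∈ (Ioo (r₂ / 2) r₂ ×ˢ (univ : Set (Fin (N + 1) → W))),
      x ∉ Crest.Agent.R281.Fr1_316.Bad (W := W) b (Z' ∩ {z | r₂ / 2 ≤ ‖z‖}) := by
    by_contra hcon
    push Not at hcon
    exact h3 (measure_mono_null hcon h2)
  have hr : r ∈ Ioo (r₂ / 2) r₂ := hrq.1
  refine ⟨r, by linarith [hr.1], hr.2, LinearMap.toContinuousLinearMap
    (∑ i, (b.coord i).smulRight (q i)), fun z hz hzr hpz => hbad ?_⟩
  refine ⟨z - z₀, ⟨⟨z, ⟨hz, ?_⟩, rfl⟩, ?_⟩, hzr, ?_⟩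
  · rw [mem_closedBall, dist_eq_norm, hzr]
    exact hr.2.le
  · show r₂ / 2 ≤ ‖z - z₀‖
    rw [hzr]
    exact hr.1.le
  · simpa using hpz

end slice

section perturb

variable {E W : Type*} [NormedAddCommGroup E] [NormedSpace ℂ E] [FiniteDimensional ℂ E]
  [NormedAddCommGroup W] [NormedSpace ℂ W] [FiniteDimensional ℂ W]

theorem exists_perturb (hdim : Module.finrank ℂ E = 2 * Module.finrank ℂ W) (q p₀ : E →L[ℂ] W)
    (hq : Function.Surjective q) {ε : ℝ} (hε : 0 < ε) :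
    ∃ p : E →L[ℂ] W, ‖p - p₀‖ < ε ∧ ∀ v, p v = 0 → q v = 0 → v = 0 := by
  have hker : Module.finrank ℂ (LinearMap.ker (q : E →ₗ[ℂ] W)) = Module.finrank ℂ W := by
    have h1 := LinearMap.finrank_range_add_finrank_ker (q : E →ₗ[ℂ] W)
    rw [LinearMap.range_eq_top.2 hq, finrank_top] at h1
    omega
  obtain ⟨θ⟩ : Nonempty (LinearMap.ker (q : E →ₗ[ℂ] W) ≃ₗ[ℂ] W) :=
    FiniteDimensional.nonempty_linearEquiv_of_finrank_eq hker
  obtain ⟨a, ha⟩ := LinearMap.exists_extend (p := LinearMap.ker (q : E →ₗ[ℂ] W)) (θ : _ →ₗ[ℂ] W)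
  set a' : E →L[ℂ] W := LinearMap.toContinuousLinearMap a with ha'
  set m : Module.End ℂ (LinearMap.ker (q : E →ₗ[ℂ] W)) :=
    (θ.symm : W →ₗ[ℂ] _) ∘ₗ ((p₀ : E →ₗ[ℂ] W) ∘ₗ (LinearMap.ker (q : E →ₗ[ℂ] W)).subtype) with hm
  have hfin : Set.Finite {μ : ℂ | m.HasEigenvalue μ} := Module.End.finite_hasEigenvalue m
  -- choose t
  obtain ⟨t, ht0, hte, htm⟩ : ∃ t : ℝ, 0 < t ∧ t * (‖a'‖ + 1) < ε ∧ ¬ m.HasEigenvalue (-(t : ℂ)) := by
    set δ := ε / (‖a'‖ + 1) with hδ
    have hδ0 : 0 < δ := by positivity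
    have hinf : (Ioo (0 : ℝ) δ).Infinite := Ioo_infinite hδ0
    have hfin' : Set.Finite ((fun t : ℝ => -(t : ℂ)) ⁻¹' {μ : ℂ | m.HasEigenvalue μ}) :=
      hfin.preimage (fun x _ y _ hxy => by simpa using hxy)
    obtain ⟨t, ht, htn⟩ := (hinf.sdiff hfin').nonempty
    refine ⟨t, ht.1, ?_, htn⟩
    have := ht.2
    rw [hδ, lt_div_iff₀ (by positivity)] at this
    exact this
  refine ⟨p₀ + (t : ℂ) • a', ?_, ?_⟩
  · rw [add_sub_cancel_left, norm_smul, Complex.norm_real, Real.norm_of_nonneg ht0.le]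
    nlinarith [norm_nonneg a']
  · intro v hpv hqv
    by_contra hv
    apply htm
    set v' : LinearMap.ker (q : E →ₗ[ℂ] W) := ⟨v, hqv⟩ with hv'
    refine Module.End.hasEigenvalue_of_hasEigenvector (x := v') ?_
    rw [Module.End.hasEigenvector_iff]
    refine ⟨Module.End.mem_eigenspace_iff.2 ?_, fun h => hv (by simpa [hv'] using congrArg Subtype.val h)⟩
    apply θ.injective
    have h1 : a v = θ v' := LinearMap.congr_fun ha v'
    have h2 : θ (m v') = p₀ v := by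
      simp [hm, hv']
    have h3 : p₀ v + (t : ℂ) • a v = 0 := hpv
    rw [h2, map_smul, ← h1, neg_smul]
    exact eq_neg_of_add_eq_zero_left h3

end perturb

end Crest.Agent.R281.Fr6_316
end
end

-- ▼ part R281/Fr7_316
section

/-!
# Row 281, leaf S6-FRAME (helper316), part 7: slices of the fibres of a tube

`G = (p, f) : W' → D × V` is a proper holomorphic map between open subsets of `ℂ^(2n)`.
-/

set_option autoImplicit false
set_option linter.unusedSectionVars false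

open Set Filter Topology MeasureTheory Complex Metric
open scoped ContDiff ComplexConjugate Real ENNReal

noncomputable section

namespace Crest.Agent.R281.Fr7_316

open Crest.Agent.R275.Geo Crest.Agent.R275.Core144
open Crest.Agent.R281.Defs_273 Crest.Agent.R281.D6_986
open Crest.Agent.R281.S6D_664 (LFib Tube)
open Crest.Agent.R281.Fr5_316

variable {N n : ℕ} {M : Type} [TopologicalSpace M] {A : Atl N M} {Tf : M → Set M}

theorem tube_contAt (τ : Tube A n Tf) {x : M} (hx : x ∈ τ.W) : ContinuousAt τ.f x := by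
  obtain ⟨i, hi⟩ := A.cover x
  have ho : IsOpen ((A.e i).target ∩ (A.e i).symm ⁻¹' τ.W) := isOpen_ti τ.oW
  have hz : A.e i x ∈ (A.e i).target ∩ (A.e i).symm ⁻¹' τ.W :=
    ⟨(A.e i).map_source hi, by rw [mem_preimage, (A.e i).left_inv hi]; exact hx⟩
  have h1 : ContinuousAt (fun z => τ.f ((A.e i).symm z)) (A.e i x) :=
    ((τ.hol i).differentiableAt (ho.mem_nhds hz)).continuousAt
  have h2 : ContinuousAt (fun y => τ.f ((A.e i).symm (A.e i y))) x :=
    ContinuousAt.comp (f := A.e i) (g := fun z => τ.f ((A.e i).symm z)) h1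
      ((A.e i).continuousAt hi)
  refine h2.congr ?_
  filter_upwards [(A.e i).open_source.mem_nhds hi] with y hy
  rw [(A.e i).left_inv hy]

theorem tube_cont (τ : Tube A n Tf) : ContinuousOn τ.f τ.W := fun _ hx =>
  (tube_contAt τ hx).continuousWithinAt

/-- the part of the tube over a ball -/
def dom (τ : Tube A n Tf) (y : Cn n) (δ : ℝ) : Set M := τ.W ∩ τ.f ⁻¹' ball y δ

theorem isOpen_dom (τ : Tube A n Tf) (y : Cn n) (δ : ℝ) : IsOpen (dom τ y δ) :=
  (tube_cont τ).isOpen_inter_preimage τ.oW isOpen_ball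

theorem exists_dom [T2Space M] (τ : Tube A n Tf) {U : Set M} (hU : IsOpen U) {x : M}
    (hx : x ∈ τ.W) (hTU : Tf x ⊆ U) :
    ∃ δ : ℝ, 0 < δ ∧ ball (τ.f x) δ ⊆ τ.U ∧ dom τ (τ.f x) δ ⊆ U := by
  obtain ⟨R, hR, hRU⟩ := nhds_basis_closedBall.mem_iff.1 (τ.oU.mem_nhds (τ.maps hx))
  have hC : IsCompact ((τ.W ∩ τ.f ⁻¹' closedBall (τ.f x) R) \ U) :=
    (τ.proper _ hRU (isCompact_closedBall _ _)).diff hU
  have hC2 : IsCompact (τ.f '' ((τ.W ∩ τ.f ⁻¹' closedBall (τ.f x) R) \ U)) :=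
    hC.image_of_continuousOn ((tube_cont τ).mono fun y hy => hy.1.1)
  have hn : τ.f x ∉ τ.f '' ((τ.W ∩ τ.f ⁻¹' closedBall (τ.f x) R) \ U) := by
    rintro ⟨y, ⟨⟨hyW, -⟩, hyU⟩, hy⟩
    exact hyU (hTU (by rw [τ.fib x hx]; exact ⟨hyW, hy⟩))
  obtain ⟨δ, hδ, hδ'⟩ := nhds_basis_ball.mem_iff.1 (hC2.isClosed.isOpen_compl.mem_nhds hn)
  refine ⟨min δ R, lt_min hδ hR, ?_, ?_⟩
  · exact ((ball_subset_ball (min_le_right _ _)).trans ball_subset_closedBall).trans hRU
  · rintro y ⟨hyW, hyb⟩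
    by_contra hyU
    refine hδ' (ball_subset_ball (min_le_left _ _) hyb) ⟨y, ⟨⟨hyW, ?_⟩, hyU⟩, rfl⟩
    exact ball_subset_closedBall (ball_subset_ball (min_le_right _ _) hyb)

/-- slice data: chart ball, open set `U`, linear map `p` without small values on the sphere along
the fibres in `U` -/
structure SD (A : Atl N M) (Tf : M → Set M) (O : Set M) (n : ℕ) where
  i : A.ι
  z0 : Cn N
  r : ℝ
  r_pos : 0 < r
  hball : closedBall z0 r ⊆ (A.e i).target
  p : Cn N →L[ℂ] Cn n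
  ε : ℝ
  ε_pos : 0 < ε
  hsl : ∀ x ∈ O, ∀ z, ‖z - z0‖ = r → (A.e i).symm z ∈ Tf x → ε ≤ ‖p (z - z0)‖

variable {O : Set M}

/-- the source -/
def SD.W (S : SD A Tf O n) (τ : Tube A n Tf) (y : Cn n) (δ : ℝ) : Set (Cn N) :=
  {z | z ∈ ball S.z0 S.r ∧ (A.e S.i).symm z ∈ dom τ y δ ∧ ‖S.p (z - S.z0)‖ < S.ε}

/-- the map -/
def SD.G (S : SD A Tf O n) (τ : Tube A n Tf) (z : Cn N) : Cn n × Cn n :=
  (S.p (z - S.z0), τ.f ((A.e S.i).symm z))

/-- the slice of the fibre -/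
def SD.PS (S : SD A Tf O n) (c0 : Cn n) (x : M) : Set (Cn N) :=
  {z | z ∈ ball S.z0 S.r ∧ (A.e S.i).symm z ∈ Tf x ∧ S.p (z - S.z0) = c0}

theorem SD.isOpen_W (S : SD A Tf O n) (τ : Tube A n Tf) (y : Cn n) (δ : ℝ) :
    IsOpen (S.W τ y δ) := by
  have h1 : S.W τ y δ = ((A.e S.i).target ∩ (A.e S.i).symm ⁻¹' dom τ y δ) ∩
      (ball S.z0 S.r ∩ {z | ‖S.p (z - S.z0)‖ < S.ε}) := by
    ext z
    constructor
    · rintro ⟨h1, h2, h3⟩
      exact ⟨⟨S.hball (ball_subset_closedBall h1), h2⟩, h1, h3⟩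
    · rintro ⟨⟨_, h2⟩, h1, h3⟩
      exact ⟨h1, h2, h3⟩
  rw [h1]
  refine (isOpen_ti (isOpen_dom τ y δ)).inter (isOpen_ball.inter ?_)
  exact isOpen_lt (by fun_prop) continuous_const

theorem SD.fsymm_diff (S : SD A Tf O n) (τ : Tube A n Tf) {y : Cn n} {δ : ℝ} {z : Cn N}
    (hz : z ∈ S.W τ y δ) : DifferentiableAt ℂ (fun z => τ.f ((A.e S.i).symm z)) z := by
  have ho : IsOpen ((A.e S.i).target ∩ (A.e S.i).symm ⁻¹' τ.W) := isOpen_ti τ.oW
  exact (τ.hol S.i).differentiableAt (ho.mem_nhds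
    ⟨S.hball (ball_subset_closedBall hz.1), hz.2.1.1⟩)

theorem SD.pm [T2Space M] (S : SD A Tf O n) (τ : Tube A n Tf) {y : Cn n} {δ : ℝ}
    (hδU : ball y δ ⊆ τ.U) (hO : dom τ y δ ⊆ O) :
    PMg (S.W τ y δ) (ball (0 : Cn n) S.ε ×ˢ ball y δ) (S.G τ) where
  hW := S.isOpen_W τ y δ
  hD := isOpen_ball.prod isOpen_ball
  hol := by
    intro z hz
    have h1 : DifferentiableAt ℂ (fun z : Cn N => S.p (z - S.z0)) z := by fun_prop
    exact (h1.prodMk (S.fsymm_diff τ hz)).differentiableWithinAt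
  proper := by
    intro K hK hKc
    set K₂ : Set (Cn n) := Prod.snd '' K with hK₂
    have hK₂c : IsCompact K₂ := hKc.image continuous_snd
    have hK₂U : K₂ ⊆ ball y δ := by
      rintro _ ⟨k, hk, rfl⟩
      exact (hK hk).2
    set C : Set M := τ.W ∩ τ.f ⁻¹' K₂ with hC
    have hCc : IsCompact C := τ.proper _ (hK₂U.trans hδU) hK₂c
    have hsymm : ContinuousOn (A.e S.i).symm (closedBall S.z0 S.r) :=
      (A.e S.i).continuousOn_symm.mono S.hball
    have hA : IsClosed (closedBall S.z0 S.r ∩ (A.e S.i).symm ⁻¹' C) :=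
      hsymm.preimage_isClosed_of_isClosed isClosed_closedBall hCc.isClosed
    have hGc : ContinuousOn (S.G τ) (closedBall S.z0 S.r ∩ (A.e S.i).symm ⁻¹' C) := by
      refine ContinuousOn.prodMk (by fun_prop) ?_
      exact (tube_cont τ).comp (hsymm.mono inter_subset_left) fun z hz => hz.2.1
    have hcl : IsClosed ((closedBall S.z0 S.r ∩ (A.e S.i).symm ⁻¹' C) ∩ S.G τ ⁻¹' K) :=
      hGc.preimage_isClosed_of_isClosed hA hKc.isClosed
    have heq : S.W τ y δ ∩ S.G τ ⁻¹' K =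
        (closedBall S.z0 S.r ∩ (A.e S.i).symm ⁻¹' C) ∩ S.G τ ⁻¹' K := by
      ext z
      constructor
      · rintro ⟨⟨h1, h2, h3⟩, h4⟩
        exact ⟨⟨ball_subset_closedBall h1, h2.1, ⟨_, h4, rfl⟩⟩, h4⟩
      · rintro ⟨⟨h1, h2⟩, h4⟩
        have h5 := hK h4
        have hp : ‖S.p (z - S.z0)‖ < S.ε := by simpa [SD.G] using h5.1
        have hf : τ.f ((A.e S.i).symm z) ∈ ball y δ := h5.2
        have hdom : (A.e S.i).symm z ∈ dom τ y δ := ⟨h2.1, hf⟩
        refine ⟨⟨?_, hdom, hp⟩, h4⟩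
        rw [mem_ball, dist_eq_norm]
        rw [mem_closedBall, dist_eq_norm] at h1
        refine lt_of_le_of_ne h1 fun hr => ?_
        have h6 := S.hsl _ (hO hdom) z hr (by rw [τ.fib _ h2.1]; exact ⟨h2.1, rfl⟩)
        linarith
    rw [heq]
    exact (isCompact_closedBall S.z0 S.r).of_isClosed_subset hcl
      (inter_subset_left.trans inter_subset_left)

theorem SD.preconn (S : SD A Tf O n) (y : Cn n) (δ : ℝ) :
    IsPreconnected (ball (0 : Cn n) S.ε ×ˢ ball y δ) :=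
  ((convex_ball (0 : Cn n) S.ε).prod (convex_ball y δ)).isPreconnected

theorem SD.fib_eq (S : SD A Tf O n) (τ : Tube A n Tf) {y : Cn n} {δ : ℝ} {x : M}
    (hx : x ∈ dom τ y δ) {c0 : Cn n} (hc0 : c0 ∈ ball (0 : Cn n) S.ε) :
    S.W τ y δ ∩ S.G τ ⁻¹' {(c0, τ.f x)} = S.PS c0 x := by
  ext z
  simp only [SD.W, SD.G, SD.PS, mem_inter_iff, mem_ofPred_eq, mem_preimage, mem_singleton_iff,
    Prod.mk.injEq, τ.fib x hx.1, dom]
  constructor
  · rintro ⟨⟨h1, ⟨h2, h3⟩, h4⟩, h5, h6⟩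
    exact ⟨h1, ⟨h2, h6⟩, h5⟩
  · rintro ⟨h1, ⟨h2, h6⟩, h5⟩
    refine ⟨⟨h1, ⟨h2, ?_⟩, ?_⟩, h5, h6⟩
    · rw [h6]
      exact hx.2
    · rw [h5]
      simpa using hc0

theorem SD.fderiv_inj (S : SD A Tf O n) (τ : Tube A n Tf) {y : Cn n} {δ : ℝ} {z : Cn N}
    (hz : z ∈ S.W τ y δ)
    (h : ∀ v, S.p v = 0 → fderiv ℂ (fun z => τ.f ((A.e S.i).symm z)) z v = 0 → v = 0) :
    Function.Injective (fderiv ℂ (S.G τ) z) := by
  have h1 : HasFDerivAt (fun z : Cn N => S.p (z - S.z0)) S.p z := by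
    have := S.p.hasFDerivAt.comp z ((hasFDerivAt_id z).sub_const S.z0)
    exact this
  have h2 := h1.prodMk (S.fsymm_diff τ hz).hasFDerivAt
  have h3 : fderiv ℂ (S.G τ) z =
      S.p.prod (fderiv ℂ (fun z => τ.f ((A.e S.i).symm z)) z) := h2.fderiv
  rw [h3, injective_iff_map_eq_zero]
  intro v hv
  have h4 : (S.p v, fderiv ℂ (fun z => τ.f ((A.e S.i).symm z)) z v) = (0, 0) := hv
  rw [Prod.mk.injEq] at h4
  exact h v h4.1 h4.2

end Crest.Agent.R281.Fr7_316
end
end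

-- ▼ part R281/Fr8_316
section

/-!
# Row 281, leaf S6-FRAME (helper316), part 8: traces over an open saturated part of `Ω`
-/

set_option autoImplicit false
set_option linter.unusedSectionVars false

open Set Filter Topology MeasureTheory Complex Metric
open scoped ContDiff ComplexConjugate Real ENNReal

noncomputable section

namespace Crest.Agent.R281.Fr7_316

open Crest.Agent.R275.Geo Crest.Agent.R275.Core144
open Crest.Agent.R281.Defs_273 Crest.Agent.R281.D6_986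
open Crest.Agent.R281.S6D_664 (LFib Tube)
open Crest.Agent.R281.Fr5_316 Crest.Agent.R266.SCV

variable {N n : ℕ} {M : Type} [TopologicalSpace M]

/-- submersions are open -/
theorem tube_open {A : Atl N M} {Tf : M → Set M} (τ : Tube A n Tf) {x : M} (hx : x ∈ τ.W)
    {O : Set M} (hO : O ∈ 𝓝 x) : τ.f '' O ∈ 𝓝 (τ.f x) := by
  obtain ⟨i, hi⟩ := A.cover x
  have ho : IsOpen ((A.e i).target ∩ (A.e i).symm ⁻¹' τ.W) := isOpen_ti τ.oW
  have hz : A.e i x ∈ (A.e i).target ∩ (A.e i).symm ⁻¹' τ.W :=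
    ⟨(A.e i).map_source hi, by rw [mem_preimage, (A.e i).left_inv hi]; exact hx⟩
  have h1 : AnalyticAt ℂ (fun z => τ.f ((A.e i).symm z)) (A.e i x) :=
    analyticOnNhd_of_differentiableOn ho (τ.hol i) _ hz
  have h2 := h1.hasStrictFDerivAt.map_nhds_eq_of_surj
    (LinearMap.range_eq_top.2 (τ.sub i x ⟨hi, hx⟩))
  rw [(A.e i).left_inv hi] at h2
  rw [← h2]
  have h4 : (A.e i).symm ⁻¹' O ∈ 𝓝 (A.e i x) := by
    have h5 : ContinuousAt (A.e i).symm (A.e i x) :=
      (A.e i).continuousAt_symm ((A.e i).map_source hi)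
    apply h5
    rw [(A.e i).left_inv hi]
    exact hO
  refine mem_map.2 (mem_of_superset h4 fun z hz => ?_)
  exact ⟨(A.e i).symm z, hz, rfl⟩

variable {A : Atl (2 * n) M} {Tf : M → Set M} {O : Set M}

/-- countable family of tubes over balls covering `O` -/
structure Cov (A : Atl (2 * n) M) (Tf : M → Set M) (O : Set M) where
  κ : Type
  cnt : Countable κ
  τ : κ → Tube A n Tf
  y : κ → Cn n
  δ : κ → ℝ
  hU : ∀ k, ball (y k) (δ k) ⊆ (τ k).U
  sub : ∀ k, dom (τ k) (y k) (δ k) ⊆ O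
  cov : ∀ x ∈ O, ∃ k, x ∈ dom (τ k) (y k) (δ k)

/-- pieces of the cover -/
def Cov.D (C : Cov A Tf O) (k : C.κ) : Set M := dom (C.τ k) (C.y k) (C.δ k)

theorem Cov.isOpen_D (C : Cov A Tf O) (k : C.κ) : IsOpen (C.D k) := isOpen_dom _ _ _

theorem Cov.Tf_D (C : Cov A Tf O) {k : C.κ} {x : M} (hx : x ∈ C.D k) {x' : M} (hx' : x' ∈ Tf x) :
    x' ∈ C.D k ∧ (C.τ k).f x' = (C.τ k).f x := by
  rw [(C.τ k).fib x hx.1] at hx'
  refine ⟨⟨hx'.1, ?_⟩, hx'.2⟩
  have : (C.τ k).f x' = (C.τ k).f x := hx'.2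
  rw [mem_preimage, this]
  exact hx.2

theorem exists_cov [T2Space M] [SecondCountableTopology M] {σ : HSymp A} (F : LFib A σ)
    {U : Set M} (hU : IsOpen U) (hsat : ∀ x ∈ U ∩ F.Om, F.Tf x ⊆ U) :
    Nonempty (Cov A F.Tf (U ∩ F.Om)) := by
  classical
  have h1 : ∀ x : ↥(U ∩ F.Om), ∃ (τ : Tube A n F.Tf) (δ : ℝ), 0 < δ ∧ (x : M) ∈ τ.W ∧
      ball (τ.f x) δ ⊆ τ.U ∧ dom τ (τ.f x) δ ⊆ U ∩ F.Om := by
    rintro ⟨x, hx⟩
    obtain ⟨τ, hxW, hW, -⟩ := F.tube x hx.2
    obtain ⟨δ, hδ, h2, h3⟩ := exists_dom τ (hU.inter F.op) hxW (by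
      intro y hy
      refine ⟨hsat x hx hy, ?_⟩
      rw [τ.fib x hxW] at hy
      exact hW hy.1)
    exact ⟨τ, δ, hδ, hxW, h2, h3⟩
  choose τ δ hδ hxW hb hd using h1
  obtain ⟨t, htc, hcov⟩ := TopologicalSpace.isOpen_iUnion_countable
    (fun x : ↥(U ∩ F.Om) => dom (τ x) ((τ x).f x) (δ x)) (fun x => isOpen_dom _ _ _)
  refine ⟨⟨t, htc.to_subtype, fun x => τ x.1, fun x => (τ x.1).f (x.1 : M), fun x => δ x.1,
    fun x => hb x.1, fun x => hd x.1, fun x hx => ?_⟩⟩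
  have h2 : x ∈ ⋃ x : ↥(U ∩ F.Om), dom (τ x) ((τ x).f x) (δ x) :=
    mem_iUnion.2 ⟨⟨x, hx⟩, hxW ⟨x, hx⟩, mem_ball_self (hδ ⟨x, hx⟩)⟩
  rw [← hcov] at h2
  obtain ⟨y, hy, hxy⟩ := mem_iUnion₂.1 h2
  exact ⟨⟨y, hy⟩, hxy⟩

/-- good centres of the slice -/
def Gd (S : SD A Tf O n) (C : Cov A Tf O) (c0 : Cn n) : Prop :=
  c0 ∈ ball (0 : Cn n) S.ε ∧ ∀ k, Dense {y' | Rg (S.W (C.τ k) (C.y k) (C.δ k)) (S.G (C.τ k)) (c0, y')}

theorem exists_equivs (n : ℕ) : Nonempty (Cn (2 * n) ≃L[ℂ] (Fin (2 * n) → ℂ)) ∧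
    Nonempty ((Cn n × Cn n) ≃L[ℂ] (Fin (2 * n) → ℂ)) := by
  constructor
  · exact ⟨ContinuousLinearEquiv.ofFinrankEq (by simp)⟩
  · refine ⟨ContinuousLinearEquiv.ofFinrankEq ?_⟩
    simp
    ring

theorem exists_gd [T2Space M] (S : SD A Tf O n) (C : Cov A Tf O) : ∃ c0, Gd S C c0 := by
  obtain ⟨⟨a⟩, ⟨b⟩⟩ := exists_equivs n
  have := C.cnt
  borelize (Cn n)
  obtain ⟨K⟩ : Nonempty (TopologicalSpace.PositiveCompacts (Cn n)) := inferInstance
  let μ : Measure (Cn n) := Measure.addHaarMeasure K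
  have h1 : ∀ k, ∀ᵐ c0 ∂μ, ∀ᵐ y' ∂μ,
      Rg (S.W (C.τ k) (C.y k) (C.δ k)) (S.G (C.τ k)) (c0, y') := by
    intro k
    refine Measure.ae_ae_of_ae_prod ?_
    exact (S.pm (C.τ k) (C.hU k) (C.sub k)).null a b (μ.prod μ)
  have h2 : ∀ᵐ c0 ∂μ, ∀ k, ∀ᵐ y' ∂μ,
      Rg (S.W (C.τ k) (C.y k) (C.δ k)) (S.G (C.τ k)) (c0, y') := ae_all_iff.2 h1
  have h3 := Measure.dense_of_ae h2
  obtain ⟨c0, hc0, hc0'⟩ := h3.inter_open_nonempty (ball (0 : Cn n) S.ε) isOpen_ball
    ⟨0, mem_ball_self S.ε_pos⟩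
  exact ⟨c0, hc0, fun k => Measure.dense_of_ae (hc0' k)⟩

/-- regular part of the piece -/
def RR (S : SD A Tf O n) (C : Cov A Tf O) (c0 : Cn n) (k : C.κ) : Set M :=
  {x | x ∈ C.D k ∧ Rg (S.W (C.τ k) (C.y k) (C.δ k)) (S.G (C.τ k)) (c0, (C.τ k).f x)}

theorem isOpen_RR [T2Space M] (S : SD A Tf O n) (C : Cov A Tf O) {c0 : Cn n}
    (h : Gd S C c0) (k : C.κ) : IsOpen (RR S C c0 k) := by
  obtain ⟨⟨a⟩, ⟨b⟩⟩ := exists_equivs n
  have h1 := (S.pm (C.τ k) (C.hU k) (C.sub k)).isOpen_reg a b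
  have h2 : ContinuousOn (fun x => (c0, (C.τ k).f x)) (C.D k) :=
    continuousOn_const.prodMk ((tube_cont (C.τ k)).mono fun x hx => hx.1)
  have h3 := h2.isOpen_inter_preimage (C.isOpen_D k) h1
  convert h3 using 1
  ext x
  constructor
  · rintro ⟨hx, hr⟩
    exact ⟨hx, ⟨h.1, hx.2⟩, hr⟩
  · rintro ⟨hx, -, hr⟩
    exact ⟨hx, hr⟩

theorem dense_RR (S : SD A Tf O n) (C : Cov A Tf O) {c0 : Cn n}
    (h : Gd S C c0) (k : C.κ) : C.D k ⊆ closure (RR S C c0 k) := by
  intro x hx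
  rw [mem_closure_iff_nhds]
  intro t ht
  have h1 : t ∩ C.D k ∈ 𝓝 x := inter_mem ht ((C.isOpen_D k).mem_nhds hx)
  have h2 := tube_open (C.τ k) hx.1 h1
  obtain ⟨y', hy', hyt⟩ := (h.2 k).inter_nhds_nonempty h2
  obtain ⟨x', hx', rfl⟩ := hyt
  exact ⟨x', hx'.1, hx'.2, hy'⟩

theorem exists_RR2 [T2Space M] (S : SD A Tf O n) (C : Cov A Tf O) {c0 : Cn n}
    (h : Gd S C c0) (k l : C.κ) {x : M} (hk : x ∈ C.D k) (hl : x ∈ C.D l) {t : Set M}
    (ht : t ∈ 𝓝 x) : ∃ x' ∈ t, x' ∈ RR S C c0 k ∧ x' ∈ RR S C c0 l := by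
  obtain ⟨t', ht't, ht'o, hxt'⟩ := mem_nhds_iff.1 ht
  obtain ⟨x₁, ⟨hx₁t, hx₁l⟩, hx₁k⟩ := mem_closure_iff_nhds.1 (dense_RR S C h k hk)
    (t' ∩ C.D l) (inter_mem (ht'o.mem_nhds hxt') ((C.isOpen_D l).mem_nhds hl))
  obtain ⟨x₂, ⟨hx₂t, hx₂k⟩, hx₂l⟩ := mem_closure_iff_nhds.1 (dense_RR S C h l hx₁l)
    (t' ∩ RR S C c0 k) (inter_mem (ht'o.mem_nhds hx₁t) ((isOpen_RR S C h k).mem_nhds hx₁k))
  exact ⟨x₂, ht't hx₂t, hx₂k, hx₂l⟩

/-- **traces over `O`** -/
theorem out [T2Space M] (hn : 0 < n) (S : SD A Tf O n) (C : Cov A Tf O) :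
    ∃ (c0 : Cn n) (dd : M → ℕ) (R : Set M), IsOpen R ∧ R ⊆ O ∧ O ⊆ closure R ∧
      (∀ x ∈ R, Tf x ⊆ R) ∧
      (∀ x ∈ R, (S.PS c0 x).Finite ∧ (S.PS c0 x).ncard = dd x) ∧
      (∀ x ∈ O, ∀ᶠ y in 𝓝 x, dd y = dd x) ∧
      (∀ k, ∀ z ∈ S.W (C.τ k) (C.y k) (C.δ k), Function.Injective (fderiv ℂ (S.G (C.τ k)) z) →
        1 ≤ dd ((A.e S.i).symm z)) ∧
      ∀ h : Cn (2 * n) → ℂ, DifferentiableOn ℂ h (ball S.z0 S.r) →
        ∃ T : M → ℂ, (∀ j, HolAt A j O T) ∧ (∀ x ∈ O, ∀ y ∈ Tf x, T y = T x) ∧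
          (∀ B : ℝ, (∀ z ∈ ball S.z0 S.r, ‖h z‖ ≤ B) → ∀ x ∈ O, ‖T x‖ ≤ dd x * B) ∧
          ∀ x ∈ R, T x = ∑ᶠ z ∈ S.PS c0 x, h z := by
  classical
  obtain ⟨⟨a⟩, ⟨b⟩⟩ := exists_equivs n
  obtain ⟨c0, hg⟩ := exists_gd S C
  have hN : 0 < 2 * n := by omega
  have hpm : ∀ k, PMg (S.W (C.τ k) (C.y k) (C.δ k))
      (ball (0 : Cn n) S.ε ×ˢ ball (C.y k) (C.δ k)) (S.G (C.τ k)) := fun k =>
    S.pm (C.τ k) (C.hU k) (C.sub k)
  have hfin := fun k => (hpm k).fin a b hN (S.preconn (C.y k) (C.δ k))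
  choose d hd hT using hfin
  -- the index
  have hk0 : ∀ x : M, x ∈ O → ∃ k, x ∈ C.D k := fun x hx => C.cov x hx
  by_cases hne : Nonempty C.κ
  swap
  · -- `O` is empty
    have hO : ∀ x, x ∉ O := fun x hx => hne ((hk0 x hx).nonempty)
    refine ⟨c0, fun _ => 0, ∅, isOpen_empty, empty_subset _, fun x hx => absurd hx (hO x),
      fun x hx => absurd hx (notMem_empty x), fun x hx => absurd hx (notMem_empty x),
      fun x hx => absurd hx (hO x), fun k => absurd ⟨k⟩ hne, fun h _ => ⟨fun _ => 0, ?_, ?_, ?_, ?_⟩⟩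
    · exact fun j => holAt_const 0
    · exact fun x hx => absurd hx (hO x)
    · exact fun B _ x hx => absurd hx (hO x)
    · exact fun x hx => absurd hx (notMem_empty x)
  have hk1 : ∀ x : M, ∃ k, x ∈ O → x ∈ C.D k := by
    intro x
    by_cases hx : x ∈ O
    · obtain ⟨k, hk⟩ := hk0 x hx
      exact ⟨k, fun _ => hk⟩
    · exact ⟨hne.some, fun h => absurd h hx⟩
  choose ind hind using hk1
  -- cardinality on the regular part
  have hcard : ∀ k, ∀ x ∈ RR S C c0 k, (S.PS c0 x).Finite ∧ (S.PS c0 x).ncard = d k := by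
    intro k x hx
    have hmem : (c0, (C.τ k).f x) ∈ ball (0 : Cn n) S.ε ×ˢ ball (C.y k) (C.δ k) :=
      ⟨hg.1, hx.1.2⟩
    have h1 := (hpm k).finite a b hmem hx.2
    have h2 := hd k _ hmem hx.2
    rw [S.fib_eq (C.τ k) hx.1 hg.1] at h1 h2
    exact ⟨h1, h2⟩
  have hdd : ∀ k l, ∀ x, x ∈ C.D k → x ∈ C.D l → d k = d l := by
    intro k l x hk hl
    obtain ⟨x', -, h1, h2⟩ := exists_RR2 S C hg k l hk hl univ_mem
    rw [← (hcard k x' h1).2, (hcard l x' h2).2]
  refine ⟨c0, fun x => d (ind x), ⋃ k, RR S C c0 k, isOpen_iUnion fun k => isOpen_RR S C hg k,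
    ?_, ?_, ?_, ?_, ?_, ?_, ?_⟩
  · exact iUnion_subset fun k x hx => C.sub k hx.1
  · intro x hx
    exact closure_mono (subset_iUnion _ (ind x)) (dense_RR S C hg (ind x) (hind x hx))
  · intro x hx x' hx'
    obtain ⟨k, hk⟩ := mem_iUnion.1 hx
    obtain ⟨h1, h2⟩ := C.Tf_D hk.1 hx'
    refine mem_iUnion.2 ⟨k, h1, ?_⟩
    rw [h2]
    exact hk.2
  · intro x hx
    obtain ⟨k, hk⟩ := mem_iUnion.1 hx
    obtain ⟨h1, h2⟩ := hcard k x hk
    refine ⟨h1, h2.trans (hdd k (ind x) x hk.1 (hind x (C.sub k hk.1)))⟩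
  · intro x hx
    filter_upwards [(C.isOpen_D (ind x)).mem_nhds (hind x hx)] with y hy
    exact hdd _ _ y (hind y (C.sub _ hy)) hy
  · intro k z hz hinj
    have hmem : S.G (C.τ k) z ∈ ball (0 : Cn n) S.ε ×ˢ ball (C.y k) (C.δ k) :=
      ⟨by simpa [SD.G] using hz.2.2, hz.2.1.2⟩
    obtain ⟨ζ, hζ, hr, hnef⟩ := (hpm k).exists_fib a b hz hmem hinj
    have h1 := hd k ζ hζ hr
    have h2 := (hpm k).finite a b hζ hr
    have h3 : 0 < d k := by
      rw [← h1]
      exact (ncard_pos h2).2 hnef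
    have hx : (A.e S.i).symm z ∈ C.D k := hz.2.1
    show 1 ≤ d (ind ((A.e S.i).symm z))
    rw [← hdd k _ _ hx (hind _ (C.sub k hx))]
    exact h3
  · intro h hh
    have hsub : ∀ k, S.W (C.τ k) (C.y k) (C.δ k) ⊆ ball S.z0 S.r := fun k z hz => hz.1
    have hTk := fun k => hT k h (hh.mono (hsub k))
    choose T hTd hTr hTb using hTk
    have hTdef : ∀ k, ∀ x ∈ RR S C c0 k, T k (c0, (C.τ k).f x) = ∑ᶠ z ∈ S.PS c0 x, h z := by
      intro k x hx
      have hmem : (c0, (C.τ k).f x) ∈ ball (0 : Cn n) S.ε ×ˢ ball (C.y k) (C.δ k) :=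
        ⟨hg.1, hx.1.2⟩
      rw [hTr k _ hmem hx.2, S.fib_eq (C.τ k) hx.1 hg.1]
    -- continuity of the pull backs
    have hcont : ∀ k, ContinuousOn (fun x => T k (c0, (C.τ k).f x)) (C.D k) := by
      intro k
      refine (hTd k).continuousOn.comp (continuousOn_const.prodMk
        ((tube_cont (C.τ k)).mono fun x hx => hx.1)) fun x hx => ⟨hg.1, hx.2⟩
    have hTT : ∀ k l, ∀ x, x ∈ C.D k → x ∈ C.D l →
        T k (c0, (C.τ k).f x) = T l (c0, (C.τ l).f x) := by
      intro k l x hk hl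
      by_contra hcon
      have h1 : ContinuousAt (fun x => T k (c0, (C.τ k).f x)) x :=
        (hcont k).continuousAt ((C.isOpen_D k).mem_nhds hk)
      have h2 : ContinuousAt (fun x => T l (c0, (C.τ l).f x)) x :=
        (hcont l).continuousAt ((C.isOpen_D l).mem_nhds hl)
      have h3 : ∀ᶠ y in 𝓝 x, T k (c0, (C.τ k).f y) ≠ T l (c0, (C.τ l).f y) := by
        have h4 := (h1.sub h2).eventually_ne (sub_ne_zero.2 hcon)
        filter_upwards [h4] with y hy using sub_ne_zero.1 hy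
      obtain ⟨x', hx', hk', hl'⟩ := exists_RR2 S C hg k l hk hl h3
      exact hx' ((hTdef k x' hk').trans (hTdef l x' hl').symm)
    refine ⟨fun x => T (ind x) (c0, (C.τ (ind x)).f x), ?_, ?_, ?_, ?_⟩
    · intro j z hz
      set x := (A.e j).symm z with hxdef
      have hx : x ∈ O := hz.2
      have hxD := hind x hx
      have ho : IsOpen ((A.e j).target ∩ (A.e j).symm ⁻¹' (C.D (ind x))) :=
        isOpen_ti (C.isOpen_D _)
      have hev : (fun z => T (ind ((A.e j).symm z)) (c0, (C.τ (ind ((A.e j).symm z))).f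
          ((A.e j).symm z))) =ᶠ[𝓝 z]
          fun z => T (ind x) (c0, (C.τ (ind x)).f ((A.e j).symm z)) := by
        filter_upwards [ho.mem_nhds ⟨hz.1, hxD⟩] with w hw
        exact hTT _ _ _ (hind _ (C.sub _ hw.2)) hw.2
      refine (DifferentiableAt.congr_of_eventuallyEq ?_ hev).differentiableWithinAt
      have hoW : IsOpen ((A.e j).target ∩ (A.e j).symm ⁻¹' (C.τ (ind x)).W) :=
        isOpen_ti (C.τ (ind x)).oW
      have h1 : DifferentiableAt ℂ (fun z => (C.τ (ind x)).f ((A.e j).symm z)) z :=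
        ((C.τ (ind x)).hol j).differentiableAt (hoW.mem_nhds ⟨hz.1, hxD.1⟩)
      have h2 : DifferentiableAt ℂ (T (ind x)) (c0, (C.τ (ind x)).f ((A.e j).symm z)) :=
        (hTd (ind x)).differentiableAt ((hpm (ind x)).hD.mem_nhds ⟨hg.1, hxD.2⟩)
      exact h2.comp z (DifferentiableAt.prodMk (differentiableAt_const c0) h1)
    · intro x hx y hy
      obtain ⟨h1, h2⟩ := C.Tf_D (hind x hx) hy
      have h3 := hTT (ind y) (ind x) y (hind y (C.sub _ h1)) h1
      simp only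
      rw [h3, h2]
    · intro B hB x hx
      exact hTb (ind x) B (fun z hz => hB z (hsub _ hz)) _ ⟨hg.1, (hind x hx).2⟩
    · intro x hx
      obtain ⟨k, hk⟩ := mem_iUnion.1 hx
      have h3 := hTT (ind x) k x (hind x (C.sub _ hk.1)) hk.1
      simp only
      rw [h3]
      exact hTdef k x hk

end Crest.Agent.R281.Fr7_316
end
end

-- ▼ part R281/Fr9_316
section

/-!
# Row 281, leaf S6-FRAME (helper316), part 9: the slice at a point: `SliceAt`
-/

set_option autoImplicit false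
set_option linter.unusedSectionVars false

open Set Filter Topology MeasureTheory Complex Metric
open scoped ContDiff ComplexConjugate Real ENNReal

noncomputable section

namespace Crest.Agent.R281.Fr7_316

open Crest.Agent.R275.Geo Crest.Agent.R275.Core144
open Crest.Agent.R281.Defs_273 Crest.Agent.R281.D6_986
open Crest.Agent.R281.S6D_664 (LFib Tube)
open Crest.Agent.R281.Tc_941 (SliceAt Tf_sub_Om)
open Crest.Agent.R281.Fr5_316 Crest.Agent.R281.Fr6_316 Crest.Agent.R266.SCV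

variable {n : ℕ} {M : Type} [TopologicalSpace M] {A : Atl (2 * n) M} {σ : HSymp A}

/-- arbitrarily small neighbourhoods with connected trace on `Om` -/
theorem conn_nhds (F : LFib A σ) {U : Set M} (hU : IsOpen U) {x : M} (hx : x ∈ U) :
    ∃ B, IsOpen B ∧ x ∈ B ∧ B ⊆ U ∧ IsPreconnected (B ∩ F.Om) := by
  obtain ⟨i, hi⟩ := A.cover x
  have ho : IsOpen ((A.e i).target ∩ (A.e i).symm ⁻¹' U) := isOpen_ti hU
  obtain ⟨ρ, hρ, hρU⟩ := nhds_basis_ball.mem_iff.1 (ho.mem_nhds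
    (show A.e i x ∈ _ from ⟨(A.e i).map_source hi, by
      rw [mem_preimage, (A.e i).left_inv hi]; exact hx⟩))
  set V := ball (A.e i x) ρ with hV
  set S : Set (Cn (2 * n)) := {z | z ∈ (A.e i).target ∧ (A.e i).symm z ∈ F.Omᶜ} with hS
  have hVt : V ⊆ (A.e i).target := fun z hz => (hρU hz).1
  have hVS : V \ S = V ∩ ((A.e i).target ∩ (A.e i).symm ⁻¹' F.Om) := by
    ext z
    constructor
    · rintro ⟨h1, h2⟩
      refine ⟨h1, hVt h1, ?_⟩
      by_contra h
      exact h2 ⟨hVt h1, h⟩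
    · rintro ⟨h1, h2, h3⟩
      exact ⟨h1, fun h => h.2 h3⟩
  have hopen : IsOpen (V \ S) := by
    rw [hVS]
    exact isOpen_ball.inter (isOpen_ti F.op)
  have hconn := conn_of_sth isOpen_ball (convex_ball (A.e i x) ρ).isPreconnected (F.sth i) hopen
  refine ⟨(A.e i).symm '' V, ?_, ⟨A.e i x, mem_ball_self hρ, (A.e i).left_inv hi⟩, ?_, ?_⟩
  · exact (A.e i).symm.isOpen_image_of_subset_source isOpen_ball hVt
  · rintro _ ⟨z, hz, rfl⟩
    exact (hρU hz).2
  · have h1 : (A.e i).symm '' V ∩ F.Om = (A.e i).symm '' (V \ S) := by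
      ext y
      constructor
      · rintro ⟨⟨z, hz, rfl⟩, hy⟩
        exact ⟨z, ⟨hz, fun h => h.2 hy⟩, rfl⟩
      · rintro ⟨z, hz, rfl⟩
        rw [hVS] at hz
        exact ⟨⟨z, hz.1, rfl⟩, hz.2.2⟩
    rw [h1]
    exact hconn.image _ ((A.e i).continuousOn_symm.mono fun z hz => hVt hz.1)

/-- **the slice at `x0`** -/
theorem sliceAt [T2Space M] [CompactSpace M] [Finite A.ι] (hn : 0 < n) {F : LFib A σ}
    (c : ContOut F) (hv : ContVol c) (x0 : M) : Nonempty (SliceAt F c x0) := by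
  classical
  have hsec : SecondCountableTopology M := by
    have h1 : ∀ i, SecondCountableTopology (A.e i).source := fun i =>
      (A.e i).toHomeomorphSourceTarget.secondCountableTopology
    exact TopologicalSpace.secondCountableTopology_of_countable_cover
      (U := fun i => (A.e i).source) (fun i => (A.e i).open_source)
      (eq_univ_of_forall fun x => mem_iUnion.2 (A.cover x))
  obtain ⟨i, hi, r₂, hr₂, hball₂, hvol⟩ := hv x0
  set z0 := A.e i x0 with hz0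
  -- 1. the slice
  have hfr : Module.finrank ℝ (Cn n) = 2 * n := by
    rw [finrank_real_of_complex]
    simp
  obtain ⟨r, hr, hrr₂, p₀, hp₀⟩ := exists_slice (E := Cn (2 * n)) (W := Cn n)
    (by simp; omega) (Z := (A.e i) '' (c.Z x0 ∩ (A.e i).source)) (z₀ := z0) hr₂
    (by rw [hfr]; exact hvol)
  have hball : closedBall z0 r ⊆ (A.e i).target :=
    (closedBall_subset_closedBall hrr₂.le).trans hball₂
  have hsymm : ContinuousOn (A.e i).symm (closedBall z0 r) := (A.e i).continuousOn_symm.mono hball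
  have hsph : IsCompact (sphere z0 r) := isCompact_sphere _ _
  -- 2. a lower bound on the sphere
  obtain ⟨ε₁, hε₁, hlow⟩ : ∃ ε₁ : ℝ, 0 < ε₁ ∧
      ∀ z ∈ sphere z0 r, (A.e i).symm z ∈ c.Z x0 → ε₁ ≤ ‖p₀ (z - z0)‖ := by
    have hT : IsCompact (sphere z0 r ∩ (A.e i).symm ⁻¹' c.Z x0) :=
      hsph.of_isClosed_subset ((hsymm.mono sphere_subset_closedBall).preimage_isClosed_of_isClosed
        isClosed_sphere (c.cpt x0).isClosed) inter_subset_left
    rcases (sphere z0 r ∩ (A.e i).symm ⁻¹' c.Z x0).eq_empty_or_nonempty with h0 | h0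
    · refine ⟨1, one_pos, fun z hz hz' => ?_⟩
      have : z ∈ sphere z0 r ∩ (A.e i).symm ⁻¹' c.Z x0 := ⟨hz, hz'⟩
      rw [h0] at this
      exact absurd this (notMem_empty z)
    · obtain ⟨y, hy, hmin⟩ := hT.exists_isMinOn h0
        (f := fun z => ‖p₀ (z - z0)‖) (by fun_prop)
      refine ⟨‖p₀ (y - z0)‖, ?_, fun z hz hz' => isMinOn_iff.1 hmin z ⟨hz, hz'⟩⟩
      rw [norm_pos_iff]
      refine hp₀ y ⟨(A.e i).symm y, ⟨hy.2, (A.e i).map_target
        (hball (sphere_subset_closedBall hy.1))⟩, (A.e i).right_inv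
        (hball (sphere_subset_closedBall hy.1))⟩ ?_
      rw [← dist_eq_norm]
      exact hy.1
  set Bad : Set M := (A.e i).symm '' (sphere z0 r ∩ {z | ‖p₀ (z - z0)‖ ≤ ε₁ / 2}) with hBad
  have hBadc : IsCompact Bad := by
    refine IsCompact.image_of_continuousOn ?_ (hsymm.mono
      (inter_subset_left.trans sphere_subset_closedBall))
    exact hsph.inter_right (isClosed_le (by fun_prop) continuous_const)
  set V0 : Set M := Badᶜ with hV0
  have hV0o : IsOpen V0 := hBadc.isClosed.isOpen_compl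
  set U0 : Set M := {x | c.Z x ⊆ V0} with hU0
  have hU0o : IsOpen U0 := c.isOpen_sat hV0o
  have hx0U : c.Z x0 ⊆ V0 := by
    rintro y hy ⟨z, ⟨hz, hz2⟩, rfl⟩
    have := hlow z hz hy
    have h2 : ‖p₀ (z - z0)‖ ≤ ε₁ / 2 := hz2
    linarith
  have hsat0 : ∀ x ∈ U0, c.Z x ⊆ U0 := by
    intro x hx y hy
    show c.Z y ⊆ V0
    rw [c.part x y hy]
    exact hx
  set ε := ε₁ / 4 with hε
  have hε0 : 0 < ε := by positivity
  have hsphere : ∀ p : Cn (2 * n) →L[ℂ] Cn n, ‖p - p₀‖ * r ≤ ε / 2 → ∀ x ∈ U0, ∀ z,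
      ‖z - z0‖ = r → (A.e i).symm z ∈ c.Z x → ε ≤ ‖p (z - z0)‖ := by
    intro p hp x hx z hz hzx
    have h1 : ε₁ / 2 < ‖p₀ (z - z0)‖ := by
      by_contra hcon
      push Not at hcon
      refine hx hzx ⟨z, ⟨?_, hcon⟩, rfl⟩
      rw [mem_sphere, dist_eq_norm, hz]
    have h2 : ‖p₀ (z - z0)‖ ≤ ‖p (z - z0)‖ + ‖(p - p₀) (z - z0)‖ := by
      have : p₀ (z - z0) = p (z - z0) - (p - p₀) (z - z0) := by simp
      rw [this]
      exact norm_sub_le _ _
    have h3 : ‖(p - p₀) (z - z0)‖ ≤ ‖p - p₀‖ * r := by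
      rw [← hz]
      exact (p - p₀).le_opNorm _
    linarith
  -- 3. the cover
  set O : Set M := U0 ∩ F.Om with hO
  have hOo : IsOpen O := hU0o.inter F.op
  obtain ⟨C⟩ := exists_cov F hU0o (by
    rintro x ⟨hx, hxO⟩
    rw [← c.eq x hxO]
    exact hsat0 x hx)
  -- 4. connected neighbourhoods
  obtain ⟨B0, hB0o, hx0B, hB0U, hB0c⟩ := conn_nhds F hU0o (show x0 ∈ U0 from hx0U)
  -- 5. a point near x0 and the perturbation
  have hpos : 0 < ε / 2 / (‖p₀‖ + 1) := by positivity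
  set ρ := min r (ε / 2 / (‖p₀‖ + 1)) with hρ
  have hρ0 : 0 < ρ := lt_min hr hpos
  obtain ⟨x', hx'Om, hx'B, hx's, hx'ρ⟩ : ∃ x' ∈ F.Om, x' ∈ B0 ∧ x' ∈ (A.e i).source ∧
      A.e i x' ∈ ball z0 ρ := by
    have h1 : B0 ∩ ((A.e i).source ∩ (A.e i) ⁻¹' ball z0 ρ) ∈ 𝓝 x0 :=
      inter_mem (hB0o.mem_nhds hx0B) (((A.e i).isOpen_inter_preimage isOpen_ball).mem_nhds
        ⟨hi, mem_ball_self hρ0⟩)
    obtain ⟨y, hy, hy'⟩ := F.dns.inter_nhds_nonempty h1
    exact ⟨y, hy, hy'.1, hy'.2.1, hy'.2.2⟩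
  obtain ⟨k, hk⟩ := C.cov x' ⟨hB0U hx'B, hx'Om⟩
  obtain ⟨p, hpp, hpinj⟩ := exists_perturb (E := Cn (2 * n)) (W := Cn n) (by simp)
    (fderiv ℂ (fun z => (C.τ k).f ((A.e i).symm z)) (A.e i x')) p₀
    ((C.τ k).sub i x' ⟨hx's, hk.1⟩) (ε := ε / (2 * (r + 1))) (by positivity)
  have hpr : ‖p - p₀‖ * (r + 1) ≤ ε / 2 := by
    rw [lt_div_iff₀ (by positivity)] at hpp
    nlinarith
  have hpr' : ‖p - p₀‖ * r ≤ ε / 2 := by
    have := norm_nonneg (p - p₀)
    nlinarith
  -- 6. the slice data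
  let S : SD A F.Tf O n :=
    { i := i, z0 := z0, r := r, r_pos := hr, hball := hball, p := p, ε := ε, ε_pos := hε0
      hsl := fun x hx z hz hzx => hsphere p hpr' x hx.1 z hz (by rw [c.eq x hx.2]; exact hzx) }
  obtain ⟨c0, dd, R, hRo, hRO, hRd, hRsat, hPS, hddl, hdpos, htr⟩ := out hn S C
  have hdx' : 1 ≤ dd x' := by
    have hsx : (A.e i).symm (A.e i x') = x' := (A.e i).left_inv hx's
    have hzW : A.e i x' ∈ S.W (C.τ k) (C.y k) (C.δ k) := by
      refine ⟨ball_subset_ball (min_le_left _ _) hx'ρ, ?_, ?_⟩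
      · show (A.e i).symm (A.e i x') ∈ _
        rw [hsx]
        exact hk
      · show ‖p (A.e i x' - z0)‖ < ε
        have h1 : ‖A.e i x' - z0‖ < ρ := by
          rw [← dist_eq_norm]
          exact hx'ρ
        have h2 : p (A.e i x' - z0) = p₀ (A.e i x' - z0) + (p - p₀) (A.e i x' - z0) := by simp
        have h3 : ‖p₀ (A.e i x' - z0)‖ ≤ ‖p₀‖ * ‖A.e i x' - z0‖ := p₀.le_opNorm _
        have h4 : ‖(p - p₀) (A.e i x' - z0)‖ ≤ ‖p - p₀‖ * ‖A.e i x' - z0‖ := (p - p₀).le_opNorm _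
        have h5 : ‖A.e i x' - z0‖ < r := h1.trans_le (min_le_left _ _)
        have h6 : ‖A.e i x' - z0‖ < ε / 2 / (‖p₀‖ + 1) := h1.trans_le (min_le_right _ _)
        rw [lt_div_iff₀ (by positivity)] at h6
        have h7 : ‖p₀‖ * ‖A.e i x' - z0‖ < ε / 2 := by
          nlinarith [norm_nonneg (A.e i x' - z0)]
        have h8 : ‖p - p₀‖ * ‖A.e i x' - z0‖ ≤ ε / 2 := by
          have := norm_nonneg (p - p₀)
          nlinarith
        rw [h2]
        refine (norm_add_le _ _).trans_lt ?_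
        linarith
    have hinj := S.fderiv_inj (C.τ k) hzW hpinj
    have := hdpos k _ hzW hinj
    have h3 : (A.e S.i).symm (A.e i x') = x' := hsx
    rwa [h3] at this
  -- 7. constant degree
  have hddc : ∀ B : Set M, B ⊆ U0 → IsPreconnected (B ∩ F.Om) → ∀ x ∈ B ∩ F.Om,
      ∀ y ∈ B ∩ F.Om, dd x = dd y := by
    intro B hBU hBc x hx y hy
    refine hBc.constant (f := dd) ?_ hx hy
    intro w hw
    have h1 : ∀ᶠ y in 𝓝 w, dd y = dd w := hddl w ⟨hBU hw.1, hw.2⟩
    have h2 : ContinuousAt dd w := by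
      have : dd =ᶠ[𝓝 w] fun _ => dd w := h1
      exact continuousAt_const.congr this.symm
    exact h2.continuousWithinAt
  set d0 := dd x' with hd0
  set U' : Set M := {x | ∃ B, IsOpen B ∧ x ∈ B ∧ B ⊆ U0 ∧ ∀ y ∈ B ∩ F.Om, dd y = d0} with hU'
  have hU'o : IsOpen U' := by
    rw [isOpen_iff_mem_nhds]
    rintro x ⟨B, hBo, hxB, hBU, hB⟩
    filter_upwards [hBo.mem_nhds hxB] with y hy
    exact ⟨B, hBo, hy, hBU, hB⟩
  have hU'U : U' ⊆ U0 := by
    rintro x ⟨B, -, hxB, hBU, -⟩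
    exact hBU hxB
  have hU'd : ∀ x ∈ U' ∩ F.Om, dd x = d0 := by
    rintro x ⟨⟨B, -, hxB, -, hB⟩, hxO⟩
    exact hB x ⟨hxB, hxO⟩
  have hx0U' : x0 ∈ U' := ⟨B0, hB0o, hx0B, hB0U, fun y hy =>
    hddc B0 hB0U hB0c y hy x' ⟨hx'B, hx'Om⟩⟩
  have hsat' : ∀ x ∈ U', c.Z x ⊆ U' := by
    intro x hx
    have hZU : c.Z x ⊆ U0 := hsat0 x (hU'U hx)
    set V' : Set M := {y | ∃ B, IsOpen B ∧ y ∈ B ∧ Disjoint B U'} with hV'
    have hV'o : IsOpen V' := by
      rw [isOpen_iff_mem_nhds]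
      rintro y ⟨B, hBo, hyB, hB⟩
      filter_upwards [hBo.mem_nhds hyB] with w hw
      exact ⟨B, hBo, hw, hB⟩
    have hdisj : Disjoint U' V' := by
      rw [Set.disjoint_left]
      rintro y hy ⟨B, -, hyB, hB⟩
      exact (Set.disjoint_left.1 hB) hyB hy
    have hcov : c.Z x ⊆ U' ∪ V' := by
      intro y hy
      by_cases hyU : y ∈ U'
      · exact Or.inl hyU
      · right
        obtain ⟨B, hBo, hyB, hBU, hBc⟩ := conn_nhds F hU0o (hZU hy)
        refine ⟨B, hBo, hyB, ?_⟩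
        rw [Set.disjoint_left]
        rintro w hwB ⟨B', hB'o, hwB', hB'U, hB'⟩
        apply hyU
        obtain ⟨v, hv, hvO⟩ := F.dns.inter_open_nonempty (B ∩ B') (hBo.inter hB'o) ⟨w, hwB, hwB'⟩
        refine ⟨B, hBo, hyB, hBU, fun u hu => ?_⟩
        rw [hddc B hBU hBc u hu v ⟨hv.1, hvO⟩]
        exact hB' v ⟨hv.2, hvO⟩
    exact (c.conn x).isPreconnected.subset_left_of_subset_union hU'o hV'o hdisj hcov
      ⟨x, c.mem x, hx⟩
  have hTfZ : ∀ x ∈ F.Om, ∀ y ∈ F.Tf x, F.Tf y = F.Tf x := by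
    intro x hx y hy
    have hyO : y ∈ F.Om := Tf_sub_Om hx hy
    rw [← c.eq y hyO, ← c.eq x hx]
    exact c.part x y (by rw [c.eq x hx]; exact hy)
  -- 8. assembly
  refine ⟨⟨i, hi, r, hr, hball, U', hU'o, hsat' x0 hx0U', hsat', d0, hdx', R ∩ U',
    hRo.inter hU'o, ?_, ?_, ?_,
    fun x => if h : (S.PS c0 x).Finite then h.toFinset else ∅, ?_, ?_, ?_, ?_⟩⟩
  · rintro x ⟨hxR, hxU⟩
    exact ⟨hxU, (hRO hxR).2⟩
  · rintro x ⟨hxR, hxU⟩ y hy
    refine ⟨hRsat x hxR hy, hsat' x hxU ?_⟩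
    rw [c.eq x (hRO hxR).2]
    exact hy
  · intro x hx
    rw [mem_closure_iff_nhds]
    intro t ht
    obtain ⟨t', ht't, ht'o, hxt'⟩ := mem_nhds_iff.1 (inter_mem ht (hU'o.mem_nhds hx))
    obtain ⟨y, hy, hyO⟩ := F.dns.inter_open_nonempty t' ht'o ⟨x, hxt'⟩
    have hyO' : y ∈ O := ⟨hU'U (ht't hy).2, hyO⟩
    obtain ⟨w, hw, hwR⟩ := mem_closure_iff_nhds.1 (hRd hyO') t' (ht'o.mem_nhds hy)
    exact ⟨w, (ht't hw).1, hwR, (ht't hw).2⟩
  · rintro x ⟨hxR, hxU⟩
    obtain ⟨h1, h2⟩ := hPS x hxR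
    rw [dif_pos h1, ← ncard_eq_toFinset_card _ h1, h2]
    exact hU'd x ⟨hxU, (hRO hxR).2⟩
  · rintro x ⟨hxR, hxU⟩ z hz
    obtain ⟨h1, h2⟩ := hPS x hxR
    rw [dif_pos h1, Finite.mem_toFinset] at hz
    exact ⟨hz.1, hz.2.1⟩
  · rintro x ⟨hxR, hxU⟩ y hy
    have h1 : S.PS c0 y = S.PS c0 x := by
      ext z
      simp only [SD.PS, hTfZ x (hRO hxR).2 y hy]
    simp only [h1]
  · intro h hh
    obtain ⟨T, hT1, hT2, hT3, hT4⟩ := htr h hh
    refine ⟨T, ?_, ?_, ?_, ?_⟩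
    · exact fun j => (hT1 j).mono fun x hx => ⟨hU'U hx.1, hx.2⟩
    · exact fun x hx y hy => hT2 x ⟨hU'U hx.1, hx.2⟩ y hy
    · intro B hB x hx
      rw [← hU'd x hx]
      exact hT3 B hB x ⟨hU'U hx.1, hx.2⟩
    · rintro x ⟨hxR, hxU⟩
      obtain ⟨h1, h2⟩ := hPS x hxR
      rw [hT4 x hxR, dif_pos h1, finsum_mem_eq_finite_toFinset_sum _ h1]

end Crest.Agent.R281.Fr7_316
end
end

-- ▼ part R281/Tc4_941
section

/-!
# R281 (S0424), S6-FRAME, part 4 (helper941): limit atoms, the separating map `w`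
-/

set_option autoImplicit false
set_option linter.unusedSectionVars false

open Set Filter Topology Complex
open scoped ContDiff Matrix ComplexConjugate Manifold ComplexOrder ENNReal

namespace Crest.Agent.R281.Tc_941

open Crest.Agent.R275.Geo Crest.Agent.R275.Core144 Crest.Agent.R275.GC293
open Crest.Agent.R273.Defs_333 Crest.Agent.R273.Kah_333 Crest.Agent.R273.HM_333
open Crest.Agent.R281.Defs_273 Crest.Agent.R281.D6_986
open Crest.Agent.R281.S6D_664 (LFib)
open Crest.Agent.R281.Thn_280 Crest.Agent.R281.ThnM_280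
open Crest.Agent.R273.FIb0_597 (ch mem_ch)

noncomputable section

variable {n : ℕ} {M : Type} [TopologicalSpace M] {A : Atl (2 * n) M}
variable {σ : HSymp A} {L : LB A} {F : LFib A σ} {c : ContOut F} {x0 : M}

/-- limit atoms at a point of `U` -/
theorem SliceAt.exists_atoms [T2Space M] (S : SliceAt F c x0) {x : M} (hx : x ∈ S.U) :
    ∃ a : Fin S.d → Cn (2 * n), (∀ j, a j ∈ Metric.closedBall (A.e S.i x0) S.r) ∧
      (∀ j, (A.e S.i).symm (a j) ∈ c.Z x) ∧
      ∀ (h : Cn (2 * n) → ℂ) (_ : Continuous h) (T : M → ℂ) (w : ℂ),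
        (∀ y ∈ S.R, T y = ∑ z ∈ S.P y, h z) → Tendsto T (𝓝[S.U ∩ F.Om] x) (𝓝 w) →
          w = ∑ j, h (a j) := by
  classical
  have hNB : (𝓝[S.R] x).NeBot := mem_closure_iff_nhdsWithin_neBot.mp (S.R_dns hx)
  let l : Ultrafilter M := Ultrafilter.of (𝓝[S.R] x)
  have hl : (l : Filter M) ≤ 𝓝[S.R] x := Ultrafilter.of_le _
  have hlR : ∀ᶠ y in (l : Filter M), y ∈ S.R := hl self_mem_nhdsWithin
  have hy : ∀ y : M, ∃ v : Fin S.d → Cn (2 * n), y ∈ S.R →
      ((∀ j, v j ∈ S.P y) ∧ ∀ h : Cn (2 * n) → ℂ, ∑ z ∈ S.P y, h z = ∑ j, h (v j)) := by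
    intro y
    by_cases hyR : y ∈ S.R
    · let e := (S.P y).equivFinOfCardEq (S.card y hyR)
      refine ⟨fun j => (e.symm j : Cn (2 * n)), fun _ => ⟨fun j => (e.symm j).2, fun h => ?_⟩⟩
      rw [← Finset.sum_coe_sort (S.P y) h]
      exact (Equiv.sum_comp e.symm (fun z => h (z : Cn (2 * n)))).symm
    · exact ⟨fun _ => 0, fun h => absurd h hyR⟩
  choose v hv using hy
  -- the limit of the tuples
  have hK : IsCompact (Set.pi (univ : Set (Fin S.d)) fun _ =>
      Metric.closedBall (A.e S.i x0) S.r) :=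
    isCompact_univ_pi fun _ => isCompact_closedBall _ _
  have hvK : ∀ᶠ y in (l : Filter M), v y ∈ Set.pi (univ : Set (Fin S.d)) fun _ =>
      Metric.closedBall (A.e S.i x0) S.r := by
    filter_upwards [hlR] with y hyR j _
    exact Metric.ball_subset_closedBall (S.P_mem y hyR _ ((hv y hyR).1 j)).1
  obtain ⟨a, haK, ha⟩ := hK.ultrafilter_le_nhds (l.map v)
    (by rw [Filter.le_principal_iff]; exact hvK)
  have hta : Tendsto v (l : Filter M) (𝓝 a) := ha
  have htj : ∀ j, Tendsto (fun y => v y j) (l : Filter M) (𝓝 (a j)) := fun j =>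
    (tendsto_pi_nhds.mp hta) j
  refine ⟨a, fun j => haK j (mem_univ j), fun j => ?_, fun h hh T w hT hw => ?_⟩
  · refine mem_Z_of_tendsto c (l := (l : Filter M)) (hl.trans nhdsWithin_le_nhds)
      (p := fun y => (A.e S.i).symm (v y j)) ?_ ?_
    · filter_upwards [hlR] with y hyR
      have h1 := (S.P_mem y hyR _ ((hv y hyR).1 j)).2
      rw [c.eq y (S.R_sub hyR).2]
      exact h1
    · have h2 : a j ∈ (A.e S.i).target := S.ball (haK j (mem_univ j))
      exact ((A.e S.i).continuousAt_symm h2).tendsto.comp (htj j)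
  · have h1 : Tendsto (fun y => ∑ j, h (v y j)) (l : Filter M) (𝓝 (∑ j, h (a j))) :=
      tendsto_finsetSum _ fun j _ => (hh.tendsto (a j)).comp (htj j)
    have h2 : (l : Filter M) ≤ 𝓝[S.U ∩ F.Om] x := hl.trans (nhdsWithin_mono x S.R_sub)
    have h3 : Tendsto T (l : Filter M) (𝓝 w) := hw.mono_left h2
    refine tendsto_nhds_unique (h3.congr' ?_) h1
    filter_upwards [hlR] with y hyR
    rw [hT y hyR, (hv y hyR).2]

/-- monomials -/
def mon {m d : ℕ} (μ : Fin m → Fin (2 * d + 1)) (z : Cn m) : ℂ := ∏ k, (z k) ^ (μ k : ℕ)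

theorem diff_prod {m : ℕ} {κ : Type*} (s : Finset κ) {f : κ → Cn m → ℂ}
    (hf : ∀ k, Differentiable ℂ (f k)) : Differentiable ℂ fun z => ∏ k ∈ s, f k z := by
  classical
  induction s using Finset.induction_on with
  | empty => simp only [Finset.prod_empty]; exact differentiable_const _
  | insert k s hk ih =>
    simp only [Finset.prod_insert hk]
    exact (hf k).mul ih

theorem diff_mon {m d : ℕ} (μ : Fin m → Fin (2 * d + 1)) : Differentiable ℂ (mon μ) := by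
  unfold mon
  have h1 : ∀ k : Fin m, Differentiable ℂ fun z : Cn m => (z k) ^ (μ k : ℕ) := fun k =>
    ((EuclideanSpace.proj k : Cn m →L[ℂ] ℂ).differentiable).pow _
  exact diff_prod Finset.univ h1

/-- **the separating map.** -/
theorem SliceAt.exists_w [T2Space M] (hS : SThM A F.Omᶜ) (S : SliceAt F c x0)
    (hsep : SepMono (2 * n) S.d) :
    ∃ (r : ℕ) (w : M → Fin r → ℂ), (∀ i k, HolAt A i S.U (fun x => w x k)) ∧
      (∀ x ∈ S.U, ∀ y ∈ c.Z x, w y = w x) ∧ w x0 = 0 ∧ ∀ x ∈ S.U, w x = 0 → x ∈ c.Z x0 := by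
  classical
  have hRem := rem_of_sth F.op hS
  have hx0 : x0 ∈ S.U := S.sub (c.mem x0)
  have h1 : ∀ μ : Fin (2 * n) → Fin (2 * S.d + 1), ∃ G : M → ℂ, (∀ i, HolAt A i S.U G) ∧
      (∀ x ∈ S.U, ∀ y ∈ c.Z x, G y = G x) ∧
      ∀ x ∈ S.U, ∀ a : Fin S.d → Cn (2 * n),
        (∀ (h : Cn (2 * n) → ℂ) (_ : Continuous h) (T : M → ℂ) (w : ℂ),
          (∀ y ∈ S.R, T y = ∑ z ∈ S.P y, h z) → Tendsto T (𝓝[S.U ∩ F.Om] x) (𝓝 w) →
          w = ∑ j, h (a j)) → G x = ∑ j, mon μ (a j) := by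
    intro μ
    obtain ⟨T, hT1, hT2, hT3, hT4⟩ := S.trace (mon μ) (diff_mon μ).differentiableOn
    obtain ⟨C, hC⟩ : ∃ C : ℝ, ∀ z ∈ Metric.closedBall (A.e S.i x0) S.r, ‖mon μ z‖ ≤ C :=
      (isCompact_closedBall _ _).exists_bound_of_continuousOn
        ((diff_mon μ).continuous.continuousOn)
    obtain ⟨G, hG1, hG2, hG3⟩ := ext_fun hRem F.dns S.op hT1 (fun x _ => ⟨S.d * C, by
      filter_upwards [self_mem_nhdsWithin] with y hy
      exact hT3 C (fun z hz => hC z (Metric.ball_subset_closedBall hz)) y hy⟩)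
    refine ⟨G, hG1, ext_const c S.op S.sat hG1 fun x hx y hy => ?_, fun x hx a ha => ?_⟩
    · have hyO : y ∈ F.Om := Tf_sub_Om hx.2 hy
      have hyU : y ∈ S.U := S.sat x hx.1 (by rw [c.eq x hx.2]; exact hy)
      rw [hG2 y ⟨hyU, hyO⟩, hG2 x hx]
      exact hT2 x hx y hy
    · exact ha (mon μ) (diff_mon μ).continuous T (G x) hT4 (hG3 x hx)
  choose G hG1 hG2 hG3 using h1
  let e : Fin (Fintype.card (Fin (2 * n) → Fin (2 * S.d + 1))) ≃
      (Fin (2 * n) → Fin (2 * S.d + 1)) := (Fintype.equivFin _).symm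
  refine ⟨_, fun x k => G (e k) x - G (e k) x0, fun i k => (hG1 (e k) i).sub (holAt_const _),
    fun x hx y hy => ?_, ?_, fun x hx hwx => ?_⟩
  · funext k
    show G (e k) y - G (e k) x0 = G (e k) x - G (e k) x0
    rw [hG2 (e k) x hx y hy]
  · funext k
    exact sub_self _
  · obtain ⟨a, -, haZ, ha⟩ := S.exists_atoms hx
    obtain ⟨b, -, hbZ, hb⟩ := S.exists_atoms hx0
    have h2 : ∀ μ : Fin (2 * n) → Fin (2 * S.d + 1), ∑ j, mon μ (a j) = ∑ j, mon μ (b j) := by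
      intro μ
      rw [← hG3 μ x hx a ha, ← hG3 μ x0 hx0 b hb]
      have h3 : G (e (e.symm μ)) x - G (e (e.symm μ)) x0 = 0 := congrFun hwx (e.symm μ)
      rw [Equiv.apply_symm_apply] at h3
      exact sub_eq_zero.mp h3
    obtain ⟨j, hj⟩ := hsep a b h2 ⟨0, S.d_pos⟩
    have h4 := haZ ⟨0, S.d_pos⟩
    have h5 := hbZ j
    rw [← hj] at h5
    have h6 := c.part x _ h4
    have h7 := c.part x0 _ h5
    rw [← h7, h6]
    exact c.mem x

end

end Crest.Agent.R281.Tc_941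
end

-- ▼ part R281/Sep_341
section

/-!
Row 281, DIV 6, N5 (g2) (helper341): finitely many monomials separate `d`-tuples of points of `ℂ^N`.

`sep_mono` : if the sums over the two `d`-tuples `a`, `b` of all monomials `∏ z_i ^ (m i)`, `m i ≤ 2 d`,
agree, then every `a k` is some `b l`.
-/

set_option autoImplicit false
open Finset

namespace Crest.Agent.R281.Sep_341

/-- the monomial with exponents `m` -/
def mono {N D : ℕ} (m : Fin N → Fin (D + 1)) (z : Fin N → ℂ) : ℂ := ∏ i, z i ^ (m i : ℕ)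



/-- sums of polynomials of small degree agree as soon as the sums of monomials do -/
theorem sum_eval_eq {N D : ℕ} {κ κ' : Type*} [Fintype κ] [Fintype κ'] (a : κ → Fin N → ℂ)
    (b : κ' → Fin N → ℂ) (h : ∀ m : Fin N → Fin (D + 1), ∑ k, mono m (a k) = ∑ k, mono m (b k))
    (P : MvPolynomial (Fin N) ℂ) (hP : P.totalDegree ≤ D) :
    ∑ k, MvPolynomial.eval (a k) P = ∑ k, MvPolynomial.eval (b k) P := by
  simp only [MvPolynomial.eval_eq']
  rw [Finset.sum_comm, Finset.sum_comm (γ := κ')]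
  refine Finset.sum_congr rfl fun e he => ?_
  rw [← Finset.mul_sum, ← Finset.mul_sum]
  congr 1
  have he1 : ∀ i, e i ≤ D := by
    intro i
    have h1 := MvPolynomial.le_totalDegree he
    have h2 : e i ≤ e.sum fun _ k => k := by
      by_cases h3 : i ∈ e.support
      · exact Finset.single_le_sum (f := fun j => e j) (fun _ _ => Nat.zero_le _) h3
      · rw [Finsupp.notMem_support_iff] at h3
        rw [h3]; exact Nat.zero_le _
    exact h2.trans (h1.trans hP)
  have h4 := h fun i => ⟨e i, Nat.lt_succ_of_le (he1 i)⟩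
  simpa [mono] using h4

/-- **finitely many monomials separate `d`-tuples** -/
theorem sep_mono {N d : ℕ} {κ κ' : Type*} [Fintype κ] [Fintype κ'] (hκ : Fintype.card κ = d)
    (hκ' : Fintype.card κ' = d) (a : κ → Fin N → ℂ) (b : κ' → Fin N → ℂ)
    (h : ∀ m : Fin N → Fin (2 * d + 1), ∑ k, mono m (a k) = ∑ k, mono m (b k)) (k : κ) :
    ∃ l, a k = b l := by
  classical
  by_contra hcon
  push Not at hcon
  set Q : Finset (Fin N → ℂ) := (univ.image a ∪ univ.image b).erase (a k) with hQ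
  have hQc : Q.card ≤ 2 * d := by
    refine (Finset.card_le_card (Finset.erase_subset _ _)).trans
      ((Finset.card_union_le _ _).trans ?_)
    have h1 : (univ.image a).card ≤ d := by
      rw [← hκ]; exact Finset.card_image_le
    have h2 : (univ.image b).card ≤ d := by
      rw [← hκ']; exact Finset.card_image_le
    omega
  have hne : Nonempty (Fin N) := by
    by_contra hN
    rw [not_nonempty_iff] at hN
    have h1 : 0 < Fintype.card κ' := by
      rw [hκ', ← hκ]; exact Fintype.card_pos_iff.2 ⟨k⟩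
    obtain ⟨l⟩ := Fintype.card_pos_iff.1 h1
    exact hcon l (Subsingleton.elim _ _)
  have hex : ∀ q ∈ Q, ∃ i, a k i ≠ q i := by
    intro q hq
    by_contra hc
    push Not at hc
    exact (Finset.ne_of_mem_erase hq) (funext fun i => (hc i).symm)
  choose! ix hix using hex
  set P : MvPolynomial (Fin N) ℂ := ∏ q ∈ Q, (MvPolynomial.X (ix q) - MvPolynomial.C (q (ix q)))
    with hP
  have hPd : P.totalDegree ≤ 2 * d := by
    refine (MvPolynomial.totalDegree_finsetProd _ _).trans ?_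
    refine le_trans (Finset.sum_le_card_nsmul _ _ 1 fun q _ => ?_) (by simpa using hQc)
    refine (MvPolynomial.totalDegree_sub _ _).trans ?_
    simp
  have hev : ∀ z : Fin N → ℂ, MvPolynomial.eval z P = ∏ q ∈ Q, (z (ix q) - q (ix q)) := by
    intro z
    simp [hP, map_prod]
  have hmem : ∀ z ∈ Q, MvPolynomial.eval z P = 0 := by
    intro z hz
    rw [hev]
    exact Finset.prod_eq_zero hz (sub_self _)
  have h0 : MvPolynomial.eval (a k) P ≠ 0 := by
    rw [hev]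
    refine Finset.prod_ne_zero_iff.2 fun q hq => sub_ne_zero.2 (hix q hq)
  have hsum := sum_eval_eq a b h P hPd
  have hb : ∑ l, MvPolynomial.eval (b l) P = 0 := by
    refine Finset.sum_eq_zero fun l _ => hmem _ ?_
    rw [hQ, Finset.mem_erase]
    exact ⟨fun hbl => hcon l hbl.symm, Finset.mem_union_right _
      (Finset.mem_image_of_mem _ (Finset.mem_univ l))⟩
  have ha : ∑ j, MvPolynomial.eval (a j) P
      = ((univ.filter fun j => a j = a k).card : ℂ) * MvPolynomial.eval (a k) P := by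
    rw [← Finset.sum_filter_add_sum_filter_not univ (fun j => a j = a k)]
    have h2 : ∑ j ∈ univ.filter (fun j => ¬ a j = a k), MvPolynomial.eval (a j) P = 0 := by
      refine Finset.sum_eq_zero fun j hj => hmem _ ?_
      rw [Finset.mem_filter] at hj
      rw [hQ, Finset.mem_erase]
      exact ⟨hj.2, Finset.mem_union_left _ (Finset.mem_image_of_mem _ (Finset.mem_univ j))⟩
    rw [h2, add_zero]
    rw [Finset.sum_congr rfl (g := fun _ => MvPolynomial.eval (a k) P)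
      (fun j hj => by rw [Finset.mem_filter] at hj; rw [hj.2])]
    simp
  rw [hb, ha] at hsum
  have hc : ((univ.filter fun j => a j = a k).card : ℂ) ≠ 0 := by
    rw [Nat.cast_ne_zero]
    exact Finset.card_ne_zero_of_mem (Finset.mem_filter.2 ⟨Finset.mem_univ k, rfl⟩)
  exact (mul_ne_zero hc h0) hsum

/-- the form of 941 (`Cn m = EuclideanSpace ℂ (Fin m)`) -/
theorem sep_monoE {m d : ℕ} (a b : Fin d → EuclideanSpace ℂ (Fin m))
    (h : ∀ μ : Fin m → Fin (2 * d + 1),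
      ∑ i, ∏ k, (a i k) ^ (μ k : ℕ) = ∑ i, ∏ k, (b i k) ^ (μ k : ℕ)) :
    ∀ i, ∃ j, a i = b j := by
  intro i
  obtain ⟨l, hl⟩ := sep_mono (d := d) (by simp) (by simp) (fun j => (a j : Fin m → ℂ))
    (fun j => (b j : Fin m → ℂ)) (fun μ => by simpa [mono] using h μ) i
  refine ⟨l, ?_⟩
  ext k
  exact congrFun hl k

end Crest.Agent.R281.Sep_341
end

-- ▼ part R281/Tc5_941

/-!
# R281 (S0424), S6-FRAME, part 5 (helper941): the norm and the literal node `FrameAt`
-/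

set_option autoImplicit false
set_option linter.unusedSectionVars false

open Set Filter Topology Complex
open scoped ContDiff Matrix ComplexConjugate Manifold ComplexOrder ENNReal

namespace Crest.Agent.R281.Tc_941

open Crest.Agent.R275.Geo Crest.Agent.R275.Core144 Crest.Agent.R275.GC293
open Crest.Agent.R273.Defs_333 Crest.Agent.R273.Kah_333 Crest.Agent.R273.HM_333
open Crest.Agent.R281.Defs_273 Crest.Agent.R281.D6_986
open Crest.Agent.R281.S6D_664 (LFib)
open Crest.Agent.R281.Thn_280 Crest.Agent.R281.ThnM_280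
open Crest.Agent.R273.FIb0_597 (ch mem_ch)

noncomputable section

section pure

variable {E : Type} {h : E → ℂ}

/-- bounds of the norm (squares) -/
theorem sq_prod_le {d : ℕ} {s : Finset E} (hs : s.card = d) {q B : ℝ}
    (hq : ∀ z ∈ s, ‖h z‖ ^ 2 ≤ B * q) : ‖∏ z ∈ s, h z‖ ^ 2 ≤ B ^ d * q ^ d := by
  rw [norm_prod, ← Finset.prod_pow, ← mul_pow, ← hs, ← Finset.prod_const]
  exact Finset.prod_le_prod (fun _ _ => by positivity) hq

theorem le_sq_prod {d : ℕ} {s : Finset E} (hs : s.card = d) {q b : ℝ} (hb : 0 ≤ b * q)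
    (hq : ∀ z ∈ s, b * q ≤ ‖h z‖ ^ 2) : b ^ d * q ^ d ≤ ‖∏ z ∈ s, h z‖ ^ 2 := by
  rw [norm_prod, ← Finset.prod_pow, ← mul_pow, ← hs, ← Finset.prod_const]
  exact Finset.prod_le_prod (fun _ _ => hb) hq

end pure

variable {n : ℕ} {M : Type} [TopologicalSpace M] {A : Atl (2 * n) M}
variable {σ : HSymp A} {L : LB A}

theorem continuousOn_w {N : ℕ} {A : Atl N M} {L : LB A} (h : HM L) (i : A.ι) :
    ContinuousOn (h.w i) (A.e i).source := by
  intro x hx
  have hwc : ContinuousAt (fun z => h.w i ((A.e i).symm z)) (A.e i x) :=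
    ((h.sm i).continuousOn).continuousAt ((A.e i).open_target.mem_nhds ((A.e i).map_source hx))
  have h1 : Tendsto (fun y => h.w i ((A.e i).symm (A.e i y))) (𝓝 x)
      (𝓝 (h.w i ((A.e i).symm (A.e i x)))) := hwc.tendsto.comp ((A.e i).continuousAt hx)
  rw [(A.e i).left_inv hx] at h1
  refine ContinuousAt.continuousWithinAt (h1.congr' ?_)
  filter_upwards [(A.e i).open_source.mem_nhds hx] with y hy
  rw [(A.e i).left_inv hy]

theorem continuousOn_sec {N : ℕ} {A : Atl N M} {L : LB A} {U : Set M} (hU : IsOpen U)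
    {s : A.ι → M → ℂ} (hs : IsHS L U s) (i : A.ι) : ContinuousOn (s i) (U ∩ (A.e i).source) := by
  intro x hx
  have h1 : ContinuousAt (fun z => s i ((A.e i).symm z)) (A.e i x) :=
    (HolAt.diffAt (hs.hol i) hU hx.2 hx.1).continuousAt
  have h2 : Tendsto (fun y => s i ((A.e i).symm (A.e i y))) (𝓝 x)
      (𝓝 (s i ((A.e i).symm (A.e i x)))) := h1.tendsto.comp ((A.e i).continuousAt hx.2)
  rw [(A.e i).left_inv hx.2] at h2
  refine ContinuousAt.continuousWithinAt (h2.congr' ?_)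
  filter_upwards [(A.e i).open_source.mem_nhds hx.2] with y hy
  rw [(A.e i).left_inv hy]

/-- **the norm of the section over the slice.** -/
theorem SliceAt.exists_norm {o : OmOut σ L} {h : HM L} (hH : Harn o h) {c : ContOut o.F} {x0 : M}
    (S : SliceAt o.F c x0) : ∃ (N : M → ℂ) (b B : ℝ), 0 < b ∧
      (∀ i, HolAt A i (S.U ∩ o.F.Om) N) ∧
      ∀ i, ∀ y ∈ (A.e i).source, y ∈ S.U → y ∈ o.F.Om →
        b * (‖o.s i y‖ ^ 2 * (Crest.Agent.R273.HM_333.pow h o.k).w i y) ^ S.d ≤ ‖N y‖ ^ 2 ∧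
        ‖N y‖ ^ 2 ≤ B * (‖o.s i y‖ ^ 2 * (Crest.Agent.R273.HM_333.pow h o.k).w i y) ^ S.d := by
  classical
  set hk : HM (L ^ o.k) := Crest.Agent.R273.HM_333.pow h o.k with hhk
  obtain ⟨C, hC⟩ := hH
  -- the section in the chart
  set g : Cn (2 * n) → ℂ := fun z => o.s S.i ((A.e S.i).symm z) with hg
  have hgd : DifferentiableOn ℂ g (Metric.ball (A.e S.i x0) S.r) := by
    have h1 : DifferentiableOn ℂ g ((A.e S.i).target ∩ (A.e S.i).symm ⁻¹' univ) := o.hs.hol S.i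
    exact h1.mono fun z hz => ⟨S.ball (Metric.ball_subset_closedBall hz), mem_univ _⟩
  choose T hT1 hT2 hT3 hT4 using fun j : ℕ => S.trace (fun z => g z ^ j) (hgd.pow j)
  obtain ⟨Q, hQ⟩ := newton.{0} S.d
  set N : M → ℂ := fun x => MvPolynomial.eval (fun j => T j x) Q with hNdef
  have hNhol : ∀ i, HolAt A i (S.U ∩ o.F.Om) N := fun i =>
    diff_eval (T := fun j z => T j ((A.e i).symm z)) (fun j => hT1 j i) Q
  have hNR : ∀ x ∈ S.R, N x = ∏ z ∈ S.P x, g z := by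
    intro x hx
    have h1 : N x = MvPolynomial.eval (fun j => ∑ z ∈ S.P x, g z ^ j) Q := by
      show MvPolynomial.eval (fun j => T j x) Q = _
      congr 2
      funext j
      exact hT4 j x hx
    rw [h1, hQ _ (S.P x) g, ← S.card x hx, Finset.powersetCard_self, Finset.sum_singleton]
  -- the weight on the closed ball
  have hwc : ContinuousOn (fun z => hk.w S.i ((A.e S.i).symm z))
      (Metric.closedBall (A.e S.i x0) S.r) := ((hk.sm S.i).continuousOn).mono S.ball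
  have hwpos : ∀ z ∈ Metric.closedBall (A.e S.i x0) S.r, 0 < hk.w S.i ((A.e S.i).symm z) :=
    fun z hz => hk.pos S.i _ ((A.e S.i).map_target (S.ball hz))
  obtain ⟨m, hm, hmw⟩ : ∃ m : ℝ, 0 < m ∧ ∀ z ∈ Metric.closedBall (A.e S.i x0) S.r,
      m ≤ hk.w S.i ((A.e S.i).symm z) := by
    obtain ⟨z, hz, hmin⟩ := (isCompact_closedBall (A.e S.i x0) S.r).exists_isMinOn
      ⟨A.e S.i x0, Metric.mem_closedBall_self S.r_pos.le⟩ hwc
    exact ⟨_, hwpos z hz, fun y hy => hmin hy⟩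
  obtain ⟨m', hm', hmw'⟩ : ∃ m : ℝ, 0 < m ∧ ∀ z ∈ Metric.closedBall (A.e S.i x0) S.r,
      hk.w S.i ((A.e S.i).symm z) ≤ m := by
    obtain ⟨z, hz, hmax⟩ := (isCompact_closedBall (A.e S.i x0) S.r).exists_isMaxOn
      ⟨A.e S.i x0, Metric.mem_closedBall_self S.r_pos.le⟩ hwc
    exact ⟨_, hwpos z hz, fun y hy => hmax hy⟩
  -- `|s|²`
  have hns : ∀ (i : A.ι) (y : M), y ∈ (A.e i).source → y ∈ o.F.Om →
      0 < ‖o.s i y‖ ^ 2 * hk.w i y := by
    intro i y hy hyO
    have h1 := hk.pos i y hy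
    have h2 : 0 < ‖o.s i y‖ := norm_pos_iff.mpr (o.nz y hyO i hy)
    positivity
  have hrho : ∀ (i : A.ι) (y : M), y ∈ (A.e i).source →
      o.rho h y = Real.log (‖o.s i y‖ ^ 2 * hk.w i y) := by
    intro i y hy
    show Real.log (nsq hk o.s (ch A y) y) = Real.log (nsq hk o.s i y)
    rw [nsq_indep hk o.hs ⟨mem_ch A y, hy⟩ (mem_univ y)]
  have hpt : ∀ x ∈ S.R, ∀ i, x ∈ (A.e i).source → ∀ z ∈ S.P x,
      Real.exp (-C) / m' * (‖o.s i x‖ ^ 2 * hk.w i x) ≤ ‖g z‖ ^ 2 ∧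
      ‖g z‖ ^ 2 ≤ Real.exp C / m * (‖o.s i x‖ ^ 2 * hk.w i x) := by
    intro x hx i hi z hz
    obtain ⟨hzb, hzT⟩ := S.P_mem x hx z hz
    have hzc := Metric.ball_subset_closedBall hzb
    have hxO : x ∈ o.F.Om := (S.R_sub hx).2
    have hyO : (A.e S.i).symm z ∈ o.F.Om := Tf_sub_Om hxO hzT
    have hys : (A.e S.i).symm z ∈ (A.e S.i).source := (A.e S.i).map_target (S.ball hzc)
    have h1 := hC x hxO _ hzT
    rw [hrho S.i _ hys, hrho i x hi, abs_le] at h1
    have hq0 := hns i x hi hxO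
    have hp0 := hns S.i _ hys hyO
    set q := ‖o.s i x‖ ^ 2 * hk.w i x with hq
    set W := hk.w S.i ((A.e S.i).symm z) with hW
    have hW0 : 0 < W := hwpos z hzc
    have hup : ‖g z‖ ^ 2 * W ≤ Real.exp C * q := by
      have h2 : Real.log (‖g z‖ ^ 2 * W) ≤ Real.log (Real.exp C * q) := by
        rw [Real.log_mul (Real.exp_pos C).ne' hq0.ne', Real.log_exp]
        have := h1.2
        show Real.log (‖o.s S.i ((A.e S.i).symm z)‖ ^ 2 * W) ≤ _
        linarith
      exact (Real.log_le_log_iff hp0 (by positivity)).mp h2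
    have hlo : Real.exp (-C) * q ≤ ‖g z‖ ^ 2 * W := by
      have h2 : Real.log (Real.exp (-C) * q) ≤ Real.log (‖g z‖ ^ 2 * W) := by
        rw [Real.log_mul (Real.exp_pos _).ne' hq0.ne', Real.log_exp]
        have := h1.1
        show _ ≤ Real.log (‖o.s S.i ((A.e S.i).symm z)‖ ^ 2 * W)
        linarith
      exact (Real.log_le_log_iff (by positivity) hp0).mp h2
    constructor
    · rw [div_mul_eq_mul_div, div_le_iff₀ hm']
      exact hlo.trans (mul_le_mul_of_nonneg_left (hmw' z hzc) (by positivity))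
    · rw [div_mul_eq_mul_div, le_div_iff₀ hm]
      exact (mul_le_mul_of_nonneg_left (hmw z hzc) (by positivity)).trans hup
  have hR : ∀ x ∈ S.R, ∀ i, x ∈ (A.e i).source →
      (Real.exp (-C) / m') ^ S.d * (‖o.s i x‖ ^ 2 * hk.w i x) ^ S.d ≤ ‖N x‖ ^ 2 ∧
      ‖N x‖ ^ 2 ≤ (Real.exp C / m) ^ S.d * (‖o.s i x‖ ^ 2 * hk.w i x) ^ S.d := by
    intro x hx i hi
    rw [hNR x hx]
    have hq0 := hns i x hi (S.R_sub hx).2
    exact ⟨le_sq_prod (S.card x hx) (by positivity) fun z hz => (hpt x hx i hi z hz).1,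
      sq_prod_le (S.card x hx) fun z hz => (hpt x hx i hi z hz).2⟩
  refine ⟨N, (Real.exp (-C) / m') ^ S.d, (Real.exp C / m) ^ S.d, by positivity, hNhol,
    fun i y hy hyU hyO => ?_⟩
  -- density
  have hUO : IsOpen (S.U ∩ o.F.Om) := S.op.inter o.F.op
  have hyc : y ∈ closure (S.R ∩ (A.e i).source) := by
    rw [mem_closure_iff]
    intro O hO hyO'
    obtain ⟨x, hx1, hx2⟩ := (mem_closure_iff.mp (S.R_dns hyU)) (O ∩ (A.e i).source)
      (hO.inter (A.e i).open_source) ⟨hyO', hy⟩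
    exact ⟨x, hx1.1, hx2, hx1.2⟩
  have hNc : ContinuousWithinAt (fun x => ‖N x‖ ^ 2) (S.R ∩ (A.e i).source) y :=
    ((((continuousOn_of_hol hUO hNhol).continuousAt
      (hUO.mem_nhds ⟨hyU, hyO⟩)).norm).pow 2).continuousWithinAt
  have hsc : ContinuousWithinAt (fun x => (‖o.s i x‖ ^ 2 * hk.w i x) ^ S.d)
      (S.R ∩ (A.e i).source) y := by
    have h1 : ContinuousAt (o.s i) y := (continuousOn_sec isOpen_univ o.hs i).continuousAt
      ((isOpen_univ.inter (A.e i).open_source).mem_nhds ⟨mem_univ y, hy⟩)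
    have h2 : ContinuousAt (hk.w i) y := (continuousOn_w hk i).continuousAt
      ((A.e i).open_source.mem_nhds hy)
    exact (((h1.norm.pow 2).mul h2).pow S.d).continuousWithinAt
  constructor
  · exact ContinuousWithinAt.closure_le hyc (continuousWithinAt_const.mul hsc) hNc
      fun x hx => (hR x hx.1 i hx.2).1
  · exact ContinuousWithinAt.closure_le hyc hNc (continuousWithinAt_const.mul hsc)
      fun x hx => (hR x hx.1 i hx.2).2

/-- **node N5**: the literal `FrameAt` of D6b_986. -/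
theorem frameAt [T2Space M] {o : OmOut σ L} {h : HM L} (hH : Harn o h) (c : ContOut o.F)
    (hS : SThM A o.F.Omᶜ) {x0 : M} (S : SliceAt o.F c x0) (hsep : SepMono (2 * n) S.d) :
    Nonempty (FrameAt o.F c L x0) := by
  obtain ⟨r, w, hw1, hw2, hw3, hw4⟩ := S.exists_w hS hsep
  obtain ⟨N, b, B, hb, hN, hbd⟩ := S.exists_norm hH
  obtain ⟨τ, hτ, hτ0, -, -⟩ := frame (rem_of_sth o.F.op hS) o.F.op o.F.dns S.op
    (Crest.Agent.R273.HM_333.pow h o.k) (o.hs.mono (subset_univ S.U))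
    (fun i x hx hxU hev => by
      obtain ⟨y, ⟨hy1, hy2⟩, hyO⟩ := mem_closure_iff_nhds.mp (o.F.dns x) _
        (hev.and ((A.e i).open_source.mem_nhds hx))
      exact o.nz y hyO i hy2 hy1) hN hb
    (fun i y hy hyU hyO => (hbd i y hy hyU hyO).1)
    (fun i y hy hyU hyO => (hbd i y hy hyU hyO).2)
  rw [← pow_mul] at hτ
  exact ⟨{ U := S.U, op := S.op, sub := S.sub, sat := S.sat, r := r, w := w, hol := hw1,
           const := hw2, w_zero := hw3, sep := hw4, k0 := o.k * S.d,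
           k0_pos := Nat.mul_pos o.k_pos S.d_pos, τ := τ, isHS := hτ, ne := hτ0 }⟩

/-- **node N5** (final form). -/
theorem frameAt_of_slice [T2Space M] {o : OmOut σ L} {h : HM L} (hH : Harn o h)
    (c : ContOut o.F) (hS : SThM A o.F.Omᶜ) {x0 : M} (S : SliceAt o.F c x0) :
    Nonempty (FrameAt o.F c L x0) :=
  frameAt hH c hS S fun a b h => Crest.Agent.R281.Sep_341.sep_monoE a b h

end

end Crest.Agent.R281.Tc_941
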