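import Mathlib

-- ▼ part R281/TorA_922
section

/-!
# R281 (S0424), leaf S-TOR (helper922), file A: lifting segments and balls

`f : Y → S` local homeomorphism from a metric space, `q : E → S` continuous; `LC q f C`: local lifts of
`q` through `f` are `C`-Lipschitz.  If `closedBall y R` is complete and `C * ρ ≤ R`, then `q` lifts
through `f` on the ball of radius `ρ` around `ζ` (`q ζ = f y`).
-/

set_option autoImplicit false
set_option linter.unusedSectionVars false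

open Set Filter Topology Metric

namespace Crest.Agent.R281.Tor_922

variable {E : Type*} [NormedAddCommGroup E] [NormedSpace ℝ E]
  {Y : Type*} [MetricSpace Y] {S : Type*} [TopologicalSpace S] [T2Space S]

/-- local lifts of `q` through `f` are `C`-Lipschitz -/
def LC (q : E → S) (f : Y → S) (C : ℝ) : Prop :=
  ∀ (p : Y) (ζ : E), q ζ = f p → ∃ δ : ℝ, 0 < δ ∧ ∃ s : E → Y, s ζ = p ∧
    (∀ ζ' ∈ ball ζ δ, f (s ζ') = q ζ') ∧
    ∀ ζ' ∈ ball ζ δ, ∀ ζ'' ∈ ball ζ δ, dist (s ζ') (s ζ'') ≤ C * ‖ζ' - ζ''‖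

variable {q : E → S} {f : Y → S} {C R : ℝ} {y : Y} {ζ v : E}

/-- a lift of the segment `ζ + τ v` on `[0, t]` -/
structure SegL (q : E → S) (f : Y → S) (C : ℝ) (y : Y) (ζ v : E) (t : ℝ) (g : ℝ → Y) : Prop where
  zero : g 0 = y
  lip : ∀ a ∈ Icc (0 : ℝ) t, ∀ b ∈ Icc (0 : ℝ) t, dist (g a) (g b) ≤ C * ‖v‖ * |a - b|
  lift : ∀ τ ∈ Icc (0 : ℝ) t, f (g τ) = q (ζ + τ • v)

theorem SegL.mono {t t' : ℝ} {g : ℝ → Y} (h : SegL q f C y ζ v t g) (htt : t' ≤ t) :
    SegL q f C y ζ v t' g :=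
  ⟨h.zero, fun a ha b hb => h.lip a ⟨ha.1, ha.2.trans htt⟩ b ⟨hb.1, hb.2.trans htt⟩,
    fun τ hτ => h.lift τ ⟨hτ.1, hτ.2.trans htt⟩⟩

theorem SegL.continuousOn {t : ℝ} {g : ℝ → Y} (h : SegL q f C y ζ v t g) :
    ContinuousOn g (Icc 0 t) := by
  rw [Metric.continuousOn_iff]
  intro b hb ε hε
  have hK : 0 ≤ |C * ‖v‖| := abs_nonneg _
  refine ⟨ε / (|C * ‖v‖| + 1), by positivity, fun a ha hab => ?_⟩
  rw [Real.dist_eq] at hab
  calc dist (g a) (g b) ≤ C * ‖v‖ * |a - b| := h.lip a ha b hb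
    _ ≤ |C * ‖v‖| * |a - b| := by gcongr; exact le_abs_self _
    _ ≤ (|C * ‖v‖| + 1) * |a - b| := by gcongr; linarith
    _ < (|C * ‖v‖| + 1) * (ε / (|C * ‖v‖| + 1)) := by gcongr
    _ = ε := by field_simp

/-- uniqueness of lifts -/
theorem lift_unique (hf : IsLocalHomeomorph f) {X : Type*} [TopologicalSpace X] {s : Set X}
    (hs : IsPreconnected s) {g g' : X → Y} (h : ContinuousOn g s) (h' : ContinuousOn g' s)
    (he : ∀ x ∈ s, f (g x) = f (g' x)) {a : X} (ha : a ∈ s) (haa : g a = g' a) : EqOn g g' s :=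
  (T2Space.isSeparatedMap f).eqOn_of_comp_eqOn hf.isLocallyInjective hs h h' (fun x hx => he x hx)
    ha haa

theorem SegL.unique (hf : IsLocalHomeomorph f) {t : ℝ} {g g' : ℝ → Y}
    (h : SegL q f C y ζ v t g) (h' : SegL q f C y ζ v t g') (ht : 0 ≤ t) : EqOn g g' (Icc 0 t) :=
  lift_unique hf isPreconnected_Icc h.continuousOn h'.continuousOn
    (fun τ hτ => by rw [h.lift τ hτ, h'.lift τ hτ]) ⟨le_rfl, ht⟩ (by rw [h.zero, h'.zero])

/-- **lifting a segment** -/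
theorem exists_seg (hf : IsLocalHomeomorph f) (hq : Continuous q) (hLC : LC q f C) (hC : 0 ≤ C)
    (hcompl : IsComplete (closedBall y R)) (hv : C * ‖v‖ ≤ R) (hy : q ζ = f y) :
    ∃ g, SegL q f C y ζ v 1 g := by
  classical
  set K : ℝ := C * ‖v‖ with hK
  have hK0 : 0 ≤ K := by positivity
  have hR : 0 ≤ R := hK0.trans hv
  set A : Set ℝ := {t | t ∈ Icc (0 : ℝ) 1 ∧ ∃ g, SegL q f C y ζ v t g} with hA
  have h0A : (0 : ℝ) ∈ A := by
    refine ⟨⟨le_rfl, zero_le_one⟩, fun _ => y, rfl, fun a ha b hb => ?_, fun τ hτ => ?_⟩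
    · rw [dist_self]
      positivity
    · have : τ = 0 := le_antisymm hτ.2 hτ.1
      rw [this, zero_smul, add_zero, hy]
  have hAb : BddAbove A := ⟨1, fun t ht => ht.1.2⟩
  set T : ℝ := sSup A with hT
  have hT0 : 0 ≤ T := le_csSup hAb h0A
  have hT1 : T ≤ 1 := csSup_le ⟨0, h0A⟩ fun t ht => ht.1.2
  -- a lift on `[0, T)`
  have hex : ∀ τ : ℝ, ∃ t g, τ < T → τ < t ∧ SegL q f C y ζ v t g := by
    intro τ
    by_cases hτ : τ < T
    · obtain ⟨t, ht, htt⟩ := exists_lt_of_lt_csSup ⟨0, h0A⟩ hτ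
      obtain ⟨g, hg⟩ := ht.2
      exact ⟨t, g, fun _ => ⟨htt, hg⟩⟩
    · exact ⟨0, fun _ => y, fun h => absurd h hτ⟩
  choose t g hg using hex
  set G0 : ℝ → Y := fun τ => g τ τ with hG0
  have hG0eq : ∀ τ b, 0 ≤ τ → τ ≤ b → b < T → G0 τ = g b τ := by
    intro τ b h0 hb hbT
    obtain ⟨h1, h2⟩ := hg τ (hb.trans_lt hbT)
    obtain ⟨h3, h4⟩ := hg b hbT
    exact SegL.unique hf (h2.mono h1.le) (h4.mono (hb.trans h3.le)) h0 ⟨h0, le_rfl⟩
  have hG0lip : ∀ a ∈ Ico (0 : ℝ) T, ∀ b ∈ Ico (0 : ℝ) T, dist (G0 a) (G0 b) ≤ K * |a - b| := by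
    intro a ha b hb
    rcases le_total a b with hab | hab
    · rw [hG0eq a b ha.1 hab hb.2, hG0eq b b hb.1 le_rfl hb.2]
      have h := hg b hb.2
      exact h.2.lip a ⟨ha.1, hab.trans h.1.le⟩ b ⟨hb.1, h.1.le⟩
    · rw [hG0eq b a hb.1 hab ha.2, hG0eq a a ha.1 le_rfl ha.2]
      have h := hg a ha.2
      exact h.2.lip a ⟨ha.1, h.1.le⟩ b ⟨hb.1, hab.trans h.1.le⟩
  have hG0lift : ∀ τ ∈ Ico (0 : ℝ) T, f (G0 τ) = q (ζ + τ • v) := by
    intro τ hτ
    have h := hg τ hτ.2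
    exact h.2.lift τ ⟨hτ.1, h.1.le⟩
  -- the lift on `[0, T]`
  have hTA : ∃ g, SegL q f C y ζ v T g := by
    rcases hT0.eq_or_lt with h00 | hTpos
    · rw [← h00]
      exact h0A.2
    have hz : G0 0 = y := by
      rw [hG0eq 0 0 le_rfl le_rfl hTpos]
      exact (hg 0 hTpos).2.zero
    -- Cauchy
    have hne : (𝓝[<] T).NeBot := inferInstance
    have hmem : ∀ᶠ τ in 𝓝[<] T, τ ∈ Ico (0 : ℝ) T :=
      Ico_mem_nhdsLT hTpos
    have hcau : Cauchy (map G0 (𝓝[<] T)) := by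
      rw [Metric.cauchy_iff]
      refine ⟨inferInstance, fun ε hε => ?_⟩
      set δ : ℝ := ε / (2 * (K + 1)) with hδ
      have hδ0 : 0 < δ := by positivity
      refine ⟨G0 '' (Ico (0 : ℝ) T ∩ Ioo (T - δ) T), image_mem_map (inter_mem hmem
        (Ioo_mem_nhdsLT (by linarith))), ?_⟩
      rintro _ ⟨a, ha, rfl⟩ _ ⟨b, hb, rfl⟩
      have h1 : |a - b| ≤ δ := by
        rw [abs_le]
        constructor <;> linarith [ha.2.1, ha.2.2, hb.2.1, hb.2.2]
      calc dist (G0 a) (G0 b) ≤ K * |a - b| := hG0lip a ha.1 b hb.1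
        _ ≤ K * δ := by gcongr
        _ ≤ (K + 1) * δ := by gcongr; linarith
        _ = ε / 2 := by rw [hδ]; field_simp
        _ < ε := by linarith
    have hball : closedBall y R ∈ map G0 (𝓝[<] T) := by
      rw [mem_map]
      filter_upwards [hmem] with τ hτ
      rw [mem_preimage, mem_closedBall, ← hz]
      calc dist (G0 τ) (G0 0) ≤ K * |τ - 0| := hG0lip τ hτ 0 ⟨le_rfl, hTpos⟩
        _ ≤ K * 1 := by
          gcongr
          rw [sub_zero, abs_of_nonneg hτ.1]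
          exact hτ.2.le.trans hT1
        _ ≤ R := by rw [mul_one]; exact hv
    obtain ⟨p, hpR, hp⟩ := hcompl _ hcau (le_principal_iff.2 hball)
    have hlim : Tendsto G0 (𝓝[<] T) (𝓝 p) := hp
    set G : ℝ → Y := fun τ => if τ < T then G0 τ else p with hG
    have hGlt : ∀ τ, τ < T → G τ = G0 τ := fun τ hτ => if_pos hτ
    have hGT : G T = p := if_neg (lt_irrefl T)
    have hpl : ∀ a ∈ Ico (0 : ℝ) T, dist (G0 a) p ≤ K * |a - T| := by
      intro a ha
      have h1 : Tendsto (fun b => dist (G0 a) (G0 b)) (𝓝[<] T) (𝓝 (dist (G0 a) p)) :=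
        tendsto_const_nhds.dist hlim
      have h2 : Tendsto (fun b => K * |a - b|) (𝓝[<] T) (𝓝 (K * |a - T|)) := by
        have : Continuous fun b : ℝ => K * |a - b| := by fun_prop
        exact this.continuousAt.tendsto.mono_left nhdsWithin_le_nhds
      exact le_of_tendsto_of_tendsto h1 h2 (hmem.mono fun b hb => hG0lip a ha b hb)
    refine ⟨G, by rw [hGlt 0 hTpos, hz], fun a ha b hb => ?_, fun τ hτ => ?_⟩
    · rcases ha.2.lt_or_eq with haT | haT <;> rcases hb.2.lt_or_eq with hbT | hbT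
      · rw [hGlt a haT, hGlt b hbT]
        exact hG0lip a ⟨ha.1, haT⟩ b ⟨hb.1, hbT⟩
      · rw [hGlt a haT, hbT, hGT]
        exact hpl a ⟨ha.1, haT⟩
      · rw [haT, hGT, hGlt b hbT, dist_comm, abs_sub_comm]
        exact hpl b ⟨hb.1, hbT⟩
      · rw [haT, hbT, dist_self]
        positivity
    · rcases hτ.2.lt_or_eq with hτT | hτT
      · rw [hGlt τ hτT]
        exact hG0lift τ ⟨hτ.1, hτT⟩
      · rw [hτT, hGT]
        have h1 : Tendsto (fun b => f (G0 b)) (𝓝[<] T) (𝓝 (f p)) :=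
          (hf.continuous.tendsto p).comp hlim
        have h2 : Tendsto (fun b : ℝ => q (ζ + b • v)) (𝓝[<] T) (𝓝 (q (ζ + T • v))) := by
          have : Continuous fun b : ℝ => q (ζ + b • v) := hq.comp (by fun_prop)
          exact this.continuousAt.tendsto.mono_left nhdsWithin_le_nhds
        exact tendsto_nhds_unique (h1.congr' (hmem.mono fun b hb => hG0lift b hb)) h2
  -- `T = 1`
  rcases hT1.eq_or_lt with h1 | hTlt
  · rw [← h1]; exact hTA
  exfalso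
  obtain ⟨G, hG⟩ := hTA
  obtain ⟨δ, hδ, s, hs0, hs1, hs2⟩ := hLC (G T) (ζ + T • v) (hG.lift T ⟨hT0, le_rfl⟩).symm
  obtain ⟨η, hη, hη1, hη2⟩ : ∃ η : ℝ, 0 < η ∧ T + η ≤ 1 ∧ η * ‖v‖ < δ := by
    refine ⟨min (1 - T) (δ / (2 * (‖v‖ + 1))), lt_min (by linarith) (by positivity), ?_, ?_⟩
    · linarith [min_le_left (1 - T) (δ / (2 * (‖v‖ + 1)))]
    · calc min (1 - T) (δ / (2 * (‖v‖ + 1))) * ‖v‖ ≤ δ / (2 * (‖v‖ + 1)) * (‖v‖ + 1) := by
            gcongr
            · exact min_le_right _ _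
            · linarith
        _ = δ / 2 := by field_simp
        _ < δ := by linarith
  have hin : ∀ τ ∈ Icc T (T + η), ζ + τ • v ∈ ball (ζ + T • v) δ := by
    intro τ hτ
    rw [mem_ball, dist_eq_norm]
    have : ζ + τ • v - (ζ + T • v) = (τ - T) • v := by rw [sub_smul]; abel
    rw [this, norm_smul, Real.norm_eq_abs, abs_of_nonneg (by linarith [hτ.1])]
    calc (τ - T) * ‖v‖ ≤ η * ‖v‖ := by gcongr; linarith [hτ.2]
      _ < δ := hη2
  set G' : ℝ → Y := fun τ => if τ ≤ T then G τ else s (ζ + τ • v) with hG'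
  have hG'le : ∀ τ, τ ≤ T → G' τ = G τ := fun τ hτ => if_pos hτ
  have hG'ge : ∀ τ, T ≤ τ → G' τ = s (ζ + τ • v) := by
    intro τ hτ
    rcases hτ.eq_or_lt with h | h
    · rw [← h, hG'le T le_rfl, hs0]
    · exact if_neg (not_le.2 h)
  have hsl : ∀ a ∈ Icc T (T + η), ∀ b ∈ Icc T (T + η),
      dist (s (ζ + a • v)) (s (ζ + b • v)) ≤ K * |a - b| := by
    intro a ha b hb
    have h1 := hs2 _ (hin a ha) _ (hin b hb)
    have e : ζ + a • v - (ζ + b • v) = (a - b) • v := by rw [sub_smul]; abel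
    rw [e, norm_smul, Real.norm_eq_abs] at h1
    calc _ ≤ C * (|a - b| * ‖v‖) := h1
      _ = K * |a - b| := by rw [hK]; ring
  have hG'lip : ∀ a b, a ∈ Icc (0 : ℝ) (T + η) → b ∈ Icc (0 : ℝ) (T + η) → a ≤ b →
      dist (G' a) (G' b) ≤ K * |a - b| := by
    intro a b ha hb hab
    rcases le_total b T with hbT | hbT
    · rw [hG'le a (hab.trans hbT), hG'le b hbT]
      exact hG.lip a ⟨ha.1, hab.trans hbT⟩ b ⟨hb.1, hbT⟩
    · rcases le_total a T with haT | haT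
      · calc dist (G' a) (G' b) ≤ dist (G' a) (G' T) + dist (G' T) (G' b) := dist_triangle _ _ _
          _ ≤ K * |a - T| + K * |T - b| := by
            refine add_le_add ?_ ?_
            · rw [hG'le a haT, hG'le T le_rfl]
              exact hG.lip a ⟨ha.1, haT⟩ T ⟨hT0, le_rfl⟩
            · rw [hG'ge T le_rfl, hG'ge b hbT]
              exact hsl T ⟨le_rfl, by linarith⟩ b ⟨hbT, hb.2⟩
          _ = K * |a - b| := by
            rw [abs_of_nonpos (by linarith), abs_of_nonpos (by linarith),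
              abs_of_nonpos (by linarith)]
            ring
      · rw [hG'ge a haT, hG'ge b hbT]
        exact hsl a ⟨haT, ha.2⟩ b ⟨hbT, hb.2⟩
  have hfin : T + η ∈ A := by
    refine ⟨⟨by linarith, hη1⟩, G', by rw [hG'le 0 hT0, hG.zero], fun a ha b hb => ?_,
      fun τ hτ => ?_⟩
    · rcases le_total a b with hab | hab
      · exact hG'lip a b ha hb hab
      · rw [dist_comm, abs_sub_comm]
        exact hG'lip b a hb ha hab
    · rcases le_total τ T with h | h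
      · rw [hG'le τ h]
        exact hG.lift τ ⟨hτ.1, h⟩
      · rw [hG'ge τ h]
        exact hs1 _ (hin τ ⟨h, hτ.2⟩)
  have := le_csSup hAb hfin
  linarith

/-- **lifting a ball** -/
theorem exists_ball (hf : IsLocalHomeomorph f) (hq : Continuous q) (hLC : LC q f C) (hC : 0 ≤ C)
    (hcompl : IsComplete (closedBall y R)) {ρ : ℝ} (hρ : C * ρ ≤ R) (hy : q ζ = f y) :
    ∃ Ψ : E → Y, Ψ ζ = y ∧ ContinuousOn Ψ (ball ζ ρ) ∧ (∀ ζ' ∈ ball ζ ρ, f (Ψ ζ') = q ζ') ∧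
      ∀ ζ' ∈ ball ζ ρ, dist (Ψ ζ') y ≤ C * ‖ζ' - ζ‖ := by
  classical
  have hex : ∀ v : ball (0 : E) ρ, ∃ g, SegL q f C y ζ v.1 1 g := by
    intro v
    refine exists_seg hf hq hLC hC hcompl ?_ hy
    have : ‖v.1‖ < ρ := mem_ball_zero_iff.1 v.2
    calc C * ‖v.1‖ ≤ C * ρ := by gcongr
      _ ≤ R := hρ
  choose g hg using hex
  let F : C(unitInterval × ball (0 : E) ρ, S) :=
    ⟨fun p => q (ζ + (p.1 : ℝ) • p.2.1), hq.comp (by fun_prop)⟩
  have hc := hf.continuous_lift (A := ball (0 : E) ρ) (T2Space.isSeparatedMap f) F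
    (g := fun p => g p.2 (p.1 : ℝ)) (by
      funext p
      exact (hg p.2).lift _ p.1.2) (by
      have : (fun v : ball (0 : E) ρ => g v ((0 : unitInterval) : ℝ)) = fun _ => y := by
        funext v
        exact (hg v).zero
      change Continuous (fun v : ball (0 : E) ρ => g v ((0 : unitInterval) : ℝ))
      rw [this]
      exact continuous_const) (fun v => by
      have h1 := (hg v).continuousOn
      exact h1.comp_continuous continuous_subtype_val fun t => t.2)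
  refine ⟨fun ζ' => if h : ζ' - ζ ∈ ball (0 : E) ρ then g ⟨ζ' - ζ, h⟩ 1 else y, ?_, ?_, ?_, ?_⟩
  · by_cases h : ζ - ζ ∈ ball (0 : E) ρ
    · simp only [h, dif_pos]
      have h1 := hg ⟨ζ - ζ, h⟩
      have h2 := h1.lip 1 ⟨zero_le_one, le_rfl⟩ 0 ⟨le_rfl, zero_le_one⟩
      have e : C * ‖(⟨ζ - ζ, h⟩ : ball (0 : E) ρ).1‖ * |(1 : ℝ) - 0| = 0 := by
        rw [show ‖(⟨ζ - ζ, h⟩ : ball (0 : E) ρ).1‖ = 0 by
          change ‖ζ - ζ‖ = 0
          rw [sub_self, norm_zero]]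
        ring
      rw [e, h1.zero] at h2
      exact dist_le_zero.1 h2
    · simp only [h, dif_neg, not_false_eq_true]
  · rw [continuousOn_iff_continuous_domRestrict]
    have hmap : ∀ z : ball ζ ρ, z.1 - ζ ∈ ball (0 : E) ρ := by
      intro z
      have := z.2
      rw [mem_ball, dist_eq_norm] at this
      rwa [mem_ball_zero_iff]
    have h1 : Continuous fun z : ball ζ ρ => ((1 : unitInterval), (⟨z.1 - ζ, hmap z⟩ :
        ball (0 : E) ρ)) := by
      refine continuous_const.prodMk (Continuous.subtype_mk (by fun_prop) _)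
    have h2 := hc.comp h1
    refine h2.congr fun z => ?_
    simp only [Function.comp_apply, Set.domRestrict_apply, dif_pos (hmap z)]
    rfl
  · intro ζ' hζ'
    have h : ζ' - ζ ∈ ball (0 : E) ρ := by
      rw [mem_ball_zero_iff]
      rwa [mem_ball, dist_eq_norm] at hζ'
    simp only [h, dif_pos]
    have h1 := (hg ⟨ζ' - ζ, h⟩).lift 1 ⟨zero_le_one, le_rfl⟩
    rw [h1, one_smul, add_sub_cancel]
  · intro ζ' hζ'
    have h : ζ' - ζ ∈ ball (0 : E) ρ := by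
      rw [mem_ball_zero_iff]
      rwa [mem_ball, dist_eq_norm] at hζ'
    simp only [h, dif_pos]
    have h1 := hg ⟨ζ' - ζ, h⟩
    have h2 := h1.lip 1 ⟨zero_le_one, le_rfl⟩ 0 ⟨le_rfl, zero_le_one⟩
    rw [h1.zero, sub_zero, abs_one, mul_one] at h2
    exact h2

end Crest.Agent.R281.Tor_922
end

-- ▼ part R281/TorB_922
section

/-!
# R281 (S0424), leaf S-TOR (helper922), file B: periods

Abstract form: `Γ` = group of the differences `ζ - ζ'` with `q ζ = q ζ'`, fibres of `f` have at most `d`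
points; `T` convex, `Γ`-invariant, covered by the translates of `ball ζ0 ρ'` under `d! • Γ`.
-/

set_option autoImplicit false
set_option linter.unusedSectionVars false

open Set Filter Topology Metric

namespace Crest.Agent.R281.Tor_922

variable {E : Type*} [NormedAddCommGroup E] [NormedSpace ℝ E]
  {Y : Type*} [MetricSpace Y] {S : Type*} [TopologicalSpace S] [T2Space S]

/-- fibres of `f` have at most `d` points -/
def FibLe (f : Y → S) (d : ℕ) : Prop :=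
  ∀ s : Finset Y, (∀ a ∈ s, ∀ b ∈ s, f a = f b) → s.card ≤ d

variable {q : E → S} {f : Y → S} {C R ρ : ℝ} {y : Y} {ζ0 : E} {Γ : AddSubgroup E} {Ψ : E → Y} {d : ℕ}

/-- translation of a lift by `lam ∈ Γ`: one coincidence gives all -/
theorem period_of_one (hf : IsLocalHomeomorph f) (hΓ : ∀ a b, q a = q b ↔ a - b ∈ Γ) {U : Set E}
    (hU : Convex ℝ U) (hc : ContinuousOn Ψ U) (hl : ∀ ζ ∈ U, f (Ψ ζ) = q ζ) {lam : E}
    (hlam : lam ∈ Γ) {a : E} (ha : a ∈ U) (ha' : a + lam ∈ U) (he : Ψ (a + lam) = Ψ a) {ζ : E}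
    (hζ : ζ ∈ U) (hζ' : ζ + lam ∈ U) : Ψ (ζ + lam) = Ψ ζ := by
  have hV : Convex ℝ (U ∩ (fun z => z + lam) ⁻¹' U) := by
    refine hU.inter ?_
    have h1 := hU.translate_preimage_left lam
    exact h1
  have hp := hV.isPreconnected
  have h1 : ContinuousOn (fun z => Ψ (z + lam)) (U ∩ (fun z => z + lam) ⁻¹' U) :=
    hc.comp (by fun_prop) fun z hz => hz.2
  have h2 : ContinuousOn Ψ (U ∩ (fun z => z + lam) ⁻¹' U) := hc.mono inter_subset_left
  refine lift_unique hf hp h1 h2 (fun z hz => ?_) ⟨ha, ha'⟩ he ⟨hζ, hζ'⟩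
  rw [hl _ hz.2, hl _ hz.1, hΓ]
  simpa using hlam

/-- pigeonhole -/
theorem exists_period (hf : IsLocalHomeomorph f) (hΓ : ∀ a b, q a = q b ↔ a - b ∈ Γ)
    (hd : FibLe f d) (hc : ContinuousOn Ψ (ball ζ0 ρ)) (hl : ∀ ζ ∈ ball ζ0 ρ, f (Ψ ζ) = q ζ)
    {lam : E} (hlam : lam ∈ Γ) (hsm : d * ‖lam‖ < ρ) :
    ∃ m : ℕ, 1 ≤ m ∧ m ≤ d ∧ Ψ (ζ0 + m • lam) = Ψ ζ0 := by
  classical
  have hin : ∀ k : ℕ, k ≤ d → ζ0 + k • lam ∈ ball ζ0 ρ := by
    intro k hk
    rw [mem_ball, dist_eq_norm, add_sub_cancel_left]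
    calc ‖k • lam‖ ≤ k * ‖lam‖ := norm_nsmul_le
      _ ≤ d * ‖lam‖ := by gcongr
      _ < ρ := hsm
  have hnot : ¬ InjOn (fun k : ℕ => Ψ (ζ0 + k • lam)) (Finset.range (d + 1) : Set ℕ) := by
    intro hinj
    have h1 := hd ((Finset.range (d + 1)).image fun k : ℕ => Ψ (ζ0 + k • lam)) (by
      intro a ha b hb
      obtain ⟨k, hk, rfl⟩ := Finset.mem_image.1 ha
      obtain ⟨l, hl', rfl⟩ := Finset.mem_image.1 hb
      rw [hl _ (hin k (Nat.lt_succ_iff.1 (Finset.mem_range.1 hk))),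
        hl _ (hin l (Nat.lt_succ_iff.1 (Finset.mem_range.1 hl'))), hΓ, add_sub_add_left_eq_sub]
      exact Γ.sub_mem (Γ.nsmul_mem hlam _) (Γ.nsmul_mem hlam _))
    rw [Finset.card_image_of_injOn hinj, Finset.card_range] at h1
    omega
  rw [InjOn] at hnot
  push Not at hnot
  obtain ⟨k, hk, l, hl', hkl, hne⟩ := hnot
  have hk' : k ≤ d := Nat.lt_succ_iff.1 (Finset.mem_range.1 (by simpa using hk))
  have hl'' : l ≤ d := Nat.lt_succ_iff.1 (Finset.mem_range.1 (by simpa using hl'))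
  -- wlog
  have key : ∀ k l : ℕ, k < l → l ≤ d → Ψ (ζ0 + l • lam) = Ψ (ζ0 + k • lam) →
      Ψ (ζ0 + (l - k) • lam) = Ψ ζ0 := by
    intro k l hkl hld he
    have e : ζ0 + k • lam + (l - k) • lam = ζ0 + l • lam := by
      rw [add_assoc, ← add_smul, Nat.add_sub_cancel' hkl.le]
    refine period_of_one hf hΓ (convex_ball ζ0 ρ) hc hl (Γ.nsmul_mem hlam (l - k))
      (hin k (hkl.le.trans hld)) (by rw [e]; exact hin l hld) (by rw [e]; exact he) ?_
      (hin (l - k) ((Nat.sub_le l k).trans hld))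
    have := hin 0 (Nat.zero_le d)
    simpa using this
  rcases lt_or_gt_of_ne hne with h | h
  · exact ⟨l - k, by omega, by omega, key k l h hl'' hkl.symm⟩
  · exact ⟨k - l, by omega, by omega, key l k h hk' hkl⟩

/-- `d! • Γ` consists of periods -/
theorem period_factorial (hf : IsLocalHomeomorph f) (hΓ : ∀ a b, q a = q b ↔ a - b ∈ Γ)
    (hd : FibLe f d) (hc : ContinuousOn Ψ (ball ζ0 ρ)) (hl : ∀ ζ ∈ ball ζ0 ρ, f (Ψ ζ) = q ζ)
    {lam : E} (hlam : lam ∈ Γ) (hsm : ‖d.factorial • lam‖ < ρ) {ζ : E} (hζ : ζ ∈ ball ζ0 ρ)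
    (hζ' : ζ + d.factorial • lam ∈ ball ζ0 ρ) : Ψ (ζ + d.factorial • lam) = Ψ ζ := by
  have hsm' : (d.factorial : ℝ) * ‖lam‖ < ρ := by
    have e : ‖d.factorial • lam‖ = (d.factorial : ℝ) * ‖lam‖ := by
      rw [← Nat.cast_smul_eq_nsmul ℝ, norm_smul, Real.norm_natCast]
    rwa [e] at hsm
  have hdf : (d : ℝ) ≤ d.factorial := by exact_mod_cast Nat.self_le_factorial d
  obtain ⟨m, hm1, hmd, hm⟩ := exists_period (Ψ := Ψ) hf hΓ hd hc hl hlam
    ((mul_le_mul_of_nonneg_right hdf (norm_nonneg _)).trans_lt hsm')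
  have hin : ∀ k : ℕ, k ≤ d.factorial → ζ0 + k • lam ∈ ball ζ0 ρ := by
    intro k hk
    rw [mem_ball, dist_eq_norm, add_sub_cancel_left]
    calc ‖k • lam‖ ≤ k * ‖lam‖ := norm_nsmul_le
      _ ≤ d.factorial * ‖lam‖ := by gcongr
      _ < ρ := hsm'
  have h0 : ζ0 ∈ ball ζ0 ρ := by simpa using hin 0 (Nat.zero_le _)
  have hstep : ∀ j : ℕ, j * m ≤ d.factorial → Ψ (ζ0 + (j * m) • lam) = Ψ ζ0 := by
    intro j
    induction j with
    | zero => intro _; simp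
    | succ j ih =>
      intro hj
      have hj' : j * m ≤ d.factorial := (Nat.mul_le_mul_right m (Nat.le_succ j)).trans hj
      rw [← ih hj']
      have e : ζ0 + ((j + 1) * m) • lam = ζ0 + (j * m) • lam + m • lam := by
        rw [Nat.succ_mul, add_smul, add_assoc]
      rw [e]
      refine period_of_one hf hΓ (convex_ball ζ0 ρ) hc hl (Γ.nsmul_mem hlam m) h0
        (hin m (hmd.trans (Nat.self_le_factorial d))) hm (hin _ hj') ?_
      rw [← e]
      exact hin _ hj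
  obtain ⟨j, hj⟩ : m ∣ d.factorial := Nat.dvd_factorial (by omega) hmd
  have hfin : Ψ (ζ0 + d.factorial • lam) = Ψ ζ0 := by
    have := hstep j (by rw [hj, mul_comm])
    rwa [mul_comm j m, ← hj] at this
  exact period_of_one hf hΓ (convex_ball ζ0 ρ) hc hl (Γ.nsmul_mem hlam _) h0
    (hin _ le_rfl) hfin hζ hζ'

/-- **the strip** -/
theorem exists_strip (hf : IsLocalHomeomorph f) (hq : Continuous q)
    (hΓ : ∀ a b, q a = q b ↔ a - b ∈ Γ) (hd : FibLe f d) (hLC : LC q f C) (hC : 0 ≤ C)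
    (hcompl : IsComplete (closedBall y R)) {ρ' : ℝ} (hρ' : 0 < ρ') (hρ : C * (2 * ρ') ≤ R)
    (hy : q ζ0 = f y) {T : Set E} (hT : Convex ℝ T) (h0T : ζ0 ∈ T)
    (hTΓ : ∀ ζ ∈ T, ∀ lam ∈ Γ, ζ + lam ∈ T)
    (hcov : ∀ ζ ∈ T, ∃ lam ∈ Γ, ζ - d.factorial • lam ∈ ball ζ0 ρ') :
    ∃ (Lam : AddSubgroup E) (Φ : E → Y), Lam ≤ Γ ∧ (∀ lam ∈ Γ, d.factorial • lam ∈ Lam) ∧
      Φ ζ0 = y ∧ ContinuousOn Φ T ∧ (∀ ζ ∈ T, f (Φ ζ) = q ζ) ∧
      (∀ ζ ∈ T, ∀ ζ' ∈ T, Φ ζ = Φ ζ' ↔ ζ - ζ' ∈ Lam) ∧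
      (∀ ζ ∈ T, dist (Φ ζ) y ≤ C * ‖ζ - ζ0‖) ∧ ∀ ζ ∈ T, dist (Φ ζ) y ≤ C * ρ' := by
  classical
  obtain ⟨Ψ, hΨ0, hΨc, hΨl, hΨd⟩ := exists_ball hf hq hLC hC hcompl hρ hy
  have hsub : ball ζ0 ρ' ⊆ ball ζ0 (2 * ρ') := ball_subset_ball (by linarith)
  -- well defined
  have hwd : ∀ ζ, ∀ lam ∈ Γ, ∀ mu ∈ Γ, ζ - d.factorial • lam ∈ ball ζ0 ρ' →
      ζ - d.factorial • mu ∈ ball ζ0 ρ' →
      Ψ (ζ - d.factorial • lam) = Ψ (ζ - d.factorial • mu) := by
    intro ζ lam hlam mu hmu h1 h2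
    have e : ζ - d.factorial • mu + d.factorial • (mu - lam) = ζ - d.factorial • lam := by
      rw [smul_sub]; abel
    have h3 : ‖d.factorial • (mu - lam)‖ < 2 * ρ' := by
      have : d.factorial • (mu - lam) = (ζ - d.factorial • lam - ζ0) -
          (ζ - d.factorial • mu - ζ0) := by rw [smul_sub]; abel
      rw [this]
      rw [mem_ball, dist_eq_norm] at h1 h2
      linarith [norm_sub_le (ζ - d.factorial • lam - ζ0) (ζ - d.factorial • mu - ζ0)]
    have := period_factorial (ζ := ζ - d.factorial • mu) hf hΓ hd hΨc hΨl (Γ.sub_mem hmu hlam) h3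
      (hsub h2) (by rw [e]; exact hsub h1)
    rw [e] at this
    exact this
  choose! L hLΓ hLb using hcov
  set Φ : E → Y := fun ζ => Ψ (ζ - d.factorial • L ζ) with hΦ
  have hΦeq : ∀ ζ ∈ T, ∀ lam ∈ Γ, ζ - d.factorial • lam ∈ ball ζ0 ρ' →
      Φ ζ = Ψ (ζ - d.factorial • lam) :=
    fun ζ hζ lam hlam h => hwd ζ (L ζ) (hLΓ ζ hζ) lam hlam (hLb ζ hζ) h
  have hΦball : ∀ ζ ∈ T, ζ ∈ ball ζ0 ρ' → Φ ζ = Ψ ζ := by
    intro ζ hζ h
    have := hΦeq ζ hζ 0 Γ.zero_mem (by simpa using h)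
    simpa using this
  have hΦ0 : Φ ζ0 = y := by rw [hΦball ζ0 h0T (mem_ball_self hρ'), hΨ0]
  have hΦl : ∀ ζ ∈ T, f (Φ ζ) = q ζ := by
    intro ζ hζ
    rw [hΦ]
    simp only
    rw [hΨl _ (hsub (hLb ζ hζ)), hΓ]
    have : ζ - d.factorial • L ζ - ζ = -(d.factorial • L ζ) := by abel
    rw [this]
    exact Γ.neg_mem (Γ.nsmul_mem (hLΓ ζ hζ) _)
  have hΦc : ContinuousOn Φ T := by
    intro ζ hζ
    have h1 : ContinuousAt (fun z => Ψ (z - d.factorial • L ζ)) ζ := by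
      have h2 : ContinuousAt Ψ (ζ - d.factorial • L ζ) :=
        hΨc.continuousAt (isOpen_ball.mem_nhds (hsub (hLb ζ hζ)))
      exact ContinuousAt.comp (f := fun z => z - d.factorial • L ζ) (g := Ψ) h2 (by fun_prop)
    refine h1.continuousWithinAt.congr_of_eventuallyEq ?_ rfl
    have h3 : ∀ᶠ z in 𝓝 ζ, z - d.factorial • L ζ ∈ ball ζ0 ρ' := by
      have h4 : Continuous fun z : E => z - d.factorial • L ζ := by fun_prop
      exact h4.continuousAt.eventually_mem (isOpen_ball.mem_nhds (hLb ζ hζ))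
    filter_upwards [self_mem_nhdsWithin, h3.filter_mono nhdsWithin_le_nhds] with z hz h
    exact hΦeq z hz (L ζ) (hLΓ ζ hζ) h
  have hper : ∀ {lam : E}, lam ∈ Γ → ∀ {a : E}, a ∈ T → Φ (a + lam) = Φ a → ∀ ζ ∈ T,
      Φ (ζ + lam) = Φ ζ := fun {lam} hlam {a} ha he ζ hζ =>
    period_of_one hf hΓ hT hΦc hΦl hlam ha (hTΓ a ha lam hlam) he hζ (hTΓ ζ hζ lam hlam)
  refine ⟨{ carrier := {lam | lam ∈ Γ ∧ Φ (ζ0 + lam) = Φ ζ0}
            add_mem' := ?_, zero_mem' := ?_, neg_mem' := ?_ }, Φ, fun lam h => h.1, ?_, hΦ0, hΦc,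
            hΦl, ?_, ?_, ?_⟩
  · rintro a b ⟨ha, ha'⟩ ⟨hb, hb'⟩
    refine ⟨Γ.add_mem ha hb, ?_⟩
    rw [← add_assoc, hper hb h0T hb' _ (hTΓ _ h0T _ ha), ha']
  · exact ⟨Γ.zero_mem, by rw [add_zero]⟩
  · rintro a ⟨ha, ha'⟩
    refine ⟨Γ.neg_mem ha, ?_⟩
    have := hper ha h0T ha' (ζ0 + -a) (hTΓ _ h0T _ (Γ.neg_mem ha))
    rw [neg_add_cancel_right] at this
    exact this.symm
  · intro lam hlam
    refine ⟨Γ.nsmul_mem hlam _, ?_⟩
    have h1 : ζ0 + d.factorial • lam ∈ T := hTΓ _ h0T _ (Γ.nsmul_mem hlam _)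
    rw [hΦeq _ h1 lam hlam (by rw [add_sub_cancel_right]; exact mem_ball_self hρ'),
      add_sub_cancel_right, hΨ0, hΦ0]
  · intro ζ hζ ζ' hζ'
    constructor
    · intro h
      have h1 : ζ - ζ' ∈ Γ := by rw [← hΓ, ← hΦl ζ hζ, ← hΦl ζ' hζ', h]
      refine ⟨h1, hper h1 hζ' ?_ ζ0 h0T⟩
      rw [add_sub_cancel, h]
    · rintro ⟨h1, h2⟩
      have := hper h1 h0T h2 ζ' hζ'
      rwa [add_sub_cancel] at this
  · intro ζ hζ
    by_cases h : ζ ∈ ball ζ0 ρ'
    · rw [hΦball ζ hζ h]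
      exact hΨd ζ (hsub h)
    · calc dist (Φ ζ) y ≤ C * ‖ζ - d.factorial • L ζ - ζ0‖ := hΨd _ (hsub (hLb ζ hζ))
        _ ≤ C * ρ' := by
          gcongr
          have := hLb ζ hζ
          rw [mem_ball, dist_eq_norm] at this
          exact this.le
        _ ≤ C * ‖ζ - ζ0‖ := by
          gcongr
          rw [mem_ball, dist_eq_norm, not_lt] at h
          exact h
  · intro ζ hζ
    calc dist (Φ ζ) y ≤ C * ‖ζ - d.factorial • L ζ - ζ0‖ := hΨd _ (hsub (hLb ζ hζ))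
      _ ≤ C * ρ' := by
        gcongr
        have := hLb ζ hζ
        rw [mem_ball, dist_eq_norm] at this
        exact this.le

end Crest.Agent.R281.Tor_922
end

-- ▼ part R281/TorC_922
section

/-!
# R281 (S0424), leaf S-TOR (helper922), file C: local homeomorphism, image, the exponential
-/

set_option autoImplicit false
set_option linter.unusedSectionVars false

open Set Filter Topology Metric

namespace Crest.Agent.R281.Tor_922

variable {E : Type*} [NormedAddCommGroup E] [NormedSpace ℝ E]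
  {Y : Type*} [MetricSpace Y] {S : Type*} [TopologicalSpace S] [T2Space S]

variable {q : E → S} {f : Y → S} {y : Y} {ζ0 : E} {Γ : AddSubgroup E} {Φ : E → Y} {T : Set E}

/-- lifts through a local homeomorphism of a local homeomorphism are local homeomorphisms -/
theorem isLocalHomeomorphOn_lift (hf : IsLocalHomeomorph f) (hq : IsLocalHomeomorph q)
    (hTo : IsOpen T) (hc : ContinuousOn Φ T) (hl : ∀ ζ ∈ T, f (Φ ζ) = q ζ) :
    IsLocalHomeomorphOn Φ T := by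
  have h1 : IsLocalHomeomorphOn (f ∘ Φ) T := by
    refine IsLocalHomeomorphOn.mk _ _ fun x hx => ?_
    obtain ⟨e, he, hee⟩ := hq x
    refine ⟨e.restrOpen T hTo, ⟨he, hx⟩, fun z hz => ?_⟩
    have hzT : z ∈ T := hz.2
    change f (Φ z) = e z
    rw [hl z hzT, hee]
  exact h1.of_comp_left (hf.isLocalHomeomorphOn.mono (subset_univ _))
    fun x hx => hc.continuousAt (hTo.mem_nhds hx)

/-- the image of the strip is open -/
theorem isOpen_image_lift (hf : IsLocalHomeomorph f) (hq : IsLocalHomeomorph q)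
    (hTo : IsOpen T) (hc : ContinuousOn Φ T) (hl : ∀ ζ ∈ T, f (Φ ζ) = q ζ) {U : Set E}
    (hU : IsOpen U) (hUT : U ⊆ T) : IsOpen (Φ '' U) := by
  have h := (isLocalHomeomorphOn_lift hf hq hTo hc hl)
  rw [isOpen_iff_mem_nhds]
  rintro _ ⟨x, hx, rfl⟩
  rw [← h.map_nhds_eq (hUT hx)]
  exact image_mem_map (hU.mem_nhds hx)

/-- the image of the strip is a connected component -/
theorem subset_image_lift (hf : IsLocalHomeomorph f) (hq : IsLocalHomeomorph q)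
    (hΓ : ∀ a b, q a = q b ↔ a - b ∈ Γ)
    (hTo : IsOpen T) (hc : ContinuousOn Φ T) (hl : ∀ ζ ∈ T, f (Φ ζ) = q ζ)
    (hTΓ : ∀ ζ ∈ T, ∀ lam ∈ Γ, ζ + lam ∈ T) {V : Set Y} (hV : IsPreconnected V)
    (hVy : (V ∩ Φ '' T).Nonempty) (hVT : ∀ p ∈ V, ∃ ζ ∈ T, q ζ = f p) : V ⊆ Φ '' T := by
  refine hV.subset_of_closure_inter_subset (isOpen_image_lift hf hq hTo hc hl hTo le_rfl) hVy ?_
  rintro p ⟨hpc, hpV⟩
  obtain ⟨ζp, hζpT, hζp⟩ := hVT p hpV
  obtain ⟨e, hep, rfl⟩ := hf p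
  have hqc := hq.continuous
  have h1 : T ∩ q ⁻¹' e.target ∈ 𝓝 ζp := by
    refine inter_mem (hTo.mem_nhds hζpT) (hqc.continuousAt.preimage_mem_nhds
      (e.open_target.mem_nhds ?_))
    rw [hζp]
    exact e.map_source hep
  obtain ⟨δ, hδ, hball⟩ := Metric.mem_nhds_iff.1 h1
  set s : E → Y := fun ζ => e.symm (q ζ) with hs
  have hsc : ContinuousOn s (ball ζp δ) :=
    e.continuousOn_symm.comp hqc.continuousOn fun z hz => (hball hz).2
  have hsl : ∀ z ∈ ball ζp δ, e (s z) = q z := fun z hz => e.right_inv (hball hz).2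
  have hsp : s ζp = p := by
    rw [hs]
    simp only
    rw [hζp, e.left_inv hep]
  have hso : IsOpen (s '' ball ζp δ) := by
    have e1 : s '' ball ζp δ = e.symm '' (q '' ball ζp δ) := by rw [image_image]
    rw [e1]
    refine e.symm.isOpen_image_of_subset_source (hq.isOpenMap _ isOpen_ball) ?_
    rintro _ ⟨z, hz, rfl⟩
    exact (hball hz).2
  obtain ⟨p', ⟨z, hz, hzp⟩, ⟨ζ', hζ', hζp'⟩⟩ := mem_closure_iff.1 hpc _ hso
    ⟨ζp, mem_ball_self hδ, hsp⟩
  have h2 : ζ' - z ∈ Γ := by rw [← hΓ, ← hl ζ' hζ', ← hsl z hz, hζp', hzp]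
  have h3 : EqOn s (fun w => Φ (w + (ζ' - z))) (ball ζp δ) := by
    refine lift_unique hf (convex_ball ζp δ).isPreconnected hsc
      (hc.comp (by fun_prop) fun w hw => hTΓ w (hball hw).1 _ h2) (fun w hw => ?_) hz ?_
    · rw [hsl w hw, hl _ (hTΓ w (hball hw).1 _ h2), hΓ]
      have : w - (w + (ζ' - z)) = -(ζ' - z) := by abel
      rw [this]
      exact Γ.neg_mem h2
    · rw [add_sub_cancel, hzp, hζp']
  exact ⟨ζp + (ζ' - z), hTΓ ζp hζpT _ h2, by rw [← hsp]; exact (h3 (mem_ball_self hδ)).symm⟩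


/-! ### the exponential -/

section Exp

variable {ι : Type*} [Fintype ι]

theorem isLocalHomeomorph_exp : IsLocalHomeomorph Complex.exp := by
  refine IsLocalHomeomorph.mk _ fun x => ?_
  have h := (Complex.hasStrictDerivAt_exp (x := x)).hasStrictFDerivAt_equiv (Complex.exp_ne_zero x)
  exact ⟨h.toOpenPartialHomeomorph Complex.exp, h.mem_toOpenPartialHomeomorph_source, fun y _ => rfl⟩

/-- coordinatewise exponential -/
noncomputable def expPi (ζ : ι → ℂ) : ι → ℂ := fun j => Complex.exp (ζ j)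

theorem continuous_expPi : Continuous (expPi : (ι → ℂ) → ι → ℂ) := by
  unfold expPi
  fun_prop

theorem isLocalHomeomorph_expPi : IsLocalHomeomorph (expPi : (ι → ℂ) → ι → ℂ) := by
  refine IsLocalHomeomorph.mk _ fun ζ => ?_
  choose e he using fun j => isLocalHomeomorph_exp (ζ j)
  refine ⟨OpenPartialHomeomorph.pi e, fun j _ => (he j).1, fun z _ => ?_⟩
  funext j
  change Complex.exp (z j) = e j (z j)
  rw [(he j).2]

/-- the lattice `2πi ℤ^ι` -/
def lat (ι : Type*) : AddSubgroup (ι → ℂ) where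
  carrier := {v | ∀ j, ∃ k : ℤ, v j = k * (2 * Real.pi * Complex.I)}
  add_mem' := by
    intro a b ha hb j
    obtain ⟨k, hk⟩ := ha j
    obtain ⟨l, hl⟩ := hb j
    exact ⟨k + l, by rw [Pi.add_apply, hk, hl]; push_cast; ring⟩
  zero_mem' := fun j => ⟨0, by simp⟩
  neg_mem' := by
    intro a ha j
    obtain ⟨k, hk⟩ := ha j
    exact ⟨-k, by rw [Pi.neg_apply, hk]; push_cast; ring⟩

theorem mem_lat {v : ι → ℂ} : v ∈ lat ι ↔ ∀ j, ∃ k : ℤ, v j = k * (2 * Real.pi * Complex.I) :=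
  Iff.rfl

theorem expPi_eq_iff (a b : ι → ℂ) : expPi a = expPi b ↔ a - b ∈ lat ι := by
  rw [mem_lat, funext_iff]
  refine forall_congr' fun j => ?_
  unfold expPi
  rw [Complex.exp_eq_exp_iff_exists_int]
  refine exists_congr fun k => ?_
  rw [Pi.sub_apply, sub_eq_iff_eq_add, add_comm]

/-- the strip `|Re (ζ_j - ζ0_j)| < r` -/
def strip (ζ0 : ι → ℂ) (r : ℝ) : Set (ι → ℂ) := {ζ | ∀ j, |(ζ j).re - (ζ0 j).re| < r}

theorem isOpen_strip (ζ0 : ι → ℂ) (r : ℝ) : IsOpen (strip ζ0 r) := by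
  unfold strip
  rw [Set.ofPred_forall]
  refine isOpen_iInter_of_finite fun j => isOpen_lt ?_ continuous_const
  fun_prop

theorem convex_strip (ζ0 : ι → ℂ) (r : ℝ) : Convex ℝ (strip ζ0 r) := by
  have h : strip ζ0 r = ⋂ j, (fun ζ : ι → ℂ => (ζ j).re) ⁻¹' Ioo ((ζ0 j).re - r) ((ζ0 j).re + r) := by
    ext ζ
    simp only [strip, Set.mem_ofPred_eq, mem_iInter, mem_preimage, mem_Ioo, abs_lt]
    refine forall_congr' fun j => ?_
    constructor <;> rintro ⟨h1, h2⟩ <;> constructor <;> linarith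
  rw [h]
  refine convex_iInter fun j => (convex_Ioo _ _).is_linear_preimage ?_
  exact ⟨fun a b => by simp, fun c a => by simp⟩

theorem strip_add_lat {ζ0 : ι → ℂ} {r : ℝ} {ζ lam : ι → ℂ} (hζ : ζ ∈ strip ζ0 r)
    (hlam : lam ∈ lat ι) : ζ + lam ∈ strip ζ0 r := by
  intro j
  obtain ⟨k, hk⟩ := hlam j
  have : ((ζ + lam) j).re = (ζ j).re := by
    rw [Pi.add_apply, hk, Complex.add_re]
    have : ((k : ℂ) * (2 * Real.pi * Complex.I)).re = 0 := by simp
    rw [this, add_zero]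
  rw [this]
  exact hζ j

/-- every point of the strip is within `r + π D` of `ζ0` modulo `D • lat` -/
theorem exists_lat_near {ζ0 : ι → ℂ} {r : ℝ} (hr : 0 < r) {D : ℕ} (hD : 0 < D) {ζ : ι → ℂ}
    (hζ : ζ ∈ strip ζ0 r) : ∃ lam ∈ lat ι, ζ - D • lam ∈ ball ζ0 (r + Real.pi * D) := by
  have hpi := Real.pi_pos
  have hD' : (0 : ℝ) < D := by exact_mod_cast hD
  set k : ι → ℤ := fun j => round (((ζ j).im - (ζ0 j).im) / (2 * Real.pi * D)) with hk
  refine ⟨fun j => (k j : ℂ) * (2 * Real.pi * Complex.I), fun j => ⟨k j, rfl⟩, ?_⟩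
  rw [mem_ball, dist_pi_lt_iff (by positivity)]
  intro j
  rw [dist_eq_norm]
  set w : ℂ := (ζ - D • fun j => (k j : ℂ) * (2 * Real.pi * Complex.I)) j - ζ0 j with hw
  have hwre : w.re = (ζ j).re - (ζ0 j).re := by
    rw [hw]
    simp
  have hwim : w.im = (ζ j).im - (ζ0 j).im - (2 * Real.pi * D) * k j := by
    rw [hw]
    simp
    ring
  have h1 : |w.re| < r := by rw [hwre]; exact hζ j
  have h2 : |w.im| ≤ Real.pi * D := by
    set x : ℝ := ((ζ j).im - (ζ0 j).im) / (2 * Real.pi * D) with hx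
    have h3 : w.im = (2 * Real.pi * D) * (x - k j) := by
      rw [hwim, hx]
      field_simp
    rw [h3, abs_mul, abs_of_pos (by positivity : (0 : ℝ) < 2 * Real.pi * D)]
    have h4 : |x - k j| ≤ 1 / 2 := abs_sub_round x
    calc 2 * Real.pi * D * |x - k j| ≤ 2 * Real.pi * D * (1 / 2) := by gcongr
      _ = Real.pi * D := by ring
  calc ‖w‖ ≤ |w.re| + |w.im| := Complex.norm_le_abs_re_add_abs_im w
    _ < r + Real.pi * D := by linarith

end Exp

end Crest.Agent.R281.Tor_922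
end

-- ▼ part R281/TorD_922

/-!
# R281 (S0424), leaf S-TOR (helper922), file D: the torus fibration over a polydisc (final statement)

`X` metric space, `W` open, `F : X → (ι → ℂ)` local homeomorphism on `W` with fibres of at most `d` points
in `W`; `LCX`: local lifts of `exp` through `F` at the points of `W` are `C`-Lipschitz (sup norm on
`ι → ℂ`).  If `closedBall y R ⊆ W` is complete, `C * (2 * (r + π d!)) ≤ R`, `exp ζ0 = F y`, then there are a
lattice `Lam` between `d! • 2πi ℤ^ι` and `2πi ℤ^ι` and `Φ` on the strip `|Re (ζ_j - ζ0_j)| < r` with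
`F (Φ ζ) = exp ζ`, `Φ ζ0 = y`, `Φ ζ = Φ ζ' ↔ ζ - ζ' ∈ Lam`.
-/

set_option autoImplicit false
set_option linter.unusedSectionVars false

open Set Filter Topology Metric

namespace Crest.Agent.R281.Tor_922

variable {ι : Type*} [Fintype ι] {X : Type*} [MetricSpace X]

/-- length control for `F` on `W`: local lifts of `exp` through `F` are `C`-Lipschitz -/
def LCX (F : X → ι → ℂ) (W : Set X) (C : ℝ) : Prop :=
  ∀ p ∈ W, ∀ ζ : ι → ℂ, expPi ζ = F p → ∃ δ : ℝ, 0 < δ ∧ ∃ s : (ι → ℂ) → X, s ζ = p ∧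
    (∀ ζ' ∈ ball ζ δ, s ζ' ∈ W ∧ F (s ζ') = expPi ζ') ∧
    ∀ ζ' ∈ ball ζ δ, ∀ ζ'' ∈ ball ζ δ, dist (s ζ') (s ζ'') ≤ C * ‖ζ' - ζ''‖

/-- **the torus strip** -/
structure TorusStrip (F : X → ι → ℂ) (W : Set X) (C : ℝ) (d : ℕ) (y : X) (ζ0 : ι → ℂ) (r : ℝ)
    (Lam : AddSubgroup (ι → ℂ)) (Φ : (ι → ℂ) → X) : Prop where
  le_lat : Lam ≤ lat ι
  factorial_mem : ∀ lam ∈ lat ι, d.factorial • lam ∈ Lam
  base : Φ ζ0 = y
  mem_W : ∀ ζ ∈ strip ζ0 r, Φ ζ ∈ W
  cont : ContinuousOn Φ (strip ζ0 r)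
  lift : ∀ ζ ∈ strip ζ0 r, F (Φ ζ) = expPi ζ
  eq_iff : ∀ ζ ∈ strip ζ0 r, ∀ ζ' ∈ strip ζ0 r, Φ ζ = Φ ζ' ↔ ζ - ζ' ∈ Lam
  dist_le : ∀ ζ ∈ strip ζ0 r, dist (Φ ζ) y ≤ C * ‖ζ - ζ0‖
  dist_le' : ∀ ζ ∈ strip ζ0 r, dist (Φ ζ) y ≤ C * (r + Real.pi * d.factorial)
  localHomeo : IsLocalHomeomorphOn Φ (strip ζ0 r)
  /-- the image contains every preconnected subset of `W` through `y` on which the moduli stay in the
  polyannulus: it is the connected component of `y` in `{p ∈ W | |log |F_j p| - Re ζ0_j| < r}` -/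
  image : ∀ V ⊆ W, IsPreconnected V → y ∈ V →
    (∀ p ∈ V, ∀ j, F p j ≠ 0 ∧ |Real.log ‖F p j‖ - (ζ0 j).re| < r) → V ⊆ Φ '' strip ζ0 r

theorem mem_strip_of_log {ζ0 : ι → ℂ} {r : ℝ} {w : ι → ℂ}
    (hw : ∀ j, w j ≠ 0 ∧ |Real.log ‖w j‖ - (ζ0 j).re| < r) :
    ∃ ζ ∈ strip ζ0 r, expPi ζ = w := by
  refine ⟨fun j => Complex.log (w j), fun j => ?_, funext fun j => Complex.exp_log (hw j).1⟩
  rw [Complex.log_re]
  exact (hw j).2

theorem exists_torusStrip {W : Set X} (hW : IsOpen W) {F : X → ι → ℂ} (hF : IsLocalHomeomorphOn F W)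
    {d : ℕ} (hd : ∀ s : Finset X, (s : Set X) ⊆ W → (∀ a ∈ s, ∀ b ∈ s, F a = F b) → s.card ≤ d)
    {C : ℝ} (hC : 0 ≤ C) (hLC : LCX F W C) {y : X} {ζ0 : ι → ℂ} (hy : expPi ζ0 = F y) {r R : ℝ}
    (hr : 0 < r) (hR : C * (2 * (r + Real.pi * d.factorial)) ≤ R)
    (hcompl : IsComplete (closedBall y R)) (hsub : closedBall y R ⊆ W) :
    ∃ (Lam : AddSubgroup (ι → ℂ)) (Φ : (ι → ℂ) → X), TorusStrip F W C d y ζ0 r Lam Φ := by
  classical
  have hpi := Real.pi_pos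
  have hD : 0 < d.factorial := Nat.factorial_pos d
  have hD' : (0 : ℝ) < d.factorial := by exact_mod_cast hD
  have hR0 : 0 ≤ R := le_trans (by positivity) hR
  have hyW : y ∈ W := hsub (mem_closedBall_self hR0)
  set f : W → ι → ℂ := fun p => F p.1 with hf
  have hfl : IsLocalHomeomorph f := by
    rw [isLocalHomeomorph_iff_isLocalHomeomorphOn_univ]
    exact hF.comp (hW.isOpenEmbedding_subtypeVal.isLocalHomeomorph.isLocalHomeomorphOn)
      fun p _ => p.2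
  have hfd : FibLe f d := by
    intro s hs
    have := hd (s.map ⟨Subtype.val, Subtype.val_injective⟩) (by
      intro p hp
      simp only [Finset.coe_map, Function.Embedding.coeFn_mk, mem_image, Finset.mem_coe] at hp
      obtain ⟨a, _, rfl⟩ := hp
      exact a.2) (by
      intro a ha b hb
      obtain ⟨a', ha', rfl⟩ := Finset.mem_map.1 ha
      obtain ⟨b', hb', rfl⟩ := Finset.mem_map.1 hb
      exact hs a' ha' b' hb')
    rwa [Finset.card_map] at this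
  have hfLC : LC (expPi : (ι → ℂ) → ι → ℂ) f C := by
    intro p ζ hζ
    obtain ⟨δ, hδ, s, hs0, hs1, hs2⟩ := hLC p.1 p.2 ζ hζ
    refine ⟨δ, hδ, fun ζ' => if h : s ζ' ∈ W then ⟨s ζ', h⟩ else p, ?_, ?_, ?_⟩
    · have : s ζ ∈ W := by rw [hs0]; exact p.2
      simp only [this, dif_pos]
      exact Subtype.ext hs0
    · intro ζ' hζ'
      simp only [(hs1 ζ' hζ').1, dif_pos]
      exact (hs1 ζ' hζ').2
    · intro ζ' hζ' ζ'' hζ''
      simp only [(hs1 ζ' hζ').1, (hs1 ζ'' hζ'').1, dif_pos]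
      exact hs2 ζ' hζ' ζ'' hζ''
  have hcb : IsComplete (closedBall (⟨y, hyW⟩ : W) R) := by
    rw [Subtype.isComplete_iff]
    have : (Subtype.val : W → X) '' closedBall (⟨y, hyW⟩ : W) R = closedBall y R := by
      ext p
      constructor
      · rintro ⟨a, ha, rfl⟩
        exact ha
      · intro hp
        exact ⟨⟨p, hsub hp⟩, hp, rfl⟩
    rw [this]
    exact hcompl
  have hstrip0 : ζ0 ∈ strip ζ0 r := fun j => by rw [sub_self, abs_zero]; exact hr
  obtain ⟨Lam, Φ, h1, h2, h3, h4, h5, h6, h7, h8⟩ := exists_strip (q := expPi) (f := f)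
    (y := ⟨y, hyW⟩) (ζ0 := ζ0) (Γ := lat ι) (T := strip ζ0 r) (ρ' := r + Real.pi * d.factorial)
    hfl continuous_expPi expPi_eq_iff hfd hfLC hC hcb (by positivity) hR hy (convex_strip ζ0 r)
    hstrip0 (fun ζ hζ lam hlam => strip_add_lat hζ hlam)
    (fun ζ hζ => exists_lat_near hr hD hζ)
  refine ⟨Lam, fun ζ => (Φ ζ).1, h1, h2, by rw [h3], fun ζ _ => (Φ ζ).2,
    continuous_subtype_val.comp_continuousOn h4, h5, fun ζ hζ ζ' hζ' => ?_, h7, h8, ?_, ?_⟩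
  · rw [← h6 ζ hζ ζ' hζ']
    exact ⟨fun h => Subtype.ext h, fun h => by rw [h]⟩
  · exact (hW.isOpenEmbedding_subtypeVal.isLocalHomeomorph.isLocalHomeomorphOn).comp
      (isLocalHomeomorphOn_lift hfl isLocalHomeomorph_expPi (isOpen_strip ζ0 r) h4 h5)
      (mapsTo_univ _ _)
  · intro V hVW hV hyV hVT
    have hV' : IsPreconnected ((Subtype.val : W → X) ⁻¹' V) := by
      refine (Topology.IsInducing.subtypeVal.isPreconnected_image).1 ?_
      rwa [Subtype.image_preimage_coe, inter_eq_right.2 hVW]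
    have := subset_image_lift (q := expPi) (f := f) (Γ := lat ι) hfl isLocalHomeomorph_expPi
      expPi_eq_iff (isOpen_strip ζ0 r) h4 h5 (fun ζ hζ lam hlam => strip_add_lat hζ hlam) hV'
      ⟨⟨y, hyW⟩, hyV, ζ0, hstrip0, h3⟩ (fun p hp => mem_strip_of_log (hVT p.1 hp))
    intro p hp
    obtain ⟨ζ, hζ, he⟩ := this (show (⟨p, hVW hp⟩ : W) ∈ Subtype.val ⁻¹' V from hp)
    exact ⟨ζ, hζ, congrArg Subtype.val he⟩


theorem TorusStrip.isOpen_image {F : X → ι → ℂ} {W : Set X} {C : ℝ} {d : ℕ} {y : X} {ζ0 : ι → ℂ}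
    {r : ℝ} {Lam : AddSubgroup (ι → ℂ)} {Φ : (ι → ℂ) → X} (h : TorusStrip F W C d y ζ0 r Lam Φ)
    {U : Set (ι → ℂ)} (hU : IsOpen U) (hUT : U ⊆ strip ζ0 r) : IsOpen (Φ '' U) := by
  rw [isOpen_iff_mem_nhds]
  rintro _ ⟨x, hx, rfl⟩
  rw [← h.localHomeo.map_nhds_eq (hUT hx)]
  exact image_mem_map (hU.mem_nhds hx)


end Crest.Agent.R281.Tor_922
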