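import Mathlib
import Crest.Agent.R281.TrPL_726

-- ▼ part R281/TrC1_282
section

/-!
# R281 / TROP-C, part 1: Vandermonde max lemma and "largest conjugate ~ coefficients".
-/

set_option autoImplicit false

open Polynomial

namespace Crest.Agent.R281.TrC_282

/-! ## (VM) -/

theorem vm_one {p : ℕ} (hp : 0 < p) (γ : Fin p → ℕ) (hγ : Function.Injective γ) :
    ∃ C : ℝ, 0 < C ∧ ∀ z : Fin p → ℂ, ∃ j, ∀ b, ‖z b‖ ≤ C * ‖∑ b : Fin p, (γ j : ℂ) ^ (b : ℕ) * z b‖ := by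
  classical
  set M : Matrix (Fin p) (Fin p) ℂ := Matrix.vandermonde (fun j => (γ j : ℂ)) with hM
  have hdet : M.det ≠ 0 := by
    rw [hM, Matrix.det_vandermonde_ne_zero_iff]
    intro a b hab
    apply hγ
    have : (γ a : ℂ) = (γ b : ℂ) := hab
    exact_mod_cast this
  set L : (Fin p → ℂ) →ₗ[ℂ] (Fin p → ℂ) := Matrix.toLin' M with hL
  have hker : LinearMap.ker L = ⊥ := by
    rw [LinearMap.ker_eq_bot, hL]
    intro x y hxy
    have hu : IsUnit M.det := isUnit_iff_ne_zero.mpr hdet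
    have : M.mulVec x = M.mulVec y := by simpa [Matrix.toLin'_apply] using hxy
    have h2 := congrArg (fun v => M⁻¹.mulVec v) this
    simpa [Matrix.mulVec_mulVec, Matrix.nonsing_inv_mul M hu] using h2
  obtain ⟨K, hK0, hK⟩ := LinearMap.exists_antilipschitzWith L hker
  have hb : ∀ z : Fin p → ℂ, ‖z‖ ≤ K * ‖L z‖ := by
    intro z
    have := hK.le_mul_dist z 0
    simpa [dist_eq_norm] using this
  refine ⟨K, by exact_mod_cast hK0, fun z => ?_⟩
  have : Nonempty (Fin p) := ⟨⟨0, hp⟩⟩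
  obtain ⟨j, hj⟩ := Finite.exists_max (fun j => ‖L z j‖)
  have hn : ‖L z‖ ≤ ‖L z j‖ := (pi_norm_le_iff_of_nonneg (norm_nonneg _)).mpr hj
  refine ⟨j, fun b => ?_⟩
  have hLz : L z j = ∑ b : Fin p, (γ j : ℂ) ^ (b : ℕ) * z b := by
    rw [hL, Matrix.toLin'_apply, Matrix.mulVec, dotProduct]
    rfl
  calc ‖z b‖ ≤ ‖z‖ := norm_le_pi_norm z b
    _ ≤ K * ‖L z‖ := hb z
    _ ≤ K * ‖L z j‖ := by gcongr
    _ = _ := by rw [hLz]

theorem vm (Γ : Finset ℕ) {p : ℕ} (hp : 0 < p) :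
    ∃ C : ℝ, 1 ≤ C ∧ ∀ S : Finset ℕ, S ⊆ Γ → p ≤ S.card → ∀ z : Fin p → ℂ,
      ∃ γ ∈ S, ∀ b, ‖z b‖ ≤ C * ‖∑ b : Fin p, (γ : ℂ) ^ (b : ℕ) * z b‖ := by
  classical
  have key : ∀ T : Finset ℕ, ∃ C : ℝ, 0 < C ∧ (T.card = p → ∀ z : Fin p → ℂ,
      ∃ γ ∈ T, ∀ b, ‖z b‖ ≤ C * ‖∑ b : Fin p, (γ : ℂ) ^ (b : ℕ) * z b‖) := by
    intro T
    by_cases hT : T.card = p
    · obtain ⟨C, hC, h⟩ := vm_one hp (fun j => T.orderEmbOfFin hT j) (T.orderEmbOfFin hT).injective
      refine ⟨C, hC, fun _ z => ?_⟩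
      obtain ⟨j, hj⟩ := h z
      exact ⟨T.orderEmbOfFin hT j, Finset.orderEmbOfFin_mem _ _ _, hj⟩
    · exact ⟨1, one_pos, fun h => absurd h hT⟩
  choose c hc0 hc using key
  refine ⟨1 + ∑ T ∈ Γ.powerset, c T, ?_, ?_⟩
  · have := Finset.sum_nonneg (fun T (_ : T ∈ Γ.powerset) => (hc0 T).le)
    linarith
  intro S hS hcard z
  obtain ⟨T, hTS, hTc⟩ := Finset.exists_subset_card_eq hcard
  obtain ⟨γ, hγ, h⟩ := hc T hTc z
  refine ⟨γ, hTS hγ, fun b => (h b).trans ?_⟩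
  apply mul_le_mul_of_nonneg_right _ (norm_nonneg _)
  have h1 : c T ≤ ∑ T ∈ Γ.powerset, c T :=
    Finset.single_le_sum (fun T _ => (hc0 T).le) (Finset.mem_powerset.mpr (hTS.trans hS))
  linarith

/-- one `γ` good for a whole finite family of vectors -/
theorem vm_family {G : Type*} [Fintype G] (Γ : Finset ℕ) {p : ℕ} (hp : 0 < p) :
    ∃ C : ℝ, 1 ≤ C ∧ ∀ (S : Finset ℕ), S ⊆ Γ →
      Fintype.card G * p < S.card → ∀ z : G → Fin p → ℂ,
      ∃ γ ∈ S, ∀ g b, ‖z g b‖ ≤ C * ‖∑ b : Fin p, (γ : ℂ) ^ (b : ℕ) * z g b‖ := by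
  classical
  obtain ⟨C, hC1, hC⟩ := vm Γ hp
  refine ⟨C, hC1, ?_⟩
  intro S hS hcard z
  by_contra hcon
  push Not at hcon
  set Bad : G → Finset ℕ := fun g => S.filter
    (fun γ => ∃ b, C * ‖∑ b : Fin p, (γ : ℂ) ^ (b : ℕ) * z g b‖ < ‖z g b‖) with hBad
  have hb : ∀ g, (Bad g).card < p := by
    intro g
    by_contra hlt
    push Not at hlt
    obtain ⟨γ, hγ, h⟩ := hC (Bad g) ((Finset.filter_subset _ _).trans hS) hlt (z g)
    rw [hBad, Finset.mem_filter] at hγ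
    obtain ⟨_, b, hb⟩ := hγ
    exact absurd (h b) (not_le.mpr hb)
  have hcov : S ⊆ Finset.univ.biUnion Bad := by
    intro γ hγ
    obtain ⟨g, b, hgb⟩ := hcon γ hγ
    rw [Finset.mem_biUnion]
    exact ⟨g, Finset.mem_univ _, by rw [hBad, Finset.mem_filter]; exact ⟨hγ, b, hgb⟩⟩
  have h1 := Finset.card_le_card hcov
  have h2 : (Finset.univ.biUnion Bad).card ≤ Fintype.card G * p := by
    refine (Finset.card_biUnion_le).trans ?_
    calc ∑ g, (Bad g).card ≤ ∑ _g : G, p := Finset.sum_le_sum (fun g _ => (hb g).le)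
      _ = Fintype.card G * p := by simp
  omega

/-! ## the largest root and the coefficients -/

/-- if `‖c j‖ ≤ ρ^(n-j)` for all non-leading coefficients of a monic polynomial, its roots have size `≤ 2ρ`. -/
theorem root_le {P : ℂ[X]} (hP : P.Monic) {ρ : ℝ} (hρ : 0 ≤ ρ)
    (h : ∀ i, i < P.natDegree → ‖P.coeff i‖ ≤ ρ ^ (P.natDegree - i)) {z : ℂ} (hz : P.IsRoot z) :
    ‖z‖ ≤ 2 * ρ := by
  by_contra hlt
  push Not at hlt
  set n := P.natDegree with hn
  have hz0 : 0 < ‖z‖ := lt_of_le_of_lt (by positivity) hlt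
  have he : P.eval z = 0 := hz
  rw [Polynomial.eval_eq_sum_range, Finset.sum_range_succ] at he
  have hlead : P.coeff P.natDegree = 1 := hP.coeff_natDegree
  rw [hlead, one_mul, ← hn] at he
  have h1 : ‖z‖ ^ n ≤ ∑ i ∈ Finset.range n, ρ ^ (n - i) * ‖z‖ ^ i := by
    have : z ^ n = - ∑ i ∈ Finset.range n, P.coeff i * z ^ i := by linear_combination he
    rw [← norm_pow, this, norm_neg]
    refine (norm_sum_le _ _).trans (Finset.sum_le_sum ?_)
    intro i hi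
    rw [norm_mul, norm_pow]
    exact mul_le_mul_of_nonneg_right (h i (Finset.mem_range.mp hi)) (by positivity)
  have h2 : ∑ i ∈ Finset.range n, ρ ^ (n - i) * ‖z‖ ^ i
      ≤ ∑ i ∈ Finset.range n, ‖z‖ ^ n * (1/2) ^ (n - i) := by
    refine Finset.sum_le_sum ?_
    intro i hi
    have hi' := Finset.mem_range.mp hi
    have e1 : ‖z‖ ^ n = ‖z‖ ^ (n - i) * ‖z‖ ^ i := by rw [← pow_add]; congr 1; omega
    rw [e1]
    have e2 : ρ ^ (n - i) ≤ (‖z‖ * (1/2)) ^ (n - i) := by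
      apply pow_le_pow_left₀ hρ
      linarith
    rw [mul_pow] at e2
    calc ρ ^ (n - i) * ‖z‖ ^ i ≤ (‖z‖ ^ (n - i) * (1/2) ^ (n - i)) * ‖z‖ ^ i := by gcongr
      _ = _ := by ring
  have h3 : ∑ i ∈ Finset.range n, ((1:ℝ)/2) ^ (n - i) < 1 := by
    have : ∀ m : ℕ, ∑ i ∈ Finset.range m, ((1:ℝ)/2) ^ (m - i) = 1 - (1/2) ^ m := by
      intro m
      induction m with
      | zero => simp
      | succ k ih =>
        rw [Finset.sum_range_succ]
        have : ∑ i ∈ Finset.range k, ((1:ℝ)/2) ^ (k + 1 - i) = (1/2) * ∑ i ∈ Finset.range k, ((1:ℝ)/2) ^ (k - i) := by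
          rw [Finset.mul_sum]
          refine Finset.sum_congr rfl ?_
          intro i hi
          have := Finset.mem_range.mp hi
          rw [show k + 1 - i = (k - i) + 1 by omega, pow_succ]
          ring
        rw [this, ih]
        simp only [Nat.add_sub_cancel_left, pow_one]
        ring
    rw [this]
    have : (0:ℝ) < (1/2)^n := by positivity
    linarith
  rw [← Finset.mul_sum] at h2
  have h4 : ‖z‖ ^ n * ∑ i ∈ Finset.range n, ((1:ℝ)/2) ^ (n - i) < ‖z‖ ^ n * 1 :=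
    mul_lt_mul_of_pos_left h3 (by positivity)
  linarith

/-- log form: largest root vs. coefficients of a product of linear factors with non-zero roots. -/
theorem log_max_root {G : Type*} [Fintype G] [Nonempty G] (z : G → ℂ) (hz : ∀ g, z g ≠ 0) :
    (∀ i, i < Fintype.card G → (∏ g, (X - C (z g))).coeff i ≠ 0 →
      ∃ g, (1 / ((Fintype.card G - i : ℕ) : ℝ)) * Real.log ‖(∏ g, (X - C (z g))).coeff i‖
        ≤ Real.log ‖z g‖ + Fintype.card G) ∧
    (∀ g, ∃ i, i < Fintype.card G ∧ (∏ g, (X - C (z g))).coeff i ≠ 0 ∧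
      Real.log ‖z g‖ ≤ (1 / ((Fintype.card G - i : ℕ) : ℝ)) *
        Real.log ‖(∏ g, (X - C (z g))).coeff i‖ + 1) := by
  classical
  set P : ℂ[X] := ∏ g, (X - C (z g)) with hPdef
  have hP : P.Monic := monic_prod_of_monic _ _ (fun g _ => monic_X_sub_C _)
  set n := Fintype.card G with hn
  have hdeg : P.natDegree = n := by
    rw [hPdef, natDegree_prod_of_monic _ _ (fun g _ => monic_X_sub_C _)]
    simp [hn]
  have hroots : ∀ w ∈ P.roots, ∃ g, w = z g := by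
    intro w hw
    have h := (mem_roots'.mp hw).2
    rw [IsRoot.def, hPdef, eval_prod, Finset.prod_eq_zero_iff] at h
    obtain ⟨g, _, hg⟩ := h
    exact ⟨g, by simpa [sub_eq_zero] using hg⟩
  have hisroot : ∀ g, P.IsRoot (z g) := by
    intro g
    rw [IsRoot.def, hPdef, eval_prod]
    exact Finset.prod_eq_zero (Finset.mem_univ g) (by simp)
  have hnpos : 0 < n := Fintype.card_pos
  constructor
  · intro i hi hci
    obtain ⟨g, hg⟩ := Finite.exists_max (fun g => ‖z g‖)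
    refine ⟨g, ?_⟩
    have hB : ‖P.coeff i‖ ≤ ‖z g‖ ^ (n - i) * n.choose i := by
      have := coeff_le_of_roots_le (p := P) (f := RingHom.id ℂ) (B := ‖z g‖) i hP
        (IsAlgClosed.splits _) (by
          intro w hw
          rw [Polynomial.map_id] at hw
          obtain ⟨g', rfl⟩ := hroots w hw
          exact hg g')
      rw [Polynomial.map_id, hdeg] at this
      exact this
    have hzg : 0 < ‖z g‖ := norm_pos_iff.mpr (hz g)
    have hcpos : 0 < ‖P.coeff i‖ := norm_pos_iff.mpr hci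
    have hch : ((n.choose i : ℕ) : ℝ) ≤ 2 ^ n := by exact_mod_cast Nat.choose_le_two_pow n i
    have hch0 : 0 < ((n.choose i : ℕ) : ℝ) := by exact_mod_cast Nat.choose_pos hi.le
    have hl : Real.log ‖P.coeff i‖ ≤ (n - i : ℕ) * Real.log ‖z g‖ + n := by
      calc Real.log ‖P.coeff i‖ ≤ Real.log (‖z g‖ ^ (n - i) * n.choose i) := Real.log_le_log hcpos hB
        _ = (n - i : ℕ) * Real.log ‖z g‖ + Real.log (n.choose i) := by
            rw [Real.log_mul (by positivity) hch0.ne', Real.log_pow]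
        _ ≤ (n - i : ℕ) * Real.log ‖z g‖ + n := by
            gcongr
            calc Real.log (n.choose i) ≤ Real.log (2 ^ n) := Real.log_le_log hch0 hch
              _ = n * Real.log 2 := by rw [Real.log_pow]
              _ ≤ n * 1 := by gcongr; linarith [Real.log_two_lt_d9]
              _ = n := mul_one _
    have hk : (1:ℝ) ≤ ((n - i : ℕ) : ℝ) := by
      have : 1 ≤ n - i := by omega
      exact_mod_cast this
    have hk0 : (0:ℝ) < ((n - i : ℕ) : ℝ) := by linarith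
    rw [one_div, inv_mul_le_iff₀ hk0]
    have hn0 : (0:ℝ) ≤ n := by positivity
    nlinarith
  · have hc0 : P.coeff 0 ≠ 0 := by
      rw [coeff_zero_eq_eval_zero, hPdef, eval_prod]
      refine Finset.prod_ne_zero_iff.mpr (fun g _ => ?_)
      simpa using hz g
    set I := (Finset.range n).filter (fun i => P.coeff i ≠ 0) with hI
    have hIne : I.Nonempty := ⟨0, by rw [hI, Finset.mem_filter]; exact ⟨Finset.mem_range.mpr hnpos, hc0⟩⟩
    obtain ⟨i₀, hi₀, hmax⟩ := Finset.exists_max_image I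
      (fun i => (1 / ((n - i : ℕ) : ℝ)) * Real.log ‖P.coeff i‖) hIne
    set f₀ : ℝ := (1 / ((n - i₀ : ℕ) : ℝ)) * Real.log ‖P.coeff i₀‖ with hf₀
    rw [hI, Finset.mem_filter, Finset.mem_range] at hi₀
    have hco : ∀ i, i < P.natDegree → ‖P.coeff i‖ ≤ (Real.exp f₀) ^ (P.natDegree - i) := by
      intro i hi
      rw [hdeg] at hi ⊢
      by_cases hci : P.coeff i = 0
      · rw [hci, norm_zero]; positivity
      · have hm := hmax i (by rw [hI, Finset.mem_filter, Finset.mem_range]; exact ⟨hi, hci⟩)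
        have hk0 : (0:ℝ) < ((n - i : ℕ) : ℝ) := by
          have : 0 < n - i := by omega
          exact_mod_cast this
        have h1 : Real.log ‖P.coeff i‖ ≤ ((n - i : ℕ) : ℝ) * f₀ := by
          have : (1 / ((n - i : ℕ) : ℝ)) * Real.log ‖P.coeff i‖ ≤ f₀ := hm
          rw [one_div, inv_mul_le_iff₀ hk0] at this
          exact this
        calc ‖P.coeff i‖ = Real.exp (Real.log ‖P.coeff i‖) :=
              (Real.exp_log (norm_pos_iff.mpr hci)).symm
          _ ≤ Real.exp (((n - i : ℕ) : ℝ) * f₀) := Real.exp_le_exp.mpr h1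
          _ = (Real.exp f₀) ^ (n - i) := by rw [Real.exp_nat_mul]
    intro g
    refine ⟨i₀, hi₀.1, hi₀.2, ?_⟩
    have hle := root_le hP (Real.exp_pos f₀).le hco (hisroot g)
    have hzg : 0 < ‖z g‖ := norm_pos_iff.mpr (hz g)
    calc Real.log ‖z g‖ ≤ Real.log (2 * Real.exp f₀) := Real.log_le_log hzg hle
      _ = Real.log 2 + f₀ := by rw [Real.log_mul (by norm_num) (Real.exp_pos _).ne', Real.log_exp]
      _ ≤ f₀ + 1 := by linarith [Real.log_two_lt_d9]

end Crest.Agent.R281.TrC_282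
end

-- ▼ part R281/TrC2_282
section

/-!
# R281 / TROP-C, part 2: the class `TrL` (log form of `Tr`) and representability `Rep` of functions of
extensions `ψ : C →+* ℂ` by functions of the restriction to `A`.
-/

set_option autoImplicit false

open Polynomial

namespace Crest.Agent.R281.TrC_282

open Crest.Agent.R281.TrPL_726

/-! ## `TrL` -/

/-- log form of `Tr` -/
def TrL (A : Type*) [CommRing A] (m : (A →+* ℂ) → ℝ) : Prop :=
  ∃ (n : ℕ) (q : Fin n → A) (F : (Fin n → ℝ) → ℝ), (∀ v, q v ≠ 0) ∧ PL F ∧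
    ∀ φ : A →+* ℂ, m φ = F (fun v => Real.log ‖φ (q v)‖)

section TrLsec

variable {A : Type*} [CommRing A] {m m' : (A →+* ℂ) → ℝ}

theorem TrL.tr (h : TrL A m) : Tr A (fun φ => Real.exp (m φ)) := by
  obtain ⟨n, q, F, hq, hF, h⟩ := h
  exact ⟨n, q, F, hq, hF, fun φ => by simp only [h]⟩

theorem TrL.of_tr {G : (A →+* ℂ) → ℝ} (h : Tr A G) : TrL A (fun φ => Real.log (G φ)) := by
  obtain ⟨n, q, F, hq, hF, h⟩ := h
  exact ⟨n, q, F, hq, hF, fun φ => by simp only [h, Real.log_exp]⟩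

theorem TrL.mk' {V : Type*} [Fintype V] (q : V → A) (hq : ∀ v, q v ≠ 0)
    {F : (V → ℝ) → ℝ} (hF : PL F) :
    TrL A (fun φ => F (fun v => Real.log ‖φ (q v)‖)) := by
  have h := TrL.of_tr (Tr.mk' q hq hF)
  simpa using h

theorem TrL.pair (h : TrL A m) (h' : TrL A m') :
    ∃ (n : ℕ) (q : Fin n → A) (F F' : (Fin n → ℝ) → ℝ), (∀ v, q v ≠ 0) ∧ PL F ∧ PL F' ∧
      (∀ φ : A →+* ℂ, m φ = F (fun v => Real.log ‖φ (q v)‖)) ∧
      (∀ φ : A →+* ℂ, m' φ = F' (fun v => Real.log ‖φ (q v)‖)) := by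
  obtain ⟨n, q, F, F', hq, hF, hF', e, e'⟩ := Tr.pair h.tr h'.tr
  exact ⟨n, q, F, F', hq, hF, hF', fun φ => Real.exp_injective (e φ), fun φ => Real.exp_injective (e' φ)⟩

theorem TrL.logabs {q : A} (hq : q ≠ 0) : TrL A (fun φ => Real.log ‖φ q‖) :=
  TrL.mk' (V := Unit) (fun _ => q) (fun _ => hq) (PL.coord ())

theorem TrL.add (h : TrL A m) (h' : TrL A m') : TrL A (fun φ => m φ + m' φ) := by
  obtain ⟨n, q, F, F', hq, hF, hF', e, e'⟩ := h.pair h'
  exact ⟨n, q, _, hq, hF.add hF', fun φ => by simp only [e, e']⟩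

theorem TrL.sub (h : TrL A m) (h' : TrL A m') : TrL A (fun φ => m φ - m' φ) := by
  obtain ⟨n, q, F, F', hq, hF, hF', e, e'⟩ := h.pair h'
  exact ⟨n, q, _, hq, hF.sub hF', fun φ => by simp only [e, e']⟩

theorem TrL.max (h : TrL A m) (h' : TrL A m') : TrL A (fun φ => Max.max (m φ) (m' φ)) := by
  obtain ⟨n, q, F, F', hq, hF, hF', e, e'⟩ := h.pair h'
  exact ⟨n, q, _, hq, hF.max hF', fun φ => by simp only [e, e']⟩

theorem TrL.min (h : TrL A m) (h' : TrL A m') : TrL A (fun φ => Min.min (m φ) (m' φ)) := by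
  obtain ⟨n, q, F, F', hq, hF, hF', e, e'⟩ := h.pair h'
  exact ⟨n, q, _, hq, hF.min hF', fun φ => by simp only [e, e']⟩

theorem TrL.smul (h : TrL A m) (r : ℚ) : TrL A (fun φ => (r : ℝ) * m φ) := by
  obtain ⟨n, q, F, hq, hF, e⟩ := h
  exact ⟨n, q, _, hq, hF.smul r, fun φ => by simp only [e]⟩

theorem TrL.zero : TrL A (fun _ => (0 : ℝ)) := by
  have := TrL.mk' (A := A) (V := Empty) (fun v => v.elim) (fun v => v.elim) (PL.zero)
  simpa using this

theorem TrL.sum {ι : Type*} (s : Finset ι) {m : ι → (A →+* ℂ) → ℝ} (h : ∀ i ∈ s, TrL A (m i)) :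
    TrL A (fun φ => ∑ i ∈ s, m i φ) := by
  classical
  induction s using Finset.induction_on with
  | empty => simpa using TrL.zero (A := A)
  | insert i s hi ih =>
    have := (h i (Finset.mem_insert_self i s)).add (ih (fun j hj => h j (Finset.mem_insert_of_mem hj)))
    simpa [Finset.sum_insert hi] using this

theorem TrL.exists_sup {ι : Type*} (s : Finset ι) (hs : s.Nonempty) {m : ι → (A →+* ℂ) → ℝ}
    (h : ∀ i ∈ s, TrL A (m i)) :
    ∃ M, TrL A M ∧ (∀ φ, ∀ i ∈ s, m i φ ≤ M φ) ∧ (∀ φ, ∃ i ∈ s, M φ = m i φ) := by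
  classical
  induction hs using Finset.Nonempty.cons_induction with
  | singleton i => exact ⟨m i, h i (by simp), by simp, by simp⟩
  | cons i s hi hs ih =>
    obtain ⟨M, hM, h1, h2⟩ := ih (fun j hj => h j (by simp [hj]))
    refine ⟨fun φ => Max.max (m i φ) (M φ), (h i (by simp)).max hM, ?_, ?_⟩
    · intro φ j hj
      rcases Finset.mem_cons.1 hj with rfl | hj
      · exact le_max_left _ _
      · exact (h1 φ j hj).trans (le_max_right _ _)
    · intro φ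
      rcases le_total (m i φ) (M φ) with hle | hle
      · obtain ⟨j, hj, he⟩ := h2 φ
        exact ⟨j, by simp [hj], (max_eq_right hle).trans he⟩
      · exact ⟨i, by simp, max_eq_left hle⟩

end TrLsec

/-! ## `Rep` -/

section RepSec

variable {A C : Type*} [CommRing A] [CommRing C] [Algebra A C]

/-- `H : (C →+* ℂ) → ℝ` is, up to a bounded error and off one hypersurface, a `TrL` function of the
restriction to `A`. -/
def Rep (A : Type*) {C : Type*} [CommRing A] [CommRing C] [Algebra A C] (H : (C →+* ℂ) → ℝ) : Prop :=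
  ∃ m : (A →+* ℂ) → ℝ, TrL A m ∧ ∃ q : A, q ≠ 0 ∧ ∃ K : ℝ, ∀ ψ : C →+* ℂ,
    ψ (algebraMap A C q) ≠ 0 → |H ψ - m (ψ.comp (algebraMap A C))| ≤ K

variable [IsDomain A]

set_option linter.unusedSectionVars false

theorem Rep.congr {H H' : (C →+* ℂ) → ℝ} (h : Rep A H) {q₀ : A} (hq₀ : q₀ ≠ 0) {K₀ : ℝ}
    (hH : ∀ ψ : C →+* ℂ, ψ (algebraMap A C q₀) ≠ 0 → |H' ψ - H ψ| ≤ K₀) : Rep A H' := by
  obtain ⟨m, hm, q, hq, K, hK⟩ := h
  refine ⟨m, hm, q₀ * q, mul_ne_zero hq₀ hq, K₀ + K, fun ψ hψ => ?_⟩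
  rw [map_mul, map_mul] at hψ
  have h1 := hH ψ (left_ne_zero_of_mul hψ)
  have h2 := hK ψ (right_ne_zero_of_mul hψ)
  calc |H' ψ - m (ψ.comp (algebraMap A C))|
      = |(H' ψ - H ψ) + (H ψ - m (ψ.comp (algebraMap A C)))| := by ring_nf
    _ ≤ _ := (abs_add_le _ _).trans (add_le_add h1 h2)

theorem Rep.add {H H' : (C →+* ℂ) → ℝ} (h : Rep A H) (h' : Rep A H') : Rep A (fun ψ => H ψ + H' ψ) := by
  obtain ⟨m, hm, q, hq, K, hK⟩ := h
  obtain ⟨m', hm', q', hq', K', hK'⟩ := h'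
  refine ⟨_, hm.add hm', q * q', mul_ne_zero hq hq', K + K', fun ψ hψ => ?_⟩
  rw [map_mul, map_mul] at hψ
  have h1 := hK ψ (left_ne_zero_of_mul hψ)
  have h2 := hK' ψ (right_ne_zero_of_mul hψ)
  rw [abs_le] at h1 h2 ⊢
  constructor <;> linarith [h1.1, h1.2, h2.1, h2.2]

theorem Rep.smul {H : (C →+* ℂ) → ℝ} (h : Rep A H) (r : ℚ) : Rep A (fun ψ => (r : ℝ) * H ψ) := by
  obtain ⟨m, hm, q, hq, K, hK⟩ := h
  refine ⟨_, hm.smul r, q, hq, |(r:ℝ)| * K, fun ψ hψ => ?_⟩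
  rw [← mul_sub, abs_mul]
  exact mul_le_mul_of_nonneg_left (hK ψ hψ) (abs_nonneg _)

theorem Rep.neg {H : (C →+* ℂ) → ℝ} (h : Rep A H) : Rep A (fun ψ => - H ψ) := by
  have := h.smul (-1)
  simpa using this

theorem Rep.sub {H H' : (C →+* ℂ) → ℝ} (h : Rep A H) (h' : Rep A H') : Rep A (fun ψ => H ψ - H' ψ) := by
  simpa [sub_eq_add_neg] using h.add h'.neg

theorem Rep.max {H H' : (C →+* ℂ) → ℝ} (h : Rep A H) (h' : Rep A H') :
    Rep A (fun ψ => Max.max (H ψ) (H' ψ)) := by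
  obtain ⟨m, hm, q, hq, K, hK⟩ := h
  obtain ⟨m', hm', q', hq', K', hK'⟩ := h'
  refine ⟨_, hm.max hm', q * q', mul_ne_zero hq hq', Max.max K K', fun ψ hψ => ?_⟩
  rw [map_mul, map_mul] at hψ
  have h1 := hK ψ (left_ne_zero_of_mul hψ)
  have h2 := hK' ψ (right_ne_zero_of_mul hψ)
  exact (abs_max_sub_max_le_max _ _ _ _).trans (max_le_max h1 h2)

theorem Rep.exists_sup {ι : Type*} (s : Finset ι) (hs : s.Nonempty) {H : ι → (C →+* ℂ) → ℝ}
    (h : ∀ i ∈ s, Rep A (H i)) :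
    ∃ M, Rep A M ∧ (∀ ψ, ∀ i ∈ s, H i ψ ≤ M ψ) ∧ (∀ ψ, ∃ i ∈ s, M ψ = H i ψ) := by
  classical
  induction hs using Finset.Nonempty.cons_induction with
  | singleton i => exact ⟨H i, h i (by simp), by simp, by simp⟩
  | cons i s hi hs ih =>
    obtain ⟨M, hM, h1, h2⟩ := ih (fun j hj => h j (by simp [hj]))
    refine ⟨fun ψ => Max.max (H i ψ) (M ψ), (h i (by simp)).max hM, ?_, ?_⟩
    · intro ψ j hj
      rcases Finset.mem_cons.1 hj with rfl | hj
      · exact le_max_left _ _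
      · exact (h1 ψ j hj).trans (le_max_right _ _)
    · intro ψ
      rcases le_total (H i ψ) (M ψ) with hle | hle
      · obtain ⟨j, hj, he⟩ := h2 ψ
        exact ⟨j, by simp [hj], (max_eq_right hle).trans he⟩
      · exact ⟨i, by simp, max_eq_left hle⟩

theorem Rep.exists_inf {ι : Type*} (s : Finset ι) (hs : s.Nonempty) {H : ι → (C →+* ℂ) → ℝ}
    (h : ∀ i ∈ s, Rep A (H i)) :
    ∃ M, Rep A M ∧ (∀ ψ, ∀ i ∈ s, M ψ ≤ H i ψ) ∧ (∀ ψ, ∃ i ∈ s, M ψ = H i ψ) := by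
  obtain ⟨M, hM, h1, h2⟩ := Rep.exists_sup s hs (H := fun i ψ => - H i ψ) (fun i hi => (h i hi).neg)
  refine ⟨fun ψ => - M ψ, hM.neg, fun ψ i hi => ?_, fun ψ => ?_⟩
  · have := h1 ψ i hi; linarith
  · obtain ⟨i, hi, he⟩ := h2 ψ
    exact ⟨i, hi, by simp only [he]; ring⟩

/-- two functions squeezed between each other are simultaneously representable -/
theorem Rep.of_sup {ι : Type*} (s : Finset ι) (hs : s.Nonempty) {H : ι → (C →+* ℂ) → ℝ}
    (h : ∀ i ∈ s, Rep A (H i)) {M : (C →+* ℂ) → ℝ} {q₀ : A} (hq₀ : q₀ ≠ 0) {K : ℝ}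
    (h1 : ∀ ψ : C →+* ℂ, ψ (algebraMap A C q₀) ≠ 0 → ∀ i ∈ s, H i ψ ≤ M ψ + K)
    (h2 : ∀ ψ : C →+* ℂ, ψ (algebraMap A C q₀) ≠ 0 → ∃ i ∈ s, M ψ ≤ H i ψ + K) : Rep A M := by
  obtain ⟨M', hM', e1, e2⟩ := Rep.exists_sup s hs h
  refine hM'.congr hq₀ (K₀ := K) fun ψ hψ => ?_
  obtain ⟨i, hi, he⟩ := e2 ψ
  obtain ⟨j, hj, hle⟩ := h2 ψ hψ
  have a1 := h1 ψ hψ i hi
  have a2 := e1 ψ j hj
  rw [abs_le]
  constructor <;> linarith

theorem Rep.of_inf {ι : Type*} (s : Finset ι) (hs : s.Nonempty) {H : ι → (C →+* ℂ) → ℝ}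
    (h : ∀ i ∈ s, Rep A (H i)) {M : (C →+* ℂ) → ℝ} {q₀ : A} (hq₀ : q₀ ≠ 0) {K : ℝ}
    (h1 : ∀ ψ : C →+* ℂ, ψ (algebraMap A C q₀) ≠ 0 → ∀ i ∈ s, M ψ ≤ H i ψ + K)
    (h2 : ∀ ψ : C →+* ℂ, ψ (algebraMap A C q₀) ≠ 0 → ∃ i ∈ s, H i ψ ≤ M ψ + K) : Rep A M := by
  obtain ⟨M', hM', e1, e2⟩ := Rep.exists_inf s hs h
  refine hM'.congr hq₀ (K₀ := K) fun ψ hψ => ?_
  obtain ⟨i, hi, he⟩ := e2 ψ
  obtain ⟨j, hj, hle⟩ := h2 ψ hψ
  have a1 := h1 ψ hψ i hi
  have a2 := e1 ψ j hj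
  rw [abs_le]
  constructor <;> linarith

end RepSec

end Crest.Agent.R281.TrC_282
end

-- ▼ part R281/TrC3_282

/-!
# R281 / TROP-C, part 3: the abstract (CONJ) statement.
`G` a finite group acting on the domain `C ⊇ A`, invariants = fractions of `A`.
-/

set_option autoImplicit false

open Polynomial

namespace Crest.Agent.R281.TrC_282

open Crest.Agent.R281.TrPL_726

section Conj

set_option linter.unusedSectionVars false

variable {A C : Type*} [CommRing A] [IsDomain A] [CommRing C] [IsDomain C] [Algebra A C]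
  {G : Type*} [Group G] [Fintype G] [MulSemiringAction G C]

/-- every invariant is a fraction of elements of `A` -/
def InvFrac (A C G : Type*) [CommRing A] [CommRing C] [Algebra A C] [Group G]
    [MulSemiringAction G C] : Prop :=
  Function.Injective (algebraMap A C) ∧
  ∀ c : C, (∀ g : G, g • c = c) → ∃ a b : A, b ≠ 0 ∧ algebraMap A C b * c = algebraMap A C a

theorem inv_eval (hI : InvFrac A C G) {c : C} (hc : c ≠ 0) (hinv : ∀ g : G, g • c = c) :
    ∃ a b : A, a ≠ 0 ∧ b ≠ 0 ∧ ∀ ψ : C →+* ℂ, ψ (algebraMap A C (a * b)) ≠ 0 →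
      ψ c ≠ 0 ∧ Real.log ‖ψ c‖ = Real.log ‖ψ (algebraMap A C a)‖ - Real.log ‖ψ (algebraMap A C b)‖ := by
  obtain ⟨a, b, hb, h⟩ := hI.2 c hinv
  have ha : a ≠ 0 := by
    rintro rfl
    rw [map_zero] at h
    rcases mul_eq_zero.mp h with h | h
    · exact hb (hI.1 (by rw [h, map_zero]))
    · exact hc h
  refine ⟨a, b, ha, hb, fun ψ hψ => ?_⟩
  rw [map_mul, map_mul] at hψ
  have ha' := left_ne_zero_of_mul hψ
  have hb' := right_ne_zero_of_mul hψ
  have h' : ψ (algebraMap A C b) * ψ c = ψ (algebraMap A C a) := by rw [← map_mul, h]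
  have hc' : ψ c ≠ 0 := by
    intro h0
    rw [h0, mul_zero] at h'
    exact ha' h'.symm
  refine ⟨hc', ?_⟩
  rw [← h', norm_mul, Real.log_mul (norm_ne_zero_iff.mpr hb') (norm_ne_zero_iff.mpr hc')]
  ring

/-- nonvanishing of all conjugates of `x ≠ 0` off one hypersurface of `A` -/
theorem exists_nonvan (hI : InvFrac A C G) {x : C} (hx : x ≠ 0) :
    ∃ q : A, q ≠ 0 ∧ ∀ ψ : C →+* ℂ, ψ (algebraMap A C q) ≠ 0 → ∀ g : G, ψ (g • x) ≠ 0 := by
  classical
  have hN : (∏ g : G, g • x) ≠ 0 := by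
    rw [Finset.prod_ne_zero_iff]
    intro g _ h
    apply hx
    have := congrArg (fun y => g⁻¹ • y) h
    simpa using this
  have hinv : ∀ g : G, g • (∏ h : G, h • x) = ∏ h : G, h • x := by
    intro g
    exact Finset.smul_prod_perm x g
  obtain ⟨a, b, ha, hb, h⟩ := inv_eval hI hN hinv
  refine ⟨a * b, mul_ne_zero ha hb, fun ψ hψ g => ?_⟩
  have := (h ψ hψ).1
  rw [map_prod, Finset.prod_ne_zero_iff] at this
  exact this g (Finset.mem_univ g)

theorem exists_nonvan_fin (hI : InvFrac A C G) {ι : Type*} [Fintype ι] {x : ι → C} (hx : ∀ i, x i ≠ 0) :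
    ∃ q : A, q ≠ 0 ∧ ∀ ψ : C →+* ℂ, ψ (algebraMap A C q) ≠ 0 → ∀ i, ∀ g : G, ψ (g • x i) ≠ 0 := by
  classical
  choose q hq h using fun i => exists_nonvan hI (hx i)
  refine ⟨∏ i, q i, Finset.prod_ne_zero_iff.mpr (fun i _ => hq i), fun ψ hψ i => ?_⟩
  rw [map_prod, map_prod, Finset.prod_ne_zero_iff] at hψ
  exact h i ψ (hψ i (Finset.mem_univ i))

theorem Rep.inv (hI : InvFrac A C G) {c : C} (hc : c ≠ 0) (hinv : ∀ g : G, g • c = c) :
    Rep A (fun ψ : C →+* ℂ => Real.log ‖ψ c‖) := by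
  obtain ⟨a, b, ha, hb, h⟩ := inv_eval hI hc hinv
  refine ⟨_, (TrL.logabs ha).sub (TrL.logabs hb), a * b, mul_ne_zero ha hb, 0, fun ψ hψ => ?_⟩
  simp only [(h ψ hψ).2, RingHom.comp_apply, sub_self, abs_zero, le_refl]

/-- largest value over the group -/
noncomputable def mx (G : Type*) [Group G] [Fintype G] (f : G → ℝ) : ℝ :=
  Finset.univ.sup' ⟨1, Finset.mem_univ 1⟩ f

omit [Group G] [Fintype G] in
theorem le_mx {G : Type*} [Group G] [Fintype G] (f : G → ℝ) (g : G) : f g ≤ mx G f :=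
  Finset.le_sup' f (Finset.mem_univ g)

omit [Group G] [Fintype G] in
theorem exists_mx {G : Type*} [Group G] [Fintype G] (f : G → ℝ) : ∃ g, mx G f = f g := by
  obtain ⟨g, _, h⟩ := Finset.exists_mem_eq_sup' (s := Finset.univ) ⟨(1:G), Finset.mem_univ 1⟩ f
  exact ⟨g, h⟩

omit [Group G] [Fintype G] in
theorem mx_le {G : Type*} [Group G] [Fintype G] {f : G → ℝ} {c : ℝ} (h : ∀ g, f g ≤ c) : mx G f ≤ c :=
  Finset.sup'_le _ _ (fun g _ => h g)

open MulSemiringAction in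
/-- (P3a) the largest conjugate -/
theorem Rep.conj_one (hI : InvFrac A C G) {y : C} (hy : y ≠ 0) :
    Rep A (fun ψ : C →+* ℂ => mx G (fun g => Real.log ‖ψ (g • y)‖)) := by
  classical
  set P : C[X] := charpoly G y with hP
  set n := Fintype.card G with hn
  have hmap : ∀ ψ : C →+* ℂ, P.map ψ = ∏ g : G, (X - Polynomial.C (ψ (g • y))) := by
    intro ψ
    rw [hP, charpoly_eq, Polynomial.map_prod]
    simp
  obtain ⟨q₀, hq₀, hnv⟩ := exists_nonvan hI hy
  -- invariants coefficients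
  have hcinv : ∀ i, ∀ g : G, g • P.coeff i = P.coeff i := fun i g => smul_coeff_charpoly y i g
  set I := (Finset.range n).filter (fun i => P.coeff i ≠ 0) with hIdef
  have hsel : ∀ i ∈ I, ∃ q : A, q ≠ 0 ∧ ∀ ψ : C →+* ℂ, ψ (algebraMap A C q) ≠ 0 → ψ (P.coeff i) ≠ 0 := by
    intro i hi
    rw [hIdef, Finset.mem_filter] at hi
    obtain ⟨a, b, ha, hb, h⟩ := inv_eval hI hi.2 (hcinv i)
    exact ⟨a * b, mul_ne_zero ha hb, fun ψ hψ => (h ψ hψ).1⟩
  choose! qc hqc hqc' using hsel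
  have hIne : I.Nonempty := by
    refine ⟨0, ?_⟩
    rw [hIdef, Finset.mem_filter, Finset.mem_range]
    refine ⟨Fintype.card_pos, ?_⟩
    rw [coeff_zero_eq_eval_zero, hP, charpoly_eq, eval_prod, Finset.prod_ne_zero_iff]
    intro g _
    simp only [eval_sub, eval_X, eval_C, zero_sub, neg_ne_zero]
    intro h
    apply hy
    have := congrArg (fun y => g⁻¹ • y) h
    simpa using this
  set q₁ : A := q₀ * ∏ i ∈ I, qc i with hq₁
  have hq₁0 : q₁ ≠ 0 := mul_ne_zero hq₀ (Finset.prod_ne_zero_iff.mpr (fun i hi => hqc i hi))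
  refine Rep.of_sup I hIne (H := fun i ψ => ((1 / ((n - i : ℕ) : ℚ) : ℚ) : ℝ) * Real.log ‖ψ (P.coeff i)‖)
    (fun i hi => (Rep.inv hI ?_ (hcinv i)).smul _) (q₀ := q₁) hq₁0 (K := (n:ℝ) + 1) ?_ ?_
  · rw [hIdef, Finset.mem_filter] at hi
    exact hi.2
  · intro ψ hψ i hi
    rw [hq₁, map_mul, map_mul, map_prod, map_prod] at hψ
    have hz := hnv ψ (left_ne_zero_of_mul hψ)
    have hψc : ψ (P.coeff i) ≠ 0 := hqc' i hi ψ
      (Finset.prod_ne_zero_iff.mp (right_ne_zero_of_mul hψ) i hi)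
    obtain ⟨h1, h2⟩ := log_max_root (fun g : G => ψ (g • y)) hz
    have hi' : i < n := by
      rw [hIdef, Finset.mem_filter, Finset.mem_range] at hi
      exact hi.1
    have hco : (∏ g : G, (X - Polynomial.C (ψ (g • y)))).coeff i = ψ (P.coeff i) := by
      rw [← hmap ψ, coeff_map]
    obtain ⟨g, hg⟩ := h1 i hi' (by rw [hco]; exact hψc)
    rw [hco] at hg
    have hm := le_mx (fun g : G => Real.log ‖ψ (g • y)‖) g
    push_cast
    linarith
  · intro ψ hψ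
    rw [hq₁, map_mul, map_mul, map_prod, map_prod] at hψ
    have hz := hnv ψ (left_ne_zero_of_mul hψ)
    obtain ⟨h1, h2⟩ := log_max_root (fun g : G => ψ (g • y)) hz
    obtain ⟨g, hg⟩ := exists_mx (fun g : G => Real.log ‖ψ (g • y)‖)
    obtain ⟨i, hi, hci, hle⟩ := h2 g
    have hco : (∏ g : G, (X - Polynomial.C (ψ (g • y)))).coeff i = ψ (P.coeff i) := by
      rw [← hmap ψ, coeff_map]
    rw [hco] at hci hle
    have hiI : i ∈ I := by
      rw [hIdef, Finset.mem_filter, Finset.mem_range]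
      refine ⟨hi, fun h0 => hci (by rw [h0, map_zero])⟩
    refine ⟨i, hiI, ?_⟩
    rw [hg]
    push_cast
    have hn0 : (0:ℝ) ≤ (n:ℝ) := by positivity
    linarith

end Conj

end Crest.Agent.R281.TrC_282
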