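import Crest.Agent.R281.HkR5_835
import Crest.Agent.R273.YauPf_635
import Mathlib
import Crest.Agent.R281.Tt4_476
import Crest.Agent.R273.SchJ_152

-- ▼ part R281/Yv3_900
section

/-!
# Row 281, YAU-VAR (helper900), part 3: real and complex determinants

* `RM b G`   : the real matrix `Re hb G (b a) (b c)` of a complex matrix in a real basis `b`
* `det_RM`   : `det (RM b G) = |det G|² det (RM b 1)`, `det (RM b 1) ≠ 0`
* `hasDerivAt_det_add` : `d/ds det (G + s V) / det G = tr (G⁻¹ V)` at `s = 0`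
* `hasDerivAt_RM` : the real version
-/

set_option autoImplicit false
set_option linter.unusedSectionVars false

open Set Filter Topology Complex
open scoped ContDiff Matrix ComplexConjugate InnerProductSpace

namespace Crest.Agent.R281.Yv_900

open Crest.Agent.R275.Geo Crest.Agent.R275.Core144 Crest.Agent.R275.EDR890
open Crest.Agent.R281.HkR_835

noncomputable section

variable {n : ℕ} {ι : Type} [Fintype ι] [DecidableEq ι]

/-- the real matrix of a complex matrix in a real basis -/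
def RM (b : Module.Basis ι ℝ (Cn n)) (G : Matrix (Fin n) (Fin n) ℂ) : Matrix ι ι ℝ :=
  Matrix.of fun a c => (hb G (b a) (b c)).re

theorem RM_add (b : Module.Basis ι ℝ (Cn n)) (G H : Matrix (Fin n) (Fin n) ℂ) :
    RM b (G + H) = RM b G + RM b H := by
  ext a c
  simp only [RM, Matrix.of_apply, Matrix.add_apply]
  rw [← Complex.add_re]
  congr 1
  simp only [hb, Matrix.add_apply, add_mul, Finset.sum_add_distrib]

theorem RM_smul (b : Module.Basis ι ℝ (Cn n)) (s : ℝ) (G : Matrix (Fin n) (Fin n) ℂ) :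
    RM b ((s : ℂ) • G) = s • RM b G := by
  ext a c
  simp only [RM, Matrix.of_apply, Matrix.smul_apply, smul_eq_mul]
  rw [← Complex.re_ofReal_mul]
  congr 1
  simp only [hb, Matrix.smul_apply, smul_eq_mul, Finset.mul_sum]
  exact Finset.sum_congr rfl fun a _ => Finset.sum_congr rfl fun b _ => by ring

theorem hb_one_mL (G : Matrix (Fin n) (Fin n) ℂ) (u v : Cn n) : hb 1 (mL Gᵀ u) v = hb G u v := by
  have h1 : ∀ x : Cn n, hb 1 x v = ∑ b, x b * conj (v b) := by
    intro x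
    simp only [hb, Matrix.one_apply]
    refine Finset.sum_congr rfl fun a _ => ?_
    rw [Finset.sum_eq_single a]
    · simp
    · intro b _ hb
      simp [Ne.symm hb]
    · simp
  rw [h1]
  simp only [mL_apply, Matrix.mulVec, dotProduct, Matrix.transpose_apply, hb, Finset.sum_mul]
  rw [Finset.sum_comm]

/-- the real determinant of `mL G` -/
theorem det_mL (G : Matrix (Fin n) (Fin n) ℂ) :
    LinearMap.det (mL G : Cn n →ₗ[ℝ] Cn n) = Complex.normSq G.det := by
  have h1 : (mL G : Cn n →ₗ[ℝ] Cn n) = (Matrix.toEuclideanLin G).restrictScalars ℝ := by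
    ext v
    rfl
  rw [h1, LinearMap.det_restrictScalars, Algebra.norm_complex_apply]
  congr 1
  rw [Matrix.toEuclideanLin_eq_toLin]
  exact LinearMap.det_toLin _ _

theorem RM_eq (b : Module.Basis ι ℝ (Cn n)) (G : Matrix (Fin n) (Fin n) ℂ) :
    RM b G = (LinearMap.toMatrix b b (mL Gᵀ : Cn n →ₗ[ℝ] Cn n))ᵀ * RM b 1 := by
  ext a c
  rw [Matrix.mul_apply]
  simp only [RM, Matrix.of_apply, Matrix.transpose_apply, LinearMap.toMatrix_apply]
  rw [← hb_one_mL]
  have h2 : mL Gᵀ (b a) = ∑ e, b.repr (mL Gᵀ (b a)) e • b e := (b.sum_repr _).symm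
  have h3 : ∀ x : Cn n, (hb 1 x (b c)).re = (innerSL ℝ (b c)) x := by
    intro x
    show _ = ⟪b c, x⟫_ℝ
    rw [PiLp.inner_apply]
    simp only [hb, Matrix.one_apply]
    rw [Complex.re_sum]
    refine Finset.sum_congr rfl fun a _ => ?_
    rw [Finset.sum_eq_single a]
    · rw [Complex.inner]
      simp [mul_comm]
    · intro b _ hb
      simp [Ne.symm hb]
    · simp
  rw [h3]
  conv_lhs => rw [h2]
  rw [map_sum]
  refine Finset.sum_congr rfl fun e _ => ?_
  rw [map_smul, ← h3]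
  rfl

theorem det_RM (b : Module.Basis ι ℝ (Cn n)) (G : Matrix (Fin n) (Fin n) ℂ) :
    (RM b G).det = Complex.normSq G.det * (RM b 1).det := by
  rw [RM_eq, Matrix.det_mul, Matrix.det_transpose, LinearMap.det_toMatrix, det_mL,
    Matrix.det_transpose]

theorem det_RM_one_ne (b : Module.Basis ι ℝ (Cn n)) : (RM b (1 : Matrix (Fin n) (Fin n) ℂ)).det ≠ 0 := by
  intro h
  obtain ⟨v, hv, h2⟩ := Matrix.exists_mulVec_eq_zero_iff.2 h
  set x : Cn n := ∑ e, v e • b e with hx
  have h3 : ∀ a, (hb 1 (b a) x).re = 0 := by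
    intro a
    have := congrFun h2 a
    simp only [Matrix.mulVec, dotProduct, RM, Matrix.of_apply, Pi.zero_apply] at this
    rw [← this, hx]
    have h4 : ∀ y : Cn n, (hb 1 (b a) y).re = (innerSL ℝ (b a)) y := by
      intro y
      show _ = ⟪b a, y⟫_ℝ
      rw [PiLp.inner_apply]
      simp only [hb, Matrix.one_apply]
      rw [Complex.re_sum]
      refine Finset.sum_congr rfl fun a _ => ?_
      rw [Finset.sum_eq_single a]
      · rw [Complex.inner]
        simp
        try ring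
      · intro b _ hb
        simp [Ne.symm hb]
      · simp
    rw [h4, map_sum]
    refine Finset.sum_congr rfl fun e _ => ?_
    rw [map_smul, ← h4, smul_eq_mul, mul_comm]
  have h5 : ∀ y : Cn n, ⟪y, x⟫_ℝ = 0 := by
    intro y
    rw [← b.sum_repr y, sum_inner]
    refine Finset.sum_eq_zero fun e _ => ?_
    rw [real_inner_smul_left]
    have h6 : ⟪b e, x⟫_ℝ = (hb 1 (b e) x).re := by
      rw [PiLp.inner_apply]
      simp only [hb, Matrix.one_apply]
      rw [Complex.re_sum]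
      refine Finset.sum_congr rfl fun a _ => ?_
      rw [Finset.sum_eq_single a]
      · rw [Complex.inner]
        simp
        try ring
      · intro b _ hb
        simp [Ne.symm hb]
      · simp
    rw [h6, h3, mul_zero]
  have h7 : x = 0 := inner_self_eq_zero.1 (h5 x)
  apply hv
  have h8 : ∀ e, v e = 0 := by
    have := Fintype.linearIndependent_iff.1 b.linearIndependent v (by rw [← hx]; exact h7)
    exact this
  funext e
  exact h8 e

/-- derivative of `det (1 + s N)` -/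
theorem hasDerivAt_det_one_add {m : Type} [Fintype m] [DecidableEq m] (N : Matrix m m ℂ) :
    HasDerivAt (fun s : ℝ => (1 + (s : ℂ) • N).det) N.trace 0 := by
  have h1 : ∀ s : ℝ, (1 + (s : ℂ) • N).det =
      1 + N.trace * s + (Polynomial.eval (s : ℂ)
        (Matrix.det (1 + (Polynomial.X : Polynomial ℂ) • N.map Polynomial.C)).divX.divX) * (s : ℂ) ^ 2 :=
    fun s => Matrix.det_one_add_smul _ _
  set q := (Matrix.det (1 + (Polynomial.X : Polynomial ℂ) • N.map Polynomial.C)).divX.divX with hq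
  have h2 : HasDerivAt (fun s : ℝ => (1 : ℂ) + N.trace * s + (Polynomial.eval (s : ℂ) q) *
      (s : ℂ) ^ 2) (N.trace) 0 := by
    have e1 : HasDerivAt (fun s : ℝ => (s : ℂ)) 1 0 := Complex.ofRealCLM.hasDerivAt
    have e2 : HasDerivAt (fun s : ℝ => (1 : ℂ) + N.trace * s) (N.trace * 1) 0 :=
      (e1.const_mul _).const_add 1
    have e3 : HasDerivAt (fun s : ℝ => Polynomial.eval (s : ℂ) q)
        (Polynomial.eval ((0 : ℝ) : ℂ) q.derivative * 1) 0 :=
      (q.hasDerivAt ((0 : ℝ) : ℂ)).comp_of_eq (0 : ℝ) e1 rfl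
    have e4 := e2.add (e3.mul (e1.pow 2))
    refine e4.congr_deriv ?_
    simp
  exact h2.congr_of_eventuallyEq (Eventually.of_forall h1)

theorem hasDerivAt_det_add {m : Type} [Fintype m] [DecidableEq m] {G : Matrix m m ℂ}
    (hG : G.det ≠ 0) (V : Matrix m m ℂ) :
    HasDerivAt (fun s : ℝ => (G + (s : ℂ) • V).det / G.det) (G⁻¹ * V).trace 0 := by
  have h1 : ∀ s : ℝ, (G + (s : ℂ) • V).det / G.det = (1 + (s : ℂ) • (G⁻¹ * V)).det := by
    intro s
    rw [Crest.Agent.R273.YauPf_635.det_add_ratio hG, Matrix.mul_smul]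
  exact (hasDerivAt_det_one_add (G⁻¹ * V)).congr_of_eventuallyEq (Eventually.of_forall h1)

/-- derivative of the ratio of the real determinants -/
theorem hasDerivAt_RM (b : Module.Basis ι ℝ (Cn n)) {G : Matrix (Fin n) (Fin n) ℂ}
    (hG : G.det ≠ 0) (V : Matrix (Fin n) (Fin n) ℂ) :
    HasDerivAt (fun s : ℝ => (RM b G + s • RM b V).det / (RM b G).det)
      (2 * ((G⁻¹ * V).trace).re) 0 := by
  have h1 : ∀ s : ℝ, (RM b G + s • RM b V).det / (RM b G).det =
      Complex.normSq ((G + (s : ℂ) • V).det / G.det) := by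
    intro s
    rw [← RM_smul, ← RM_add, det_RM, det_RM b G, map_div₀, mul_div_mul_right _ _ (det_RM_one_ne b)]
  have h2 := hasDerivAt_det_add hG V
  have h3 : HasDerivAt (fun s : ℝ => Complex.normSq ((G + (s : ℂ) • V).det / G.det))
      (2 * ((G⁻¹ * V).trace).re) 0 := by
    have er : HasDerivAt (fun s : ℝ => ((G + (s : ℂ) • V).det / G.det).re) (G⁻¹ * V).trace.re 0 :=
      Complex.reCLM.hasFDerivAt.comp_hasDerivAt (0 : ℝ) h2
    have ei : HasDerivAt (fun s : ℝ => ((G + (s : ℂ) • V).det / G.det).im) (G⁻¹ * V).trace.im 0 :=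
      Complex.imCLM.hasFDerivAt.comp_hasDerivAt (0 : ℝ) h2
    have e5 := (er.mul er).add (ei.mul ei)
    have e6 : (G + ((0 : ℝ) : ℂ) • V).det / G.det = 1 := by
      simp [div_self hG]
    rw [e6] at e5
    refine e5.congr_deriv ?_
    simp
    ring
  exact h3.congr_of_eventuallyEq (Eventually.of_forall h1)

end

end Crest.Agent.R281.Yv_900
end

-- ▼ part R281/Hjs1_680
section

/-!
# Row 281, YAU-VAR (helper680), part 1: the Banach space of Hölder functions on a set

* `HF a K F`      : bounded `a`-Hölder functions on `K` with values in `F` (a Banach space)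
* `HF.fn`, `HF.of`: the function of an element, the element of a function (`0` if not Hölder)
* `HF.norm_le`, `HF.map`, `HF.bil`, `HF.mlin`, `HF.theta`
-/

set_option autoImplicit false

open Set Filter Topology BoundedContinuousFunction
open scoped ContDiff

namespace Crest.Agent.R281.Hjs_680

noncomputable section

/-- the (discrete) index type -/
inductive Ix {E : Type} (K : Set E) : Type
  | pt (x : K) : Ix K
  | pr (x y : K) : Ix K

instance {E : Type} (K : Set E) : TopologicalSpace (Ix K) := ⊥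
instance {E : Type} (K : Set E) : DiscreteTopology (Ix K) := ⟨rfl⟩

variable {E : Type} [NormedAddCommGroup E]
variable {F G H : Type} [NormedAddCommGroup F] [NormedSpace ℝ F]
  [NormedAddCommGroup G] [NormedSpace ℝ G] [NormedAddCommGroup H] [NormedSpace ℝ H]

/-- bounded Hölder functions -/
def HF (a : ℝ) (K : Set E) (F : Type) [NormedAddCommGroup F] [NormedSpace ℝ F] :
    Submodule ℝ (Ix K →ᵇ F) where
  carrier := {g | ∀ x y : K, g (Ix.pr x y) =
    (‖(x : E) - y‖ ^ a)⁻¹ • (g (Ix.pt x) - g (Ix.pt y))}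
  add_mem' := by
    intro f g hf hg x y
    have h1 := hf x y
    have h2 := hg x y
    rw [BoundedContinuousFunction.add_apply, BoundedContinuousFunction.add_apply,
      BoundedContinuousFunction.add_apply, h1, h2, ← smul_add]
    congr 1
    abel
  zero_mem' := by
    intro x y
    simp
  smul_mem' := by
    intro c f hf x y
    have h1 := hf x y
    rw [BoundedContinuousFunction.smul_apply, BoundedContinuousFunction.smul_apply,
      BoundedContinuousFunction.smul_apply, h1, ← smul_sub, smul_comm]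

theorem HF.isClosed (a : ℝ) (K : Set E) : IsClosed (HF a K F : Set (Ix K →ᵇ F)) := by
  have : (HF a K F : Set (Ix K →ᵇ F)) = ⋂ x : K, ⋂ y : K, {g : Ix K →ᵇ F |
      g (Ix.pr x y) =
        (‖(x : E) - y‖ ^ a)⁻¹ • (g (Ix.pt x) - g (Ix.pt y))} := by
    ext g
    simp [HF]
  rw [this]
  refine isClosed_iInter fun x => isClosed_iInter fun y => isClosed_eq ?_ ?_
  · exact continuous_eval_const _
  · exact ((continuous_eval_const _).sub (continuous_eval_const _)).const_smul _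

instance instNACGHF (a : ℝ) (K : Set E) : NormedAddCommGroup (HF a K F) :=
  Submodule.normedAddCommGroup (HF a K F)

instance instNSHF (a : ℝ) (K : Set E) : NormedSpace ℝ (HF a K F) :=
  Submodule.normedSpace (HF a K F)

instance instModHF (a : ℝ) (K : Set E) : Module ℝ (HF a K F) := Submodule.module (HF a K F)

instance instSMulHF (a : ℝ) (K : Set E) : SMul ℝ (HF a K F) := Submodule.smul (HF a K F)

instance (a : ℝ) (K : Set E) [CompleteSpace F] : CompleteSpace (HF a K F) :=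
  (HF.isClosed a K).completeSpace_coe

variable {a : ℝ} {K : Set E}

open Classical in
/-- the function of an element -/
def HF.fn (g : HF a K F) (x : E) : F := if h : x ∈ K then g.1 (Ix.pt ⟨x, h⟩) else 0

theorem HF.fn_of_mem (g : HF a K F) {x : E} (h : x ∈ K) :
    HF.fn g x = g.1 (Ix.pt ⟨x, h⟩) := dif_pos h

theorem HF.norm_fn (g : HF a K F) (x : E) : ‖HF.fn g x‖ ≤ ‖g‖ := by
  by_cases h : x ∈ K
  · rw [HF.fn_of_mem g h]
    exact BoundedContinuousFunction.norm_coe_le_norm g.1 _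
  · rw [HF.fn, dif_neg h]
    simp

theorem HF.norm_fn_sub (ha : 0 < a) (g : HF a K F) {x y : E} (hx : x ∈ K) (hy : y ∈ K) :
    ‖HF.fn g x - HF.fn g y‖ ≤ ‖g‖ * ‖x - y‖ ^ a := by
  by_cases hxy : x = y
  · subst hxy
    simp [Real.zero_rpow ha.ne']
  have h0 : 0 < ‖x - y‖ ^ a := Real.rpow_pos_of_pos (norm_pos_iff.2 (sub_ne_zero.2 hxy)) _
  have h1 := g.2 ⟨x, hx⟩ ⟨y, hy⟩
  have h2 : ‖g.1 (Ix.pr ⟨x, hx⟩ ⟨y, hy⟩)‖ ≤ ‖g‖ :=
    BoundedContinuousFunction.norm_coe_le_norm g.1 _
  rw [h1, norm_smul, norm_inv, Real.norm_eq_abs, abs_of_pos h0] at h2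
  rw [HF.fn_of_mem g hx, HF.fn_of_mem g hy]
  rw [inv_mul_le_iff₀ h0] at h2
  linarith

theorem HF.ext {g h : HF a K F} (hgh : ∀ x ∈ K, HF.fn g x = HF.fn h x) : g = h := by
  have h1 : ∀ x : K, g.1 (Ix.pt x) = h.1 (Ix.pt x) := fun x => by
    have := hgh x x.2
    rwa [HF.fn_of_mem g x.2, HF.fn_of_mem h x.2] at this
  apply Subtype.ext
  ext q
  rcases q with x | ⟨x, y⟩
  · exact h1 x
  · exact (g.2 x y).trans (by rw [h1 x, h1 y]; exact (h.2 x y).symm)

theorem HF.norm_le {g : HF a K F} {C : ℝ} (hC : 0 ≤ C) (h0 : ∀ x ∈ K, ‖HF.fn g x‖ ≤ C)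
    (h1 : ∀ x ∈ K, ∀ y ∈ K, ‖HF.fn g x - HF.fn g y‖ ≤ C * ‖x - y‖ ^ a) : ‖g‖ ≤ C := by
  refine (BoundedContinuousFunction.norm_le hC).2 fun q => ?_
  rcases q with x | ⟨x, y⟩
  · have := h0 x x.2
    rwa [HF.fn_of_mem g x.2] at this
  · have h2 := h1 x x.2 y y.2
    rw [HF.fn_of_mem g x.2, HF.fn_of_mem g y.2] at h2
    have h3 : g.1 (Ix.pr x y) = _ := g.2 x y
    show ‖g.1 (Ix.pr x y)‖ ≤ C
    rw [h3, norm_smul, norm_inv, Real.norm_eq_abs, abs_of_nonneg (by positivity)]
    rcases eq_or_lt_of_le (show 0 ≤ ‖(x : E) - y‖ ^ a by positivity) with h0 | h0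
    · rw [← h0]
      simpa using hC
    · rw [inv_mul_le_iff₀ h0]
      simpa [mul_comm] using h2

@[simp] theorem HF.fn_add (g h : HF a K F) (x : E) : HF.fn (g + h) x = HF.fn g x + HF.fn h x := by
  by_cases hx : x ∈ K
  · simp [HF.fn_of_mem _ hx]
  · simp [HF.fn, hx]

@[simp] theorem HF.fn_sub (g h : HF a K F) (x : E) : HF.fn (g - h) x = HF.fn g x - HF.fn h x := by
  by_cases hx : x ∈ K
  · simp [HF.fn_of_mem _ hx]
  · simp [HF.fn, hx]

@[simp] theorem HF.fn_smul (c : ℝ) (g : HF a K F) (x : E) : HF.fn (c • g) x = c • HF.fn g x := by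
  by_cases hx : x ∈ K
  · simp [HF.fn_of_mem _ hx]
  · simp [HF.fn, hx]

@[simp] theorem HF.fn_zero (x : E) : HF.fn (0 : HF a K F) x = 0 := by
  by_cases hx : x ∈ K
  · simp [HF.fn_of_mem _ hx]
  · simp [HF.fn, hx]

/-- bounds of a function -/
structure Bd (a : ℝ) (K : Set E) (f : E → F) (C : ℝ) : Prop where
  nn : 0 ≤ C
  bd : ∀ x ∈ K, ‖f x‖ ≤ C
  hol : ∀ x ∈ K, ∀ y ∈ K, ‖f x - f y‖ ≤ C * ‖x - y‖ ^ a

/-- the element of a function with bounds -/
def HF.mk {f : E → F} {C : ℝ} (h : Bd a K f C) : HF a K F :=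
  ⟨BoundedContinuousFunction.ofNormedAddCommGroupDiscrete
    (fun q : Ix K => match q with
      | Ix.pt x => f x
      | Ix.pr x y => (‖(x : E) - y‖ ^ a)⁻¹ • (f x - f y)) C (by
      intro q
      rcases q with x | ⟨x, y⟩
      · exact h.bd x x.2
      · show ‖(‖(x : E) - y‖ ^ a)⁻¹ • (f x - f y)‖ ≤ C
        rw [norm_smul, norm_inv, Real.norm_eq_abs, abs_of_nonneg (by positivity)]
        rcases eq_or_lt_of_le (show 0 ≤ ‖(x : E) - y‖ ^ a by positivity) with h0 | h0
        · rw [← h0]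
          simpa using h.nn
        · rw [inv_mul_le_iff₀ h0]
          simpa [mul_comm] using h.hol x x.2 y y.2), fun _ _ => rfl⟩

theorem HF.fn_mk {f : E → F} {C : ℝ} (h : Bd a K f C) {x : E} (hx : x ∈ K) :
    HF.fn (HF.mk h) x = f x := by
  rw [HF.fn_of_mem _ hx]
  rfl

open Classical in
/-- the element of a function (`0` if the function is not Hölder) -/
def HF.of (a : ℝ) (K : Set E) (f : E → F) : HF a K F :=
  if h : ∃ C, Bd a K f C then HF.mk h.choose_spec else 0

theorem HF.fn_of {f : E → F} {C : ℝ} (h : Bd a K f C) {x : E} (hx : x ∈ K) :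
    HF.fn (HF.of a K f) x = f x := by
  have h' : ∃ C, Bd a K f C := ⟨C, h⟩
  rw [HF.of, dif_pos h']
  exact HF.fn_mk _ hx

theorem HF.norm_of {f : E → F} {C : ℝ} (h : Bd a K f C) : ‖HF.of a K f‖ ≤ C :=
  HF.norm_le h.nn (fun x hx => by rw [HF.fn_of h hx]; exact h.bd x hx)
    (fun x hx y hy => by rw [HF.fn_of h hx, HF.fn_of h hy]; exact h.hol x hx y hy)

theorem HF.bd (ha : 0 < a) (g : HF a K F) : Bd a K (HF.fn g) ‖g‖ :=
  ⟨norm_nonneg _, fun x _ => HF.norm_fn g x, fun _ hx _ hy => HF.norm_fn_sub ha g hx hy⟩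


theorem HF.eq_of {g : HF a K F} {f : E → F} {C : ℝ} (h : Bd a K f C)
    (hg : ∀ x ∈ K, HF.fn g x = f x) : g = HF.of a K f :=
  HF.ext fun x hx => by rw [HF.fn_of h hx, hg x hx]

theorem Bd.mono {f : E → F} {C C' : ℝ} (h : Bd a K f C) (hC : C ≤ C') : Bd a K f C' :=
  ⟨h.nn.trans hC, fun x hx => (h.bd x hx).trans hC, fun x hx y hy =>
    (h.hol x hx y hy).trans (mul_le_mul_of_nonneg_right hC (by positivity))⟩

theorem Bd.add {f g : E → F} {C C' : ℝ} (h : Bd a K f C) (h' : Bd a K g C') :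
    Bd a K (fun x => f x + g x) (C + C') :=
  ⟨add_nonneg h.nn h'.nn, fun x hx => (norm_add_le _ _).trans (add_le_add (h.bd x hx) (h'.bd x hx)),
    fun x hx y hy => by
      have : f x + g x - (f y + g y) = (f x - f y) + (g x - g y) := by abel
      rw [this, add_mul]
      exact (norm_add_le _ _).trans (add_le_add (h.hol x hx y hy) (h'.hol x hx y hy))⟩

theorem Bd.sub {f g : E → F} {C C' : ℝ} (h : Bd a K f C) (h' : Bd a K g C') :
    Bd a K (fun x => f x - g x) (C + C') :=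
  ⟨add_nonneg h.nn h'.nn, fun x hx => (norm_sub_le _ _).trans (add_le_add (h.bd x hx) (h'.bd x hx)),
    fun x hx y hy => by
      have : f x - g x - (f y - g y) = (f x - f y) - (g x - g y) := by abel
      rw [this, add_mul]
      exact (norm_sub_le _ _).trans (add_le_add (h.hol x hx y hy) (h'.hol x hx y hy))⟩

theorem Bd.congr {f g : E → F} {C : ℝ} (h : Bd a K f C) (hfg : ∀ x ∈ K, g x = f x) :
    Bd a K g C :=
  ⟨h.nn, fun x hx => by rw [hfg x hx]; exact h.bd x hx, fun x hx y hy => by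
    rw [hfg x hx, hfg y hy]; exact h.hol x hx y hy⟩


/-- bounded bilinear product -/
theorem Bd.bil {f : E → F} {g : E → G} {C C' : ℝ} (h : Bd a K f C) (h' : Bd a K g C')
    (B : F →L[ℝ] G →L[ℝ] H) : Bd a K (fun x => B (f x) (g x)) (2 * ‖B‖ * C * C') := by
  have hC := h.nn
  have hC' := h'.nn
  have hB := norm_nonneg B
  have hp : 0 ≤ ‖B‖ * C * C' := by positivity
  refine ⟨by positivity, fun x hx => ?_, fun x hx y hy => ?_⟩
  · calc ‖B (f x) (g x)‖ ≤ ‖B‖ * ‖f x‖ * ‖g x‖ := B.le_opNorm₂ _ _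
      _ ≤ ‖B‖ * C * C' := by
        gcongr
        · exact h.bd x hx
        · exact h'.bd x hx
      _ ≤ 2 * ‖B‖ * C * C' := by linarith
  · have : B (f x) (g x) - B (f y) (g y) = B (f x - f y) (g x) + B (f y) (g x - g y) := by
      simp
    rw [this]
    have e1 : ‖B (f x - f y) (g x)‖ ≤ ‖B‖ * (C * ‖x - y‖ ^ a) * C' := by
      refine (B.le_opNorm₂ _ _).trans ?_
      gcongr
      · exact h.hol x hx y hy
      · exact h'.bd x hx
    have e2 : ‖B (f y) (g x - g y)‖ ≤ ‖B‖ * C * (C' * ‖x - y‖ ^ a) := by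
      refine (B.le_opNorm₂ _ _).trans ?_
      gcongr
      · exact h.bd y hy
      · exact h'.hol x hx y hy
    calc _ ≤ _ := norm_add_le _ _
      _ ≤ ‖B‖ * (C * ‖x - y‖ ^ a) * C' + ‖B‖ * C * (C' * ‖x - y‖ ^ a) := add_le_add e1 e2
      _ = 2 * ‖B‖ * C * C' * ‖x - y‖ ^ a := by ring

theorem Bd.map {f : E → F} {C : ℝ} (h : Bd a K f C) (L : F →L[ℝ] G) :
    Bd a K (fun x => L (f x)) (‖L‖ * C) := by
  have hC := h.nn
  refine ⟨by positivity, fun x hx => (L.le_opNorm _).trans (by gcongr; exact h.bd x hx),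
    fun x hx y hy => ?_⟩
  rw [← map_sub, mul_assoc]
  exact (L.le_opNorm _).trans (by gcongr; exact h.hol x hx y hy)

/-- composition with a continuous linear map -/
def HF.map (ha : 0 < a) (L : F →L[ℝ] G) : HF a K F →L[ℝ] HF a K G :=
  LinearMap.mkContinuous
    { toFun := fun g => HF.of a K (fun x => L (HF.fn g x))
      map_add' := fun g h => by
        refine (HF.eq_of ((HF.bd ha (g + h)).map L) fun x hx => ?_).symm
        rw [HF.fn_add, HF.fn_of ((HF.bd ha g).map L) hx, HF.fn_of ((HF.bd ha h).map L) hx]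
        simp
      map_smul' := fun c g => by
        refine (HF.eq_of ((HF.bd ha (c • g)).map L) fun x hx => ?_).symm
        rw [RingHom.id_apply, HF.fn_smul, HF.fn_of ((HF.bd ha g).map L) hx]
        simp } ‖L‖ (fun g => HF.norm_of ((HF.bd ha g).map L))

@[simp] theorem HF.fn_map (ha : 0 < a) (L : F →L[ℝ] G) (g : HF a K F) {x : E} (hx : x ∈ K) :
    HF.fn (HF.map ha L g) x = L (HF.fn g x) :=
  HF.fn_of ((HF.bd ha g).map L) hx

/-- pointwise bilinear product -/
def HF.bil (ha : 0 < a) (B : F →L[ℝ] G →L[ℝ] H) : HF a K F →L[ℝ] HF a K G →L[ℝ] HF a K H :=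
  LinearMap.mkContinuous₂
    (LinearMap.mk₂ ℝ (fun (f : HF a K F) (g : HF a K G) =>
        HF.of a K (fun x => B (HF.fn f x) (HF.fn g x)))
      (fun f f' g => by
        refine (HF.eq_of ((HF.bd ha (f + f')).bil (HF.bd ha g) B) fun x hx => ?_).symm
        rw [HF.fn_add, HF.fn_of ((HF.bd ha f).bil (HF.bd ha g) B) hx,
          HF.fn_of ((HF.bd ha f').bil (HF.bd ha g) B) hx]
        simp)
      (fun c f g => by
        refine (HF.eq_of ((HF.bd ha (c • f)).bil (HF.bd ha g) B) fun x hx => ?_).symm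
        rw [HF.fn_smul, HF.fn_of ((HF.bd ha f).bil (HF.bd ha g) B) hx]
        simp)
      (fun f g g' => by
        refine (HF.eq_of ((HF.bd ha f).bil (HF.bd ha (g + g')) B) fun x hx => ?_).symm
        rw [HF.fn_add, HF.fn_of ((HF.bd ha f).bil (HF.bd ha g) B) hx,
          HF.fn_of ((HF.bd ha f).bil (HF.bd ha g') B) hx]
        simp)
      (fun c f g => by
        refine (HF.eq_of ((HF.bd ha f).bil (HF.bd ha (c • g)) B) fun x hx => ?_).symm
        rw [HF.fn_smul, HF.fn_of ((HF.bd ha f).bil (HF.bd ha g) B) hx]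
        simp)) (2 * ‖B‖)
    (fun f g => HF.norm_of ((HF.bd ha f).bil (HF.bd ha g) B))

@[simp] theorem HF.fn_bil (ha : 0 < a) (B : F →L[ℝ] G →L[ℝ] H) (f : HF a K F) (g : HF a K G)
    {x : E} (hx : x ∈ K) : HF.fn (HF.bil ha B f g) x = B (HF.fn f x) (HF.fn g x) :=
  HF.fn_of ((HF.bd ha f).bil (HF.bd ha g) B) hx

/-- evaluation -/
def HF.ev (ha : 0 < a) (x : E) : HF a K F →L[ℝ] F :=
  LinearMap.mkContinuous
    { toFun := fun g => HF.fn g x
      map_add' := fun g h => HF.fn_add g h x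
      map_smul' := fun c g => HF.fn_smul c g x } 1
    (fun g => by rw [one_mul]; exact HF.norm_fn g x)

@[simp] theorem HF.ev_apply (ha : 0 < a) (x : E) (g : HF a K F) : HF.ev ha x g = HF.fn g x := rfl

/-- linear maps with values functions: `HF (P →L F) → (P →L HF F)` -/
def HF.theta (ha : 0 < a) (P : Type) [NormedAddCommGroup P] [NormedSpace ℝ P] :
    HF a K (P →L[ℝ] F) →L[ℝ] P →L[ℝ] HF a K F :=
  ((HF.bil ha (ContinuousLinearMap.id ℝ (P →L[ℝ] F))).flip.comp
    (LinearMap.mkContinuous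
      { toFun := fun v : P => (HF.of a K (fun _ => v) : HF a K P)
        map_add' := fun v w => by
          have hv : ∀ v : P, Bd a K (fun _ : E => v) ‖v‖ := fun v =>
            ⟨norm_nonneg _, fun _ _ => le_rfl, fun x _ y _ => by simp; positivity⟩
          refine (HF.eq_of (hv _) fun x hx => ?_).symm
          rw [HF.fn_add, HF.fn_of (hv v) hx, HF.fn_of (hv w) hx]
        map_smul' := fun c v => by
          have hv : ∀ v : P, Bd a K (fun _ : E => v) ‖v‖ := fun v =>
            ⟨norm_nonneg _, fun _ _ => le_rfl, fun x _ y _ => by simp; positivity⟩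
          refine (HF.eq_of (hv _) fun x hx => ?_).symm
          rw [RingHom.id_apply, HF.fn_smul, HF.fn_of (hv v) hx] } 1
      (fun v => by
        have hv : ∀ v : P, Bd a K (fun _ : E => v) ‖v‖ := fun v =>
            ⟨norm_nonneg _, fun _ _ => le_rfl, fun x _ y _ => by simp; positivity⟩
        rw [one_mul]
        exact HF.norm_of (hv v)))).flip

theorem HF.fn_theta (ha : 0 < a) (P : Type) [NormedAddCommGroup P] [NormedSpace ℝ P]
    (g : HF a K (P →L[ℝ] F)) (v : P) {x : E} (hx : x ∈ K) :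
    HF.fn (HF.theta ha P g v) x = HF.fn g x v := by
  have hv : Bd a K (fun _ : E => v) ‖v‖ :=
    ⟨norm_nonneg _, fun _ _ => le_rfl, fun x _ y _ => by simp; positivity⟩
  show HF.fn (HF.bil ha (ContinuousLinearMap.id ℝ (P →L[ℝ] F)) g (HF.of a K (fun _ => v))) x = _
  rw [HF.fn_bil ha _ _ _ hx, HF.fn_of hv hx]
  rfl

end

end Crest.Agent.R281.Hjs_680
end

-- ▼ part R281/Hjs2_680
section

/-!
# Row 281, YAU-VAR (helper680), part 2: jointly smooth functions as smooth families of Hölder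
functions

* `Bd.of_lip`      : Lipschitz functions on a bounded set are Hölder
* `contDiffOn_of`  : `a` jointly smooth on `O ×ˢ U`, `K ⊆ U` compact convex: `p ↦ a(p, ·)` is
  smooth on `O` with values in `HF α K F`
-/

set_option autoImplicit false
set_option linter.unusedSectionVars false

open Set Filter Topology
open scoped ContDiff

namespace Crest.Agent.R281.Hjs_680

noncomputable section

variable {E : Type} [NormedAddCommGroup E] [NormedSpace ℝ E]
variable {F G H : Type} [NormedAddCommGroup F] [NormedSpace ℝ F]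
  [NormedAddCommGroup G] [NormedSpace ℝ G] [NormedAddCommGroup H] [NormedSpace ℝ H]
variable {P : Type} [NormedAddCommGroup P] [NormedSpace ℝ P]
variable {α : ℝ} {K : Set E}

/-- Lipschitz functions on a set of diameter `≤ D` are Hölder -/
theorem Bd.of_lip (hα : 0 < α) (hα1 : α ≤ 1) {f : E → F} {C₀ C₁ D : ℝ} (hC₀ : 0 ≤ C₀)
    (hC₁ : 0 ≤ C₁) (hD : 1 ≤ D) (hK : ∀ x ∈ K, ∀ y ∈ K, ‖x - y‖ ≤ D)
    (h0 : ∀ x ∈ K, ‖f x‖ ≤ C₀) (h1 : ∀ x ∈ K, ∀ y ∈ K, ‖f x - f y‖ ≤ C₁ * ‖x - y‖) :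
    Bd α K f (C₀ + C₁ * D) := by
  have hD0 : 0 < D := by linarith
  refine ⟨by positivity, fun x hx => (h0 x hx).trans (by nlinarith), fun x hx y hy => ?_⟩
  have hn := norm_nonneg (x - y)
  have key : ‖x - y‖ ≤ D * ‖x - y‖ ^ α := by
    rcases eq_or_lt_of_le hn with h | h
    · rw [← h, Real.zero_rpow hα.ne']
      simp
    · have e1 : ‖x - y‖ = ‖x - y‖ ^ (1 - α) * ‖x - y‖ ^ α := by
        rw [← Real.rpow_add h]
        simp
      have e2 : ‖x - y‖ ^ (1 - α) ≤ D := by
        calc ‖x - y‖ ^ (1 - α) ≤ D ^ (1 - α) :=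
              Real.rpow_le_rpow h.le (hK x hx y hy) (by linarith)
          _ ≤ D ^ (1 : ℝ) := Real.rpow_le_rpow_of_exponent_le hD (by linarith)
          _ = D := Real.rpow_one D
      calc ‖x - y‖ = ‖x - y‖ ^ (1 - α) * ‖x - y‖ ^ α := e1
        _ ≤ D * ‖x - y‖ ^ α := mul_le_mul_of_nonneg_right e2 (by positivity)
  have hp : 0 ≤ ‖x - y‖ ^ α := by positivity
  calc ‖f x - f y‖ ≤ C₁ * ‖x - y‖ := h1 x hx y hy
    _ ≤ C₁ * (D * ‖x - y‖ ^ α) := mul_le_mul_of_nonneg_left key hC₁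
    _ ≤ (C₀ + C₁ * D) * ‖x - y‖ ^ α := by nlinarith [mul_nonneg hC₀ hp]

theorem exists_diam (hK : IsCompact K) : ∃ D : ℝ, 1 ≤ D ∧ ∀ x ∈ K, ∀ y ∈ K, ‖x - y‖ ≤ D := by
  obtain ⟨D, hD⟩ := (Metric.isBounded_iff.1 hK.isBounded)
  exact ⟨max D 1, le_max_right _ _, fun x hx y hy => by
    rw [← dist_eq_norm]
    exact (hD hx hy).trans (le_max_left _ _)⟩

/-- `C¹` functions near a compact convex set are Hölder on it -/
theorem exists_bd (hα : 0 < α) (hα1 : α ≤ 1) (hK : IsCompact K) (hKc : Convex ℝ K) {U : Set E}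
    (hU : IsOpen U) (hKU : K ⊆ U) {f : E → F} (hf : ContDiffOn ℝ 1 f U) :
    ∃ C, Bd α K f C := by
  obtain ⟨D, hD, hDK⟩ := exists_diam hK
  obtain ⟨C₀, hC₀⟩ := hK.exists_bound_of_continuousOn (hf.continuousOn.mono hKU)
  obtain ⟨C₁, hC₁⟩ := hK.exists_bound_of_continuousOn
    ((hf.continuousOn_fderiv_of_isOpen hU le_rfl).mono hKU)
  refine ⟨_, Bd.of_lip hα hα1 (C₀ := max C₀ 0) (C₁ := max C₁ 0) (le_max_right _ _)
    (le_max_right _ _) hD hDK (fun x hx => (hC₀ x hx).trans (le_max_left _ _)) ?_⟩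
  intro x hx y hy
  exact hKc.norm_image_sub_le_of_norm_hasFDerivWithin_le
    (fun z hz => (((hf.differentiableOn one_ne_zero z (hKU hz)).differentiableAt
      (hU.mem_nhds (hKU hz))).hasFDerivAt).hasFDerivWithinAt)
    (fun z hz => (hC₁ z hz).trans (le_max_left _ _)) hy hx

/-- base estimate: the family `c(q, ·) - c(p, ·)` is small in `C¹` -/
theorem small_diff (hK : IsCompact K) (hKc : Convex ℝ K) {O : Set P} (hO : IsOpen O) {U : Set E}
    (hU : IsOpen U) (hKU : K ⊆ U) {c : P × E → F} (hc : ContDiffOn ℝ 1 c (O ×ˢ U)) {p : P}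
    (hp : p ∈ O) {ε : ℝ} (hε : 0 < ε) :
    ∀ᶠ q in 𝓝 p, (∀ x ∈ K, ‖c (q, x) - c (p, x)‖ ≤ ε) ∧
      ∀ x ∈ K, ∀ y ∈ K, ‖(c (q, x) - c (p, x)) - (c (q, y) - c (p, y))‖ ≤ ε * ‖x - y‖ := by
  have hOU : IsOpen (O ×ˢ U) := hO.prod hU
  have h1 : ∀ x ∈ K, ∀ᶠ z : P × E in 𝓝 p ×ˢ 𝓝 x, ‖c (z.1, z.2) - c (p, z.2)‖ ≤ ε := by
    intro x hx
    have hcx : ContinuousAt c (p, x) :=
      hc.continuousOn.continuousAt (hOU.mem_nhds ⟨hp, hKU hx⟩)
    have t1 : Tendsto (fun z : P × E => c (z.1, z.2) - c (p, z.2)) (𝓝 (p, x))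
        (𝓝 (c (p, x) - c (p, x))) := by
      refine Tendsto.sub (hcx.tendsto) ?_
      have : Tendsto (fun z : P × E => (p, z.2)) (𝓝 (p, x)) (𝓝 (p, x)) :=
        (continuous_const.prodMk continuous_snd).tendsto' _ _ rfl
      exact hcx.tendsto.comp this
    rw [sub_self] at t1
    rw [← nhds_prod_eq]
    have := t1.norm
    rw [norm_zero] at this
    exact (this.eventually (gt_mem_nhds hε)).mono fun z hz => hz.le
  have hd : ContinuousOn (fun z : P × E => (fderiv ℝ c z).comp (ContinuousLinearMap.inr ℝ P E))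
      (O ×ˢ U) :=
    (hc.continuousOn_fderiv_of_isOpen hOU le_rfl).clm_comp continuousOn_const
  have h2 : ∀ x ∈ K, ∀ᶠ z : P × E in 𝓝 p ×ˢ 𝓝 x,
      ‖(fderiv ℝ c (z.1, z.2)).comp (ContinuousLinearMap.inr ℝ P E) -
        (fderiv ℝ c (p, z.2)).comp (ContinuousLinearMap.inr ℝ P E)‖ ≤ ε := by
    intro x hx
    have hcx := hd.continuousAt (hOU.mem_nhds (x := (p, x)) ⟨hp, hKU hx⟩)
    have t1 : Tendsto (fun z : P × E => (fderiv ℝ c (z.1, z.2)).comp
        (ContinuousLinearMap.inr ℝ P E) - (fderiv ℝ c (p, z.2)).comp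
        (ContinuousLinearMap.inr ℝ P E)) (𝓝 (p, x))
        (𝓝 ((fderiv ℝ c (p, x)).comp (ContinuousLinearMap.inr ℝ P E) -
          (fderiv ℝ c (p, x)).comp (ContinuousLinearMap.inr ℝ P E))) := by
      refine Tendsto.sub (hcx.tendsto) ?_
      have : Tendsto (fun z : P × E => (p, z.2)) (𝓝 (p, x)) (𝓝 (p, x)) :=
        (continuous_const.prodMk continuous_snd).tendsto' _ _ rfl
      exact hcx.tendsto.comp this
    rw [sub_self] at t1
    rw [← nhds_prod_eq]
    have := t1.norm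
    rw [norm_zero] at this
    exact (this.eventually (gt_mem_nhds hε)).mono fun z hz => hz.le
  have e1 := hK.eventually_forall_of_forall_eventually (x₀ := p) (P := fun q x =>
    ‖c (q, x) - c (p, x)‖ ≤ ε) (by
      intro x hx
      have := h1 x hx
      rwa [← nhds_prod_eq] at this)
  have e2 := hK.eventually_forall_of_forall_eventually (x₀ := p) (P := fun q x =>
    ‖(fderiv ℝ c (q, x)).comp (ContinuousLinearMap.inr ℝ P E) -
        (fderiv ℝ c (p, x)).comp (ContinuousLinearMap.inr ℝ P E)‖ ≤ ε) (by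
      intro x hx
      have := h2 x hx
      rwa [← nhds_prod_eq] at this)
  filter_upwards [e1, e2, hO.mem_nhds hp] with q hq1 hq2 hqO
  refine ⟨hq1, fun x hx y hy => ?_⟩
  have hder : ∀ q' ∈ O, ∀ z ∈ K, HasFDerivAt (fun z => c (q', z))
      ((fderiv ℝ c (q', z)).comp (ContinuousLinearMap.inr ℝ P E)) z := by
    intro q' hq' z hz
    have hc1 : HasFDerivAt c (fderiv ℝ c (q', z)) (q', z) :=
      ((hc.differentiableOn one_ne_zero (q', z) ⟨hq', hKU hz⟩).differentiableAt
        (hOU.mem_nhds ⟨hq', hKU hz⟩)).hasFDerivAt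
    have h2 : HasFDerivAt (fun z : E => (q', z)) (ContinuousLinearMap.inr ℝ P E) z :=
      hasFDerivAt_prodMk_right q' z
    exact hc1.comp z h2
  exact hKc.norm_image_sub_le_of_norm_hasFDerivWithin_le
    (f := fun z => c (q, z) - c (p, z))
    (fun z hz => ((hder q hqO z hz).sub (hder p hp z hz)).hasFDerivWithinAt)
    (fun z hz => hq2 z hz) hy hx

theorem slice_contDiffOn {O : Set P} {U : Set E} {c : P × E → F} {n : ℕ∞ω}
    (hc : ContDiffOn ℝ n c (O ×ˢ U)) {p : P} (hp : p ∈ O) :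
    ContDiffOn ℝ n (fun x => c (p, x)) U :=
  hc.comp (contDiff_const.prodMk contDiff_id).contDiffOn fun _ hx => ⟨hp, hx⟩

/-- continuity of the family -/
theorem continuousOn_of (hα : 0 < α) (hα1 : α ≤ 1) (hK : IsCompact K) (hKc : Convex ℝ K)
    {O : Set P} (hO : IsOpen O) {U : Set E} (hU : IsOpen U) (hKU : K ⊆ U) {c : P × E → F}
    (hc : ContDiffOn ℝ 1 c (O ×ˢ U)) :
    ContinuousOn (fun p => HF.of α K (fun x => c (p, x))) O := by
  obtain ⟨D, hD, hDK⟩ := exists_diam hK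
  intro p hp
  refine ContinuousAt.continuousWithinAt ?_
  rw [Metric.continuousAt_iff']
  intro ε hε
  have hδ : 0 < ε / (2 * (1 + D)) := by positivity
  filter_upwards [small_diff hK hKc hO hU hKU hc hp hδ, hO.mem_nhds hp] with q hq hqO
  obtain ⟨C₁, hC₁⟩ := exists_bd hα hα1 hK hKc hU hKU (slice_contDiffOn hc hqO)
  obtain ⟨C₂, hC₂⟩ := exists_bd hα hα1 hK hKc hU hKU (slice_contDiffOn hc hp)
  have hb := Bd.of_lip hα hα1 hδ.le hδ.le hD hDK hq.1 hq.2
  have e : HF.of α K (fun x => c (q, x)) - HF.of α K (fun x => c (p, x)) =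
      HF.of α K (fun x => c (q, x) - c (p, x)) :=
    HF.eq_of hb fun x hx => by rw [HF.fn_sub, HF.fn_of hC₁ hx, HF.fn_of hC₂ hx]
  rw [dist_eq_norm, e]
  refine (HF.norm_of hb).trans_lt ?_
  have h4 : ε / (2 * (1 + D)) + ε / (2 * (1 + D)) * D = ε / 2 := by
    field_simp
  rw [h4]
  linarith

/-- the partial derivative in the parameter -/
def dP (c : P × E → F) (z : P × E) : P →L[ℝ] F :=
  (fderiv ℝ c z).comp (ContinuousLinearMap.inl ℝ P E)

theorem dP_contDiffOn {O : Set P} (hO : IsOpen O) {U : Set E} (hU : IsOpen U) {c : P × E → F}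
    (hc : ContDiffOn ℝ ∞ c (O ×ˢ U)) : ContDiffOn ℝ ∞ (dP c) (O ×ˢ U) :=
  (hc.fderiv_of_isOpen (hO.prod hU) (m := ∞) (by simp)).clm_comp contDiffOn_const

/-- differentiability of the family -/
theorem hasFDerivAt_of (hα : 0 < α) (hα1 : α ≤ 1) (hK : IsCompact K) (hKc : Convex ℝ K)
    {O : Set P} (hO : IsOpen O) {U : Set E} (hU : IsOpen U) (hKU : K ⊆ U) {c : P × E → F}
    (hc : ContDiffOn ℝ ∞ c (O ×ˢ U)) {p : P} (hp : p ∈ O) :
    HasFDerivAt (fun p => HF.of α K (fun x => c (p, x)))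
      (HF.theta hα P (HF.of α K (fun x => dP c (p, x)))) p := by
  obtain ⟨D, hD, hDK⟩ := exists_diam hK
  have hc1 : ContDiffOn ℝ 1 c (O ×ˢ U) := hc.of_le (by simp)
  have hdc : ContDiffOn ℝ 1 (dP c) (O ×ˢ U) := (dP_contDiffOn hO hU hc).of_le (by simp)
  have hOU : IsOpen (O ×ˢ U) := hO.prod hU
  have hder : ∀ q ∈ O, ∀ x ∈ K, HasFDerivAt (fun q => c (q, x)) (dP c (q, x)) q := by
    intro q hq x hx
    have hc1 : HasFDerivAt c (fderiv ℝ c (q, x)) (q, x) :=
      ((hc1.differentiableOn one_ne_zero (q, x) ⟨hq, hKU hx⟩).differentiableAt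
        (hOU.mem_nhds ⟨hq, hKU hx⟩)).hasFDerivAt
    exact hc1.comp q (hasFDerivAt_prodMk_left q x)
  rw [hasFDerivAt_iff_isLittleO_nhds_zero, Asymptotics.isLittleO_iff]
  intro ε hε
  have hδ : 0 < ε / (1 + D) := by positivity
  obtain ⟨ρ, hρ, hρs⟩ := Metric.eventually_nhds_iff_ball.1
    ((small_diff hK hKc hO hU hKU hdc hp hδ).and (hO.mem_nhds hp))
  filter_upwards [Metric.ball_mem_nhds (0 : P) hρ] with h hh
  have hseg : ∀ q ∈ segment ℝ p (p + h), q ∈ Metric.ball p ρ := by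
    intro q hq
    refine (convex_ball p ρ).segment_subset (Metric.mem_ball_self hρ) ?_ hq
    simpa using hh
  have hph : p + h ∈ O := (hρs _ (hseg _ (right_mem_segment ℝ p (p + h)))).2
  obtain ⟨C₁, hC₁⟩ := exists_bd hα hα1 hK hKc hU hKU (slice_contDiffOn hc1 hph)
  obtain ⟨C₂, hC₂⟩ := exists_bd hα hα1 hK hKc hU hKU (slice_contDiffOn hc1 hp)
  obtain ⟨C₃, hC₃⟩ := exists_bd hα hα1 hK hKc hU hKU (slice_contDiffOn hdc hp)
  have b0 : ∀ x ∈ K, ‖c (p + h, x) - c (p, x) - dP c (p, x) h‖ ≤ ε / (1 + D) * ‖h‖ := by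
    intro x hx
    have := (convex_segment p (p + h)).norm_image_sub_le_of_norm_hasFDerivWithin_le'
      (f := fun q => c (q, x)) (f' := fun q => dP c (q, x)) (φ := dP c (p, x))
      (C := ε / (1 + D))
      (fun q hq => (hder q (hρs q (hseg q hq)).2 x hx).hasFDerivWithinAt)
      (fun q hq => (hρs q (hseg q hq)).1.1 x hx) (left_mem_segment ℝ p (p + h))
      (right_mem_segment ℝ p (p + h))
    simpa using this
  have b1 : ∀ x ∈ K, ∀ y ∈ K, ‖(c (p + h, x) - c (p, x) - dP c (p, x) h) -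
      (c (p + h, y) - c (p, y) - dP c (p, y) h)‖ ≤ ε / (1 + D) * ‖h‖ * ‖x - y‖ := by
    intro x hx y hy
    have := (convex_segment p (p + h)).norm_image_sub_le_of_norm_hasFDerivWithin_le'
      (f := fun q => c (q, x) - c (q, y)) (f' := fun q => dP c (q, x) - dP c (q, y))
      (φ := dP c (p, x) - dP c (p, y)) (C := ε / (1 + D) * ‖x - y‖)
      (fun q hq => ((hder q (hρs q (hseg q hq)).2 x hx).sub
        (hder q (hρs q (hseg q hq)).2 y hy)).hasFDerivWithinAt)
      (fun q hq => by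
        have := (hρs q (hseg q hq)).1.2 x hx y hy
        refine le_trans (le_of_eq ?_) this
        congr 1
        abel) (left_mem_segment ℝ p (p + h))
      (right_mem_segment ℝ p (p + h))
    calc _ = ‖c (p + h, x) - c (p + h, y) - (c (p, x) - c (p, y)) -
          (dP c (p, x) - dP c (p, y)) (p + h - p)‖ := by
          congr 1
          simp
          abel
      _ ≤ _ := this
      _ = _ := by
        simp
        ring
  have hb := Bd.of_lip (f := fun x => c (p + h, x) - c (p, x) - dP c (p, x) h) hα hα1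
    (C₀ := ε / (1 + D) * ‖h‖) (C₁ := ε / (1 + D) * ‖h‖) (by positivity) (by positivity) hD hDK
    b0 b1
  have e : HF.of α K (fun x => c (p + h, x)) - HF.of α K (fun x => c (p, x)) -
      HF.theta hα P (HF.of α K (fun x => dP c (p, x))) h =
      HF.of α K (fun x => c (p + h, x) - c (p, x) - dP c (p, x) h) :=
    HF.eq_of hb fun x hx => by
      rw [HF.fn_sub, HF.fn_sub, HF.fn_of hC₁ hx, HF.fn_of hC₂ hx, HF.fn_theta hα P _ _ hx,
        HF.fn_of hC₃ hx]
  rw [e]
  refine (HF.norm_of hb).trans (le_of_eq ?_)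
  field_simp

/-- **jointly smooth functions are smooth families of Hölder functions** -/
theorem contDiffOn_of (hα : 0 < α) (hα1 : α ≤ 1) (hK : IsCompact K) (hKc : Convex ℝ K)
    {O : Set P} (hO : IsOpen O) {U : Set E} (hU : IsOpen U) (hKU : K ⊆ U) {c : P × E → F}
    (hc : ContDiffOn ℝ ∞ c (O ×ˢ U)) :
    ContDiffOn ℝ ∞ (fun p => HF.of α K (fun x => c (p, x))) O := by
  rw [contDiffOn_infty]
  intro n
  induction n generalizing F with
  | zero =>
    rw [Nat.cast_zero, contDiffOn_zero]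
    exact continuousOn_of hα hα1 hK hKc hO hU hKU (hc.of_le (by simp))
  | succ n ih =>
    rw [Nat.cast_add, Nat.cast_one, contDiffOn_succ_iff_fderiv_of_isOpen hO]
    have hd : ∀ p ∈ O, HasFDerivAt (fun p => HF.of α K (fun x => c (p, x)))
        (HF.theta hα P (HF.of α K (fun x => dP c (p, x)))) p := fun p hp =>
      hasFDerivAt_of hα hα1 hK hKc hO hU hKU hc hp
    refine ⟨fun p hp => (hd p hp).differentiableAt.differentiableWithinAt, by simp, ?_⟩
    have h1 := ih (dP_contDiffOn hO hU hc)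
    have h3 : ContDiff ℝ n (fun g => HF.theta (a := α) (K := K) (F := F) hα P g) := by
      fun_prop
    exact (h3.comp_contDiffOn h1).congr fun p hp => (hd p hp).fderiv

end

end Crest.Agent.R281.Hjs_680
end

-- ▼ part R281/Hjs3_680
section

/-!
# Row 281, YAU-VAR (helper680), part 3: the Banach algebra `Hol K` of real `1/2`-Hölder functions

* `Hol K`          : commutative Banach algebra (norm `2 ‖·‖`)
* `Hol.toHF`       : continuous linear equivalence with `HF (1/2) K ℝ`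
* `Hol.val x`      : evaluation at a point of `K`, an algebra homomorphism
* `Hol.isUnit_iff` : units
-/

set_option autoImplicit false
set_option linter.unusedSectionVars false

open Set Filter Topology
open scoped ContDiff

namespace Crest.Agent.R281.Hjs_680

noncomputable section

variable {E : Type} [NormedAddCommGroup E] [NormedSpace ℝ E] {K : Set E}

theorem half_pos' : (0 : ℝ) < 1 / 2 := by norm_num

/-- real `1/2`-Hölder functions on `K` -/
def Hol {E : Type} [NormedAddCommGroup E] (K : Set E) : Type := HF (1 / 2) K ℝ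

namespace Hol

instance : AddCommGroup (Hol K) := inferInstanceAs (AddCommGroup (HF (1 / 2) K ℝ))
instance : Module ℝ (Hol K) := inferInstanceAs (Module ℝ (HF (1 / 2) K ℝ))

/-- the underlying element of `HF` (linear) -/
def toL : Hol K ≃ₗ[ℝ] HF (1 / 2) K ℝ := LinearEquiv.refl ℝ _

instance : NormedAddCommGroup (Hol K) :=
  NormedAddCommGroup.induced (Hol K) (HF (1 / 2) K ℝ)
    (((2 : ℝ) • (toL : Hol K ≃ₗ[ℝ] HF (1 / 2) K ℝ).toLinearMap).toAddMonoidHom) (by
      intro f g h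
      have h1 : (2 : ℝ) • toL f = (2 : ℝ) • toL g := h
      have h2 := smul_right_injective (HF (1 / 2) K ℝ) (two_ne_zero : (2 : ℝ) ≠ 0) h1
      exact toL.injective h2)

theorem norm_def (f : Hol K) : ‖f‖ = 2 * ‖toL f‖ := by
  show ‖(2 : ℝ) • toL f‖ = _
  rw [norm_smul]
  simp

instance : NormedSpace ℝ (Hol K) where
  norm_smul_le c f := by
    rw [norm_def, norm_def, map_smul, norm_smul]
    exact le_of_eq (by ring)

/-- the underlying element of `HF` -/
def toHF : Hol K ≃L[ℝ] HF (1 / 2) K ℝ :=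
  { (toL : Hol K ≃ₗ[ℝ] HF (1 / 2) K ℝ) with
    continuous_toFun := by
      refine (LinearMap.mkContinuous (toL : Hol K ≃ₗ[ℝ] HF (1 / 2) K ℝ).toLinearMap 1
        fun f => ?_).continuous
      rw [norm_def]
      have := norm_nonneg (toL f)
      show ‖toL f‖ ≤ _
      linarith
    continuous_invFun := by
      refine (LinearMap.mkContinuous (toL : Hol K ≃ₗ[ℝ] HF (1 / 2) K ℝ).symm.toLinearMap 2
        fun f => ?_).continuous
      show ‖toL.symm f‖ ≤ _
      rw [norm_def, LinearEquiv.apply_symm_apply] }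

theorem norm_toHF (f : Hol K) : ‖f‖ = 2 * ‖toHF f‖ := norm_def f

instance : CompleteSpace (Hol K) :=
  (toHF (K := K)).isUniformEmbedding.isUniformInducing.completeSpace_congr
    (toHF (K := K)).surjective |>.2 inferInstance

/-- values -/
def fn (f : Hol K) (x : E) : ℝ := HF.fn (toHF f) x

/-- the element of a function -/
def of (K : Set E) (f : E → ℝ) : Hol K := toHF.symm (HF.of (1 / 2) K f)

theorem ext {f g : Hol K} (h : ∀ x ∈ K, fn f x = fn g x) : f = g :=
  toHF.injective (HF.ext h)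

theorem fn_of {f : E → ℝ} {C : ℝ} (h : Bd (1 / 2) K f C) {x : E} (hx : x ∈ K) :
    fn (of K f) x = f x := by
  rw [fn, of, ContinuousLinearEquiv.apply_symm_apply]
  exact HF.fn_of h hx

theorem norm_of {f : E → ℝ} {C : ℝ} (h : Bd (1 / 2) K f C) : ‖of K f‖ ≤ 2 * C := by
  rw [norm_toHF, of, ContinuousLinearEquiv.apply_symm_apply]
  linarith [HF.norm_of h]

theorem bd (f : Hol K) : Bd (1 / 2) K (fn f) (‖f‖ / 2) := by
  have := HF.bd half_pos' (toHF f)
  rw [norm_toHF]
  exact this.mono (by linarith)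

theorem eq_of {g : Hol K} {f : E → ℝ} {C : ℝ} (h : Bd (1 / 2) K f C)
    (hg : ∀ x ∈ K, fn g x = f x) : g = of K f :=
  ext fun x hx => by rw [fn_of h hx, hg x hx]

@[simp] theorem fn_add (f g : Hol K) (x : E) : fn (f + g) x = fn f x + fn g x := by
  simp [fn]

@[simp] theorem fn_sub (f g : Hol K) (x : E) : fn (f - g) x = fn f x - fn g x := by
  simp [fn]

@[simp] theorem fn_zero (x : E) : fn (0 : Hol K) x = 0 := by
  simp [fn]

@[simp] theorem fn_neg (f : Hol K) (x : E) : fn (-f) x = -fn f x := by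
  have := fn_sub 0 f x
  rw [zero_sub, fn_zero, zero_sub] at this
  exact this

@[simp] theorem fn_smul (c : ℝ) (f : Hol K) (x : E) : fn (c • f) x = c * fn f x := by
  simp [fn]

theorem bd_const (c : ℝ) : Bd (1 / 2) K (fun _ : E => c) |c| :=
  ⟨abs_nonneg c, fun _ _ => le_rfl, fun x _ y _ => by simp; positivity⟩

instance : Mul (Hol K) :=
  ⟨fun f g => toHF.symm (HF.bil half_pos' (ContinuousLinearMap.mul ℝ ℝ) (toHF f) (toHF g))⟩

instance : One (Hol K) := ⟨of K fun _ => 1⟩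

theorem mul_def (f g : Hol K) : f * g =
    toHF.symm (HF.bil half_pos' (ContinuousLinearMap.mul ℝ ℝ) (toHF f) (toHF g)) := rfl

theorem fn_mul (f g : Hol K) {x : E} (hx : x ∈ K) : fn (f * g) x = fn f x * fn g x := by
  rw [fn, mul_def, ContinuousLinearEquiv.apply_symm_apply, HF.fn_bil half_pos' _ _ _ hx]
  rfl

theorem fn_one {x : E} (hx : x ∈ K) : fn (1 : Hol K) x = 1 :=
  fn_of (bd_const 1) hx

instance : CommRing (Hol K) :=
  { (inferInstance : AddCommGroup (Hol K)), (inferInstance : Mul (Hol K)),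
    (inferInstance : One (Hol K)) with
    mul_assoc := fun f g h => ext fun x hx => by
      rw [fn_mul _ _ hx, fn_mul _ _ hx, fn_mul _ _ hx, fn_mul _ _ hx, mul_assoc]
    mul_comm := fun f g => ext fun x hx => by
      rw [fn_mul _ _ hx, fn_mul _ _ hx, mul_comm]
    one_mul := fun f => ext fun x hx => by rw [fn_mul _ _ hx, fn_one hx, one_mul]
    mul_one := fun f => ext fun x hx => by rw [fn_mul _ _ hx, fn_one hx, mul_one]
    left_distrib := fun f g h => ext fun x hx => by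
      rw [fn_mul _ _ hx, fn_add, fn_add, fn_mul _ _ hx, fn_mul _ _ hx, mul_add]
    right_distrib := fun f g h => ext fun x hx => by
      rw [fn_mul _ _ hx, fn_add, fn_add, fn_mul _ _ hx, fn_mul _ _ hx, add_mul]
    zero_mul := fun f => ext fun x hx => by rw [fn_mul _ _ hx, fn_zero, zero_mul]
    mul_zero := fun f => ext fun x hx => by rw [fn_mul _ _ hx, fn_zero, mul_zero] }

theorem norm_mul_le' (f g : Hol K) : ‖f * g‖ ≤ ‖f‖ * ‖g‖ := by
  have hb := (bd f).bil (bd g) (ContinuousLinearMap.mul ℝ ℝ)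
  have h1 : f * g = of K (fun x => ContinuousLinearMap.mul ℝ ℝ (fn f x) (fn g x)) :=
    eq_of hb fun x hx => by rw [fn_mul _ _ hx]; rfl
  rw [h1]
  refine (norm_of hb).trans ?_
  have h2 : ‖ContinuousLinearMap.mul ℝ ℝ‖ ≤ 1 := ContinuousLinearMap.opNorm_mul_le ℝ ℝ
  have h3 := norm_nonneg f
  have h4 := norm_nonneg g
  have h5 : 0 ≤ ‖f‖ * ‖g‖ := by positivity
  nlinarith [mul_le_mul_of_nonneg_right h2 h5]

instance : NormedCommRing (Hol K) :=
  { (inferInstance : NormedAddCommGroup (Hol K)), (inferInstance : CommRing (Hol K)) with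
    norm_mul_le := norm_mul_le' }

instance : NormedAlgebra ℝ (Hol K) :=
  { Algebra.ofModule (R := ℝ) (A := Hol K)
      (fun c f g => ext fun x hx => by
        rw [fn_mul _ _ hx, fn_smul, fn_smul, fn_mul _ _ hx, mul_assoc])
      (fun c f g => ext fun x hx => by
        rw [fn_mul _ _ hx, fn_smul, fn_smul, fn_mul _ _ hx]
        ring) with
    norm_smul_le := fun c f => norm_smul_le c f }

/-- evaluation at a point of `K` -/
def val {x : E} (hx : x ∈ K) : Hol K →ₐ[ℝ] ℝ :=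
  AlgHom.ofLinearMap
    { toFun := fun f => fn f x
      map_add' := fun f g => fn_add f g x
      map_smul' := fun c f => fn_smul c f x } (fn_one hx) (fun f g => fn_mul f g hx)

@[simp] theorem val_apply {x : E} (hx : x ∈ K) (f : Hol K) : val hx f = fn f x := rfl


/-- evaluation is continuous -/
def valL (x : E) : Hol K →L[ℝ] ℝ := (HF.ev half_pos' x).comp (toHF : Hol K ≃L[ℝ] _).toContinuousLinearMap

@[simp] theorem valL_apply (x : E) (f : Hol K) : valL x f = fn f x := rfl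



/-- determinants are computed pointwise -/
theorem fn_det {m : Type} [DecidableEq m] [Fintype m] (A : Matrix m m (Hol K)) {x : E}
    (hx : x ∈ K) : fn A.det x = (A.map fun f => fn f x).det := by
  exact (val hx).toRingHom.map_det A


variable {P : Type} [NormedAddCommGroup P] [NormedSpace ℝ P]

/-- jointly smooth functions are smooth families -/
theorem contDiffOn_of (hK : IsCompact K) (hKc : Convex ℝ K)
    {O : Set P} (hO : IsOpen O) {U : Set E} (hU : IsOpen U) (hKU : K ⊆ U) {c : P × E → ℝ}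
    (hc : ContDiffOn ℝ ∞ c (O ×ˢ U)) :
    ContDiffOn ℝ ∞ (fun p => of K (fun x => c (p, x))) O :=
  (ContinuousLinearEquiv.contDiff (toHF (K := K)).symm).comp_contDiffOn
    (Hjs_680.contDiffOn_of half_pos' (by norm_num) hK hKc hO hU hKU hc)

end Hol

/-- determinants of matrices over a commutative Banach algebra are smooth -/
theorem contDiff_det {R : Type} [NormedCommRing R] [NormedAlgebra ℝ R] {X : Type}
    [NormedAddCommGroup X] [NormedSpace ℝ X] {m : Type} [DecidableEq m] [Fintype m] {n : ℕ∞ω}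
    {A : X → Matrix m m R} {s : Set X} (hA : ∀ i j, ContDiffOn ℝ n (fun p => A p i j) s) :
    ContDiffOn ℝ n (fun p => (A p).det) s := by
  simp only [Matrix.det_apply]
  refine ContDiffOn.sum fun σ _ => ?_
  have h1 : ContDiffOn ℝ n (fun p => ∏ i ∈ Finset.univ, A p (σ i) i) s := by
    have : ∀ t : Finset m, ContDiffOn ℝ n (fun p => ∏ i ∈ t, A p (σ i) i) s := by
      intro t
      induction t using Finset.induction_on with
      | empty =>
        simp only [Finset.prod_empty]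
        exact contDiffOn_const
      | insert i t hi ih =>
        simp only [Finset.prod_insert hi]
        exact (hA (σ i) i).mul ih
    exact this _
  have h2 : (fun p => Equiv.Perm.sign σ • ∏ i, A p (σ i) i) =
      fun p => (((Equiv.Perm.sign σ : ℤ) : ℝ)) • ∏ i, A p (σ i) i := by
    funext p
    rw [Units.smul_def, ← Int.cast_smul_eq_zsmul ℝ]
  rw [h2]
  exact h1.const_smul (((Equiv.Perm.sign σ : ℤ) : ℝ))

end

end Crest.Agent.R281.Hjs_680
end

-- ▼ part R281/Hjs4_680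
section

/-!
# Row 281, YAU-VAR (helper680), part 4: `C^{2,1/2}` jets on a compact convex set

* `isClosed_deriv`  : the pairs `(u, v)` with `v = Du` on the interior are closed
* `Jet K`, `jet f`  : jets of order 2 with Hölder entries
* `Jet.isClosed_c2` : the honest jets (derivatives on the interior, symmetric) are closed
* `Jet.c2`          : the function of an honest jet is `C²` on the interior
* `Jet.comp_smooth` : composition with bounded linear operators
-/

set_option autoImplicit false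
set_option linter.unusedSectionVars false

open Set Filter Topology
open scoped ContDiff

namespace Crest.Agent.R281.Hjs_680

noncomputable section

variable {E : Type} [NormedAddCommGroup E] [NormedSpace ℝ E]
variable {F G : Type} [NormedAddCommGroup F] [NormedSpace ℝ F]
  [NormedAddCommGroup G] [NormedSpace ℝ G]
variable {a : ℝ} {K : Set E}

theorem HF.tendstoUniformlyOn {ι : Type*} {l : Filter ι} {u : ι → HF a K F} {v : HF a K F}
    (h : Tendsto u l (𝓝 v)) (s : Set E) :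
    TendstoUniformlyOn (fun i x => HF.fn (u i) x) (fun x => HF.fn v x) l s := by
  rw [Metric.tendstoUniformlyOn_iff]
  intro ε hε
  filter_upwards [Metric.tendsto_nhds.1 h ε hε] with i hi x _
  rw [dist_comm, dist_eq_norm, ← HF.fn_sub]
  rw [dist_eq_norm] at hi
  exact (HF.norm_fn _ _).trans_lt hi

theorem HF.tendsto_fn {ι : Type*} {l : Filter ι} {u : ι → HF a K F} {v : HF a K F}
    (h : Tendsto u l (𝓝 v)) (x : E) : Tendsto (fun i => HF.fn (u i) x) l (𝓝 (HF.fn v x)) :=
  (HF.tendstoUniformlyOn h univ).tendsto_at (mem_univ x)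

/-- being the derivative is a closed condition -/
theorem isClosed_deriv : IsClosed {z : HF a K F × HF a K (E →L[ℝ] F) |
    ∀ x ∈ interior K, HasFDerivAt (HF.fn z.1) (HF.fn z.2 x) x} := by
  refine IsSeqClosed.isClosed fun u z hu hz => ?_
  intro x hx
  have h1 : Tendsto (fun n => (u n).1) atTop (𝓝 z.1) := (continuous_fst.tendsto z).comp hz
  have h2 : Tendsto (fun n => (u n).2) atTop (𝓝 z.2) := (continuous_snd.tendsto z).comp hz
  exact hasFDerivAt_of_tendstoUniformlyOn isOpen_interior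
    (HF.tendstoUniformlyOn h2 (interior K)) (fun n x hx => hu n x hx)
    (fun x _ => HF.tendsto_fn h1 x) hx

/-- jets of order 2 -/
abbrev Jet (K : Set E) : Type :=
  HF (1 / 2) K ℝ × HF (1 / 2) K (E →L[ℝ] ℝ) × HF (1 / 2) K (E →L[ℝ] E →L[ℝ] ℝ)

/-- honest jets -/
def Jet.Honest (z : Jet K) : Prop :=
  (∀ x ∈ interior K, HasFDerivAt (HF.fn z.1) (HF.fn z.2.1 x) x) ∧
    ∀ x ∈ interior K, HasFDerivAt (HF.fn z.2.1) (HF.fn z.2.2 x) x

theorem Jet.isClosed_honest : IsClosed {z : Jet K | z.Honest} := by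
  have h1 : IsClosed {z : Jet K | ∀ x ∈ interior K, HasFDerivAt (HF.fn z.1) (HF.fn z.2.1 x) x} :=
    (isClosed_deriv (a := 1 / 2) (K := K) (F := ℝ)).preimage
      (f := fun z : Jet K => (z.1, z.2.1)) (by fun_prop)
  have h2 : IsClosed {z : Jet K | ∀ x ∈ interior K,
      HasFDerivAt (HF.fn z.2.1) (HF.fn z.2.2 x) x} :=
    (isClosed_deriv (a := 1 / 2) (K := K) (F := E →L[ℝ] ℝ)).preimage
      (f := fun z : Jet K => (z.2.1, z.2.2)) (by fun_prop)
  exact h1.inter h2

theorem HF.continuousOn_fn (ha : 0 < a) (g : HF a K F) : ContinuousOn (HF.fn g) K := by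
  intro x hx
  rw [ContinuousWithinAt, tendsto_iff_norm_sub_tendsto_zero]
  have h1 : Tendsto (fun y => ‖g‖ * ‖y - x‖ ^ a) (𝓝[K] x) (𝓝 (‖g‖ * ‖x - x‖ ^ a)) := by
    refine Tendsto.mono_left ?_ nhdsWithin_le_nhds
    refine ((continuous_const.mul ?_).tendsto x)
    exact (continuous_id.sub continuous_const).norm.rpow_const fun _ => Or.inr ha.le
  rw [sub_self, norm_zero, Real.zero_rpow ha.ne', mul_zero] at h1
  refine squeeze_zero' (Eventually.of_forall fun y => norm_nonneg _) ?_ h1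
  filter_upwards [self_mem_nhdsWithin] with y hy
  exact HF.norm_fn_sub ha g hy hx

theorem Jet.Honest.fderiv1 {z : Jet K} (h : z.Honest) {x : E} (hx : x ∈ interior K) :
    fderiv ℝ (HF.fn z.1) x = HF.fn z.2.1 x := (h.1 x hx).fderiv

theorem Jet.Honest.fderiv2 {z : Jet K} (h : z.Honest) {x : E} (hx : x ∈ interior K) :
    fderiv ℝ (fderiv ℝ (HF.fn z.1)) x = HF.fn z.2.2 x := by
  have : fderiv ℝ (HF.fn z.1) =ᶠ[𝓝 x] HF.fn z.2.1 := by
    filter_upwards [isOpen_interior.mem_nhds hx] with y hy using h.fderiv1 hy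
  rw [this.fderiv_eq, (h.2 x hx).fderiv]

/-- the function of an honest jet is `C²` on the interior -/
theorem Jet.Honest.c2 {z : Jet K} (h : z.Honest) : ContDiffOn ℝ 2 (HF.fn z.1) (interior K) := by
  rw [show (2 : ℕ∞ω) = 1 + 1 by norm_num, contDiffOn_succ_iff_fderiv_of_isOpen isOpen_interior]
  refine ⟨fun x hx => (h.1 x hx).differentiableAt.differentiableWithinAt, by simp, ?_⟩
  have h1 : ContDiffOn ℝ 1 (HF.fn z.2.1) (interior K) := by
    rw [show (1 : ℕ∞ω) = 0 + 1 by norm_num,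
      contDiffOn_succ_iff_fderiv_of_isOpen isOpen_interior]
    refine ⟨fun x hx => (h.2 x hx).differentiableAt.differentiableWithinAt, by simp, ?_⟩
    rw [contDiffOn_zero]
    exact ((HF.continuousOn_fn half_pos' z.2.2).mono interior_subset).congr
      fun x hx => (h.2 x hx).fderiv
  exact h1.congr fun x hx => h.fderiv1 hx

/-- the jet of a function -/
def jet (K : Set E) (f : E → ℝ) : Jet K :=
  (HF.of (1 / 2) K f, HF.of (1 / 2) K (fderiv ℝ f), HF.of (1 / 2) K (fderiv ℝ (fderiv ℝ f)))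

section smooth

variable (hK : IsCompact K) (hKc : Convex ℝ K) {U : Set E} (hU : IsOpen U) (hKU : K ⊆ U)
include hK hKc hU hKU

theorem bd0 {f : E → ℝ} (hf : ContDiffOn ℝ 3 f U) : ∃ C, Bd (1 / 2) K f C :=
  exists_bd half_pos' (by norm_num) hK hKc hU hKU (hf.of_le (by norm_num))

theorem bd1 {f : E → ℝ} (hf : ContDiffOn ℝ 3 f U) : ∃ C, Bd (1 / 2) K (fderiv ℝ f) C :=
  exists_bd half_pos' (by norm_num) hK hKc hU hKU
    ((hf.fderiv_of_isOpen hU (m := 2) (by norm_num)).of_le (by norm_num))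

theorem bd2 {f : E → ℝ} (hf : ContDiffOn ℝ 3 f U) :
    ∃ C, Bd (1 / 2) K (fderiv ℝ (fderiv ℝ f)) C :=
  exists_bd half_pos' (by norm_num) hK hKc hU hKU
    ((hf.fderiv_of_isOpen hU (m := 2) (by norm_num)).fderiv_of_isOpen hU (m := 1) (by norm_num))

theorem fn_jet0 {f : E → ℝ} (hf : ContDiffOn ℝ 3 f U) {x : E} (hx : x ∈ K) :
    HF.fn (jet K f).1 x = f x := by
  obtain ⟨C, hC⟩ := bd0 hK hKc hU hKU hf
  exact HF.fn_of hC hx

theorem fn_jet1 {f : E → ℝ} (hf : ContDiffOn ℝ 3 f U) {x : E} (hx : x ∈ K) :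
    HF.fn (jet K f).2.1 x = fderiv ℝ f x := by
  obtain ⟨C, hC⟩ := bd1 hK hKc hU hKU hf
  exact HF.fn_of hC hx

theorem fn_jet2 {f : E → ℝ} (hf : ContDiffOn ℝ 3 f U) {x : E} (hx : x ∈ K) :
    HF.fn (jet K f).2.2 x = fderiv ℝ (fderiv ℝ f) x := by
  obtain ⟨C, hC⟩ := bd2 hK hKc hU hKU hf
  exact HF.fn_of hC hx

theorem jet_honest {f : E → ℝ} (hf : ContDiffOn ℝ 3 f U) : (jet K f).Honest := by
  have hnb : ∀ x ∈ interior K, interior K ∈ 𝓝 x := fun x hx => isOpen_interior.mem_nhds hx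
  constructor
  · intro x hx
    have hxK := interior_subset hx
    rw [fn_jet1 hK hKc hU hKU hf hxK]
    have h1 : HasFDerivAt f (fderiv ℝ f x) x :=
      ((hf.differentiableOn (by norm_num) x (hKU hxK)).differentiableAt
        (hU.mem_nhds (hKU hxK))).hasFDerivAt
    refine h1.congr_of_eventuallyEq ?_
    filter_upwards [hnb x hx] with y hy using fn_jet0 hK hKc hU hKU hf (interior_subset hy)
  · intro x hx
    have hxK := interior_subset hx
    rw [fn_jet2 hK hKc hU hKU hf hxK]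
    have h2 : ContDiffOn ℝ 2 (fderiv ℝ f) U := hf.fderiv_of_isOpen hU (by norm_num)
    have h1 : HasFDerivAt (fderiv ℝ f) (fderiv ℝ (fderiv ℝ f) x) x :=
      ((h2.differentiableOn (by norm_num) x (hKU hxK)).differentiableAt
        (hU.mem_nhds (hKU hxK))).hasFDerivAt
    refine h1.congr_of_eventuallyEq ?_
    filter_upwards [hnb x hx] with y hy using fn_jet1 hK hKc hU hKU hf (interior_subset hy)

theorem jet_add {f g : E → ℝ} (hf : ContDiffOn ℝ 3 f U) (hg : ContDiffOn ℝ 3 g U) :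
    jet K (fun x => f x + g x) = jet K f + jet K g := by
  have hd : ∀ x ∈ U, fderiv ℝ (fun x => f x + g x) x = fderiv ℝ f x + fderiv ℝ g x := fun x hx =>
    fderiv_fun_add ((hf.differentiableOn (by norm_num) x hx).differentiableAt (hU.mem_nhds hx))
      ((hg.differentiableOn (by norm_num) x hx).differentiableAt (hU.mem_nhds hx))
  have hdd : ∀ x ∈ U, fderiv ℝ (fderiv ℝ (fun x => f x + g x)) x =
      fderiv ℝ (fderiv ℝ f) x + fderiv ℝ (fderiv ℝ g) x := by
    intro x hx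
    have e : fderiv ℝ (fun x => f x + g x) =ᶠ[𝓝 x] fun x => fderiv ℝ f x + fderiv ℝ g x := by
      filter_upwards [hU.mem_nhds hx] with y hy using hd y hy
    rw [e.fderiv_eq]
    exact fderiv_fun_add
      (((hf.fderiv_of_isOpen hU (m := 2) (by norm_num)).differentiableOn (by norm_num) x
        hx).differentiableAt (hU.mem_nhds hx))
      (((hg.fderiv_of_isOpen hU (m := 2) (by norm_num)).differentiableOn (by norm_num) x
        hx).differentiableAt (hU.mem_nhds hx))
  refine Prod.ext ?_ (Prod.ext ?_ ?_)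
  · refine HF.ext fun x hx => ?_
    rw [Prod.fst_add, HF.fn_add, fn_jet0 hK hKc hU hKU (hf.add hg) hx,
      fn_jet0 hK hKc hU hKU hf hx, fn_jet0 hK hKc hU hKU hg hx]
  · refine HF.ext fun x hx => ?_
    rw [Prod.snd_add, Prod.fst_add, HF.fn_add, fn_jet1 hK hKc hU hKU (hf.add hg) hx,
      fn_jet1 hK hKc hU hKU hf hx, fn_jet1 hK hKc hU hKU hg hx]
    exact hd x (hKU hx)
  · refine HF.ext fun x hx => ?_
    rw [Prod.snd_add, Prod.snd_add, HF.fn_add, fn_jet2 hK hKc hU hKU (hf.add hg) hx,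
      fn_jet2 hK hKc hU hKU hf hx, fn_jet2 hK hKc hU hKU hg hx]
    exact hdd x (hKU hx)

theorem jet_smul {f : E → ℝ} (hf : ContDiffOn ℝ 3 f U) (c : ℝ) :
    jet K (fun x => c * f x) = c • jet K f := by
  have hd : ∀ x ∈ U, fderiv ℝ (fun x => c * f x) x = c • fderiv ℝ f x := fun x hx =>
    fderiv_const_mul ((hf.differentiableOn (by norm_num) x hx).differentiableAt
      (hU.mem_nhds hx)) c
  have hcf : ContDiffOn ℝ 3 (fun x => c * f x) U := contDiffOn_const.mul hf
  have hdd : ∀ x ∈ U, fderiv ℝ (fderiv ℝ (fun x => c * f x)) x =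
      c • fderiv ℝ (fderiv ℝ f) x := by
    intro x hx
    have e : fderiv ℝ (fun x => c * f x) =ᶠ[𝓝 x] fun x => c • fderiv ℝ f x := by
      filter_upwards [hU.mem_nhds hx] with y hy using hd y hy
    rw [e.fderiv_eq]
    exact fderiv_fun_const_smul
      (((hf.fderiv_of_isOpen hU (m := 2) (by norm_num)).differentiableOn (by norm_num) x
        hx).differentiableAt (hU.mem_nhds hx)) c
  refine Prod.ext ?_ (Prod.ext ?_ ?_)
  · refine HF.ext fun x hx => ?_
    rw [Prod.smul_fst, HF.fn_smul, fn_jet0 hK hKc hU hKU hcf hx, fn_jet0 hK hKc hU hKU hf hx,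
      smul_eq_mul]
  · refine HF.ext fun x hx => ?_
    rw [Prod.smul_snd, Prod.smul_fst, HF.fn_smul, fn_jet1 hK hKc hU hKU hcf hx,
      fn_jet1 hK hKc hU hKU hf hx]
    exact hd x (hKU hx)
  · refine HF.ext fun x hx => ?_
    rw [Prod.smul_snd, Prod.smul_snd, HF.fn_smul, fn_jet2 hK hKc hU hKU hcf hx,
      fn_jet2 hK hKc hU hKU hf hx]
    exact hdd x (hKU hx)

/-- bound of the jet -/
theorem norm_jet_le {f : E → ℝ} {C : ℝ} (h0 : Bd (1 / 2) K f C)
    (h1 : Bd (1 / 2) K (fderiv ℝ f) C) (h2 : Bd (1 / 2) K (fderiv ℝ (fderiv ℝ f)) C) :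
    ‖jet K f‖ ≤ C :=
  max_le (HF.norm_of h0) (max_le (HF.norm_of h1) (HF.norm_of h2))

end smooth

end

end Crest.Agent.R281.Hjs_680
end

-- ▼ part R281/Yv4_900

/-!
# Row 281, YAU-VAR (helper900), part 4: the operator of the Monge-Ampère equation in jets

* `SmE A`    : smooth functions on `X` (submodule)
* `KK B k`   : the closed half balls of a cover `B : Cb A`
* `JJ B`, `HH B` : families of jets, families of Hölder functions, `jj`, `hh`
* `GG b B D u0 k0 p x` : the operator, `fn_GG` (values), `contDiffOn_GG`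
-/

set_option autoImplicit false
set_option maxSynthPendingDepth 3
set_option linter.unusedSectionVars false

open Set Filter Topology Metric
open scoped ContDiff

namespace Crest.Agent.R281.Yv_900

open Crest.Agent.R275.Geo Crest.Agent.R275.Core144 Crest.Agent.R275.EDR890
open Crest.Agent.R273.YauDefs_635 Crest.Agent.R273.SchF_152
open Crest.Agent.R260.ACM_580 Crest.Agent.R281.HkR_835 Crest.Agent.R281.NefO_476
open Crest.Agent.R281.Hjs_680 Crest.Agent.R281.Tt_476

noncomputable section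

/-! ### the linear part of `ddcF` -/

section lin

variable {V : Type} [NormedAddCommGroup V] [NormedSpace ℝ V]

/-- evaluation of bilinear forms -/
def evB (a c : V) : (V →L[ℝ] V →L[ℝ] ℝ) →L[ℝ] ℝ :=
  (ContinuousLinearMap.apply ℝ ℝ c).comp (ContinuousLinearMap.apply ℝ (V →L[ℝ] ℝ) a)

@[simp] theorem evB_apply (a c : V) (H : V →L[ℝ] V →L[ℝ] ℝ) : evB a c H = H a c := rfl

/-- coefficient of the second derivatives in `ddcF U T (a, T c)` -/
def c2 (T : V → V →L[ℝ] V) (a c z : V) : (V →L[ℝ] V →L[ℝ] ℝ) →L[ℝ] ℝ :=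
  -(evB a (T z (T z c))) + evB (T z c) (T z a)

/-- coefficient of the first derivatives in `ddcF U T (a, T c)` -/
def c1 (T : V → V →L[ℝ] V) (a c z : V) : (V →L[ℝ] ℝ) →L[ℝ] ℝ :=
  ContinuousLinearMap.apply ℝ ℝ (-(fderiv ℝ T z a (T z c)) + fderiv ℝ T z (T z c) a)

theorem ddcF_eq (U : V → ℝ) (T : V → V →L[ℝ] V) (z a c : V) :
    ddcF U T z a (T z c) = c2 T a c z (fderiv ℝ (fderiv ℝ U) z) + c1 T a c z (fderiv ℝ U z) := by
  simp only [ddcF, c2, c1, add_apply, neg_apply, evB_apply, ContinuousLinearMap.apply_apply,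
    map_add, map_neg]
  ring

end lin

variable {n : ℕ} {X : Type} [TopologicalSpace X] {A : Atl n X}

/-- smooth functions -/
def SmE (A : Atl n X) : Submodule ℝ (X → ℝ) where
  carrier := {f | A.Sm f}
  add_mem' := fun {_ _} hf hg i => (hf i).add (hg i)
  zero_mem' := fun _ => contDiffOn_const
  smul_mem' := fun c _ hf i => (hf i).const_smul c

/-- the closed half balls -/
def KK (B : Cb A) (k : B.κ) : Set (Cn n) := closedBall (B.z k) (B.r k / 2)

instance instFintypeCb (B : Cb A) : Fintype B.κ :=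
  @Fintype.ofFinite B.κ B.fin

/-- the space of jets, as a type of its own (fast instances) -/
def JetS {n : ℕ} (K : Set (Cn n)) : Type := Jet K

instance instJetNACG (K : Set (Cn n)) : NormedAddCommGroup (JetS K) :=
  inferInstanceAs (NormedAddCommGroup (Jet K))

instance instJetNS (K : Set (Cn n)) : NormedSpace ℝ (JetS K) :=
  inferInstanceAs (NormedSpace ℝ (Jet K))

instance instJetCS (K : Set (Cn n)) : CompleteSpace (JetS K) :=
  inferInstanceAs (CompleteSpace (Jet K))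

/-- the components of a jet -/
def p0L (K : Set (Cn n)) : JetS K →L[ℝ] HF (1 / 2) K ℝ :=
  ContinuousLinearMap.fst ℝ (HF (1 / 2) K ℝ)
    (HF (1 / 2) K (Cn n →L[ℝ] ℝ) × HF (1 / 2) K (Cn n →L[ℝ] Cn n →L[ℝ] ℝ))

def p1L (K : Set (Cn n)) : JetS K →L[ℝ] HF (1 / 2) K (Cn n →L[ℝ] ℝ) :=
  (ContinuousLinearMap.fst ℝ (HF (1 / 2) K (Cn n →L[ℝ] ℝ))
    (HF (1 / 2) K (Cn n →L[ℝ] Cn n →L[ℝ] ℝ))).comp (ContinuousLinearMap.snd ℝ (HF (1 / 2) K ℝ)
    (HF (1 / 2) K (Cn n →L[ℝ] ℝ) × HF (1 / 2) K (Cn n →L[ℝ] Cn n →L[ℝ] ℝ)))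

def p2L (K : Set (Cn n)) : JetS K →L[ℝ] HF (1 / 2) K (Cn n →L[ℝ] Cn n →L[ℝ] ℝ) :=
  (ContinuousLinearMap.snd ℝ (HF (1 / 2) K (Cn n →L[ℝ] ℝ))
    (HF (1 / 2) K (Cn n →L[ℝ] Cn n →L[ℝ] ℝ))).comp (ContinuousLinearMap.snd ℝ (HF (1 / 2) K ℝ)
    (HF (1 / 2) K (Cn n →L[ℝ] ℝ) × HF (1 / 2) K (Cn n →L[ℝ] Cn n →L[ℝ] ℝ)))

@[simp] theorem p0L_apply (K : Set (Cn n)) (x : JetS K) : p0L K x = x.1 := rfl
@[simp] theorem p1L_apply (K : Set (Cn n)) (x : JetS K) : p1L K x = x.2.1 := rfl
@[simp] theorem p2L_apply (K : Set (Cn n)) (x : JetS K) : p2L K x = x.2.2 := rfl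

/-- families of jets -/
abbrev JJ (B : Cb A) : Type := ∀ k : B.κ, JetS (KK B k)

/-- families of Hölder functions -/
abbrev HH (B : Cb A) : Type := ∀ k : B.κ, Hol (KK B k)

theorem KK_compact (B : Cb A) (k : B.κ) : IsCompact (KK B k) := isCompact_closedBall _ _

theorem KK_convex (B : Cb A) (k : B.κ) : Convex ℝ (KK B k) := convex_closedBall _ _

theorem KK_sub (B : Cb A) (k : B.κ) : KK B k ⊆ (A.e (B.i k)).target := B.sub' k

theorem SmE.cd (f : SmE A) (i : A.ι) : ContDiffOn ℝ ∞ (inC A i f) (A.e i).target := f.2 i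

theorem SmE.cd3 (f : SmE A) (i : A.ι) : ContDiffOn ℝ 3 (inC A i f) (A.e i).target :=
  (SmE.cd f i).of_le ENat.LEInfty.out

/-- the jets of a smooth function -/
def jj (B : Cb A) : SmE A →ₗ[ℝ] JJ B where
  toFun f := fun k => jet (KK B k) (inC A (B.i k) f)
  map_add' f g := by
    funext k
    exact jet_add (KK_compact B k) (KK_convex B k) (A.e (B.i k)).open_target (KK_sub B k)
      (SmE.cd3 f (B.i k)) (SmE.cd3 g (B.i k))
  map_smul' c f := by
    funext k
    exact jet_smul (KK_compact B k) (KK_convex B k) (A.e (B.i k)).open_target (KK_sub B k)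
      (SmE.cd3 f (B.i k)) c

theorem exists_bd_sm (B : Cb A) (k : B.κ) {f : Cn n → ℝ}
    (hf : ContDiffOn ℝ ∞ f (A.e (B.i k)).target) : ∃ C, Bd (1 / 2) (KK B k) f C :=
  exists_bd half_pos' (by norm_num) (KK_compact B k) (KK_convex B k) (A.e (B.i k)).open_target
    (KK_sub B k) (hf.of_le (by simp))

theorem fn_of_sm (B : Cb A) (k : B.κ) {f : Cn n → ℝ}
    (hf : ContDiffOn ℝ ∞ f (A.e (B.i k)).target) {z : Cn n} (hz : z ∈ KK B k) :
    Hol.fn (Hol.of (KK B k) f) z = f z := by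
  obtain ⟨C, hC⟩ := exists_bd_sm B k hf
  exact Hol.fn_of hC hz

/-- the Hölder functions of a smooth function -/
def hh (B : Cb A) : SmE A →ₗ[ℝ] HH B where
  toFun f := fun k => Hol.of (KK B k) (inC A (B.i k) f)
  map_add' f g := by
    funext k
    refine Hol.ext fun z hz => ?_
    rw [Pi.add_apply, Hol.fn_add, fn_of_sm B k (SmE.cd (f + g) _) hz, fn_of_sm B k (SmE.cd f (B.i k)) hz,
      fn_of_sm B k (SmE.cd g _) hz]
    rfl
  map_smul' c f := by
    funext k
    refine Hol.ext fun z hz => ?_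
    rw [RingHom.id_apply, Pi.smul_apply, Hol.fn_smul, fn_of_sm B k (SmE.cd (c • f) _) hz,
      fn_of_sm B k (SmE.cd f (B.i k)) hz]
    rfl

theorem fn_hh (B : Cb A) (f : SmE A) (k : B.κ) {z : Cn n} (hz : z ∈ KK B k) :
    Hol.fn (hh B f k) z = inC A (B.i k) f z := fn_of_sm B k (SmE.cd f (B.i k)) hz

theorem fn_jj0 (B : Cb A) (f : SmE A) (k : B.κ) {z : Cn n} (hz : z ∈ KK B k) :
    HF.fn (jj B f k).1 z = inC A (B.i k) f z :=
  fn_jet0 (KK_compact B k) (KK_convex B k) (A.e (B.i k)).open_target (KK_sub B k)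
      (SmE.cd3 f (B.i k)) hz

theorem fn_jj1 (B : Cb A) (f : SmE A) (k : B.κ) {z : Cn n} (hz : z ∈ KK B k) :
    HF.fn (jj B f k).2.1 z = fderiv ℝ (inC A (B.i k) f) z :=
  fn_jet1 (KK_compact B k) (KK_convex B k) (A.e (B.i k)).open_target (KK_sub B k)
      (SmE.cd3 f (B.i k)) hz

theorem fn_jj2 (B : Cb A) (f : SmE A) (k : B.κ) {z : Cn n} (hz : z ∈ KK B k) :
    HF.fn (jj B f k).2.2 z = fderiv ℝ (fderiv ℝ (inC A (B.i k) f)) z :=
  fn_jet2 (KK_compact B k) (KK_convex B k) (A.e (B.i k)).open_target (KK_sub B k)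
      (SmE.cd3 f (B.i k)) hz

/-- the constant function `1` -/
def oneE (A : Atl n X) : SmE A := ⟨fun _ => 1, fun _ => contDiffOn_const⟩

/-! ### the operator -/

section op

variable {ι : Type} [Fintype ι] [DecidableEq ι] (b : Module.Basis ι ℝ (Cn n)) (B : Cb A)
  {P : Type} [NormedAddCommGroup P] [NormedSpace ℝ P] (D : P → Dat (ofAtl A)) (u0 : X → ℝ)
  (k0 : ℝ)

/-- the form `(om + dd^c u0) (a, J c)` in the chart `i` -/
def bt (i : A.ι) (p : P) (z a c : Cn n) : ℝ :=
  (D p).om.w i z a ((D p).J.J i z c) +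
    ddcF (inC A i u0) ((D p).J.J i) z a ((D p).J.J i z c)

/-- the pointwise matrix of `om + dd^c u0 + (part linear in the jet (ξ, H))` -/
def MM (i : A.ι) (p : P) (z : Cn n) (ξ : Cn n →L[ℝ] ℝ) (H : Cn n →L[ℝ] Cn n →L[ℝ] ℝ) :
    Matrix ι ι ℝ :=
  Matrix.of fun a c => bt D u0 i p z (b a) (b c) + (c2 ((D p).J.J i) (b a) (b c) z H +
    c1 ((D p).J.J i) (b a) (b c) z ξ)

/-- entries of the matrix of Hölder functions -/
def ent (k : B.κ) (p : P) (x : JJ B) (a c : Cn n) : Hol (KK B k) :=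
  Hol.of (KK B k) (fun z => bt D u0 (B.i k) p z a c) +
    Hol.toHF.symm (HF.bil half_pos' (ContinuousLinearMap.id ℝ _)
        (HF.of (1 / 2) (KK B k) (c2 ((D p).J.J (B.i k)) a c)) (x k).2.2 +
      HF.bil half_pos' (ContinuousLinearMap.id ℝ _)
        (HF.of (1 / 2) (KK B k) (c1 ((D p).J.J (B.i k)) a c)) (x k).2.1)

/-- **the operator** -/
def GG (p : P) (x : JJ B) : HH B := fun k =>
  (Matrix.of fun a c => ent B D u0 k p x (b a) (b c)).det *
    Hol.of (KK B k) (fun z => (k0 * (D p).r.r (B.i k) z)⁻¹)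

variable {D} {T : Set P}

/-- the derivative in the chart of a jointly smooth family -/
theorem js_fderiv {F : Type*} [NormedAddCommGroup F] [NormedSpace ℝ F] {V : Type}
    [NormedAddCommGroup V] [NormedSpace ℝ V] (hT : IsOpen T) {U : Set V} (hU : IsOpen U)
    {a : P → V → F} (ha : ContDiffOn ℝ ∞ (fun q : P × V => a q.1 q.2) (T ×ˢ U)) :
    ContDiffOn ℝ ∞ (fun q : P × V => fderiv ℝ (a q.1) q.2) (T ×ˢ U) := by
  intro q hq
  refine ContDiffAt.contDiffWithinAt ?_
  have h1 : ContDiffAt ℝ ∞ (fun q : P × V => a q.1 q.2) q :=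
    ha.contDiffAt ((hT.prod hU).mem_nhds hq)
  refine ContDiffAt.fderiv (f := fun (q : P × V) (y : V) => a q.1 y)
    (g := fun q => q.2) (n := ∞) (m := ∞) ?_ contDiffAt_snd (by simp)
  have h2 : ContDiffAt ℝ ∞ (fun q : (P × V) × V => (q.1.1, q.2)) (q, q.2) :=
    (contDiffAt_fst.fst).prodMk contDiffAt_snd
  exact ContDiffAt.comp (g := fun q : P × V => a q.1 q.2)
    (f := fun q : (P × V) × V => (q.1.1, q.2)) (q, q.2) h1 h2

theorem js_c2 (i : A.ι) {hD : JSJ T fun p => (D p).J} (a c : Cn n) :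
    ContDiffOn ℝ ∞ (fun q : P × Cn n => c2 ((D q.1).J.J i) a c q.2)
      (T ×ˢ (A.e i).target) := by
  have hJ : ContDiffOn ℝ ∞ (fun q : P × Cn n => (D q.1).J.J i q.2) (T ×ˢ (A.e i).target) := hD i
  have hJv : ∀ v : Cn n, ContDiffOn ℝ ∞ (fun q : P × Cn n => (D q.1).J.J i q.2 v)
      (T ×ˢ (A.e i).target) := fun v => hJ.clm_apply contDiffOn_const
  refine contDiffOn_clm_apply.2 fun H => ?_
  have h1 : ContDiffOn ℝ ∞ (fun q : P × Cn n => -(H a ((D q.1).J.J i q.2 ((D q.1).J.J i q.2 c))) +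
      H ((D q.1).J.J i q.2 c) ((D q.1).J.J i q.2 a)) (T ×ˢ (A.e i).target) :=
    ((H a).contDiff.comp_contDiffOn (hJ.clm_apply (hJv c))).neg.add
      ((H.contDiff.comp_contDiffOn (hJv c)).clm_apply (hJv a))
  exact h1

theorem js_c1 (hT : IsOpen T) (i : A.ι) {hD : JSJ T fun p => (D p).J} (a c : Cn n) :
    ContDiffOn ℝ ∞ (fun q : P × Cn n => c1 ((D q.1).J.J i) a c q.2)
      (T ×ˢ (A.e i).target) := by
  have hJ : ContDiffOn ℝ ∞ (fun q : P × Cn n => (D q.1).J.J i q.2) (T ×ˢ (A.e i).target) := hD i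
  have hJv : ∀ v : Cn n, ContDiffOn ℝ ∞ (fun q : P × Cn n => (D q.1).J.J i q.2 v)
      (T ×ˢ (A.e i).target) := fun v => hJ.clm_apply contDiffOn_const
  have hDJ : ContDiffOn ℝ ∞ (fun q : P × Cn n => fderiv ℝ ((D q.1).J.J i) q.2)
      (T ×ˢ (A.e i).target) := js_fderiv (a := fun p z => (D p).J.J i z) hT
        (A.e i).open_target hJ
  refine contDiffOn_clm_apply.2 fun ξ => ?_
  have h1 : ContDiffOn ℝ ∞ (fun q : P × Cn n =>
      ξ (-(fderiv ℝ ((D q.1).J.J i) q.2 a ((D q.1).J.J i q.2 c)) +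
        fderiv ℝ ((D q.1).J.J i) q.2 ((D q.1).J.J i q.2 c) a)) (T ×ˢ (A.e i).target) :=
    ξ.contDiff.comp_contDiffOn
      (((hDJ.clm_apply contDiffOn_const).clm_apply (hJv c)).neg.add
        ((hDJ.clm_apply (hJv c)).clm_apply contDiffOn_const))
  exact h1

theorem js_bt (hT : IsOpen T) (hD : JSDat T D) (hu : A.Sm u0) (i : A.ι) (a c : Cn n) :
    ContDiffOn ℝ ∞ (fun q : P × Cn n => bt D u0 i q.1 q.2 a c) (T ×ˢ (A.e i).target) := by
  have hJ : ContDiffOn ℝ ∞ (fun q : P × Cn n => (D q.1).J.J i q.2) (T ×ˢ (A.e i).target) :=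
    hD.J i
  have hJv : ∀ v : Cn n, ContDiffOn ℝ ∞ (fun q : P × Cn n => (D q.1).J.J i q.2 v)
      (T ×ˢ (A.e i).target) := fun v => hJ.clm_apply contDiffOn_const
  have hom : ContDiffOn ℝ ∞ (fun q : P × Cn n => (D q.1).om.w i q.2) (T ×ˢ (A.e i).target) :=
    hD.om i
  have hui : ContDiffOn ℝ ∞ (inC A i u0) (A.e i).target := hu i
  have h1 : ContDiffOn ℝ ∞ (fun q : P × Cn n => fderiv ℝ (inC A i u0) q.2)
      (T ×ˢ (A.e i).target) :=
    (hui.fderiv_of_isOpen (A.e i).open_target (m := ∞) (by simp)).comp contDiffOn_snd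
      fun q hq => hq.2
  have h2 : ContDiffOn ℝ ∞ (fun q : P × Cn n => fderiv ℝ (fderiv ℝ (inC A i u0)) q.2)
      (T ×ˢ (A.e i).target) :=
    ((hui.fderiv_of_isOpen (A.e i).open_target (m := ∞) (by simp)).fderiv_of_isOpen
      (A.e i).open_target (m := ∞) (by simp)).comp contDiffOn_snd fun q hq => hq.2
  have h3 : ContDiffOn ℝ ∞ (fun q : P × Cn n => (D q.1).om.w i q.2 a ((D q.1).J.J i q.2 c) +
      (c2 ((D q.1).J.J i) a c q.2 (fderiv ℝ (fderiv ℝ (inC A i u0)) q.2) +
        c1 ((D q.1).J.J i) a c q.2 (fderiv ℝ (inC A i u0) q.2))) (T ×ˢ (A.e i).target) :=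
    ((hom.clm_apply contDiffOn_const).clm_apply (hJv c)).add
      (((js_c2 i (hD := hD.J) a c).clm_apply h2).add
        ((js_c1 hT i (hD := hD.J) a c).clm_apply h1))
  refine h3.congr fun q _ => ?_
  rw [bt, ddcF_eq]

variable (hT : IsOpen T) (hD : JSDat T D) (hu : A.Sm u0)
  (hr : ∀ p ∈ T, ∀ i, ∀ z ∈ (A.e i).target, k0 * (D p).r.r i z ≠ 0)
include hT hD hu

theorem slice_sm {F : Type} [NormedAddCommGroup F] [NormedSpace ℝ F] {V : Type}
    [NormedAddCommGroup V] [NormedSpace ℝ V] {U : Set V}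
    {a : P → V → F} (ha : ContDiffOn ℝ ∞ (fun q : P × V => a q.1 q.2) (T ×ˢ U)) {p : P}
    (hp : p ∈ T) : ContDiffOn ℝ ∞ (a p) U :=
  slice_contDiffOn (c := fun q : P × V => a q.1 q.2) ha hp

theorem fn_ent (k : B.κ) {p : P} (hp : p ∈ T) (x : JJ B) (a c : Cn n) {z : Cn n}
    (hz : z ∈ KK B k) : Hol.fn (ent B D u0 k p x a c) z = bt D u0 (B.i k) p z a c +
      (c2 ((D p).J.J (B.i k)) a c z (HF.fn (x k).2.2 z) +
        c1 ((D p).J.J (B.i k)) a c z (HF.fn (x k).2.1 z)) := by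
  have hK := KK_compact B k
  have hKc := KK_convex B k
  have hKs := KK_sub B k
  have ho := (A.e (B.i k)).open_target
  have e0 := slice_sm (a := fun p z => bt D u0 (B.i k) p z a c) u0 hT hD hu
    (js_bt u0 hT hD hu (B.i k) a c) hp
  have e2 := slice_sm (a := fun p z => c2 ((D p).J.J (B.i k)) a c z) u0 hT hD hu
    (js_c2 (B.i k) (hD := hD.J) a c) hp
  have e1 := slice_sm (a := fun p z => c1 ((D p).J.J (B.i k)) a c z) u0 hT hD hu
    (js_c1 hT (B.i k) (hD := hD.J) a c) hp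
  obtain ⟨C0, h0⟩ := exists_bd half_pos' (by norm_num) hK hKc ho hKs (e0.of_le (by simp))
  obtain ⟨C2, h2⟩ := exists_bd half_pos' (by norm_num) hK hKc ho hKs (e2.of_le (by simp))
  obtain ⟨C1, h1⟩ := exists_bd half_pos' (by norm_num) hK hKc ho hKs (e1.of_le (by simp))
  have e3 : ∀ y : HF (1 / 2) (KK B k) ℝ, Hol.fn (Hol.toHF.symm y) z = HF.fn y z := by
    intro y
    rw [Hol.fn, ContinuousLinearEquiv.apply_symm_apply]
  rw [ent, Hol.fn_add, Hol.fn_of h0 hz, e3, HF.fn_add, HF.fn_bil _ _ _ _ hz, HF.fn_bil _ _ _ _ hz,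
    HF.fn_of h2 hz, HF.fn_of h1 hz]
  rfl

include hr

theorem js_r (i : A.ι) : ContDiffOn ℝ ∞ (fun q : P × Cn n => (k0 * (D q.1).r.r i q.2)⁻¹)
    (T ×ˢ (A.e i).target) :=
  (contDiffOn_const.mul (hD.r i)).inv fun q hq => hr q.1 hq.1 i q.2 hq.2

/-- values of the operator -/
theorem fn_GG (k : B.κ) {p : P} (hp : p ∈ T) (x : JJ B) {z : Cn n} (hz : z ∈ KK B k) :
    Hol.fn (GG b B D u0 k0 p x k) z =
      (MM b D u0 (B.i k) p z (HF.fn (x k).2.1 z) (HF.fn (x k).2.2 z)).det *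
        (k0 * (D p).r.r (B.i k) z)⁻¹ := by
  have e0 := slice_sm (a := fun p z => (k0 * (D p).r.r (B.i k) z)⁻¹) u0 hT hD hu
    (js_r u0 k0 hT hD hu hr (B.i k)) hp
  obtain ⟨C0, h0⟩ := exists_bd_sm B k e0
  rw [GG, Hol.fn_mul _ _ hz, Hol.fn_det _ hz, Hol.fn_of h0 hz]
  congr 2
  ext a c
  rw [Matrix.map_apply, Matrix.of_apply, fn_ent B u0 hT hD hu k hp x (b a) (b c) hz]
  rfl

/-- **the operator is smooth** -/
theorem contDiffOn_GG : ContDiffOn ℝ ∞ (fun q : P × JJ B => GG b B D u0 k0 q.1 q.2)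
    (T ×ˢ univ) := by
  refine contDiffOn_pi.2 fun k => ?_
  have hK := KK_compact B k
  have hKc := KK_convex B k
  have hKs := KK_sub B k
  have ho := (A.e (B.i k)).open_target
  have m1 : MapsTo (fun q : P × JJ B => q.1) (T ×ˢ univ) T := fun q hq => hq.1
  have hx : ContDiff ℝ ∞ (fun q : P × JJ B => q.2 k) :=
    (ContinuousLinearMap.proj (R := ℝ) (φ := fun k : B.κ => JetS (KK B k)) k).contDiff.comp
      contDiff_snd
  have hx1 : ContDiffOn ℝ ∞ (fun q : P × JJ B => (q.2 k).2.1) (T ×ˢ univ) :=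
    ((p1L (KK B k)).contDiff.comp hx).contDiffOn
  have hx2 : ContDiffOn ℝ ∞ (fun q : P × JJ B => (q.2 k).2.2) (T ×ˢ univ) :=
    ((p2L (KK B k)).contDiff.comp hx).contDiffOn
  refine ContDiffOn.mul (contDiff_det fun a c => ?_)
    ((Hol.contDiffOn_of hK hKc hT ho hKs (js_r u0 k0 hT hD hu hr (B.i k))).comp
      contDiffOn_fst m1)
  show ContDiffOn ℝ ∞ (fun q : P × JJ B => ent B D u0 k q.1 q.2 (b a) (b c)) (T ×ˢ univ)
  refine ContDiffOn.add ((Hol.contDiffOn_of hK hKc hT ho hKs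
    (js_bt u0 hT hD hu (B.i k) (b a) (b c))).comp contDiffOn_fst m1) ?_
  refine (ContinuousLinearEquiv.contDiff _).comp_contDiffOn (ContDiffOn.add ?_ ?_)
  · refine ContDiffOn.clm_apply (ContDiffOn.clm_apply contDiffOn_const ?_) hx2
    exact (Hjs_680.contDiffOn_of half_pos' (by norm_num) hK hKc hT ho hKs
      (js_c2 (B.i k) (hD := hD.J) (b a) (b c))).comp contDiffOn_fst m1
  · refine ContDiffOn.clm_apply (ContDiffOn.clm_apply contDiffOn_const ?_) hx1
    exact (Hjs_680.contDiffOn_of half_pos' (by norm_num) hK hKc hT ho hKs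
      (js_c1 hT (B.i k) (hD := hD.J) (b a) (b c))).comp contDiffOn_fst m1

end op

end

end Crest.Agent.R281.Yv_900
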