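import Crest.Agent.R281.Yv5_900
import Crest.Agent.R281.Tt5_476
import Crest.Agent.R281.Yv4_900
import Crest.Agent.R273.SchJ_152
import Crest.Agent.R273.CLinE_933
import Crest.Agent.R281.Yv6_900

-- ▼ part R281/Yv7_476
section

/-!
# Row 281, YAU-VAR (helper476): GLOB and TR

* `globSt` : `GlobSt b B D u0 k0 T` : the operator of helper900 maps jets of smooth functions to
  Hölder functions of smooth functions
* `trSt`   : `TrSt b B D0 U` : forms of class `C⁰` in the open half balls determine everything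
-/

set_option autoImplicit false
set_option maxSynthPendingDepth 3
set_option linter.unusedSectionVars false

open Set Filter Topology Metric
open scoped ContDiff

namespace Crest.Agent.R281.Yv_900

open Crest.Agent.R275.Geo Crest.Agent.R275.Core144 Crest.Agent.R275.EDR890
open Crest.Agent.R273.YauDefs_635 Crest.Agent.R273.SchF_152
open Crest.Agent.R260.ACM_580 Crest.Agent.R281.HkR_835 Crest.Agent.R281.NefO_476
open Crest.Agent.R281.Nef_252 Crest.Agent.R281.Hjs_680 Crest.Agent.R281.Tt_476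

noncomputable section

section lin

variable {V : Type} [NormedAddCommGroup V] [NormedSpace ℝ V]

/-- `ddcF` of two functions with the same germ -/
theorem ddcF_congr {U U' : V → ℝ} {z : V} (h : U =ᶠ[𝓝 z] U') (T : V → V →L[ℝ] V) (a b : V) :
    ddcF U T z a b = ddcF U' T z a b := by
  have h1 : fderiv ℝ U =ᶠ[𝓝 z] fderiv ℝ U' := h.fderiv
  unfold ddcF
  rw [h1.eq_of_nhds, h1.fderiv_eq]

/-- `ddcF` of a sum -/
theorem ddcF_add {U U' : V → ℝ} {z : V} (h : ContDiffAt ℝ 2 U z) (h' : ContDiffAt ℝ 2 U' z)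
    (T : V → V →L[ℝ] V) (a b : V) :
    ddcF (fun y => U y + U' y) T z a b = ddcF U T z a b + ddcF U' T z a b := by
  have d : ∀ {W : V → ℝ}, ContDiffAt ℝ 2 W z → ∀ᶠ y in 𝓝 z, DifferentiableAt ℝ W y := by
    intro W hW
    filter_upwards [hW.eventually (by simp)] with y hy using hy.differentiableAt (by simp)
  have d2 : ∀ {W : V → ℝ}, ContDiffAt ℝ 2 W z → DifferentiableAt ℝ (fderiv ℝ W) z := by
    intro W hW
    exact (hW.fderiv_right (m := 1) (by norm_num)).differentiableAt (by simp)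
  have h1 : fderiv ℝ (fun y => U y + U' y) =ᶠ[𝓝 z] fun y => fderiv ℝ U y + fderiv ℝ U' y := by
    filter_upwards [d h, d h'] with y hy hy' using fderiv_fun_add hy hy'
  unfold ddcF
  rw [h1.eq_of_nhds, h1.fderiv_eq, fderiv_fun_add (d2 h) (d2 h')]
  simp only [add_apply]
  ring

/-- `dd^c` in a chart as a bilinear form -/
def ddcL (U : V → ℝ) (T : V → V →L[ℝ] V) (z : V) : Bil V :=
  -((fderiv ℝ (fderiv ℝ U) z).bilinearComp (ContinuousLinearMap.id ℝ V) (T z) +
      ((ContinuousLinearMap.compL ℝ V V ℝ) (fderiv ℝ U z)).comp (fderiv ℝ T z)) +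
    (((fderiv ℝ (fderiv ℝ U) z).bilinearComp (ContinuousLinearMap.id ℝ V) (T z)).flip +
      (((ContinuousLinearMap.compL ℝ V V ℝ) (fderiv ℝ U z)).comp (fderiv ℝ T z)).flip)

theorem ddcL_apply (U : V → ℝ) (T : V → V →L[ℝ] V) (z a b : V) :
    ddcL U T z a b = ddcF U T z a b := by
  simp [ddcL, ddcF]

end lin

variable {n : ℕ} {X : Type} [TopologicalSpace X] {A : Atl n X}

section tr

variable (D0 : Dat (ofAtl A)) {U : X → ℝ}

/-- the form `(om + dd^c U)(·, J ·)` as a bilinear form -/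
def btL (D0 : Dat (ofAtl A)) (U : X → ℝ) (i : A.ι) (z : Cn n) : Bil (Cn n) :=
  (D0.om.w i z + ddcL (inC A i U) (D0.J.J i) z).bilinearComp
    (ContinuousLinearMap.id ℝ (Cn n)) (D0.J.J i z)

theorem btL_apply (i : A.ι) (z v w : Cn n) :
    btL D0 U i z v w = bt (fun _ : Unit => D0) U i () z v w := by
  simp only [btL, bt, ContinuousLinearMap.bilinearComp_apply, ContinuousLinearMap.id_apply,
    add_apply, ddcL_apply]

/-- transition law of `om + dd^c U` -/
theorem bt_tr (hU : ∀ i, ContDiffOn ℝ 2 (inC A i U) (A.e i).target) {i j : A.ι} {z : Cn n}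
    (hz : z ∈ (ofAtl A).ov i j) (v w : Cn n) :
    bt (fun _ : Unit => D0) U i () z v w =
      bt (fun _ : Unit => D0) U j () ((ofAtl A).t i j z) (fderiv ℝ ((ofAtl A).t i j) z v)
        (fderiv ℝ ((ofAtl A).t i j) z w) := by
  have ho := (RCh.isOpen_ov (C := ofAtl A) i j).mem_nhds hz
  have hz' := RCh.t_mem hz
  have hJw := D0.J.tr i j z hz w
  have h1 : inC A i U =ᶠ[𝓝 z] fun y => inC A j U ((ofAtl A).t i j y) := by
    filter_upwards [ho] with y hy
    have e1 : (A.e j).symm ((A.e j) ((A.e i).symm y)) = (A.e i).symm y := (A.e j).left_inv hy.2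
    exact congrArg U e1.symm
  have h2 : ContDiffAt ℝ 2 (inC A j U) ((ofAtl A).t i j z) :=
    (hU j).contDiffAt ((A.e j).open_target.mem_nhds hz'.1)
  have h3 : ContDiffAt ℝ ∞ ((ofAtl A).t i j) z := 
    (RCh.t_smooth (C := ofAtl A) i j).contDiffAt ho
  have h4 : DifferentiableAt ℝ (D0.J.J j) ((ofAtl A).t i j z) :=
    ((D0.J.sm j).contDiffAt ((A.e j).open_target.mem_nhds hz'.1)).differentiableAt (by simp)
  have h5 : DifferentiableAt ℝ (D0.J.J i) z :=
    ((D0.J.sm i).contDiffAt ((A.e i).open_target.mem_nhds hz.1)).differentiableAt (by simp)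
  have h6 := ddcF_comp (U := inC A j U) (φ := (ofAtl A).t i j) (J := D0.J.J j) (J' := D0.J.J i)
    h2 h3 h4 h5 (by filter_upwards [ho] with y hy v using D0.J.tr i j y hy v) v (D0.J.J i z w)
  have h7 := D0.om.tr i j z hz v (D0.J.J i z w)
  show D0.om.w i z v (D0.J.J i z w) + ddcF (inC A i U) (D0.J.J i) z v (D0.J.J i z w) = _
  rw [ddcF_congr h1, h6, h7, hJw]
  rfl

/-- points of charts lie in half balls -/
theorem exists_ball (B : Cb A) {i : A.ι} {z : Cn n} (hz : z ∈ (A.e i).target) :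
    ∃ k, z ∈ (ofAtl A).ov i (B.i k) ∧ (ofAtl A).t i (B.i k) z ∈ ball (B.z k) (B.r k / 2) := by
  obtain ⟨k, hk, hb⟩ := B.cover ((A.e i).symm z)
  exact ⟨k, ⟨hz, hk⟩, hb⟩

/-- **(L2') TR** -/
theorem trSt {ι : Type} [Fintype ι] [DecidableEq ι] (b : Module.Basis ι ℝ (Cn n)) (B : Cb A)
    (D0 : Dat (ofAtl A)) (U : X → ℝ) : TrSt b B D0 U := by
  intro hU
  refine ⟨fun h i z hz v hv => ?_, fun c h i z hz => ?_⟩
  · obtain ⟨k, hk, hb⟩ := exists_ball B hz
    rw [bt_tr D0 hU hk]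
    refine h k _ hb _ fun h0 => hv ?_
    rw [← RCh.dt_dt hk v, h0, map_zero]
  · obtain ⟨k, hk, hb⟩ := exists_ball B hz
    have e1 : (Matrix.of fun a c => bt (fun _ : Unit => D0) U i () z (b a) (b c)).det =
        detB b (fun x y => btL D0 U i z x y) := by
      unfold detB
      simp only [btL_apply]
    have e2 : (Matrix.of fun a c => bt (fun _ : Unit => D0) U (B.i k) ()
        ((ofAtl A).t i (B.i k) z) (b a) (b c)).det =
        detB b (fun x y => btL D0 U (B.i k) ((ofAtl A).t i (B.i k) z) x y) := by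
      unfold detB
      simp only [btL_apply]
    have e3 : detB b (fun x y => btL D0 U i z x y) =
        detB b (fun x y => btL D0 U (B.i k) ((ofAtl A).t i (B.i k) z)
          (fderiv ℝ ((ofAtl A).t i (B.i k)) z x) (fderiv ℝ ((ofAtl A).t i (B.i k)) z y)) :=
      detB_congr b fun x y => by rw [btL_apply, btL_apply, bt_tr D0 hU hk]
    have e4 : D0.r.r i z = D0.r.r (B.i k) ((ofAtl A).t i (B.i k) z) *
        (fderiv ℝ ((ofAtl A).t i (B.i k)) z).det ^ 2 := D0.r.tr i (B.i k) z hk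
    rw [e1, e3, detB_pullB b b, mdet_self b, ← e2, h k _ hb, e4]
    ring

end tr

section glb

variable {ι : Type} [Fintype ι] [DecidableEq ι] (b : Module.Basis ι ℝ (Cn n)) (B : Cb A)
  {P : Type} [NormedAddCommGroup P] [NormedSpace ℝ P] {D : P → Dat (ofAtl A)} (u0 : X → ℝ)
  (k0 : ℝ) {T : Set P}

/-- **(L2) GLOB** -/
theorem globSt (hT : IsOpen T) (hD : JSDat T D) (hu : A.Sm u0)
    (hr : ∀ p ∈ T, ∀ i, ∀ z ∈ (A.e i).target, k0 * (D p).r.r i z ≠ 0) :
    GlobSt b B D u0 k0 T := by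
  intro p hp f
  have hs : Sm (ofAtl A) (fun x => u0 x + f.1 x) := fun i => (hu i).add (f.2 i)
  obtain ⟨g, hg, hgv⟩ := glob b (D p) hs fun i z hz => right_ne_zero_of_mul (hr p hp i z hz)
  have hg' : A.Sm (fun x => k0⁻¹ * g x) := fun i => contDiffOn_const.mul (hg i)
  refine ⟨⟨fun x => k0⁻¹ * g x, hg'⟩, ?_⟩
  funext k
  refine Hol.ext fun z hz => ?_
  have hzt : z ∈ (A.e (B.i k)).target := KK_sub B k hz
  have hn := (A.e (B.i k)).open_target.mem_nhds hzt
  rw [fn_hh B _ k hz, fn_GG b B u0 k0 hT hD hu hr k hp _ hz, fn_jj1 B f k hz, fn_jj2 B f k hz]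
  have e1 : inC A (B.i k) (fun x => k0⁻¹ * g x) z = k0⁻¹ * uc (ofAtl A) g (B.i k) z := rfl
  have e2 : (MM b D u0 (B.i k) p z (fderiv ℝ (inC A (B.i k) f) z)
      (fderiv ℝ (fderiv ℝ (inC A (B.i k) f)) z)).det =
      detB b (fun x y => ((D p).om + ddc (D p).J _ hs).w (B.i k) z x ((D p).J.J (B.i k) z y)) := by
    unfold MM detB
    congr 1
    ext a c
    rw [Matrix.of_apply, Matrix.of_apply]
    have h1 : ((D p).om + ddc (D p).J _ hs).w (B.i k) z (b a) ((D p).J.J (B.i k) z (b c)) =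
        (D p).om.w (B.i k) z (b a) ((D p).J.J (B.i k) z (b c)) +
          (ddc (D p).J _ hs).w (B.i k) z (b a) ((D p).J.J (B.i k) z (b c)) := rfl
    have h2 : ContDiffAt ℝ 2 (inC A (B.i k) u0) z :=
      ((hu (B.i k)).contDiffAt hn).of_le ENat.LEInfty.out
    have h3 : ContDiffAt ℝ 2 (inC A (B.i k) f) z :=
      ((f.2 (B.i k)).contDiffAt hn).of_le ENat.LEInfty.out
    have h4 : uc (ofAtl A) (fun x => u0 x + f.1 x) (B.i k) =
        fun y => inC A (B.i k) u0 y + inC A (B.i k) f y := rfl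
    refine Eq.trans ?_ h1.symm
    rw [ddc_w (C := ofAtl A) (D p).J _ hs hzt, h4, ddcF_add h2 h3, ← ddcF_eq, bt]
    ring
  have hk0 : k0 ≠ 0 := left_ne_zero_of_mul (hr p hp _ z hzt)
  have hr0 : (D p).r.r (B.i k) z ≠ 0 := right_ne_zero_of_mul (hr p hp _ z hzt)
  rw [e1, hgv (B.i k) z hzt, e2]
  field_simp

end glb

end

end Crest.Agent.R281.Yv_900
end

-- ▼ part R281/Pn1_355
section

/-!
# Row 281, YAU-VAR, leaf (L6) POSN, part 1 (helper355)

* `quad_pos`   : tube lemma for families of quadratic forms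
* `posn`       : the form `om_p + dd^c u0` stays positive on the half balls for `p` near `p₀`, with a
                 uniform room `δ` for the first and second derivatives `(ξ, H)`
* `posn_jet`   : the same for elements `x : JJ B` with `‖x‖ ≤ δ`
* `bt_add`     : the form of `u0 + U` for a `C²` function `U`
* `posn_C2`    : positivity of `om_p + dd^c (u0 + U)` on the half balls
-/

set_option autoImplicit false
set_option maxSynthPendingDepth 3
set_option linter.unusedSectionVars false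

open Set Filter Topology Metric
open scoped ContDiff

namespace Crest.Agent.R281.Pn_355

open Crest.Agent.R275.Geo Crest.Agent.R275.Core144 Crest.Agent.R275.EDR890
open Crest.Agent.R273.YauDefs_635 Crest.Agent.R273.SchF_152
open Crest.Agent.R260.ACM_580 Crest.Agent.R281.HkR_835 Crest.Agent.R281.NefO_476
open Crest.Agent.R281.Hjs_680 Crest.Agent.R281.Tt_476 Crest.Agent.R281.Yv_900

noncomputable section

/-! ### the tube lemma for quadratic forms -/

section loc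

variable {V : Type*} [NormedAddCommGroup V] [NormedSpace ℝ V] [FiniteDimensional ℝ V]
  {P W : Type*} [TopologicalSpace P] [TopologicalSpace W]

theorem quad_pos {T : Set P} (hT : IsOpen T) {U K : Set V} (hU : IsOpen U) (hK : IsCompact K)
    (hKU : K ⊆ U) {Φ : (P × W) × (V × V) → ℝ}
    (hΦ : ContinuousOn Φ ((T ×ˢ univ) ×ˢ (U ×ˢ univ)))
    (hq : ∀ (q : P × W) (z : V) (c : ℝ) (v : V), Φ (q, z, c • v) = c ^ 2 * Φ (q, z, v))
    {p₀ : P} (hp₀ : p₀ ∈ T) {w₀ : W}
    (hpos : ∀ z ∈ K, ∀ v, v ≠ 0 → 0 < Φ ((p₀, w₀), z, v)) :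
    ∀ᶠ q in 𝓝 p₀ ×ˢ 𝓝 w₀, ∀ z ∈ K, ∀ v, v ≠ 0 → 0 < Φ (q, z, v) := by
  have : ProperSpace V := FiniteDimensional.proper ℝ V
  have hopen : IsOpen ((T ×ˢ (univ : Set W)) ×ˢ (U ×ˢ (univ : Set V))) :=
    (hT.prod isOpen_univ).prod (hU.prod isOpen_univ)
  have hO : IsOpen (((T ×ˢ (univ : Set W)) ×ˢ (U ×ˢ (univ : Set V))) ∩ Φ ⁻¹' Ioi 0) :=
    hΦ.isOpen_inter_preimage hopen isOpen_Ioi
  have hsub : ({(p₀, w₀)} : Set (P × W)) ×ˢ (K ×ˢ sphere (0 : V) 1) ⊆
      ((T ×ˢ (univ : Set W)) ×ˢ (U ×ˢ (univ : Set V))) ∩ Φ ⁻¹' Ioi 0 := by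
    rintro ⟨⟨p, w⟩, z, v⟩ ⟨hpw, hz, hv⟩
    simp only [mem_singleton_iff, Prod.mk.injEq] at hpw
    obtain ⟨rfl, rfl⟩ := hpw
    refine ⟨⟨⟨hp₀, mem_univ _⟩, hKU hz, mem_univ _⟩, hpos z hz v fun h0 => ?_⟩
    simp [h0] at hv
  obtain ⟨A, B, hA, hB, hA', hB', hAB⟩ := generalized_tube_lemma isCompact_singleton
    (hK.prod (isCompact_sphere (0 : V) 1)) hO hsub
  have hA'' : A ∈ 𝓝 (p₀, w₀) := hA.mem_nhds (hA' rfl)
  rw [← nhds_prod_eq]
  refine mem_of_superset hA'' fun q hqA => ?_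
  intro z hz v hv
  have hn : 0 < ‖v‖ := norm_pos_iff.2 hv
  have h1 := hAB (mk_mem_prod hqA (hB' (mk_mem_prod hz (show ‖v‖⁻¹ • v ∈ sphere (0 : V) 1 by
    rw [mem_sphere_zero_iff_norm, norm_smul, norm_inv, norm_norm, inv_mul_cancel₀ hn.ne']))))
  have h2 : 0 < Φ (q, z, ‖v‖⁻¹ • v) := h1.2
  rw [hq] at h2
  exact (mul_pos_iff_of_pos_left (by positivity)).1 h2

end loc

/-! ### the form of the Monge-Ampère equation -/

section form

variable {n : ℕ} {X : Type} [TopologicalSpace X] {A : Atl n X} (B : Cb A)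
  {P : Type} [NormedAddCommGroup P] [NormedSpace ℝ P] {D : P → Dat (ofAtl A)} {u0 : X → ℝ}
  {T : Set P}

theorem c2_self (T : Cn n → Cn n →L[ℝ] Cn n) (v z : Cn n) (H : Cn n →L[ℝ] Cn n →L[ℝ] ℝ) :
    c2 T v v z H = -(H v (T z (T z v))) + H (T z v) (T z v) := rfl

theorem c1_self (T : Cn n → Cn n →L[ℝ] Cn n) (v z : Cn n) (ξ : Cn n →L[ℝ] ℝ) :
    c1 T v v z ξ = ξ (-(fderiv ℝ T z v (T z v)) + fderiv ℝ T z (T z v) v) := rfl

theorem c2_smul (T : Cn n → Cn n →L[ℝ] Cn n) (v z : Cn n) (c : ℝ)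
    (H : Cn n →L[ℝ] Cn n →L[ℝ] ℝ) :
    c2 T (c • v) (c • v) z H = c ^ 2 * c2 T v v z H := by
  rw [c2_self, c2_self]
  simp only [map_smul, smul_apply, smul_eq_mul]
  ring

theorem c1_smul (T : Cn n → Cn n →L[ℝ] Cn n) (v z : Cn n) (c : ℝ) (ξ : Cn n →L[ℝ] ℝ) :
    c1 T (c • v) (c • v) z ξ = c ^ 2 * c1 T v v z ξ := by
  rw [c1_self, c1_self]
  simp only [map_smul, smul_apply, smul_eq_mul, map_add, map_neg]
  ring

theorem bt_eq (i : A.ι) (p : P) (z a c : Cn n) : bt D u0 i p z a c =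
    (D p).om.w i z a ((D p).J.J i z c) +
      (c2 ((D p).J.J i) a c z (fderiv ℝ (fderiv ℝ (inC A i u0)) z) +
        c1 ((D p).J.J i) a c z (fderiv ℝ (inC A i u0) z)) := by
  rw [bt, ddcF_eq]

theorem bt_smul (i : A.ι) (p : P) (z v : Cn n) (c : ℝ) :
    bt D u0 i p z (c • v) (c • v) = c ^ 2 * bt D u0 i p z v v := by
  rw [bt_eq, bt_eq, c2_smul, c1_smul]
  simp only [map_smul, smul_apply, smul_eq_mul]
  ring

/-- `bt` is the form `om + dd^c u0` -/
theorem bt_eq_ddc (hu : Sm (ofAtl A) u0) (i : A.ι) (p : P) {z : Cn n}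
    (hz : z ∈ (A.e i).target) (a c : Cn n) :
    bt D u0 i p z a c =
      ((D p).om + ddc (D p).J u0 hu).w i z a ((D p).J.J i z c) := by
  show _ = (D p).om.w i z a ((D p).J.J i z c) + (ddc (D p).J u0 hu).w i z a ((D p).J.J i z c)
  rw [ddc_w (D p).J u0 hu (i := i) hz]
  rfl

theorem bt_pos_iff (hu : Sm (ofAtl A) u0) (p : P) :
    (∀ i, ∀ z ∈ (A.e i).target, ∀ v, v ≠ 0 → 0 < bt D u0 i p z v v) ↔
      Pos (D p).J ((D p).om + ddc (D p).J u0 hu) := by
  constructor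
  · intro h i z hz v hv
    have := h i z hz v hv
    rwa [bt_eq_ddc hu i p hz] at this
  · intro h i z hz v hv
    rw [bt_eq_ddc hu i p hz]
    exact h i z hz v hv

/-- the value at `v` of the form perturbed by the jet `(ξ, H)` -/
def Fv (D : P → Dat (ofAtl A)) (u0 : X → ℝ) (i : A.ι)
    (q : (P × ((Cn n →L[ℝ] ℝ) × (Cn n →L[ℝ] Cn n →L[ℝ] ℝ))) × (Cn n × Cn n)) : ℝ :=
  bt D u0 i q.1.1 q.2.1 q.2.2 q.2.2 + (c2 ((D q.1.1).J.J i) q.2.2 q.2.2 q.2.1 q.1.2.2 +
    c1 ((D q.1.1).J.J i) q.2.2 q.2.2 q.2.1 q.1.2.1)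

theorem Fv_smul (i : A.ι) (q : P × ((Cn n →L[ℝ] ℝ) × (Cn n →L[ℝ] Cn n →L[ℝ] ℝ)))
    (z : Cn n) (c : ℝ) (v : Cn n) : Fv D u0 i (q, z, c • v) = c ^ 2 * Fv D u0 i (q, z, v) := by
  simp only [Fv, bt_smul, c2_smul, c1_smul]
  ring

theorem Fv_cont (hT : IsOpen T) (hD : JSDat T D) (hu : A.Sm u0) (i : A.ι) :
    ContinuousOn (Fv D u0 i) ((T ×ˢ univ) ×ˢ ((A.e i).target ×ˢ univ)) := by
  have hJ : ContDiffOn ℝ ∞ (fun q : P × Cn n => (D q.1).J.J i q.2) (T ×ˢ (A.e i).target) :=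
    hD.J i
  have hom : ContDiffOn ℝ ∞ (fun q : P × Cn n => (D q.1).om.w i q.2) (T ×ˢ (A.e i).target) :=
    hD.om i
  have hDJ : ContDiffOn ℝ ∞ (fun q : P × Cn n => fderiv ℝ ((D q.1).J.J i) q.2)
      (T ×ˢ (A.e i).target) := js_fderiv (a := fun p z => (D p).J.J i z) hT
        (A.e i).open_target hJ
  have hui : ContDiffOn ℝ ∞ (inC A i u0) (A.e i).target := hu i
  have hu1 : ContDiffOn ℝ ∞ (fderiv ℝ (inC A i u0)) (A.e i).target :=
    hui.fderiv_of_isOpen (A.e i).open_target (m := ∞) (by simp)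
  have hu2 : ContDiffOn ℝ ∞ (fderiv ℝ (fderiv ℝ (inC A i u0))) (A.e i).target :=
    hu1.fderiv_of_isOpen (A.e i).open_target (m := ∞) (by simp)
  let Q := (P × ((Cn n →L[ℝ] ℝ) × (Cn n →L[ℝ] Cn n →L[ℝ] ℝ))) × (Cn n × Cn n)
  let S : Set Q := (T ×ˢ univ) ×ˢ ((A.e i).target ×ˢ univ)
  have m1 : MapsTo (fun q : Q => (q.1.1, q.2.1)) S (T ×ˢ (A.e i).target) :=
    fun q hq => ⟨hq.1.1, hq.2.1⟩
  have m2 : MapsTo (fun q : Q => q.2.1) S (A.e i).target := fun q hq => hq.2.1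
  have k1 : ContinuousOn (fun q : Q => (q.1.1, q.2.1)) S := by fun_prop
  have k2 : ContinuousOn (fun q : Q => q.2.1) S := by fun_prop
  have kv : ContinuousOn (fun q : Q => q.2.2) S := by fun_prop
  have kξ : ContinuousOn (fun q : Q => q.1.2.1) S := by fun_prop
  have kH : ContinuousOn (fun q : Q => q.1.2.2) S := by fun_prop
  have gJ : ContinuousOn (fun q : Q => (D q.1.1).J.J i q.2.1) S := hJ.continuousOn.comp k1 m1
  have gDJ : ContinuousOn (fun q : Q => fderiv ℝ ((D q.1.1).J.J i) q.2.1) S :=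
    hDJ.continuousOn.comp k1 m1
  have gom : ContinuousOn (fun q : Q => (D q.1.1).om.w i q.2.1) S :=
    hom.continuousOn.comp k1 m1
  have g1 : ContinuousOn (fun q : Q => fderiv ℝ (inC A i u0) q.2.1) S :=
    hu1.continuousOn.comp k2 m2
  have g2 : ContinuousOn (fun q : Q => fderiv ℝ (fderiv ℝ (inC A i u0)) q.2.1) S :=
    hu2.continuousOn.comp k2 m2
  have gJv := gJ.clm_apply kv
  have gJJv := gJ.clm_apply gJv
  have gX : ContinuousOn (fun q : Q => -(fderiv ℝ ((D q.1.1).J.J i) q.2.1 q.2.2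
      ((D q.1.1).J.J i q.2.1 q.2.2)) + fderiv ℝ ((D q.1.1).J.J i) q.2.1
      ((D q.1.1).J.J i q.2.1 q.2.2) q.2.2) S :=
    (((gDJ.clm_apply kv).clm_apply gJv).neg).add ((gDJ.clm_apply gJv).clm_apply kv)
  have t0 := (gom.clm_apply kv).clm_apply gJv
  have t1 := (((g2.clm_apply kv).clm_apply gJJv).neg).add ((g2.clm_apply gJv).clm_apply gJv)
  have t2 := g1.clm_apply gX
  have t3 := (((kH.clm_apply kv).clm_apply gJJv).neg).add ((kH.clm_apply gJv).clm_apply gJv)
  have t4 := kξ.clm_apply gX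
  refine ((t0.add (t1.add t2)).add (t3.add t4)).congr fun q _ => ?_
  rw [Fv, bt_eq]
  rfl

/-- **POSN** : positivity on the half balls with uniform room for the jet -/
theorem posn (hT : IsOpen T) (hD : JSDat T D) (hu : A.Sm u0) {p₀ : P} (hp₀ : p₀ ∈ T)
    (hpos : ∀ i, ∀ z ∈ (A.e i).target, ∀ v, v ≠ 0 → 0 < bt D u0 i p₀ z v v) :
    ∃ δ > 0, ∀ᶠ p in 𝓝 p₀, ∀ k, ∀ z ∈ KK B k, ∀ (ξ : Cn n →L[ℝ] ℝ)
      (H : Cn n →L[ℝ] Cn n →L[ℝ] ℝ), ‖ξ‖ ≤ δ → ‖H‖ ≤ δ → ∀ v, v ≠ 0 →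
        0 < bt D u0 (B.i k) p z v v + (c2 ((D p).J.J (B.i k)) v v z H +
          c1 ((D p).J.J (B.i k)) v v z ξ) := by
  have h1 : ∀ k : B.κ, ∀ᶠ q in 𝓝 p₀ ×ˢ 𝓝 (0 : (Cn n →L[ℝ] ℝ) × (Cn n →L[ℝ] Cn n →L[ℝ] ℝ)),
      ∀ z ∈ KK B k, ∀ v, v ≠ 0 → 0 < Fv D u0 (B.i k) (q, z, v) := by
    intro k
    refine quad_pos hT (A.e (B.i k)).open_target (KK_compact B k) (KK_sub B k)
      (Fv_cont hT hD hu (B.i k)) (fun q z c v => Fv_smul (B.i k) q z c v) hp₀
      fun z hz v hv => ?_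
    have := hpos (B.i k) z (KK_sub B k hz) v hv
    simpa [Fv] using this
  have h2 := (eventually_all (ι := B.κ)).2 h1
  obtain ⟨N, hN, M, hM, hNM⟩ := mem_prod_iff.1 h2
  obtain ⟨ε, hε, hεM⟩ := Metric.mem_nhds_iff.1 hM
  refine ⟨ε / 2, half_pos hε, mem_of_superset hN fun p hp k z hz ξ H hξ hH v hv => ?_⟩
  have h3 : ((ξ, H) : (Cn n →L[ℝ] ℝ) × (Cn n →L[ℝ] Cn n →L[ℝ] ℝ)) ∈ M := by
    refine hεM ?_
    rw [mem_ball_zero_iff, Prod.norm_mk]
    exact max_lt (hξ.trans_lt (half_lt_self hε)) (hH.trans_lt (half_lt_self hε))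
  exact hNM (mk_mem_prod hp h3) k z hz v hv





end form

end

end Crest.Agent.R281.Pn_355
end

-- ▼ part R281/Pn2_355
section

/-!
# Row 281, YAU-VAR, leaf (L6) POSN, part 2 (helper355): the literal form `PosnSt` of Yv5_900
-/

set_option autoImplicit false
set_option maxSynthPendingDepth 3
set_option linter.unusedSectionVars false

open Set Filter Topology Metric
open scoped ContDiff

namespace Crest.Agent.R281.Pn_355

open Crest.Agent.R275.Geo Crest.Agent.R275.Core144 Crest.Agent.R275.EDR890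
open Crest.Agent.R273.YauDefs_635 Crest.Agent.R273.SchF_152
open Crest.Agent.R260.ACM_580 Crest.Agent.R281.HkR_835 Crest.Agent.R281.NefO_476
open Crest.Agent.R281.Hjs_680 Crest.Agent.R281.Tt_476 Crest.Agent.R281.Yv_900

noncomputable section

variable {n : ℕ} {X : Type} [TopologicalSpace X] {A : Atl n X} (B : Cb A)
  {P : Type} [NormedAddCommGroup P] [NormedSpace ℝ P] {D : P → Dat (ofAtl A)} {u0 : X → ℝ}
  {T : Set P} {p0 : P}

/-- **(L6)**, literal form of Yv5_900 -/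
theorem posnSt (hT : IsOpen T) (hp : p0 ∈ T) (hD : JSDat T D) (hu : A.Sm u0)
    (hpos : ∀ i, ∀ z ∈ (A.e i).target, ∀ v : Cn n, v ≠ 0 → 0 < bt D u0 i p0 z v v) :
    PosnSt B D u0 p0 := by
  obtain ⟨δ, hδ, h⟩ := posn B hT hD hu hp hpos
  exact ⟨_, h, δ, hδ, fun p hp' => hp'⟩

/-- **(L6)** from a solution `u0` of the Monge-Ampère equation at `p0` -/
theorem posnSt_sol {ι : Type} [Fintype ι] [DecidableEq ι] {b : Module.Basis ι ℝ (Cn n)}
    (hT : IsOpen T) (hp : p0 ∈ T) (hD : JSDat T D) (hs : SolMA b (D p0) u0) :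
    PosnSt B D u0 p0 :=
  posnSt B hT hp hD hs.sm ((bt_pos_iff hs.sm p0).2 hs.pos)

end

end Crest.Agent.R281.Pn_355
end

-- ▼ part R281/Cl1_449
section

/-!
# Row 281, YAU-VAR (L5) of 900 #8246 (helper449, second version): CLOS

* `closSt` : **`ClosSt B`** of `Yv5_900`: elements of the closure of the jets are jets of functions
  of class `C²`
-/

set_option autoImplicit false
set_option linter.unusedSectionVars false
set_option maxSynthPendingDepth 3

open Set Filter Topology Metric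
open scoped ContDiff

namespace Crest.Agent.R281.Cl_449

open Crest.Agent.R275.Geo Crest.Agent.R275.Core144 Crest.Agent.R275.EDR890
open Crest.Agent.R275.GC293
open Crest.Agent.R273 Crest.Agent.R273.YauDefs_635 Crest.Agent.R273.SchF_152
open Crest.Agent.R273.YauCh_635 (Tm)
open Crest.Agent.R281.Hjs_680 Crest.Agent.R281.Yv_900

noncomputable section

variable {n : ℕ} {X : Type} [TopologicalSpace X] {A : Atl n X}

theorem honest_jj (B : Cb A) (f : SmE A) (k : B.κ) :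
    Jet.Honest (K := KK B k) (jj B f k) :=
  jet_honest (KK_compact B k) (KK_convex B k) (A.e (B.i k)).open_target (KK_sub B k)
    (SmE.cd3 f (B.i k))

theorem interior_KK (B : Cb A) (k : B.κ) : interior (KK B k) = ball (B.z k) (B.r k / 2) :=
  interior_closedBall _ (by have := B.r0 k; positivity)

/-- a function which is `C²` in the half balls is `C²` in all charts -/
theorem c2_of_balls (B : Cb A) {U : X → ℝ}
    (h : ∀ k, ContDiffOn ℝ 2 (inC A (B.i k) U) (ball (B.z k) (B.r k / 2))) (i : A.ι) :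
    ContDiffOn ℝ 2 (inC A i U) (A.e i).target := by
  intro w0 hw0
  refine ContDiffAt.contDiffWithinAt ?_
  have hx0 : (A.e i).symm w0 ∈ (A.e i).source := (A.e i).map_target hw0
  obtain ⟨k, hk, hkb⟩ := B.cover ((A.e i).symm w0)
  have hov : w0 ∈ A.ov i (B.i k) := ⟨hw0, hk⟩
  have hT : ContDiffAt ℝ 2 (Tm A i (B.i k)) w0 := by
    have := YauCh_635.anal_Tm (A := A) (i := i) (j := B.i k) ⟨hx0, hk⟩
    rw [(A.e i).right_inv hw0] at this
    exact (this.contDiffAt.restrict_scalars ℝ)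
  have hTb : Tm A i (B.i k) w0 ∈ ball (B.z k) (B.r k / 2) := hkb
  have h1 : ContDiffAt ℝ 2 (inC A (B.i k) U) (Tm A i (B.i k) w0) :=
    (h k).contDiffAt (isOpen_ball.mem_nhds hTb)
  refine (h1.comp w0 hT).congr_of_eventuallyEq ?_
  filter_upwards [(isOpen_ov i (B.i k)).mem_nhds hov] with w hw
  simp only [Function.comp_apply, inC, Tm, (A.e (B.i k)).left_inv hw.2]

/-- **(L5) CLOS** -/
theorem closSt (B : Cb A) : ClosSt B := by
  intro x hx
  have hx' : x ∈ closure (LinearMap.range (jj B) : Set (JJ B)) := hx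
  obtain ⟨f, hf, hfx⟩ := mem_closure_iff_seq_limit.1 hx'
  choose F hF using hf
  have hk : ∀ k, Tendsto (fun ν => jj B (F ν) k) atTop (𝓝 (x k)) := by
    intro k
    have h1 := (tendsto_pi_nhds.1 hfx) k
    refine h1.congr fun ν => ?_
    rw [hF]
  have h0 : ∀ k, ∀ z ∈ KK B k, Tendsto (fun ν => inC A (B.i k) (F ν) z) atTop
      (𝓝 (HF.fn (x k).1 z)) := by
    intro k z hz
    have h1 : Tendsto (fun ν => p0L (KK B k) (jj B (F ν) k)) atTop (𝓝 (p0L (KK B k) (x k))) :=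
      ((p0L (KK B k)).continuous.tendsto _).comp (hk k)
    have h2 := HF.tendsto_fn h1 z
    refine h2.congr fun ν => ?_
    exact fn_jj0 B (F ν) k hz
  choose kk hks hkb using B.cover
  set U : X → ℝ := fun p => HF.fn (x (kk p)).1 (A.e (B.i (kk p)) p) with hU
  have hlim : ∀ p, Tendsto (fun ν => (F ν : X → ℝ) p) atTop (𝓝 (U p)) := by
    intro p
    have h1 := h0 (kk p) (A.e (B.i (kk p)) p) (ball_subset_closedBall (hkb p))
    refine h1.congr fun ν => ?_
    simp only [inC, (A.e (B.i (kk p))).left_inv (hks p)]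
  have hv : ∀ k, ∀ z ∈ KK B k, HF.fn (x k).1 z = inC A (B.i k) U z := fun k z hz =>
    tendsto_nhds_unique (h0 k z hz) (hlim _)
  have hon : ∀ k, Jet.Honest (K := KK B k) (x k) := by
    intro k
    have h1 : IsClosed {z : Jet (KK B k) | z.Honest} := Jet.isClosed_honest
    exact h1.mem_of_tendsto (hk k) (Eventually.of_forall fun ν => honest_jj B (F ν) k)
  have hev : ∀ k, ∀ z ∈ ball (B.z k) (B.r k / 2),
      inC A (B.i k) U =ᶠ[𝓝 z] HF.fn (x k).1 := by
    intro k z hz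
    filter_upwards [isOpen_ball.mem_nhds hz] with y hy
    exact (hv k y (ball_subset_closedBall hy)).symm
  refine ⟨U, c2_of_balls B fun k => ?_, fun k => ⟨hv k, fun z hz => ⟨?_, ?_⟩⟩⟩
  · have h1 := (hon k).c2
    rw [interior_KK] at h1
    exact h1.congr fun z hz => (hv k z (ball_subset_closedBall hz)).symm
  · have hz' : z ∈ interior (KK B k) := by rwa [interior_KK]
    rw [(hev k z hz).fderiv_eq]
    exact ((hon k).fderiv1 hz').symm
  · have hz' : z ∈ interior (KK B k) := by rwa [interior_KK]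
    rw [(hev k z hz).fderiv.fderiv_eq]
    exact ((hon k).fderiv2 hz').symm

end

end Crest.Agent.R281.Cl_449
end

-- ▼ part R281/Lz1_449
section

/-!
# Row 281, YAU-VAR (L3) of 900 #8246 (helper449): LIN, the linear theory in the jet norms

* `NH_of_hh`, `norm_jj_le`, `norm_hh_le` : comparison of the norms
* `linSt` : **`LinSt B K x1`** of `Yv5_900`
-/

set_option autoImplicit false
set_option linter.unusedSectionVars false
set_option maxSynthPendingDepth 3

open Set Filter Topology Metric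
open scoped ContDiff

namespace Crest.Agent.R281.Lz_449

open Crest.Agent.R275.Geo Crest.Agent.R275.Core144 Crest.Agent.R275.EDR890
open Crest.Agent.R275.GC293
open Crest.Agent.R273.Kah_333 Crest.Agent.R273.Hess_333 Crest.Agent.R273.HessB_333
open Crest.Agent.R273.Defs_333 Crest.Agent.R273.HM_333 Crest.Agent.R273.Vol_333
open Crest.Agent.R273.YauDefs_635 Crest.Agent.R273.SchA_152 Crest.Agent.R273.SchD_152
open Crest.Agent.R273.SchE_152 Crest.Agent.R273.SchF_152 Crest.Agent.R273.SchG_152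
open Crest.Agent.R273.SchH_152 Crest.Agent.R273.SchI_152 Crest.Agent.R273.SchJ_152
open Crest.Agent.R273.GreenM_5 Crest.Agent.R273.CLin_933
open Crest.Agent.R281.Hjs_680 Crest.Agent.R281.Yv_900

noncomputable section

variable {n : ℕ} {X : Type} [TopologicalSpace X] {A : Atl n X}

section norm

variable (B : Cb A)

/-- the norm of `hh f` bounds the Hölder norm -/
theorem NH_of_hh (f : SmE A) : B.NH (1 / 2) (‖hh B f‖ / 2) (f : X → ℝ) := by
  intro k
  have h1 : ‖hh B f k‖ ≤ ‖hh B f‖ := norm_le_pi_norm _ k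
  have h2 := (Hol.bd (hh B f k)).congr (g := inC A (B.i k) (f : X → ℝ)) fun z hz =>
    (fn_hh B f k hz).symm
  exact HO.mono ⟨h2.bd, h2.hol⟩ (by linarith)

/-- a `C^{2,1/2}` bound is a bound of the jets -/
theorem norm_jj_le (f : SmE A) {N : ℝ} (hN : 0 ≤ N) (h : B.N2 (1 / 2) N (f : X → ℝ)) :
    ‖jj B f‖ ≤ N := by
  refine (pi_norm_le_iff_of_nonneg hN).2 fun k => ?_
  have h1 := h k
  exact norm_jet_le (KK_compact B k) (KK_convex B k)
    (A.e (B.i k)).open_target (KK_sub B k) ⟨hN, h1.h0.bdd, h1.h0.hol⟩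
    ⟨hN, h1.h1.bdd, h1.h1.hol⟩ ⟨hN, h1.h2.bdd, h1.h2.hol⟩


end norm

theorem Lap_eq_lapK (K : Kah A) {u : X → ℝ} (hu : A.Sm u) (x : X) : Lap K u x = lapK K u x := by
  obtain ⟨i, hi⟩ := A.cover x
  rw [Lap, LapC_eq K hu hi, lapK_eq K hu hi]
  rfl

theorem NH_mul {B : Cb A} {a N c : ℝ} {f : X → ℝ} (h : B.NH a N f) (hc : 0 ≤ c) :
    B.NH a (c * N) (fun x => c * f x) := by
  intro k
  refine ⟨fun z hz => ?_, fun z hz w hw => ?_⟩
  · have h1 := (h k).bdd z hz
    have h2 : inC A (B.i k) (fun x => c * f x) z = c * inC A (B.i k) f z := rfl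
    rw [h2, norm_mul, Real.norm_eq_abs c, abs_of_nonneg hc]
    exact mul_le_mul_of_nonneg_left h1 hc
  · have h1 := (h k).hol z hz w hw
    have h2 : inC A (B.i k) (fun x => c * f x) z - inC A (B.i k) (fun x => c * f x) w =
        c * (inC A (B.i k) f z - inC A (B.i k) f w) := by
      simp only [inC]
      ring
    rw [h2, norm_mul, Real.norm_eq_abs c, abs_of_nonneg hc, mul_assoc]
    exact mul_le_mul_of_nonneg_left h1 hc

theorem NH_sub_const {B : Cb A} {a N m : ℝ} {f : X → ℝ} (h : B.NH a N f) (hN : 0 ≤ N)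
    (hm : |m| ≤ N) : B.NH a (2 * N) (fun x => f x - m) := by
  intro k
  refine ⟨fun z hz => ?_, fun z hz w hw => ?_⟩
  · have h1 := (h k).bdd z hz
    have h2 : inC A (B.i k) (fun x => f x - m) z = inC A (B.i k) f z - m := rfl
    rw [h2]
    refine (norm_sub_le _ _).trans ?_
    rw [Real.norm_eq_abs m]
    linarith
  · have h1 := (h k).hol z hz w hw
    have h2 : inC A (B.i k) (fun x => f x - m) z - inC A (B.i k) (fun x => f x - m) w =
        inC A (B.i k) f z - inC A (B.i k) f w := by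
      simp only [inC]
      ring
    rw [h2]
    refine h1.trans (mul_le_mul_of_nonneg_right (by linarith) (Real.rpow_nonneg (norm_nonneg _) _))

theorem Lap_sub_const (K : Kah A) {u : X → ℝ} (hu : A.Sm u) (c : ℝ) (x : X) :
    Lap K (fun y => u y - c) x = Lap K u x := by
  have h1 : IsLap (gi K) (fun y => u y - c) (Lap K u) := isLap_sub_const (isLap K hu) c
  exact congrFun (lap_of_isLap K (sm_sub_const hu c) h1) x

variable [T2Space X] [CompactSpace X] [ConnectedSpace X] [Finite A.ι]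

/-- **(L3), existence with estimate** -/
theorem lin_ex (P₀ : Part A) (K : Kah A) (B : Cb A) :
    ∃ C : ℝ, ∀ f : SmE A, ∃ (w : SmE A) (m : ℝ),
      IsLap (gi K) w (fun x => 8⁻¹ * (f.1 x + m)) ∧
      ‖jj B w‖ ≤ C * ‖hh B f‖ ∧ |m| ≤ C * ‖hh B f‖ := by
  obtain ⟨C, hC, hsch⟩ := schauder0 P₀ K B (a := 1 / 2) (by norm_num) (by norm_num)
  refine ⟨max C 1, fun f => ?_⟩
  have hf' : A.Sm (fun x => 8⁻¹ * f.1 x) := fun i => contDiffOn_const.mul (f.2 i)
  obtain ⟨v, m, hv, he⟩ := lin_kah K P₀ hf'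
  obtain ⟨x₁⟩ := (inferInstance : Nonempty X)
  set w : X → ℝ := fun x => v x - v x₁ with hw
  have hws : A.Sm w := sm_sub_const hv _
  set N : ℝ := ‖hh B f‖ / 2 with hN
  have hN0 : 0 ≤ N := by positivity
  have h1 : B.NH (1 / 2) (8⁻¹ * N) (fun x => 8⁻¹ * f.1 x) := NH_mul (NH_of_hh B f) (by norm_num)
  have hlap : ∀ x, Lap K w x = 8⁻¹ * f.1 x - m := by
    intro x
    rw [hw, Lap_sub_const K hv, Lap_eq_lapK K hv, he]
  have hil : IsLap (gi K) w (fun x => 8⁻¹ * f.1 x - m) := by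
    have h2 := isLap K hws
    have h3 : Lap K w = fun x => 8⁻¹ * f.1 x - m := funext hlap
    rwa [h3] at h2
  have hm : |m| ≤ 8⁻¹ * N := abs_const_le P₀ K hws hil fun x => h1.bdd x
  have h2 := NH_sub_const h1 (by positivity) hm
  have h3 := hsch x₁ w _ _ hws hil h2 (by simp [hw])
  refine ⟨⟨w, hws⟩, -(8 * m), ?_, ?_, ?_⟩
  · have h4 : (fun x => 8⁻¹ * (f.1 x + -(8 * m))) = fun x => 8⁻¹ * f.1 x - m := by
      funext x
      ring
    rw [h4]
    exact hil
  · have h4 := norm_jj_le B ⟨w, hws⟩ (N := C * (2 * (8⁻¹ * N))) (by positivity) h3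
    refine h4.trans ?_
    have h5 : C * (2 * (8⁻¹ * N)) = C * (8⁻¹ * ‖hh B f‖) := by
      rw [hN]
      ring
    rw [h5]
    calc C * (8⁻¹ * ‖hh B f‖) ≤ C * ‖hh B f‖ :=
          mul_le_mul_of_nonneg_left (by linarith [norm_nonneg (hh B f)]) hC.le
      _ ≤ _ := mul_le_mul_of_nonneg_right (le_max_left _ _) (norm_nonneg _)
  · rw [abs_neg, abs_mul, abs_of_pos (by norm_num : (0 : ℝ) < 8)]
    have h5 : N ≤ ‖hh B f‖ := by
      rw [hN]
      linarith [norm_nonneg (hh B f)]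
    calc 8 * |m| ≤ 1 * ‖hh B f‖ := by linarith
      _ ≤ _ := mul_le_mul_of_nonneg_right (le_max_right _ _) (norm_nonneg _)

/-- **(L3), uniqueness** -/
theorem lin_uniq (P₀ : Part A) (K : Kah A) {w : X → ℝ} (hw : A.Sm w)
    {m : ℝ} (h : IsLap (gi K) w (fun _ => 8⁻¹ * m)) {x₁ : X} (hx₁ : w x₁ = 0) : w = 0 ∧ m = 0 := by
  obtain ⟨B⟩ := Cb.nonempty A
  obtain ⟨C, hC, hsch⟩ := schauder0 P₀ K B (a := 1 / 2) (by norm_num) (by norm_num)
  have hil : IsLap (gi K) w (fun _ => 0 - (-(8⁻¹ * m))) := by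
    have h3 : (fun _ : X => 8⁻¹ * m) = fun _ => 0 - (-(8⁻¹ * m)) := by
      funext x
      ring
    rwa [h3] at h
  have hm : |(-(8⁻¹ * m))| ≤ 0 :=
    abs_const_le P₀ K (f := fun _ => (0 : ℝ)) hw hil fun x => by simp
  have hm0 : m = 0 := by
    have h1 := abs_nonpos_iff.1 hm
    linarith
  refine ⟨?_, hm0⟩
  have hN : B.NH (1 / 2) 0 (fun _ : X => (0 : ℝ) - (-(8⁻¹ * m))) := by
    intro k
    rw [hm0]
    refine ⟨fun z hz => ?_, fun z hz y hy => ?_⟩ <;> simp [inC]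
  have h3 := (hsch x₁ w _ 0 hw hil hN hx₁).nh
  funext x
  have h4 := h3.bdd x
  rw [mul_zero] at h4
  exact abs_nonpos_iff.1 h4

/-- **(L3)** -/
theorem linSt (P₀ : Part A) (K : Kah A) (B : Cb A) (x1 : X) : LinSt B K x1 := by
  refine ⟨lin_ex P₀ K B, fun w m h hw => ?_⟩
  obtain ⟨h1, h2⟩ := lin_uniq P₀ K w.2 h hw
  refine ⟨?_, h2⟩
  have h3 : w = 0 := Subtype.ext h1
  rw [h3, map_zero]

end

end Crest.Agent.R281.Lz_449
end

-- ▼ part R281/Yv8_900

/-!
# Row 281, YAU-VAR (helper900), part 8: `v0_atl` modulo the T-formula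
-/

set_option autoImplicit false
set_option maxSynthPendingDepth 3
set_option linter.unusedSectionVars false

open Set Filter Topology Metric
open scoped ContDiff

namespace Crest.Agent.R281.Yv_900

open Crest.Agent.R275.Geo Crest.Agent.R275.Core144 Crest.Agent.R275.EDR890
open Crest.Agent.R273.Defs_333 Crest.Agent.R273.Kah_333
open Crest.Agent.R273.YauDefs_635 Crest.Agent.R273.SchF_152 Crest.Agent.R273.SchG_152
open Crest.Agent.R273.SchH_152
open Crest.Agent.R260.ACM_580 Crest.Agent.R281.HkR_835 Crest.Agent.R281.NefO_476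
open Crest.Agent.R281.Nef_252 Crest.Agent.R281.Hjs_680 Crest.Agent.R281.Tt_476

noncomputable section

variable {n : ℕ} {X : Type} [TopologicalSpace X] {A : Atl n X}

/-- smoothness in the parameters at `p0`, from the T-formula -/
theorem v0_atl_T [CompactSpace X] [T2Space X] [ConnectedSpace X] [Finite A.ι] (P₀ : Part A)
    {ι : Type} [Fintype ι] [DecidableEq ι] (b : Module.Basis ι ℝ (Cn n))
    {P : Type} [NormedAddCommGroup P] [NormedSpace ℝ P] [FiniteDimensional ℝ P]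
    {T : Set P} (hT : IsOpen T) {D : P → Dat (ofAtl A)} (hD : JSDat T D) {u : P → X → ℝ}
    (hu : ∀ p ∈ T, SolMA b (D p) (u p)) {x1 : X} (h1 : ∀ p ∈ T, u p x1 = 0) {p0 : P}
    (hp : p0 ∈ T) (hJ : ∀ i, ∀ z ∈ (A.e i).target, ∀ v, (D p0).J.J i z v = Complex.I • v)
    (hTF : ∀ (B : Cb A) (k0 : ℝ), TH b D (u p0) k0 T p0 → TSt b B D (u p0) k0 p0) (y0 : X) :
    ContDiffAt ℝ ∞ (fun p => u p y0) p0 :=
  v0_atl_of b hT hD hu h1 hp hJ (fun B => Cl_449.closSt B) (fun B K => Lz_449.linSt P₀ K B x1) hTF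
    (fun B => Pn_355.posnSt_sol B hT hp hD (hu p0 hp))
    (fun B k0 hr => globSt b B (D := D) (u0 := u p0) (k0 := k0) hT hD (hu p0 hp).sm hr)
    (fun B D0 U => trSt b B D0 U) y0

end

end Crest.Agent.R281.Yv_900
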