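import Crest.Agent.R281.Ehp3_461
import Crest.Agent.R281.Al8_830
import Crest.Agent.R281.Ehj3_461
import Crest.Agent.R281.Pe6_313
import Crest.Agent.R281.Cus1_581
import Crest.Agent.R281.Yv6_900
import Crest.Agent.R281.Yv8_900
import Crest.Agent.R281.Ly3_457
import Crest.Agent.R281.Al6_830

-- ▼ part R281/Exs1_581
section

/-!
# R281 (S0424), exact-speed lifts (helper581), part 1: transport of a family, extension by one chart

* `Ch c y0 y`     : the point `c y` is the transport of `c y0`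
* `trP`           : transport of a member inside one neighbourhood of transport, `trP_rep`
* `smooth_tr`     : the transport of a jointly smooth family is jointly smooth
* `ext_right`     : extension of an exact family over a further chart
-/

set_option autoImplicit false
set_option maxSynthPendingDepth 5
set_option linter.unusedSectionVars false

open Set Filter Topology Complex
open scoped ContDiff

namespace Crest.Agent.R281.Exs_581

open Crest.Agent.R281.HkR_835 Crest.Agent.R281.Ehr2_268 Crest.Agent.R281.Dif_268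
open Crest.Agent.R281.Ehr4_268 Crest.Agent.R281.CL_473 Crest.Agent.R281.Ehr6_268
open Crest.Agent.R281.Ehp_461

noncomputable section

universe uq

variable {Q : Type uq} [TopologicalSpace Q] {E H : Type} [NormedAddCommGroup E]
  [NormedSpace ℂ E] [NormedAddCommGroup H] [NormedSpace ℂ H]
variable {V X : Type} [NormedAddCommGroup V] [NormedSpace ℝ V] [TopologicalSpace X]
variable [FiniteDimensional ℝ V] [CompactSpace X] [T2Space X] [FiniteDimensional ℂ H]
variable {F : QFam Q E H} {C C' : RCh V X}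

/-- `c y` is the transport of `c y0` -/
def Ch (c : ℝ → (ls F C).Tot) (y0 y : ℝ) : Prop :=
  (ls F C).pr (c y) ∈ F.U ((ls F C).pr (c y0)) ∧ c y = (ls F C).tr (c y0) ((ls F C).pr (c y))

theorem Ch.ev {c : ℝ → (ls F C).Tot} (hc : Continuous c) (y0 : ℝ) :
    ∀ᶠ y in 𝓝 y0, Ch c y0 y := by
  have h := path_loc (I := univ) hc.continuousOn (mem_univ y0)
  rwa [nhdsWithin_univ] at h

section trP

variable {cmp : Cmp C C'} {c : ℝ → (ls F C).Tot} {y0 y y' : ℝ} {P : HEmb C' H}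

/-- transport of a member over `c y` to a member over `c y'` -/
def trP (h : Ch c y0 y) (h' : Ch c y0 y') (hP : Rep cmp (c y) P) : HEmb C' H :=
  (((mk' cmp ((ls F C).pr (c y)) P hP.choose).back ((ls F C).pr (c y0)) h.1).trIn
    ((ls F C).pr (c y')) h'.1).P


theorem trP_rep (h : Ch c y0 y) (h' : Ch c y0 y') (hP : Rep cmp (c y) P) :
    Rep cmp (c y') (trP h h' hP) := by
  set q0 : Q := (ls F C).pr (c y0) with hq0
  have hm : MQ.mk (mk' cmp ((ls F C).pr (c y)) P hP.choose) = c y := hP.choose_spec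
  set m : Mark F C := mk' cmp ((ls F C).pr (c y)) P hP.choose with hmdef
  have hma : m.q ∈ F.U q0 := h.1
  set m0 : Mark F C := m.back q0 hma with hm0
  have hy0 : (MQ.mk m0 : MQ F C) = c y0 := by
    have e1 : (ls F C).tr (c y0) ((ls F C).pr (c y)) = c y := h.2.symm
    have e2 : (MQ.mk m0).s m.q = MQ.mk m := by
      rw [MQ.s_mk_mem m0 (show m.q ∈ F.U m0.q from hma)]
      exact MQ.sound (trIn_back m hma)
    have e3 : (ls F C).tr (MQ.mk m0 : MQ F C) ((ls F C).pr (c y)) = c y := by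
      have : (MQ.mk m0).s m.q = c y := e2.trans hm
      exact this
    exact ((ls F C).tr_inj (x := c y0) (y := (MQ.mk m0 : MQ F C)) rfl h.1
      (e1.trans e3.symm)).symm
  have hmem : (ls F C).pr (c y') ∈ F.U m0.q := h'.1
  refine ⟨(m0.trIn ((ls F C).pr (c y')) hmem).cone, ?_⟩
  have e1 : c y' = (ls F C).tr (c y0) ((ls F C).pr (c y')) := h'.2
  have e2 : (MQ.mk m0).s ((ls F C).pr (c y')) = MQ.mk (m0.trIn ((ls F C).pr (c y')) hmem) :=
    MQ.s_mk_mem m0 hmem
  have e3 : (ls F C).tr (c y0) ((ls F C).pr (c y')) = (MQ.mk m0).s ((ls F C).pr (c y')) := by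
    rw [← hy0]; rfl
  exact (e1.trans (e3.trans e2)).symm

theorem memT (h : Ch c y0 y) (hP : Rep cmp (c y) P) {i : C'.ι} {z : V}
    (hz : z ∈ (C'.e i).target) :
    (F.u ((ls F C).pr (c y)), P.u i z) ∈ F.T ((ls F C).pr (c y0)) :=
  (F.T_eq _ _ h.1.1 _).mpr ((hP.cone _).mp (P.mem_cone hz))


end trP

/-- **the transport of a jointly smooth family is jointly smooth** -/
theorem smooth_tr {cmp : Cmp C C'} {c : ℝ → (ls F C).Tot} {y0 : ℝ}
    (hs : ContDiff ℝ ∞ fun t => F.u ((ls F C).pr (c t))) {α β : ℝ → ℝ} {A : ℝ → HEmb C' H}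
    {t0 : ℝ} (hα : ContDiffAt ℝ ∞ α t0) (hβ : ContDiffAt ℝ ∞ β t0)
    (hch : ∀ᶠ t in 𝓝 t0, Ch c y0 (α t) ∧ Ch c y0 (β t) ∧ Rep cmp (c (β t)) (A t))
    {i : C'.ι} {z0 : V} (hz : z0 ∈ (C'.e i).target)
    (hA : ContDiffAt ℝ ∞ (fun p : ℝ × V => (A p.1).u i p.2) (t0, z0)) :
    ContDiffAt ℝ ∞ (fun p : ℝ × V => F.Φ ((ls F C).pr (c y0)) (F.u ((ls F C).pr (c (α p.1))))
      (F.Ψ ((ls F C).pr (c y0)) (F.u ((ls F C).pr (c (β p.1)))) ((A p.1).u i p.2))) (t0, z0) := by
  set q0 : Q := (ls F C).pr (c y0) with hq0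
  obtain ⟨ha0, hb0, hr0⟩ := hch.self_of_nhds
  have g0 : ∀ {γ : ℝ → ℝ}, ContDiffAt ℝ ∞ γ t0 →
      ContDiffAt ℝ ∞ (fun p : ℝ × V => F.u ((ls F C).pr (c (γ p.1)))) (t0, z0) := by
    intro γ hγ
    have h1 : ContDiffAt ℝ ∞ (fun t => F.u ((ls F C).pr (c (γ t)))) t0 :=
      hs.contDiffAt.comp t0 hγ
    exact ContDiffAt.comp (g := fun t => F.u ((ls F C).pr (c (γ t)))) (f := Prod.fst) (t0, z0) h1
      contDiffAt_fst
  have hev : ∀ᶠ p : ℝ × V in 𝓝 (t0, z0), (Ch c y0 (α p.1) ∧ Ch c y0 (β p.1) ∧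
      Rep cmp (c (β p.1)) (A p.1)) ∧ p.2 ∈ (C'.e i).target :=
    ((continuous_fst.tendsto (t0, z0)).eventually hch).and
      (continuousAt_snd.eventually ((C'.e i).open_target.mem_nhds hz))
  -- the inverse transport
  have h1 : ContDiffAt ℝ ∞ (fun p : ℝ × V => F.Ψ q0 (F.u ((ls F C).pr (c (β p.1))))
      ((A p.1).u i p.2)) (t0, z0) := by
    obtain ⟨G, hG, hGe⟩ := (F.hM q0).ext' _ (F.ball_of_mem hb0.1) _ (memT hb0 hr0 hz)
    have hp : ContDiffAt ℝ ∞ (fun p : ℝ × V => (F.u ((ls F C).pr (c (β p.1))),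
        (A p.1).u i p.2)) (t0, z0) := (g0 hβ).prodMk hA
    refine ((hG.of_le le_top).comp (f := fun p : ℝ × V => (F.u ((ls F C).pr (c (β p.1))),
        (A p.1).u i p.2)) (t0, z0) hp).congr_of_eventuallyEq ?_
    filter_upwards [hev, hp.continuousAt.eventually hGe] with p hp1 hp2
    exact (hp2 (memT hp1.1.2.1 hp1.1.2.2 hp1.2)).symm
  have hm : (F.u q0, F.Ψ q0 (F.u ((ls F C).pr (c (β t0)))) ((A t0).u i z0)) ∈ F.T q0 :=
    (F.hM q0).maps' _ (F.ball_of_mem hb0.1) _ (memT hb0 hr0 hz)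
  obtain ⟨G, hG, hGe, -⟩ := (F.hM q0).ext _ (F.ball_of_mem ha0.1) _ hm
  have hp : ContDiffAt ℝ ∞ (fun p : ℝ × V => (F.u ((ls F C).pr (c (α p.1))),
      F.Ψ q0 (F.u ((ls F C).pr (c (β p.1)))) ((A p.1).u i p.2))) (t0, z0) := (g0 hα).prodMk h1
  refine ((hG.of_le le_top).comp (f := fun p : ℝ × V => (F.u ((ls F C).pr (c (α p.1))),
      F.Ψ q0 (F.u ((ls F C).pr (c (β p.1)))) ((A p.1).u i p.2))) (t0, z0)
      hp).congr_of_eventuallyEq ?_
  filter_upwards [hev, hp.continuousAt.eventually hGe] with p hp1 hp2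
  refine (hp2 ?_).symm
  exact (F.hM q0).maps' _ (F.ball_of_mem hp1.1.2.1.1) _ (memT hp1.1.2.1 hp1.1.2.2 hp1.2)

/-! ### smooth stops -/

/-- smooth function which is `t` for `t ≤ a` and `b` for `b ≤ t` -/
def stop (a b t : ℝ) : ℝ := t + (b - t) * Real.smoothTransition ((t - a) / (b - a))

theorem stop_contDiff (a b : ℝ) : ContDiff ℝ ∞ (stop a b) := by
  have h1 : ContDiff ℝ ∞ fun t : ℝ => (t - a) / (b - a) :=
    (contDiff_id.sub contDiff_const).div_const _
  have h2 : ContDiff ℝ ∞ Real.smoothTransition := Real.smoothTransition.contDiff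
  exact contDiff_id.add ((contDiff_const.sub contDiff_id).mul (h2.comp h1))

theorem stop_left {a b t : ℝ} (hab : a < b) (h : t ≤ a) : stop a b t = t := by
  rw [stop, Real.smoothTransition.zero_of_nonpos
    (div_nonpos_of_nonpos_of_nonneg (by linarith) (by linarith))]
  ring

theorem stop_right {a b t : ℝ} (hab : a < b) (h : b ≤ t) : stop a b t = b := by
  rw [stop, Real.smoothTransition.one_of_one_le ((one_le_div (by linarith)).mpr (by linarith))]
  ring

theorem stop_le {a b : ℝ} (hab : a < b) (t : ℝ) : stop a b t ≤ b := by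
  rcases le_total b t with h | h
  · rw [stop_right hab h]
  · have h1 := Real.smoothTransition.le_one ((t - a) / (b - a))
    rw [stop]
    nlinarith [sub_nonneg.mpr h]

theorem le_stop {a b t : ℝ} (h : t ≤ b) : t ≤ stop a b t := by
  have h1 := Real.smoothTransition.nonneg ((t - a) / (b - a))
  rw [stop]
  nlinarith [mul_nonneg (sub_nonneg.mpr h) h1]

theorem lt_stop {a b k t : ℝ} (hab : a < b) (hk : k < b) (h : k < t) : k < stop a b t := by
  rcases le_total b t with h1 | h1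
  · rw [stop_right hab h1]; exact hk
  · exact h.trans_le (le_stop h1)

/-- **extension over one chart, to the right** -/
theorem ext_right {cmp : Cmp C C'} {c : ℝ → (ls F C).Tot}
    (hs : ContDiff ℝ ∞ fun t => F.u ((ls F C).pr (c t))) {a s s' y0 κ : ℝ} (hκ : κ < s)
    (has : a < s) (hss : s ≤ s') (hch : ∀ y ∈ Icc s s', ∀ᶠ y' in 𝓝 y, Ch c y0 y')
    {A : ℝ → HEmb C' H} (hA : SmP A) (hR : ∀ t ∈ Icc a s, Rep cmp (c t) (A t)) :
    ∃ A' : ℝ → HEmb C' H, SmP A' ∧ (∀ t ∈ Icc a s', Rep cmp (c t) (A' t)) ∧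
      ∀ t ≤ κ, EqT (A' t) (A t) := by
  obtain ⟨ε, hε, hU⟩ : ∃ ε > 0, ∀ y, s - ε < y → y < s' + ε → Ch c y0 y := by
    obtain ⟨ε1, h1, h1'⟩ := Metric.eventually_nhds_iff.mp (hch s ⟨le_rfl, hss⟩)
    obtain ⟨ε2, h2, h2'⟩ := Metric.eventually_nhds_iff.mp (hch s' ⟨hss, le_rfl⟩)
    refine ⟨min ε1 ε2, lt_min h1 h2, fun y hy hy' => ?_⟩
    have e1 := min_le_left ε1 ε2
    have e2 := min_le_right ε1 ε2
    rcases lt_or_ge y s with h3 | h3
    · refine h1' ?_
      rw [Real.dist_eq, abs_lt]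
      constructor <;> linarith
    · rcases lt_or_ge s' y with h4 | h4
      · refine h2' ?_
        rw [Real.dist_eq, abs_lt]
        constructor <;> linarith
      · exact (hch y ⟨h3, h4⟩).self_of_nhds
  obtain ⟨k0, hk0, hk0s⟩ := exists_between (max_lt hκ (max_lt has (show s - ε < s by linarith)))
  obtain ⟨k1, hk1, hk1s⟩ := exists_between hk0s
  obtain ⟨k2, hk2, hk2s⟩ := exists_between hk1s
  have b1 : κ < k0 := (le_max_left _ _).trans_lt hk0
  have b2 : a < k0 := ((le_max_left _ _).trans (le_max_right _ _)).trans_lt hk0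
  have b3 : s - ε < k0 := ((le_max_right _ _).trans (le_max_right _ _)).trans_lt hk0
  set η : ℝ → ℝ := stop k2 s with hη
  set θ : ℝ → ℝ := stop s' (s' + ε / 2) with hθ
  have hse : s' < s' + ε / 2 := by linarith
  have hη1 : ∀ t, max (η t) k0 ∈ Icc k0 s := fun t =>
    ⟨le_max_right _ _, max_le (stop_le hk2s t) hk0s.le⟩
  have hθ1 : ∀ t, max (θ t) k0 ∈ Icc k0 (s' + ε / 2) := fun t =>
    ⟨le_max_right _ _, max_le (stop_le hse t) (by linarith)⟩
  have cη : ∀ t, Ch c y0 (max (η t) k0) := fun t =>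
    hU _ (b3.trans_le (hη1 t).1) (by have := (hη1 t).2; linarith)
  have cθ : ∀ t, Ch c y0 (max (θ t) k0) := fun t =>
    hU _ (b3.trans_le (hθ1 t).1) (by have := (hθ1 t).2; linarith)
  have rη : ∀ t, Rep cmp (c (max (η t) k0)) (A (max (η t) k0)) := fun t =>
    hR _ ⟨b2.le.trans (hη1 t).1, (hη1 t).2⟩
  let B : ℝ → HEmb C' H := fun t => trP (cη t) (cθ t) (rη t)
  have hηk : ∀ {t}, k0 < t → max (η t) k0 = η t := fun {t} ht =>
    max_eq_left (lt_stop hk2s hk0s ht).le
  have hθk : ∀ {t}, k0 < t → max (θ t) k0 = θ t := fun {t} ht =>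
    max_eq_left (lt_stop hse (by linarith) ht).le
  have hBA : ∀ t, k0 < t → t ≤ k2 → EqT (B t) (A t) := by
    intro t ht ht' i z hz
    have e1 : max (η t) k0 = t := by rw [hηk ht]; exact stop_left hk2s ht'
    have e2 : max (θ t) k0 = t := by rw [hθk ht]; exact stop_left hse (by linarith)
    have e3 : (B t).u i z = F.Φ ((ls F C).pr (c y0)) (F.u ((ls F C).pr (c (max (θ t) k0))))
      (F.Ψ ((ls F C).pr (c y0)) (F.u ((ls F C).pr (c (max (η t) k0))))
        ((A (max (η t) k0)).u i z)) := rfl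
    rw [e3, e1, e2]
    have h3 : Ch c y0 t := e1 ▸ cη t
    have h4 : Rep cmp (c t) (A t) := e1 ▸ rη t
    exact (F.hM _).right _ (F.ball_of_mem h3.1) _ (memT h3 h4 hz)
  refine ⟨fun t => if t ≤ k1 then A t else B t, ?_, ?_, ?_⟩
  · rintro i ⟨t0, z0⟩ ⟨-, hz0⟩
    refine ContDiffAt.contDiffWithinAt ?_
    rcases lt_or_ge t0 k2 with h | h
    · refine (hA.at i t0 hz0).congr_of_eventuallyEq ?_
      have e1 : ∀ᶠ p : ℝ × V in 𝓝 (t0, z0), p.1 < k2 :=
        (continuous_fst.tendsto (t0, z0)).eventually (eventually_lt_nhds h)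
      have e2 : ∀ᶠ p : ℝ × V in 𝓝 (t0, z0), p.2 ∈ (C'.e i).target :=
        continuousAt_snd.eventually ((C'.e i).open_target.mem_nhds hz0)
      filter_upwards [e1, e2] with p hp1 hp2
      split_ifs with h5
      · rfl
      · exact hBA p.1 (hk1.trans (not_le.mp h5)) hp1.le i p.2 hp2
    · have ht0 : k1 < t0 := hk2.trans_le h
      have hk : k0 < t0 := hk1.trans ht0
      have h1 : ContDiffAt ℝ ∞ (fun p : ℝ × V => (A (η p.1)).u i p.2) (t0, z0) := by
        have e2 : ContDiffAt ℝ ∞ (fun p : ℝ × V => (η p.1, p.2)) (t0, z0) :=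
          ((stop_contDiff k2 s).contDiffAt.comp (t0, z0) contDiffAt_fst).prodMk contDiffAt_snd
        exact (hA.at i (η t0) hz0).comp (f := fun p : ℝ × V => (η p.1, p.2)) (t0, z0) e2
      have h2 := smooth_tr (cmp := cmp) (y0 := y0) hs (α := θ) (β := η) (A := fun t => A (η t))
        (t0 := t0) (stop_contDiff s' (s' + ε / 2)).contDiffAt (stop_contDiff k2 s).contDiffAt
        (by
          filter_upwards [eventually_gt_nhds hk] with t ht
          have e1 := cθ t
          have e2 := cη t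
          have e3 := rη t
          rw [hθk ht] at e1
          rw [hηk ht] at e2 e3
          exact ⟨e1, e2, e3⟩) hz0 h1
      refine h2.congr_of_eventuallyEq ?_
      have e1 : ∀ᶠ p : ℝ × V in 𝓝 (t0, z0), k1 < p.1 :=
        (continuous_fst.tendsto (t0, z0)).eventually (eventually_gt_nhds ht0)
      filter_upwards [e1] with p hp
      have e4 : k0 < p.1 := hk1.trans hp
      have e3 : (B p.1).u i p.2 = F.Φ ((ls F C).pr (c y0))
        (F.u ((ls F C).pr (c (max (θ p.1) k0))))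
        (F.Ψ ((ls F C).pr (c y0)) (F.u ((ls F C).pr (c (max (η p.1) k0))))
          ((A (max (η p.1) k0)).u i p.2)) := rfl
      rw [if_neg (not_le.mpr hp), e3, hηk e4, hθk e4]
  · intro t ht
    dsimp only
    split_ifs with h
    · exact hR t ⟨ht.1, h.trans (hk2.trans hk2s).le⟩
    · have h1 : k1 < t := not_le.mp h
      have h2 : Rep cmp (c (max (θ t) k0)) (B t) := trP_rep (cη t) (cθ t) (rη t)
      have h3 : max (θ t) k0 = t := by
        rw [hθk (hk1.trans h1)]; exact stop_left hse ht.2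
      rwa [h3] at h2
  · intro t ht
    show EqT (if t ≤ k1 then A t else B t) (A t)
    rw [if_pos (ht.trans (b1.trans hk1).le)]
    exact EqT.refl _

end

end Crest.Agent.R281.Exs_581
end

-- ▼ part R281/Exs2_581
section

/-!
# R281 (S0424), exact-speed lifts (helper581), part 2: paths on the whole line

* `right`, `left`   : extension of an exact family to a larger compact interval
* `exists_exact`    : **exact-speed lift**: over every continuous path `c : ℝ → (ls F C).Tot` with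
                      smooth projection to the parameter space there is a jointly smooth family of
                      members `A : ℝ → HEmb C' H`, `A t` over `c t` for ALL `t`, `A 0 = P0`
-/

set_option autoImplicit false
set_option maxSynthPendingDepth 5
set_option linter.unusedSectionVars false

open Set Filter Topology Complex
open scoped ContDiff

namespace Crest.Agent.R281.Exs_581

open Crest.Agent.R281.HkR_835 Crest.Agent.R281.Ehr2_268 Crest.Agent.R281.Dif_268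
open Crest.Agent.R281.Ehr4_268 Crest.Agent.R281.CL_473 Crest.Agent.R281.Ehr6_268
open Crest.Agent.R281.Ehp_461

noncomputable section

universe uq

variable {Q : Type uq} [TopologicalSpace Q] {E H : Type} [NormedAddCommGroup E]
  [NormedSpace ℂ E] [NormedAddCommGroup H] [NormedSpace ℂ H]
variable {V X : Type} [NormedAddCommGroup V] [NormedSpace ℝ V] [TopologicalSpace X]
variable [FiniteDimensional ℝ V] [CompactSpace X] [T2Space X] [FiniteDimensional ℂ H]
variable {F : QFam Q E H} {C C' : RCh V X}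

/-- exact family over `c` on `[a, b]` -/
structure ExF (cmp : Cmp C C') (c : ℝ → (ls F C).Tot) (a b : ℝ) (A : ℝ → HEmb C' H) : Prop where
  sm : SmP A
  rep : ∀ t ∈ Icc a b, Rep cmp (c t) (A t)

theorem right {cmp : Cmp C C'} {c : ℝ → (ls F C).Tot} (hc : Continuous c)
    (hs : ContDiff ℝ ∞ fun t => F.u ((ls F C).pr (c t))) {a s b κ : ℝ} (hκ : κ < s)
    (has : a < s) (hsb : s ≤ b) {A : ℝ → HEmb C' H} (hA : ExF cmp c a s A) :
    ∃ A' : ℝ → HEmb C' H, ExF cmp c a b A' ∧ ∀ t ≤ κ, EqT (A' t) (A t) := by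
  let O : Icc s b → Set (Icc s b) := fun y0 => {y | ∀ᶠ y' in 𝓝 (y : ℝ), Ch c y0 y'}
  obtain ⟨t, ht0, htm, ⟨m, hm⟩, ht⟩ := exists_monotone_Icc_subset_open_cover_Icc hsb
    (c := O) (fun y0 => isOpen_setOfPred_eventually_nhds.preimage continuous_subtype_val)
    (fun y _ => mem_iUnion.mpr ⟨y, Ch.ev hc y⟩)
  have key : ∀ n, ∃ A' : ℝ → HEmb C' H, ExF cmp c a (t n) A' ∧ ∀ x ≤ κ, EqT (A' x) (A x) := by
    intro n
    induction n with
    | zero =>
      rw [ht0]
      exact ⟨A, hA, fun x _ => EqT.refl _⟩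
    | succ n ih =>
      obtain ⟨A', hA', he⟩ := ih
      obtain ⟨y0, hy0⟩ := ht n
      have h1 : s ≤ t n := (t n).2.1
      obtain ⟨A'', h2, h3, h4⟩ := ext_right (cmp := cmp) hs (y0 := y0) (hκ.trans_le h1)
        (has.trans_le h1) (show (t n : ℝ) ≤ t (n + 1) from htm (Nat.le_succ n))
        (fun y hy => by
          have h5 : y ∈ Icc s b := ⟨h1.trans hy.1, hy.2.trans (t (n + 1)).2.2⟩
          exact hy0 (show (⟨y, h5⟩ : Icc s b) ∈ Icc (t n) (t (n + 1)) from ⟨hy.1, hy.2⟩))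
        hA'.sm hA'.rep
      exact ⟨A'', ⟨h2, h3⟩, fun x hx => (h4 x hx).trans (he x hx)⟩
  obtain ⟨A', h1, h2⟩ := key m
  rw [hm m le_rfl] at h1
  exact ⟨A', h1, h2⟩

theorem left {cmp : Cmp C C'} {c : ℝ → (ls F C).Tot} (hc : Continuous c)
    (hs : ContDiff ℝ ∞ fun t => F.u ((ls F C).pr (c t))) {a s b κ : ℝ} (hκ : s < κ)
    (hsb : s < b) (has : a ≤ s) {A : ℝ → HEmb C' H} (hA : ExF cmp c s b A) :
    ∃ A' : ℝ → HEmb C' H, ExF cmp c a b A' ∧ ∀ t, κ ≤ t → EqT (A' t) (A t) := by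
  have hn : ContDiff ℝ ∞ fun t : ℝ => -t := contDiff_neg
  obtain ⟨A', h1, h2⟩ := right (cmp := cmp) (c := fun t => c (-t)) (hc.comp continuous_neg)
    (hs.comp hn) (a := -b) (s := -s) (b := -a) (κ := -κ) (by linarith) (by linarith)
    (by linarith) (A := fun t => A (-t)) ⟨hA.sm.comp hn, fun t ht => hA.rep (-t)
      ⟨by linarith [ht.2], by linarith [ht.1]⟩⟩
  refine ⟨fun t => A' (-t), ⟨h1.sm.comp hn, fun t ht => ?_⟩, fun t ht => ?_⟩
  · have h3 := h1.rep (-t) ⟨by linarith [ht.2], by linarith [ht.1]⟩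
    simpa only [neg_neg] using h3
  · have h3 := h2 (-t) (by linarith)
    simpa only [neg_neg] using h3

/-- the local family -/
theorem exists_local {cmp : Cmp C C'} {c : ℝ → (ls F C).Tot} (hc : Continuous c)
    (hs : ContDiff ℝ ∞ fun t => F.u ((ls F C).pr (c t))) {P0 : HEmb C' H}
    (h0 : Rep cmp (c 0) P0) : ∃ (ε : ℝ) (A : ℝ → HEmb C' H), 0 < ε ∧ ExF cmp c (-ε) ε A ∧
      EqT (A 0) P0 := by
  obtain ⟨r, hr, hr'⟩ := Metric.eventually_nhds_iff.mp (Ch.ev hc 0)
  set ε : ℝ := r / 2 with hε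
  have hε0 : 0 < ε := by positivity
  -- smooth cut-off of the identity
  let θ : ℝ → ℝ := fun t => t * Real.smoothTransition (2 - (t / ε) ^ 2)
  have hθs : ContDiff ℝ ∞ θ := by
    have h1 : ContDiff ℝ ∞ fun t : ℝ => 2 - (t / ε) ^ 2 :=
      contDiff_const.sub ((contDiff_id.div_const _).pow 2)
    have h2 : ContDiff ℝ ∞ Real.smoothTransition := Real.smoothTransition.contDiff
    exact contDiff_id.mul (h2.comp h1)
  have hθ1 : ∀ t ∈ Icc (-ε) ε, θ t = t := by
    intro t ht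
    have h1 : (t / ε) ^ 2 ≤ 1 := by
      rw [sq_le_one_iff_abs_le_one, abs_div, abs_of_pos hε0, div_le_one hε0]
      exact abs_le.mpr ht
    show t * Real.smoothTransition (2 - (t / ε) ^ 2) = t
    rw [Real.smoothTransition.one_of_one_le (by linarith), mul_one]
  have hθ2 : ∀ t, |θ t| < r := by
    intro t
    show |t * Real.smoothTransition (2 - (t / ε) ^ 2)| < r
    rw [abs_mul, abs_of_nonneg (Real.smoothTransition.nonneg _)]
    rcases lt_or_ge |t| r with h | h
    · have h1 := Real.smoothTransition.le_one (2 - (t / ε) ^ 2)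
      nlinarith [abs_nonneg t]
    · have h1 : 2 ≤ (t / ε) ^ 2 := by
        have h2 : 2 ≤ |t / ε| := by
          rw [abs_div, abs_of_pos hε0, le_div_iff₀ hε0]
          rw [hε]
          linarith
        nlinarith [sq_abs (t / ε)]
      rw [Real.smoothTransition.zero_of_nonpos (by linarith), mul_zero]
      exact hr
  have hch : ∀ t, Ch c 0 (θ t) := fun t => hr' (by simpa [Real.dist_eq] using hθ2 t)
  have hch0 : Ch c 0 0 := hr' (by simpa using hr)
  refine ⟨ε, fun t => trP hch0 (hch t) h0, hε0, ⟨?_, ?_⟩, ?_⟩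
  · rintro i ⟨t0, z0⟩ ⟨-, hz0⟩
    have h1 : ContDiffAt ℝ ∞ (fun p : ℝ × V => P0.u i p.2) (t0, z0) :=
      ContDiffAt.comp (g := P0.u i) (t0, z0)
        ((P0.sm i).contDiffAt ((C'.e i).open_target.mem_nhds hz0)) contDiffAt_snd
    have h2 := smooth_tr (cmp := cmp) (y0 := 0) hs (α := θ) (β := fun _ => (0 : ℝ))
      (A := fun _ => P0) (t0 := t0) hθs.contDiffAt contDiffAt_const
      (Eventually.of_forall fun t => ⟨hch t, hch0, h0⟩) hz0 h1
    exact h2.contDiffWithinAt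
  · intro t ht
    have h1 : Rep cmp (c (θ t)) (trP hch0 (hch t) h0) := trP_rep hch0 (hch t) h0
    exact (congrArg c (hθ1 t ht)) ▸ h1
  · have h1 : θ 0 = 0 := hθ1 0 ⟨by linarith, hε0.le⟩
    intro i z hz
    show F.Φ ((ls F C).pr (c 0)) (F.u ((ls F C).pr (c (θ 0))))
      (F.Ψ ((ls F C).pr (c 0)) (F.u ((ls F C).pr (c 0))) (P0.u i z)) = P0.u i z
    rw [h1]
    exact (F.hM _).right _ (F.ball_of_mem hch0.1) _ (memT hch0 h0 hz)

/-- **exact-speed lift** of a smooth path of the marked cover -/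
theorem exists_exact {cmp : Cmp C C'} {c : ℝ → (ls F C).Tot} (hc : Continuous c)
    (hs : ContDiff ℝ ∞ fun t => F.u ((ls F C).pr (c t))) {P0 : HEmb C' H}
    (h0 : Rep cmp (c 0) P0) : ∃ A : ℝ → HEmb C' H, SmP A ∧ EqT (A 0) P0 ∧
      ∀ t, Rep cmp (c t) (A t) := by
  -- the sequence of families
  have step : ∀ (n : ℕ) (A : ℝ → HEmb C' H), ExF cmp c (-((n : ℝ) + 1)) ((n : ℝ) + 1) A →
      ∃ A' : ℝ → HEmb C' H, ExF cmp c (-(((n + 1 : ℕ) : ℝ) + 1)) (((n + 1 : ℕ) : ℝ) + 1) A' ∧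
        ∀ t : ℝ, |t| ≤ (n : ℝ) + 1 / 2 → EqT (A' t) (A t) := by
    intro n A hA
    have hn : (0 : ℝ) ≤ n := Nat.cast_nonneg n
    obtain ⟨A1, h1, h1'⟩ := right hc hs (κ := n + 1 / 2) (by linarith) (by linarith)
      (show (n : ℝ) + 1 ≤ (n + 1 : ℕ) + 1 by push_cast; linarith) hA
    obtain ⟨A2, h2, h2'⟩ := left hc hs (κ := -(n + 1 / 2)) (by linarith) (by push_cast; linarith)
      (show -(((n + 1 : ℕ) : ℝ) + 1) ≤ -((n : ℝ) + 1) by push_cast; linarith) h1
    refine ⟨A2, h2, fun t ht => ?_⟩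
    have h3 := abs_le.mp ht
    exact (h2' t h3.1).trans (h1' t h3.2)
  obtain ⟨ε, A, hε, hA, hA0⟩ := exists_local hc hs h0
  -- the first family
  obtain ⟨B0, hB0, hB00⟩ : ∃ B0 : ℝ → HEmb C' H, ExF cmp c (-(((0 : ℕ) : ℝ) + 1)) (((0 : ℕ) : ℝ) + 1) B0 ∧
      EqT (B0 0) P0 := by
    set δ : ℝ := min ε 1 with hδ
    have hδ0 : 0 < δ := lt_min hε one_pos
    have hδ1 : δ ≤ 1 := min_le_right _ _
    have hA' : ExF cmp c (-δ) δ A := ⟨hA.sm, fun t ht => hA.rep t
      ⟨by have := min_le_left ε 1; linarith [ht.1], ht.2.trans (min_le_left _ _)⟩⟩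
    obtain ⟨A1, h1, h1'⟩ := right hc hs (κ := δ / 2) (by linarith) (by linarith)
      (show δ ≤ ((0 : ℕ) : ℝ) + 1 by push_cast; linarith) hA'
    obtain ⟨A2, h2, h2'⟩ := left hc hs (κ := -(δ / 2)) (by linarith) (by push_cast; linarith)
      (show -(((0 : ℕ) : ℝ) + 1) ≤ -δ by push_cast; linarith) h1
    exact ⟨A2, h2, ((h2' 0 (by linarith)).trans (h1' 0 (by linarith))).trans hA0⟩
  let S : ∀ n : ℕ, {A : ℝ → HEmb C' H // ExF cmp c (-((n : ℝ) + 1)) ((n : ℝ) + 1) A} := fun n =>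
    Nat.rec (motive := fun n => {A : ℝ → HEmb C' H //
        ExF cmp c (-(((n : ℕ) : ℝ) + 1)) (((n : ℕ) : ℝ) + 1) A})
      ⟨B0, hB0⟩ (fun n A => ⟨(step n A.1 A.2).choose, (step n A.1 A.2).choose_spec.1⟩) n
  have hS : ∀ (n : ℕ) (t : ℝ), |t| ≤ (n : ℝ) + 1 / 2 → EqT ((S (n + 1)).1 t) ((S n).1 t) := fun n t ht =>
    (step n (S n).1 (S n).2).choose_spec.2 t ht
  have hS' : ∀ n m : ℕ, n ≤ m → ∀ t : ℝ, |t| ≤ (n : ℝ) + 1 / 2 → EqT ((S m).1 t) ((S n).1 t) := by
    intro n m hnm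
    induction m, hnm using Nat.le_induction with
    | base => exact fun t _ => EqT.refl _
    | succ m hnm ih =>
      intro t ht
      have h1 : (n : ℝ) ≤ m := by exact_mod_cast hnm
      exact (hS m t (by linarith)).trans (ih t ht)
  refine ⟨fun t => (S ⌈|t|⌉₊).1 t, smP_of_loc fun t0 => ?_, ?_, fun t => ?_⟩
  · obtain ⟨n, hn⟩ := exists_nat_gt |t0|
    refine ⟨(S n).1, (S n).2.sm, ?_⟩
    filter_upwards [(continuous_abs.tendsto t0).eventually (eventually_lt_nhds hn)] with t ht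
    have h1 : ⌈|t|⌉₊ ≤ n := Nat.ceil_le.mpr ht.le
    have h2 : |t| ≤ (⌈|t|⌉₊ : ℝ) := Nat.le_ceil _
    exact (hS' _ _ h1 t (by linarith)).symm
  · have h1 : ⌈|(0 : ℝ)|⌉₊ = 0 := by simp
    show EqT ((S ⌈|(0 : ℝ)|⌉₊).1 0) P0
    rw [h1]
    exact hB00
  · have h2 : |t| ≤ (⌈|t|⌉₊ : ℝ) := Nat.le_ceil _
    have h3 := abs_le.mp h2
    exact (S ⌈|t|⌉₊).2.rep t ⟨by linarith, by linarith⟩

end

end Crest.Agent.R281.Exs_581
end

-- ▼ part R281/Lf1_830
section

/-!
# Row 281, DIV 2, LIFT (helper830), part 1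

`F : QFam Q E H` an algebraic family, `omF reF imF : QBF F` its forms, `C : RCh V X`.

* `ajm cmp P hcx` : the complex structure of a member as a field `AJ C`
* `lift_marks`    : smooth path in the marked cover ==> jointly smooth family of hyperkaehler
                    triples on the members
-/

set_option autoImplicit false
set_option maxSynthPendingDepth 3
set_option linter.unusedSectionVars false

open Filter Topology Complex Set
open scoped ContDiff

namespace Crest.Agent.R281.Lf_830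

open Crest.Agent.R281.HkR_835 Crest.Agent.R281.Ehr2_268 Crest.Agent.R281.Dif_268
open Crest.Agent.R281.Ehr4_268 Crest.Agent.R281.CL_473 Crest.Agent.R281.Ehr6_268
open Crest.Agent.R281.Cdr_234 Crest.Agent.R281.Ehr7_268 Crest.Agent.R281.Phl_655
open Crest.Agent.R281.Ehr8_268 Crest.Agent.R281.Ehp_461 Crest.Agent.R281.Ehj_461
open Crest.Agent.R281.Pe_313 (CxOf IRel)
open Crest.Agent.R281.Al_830 Crest.Agent.R281.NefO_476 Crest.Agent.R281.Nef_252
open Crest.Agent.R281.Tt_476 Crest.Agent.R281.Alg_998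

noncomputable section

variable {V X : Type} [NormedAddCommGroup V] [NormedSpace ℝ V] [TopologicalSpace X]
  [FiniteDimensional ℝ V] {H : Type} [NormedAddCommGroup H] [NormedSpace ℂ H]
  [FiniteDimensional ℂ H] {C C' : RCh V X}

/-- the relation determines the vector -/
theorem Jm_of_iRel (h : Cmp C C') {P : HEmb C' H} (hcx : P.Cx) {j : C'.ι} {i : C.ι} {z : V}
    (hz : z ∈ mov C' C j i) {v v' : V} (hr : IRel P j (mt C' C j i z)
      (fderiv ℝ (mt C' C j i) z v) (fderiv ℝ (mt C' C j i) z v')) : v' = Jm P C i z v := by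
  refine Jm_uniq h hcx hz ?_
  obtain ⟨c, hc⟩ := hr
  refine ⟨c, ?_⟩
  rw [fderiv_rd h P hz, fderiv_rd h P hz]
  exact hc

/-- the complex structure of a member -/
def ajm (h : Cmp C C') (P : HEmb C' H) (hcx : P.Cx) : AJ C where
  J := Jm P C
  sm i := by
    have h1 := Jm_smooth (E' := ℝ) h (A := fun _ => P) (T := univ) isOpen_univ
      (fun j => (P.sm j).comp contDiffOn_snd fun _ hp => hp.2) (fun _ _ => hcx) i
    have h2 : ContDiffOn ℝ ∞ (fun z : V => ((0 : ℝ), z)) (C.e i).target :=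
      contDiffOn_const.prodMk contDiffOn_id
    exact h1.comp h2 fun z hz => ⟨mem_univ _, hz⟩
  tr i i' z hz v := by
    obtain ⟨j, hj⟩ : ∃ j : C'.ι, z ∈ mov C' C j i := Cmp.exists_mov C' hz.1
    have hj' : C.t i i' z ∈ mov C' C j i' := Cmp.t_mov hz hj
    refine Jm_of_iRel h hcx hj' ?_
    have e1 := h.symm.dt_mt hz hj v
    have e2 := h.symm.dt_mt hz hj (Jm P C i z v)
    have e3 : mt C' C j i' (C.t i i' z) = mt C' C j i z := Cmp.t_mt hz
    rw [e1, e2, e3]
    exact Jm_iRel h hcx hj v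

theorem ajm_cxOf (h : Cmp C C') {P : HEmb C' H} (hcx : P.Cx) {T : HkT C}
    (hT : ofHk T 0 = ajm h P hcx) : CxOf P T := by
  intro i j z hz v
  have h1 : T.J 0 i z = Jm P C i z := congrArg (fun J : AJ C => J.J i z) hT
  rw [h1]
  exact Jm_iRel h hcx hz v


section fam

universe uq

variable [CompactSpace X] [T2Space X] {Q : Type uq} [TopologicalSpace Q] {E : Type}
  [NormedAddCommGroup E] [NormedSpace ℂ E] {F : QFam Q E H}

/-- the family of complex structures and forms along a jointly smooth family of members -/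
def cfam (omF reF imF : QBF F) (cmp : Cmp C C') {A : ℝ → HEmb C' H} (hA : SmP A) {q : ℝ → Q}
    (hq : Continuous q) (hu : ContDiff ℝ ∞ fun t => F.u (q t))
    (hc : ∀ t w, w ∈ (A t).cone ↔ w ∈ F.S (q t)) (hcx : ∀ t, (A t).Cx)
    (hD : ∀ t, HD (ajm cmp (A t) (hcx t)) (omF.form (mk' cmp (q t) (A t) (hc t)))
      (reF.form (mk' cmp (q t) (A t) (hc t))) (imF.form (mk' cmp (q t) (A t) (hc t)))) :
    CFam C (univ : Set ℝ) where
  J t := ajm cmp (A t) (hcx t)
  om t := omF.form (mk' cmp (q t) (A t) (hc t))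
  s1 t := reF.form (mk' cmp (q t) (A t) (hc t))
  s2 t := imF.form (mk' cmp (q t) (A t) (hc t))
  jsJ i := Jm_smooth cmp isOpen_univ hA (fun t _ => hcx t) i
  jsom := form_joint omF cmp isOpen_univ hA hq.continuousOn hu.contDiffOn hc
  js1 := form_joint reF cmp isOpen_univ hA hq.continuousOn hu.contDiffOn hc
  js2 := form_joint imF cmp isOpen_univ hA hq.continuousOn hu.contDiffOn hc
  hd t _ := hD t

/-- the marking over `x` given by a representative -/
def repM {cmp : Cmp C C'} {x : (ls F C).Tot} {P : HEmb C' H} (h : Rep cmp x P) : Mark F C :=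
  mk' cmp ((ls F C).pr x) P h.choose

theorem repM_mk {cmp : Cmp C C'} {x : (ls F C).Tot} {P : HEmb C' H} (h : Rep cmp x P) :
    (MQ.mk (repM h) : MQ F C) = x := h.choose_spec

theorem rep_mark (m : Mark F C) {x : (ls F C).Tot} (h : (MQ.mk m : MQ F C) = x) :
    Rep m.cmp x m.P := by
  have h1 : m.q = (ls F C).pr x := by
    rw [← h]
    rfl
  obtain ⟨q, C₁, cmp, P, cone⟩ := m
  subst h1
  exact ⟨cone, h⟩

variable [MeasurableSpace V] [BorelSpace V] {μ : MeasureTheory.Measure V}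
  [μ.IsAddHaarMeasure] [ConnectedSpace X] {n : ℕ}
  {b : Module.Basis (Fin (n + n) × Fin 2) ℝ V} {P : Ti_846.RPart C} {q : QuadraticForm ℝ (F2 C)}
  {κ : Type} [Fintype κ] [DecidableEq κ] {b' : Module.Basis κ ℝ V}
  {Qf : F2 C →ₗ[ℝ] F2 C →ₗ[ℝ] ℝ}

/-- **LIFT**: a smooth path in the marked cover carries a jointly smooth family of hyperkaehler
triples, starting at a given one -/
theorem lift_marks (TI : TopI μ b P q) (hY : YauVar C b') {Fr : Frm C Qf} {A : F2 C}
    (hA : 0 < q A) (omF reF imF : QBF F) {c : ℝ → (ls F C).Tot} (hc : Continuous c)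
    (hs : ContDiff ℝ ∞ fun t => F.u ((ls F C).pr (c t))) {τ : ℝ → ℂ} (him : ∀ t, 0 < (τ t).im)
    (hHD : ∀ t, ∀ m : Mark F C, (MQ.mk m : MQ F C) = c t → ∃ hcx : m.P.Cx,
      HD (ajm m.cmp m.P hcx) (omF.form m) (reF.form m) (imF.form m))
    (hcl : ∀ t, ∀ m : Mark F C, (MQ.mk m : MQ F C) = c t →
      Cl (omF.form m) A ∧ PerAt Fr (reF.form m) (imF.form m) (τ t))
    (m0 : Mark F C) (hm0 : (MQ.mk m0 : MQ F C) = c 0) (H0 : HkT C) (hJ0 : CxOf m0.P H0)
    (hA0 : Cl (H0.om 0) A) :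
    ∃ K : ℝ → HkT C, SmH K ∧ HEqv (K 0) H0 ∧ ∀ t, ∃ m : Mark F C, (MQ.mk m : MQ F C) = c t ∧
      m.C' = m0.C' ∧ CxOf m.P (K t) ∧ AtTau Fr A (K t) (τ t) := by
  obtain ⟨A', hA', hA0', hrep⟩ := Exs_581.exists_exact hc hs (rep_mark m0 hm0)
  let M : ℝ → Mark F C := fun t => repM (hrep t)
  have hM : ∀ t, (MQ.mk (M t) : MQ F C) = c t := fun t => repM_mk (hrep t)
  have hcx : ∀ t, (A' t).Cx := fun t => (hHD t (M t) (hM t)).choose
  have hD : ∀ t, HD (ajm m0.cmp (A' t) (hcx t)) (omF.form (M t)) (reF.form (M t))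
      (imF.form (M t)) := fun t => (hHD t (M t) (hM t)).choose_spec
  have hq : Continuous fun t => (ls F C).pr (c t) := (ls F C).continuous_pr.comp hc
  let D : CFam C (univ : Set ℝ) := cfam omF reF imF m0.cmp hA' hq hs
    (fun t => (hrep t).choose) hcx hD
  have hJ : ∀ i, ∀ z ∈ (C.e i).target, ∀ v, H0.J 0 i z v = (D.J 0).J i z v := by
    intro i z hz v
    obtain ⟨j, hj⟩ : ∃ j : m0.C'.ι, z ∈ mov m0.C' C j i := Cmp.exists_mov m0.C' hz
    refine Jm_of_iRel m0.cmp (hcx 0) hj ?_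
    obtain ⟨a, ha⟩ := hJ0 i j z hj v
    have hev : (A' 0).u j =ᶠ[𝓝 (mt m0.C' C j i z)] m0.P.u j := by
      filter_upwards [(m0.C'.e j).open_target.mem_nhds (Cmp.mt_mem hj).1] with y hy
      exact hA0' j y hy
    refine ⟨a, ?_⟩
    rw [hev.fderiv_eq, hA0' j _ (Cmp.mt_mem hj).1]
    exact ha
  obtain ⟨K, h1, h2, h3⟩ := TI.exists_lift hY hA D (fun t => (hcl t (M t) (hM t)).1) him
    (fun t => (hcl t (M t) (hM t)).2) 0 H0 hJ hA0
  refine ⟨K, h1, h2, fun t => ⟨M t, hM t, rfl, ?_, (h3 t).2⟩⟩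
  exact ajm_cxOf m0.cmp (hcx t) (h3 t).1

end fam

end

end Crest.Agent.R281.Lf_830
end

-- ▼ part R281/Lf2_830
section

/-!
# Row 281, DIV 2, LIFT (helper830), part 2: helper581's `LiftS`
-/

set_option autoImplicit false
set_option maxSynthPendingDepth 3
set_option linter.unusedSectionVars false

open Filter Topology Complex Set
open scoped ContDiff

namespace Crest.Agent.R281.Lf_830

open Crest.Agent.R281.HkR_835 Crest.Agent.R281.Ehr2_268 Crest.Agent.R281.Dif_268
open Crest.Agent.R281.Ehr4_268 Crest.Agent.R281.CL_473 Crest.Agent.R281.Ehr6_268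
open Crest.Agent.R281.Cdr_234 Crest.Agent.R281.Ehr7_268 Crest.Agent.R281.Phl_655
open Crest.Agent.R281.Ehr8_268 Crest.Agent.R281.Ehp_461 Crest.Agent.R281.Ehj_461
open Crest.Agent.R281.Pe_313 (CxOf IRel)
open Crest.Agent.R281.Al_830 Crest.Agent.R281.NefO_476 Crest.Agent.R281.Nef_252
open Crest.Agent.R281.Tt_476 Crest.Agent.R281.Alg_998 Crest.Agent.R281.Cus_581

noncomputable section

universe uq

variable {V X : Type} [NormedAddCommGroup V] [NormedSpace ℝ V] [TopologicalSpace X]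
  [FiniteDimensional ℝ V] {H : Type} [NormedAddCommGroup H] [NormedSpace ℂ H]
  [FiniteDimensional ℂ H] {C : RCh V X}
variable [CompactSpace X] [T2Space X] {Q : Type uq} [TopologicalSpace Q] {E : Type}
  [NormedAddCommGroup E] [NormedSpace ℂ E] {F : QFam Q E H}
variable [MeasurableSpace V] [BorelSpace V] {μ : MeasureTheory.Measure V}
  [μ.IsAddHaarMeasure] [ConnectedSpace X] {n : ℕ}
  {b : Module.Basis (Fin (n + n) × Fin 2) ℝ V} {P : Ti_846.RPart C} {q : QuadraticForm ℝ (F2 C)}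
  {κ : Type} [Fintype κ] [DecidableEq κ] {b' : Module.Basis κ ℝ V}
  {Qf : F2 C →ₗ[ℝ] F2 C →ₗ[ℝ] ℝ}

/-- the pointwise input of LIFT: at every marking of a class with period `τ` the forms of the
family are hyperkaehler data (`HD`), with the classes `A` and `z σ_τ` -/
def PointAt (omF reF imF : QBF F) (Fr : Frm C Qf) (A : F2 C)
    (Pp : (ls F C).Tot → ℂ → Prop) : Prop :=
  ∀ (x : (ls F C).Tot) (τ : ℂ), Pp x τ → 0 < τ.im ∧ ∀ m : Mark F C, (MQ.mk m : MQ F C) = x →
    (∃ hcx : m.P.Cx, HD (ajm m.cmp m.P hcx) (omF.form m) (reF.form m) (imF.form m)) ∧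
    Cl (omF.form m) A ∧ PerAt Fr (reF.form m) (imF.form m) τ

/-- **LIFT** in the form of helper581 -/
theorem liftS_of (TI : TopI μ b P q) (hY : YauVar C b') {Fr : Frm C Qf} {A : F2 C}
    (hA : 0 < q A) {omF reF imF : QBF F} {Pp : (ls F C).Tot → ℂ → Prop}
    (hp : PointAt omF reF imF Fr A Pp) : LiftS F Fr A Pp := by
  intro c τ T0 hc hs _ hpp h0
  obtain ⟨h1, m0, h2, h3⟩ := h0
  obtain ⟨K, k1, k2, k3⟩ := lift_marks TI hY hA omF reF imF hc hs
    (fun t => (hp _ _ (hpp t)).1) (fun t m hm => ((hp _ _ (hpp t)).2 m hm).1)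
    (fun t m hm => ((hp _ _ (hpp t)).2 m hm).2) m0 h2 T0 h3 h1.om0
  refine ⟨K, k1, k2, fun t => ?_⟩
  obtain ⟨m, e1, -, e3, e4⟩ := k3 t
  exact ⟨e4, m, e1, e3⟩

end

end Crest.Agent.R281.Lf_830
end

-- ▼ part R281/Yv9_900
section

/-!
# Row 281, YAU-VAR (helper900), part 9: the T-formula

`tSt : TH b D u0 k0 T p0 → TSt b B D u0 k0 p0`
-/

set_option autoImplicit false
set_option maxSynthPendingDepth 3
set_option linter.unusedSectionVars false

open Set Filter Topology Metric Complex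
open scoped ContDiff ComplexOrder

namespace Crest.Agent.R281.Yv_900

open Crest.Agent.R275.Geo Crest.Agent.R275.Core144 Crest.Agent.R275.EDR890
open Crest.Agent.R273.Defs_333 Crest.Agent.R273.Kah_333 Crest.Agent.R273.Hess_333
open Crest.Agent.R273.YauDefs_635 Crest.Agent.R273.SchF_152 Crest.Agent.R273.SchG_152
open Crest.Agent.R273.SchH_152
open Crest.Agent.R260.ACM_580 Crest.Agent.R281.HkR_835 Crest.Agent.R281.NefO_476
open Crest.Agent.R281.Nef_252 Crest.Agent.R281.Hjs_680 Crest.Agent.R281.Tt_476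

noncomputable section

variable {n : ℕ} {X : Type} [TopologicalSpace X] {A : Atl n X}

theorem re_hb_I (G : Matrix (Fin n) (Fin n) ℂ) (u v : Cn n) :
    (I * hb G u (I • v)).re = (hb G u v).re := by
  rw [hb_I_right]
  have : I * (-I * hb G u v) = hb G u v := by linear_combination (-hb G u v) * I_mul_I
  rw [this]

variable {ι : Type} [Fintype ι] [DecidableEq ι] (b : Module.Basis ι ℝ (Cn n)) (B : Cb A)
  {P : Type} [NormedAddCommGroup P] [NormedSpace ℝ P] {D : P → Dat (ofAtl A)} {u0 : X → ℝ}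
  {k0 : ℝ} {T : Set P} {p0 : P}

/-- the linear part of the operator at `p0` is the complex Hessian -/
theorem lin_hess (hJ : ∀ i, ∀ z ∈ (A.e i).target, ∀ v, (D p0).J.J i z v = I • v) (w : SmE A)
    {i : A.ι} {z : Cn n} (hz : z ∈ (A.e i).target) (a c : Cn n) :
    c2 ((D p0).J.J i) a c z (fderiv ℝ (fderiv ℝ (inC A i w)) z) +
      c1 ((D p0).J.J i) a c z (fderiv ℝ (inC A i w) z) =
      (hb ((4 : ℂ) • hess (inC A i w) z) a c).re := by
  have hw : Sm (ofAtl A) w.1 := w.2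
  have h1 : (D p0).J.J i =ᶠ[𝓝 z] (jA A).J i := by
    filter_upwards [(A.e i).open_target.mem_nhds hz] with y hy
    ext1 v
    exact hJ i y hy v
  have e1 := ddc_hess (A := A) hw (i := i) hz a (I • c)
  rw [ddc_w (jA A) w.1 hw (i := i) hz, re_hb_I] at e1
  rw [← ddcF_eq]
  refine Eq.trans ?_ e1
  rw [hJ i z hz c]
  unfold ddcF
  rw [h1.fderiv_eq, h1.self_of_nhds]
  rfl

/-- the Kähler metric of `om + dd^c u0` -/
theorem exists_kah (hJ : ∀ i, ∀ z ∈ (A.e i).target, ∀ v, (D p0).J.J i z v = I • v)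
    (hs : SolMA b (D p0) u0) : ∃ K : Kah A, ∀ i, ∀ z ∈ (A.e i).target, ∀ a c,
      bt D u0 i p0 z a c = (hb (K.g i ((A.e i).symm z)) a c).re := by
  set w' : F2 (ofAtl A) := (D p0).om + ddc (D p0).J u0 hs.sm with hw'
  have ht0 : Crest.Agent.R281.Nef_252.T11 (D p0).J w' := hs.t11.add (ddc_T11 hs.cx u0 hs.sm)
  have ht : ∀ i, ∀ z ∈ (A.e i).target, ∀ u v, w'.w i z (I • u) (I • v) = w'.w i z u v := by
    intro i z hz u v
    rw [← hJ i z hz, ← hJ i z hz]
    exact ht0 i z hz u v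
  have hval : ∀ i, ∀ z ∈ (A.e i).target, (w'.k11 ht).f2.w i z = w'.w i z := fun i z hz =>
    F2.k11_f2 w' ht hz
  have hp : Pos (jA A) (w'.k11 ht).f2 := fun i z hz v hv => by
    rw [hval i z hz, jA_J, ← hJ i z hz]
    exact hs.pos i z hz v hv
  refine ⟨(w'.k11 ht).kah ((pos_f2 _).1 hp), fun i z hz a c => ?_⟩
  rw [← bt_eq hs.sm hz, ← re_hb_I]
  show w'.w i z a ((D p0).J.J i z c) = (I * hb ((w'.k11 ht).g i ((A.e i).symm z)) a (I • c)).re
  rw [← K11.f2_w _ hz, hval i z hz, hJ i z hz]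

/-- **T-FORMULA** -/
theorem tSt (h : TH b D u0 k0 T p0) : TSt b B D u0 k0 p0 := by
  obtain ⟨K, hK⟩ := exists_kah b h.hJ h.sol
  refine ⟨K, fun w f hf => ?_⟩
  have hsm : A.Sm u0 := h.sol.sm
  have hGs : ContDiffOn ℝ ∞ (fun q : P × JJ B => GG b B D u0 k0 q.1 q.2) (T ×ˢ univ) :=
    contDiffOn_GG b B u0 k0 h.hT h.hD hsm h.hr
  have hG1 : HasFDerivAt (GG b B D u0 k0 p0) (fderiv ℝ (GG b B D u0 k0 p0) 0) 0 := by
    have h1 : ContDiffAt ℝ ∞ (fun q : P × JJ B => GG b B D u0 k0 q.1 q.2) (p0, 0) :=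
      hGs.contDiffAt ((h.hT.prod isOpen_univ).mem_nhds ⟨h.hp, mem_univ _⟩)
    have h2 : ContDiffAt ℝ ∞ (fun x : JJ B => GG b B D u0 k0 p0 x) 0 :=
      ContDiffAt.comp (g := fun q : P × JJ B => GG b B D u0 k0 q.1 q.2)
        (f := fun x : JJ B => (p0, x)) (0 : JJ B) h1 (contDiffAt_const.prodMk contDiffAt_id)
    exact (h2.differentiableAt (by simp)).hasFDerivAt
  funext k
  refine Hol.ext fun z hz => ?_
  have hzt := KK_sub B k hz
  set i := B.i k with hi
  set x := (A.e i).symm z with hx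
  have hxs : x ∈ (A.e i).source := (A.e i).map_target hzt
  -- the derivative along the line
  have e1 : HasDerivAt (fun s : ℝ => GG b B D u0 k0 p0 (s • jj B w))
      (fderiv ℝ (GG b B D u0 k0 p0) 0 (jj B w)) 0 := by
    have h2 : HasDerivAt (fun s : ℝ => s • jj B w) (jj B w) 0 := by
      simpa using (hasDerivAt_id (0 : ℝ)).smul_const (jj B w)
    exact HasFDerivAt.comp_hasDerivAt_of_eq (0 : ℝ) hG1 h2 (by simp)
  have e2 : HasDerivAt (fun s : ℝ => Hol.fn (GG b B D u0 k0 p0 (s • jj B w) k) z)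
      (Hol.fn (fderiv ℝ (GG b B D u0 k0 p0) 0 (jj B w) k) z) 0 :=
    ((Hol.valL z).comp (ContinuousLinearMap.proj (R := ℝ)
      (φ := fun k : B.κ => Hol (KK B k)) k)).hasFDerivAt.comp_hasDerivAt (0 : ℝ) e1
  -- the values
  have hmat : ∀ s : ℝ, MM b D u0 i p0 z (HF.fn ((s • jj B w) k).2.1 z)
      (HF.fn ((s • jj B w) k).2.2 z) =
      RM b (K.g i x) + s • RM b ((4 : ℂ) • hess (inC A i w) z) := by
    intro s
    have a1 : HF.fn ((s • jj B w) k).2.1 z = s • fderiv ℝ (inC A i w) z := by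
      rw [← fn_jj1 B w k hz]
      exact HF.fn_smul s _ z
    have a2 : HF.fn ((s • jj B w) k).2.2 z = s • fderiv ℝ (fderiv ℝ (inC A i w)) z := by
      rw [← fn_jj2 B w k hz]
      exact HF.fn_smul s _ z
    rw [a1, a2]
    ext a c
    show bt D u0 i p0 z (b a) (b c) + (c2 ((D p0).J.J i) (b a) (b c) z _ +
      c1 ((D p0).J.J i) (b a) (b c) z _) = (hb (K.g i x) (b a) (b c)).re +
        s * (hb ((4 : ℂ) • hess (inC A i w) z) (b a) (b c)).re
    rw [hK i z hzt, map_smul, map_smul, ← smul_add, lin_hess h.hJ w hzt, smul_eq_mul]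
  have hdet : (RM b (K.g i x)).det = k0 * (D p0).r.r i z := by
    rw [← h.eq i z hzt]
    have := hmat 0
    rw [zero_smul, zero_smul, add_zero] at this
    rw [← this]
    have a1 : HF.fn ((0 : JJ B) k).2.1 z = 0 := HF.fn_zero z
    have a2 : HF.fn ((0 : JJ B) k).2.2 z = 0 := HF.fn_zero z
    rw [a1, a2]
  have hpd : (K.g i x).PosDef := K.pos i x hxs
  have e3 : HasDerivAt (fun s : ℝ => Hol.fn (GG b B D u0 k0 p0 (s • jj B w) k) z)
      (2 * (((K.g i x)⁻¹ * ((4 : ℂ) • hess (inC A i w) z)).trace).re) 0 := by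
    refine (hasDerivAt_RM b hpd.det_pos.ne' ((4 : ℂ) • hess (inC A i w) z)).congr_of_eventuallyEq
      (Eventually.of_forall fun s => ?_)
    show Hol.fn (GG b B D u0 k0 p0 (s • jj B w) k) z = _
    rw [fn_GG b B u0 k0 h.hT h.hD hsm h.hr k h.hp _ hz, ← hi, hmat s, hdet]
    exact (div_eq_mul_inv _ _).symm
  rw [e2.unique e3, fn_hh B _ k hz]
  have e4 := hf i z hzt
  rw [gi, ← hx, Crest.Agent.R273.YauMax_635.cH_eq_hess (Crest.Agent.R273.YauMax_635.inC_contDiffAt w.2 i hzt)] at e4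
  show _ = 8 * inC A i f.1 z
  rw [← e4, Matrix.mul_smul, Matrix.trace_smul, smul_eq_mul]
  simp only [Complex.mul_re, Complex.re_ofNat, Complex.im_ofNat]
  ring

end

end Crest.Agent.R281.Yv_900
end

-- ▼ part R281/Yv11_900

/-!
# Row 281, YAU-VAR (helper900), part 11: **YAU-VAR**

* `tForm`   : the T-formula for all families
* `v0_MA`   : `V0 C (SolMA b)`: smoothness in the parameters of normalised solutions
* `js_MA`   : **joint smoothness** of normalised solutions of the Monge-Ampère equation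
* `yauVar`  : `Al_830.YauVar C b`: existence of jointly smooth families of solutions
-/

set_option autoImplicit false
set_option maxSynthPendingDepth 3
set_option linter.unusedSectionVars false

open Set Filter Topology Metric
open scoped ContDiff

namespace Crest.Agent.R281.Yv_900

open Crest.Agent.R275.Geo Crest.Agent.R275.Core144 Crest.Agent.R275.EDR890
open Crest.Agent.R260.ACM_580 Crest.Agent.R281.HkR_835 Crest.Agent.R281.NefO_476
open Crest.Agent.R281.Nef_252 Crest.Agent.R281.Hjs_680 Crest.Agent.R281.Tt_476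

noncomputable section

/-- the T-formula -/
theorem tForm (X : Type) [TopologicalSpace X] : Ly3_457.TForm X := by
  intro n A ι _ _ b P _ _ _ T D B u0 k0 p0 h
  exact tSt b B h

variable {V X : Type} [NormedAddCommGroup V] [NormedSpace ℝ V] [TopologicalSpace X]
  {C : RCh V X} {κ : Type} [Fintype κ] [DecidableEq κ] [FiniteDimensional ℝ V]
  [MeasurableSpace V] [BorelSpace V] [CompactSpace X] [T2Space X] [ConnectedSpace X]

/-- **V0** -/
theorem v0_MA (b : Module.Basis κ ℝ V) : V0 C (SolMA (C := C) b) := Ly3_457.v0_of (tForm X) b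


/-- **YAU-VAR with existence** -/
theorem yauVar [CompleteSpace V] (b : Module.Basis κ ℝ V) : Al_830.YauVar C b := Al_830.yauVar_of_V0 b (v0_MA b)

end

end Crest.Agent.R281.Yv_900
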